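import Crest.Agent.R143.Grid_991
import Crest.Agent.R143.Disc_683

/-!
# Row 143 (S0194): the component of good bricks of a three-class net (helper991)

* `steps_tr` : in a three-class net whose hull sites are outside `closedBall x0 R` and whose class
  edges are shorter than `t`, every class site is joined to the outside by steps of length `< t`
* `grid_tr`, `grid_near` : `Gridx991.grid_comp` for `E = Es S A`; hull-dense version: every neighbour
  of the component is at distance `< t` from a class site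
* `lens` : empty discs with centre outside
-/

set_option autoImplicit false

noncomputable section

open scoped Classical

namespace Crest.Agent.R143.GridTx991

open Set
open Crest.Agent.R158
open Crest.Agent.R143.B0x346 Crest.Agent.R143.DelGx806 Crest.Agent.R143.DelRx806
  Crest.Agent.R143.JColx54 Crest.Agent.R143.RE0x723 Crest.Agent.R143.K33x877
open Crest.Agent.R143.Brkx478 Crest.Agent.R143.Gridx991
open Crest.Agent.R143.Tenx416 (Pg)
open Crest.Agent.R143.Discx683 (Es mem_Es cls_Es)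

variable {S : Finset ℂ} {A : ZMod 3 → Set ℂ} {s t R L κ ρ : ℝ} {x0 p : ℂ}

/-- **class sites are joined to the outside by short steps** -/
theorem steps_tr (h : Tr S A)
    (hm : ∀ u ∈ Es S A, ∀ v ∈ Es S A, Adj S u v → ‖u - v‖ < t)
    (hh : ∀ a b, hullE S a b → R < ‖a - x0‖ ∧ R < ‖b - x0‖) :
    ∀ e ∈ ((Es S A : Finset ℂ) : Set ℂ), ∃ e', R < ‖e' - x0‖ ∧
      Relation.ReflTransGen (Stp ((Es S A : Finset ℂ) : Set ℂ) t) e e' := by
  intro e he
  obtain ⟨-, i, hei⟩ := mem_Es.1 (Finset.mem_coe.1 he)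
  have hij : i ≠ i + 1 := by
    intro h'
    have : (1 : ZMod 3) = 0 := by
      have := congrArg (fun x => x - i) h'
      simpa using this.symm
    exact absurd this (by decide)
  obtain ⟨a, b, hab, ha, -, -⟩ := h.one i (i + 1) hij
  have hRa : R < ‖a - x0‖ := by
    rcases hab with h' | h'
    · exact (hh a b h').1
    · exact (hh b a h').2
  refine ⟨a, hRa, ?_⟩
  have hp := h.con i e hei a ha
  have key : ∀ y, Relation.ReflTransGen (fun u v => Adj S u v ∧ v ∈ A i) e y →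
      y ∈ A i ∧ Relation.ReflTransGen (Stp ((Es S A : Finset ℂ) : Set ℂ) t) e y := by
    intro y hy
    induction hy with
    | refl => exact ⟨hei, .refl⟩
    | @tail u v _ h5 ih =>
      have hu : u ∈ Es S A := cls_Es h ih.1
      have hv : v ∈ Es S A := cls_Es h h5.2
      exact ⟨h5.2, ih.2.tail ⟨Finset.mem_coe.2 hu, Finset.mem_coe.2 hv, hm u hu v hv h5.1⟩⟩
  exact (key a hp.2).2

/-- **GRID for a three-class net** -/
theorem grid_tr (h : Tr S A) (hs : 0 < s) (ht : 0 < t) (hR : 0 ≤ R)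
    (hm : ∀ u ∈ Es S A, ∀ v ∈ Es S A, Adj S u v → ‖u - v‖ < t)
    (hh : ∀ a b, hullE S a b → R < ‖a - x0‖ ∧ R < ‖b - x0‖)
    (hd : ∀ z : ℂ, R < ‖z - x0‖ → ‖z - x0‖ ≤ R + 3 * s → ∃ e ∈ Es S A, ‖z - e‖ < t)
    {b0 : Bk} (hb0 : b0 ∈ Gd s t ((Es S A : Finset ℂ) : Set ℂ) x0 R) :
    ∃ U : Finset Bk, (U : Set Bk) = comp (Gd s t ((Es S A : Finset ℂ) : Set ℂ) x0 R) b0 ∧
      Conn (U : Set Bk) ∧ Conn (U : Set Bk)ᶜ ∧ b0 ∈ U ∧
      (∀ b ∈ U, ∀ z ∈ tl s b, (∀ e ∈ Es S A, t ≤ ‖z - e‖) ∧ ‖z - x0‖ ≤ R) ∧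
      (∀ b ∈ U, ∀ c ∉ U, Nb b c → ∃ z ∈ tl s c, ∃ e ∈ Es S A, ‖z - e‖ < t) := by
  obtain ⟨U, h1, h2, h3, h4, h5, h6⟩ := grid_comp hs ht hR (steps_tr h hm hh) hb0
  refine ⟨U, h1, h2, h3, h4, fun b hb z hz => ⟨fun e he => (h5 b hb z hz).1 e
    (Finset.mem_coe.2 he), (h5 b hb z hz).2⟩, fun b hb c hc hbc => ?_⟩
  obtain ⟨z, hz, ⟨e, he, h7⟩ | h7⟩ := h6 b hb c hc hbc
  · exact ⟨z, hz, e, Finset.mem_coe.1 he, h7⟩
  · -- the neighbouring tiles have a common point
    obtain ⟨w, hw, hw'⟩ := nb_meet hs hbc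
    have h8 := (h5 b hb w hw).2
    have h9 := tl_dist hs hz hw'
    have h10 : ‖z - x0‖ ≤ ‖z - w‖ + ‖w - x0‖ := by
      have := norm_add_le (z - w) (w - x0)
      rwa [sub_add_sub_cancel] at this
    obtain ⟨e, he, h11⟩ := hd z h7 (by linarith)
    exact ⟨z, hz, e, he, h11⟩

/-- two discs which overlap by `κ` -/
theorem lens (hL : 0 ≤ L) (hD : L + ρ - κ ≤ ‖p - x0‖) (h0 : p ≠ x0) :
    ∃ y : ℂ, ‖y - x0‖ = L ∧ ∀ z : ℂ, ‖z - x0‖ ≤ L → ‖z - p‖ ≤ ρ → ‖z - y‖ ^ 2 ≤ 2 * L * κ := by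
  have hD0 : 0 < ‖p - x0‖ := norm_pos_iff.2 (sub_ne_zero.2 h0)
  set D := ‖p - x0‖ with hDd
  set e : ℂ := (p - x0) / (D : ℂ) with he
  have hDc : (D : ℂ) ≠ 0 := by exact_mod_cast hD0.ne'
  have he1 : ‖e‖ = 1 := by
    rw [he, norm_div, Complex.norm_real, Real.norm_of_nonneg hD0.le, ← hDd, div_self hD0.ne']
  have hp : p - x0 = (D : ℂ) * e := by rw [he]; field_simp
  refine ⟨x0 + (L : ℂ) * e, ?_, ?_⟩
  · rw [add_sub_cancel_left, norm_mul, he1, Complex.norm_real, Real.norm_of_nonneg hL, mul_one]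
  · intro z hz hzp
    set w : ℂ := (z - x0) * (starRingEnd ℂ) e with hw
    have hee : e * (starRingEnd ℂ) e = 1 := by
      rw [Complex.mul_conj, Complex.normSq_eq_norm_sq, he1]; norm_num
    have hzw : z - x0 = w * e := by
      rw [hw, mul_assoc, mul_comm ((starRingEnd ℂ) e) e, hee, mul_one]
    have h1 : ‖w‖ ≤ L := by
      have : ‖z - x0‖ = ‖w‖ := by rw [hzw, norm_mul, he1, mul_one]
      rw [← this]; exact hz
    have h2 : ‖w - (D : ℂ)‖ ≤ ρ := by
      have : z - p = (w - (D : ℂ)) * e := by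
        have : z - p = (z - x0) - (p - x0) := by ring
        rw [this, hzw, hp]; ring
      rw [this, norm_mul, he1, mul_one] at hzp
      exact hzp
    have h3 : z - (x0 + (L : ℂ) * e) = (w - (L : ℂ)) * e := by
      have : z - (x0 + (L : ℂ) * e) = (z - x0) - (L : ℂ) * e := by ring
      rw [this, hzw]; ring
    rw [h3, norm_mul, he1, mul_one]
    have h4 : D - ρ ≤ w.re := by
      have h5 := (Complex.abs_re_le_norm (w - (D : ℂ))).trans h2
      rw [Complex.sub_re, Complex.ofReal_re, abs_le] at h5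
      linarith [h5.1]
    have h5 : ‖w‖ ^ 2 ≤ L ^ 2 := by
      have := norm_nonneg w
      nlinarith
    have h6 : ‖w‖ ^ 2 = w.re ^ 2 + w.im ^ 2 := by
      rw [← Complex.normSq_eq_norm_sq, Complex.normSq_apply]; ring
    have h7 : ‖w - (L : ℂ)‖ ^ 2 = (w.re - L) ^ 2 + w.im ^ 2 := by
      rw [← Complex.normSq_eq_norm_sq, Complex.normSq_apply, Complex.sub_re, Complex.sub_im,
        Complex.ofReal_re, Complex.ofReal_im]
      ring
    rw [h7]
    nlinarith

/-- **an empty disc has its centre well inside, or it is a lens of diameter `√(8 L κ)`** -/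
theorem disc_or_lens {E : Set ℂ} (hL : 0 ≤ L)
    (hd : ∀ y, ‖y - x0‖ = L → ∃ e ∈ E, ‖e - y‖ ≤ κ) (hB : ∀ e ∈ E, ρ ≤ ‖p - e‖) :
    ‖p - x0‖ ≤ L - ρ + κ ∨ ∃ y, ‖y - x0‖ = L ∧
      ∀ z, ‖z - x0‖ ≤ L → ‖z - p‖ ≤ ρ → ‖z - y‖ ^ 2 ≤ 2 * L * κ := by
  by_cases hp : p = x0
  · left
    obtain ⟨e, he, h1⟩ := hd (x0 + (L : ℂ)) (by
      rw [add_sub_cancel_left, Complex.norm_real, Real.norm_of_nonneg hL])
    have h2 := hB e he
    have h5 := norm_sub_le_norm_sub_add_norm_sub p (x0 + (L : ℂ)) e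
    rw [norm_sub_rev (x0 + (L : ℂ)) e, hp, sub_add_cancel_left, norm_neg, Complex.norm_real,
      Real.norm_of_nonneg hL] at h5
    rw [hp] at h2
    rw [hp, sub_self, norm_zero]
    linarith
  · have hD0 : 0 < ‖p - x0‖ := norm_pos_iff.2 (sub_ne_zero.2 hp)
    set q : ℂ := x0 + ((L / ‖p - x0‖ : ℝ) : ℂ) * (p - x0) with hq
    obtain ⟨e, he, h1⟩ := hd q (by
      rw [hq, add_sub_cancel_left, norm_mul, Complex.norm_real, Real.norm_of_nonneg (by positivity)]
      field_simp)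
    have h2 := hB e he
    have h3 : ‖p - q‖ = |‖p - x0‖ - L| := by
      have : p - q = ((1 - L / ‖p - x0‖ : ℝ) : ℂ) * (p - x0) := by rw [hq]; push_cast; ring
      rw [this, norm_mul, Complex.norm_real, Real.norm_eq_abs]
      nth_rewrite 2 [← abs_of_pos hD0]
      rw [← abs_mul]
      congr 1
      field_simp
    have h4 : ‖p - e‖ ≤ |‖p - x0‖ - L| + κ := by
      have h5 := norm_sub_le_norm_sub_add_norm_sub p q e
      rw [h3, norm_sub_rev q e] at h5
      linarith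
    rcases le_total ‖p - x0‖ L with h5 | h5
    · left
      rw [abs_of_nonpos (by linarith)] at h4
      linarith
    · right
      rw [abs_of_nonneg (by linarith)] at h4
      exact lens hL (by linarith) hp

end Crest.Agent.R143.GridTx991
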