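import Crest.Agent.R143.K7_359
import Crest.Agent.R143.GridT_991
import Crest.Agent.R143.D4L_408

/-!
# Row 143 (S0194), CONT, (K7): GRID (helper359, on 991's Grid)

* `tile_eq`, `far` : two bricks at sup distance `< s` are equal or neighbours
* `adj_lt`, `hull_out` : Delaunay edges `< s`; hull sites at distance `≥ L - 2 d` from the centre
* `bad_site`, `bad_out`, `bad_cases` : bad bricks
* `conn_bad` : the bad bricks are connected
* **`grid : GRID`**
-/

set_option autoImplicit false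

noncomputable section

open scoped Classical

namespace Crest.Agent.R143.Grdx359

open Set
open Crest.Agent.R143.K7Dx359 Crest.Agent.R143.K7x359
open Crest.Agent.R143.B0x346 (hullE cr)
open Crest.Agent.R143.DelRx806
open Crest.Agent.R143.JColx54 (Adj)
open Crest.Agent.R143.RE0x723 (Pth)
open Crest.Agent.R143.K33x877 (Tr fr CtrT CtrX)
open Crest.Agent.R143.Brkx478 (Bk Nb Conn cells Cn)
open Crest.Agent.R143.Tenx416 (Pg)
open Crest.Agent.R143.DomAx722 (Dns)
open Crest.Agent.R143.Gridx991 (tl mem_tl pg_eq exists_tl tl_nb int_bd comp comp_sub self_comp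
  comp_conn comp_nb comp_conn' conn_meet fin_meet out_join)

variable {S : Finset ℂ} {A A' : ZMod 3 → Set ℂ} {x0 : ℂ} {L d s C : ℝ} {b c : Bk} {z w : ℂ}

theorem tile_eq : tile s b = tl s b := by
  unfold tile
  rw [pg_eq]
  simp

/-- **bricks at sup distance `< s` are equal or neighbours** -/
theorem far (hs : 0 < s) (hz : z ∈ tl s b) (hw : w ∈ tl s c) (h1 : |z.re - w.re| < s)
    (h2 : |z.im - w.im| < s) : b = c ∨ Nb b c := by
  rw [mem_tl hs] at hz hw
  rw [abs_lt] at h1 h2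
  obtain ⟨b1, b2, b3, b4⟩ := hz
  obtain ⟨c1, c2, c3, c4⟩ := hw
  have key : ∀ {m m' : ℤ} {k : ℕ}, s * (m : ℝ) < s * (m' + k + 1) → m - m' ≤ k := by
    intro m m' k h
    have h3 : (m : ℝ) < m' + k + 1 := lt_of_mul_lt_mul_left h hs.le
    have h4 : m < m' + k + 1 := by exact_mod_cast h3
    omega
  have e1 : (2 * b.1 + b.2) - (2 * c.1 + c.2) ≤ (2 : ℕ) := key (by push_cast; nlinarith)
  have e2 : (2 * c.1 + c.2) - (2 * b.1 + b.2) ≤ (2 : ℕ) := key (by push_cast; nlinarith)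
  have e3 : b.2 - c.2 ≤ (1 : ℕ) := key (by push_cast; nlinarith)
  have e4 : c.2 - b.2 ≤ (1 : ℕ) := key (by push_cast; nlinarith)
  push_cast at e1 e2 e3 e4
  by_cases hbc : b = c
  · exact Or.inl hbc
  · right
    rw [Crest.Agent.R143.Brkx478.nb_iff]
    have : ¬ (b.1 = c.1 ∧ b.2 = c.2) := fun h => hbc (Prod.ext h.1 h.2)
    omega

theorem far' (hs : 0 < s) (hz : z ∈ tl s b) (hw : w ∈ tl s c) (h : ‖z - w‖ < s) :
    b = c ∨ Nb b c :=
  far hs hz hw (by rw [← Complex.sub_re]; exact (Complex.abs_re_le_norm _).trans_lt h)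
    (by rw [← Complex.sub_im]; exact (Complex.abs_im_le_norm _).trans_lt h)

/-! ### scales -/

theorem _root_.Crest.Agent.R143.K7Dx359.Stg.dpos (h : Stg S A x0 L d s) : 0 < d := h.dns.dpos

theorem _root_.Crest.Agent.R143.K7Dx359.Stg.Lpos (h : Stg S A x0 L d s) : 0 < L := by
  have := h.dns.dL
  have := h.dns.dpos
  linarith

theorem _root_.Crest.Agent.R143.K7Dx359.Stg.d_le (h : Stg S A x0 L d s) : d ≤ √(L * d) := by
  have h1 := h.dns.dL
  have h2 := h.dns.dpos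
  refine Real.le_sqrt_of_sq_le ?_
  nlinarith

theorem _root_.Crest.Agent.R143.K7Dx359.Stg.spos (h : Stg S A x0 L d s) : 0 < s := by
  have h1 := h.d_le
  have h2 := h.dns.dpos
  have h3 := h.scl
  linarith

theorem _root_.Crest.Agent.R143.K7Dx359.Stg.ds (h : Stg S A x0 L d s) : 2 ^ 20 * d ≤ s := by
  have h1 := h.d_le
  have h3 := h.scl
  linarith

/-- Delaunay edges are short -/
theorem _root_.Crest.Agent.R143.K7Dx359.Stg.adj (h : Stg S A x0 L d s) {x y : ℂ} (hxy : Adj S x y) : ‖x - y‖ < s / 1000 := by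
  have h1 := Crest.Agent.R143.D4Lx408.adj_len h.dns (D4Ux408.adj_iff.2 hxy)
  have h2 := h.scl
  have h3 : 0 < √(L * d) := lt_of_lt_of_le h.dpos h.d_le
  linarith

/-- the hull sites are near the circle -/
theorem _root_.Crest.Agent.R143.K7Dx359.Stg.hull_out (h : Stg S A x0 L d s) {a a' : ℂ} (ha : hullE S a a') :
    L - 2 * d ≤ ‖a - x0‖ ∧ L - 2 * d ≤ ‖a' - x0‖ := by
  have hne : 0 < ‖a' - a‖ := norm_pos_iff.2 (sub_ne_zero.2 (hullE.ne ha).symm)
  have h1 := DomAx722.edge_dist h.dns ha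
  constructor
  · have h2 := DomAx722.cr_le (a' - a) (x0 - a)
    rw [norm_sub_rev x0 a] at h2
    have h3 := h1.trans h2
    rw [mul_comm] at h3
    exact le_of_mul_le_mul_left h3 hne
  · have e : cr (a' - a) (x0 - a) = cr (a' - a) (x0 - a') := by
      unfold cr
      simp only [Complex.sub_re, Complex.sub_im]
      ring
    rw [e] at h1
    have h2 := DomAx722.cr_le (a' - a) (x0 - a')
    rw [norm_sub_rev x0 a'] at h2
    have h3 := h1.trans h2
    rw [mul_comm] at h3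
    exact le_of_mul_le_mul_left h3 hne

/-! ### bad bricks -/

theorem bad_site (hs : 0 < s) {i : ZMod 3} {e : ℂ} (he : e ∈ A i) (hz : z ∈ tl s c)
    (h : ‖z - e‖ < s) : c ∉ Gd A x0 L s := by
  obtain ⟨b, hb⟩ := exists_tl hs e
  intro hc
  have h1 : b = c ∨ Nb c b := by
    rcases far' hs hz hb h with h2 | h2
    · exact Or.inl h2.symm
    · exact Or.inr h2
  exact (hc b h1).2 i e he (tile_eq ▸ hb)

theorem bad_out (hz : z ∈ tl s c) (h : L - 2 * s < ‖z - x0‖) : c ∉ Gd A x0 L s := by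
  intro hc
  have := (hc c (Or.inl rfl)).1 z (tile_eq ▸ hz)
  linarith

theorem bad_cases (h : c ∉ Gd A x0 L s) : ∃ c', (c' = c ∨ Nb c c') ∧
    ((∃ z ∈ tl s c', L - 2 * s < ‖z - x0‖) ∨ ∃ i, ∃ e ∈ A i, e ∈ tl s c') := by
  by_contra hcon
  push Not at hcon
  refine h fun b hb => ?_
  obtain ⟨h1, h2⟩ := hcon b hb
  rw [tile_eq]
  exact ⟨h1, h2⟩

theorem nb_bad {c' : Bk} (h1 : (∃ z ∈ tl s c', L - 2 * s < ‖z - x0‖) ∨ ∃ i, ∃ e ∈ A i, e ∈ tl s c') :
    c' ∉ Gd A x0 L s := by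
  rcases h1 with ⟨z, hz, h⟩ | ⟨i, e, he, h⟩
  · exact bad_out hz h
  · intro hc
    exact (hc c' (Or.inl rfl)).2 i e he (tile_eq ▸ h)

/-- **the bad bricks are connected** -/
theorem conn_bad (h : Stg S A x0 L d s) : Conn (Gd A x0 L s)ᶜ := by
  have hs := h.spos
  have hd := h.dpos
  have hds := h.ds
  have hsL := h.sL
  have hL0 : 0 ≤ L - 2 * s := by linarith
  set B := (Gd A x0 L s)ᶜ with hB
  have j1 : ∀ i, ∀ e ∈ A i, ∀ b c, (tl s b ∩ Metric.ball e s).Nonempty →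
      (tl s c ∩ Metric.ball e s).Nonempty → Cn B b c := fun i e he b c h1 h2 =>
    conn_meet hs (convex_ball e s).isPreconnected Metric.isBounded_ball
      (fun b' ⟨z, hz, hze⟩ => bad_site hs he hz (by rwa [Metric.mem_ball, dist_eq_norm] at hze)) h1 h2
  have j2 : ∀ b c, (∃ z ∈ tl s b, L - 2 * s < ‖z - x0‖) → (∃ z ∈ tl s c, L - 2 * s < ‖z - x0‖) →
      Cn B b c := by
    rintro b c ⟨z, hz, h1⟩ ⟨w, hw, h2⟩
    obtain ⟨C, c1, c2, c3, c4, c5⟩ := out_join hL0 h1 h2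
    exact conn_meet hs c1 c2 (fun b' ⟨y, hy, hyC⟩ => bad_out hy (c5 y hyC)) ⟨z, hz, c3⟩
      ⟨w, hw, c4⟩
  -- every class site is joined to the outside
  have j3 : ∀ i, ∀ e ∈ A i, ∀ b, e ∈ tl s b → ∃ c, Cn B b c ∧ ∃ z ∈ tl s c, L - 2 * s < ‖z - x0‖ := by
    intro i e he b hb
    have hij : i ≠ i + 1 := (by decide : ∀ i : ZMod 3, i ≠ i + 1) i
    obtain ⟨a, a', hab, ha, -, -⟩ := h.tr.one i (i + 1) hij
    have hRa : L - 2 * s < ‖a - x0‖ := by
      rcases hab with h' | h'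
      · have := (h.hull_out h').1; linarith
      · have := (h.hull_out h').2; linarith
    have hp := h.tr.con i e he a ha
    have h4 : ∀ y, Relation.ReflTransGen (fun u v => Adj S u v ∧ v ∈ A i) e y →
        y ∈ A i ∧ ∀ c, y ∈ tl s c → Cn B b c := by
      intro y hy
      induction hy with
      | refl =>
        exact ⟨he, fun c hc => j1 i e he b c ⟨e, hb, Metric.mem_ball_self hs⟩
          ⟨e, hc, Metric.mem_ball_self hs⟩⟩
      | @tail y y' _ h5 ih =>
        obtain ⟨c1, hc1⟩ := exists_tl hs y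
        refine ⟨h5.2, fun c hc => (ih.2 c1 hc1).trans ?_⟩
        refine j1 i y ih.1 c1 c ⟨y, hc1, Metric.mem_ball_self hs⟩ ⟨y', hc, ?_⟩
        rw [Metric.mem_ball, dist_eq_norm, norm_sub_rev]
        have := h.adj h5.1
        linarith
    obtain ⟨c, hc⟩ := exists_tl hs a
    exact ⟨c, (h4 a hp.2).2 c hc, a, hc, hRa⟩
  have key : ∀ b ∈ B, ∃ c, Cn B b c ∧ ∃ z ∈ tl s c, L - 2 * s < ‖z - x0‖ := by
    intro b hb
    obtain ⟨b', h1, h2⟩ := bad_cases hb
    have hb' : b' ∈ B := nb_bad h2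
    have hbb : Cn B b b' := by
      rcases h1 with rfl | h1
      · exact .refl
      · exact Relation.ReflTransGen.single ⟨hb, hb', h1⟩
    rcases h2 with h2 | ⟨i, e, he, h3⟩
    · exact ⟨b', hbb, h2⟩
    · obtain ⟨c, h4, h5⟩ := j3 i e he b' h3
      exact ⟨c, hbb.trans h4, h5⟩
  intro b hb c hc
  obtain ⟨b', h1, h2⟩ := key b hb
  obtain ⟨c', h3, h4⟩ := key c hc
  exact (h1.trans (j2 b' c' h2 h4)).trans (Gridx991.Cn.symm h3)

theorem gd_fin (hs : 0 < s) : (Gd A x0 L s).Finite := by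
  refine (fin_meet hs (C := Metric.closedBall x0 (L - 2 * s)) Metric.isBounded_closedBall).subset ?_
  intro b h
  have hz : (⟨s * (2 * b.1 + b.2), s * b.2⟩ : ℂ) ∈ tl s b := by
    rw [mem_tl hs]
    refine ⟨le_rfl, ?_, le_rfl, ?_⟩
    · show s * (2 * b.1 + b.2) ≤ _
      nlinarith
    · show s * b.2 ≤ _
      nlinarith
  exact ⟨_, hz, by rw [Metric.mem_closedBall, dist_eq_norm]; exact (h b (Or.inl rfl)).1 _ (tile_eq ▸ hz)⟩

theorem bad_ne (hs : 0 < s) : ((Gd A x0 L s)ᶜ).Nonempty := by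
  obtain ⟨b, hb⟩ := exists_tl hs (x0 + (|L| + 1 : ℝ))
  refine ⟨b, bad_out hb ?_⟩
  rw [add_sub_cancel_left, Complex.norm_real, Real.norm_of_nonneg (by positivity)]
  linarith [le_abs_self L]

/-- **GRID** -/
theorem grid : GRID := by
  intro S A x0 L d s h b hb
  have hs := h.spos
  have hfin : (comp (Gd A x0 L s) b).Finite := (gd_fin hs).subset comp_sub
  have hco : ((hfin.toFinset : Finset Bk) : Set Bk) = comp (Gd A x0 L s) b := hfin.coe_toFinset
  have hmem : ∀ c, c ∈ hfin.toFinset ↔ c ∈ comp (Gd A x0 L s) b := fun c => hfin.mem_toFinset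
  refine ⟨hfin.toFinset, ⟨⟨b, (hmem b).2 (self_comp hb)⟩, fun c hc => comp_sub ((hmem c).1 hc), ?_, ?_,
    fun c hc e hce he => ?_⟩, (hmem b).2 (self_comp hb)⟩
  · rw [hco]; exact comp_conn
  · rw [hco]; exact comp_conn' (conn_bad h) (bad_ne hs)
  · rw [hmem] at hc ⊢
    by_contra hcon
    exact comp_nb hc hce hcon he

end Crest.Agent.R143.Grdx359
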