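import Crest.Agent.R143.Harm_802
import Crest.Agent.R143.ArmsE_377
import Crest.Agent.R143.HarmS_496

/-!
# Row 143 (S0194), CONT: the leaf HARM in the literal forms of 377 and 496 (helper802)

* `harm377 : Mabx377.HARM`, `harm496 : HarmSx496.Harm`, `harmOne : HarmSx496.HarmOne`
-/

set_option autoImplicit false

noncomputable section

open scoped Classical

namespace Crest.Agent.R143.HarmZx802

open Crest.Agent.R143.Harx315 Crest.Agent.R143.Harmx802

/-- **HARM** (377) -/
theorem harm377 : Mabx377.HARM := by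
  intro C4 hC4
  obtain ⟨C, c, c2, A, hC, hc, hc2, -, hA, h⟩ := harm C4 hC4
  exact ⟨C, c, c2, A, hC, hc, hc2, hA, fun S x0 L e r R h1 h2 h3 h4 h5 p hp V hV hVh =>
    h S x0 L e r R h1 h2 h3 h4 h5 p hp V hV fun v hv y => (hVh v hv y).1⟩

/-- **HARM** (496) -/
theorem harm496 : HarmSx496.Harm := by
  intro C4 hC4
  obtain ⟨C, c, c2, A, hC, hc, hc2, -, hA, h⟩ := harm C4 hC4
  exact ⟨C, c, c2, A, hC, hc, hc2, hA, fun S x0 L e r R h1 h2 h3 h4 h5 p hp V hV hVh =>
    h S x0 L e r R h1 h2 h3 h4 h5 p hp V hV fun v hv y => (hVh v hv y).1⟩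

/-- **one scale at the hull** (496) -/
theorem harmOne : HarmSx496.HarmOne := by
  intro C4 hC4
  obtain ⟨C, c, c2, A, hC, hc, hc2, hc2', hA, h⟩ := harm C4 hC4
  -- a ratio with bound `1 / 2`
  set K : ℝ := max 1 ((2 * C) ^ (1 / c)) with hK
  have hK1 : 1 ≤ K := le_max_left _ _
  have hKc : C * (1 / K) ^ c ≤ 1 / 2 := by
    have h1 : 2 * C ≤ K ^ c := by
      have h2 : ((2 * C) ^ (1 / c)) ^ c ≤ K ^ c :=
        Real.rpow_le_rpow (by positivity) (le_max_right _ _) hc.le
      rwa [← Real.rpow_mul (by positivity), one_div, inv_mul_cancel₀ hc.ne', Real.rpow_one] at h2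
    have h3 : 0 < K ^ c := Real.rpow_pos_of_pos (by linarith) _
    rw [one_div, Real.inv_rpow (by linarith), ← div_eq_mul_inv, div_le_iff₀ h3]
    linarith
  have hA0 : 0 < A := by linarith
  have hAK : A * K ≤ max 2 (A * K) := le_max_right _ _
  have hAA : A ≤ A * K := by nlinarith
  have hKK : K ≤ A * K := by nlinarith
  refine ⟨1 / 2, c2, max 2 (A * K), by norm_num, by norm_num, hc2, hc2', le_max_left _ _, ?_⟩
  intro S x0 L e r hD hr hrL hM p hp _ V hV hVh
  have hL : 0 < L := by linarith [hD.dL, hD.dpos]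
  have hs : 0 < Real.sqrt (L * e) := Real.sqrt_pos.2 (mul_pos hL hD.dpos)
  have hr1 : A * Real.sqrt (L * e) ≤ r :=
    (mul_le_mul_of_nonneg_right (hAA.trans hAK) hs.le).trans hr
  have hr0 : 0 < r := by nlinarith
  have hKr : K * r ≤ max 2 (A * K) * r := mul_le_mul_of_nonneg_right (hKK.trans hAK) hr0.le
  have h1 := h S x0 L e r (K * r) hD hr1 (by nlinarith) (by
    have := mul_le_mul_of_nonneg_right hAK hr0.le
    rw [← mul_assoc]
    linarith) (fun z hz b hb1 hb2 => hM z hz b hb1 (hb2.trans hKr)) p hp V hV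
    fun v hv y => (hVh v hv y).1
  have h2 : r / (K * r) = 1 / K := by field_simp
  rw [h2] at h1
  refine (pr_mono ?_).trans (h1.trans hKc)
  rintro β - ⟨y, z, hy, hz, q1, q2, q3⟩
  exact ⟨y, z, hy, hz, q1, hKr.trans q2, q3⟩

end Crest.Agent.R143.HarmZx802
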