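import Crest.Agent.R143.FinE_894
import Crest.Agent.R143.HarmZ_802
import Crest.Agent.R143.Hul_755
import Crest.Agent.R143.Grd_359
import Crest.Agent.R143.Comp_54

/-!
# Row 143 (S0194): closed boxes inserted (helper894)

`HarmOne` (802), `PG` (755), `GRID` (359), `COMP` (54) are theorems: what is left is
`LAYER`, `CENT`, `THR`, `MARK` of 359 and `Rig`.
-/

set_option autoImplicit false

noncomputable section

namespace Crest.Agent.R143.FinFx894

open Crest.ProbabilityR.Voronoi
open Crest.Agent.R143.Finx894 Crest.Agent.R143.FinCx894 Crest.Agent.R143.FinEx894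
open Crest.Agent.R143.K7Dx359 (LAYER CENT THR MARK K7)

theorem pg : VisDx877.PG := fun _ _ hT hc _ => Hulx755.pg_of_ccw hT hc

theorem k7 (h1 : LAYER) (h4 : CENT) (h5 : THR) (h6 : MARK) : K7 :=
  K7x359.k7_of h1 Grdx359.grid Compx54.comp h4 h5 h6

theorem contB (h : K7) : ContB := contB_det HarmZx802.harmOne (detq_id h pg)

theorem contD (h : K7) : ContD := contD_det HarmZx802.harmOne (detq_conj h pg)

/-- the row from `K7` and RIG -/
theorem leaf_k7 (h : K7) (h7 : Rig) : Leaf894 := leaf_frozen (contB h) (contD h) h7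

/-- **the row from the five open Props** -/
theorem leaf_open (h1 : LAYER) (h4 : CENT) (h5 : THR) (h6 : MARK) (h7 : Rig) : Leaf894 :=
  leaf_k7 (k7 h1 h4 h5 h6) h7

end Crest.Agent.R143.FinFx894
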