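import Crest.Agent.R143.FinF_377
import Crest.Agent.R143.HarmZ_802
import Crest.Agent.R143.Grd_359
import Crest.Agent.R143.Cent_723

/-!
# Row 143 (S0194): what is left, fifth form (helper377)

`HarmOne` (802), PG (755), GRID (359), COMP (66), CENT (723), HULLM (93, 66) are theorems.

* `arms : ARMS Adm`, `small_id`, `small_conj'` : no hypothesis left
* **`leaf_k : K7 → RIGP Poly.T Dk → Leaf894`**, `leaf_rig : K7 → Rig → Leaf894`
* **`leaf_lmt : LAYER → THR → MARK → Rig → Leaf894`**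
-/

set_option autoImplicit false

noncomputable section

namespace Crest.Agent.R143.Mabx377

open Crest.ProbabilityR.Voronoi
open Crest.Agent.R143.B0x346 Crest.Agent.R143.B0Dx346
open Crest.Agent.R143.Finx894 Crest.Agent.R143.PolyUx346 Crest.Agent.R143.RelPx62
open Crest.Agent.R143.PolyQx854 (RIGP)
open Crest.Agent.R143.FinCx894 (ContB ContD Rig)

/-- **one arm at all places of the disc**: a theorem -/
theorem arms {Adm : Dom → ℝ → Prop} (hAdm : ∀ D δ, Adm D δ → D.Ad δ) : ARMS Adm :=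
  arms_one hAdm HarmZx802.harmOne

/-- **the small side of CONT**: a theorem -/
theorem small1_id {Adm : Dom → ℝ → Prop} (hAdm : ∀ D δ, Adm D δ → D.Ad δ) : SMALL Sm1 id Adm :=
  small_one_id hAdm HarmZx802.harmOne

theorem small1_conj {Adm : Dom → ℝ → Prop} (hAdm : ∀ D δ, Adm D δ → D.Ad δ) :
    SMALL Sm1 (starRingEnd ℂ) Adm := small_one_conj hAdm HarmZx802.harmOne

/-- **CONT from K7** -/
theorem contB_of_k7 (h : K7Dx359.K7) : ContB := contB_k7 HarmZx802.harmOne h

theorem contD_of_k7 (h : K7Dx359.K7) : ContD := contD_k7 HarmZx802.harmOne h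

/-- 359's assembly with the proved leaves -/
theorem k7_lmt (a : K7Dx359.LAYER) (e : K7Dx359.THR) (f : K7Dx359.MARK) : K7Dx359.K7 :=
  K7x359.k7_of a Grdx359.grid Compx66.comp Centx723.cent e f

/-- **the row from K7 and RIG** -/
theorem leaf_k (h2 : K7Dx359.K7) (h5 : RIGP Poly.T Dk) : Leaf894 :=
  leaf_k7 HarmZx802.harmOne h2 h5

theorem leaf_rig (h2 : K7Dx359.K7) (h5 : Rig) : Leaf894 :=
  FinCx894.leaf_frozen (contB_of_k7 h2) (contD_of_k7 h2) h5

/-- **the row from LAYER, THR, MARK and RIG** -/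
theorem leaf_lmt (a : K7Dx359.LAYER) (e : K7Dx359.THR) (f : K7Dx359.MARK) (h5 : Rig) : Leaf894 :=
  leaf_rig (k7_lmt a e f) h5

end Crest.Agent.R143.Mabx377
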