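import Crest.Agent.R143.Seg_991
import Crest.Agent.R143.Terr2_583
import Crest.Agent.R143.Ten_416

/-!
# Row 143 (S0194), CONT (K7): paths outside a thickened lattice polygon (helper453)

`Pw s w F` = cells of `F` (side `s`) thickened by `w` in the sup norm (`Pw s 0 F = Pg s F`).
* `way_cell` : from a point of a cell off `F` to the centre; `way_con` : along a chain of cells
* `way_far` : global form, `way_loc` : local form (segment whose cells are off `F`)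
* `off_conn'` : chains of sites along `C` are off the deep sites, density on `P` only
* `near_w` : `Near S (deep S (Pw s w F) ρ) X r x`; `joi_w` : `Joi`
-/

set_option autoImplicit false

noncomputable section

open scoped Classical

namespace Crest.Agent.R143.Pwx453

open Set
open Crest.ProbabilityR.Voronoi
open Crest.Agent.R158.Sp896 (V Adj Con sq cells cells_con convex_sq sq_dist mem_cellOf cellOf
  cellOf_mem)
open Crest.Agent.R143.B0x346 Crest.Agent.R143.DelGx806 Crest.Agent.R143.RE0x723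
open Crest.Agent.R143.Segx991
open Crest.Agent.R143.Nearx440 (seg_add)
open Crest.Agent.R143.Terr2x583 (Joi Near)

variable {s w : ℝ} {F : Set V} {q q' : V} {p t e z : ℂ}

/-! ### geometry -/

/-- thickened cell -/
def sw (s w : ℝ) (q : V) : Set ℂ :=
  {z | s * q.1 - w ≤ z.re ∧ z.re ≤ s * (q.1 + 1) + w ∧ s * q.2 - w ≤ z.im ∧
    z.im ≤ s * (q.2 + 1) + w}

/-- thickened polygon -/
def Pw (s w : ℝ) (F : Set V) : Set ℂ := ⋃ q ∈ F, sw s w q

theorem mem_pw : z ∈ Pw s w F ↔ ∃ q ∈ F, z ∈ sw s w q := by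
  unfold Pw
  simp only [mem_iUnion, exists_prop]

theorem sq_sw (hw : 0 ≤ w) : sq s q ⊆ sw s w q := by
  rintro z ⟨h1, h2, h3, h4⟩
  exact ⟨by linarith, by linarith, by linarith, by linarith⟩

theorem pw_zero : Pw s 0 F = Tenx416.Pg s F := by
  unfold Pw Tenx416.Pg sw Crest.Agent.R158.Sp896.sq
  simp only [sub_zero, add_zero]

theorem pg_pw (hw : 0 ≤ w) : Tenx416.Pg s F ⊆ Pw s w F := by
  intro z hz
  unfold Tenx416.Pg at hz
  simp only [mem_iUnion, exists_prop] at hz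
  obtain ⟨q, hq, h⟩ := hz
  exact mem_pw.2 ⟨q, hq, sq_sw hw h⟩

theorem not_F (hw : 0 ≤ w) (h : z ∉ Pw s w F) (hz : z ∈ sq s q) : q ∉ F := fun hq =>
  h (mem_pw.2 ⟨q, hq, sq_sw hw hz⟩)

/-- centre of a cell -/
def ct (s : ℝ) (q : V) : ℂ := ⟨s * (q.1 + 1 / 2), s * (q.2 + 1 / 2)⟩

theorem ct_sq (hs : 0 < s) : ct s q ∈ sq s q := by
  refine ⟨?_, ?_, ?_, ?_⟩ <;> simp only [ct] <;> nlinarith

theorem seg_co {a b : ℂ} (h : z ∈ segment ℝ a b) : ∃ θ : ℝ, 0 ≤ θ ∧ θ ≤ 1 ∧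
    z.re = a.re + θ * (b.re - a.re) ∧ z.im = a.im + θ * (b.im - a.im) := by
  obtain ⟨x, y, hx, hy, hxy, rfl⟩ := h
  refine ⟨y, hy, by linarith, ?_, ?_⟩
  · simp only [Complex.add_re, Complex.real_smul, Complex.mul_re, Complex.ofReal_re,
      Complex.ofReal_im, zero_mul, sub_zero]
    have : x = 1 - y := by linarith
    rw [this]; ring
  · simp only [Complex.add_im, Complex.real_smul, Complex.mul_im, Complex.ofReal_re,
      Complex.ofReal_im, zero_mul, add_zero]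
    have : x = 1 - y := by linarith
    rw [this]; ring

/-- one coordinate: moving from `u` (in the cell `n`) to the middle of the cell does not enter an
interval -/
theorem move1 (hs : 0 < s) (hws : 2 * w < s) {n m : ℤ} {u v θ : ℝ} (h0 : 0 ≤ θ) (h1 : θ ≤ 1)
    (hu1 : s * n ≤ u) (hu2 : u ≤ s * (n + 1)) (hv : v = u + θ * (s * (n + 1 / 2) - u))
    (k1 : s * m - w ≤ v) (k2 : v ≤ s * (m + 1) + w) (hw : 0 ≤ w) :
    s * m - w ≤ u ∧ u ≤ s * (m + 1) + w := by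
  have hc : ∀ a b : ℤ, s * a ≤ s * b + s / 2 + w → a ≤ b := by
    intro a b h
    have h2 : s * (a - b : ℝ) < s * 1 := by nlinarith
    have h3 : (a - b : ℝ) < 1 := lt_of_mul_lt_mul_left h2 hs.le
    have h4 : ((a - b : ℤ) : ℝ) < ((1 : ℤ) : ℝ) := by push_cast; exact h3
    have := Int.cast_lt.1 h4
    omega
  constructor
  · by_contra hcon
    push Not at hcon
    -- `u < s m - w ≤ v ≤ middle`
    have h2 : v ≤ s * (n + 1 / 2) := by
      rcases le_total u (s * (n + 1 / 2)) with h | h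
      · nlinarith
      · exfalso
        have : v ≤ u := by nlinarith
        linarith
    have h3 : m ≤ n := hc m n (by linarith)
    have h4 : (m : ℝ) ≤ n := by exact_mod_cast h3
    nlinarith
  · by_contra hcon
    push Not at hcon
    have h2 : s * (n + 1 / 2) ≤ v := by
      rcases le_total u (s * (n + 1 / 2)) with h | h
      · exfalso
        have : u ≤ v := by nlinarith
        linarith
      · nlinarith
    have h3 : n ≤ m := hc n m (by linarith)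
    have h4 : (n : ℝ) ≤ m := by exact_mod_cast h3
    nlinarith

/-- vertical move to the middle height -/
theorem move_v (hs : 0 < s) (hw : 0 ≤ w) (hws : 2 * w < s) (hp : p ∈ sq s q) (hP : p ∉ Pw s w F)
    (hz : z ∈ segment ℝ p ⟨p.re, s * (q.2 + 1 / 2)⟩) : z ∉ Pw s w F := by
  obtain ⟨θ, h0, h1, h2, h3⟩ := seg_co hz
  intro hzP
  obtain ⟨m, hm, k1, k2, k3, k4⟩ := mem_pw.1 hzP
  simp only [sub_self, mul_zero, add_zero] at h2
  obtain ⟨e1, e2⟩ := move1 hs hws h0 h1 hp.2.2.1 hp.2.2.2 h3 k3 k4 hw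
  exact hP (mem_pw.2 ⟨m, hm, h2 ▸ k1, h2 ▸ k2, e1, e2⟩)

/-- horizontal move to the middle -/
theorem move_h (hs : 0 < s) (hw : 0 ≤ w) (hws : 2 * w < s) (hp : p ∈ sq s q) (hP : p ∉ Pw s w F)
    (hz : z ∈ segment ℝ p ⟨s * (q.1 + 1 / 2), p.im⟩) : z ∉ Pw s w F := by
  obtain ⟨θ, h0, h1, h2, h3⟩ := seg_co hz
  intro hzP
  obtain ⟨m, hm, k1, k2, k3, k4⟩ := mem_pw.1 hzP
  simp only [sub_self, mul_zero, add_zero] at h3
  obtain ⟨e1, e2⟩ := move1 hs hws h0 h1 hp.1 hp.2.1 h2 k1 k2 hw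
  exact hP (mem_pw.2 ⟨m, hm, e1, e2, h3 ▸ k3, h3 ▸ k4⟩)

/-- **from a point of a cell to its centre** -/
theorem way_cell (hs : 0 < s) (hw : 0 ≤ w) (hws : 2 * w < s) (hp : p ∈ sq s q)
    (hP : p ∉ Pw s w F) : ∃ C : Set ℂ, IsPreconnected C ∧ p ∈ C ∧ ct s q ∈ C ∧
      (∀ z ∈ C, z ∉ Pw s w F) ∧ ∀ z ∈ C, z ∈ sq s q := by
  set p' : ℂ := ⟨p.re, s * (q.2 + 1 / 2)⟩ with hp'
  have h1 : p' ∈ sq s q := by
    refine ⟨hp.1, hp.2.1, ?_, ?_⟩ <;> simp only [hp'] <;> nlinarith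
  have h2 : p' ∉ Pw s w F := move_v hs hw hws hp hP (right_mem_segment ℝ _ _)
  have h3 : ct s q = ⟨s * (q.1 + 1 / 2), p'.im⟩ := rfl
  refine ⟨segment ℝ p p' ∪ segment ℝ p' (ct s q), ?_, Or.inl (left_mem_segment ℝ _ _),
    Or.inr (right_mem_segment ℝ _ _), ?_, ?_⟩
  · exact IsPreconnected.union p' (right_mem_segment ℝ _ _) (left_mem_segment ℝ _ _)
      (convex_segment _ _).isPreconnected (convex_segment _ _).isPreconnected
  · rintro z (hz | hz)
    · exact move_v hs hw hws hp hP hz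
    · rw [h3] at hz
      exact move_h hs hw hws h1 h2 hz
  · rintro z (hz | hz)
    · exact (convex_sq s q).segment_subset hp h1 hz
    · exact (convex_sq s q).segment_subset h1 (ct_sq hs) hz

/-- one coordinate: the middle of the cell `n` is in the thickened interval `m` -/
theorem mid1 (hs : 0 < s) (hws : 2 * w < s) {n m : ℤ} (k1 : s * m - w ≤ s * (n + 1 / 2))
    (k2 : s * (n + 1 / 2) ≤ s * (m + 1) + w) : m = n := by
  have h1 : s * (m - n : ℝ) < s * 1 := by nlinarith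
  have h2 : (m - n : ℝ) < 1 := lt_of_mul_lt_mul_left h1 hs.le
  have h3 : s * (n - m : ℝ) < s * 1 := by nlinarith
  have h4 : (n - m : ℝ) < 1 := lt_of_mul_lt_mul_left h3 hs.le
  have h5 : ((m - n : ℤ) : ℝ) < ((1 : ℤ) : ℝ) := by push_cast; exact h2
  have h6 : ((n - m : ℤ) : ℝ) < ((1 : ℤ) : ℝ) := by push_cast; exact h4
  have h7 := Int.cast_lt.1 h5
  have h8 := Int.cast_lt.1 h6
  omega

/-- one coordinate: between the middles of the cells `n`, `n + 1` -/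
theorem mid2 (hs : 0 < s) (hws : 2 * w < s) {n m : ℤ} {v θ : ℝ} (h0 : 0 ≤ θ) (h1 : θ ≤ 1)
    (hv : v = s * (n + 1 / 2) + θ * s) (k1 : s * m - w ≤ v) (k2 : v ≤ s * (m + 1) + w) :
    m = n ∨ m = n + 1 := by
  have h2 : s * (m - n : ℝ) < s * 2 := by nlinarith
  have h3 : (m - n : ℝ) < 2 := lt_of_mul_lt_mul_left h2 hs.le
  have h4 : s * (n - m : ℝ) < s * 1 := by nlinarith
  have h5 : (n - m : ℝ) < 1 := lt_of_mul_lt_mul_left h4 hs.le
  have h6 : ((m - n : ℤ) : ℝ) < ((2 : ℤ) : ℝ) := by push_cast; exact h3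
  have h7 : ((n - m : ℤ) : ℝ) < ((1 : ℤ) : ℝ) := by push_cast; exact h5
  have h8 := Int.cast_lt.1 h6
  have h9 := Int.cast_lt.1 h7
  omega

theorem ctr_right (hs : 0 < s) (hws : 2 * w < s) (hq : q ∉ F) (hq' : q' ∉ F)
    (h : q'.1 = q.1 + 1 ∧ q'.2 = q.2) (hz : z ∈ segment ℝ (ct s q) (ct s q')) :
    z ∉ Pw s w F ∧ (z ∈ sq s q ∨ z ∈ sq s q') := by
  obtain ⟨θ, h0, h1, h2, h3⟩ := seg_co hz
  simp only [ct, h.1, h.2] at h2 h3
  push_cast at h2
  have e2 : z.re = s * (q.1 + 1 / 2) + θ * s := by rw [h2]; ring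
  have e3 : z.im = s * (q.2 + 1 / 2) := by rw [h3]; ring
  constructor
  · intro hzP
    obtain ⟨m, hm, k1, k2, k3, k4⟩ := mem_pw.1 hzP
    have g2 : m.2 = q.2 := mid1 hs hws (e3 ▸ k3) (e3 ▸ k4)
    rcases mid2 hs hws h0 h1 e2 k1 k2 with g1 | g1
    · exact hq ((Prod.ext g1 g2 : m = q) ▸ hm)
    · exact hq' ((Prod.ext (g1.trans h.1.symm) (g2.trans h.2.symm) : m = q') ▸ hm)
  · rcases le_total θ (1 / 2) with hθ | hθ
    · left
      refine ⟨?_, ?_, ?_, ?_⟩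
      · rw [e2]; nlinarith
      · rw [e2]; nlinarith
      · rw [e3]; nlinarith
      · rw [e3]; nlinarith
    · right
      refine ⟨?_, ?_, ?_, ?_⟩
      · rw [e2, h.1]; push_cast; nlinarith
      · rw [e2, h.1]; push_cast; nlinarith
      · rw [e3, h.2]; nlinarith
      · rw [e3, h.2]; nlinarith

theorem ctr_up (hs : 0 < s) (hws : 2 * w < s) (hq : q ∉ F) (hq' : q' ∉ F)
    (h : q'.1 = q.1 ∧ q'.2 = q.2 + 1) (hz : z ∈ segment ℝ (ct s q) (ct s q')) :
    z ∉ Pw s w F ∧ (z ∈ sq s q ∨ z ∈ sq s q') := by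
  obtain ⟨θ, h0, h1, h2, h3⟩ := seg_co hz
  simp only [ct, h.1, h.2] at h2 h3
  push_cast at h3
  have e2 : z.re = s * (q.1 + 1 / 2) := by rw [h2]; ring
  have e3 : z.im = s * (q.2 + 1 / 2) + θ * s := by rw [h3]; ring
  constructor
  · intro hzP
    obtain ⟨m, hm, k1, k2, k3, k4⟩ := mem_pw.1 hzP
    have g1 : m.1 = q.1 := mid1 hs hws (e2 ▸ k1) (e2 ▸ k2)
    rcases mid2 hs hws h0 h1 e3 k3 k4 with g2 | g2
    · exact hq ((Prod.ext g1 g2 : m = q) ▸ hm)
    · exact hq' ((Prod.ext (g1.trans h.1.symm) (g2.trans h.2.symm) : m = q') ▸ hm)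
  · rcases le_total θ (1 / 2) with hθ | hθ
    · left
      refine ⟨?_, ?_, ?_, ?_⟩
      · rw [e2]; nlinarith
      · rw [e2]; nlinarith
      · rw [e3]; nlinarith
      · rw [e3]; nlinarith
    · right
      refine ⟨?_, ?_, ?_, ?_⟩
      · rw [e2, h.1]; nlinarith
      · rw [e2, h.1]; nlinarith
      · rw [e3, h.2]; push_cast; nlinarith
      · rw [e3, h.2]; push_cast; nlinarith

/-- **the segment between the centres of two adjacent cells off `F`** -/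
theorem ctr_adj (hs : 0 < s) (hws : 2 * w < s) (hq : q ∉ F) (hq' : q' ∉ F) (h : Adj q q')
    (hz : z ∈ segment ℝ (ct s q) (ct s q')) : z ∉ Pw s w F ∧ (z ∈ sq s q ∨ z ∈ sq s q') := by
  rcases h with h | h | h | h
  · exact ctr_right hs hws hq hq' h hz
  · rw [segment_symm] at hz
    have := ctr_right hs hws hq' hq ⟨by omega, h.2.symm⟩ hz
    exact ⟨this.1, this.2.symm⟩
  · exact ctr_up hs hws hq hq' h hz
  · rw [segment_symm] at hz
    have := ctr_up hs hws hq' hq ⟨h.1.symm, by omega⟩ hz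
    exact ⟨this.1, this.2.symm⟩

/-- **along a chain of cells** -/
theorem way_con (hs : 0 < s) (hws : 2 * w < s) {N : Set V} (hN : ∀ x ∈ N, x ∉ F)
    (hq : q ∉ F) (h : Con N q q') : ∃ C : Set ℂ, IsPreconnected C ∧ ct s q ∈ C ∧ ct s q' ∈ C ∧
      (∀ z ∈ C, z ∉ Pw s w F) ∧ ∀ z ∈ C, ∃ x, (x = q ∨ x ∈ N) ∧ z ∈ sq s x := by
  induction h with
  | refl =>
    have h1 : ct s q ∉ Pw s w F := by
      intro hzP
      obtain ⟨m, hm, k1, k2, k3, k4⟩ := mem_pw.1 hzP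
      have g1 : m.1 = q.1 := mid1 hs hws k1 k2
      have g2 : m.2 = q.2 := mid1 hs hws k3 k4
      exact hq ((Prod.ext g1 g2 : m = q) ▸ hm)
    refine ⟨{ct s q}, isPreconnected_singleton, rfl, rfl, ?_, ?_⟩
    · rintro z rfl
      exact h1
    · rintro z rfl
      exact ⟨q, Or.inl rfl, ct_sq hs⟩
  | @tail x y hx hy ih =>
    obtain ⟨C, c1, c2, c3, c4, c5⟩ := ih
    have hxF : x ∉ F ∧ (x = q ∨ x ∈ N) := by
      rcases Relation.ReflTransGen.cases_tail hx with h | ⟨y', -, h⟩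
      · exact ⟨h ▸ hq, Or.inl h⟩
      · exact ⟨hN _ h.2, Or.inr h.2⟩
    refine ⟨C ∪ segment ℝ (ct s x) (ct s y), ?_, Or.inl c2, Or.inr (right_mem_segment ℝ _ _), ?_, ?_⟩
    · exact IsPreconnected.union (ct s x) c3 (left_mem_segment ℝ _ _) c1
        (convex_segment _ _).isPreconnected
    · rintro z (hz | hz)
      · exact c4 z hz
      · exact (ctr_adj hs hws hxF.1 (hN y hy.2) hy.1 hz).1
    · rintro z (hz | hz)
      · exact c5 z hz
      · rcases (ctr_adj (w := 0) hs (by linarith) hxF.1 (hN y hy.2) hy.1 hz).2 with h | h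
        · exact ⟨x, hxF.2, h⟩
        · exact ⟨y, Or.inr hy.2, h⟩

/-- **from point to point along a chain of cells off `F`** -/
theorem way_pts (hs : 0 < s) (hw : 0 ≤ w) (hws : 2 * w < s) {N : Set V} (hN : ∀ x ∈ N, x ∉ F)
    (h : Con N q q') (hp : p ∈ sq s q) (hP : p ∉ Pw s w F) (he : e ∈ sq s q')
    (hE : e ∉ Pw s w F) : ∃ C : Set ℂ, IsPreconnected C ∧ p ∈ C ∧ e ∈ C ∧
      (∀ z ∈ C, z ∉ Pw s w F) ∧ ∀ z ∈ C, ∃ x, (x = q ∨ x ∈ N) ∧ z ∈ sq s x := by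
  obtain ⟨A, a1, a2, a3, a4, a5⟩ := way_cell hs hw hws hp hP
  obtain ⟨B, b1, b2, b3, b4, b5⟩ := way_con hs hws hN (not_F hw hP hp) h
  obtain ⟨C, c1, c2, c3, c4, c5⟩ := way_cell hs hw hws he hE
  have hq' : q' = q ∨ q' ∈ N := by
    rcases Relation.ReflTransGen.cases_tail h with h | ⟨y', -, h⟩
    · exact Or.inl h
    · exact Or.inr h.2
  refine ⟨A ∪ B ∪ C, ?_, Or.inl (Or.inl a2), Or.inr c2, ?_, ?_⟩
  · exact IsPreconnected.union (ct s q') (Or.inr b3) c3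
      (IsPreconnected.union (ct s q) a3 b2 a1 b1) c1
  · rintro z ((hz | hz) | hz)
    · exact a4 z hz
    · exact b4 z hz
    · exact c4 z hz
  · rintro z ((hz | hz) | hz)
    · exact ⟨q, Or.inl rfl, a5 z hz⟩
    · exact b5 z hz
    · exact ⟨q', hq', c5 z hz⟩

/-- **local form**: `t` in the cell of `p`, the cells met by `[t, e]` are off `F` -/
theorem way_loc (hs : 0 < s) (hw : 0 ≤ w) (hws : 2 * w < s) (hp : p ∈ sq s q) (ht : t ∈ sq s q)
    (hP : p ∉ Pw s w F) (hE : e ∉ Pw s w F) (hN : ∀ x, (sq s x ∩ segment ℝ t e).Nonempty → x ∉ F) :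
    ∃ C : Set ℂ, IsPreconnected C ∧ p ∈ C ∧ e ∈ C ∧ (∀ z ∈ C, z ∉ Pw s w F) ∧
      ∀ z ∈ C, ‖z - p‖ ≤ 4 * s + ‖t - e‖ := by
  have hb : Bornology.IsBounded (segment ℝ t e) := by
    rw [← convexHull_pair]
    exact (isBounded_convexHull.2 (Set.toFinite _).isBounded)
  have h1 : q ∈ cells s (segment ℝ t e) := ⟨t, ht, left_mem_segment ℝ _ _⟩
  have h2 : cellOf s e ∈ cells s (segment ℝ t e) := cellOf_mem hs (right_mem_segment ℝ _ _)
  have h3 := cells_con hs (convex_segment t e).isPreconnected hb q h1 _ h2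
  obtain ⟨C, c1, c2, c3, c4, c5⟩ := way_pts hs hw hws (fun x hx => hN x hx) h3 hp hP
    (mem_cellOf hs e) hE
  refine ⟨C, c1, c2, c3, c4, fun z hz => ?_⟩
  obtain ⟨x, hx, hzx⟩ := c5 z hz
  have hx' : x ∈ cells s (segment ℝ t e) := by
    rcases hx with rfl | hx
    · exact h1
    · exact hx
  obtain ⟨u, hu, hut⟩ := hx'
  have e1 := sq_dist hzx hu
  have e2 := sq_dist ht hp
  have e3 : ‖u - t‖ ≤ ‖t - e‖ := by
    have h4 := seg_add hut
    have h5 := norm_nonneg (u - e)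
    rw [norm_sub_rev t u] at h4
    linarith
  have e4 : z - p = (z - u) + ((u - t) + (t - p)) := by ring
  rw [e4]
  have e5 := norm_add_le (z - u) ((u - t) + (t - p))
  have e6 := norm_add_le (u - t) (t - p)
  linarith

/-- **global form** -/
theorem way_far (hs : 0 < s) (hw : 0 ≤ w) (hws : 2 * w < s)
    (hF : ∀ q ∉ F, ∀ q' ∉ F, Con Fᶜ q q') (hP : p ∉ Pw s w F) (hE : e ∉ Pw s w F) :
    ∃ C : Set ℂ, IsPreconnected C ∧ p ∈ C ∧ e ∈ C ∧ ∀ z ∈ C, z ∉ Pw s w F := by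
  have h1 := mem_cellOf hs p
  have h2 := mem_cellOf hs e
  obtain ⟨C, c1, c2, c3, c4, -⟩ := way_pts hs hw hws (fun x hx => hx)
    (hF _ (not_F hw hP h1) _ (not_F hw hE h2)) h1 hP h2 hE
  exact ⟨C, c1, c2, c3, c4⟩

/-! ### chains of sites -/

variable {S X : Finset ℂ} {P C : Set ℂ} {x y a : ℂ} {ρ d r : ℝ}

/-- **chains along connected sets outside `P` are off the deep sites; density on `P` only** -/
theorem off_conn' (hCP : ∀ q ∈ C, q ∉ P) (hH : Hl S P d) (hd0 : 0 ≤ d) (hd : d < ρ)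
    (hz : z ∈ Clm S C) : z ∉ deep S P ρ := by
  intro hdp
  obtain ⟨h1, c, hc, hcc⟩ := hz
  obtain ⟨-, hb⟩ := mem_deep.1 hdp
  have hcz : ρ < ‖c - z‖ := by
    by_contra hcon
    exact hCP c hc (hb (by rw [Metric.mem_closedBall, dist_eq_norm]; exact not_lt.1 hcon))
  have hpos : 0 < ‖c - z‖ := by linarith
  set τ : ℝ := ρ / ‖c - z‖ with hτ
  have hτ0 : 0 ≤ τ := by
    rw [hτ]
    exact div_nonneg (by linarith) hpos.le
  have hτ1 : τ ≤ 1 := by
    rw [hτ, div_le_one hpos]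
    exact hcz.le
  have hτm : τ * ‖c - z‖ = ρ := by rw [hτ]; field_simp
  set u : ℂ := z + τ * (c - z) with hu
  have e1 : ‖u - z‖ = ρ := by
    have : u - z = (τ : ℂ) * (c - z) := by rw [hu]; ring
    rw [this, norm_mul, Complex.norm_real, Real.norm_eq_abs, abs_of_nonneg hτ0, hτm]
  have e2 : ‖c - u‖ = ‖c - z‖ - ρ := by
    have : c - u = ((1 - τ : ℝ) : ℂ) * (c - z) := by rw [hu]; push_cast; ring
    rw [this, norm_mul, Complex.norm_real, Real.norm_eq_abs, abs_of_nonneg (by linarith), sub_mul,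
      one_mul, hτm]
  obtain ⟨x, hx, hux⟩ := hH u (hb (by rw [Metric.mem_closedBall, dist_eq_norm, e1]))
  have h3 : ‖c - z‖ ≤ ‖c - x‖ := hcc x (Finset.mem_coe.2 hx)
  have h4 : ‖c - x‖ ≤ ‖c - u‖ + ‖u - x‖ := by
    have := norm_add_le (c - u) (u - x)
    rwa [sub_add_sub_cancel] at this
  linarith

/-- a site which is not deep is joined off the deep sites to the sites near a connected set
outside -/
theorem pth_out2 (hS : GP (S : Set ℂ)) (h3 : 3 ≤ S.card) (hx : x ∈ S) (hp : p ∉ P)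
    (hxp : ‖x - p‖ ≤ ρ) (hC : IsPreconnected C) (hCP : ∀ q ∈ C, q ∉ P) (hH : Hl S P d)
    (hd0 : 0 ≤ d) (hd : d < ρ) (hpC : p ∈ C) (hy : y ∈ Clm S C) :
    Pth S {z | z ∈ S ∧ z ∉ deep S P ρ} x y := by
  obtain ⟨c, hc, hcc⟩ := G6Wx723.exists_cell ⟨x, hx⟩ p
  have h1 : Pth S (Clm S (segment ℝ x p)) x c :=
    pth_conn hS h3 (convex_segment x p).isPreconnected (mem_clm hx (left_mem_segment ℝ x p))
      ⟨hc, p, right_mem_segment ℝ x p, hcc⟩
  have h2 : Pth S (Clm S C) c y := pth_conn hS h3 hC ⟨hc, p, hpC, hcc⟩ hy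
  refine (h1.mono ?_).trans (h2.mono ?_)
  · exact fun z hz => ⟨hz.1, off_seg hx hp hxp hz⟩
  · exact fun z hz => ⟨hz.1, off_conn' hCP hH hd0 hd hz⟩

/-- **(Joi) all the sites which are not deep are joined to `X`** -/
theorem joi_w (hS : GP (S : Set ℂ)) (h3 : 3 ≤ S.card) (hs : 0 < s) (hw : 0 ≤ w) (hws : 2 * w < s)
    (hF : ∀ q ∉ F, ∀ q' ∉ F, Con Fᶜ q q') (hH : Hl S (Pw s w F) d) (hd0 : 0 ≤ d) (hd : d < ρ)
    (hXS : X ⊆ S) (he : e ∈ X) (hE : e ∉ Pw s w F) : Joi S (deep S (Pw s w F) ρ) X := by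
  intro x hx hxd
  obtain ⟨p, hp, hxp⟩ := exists_out hx hxd
  obtain ⟨C, c1, c2, c3, c4⟩ := way_far hs hw hws hF hp hE
  exact ⟨e, he, pth_out2 hS h3 hx hp hxp c1 c4 hH hd0 hd c2 (mem_clm (hXS he) c3)⟩

/-- **(Near) local form**: `p` outside the thickened polygon within `ρ` of `x`, `t` in the cell of
`p`, `e ∈ X`, and all the cells met by `[t, e]` are off `F` -/
theorem near_w (hS : GP (S : Set ℂ)) (h3 : 3 ≤ S.card) (hs : 0 < s) (hw : 0 ≤ w)
    (hws : 2 * w < s) (hd : d ≤ ρ) (hXS : X ⊆ S) (hx : x ∈ S) (hP : p ∉ Pw s w F)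
    (hxp : ‖x - p‖ ≤ ρ) (hp : p ∈ sq s q) (ht : t ∈ sq s q) (he : e ∈ X) (hE : e ∉ Pw s w F)
    (hN : ∀ x, (sq s x ∩ segment ℝ t e).Nonempty → x ∉ F)
    (hH : Hl S (Metric.closedBall x (4 * s + ‖t - e‖ + ρ)) d) :
    Near S (deep S (Pw s w F) ρ) X (4 * s + ‖t - e‖ + 3 * ρ) x := by
  obtain ⟨C, c1, c2, c3, c4, c5⟩ := way_loc hs hw hws hp ht hP hE hN
  have h6 : ∀ q ∈ C, ‖q - x‖ ≤ 4 * s + ‖t - e‖ + ρ := by
    intro q hq
    have h7 := c5 q hq
    have h8 : ‖q - x‖ ≤ ‖q - p‖ + ‖p - x‖ := by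
      have := norm_add_le (q - p) (p - x)
      rwa [sub_add_sub_cancel] at this
    rw [norm_sub_rev p x] at h8
    linarith
  have h7 := pth_out hS h3 hx hP hxp c1 c4 (hH.mono fun q hq => by
    rw [Metric.mem_closedBall, dist_eq_norm]; exact h6 q hq) hd c2 h6 (mem_clm (hXS he) c3)
  refine ⟨e, he, h7.mono ?_⟩
  rintro z ⟨h8, h9⟩
  exact ⟨h8, by linarith⟩

end Crest.Agent.R143.Pwx453
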