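import Crest.Agent.R143.GridK_991
import Crest.Agent.R143.Pw_453
import Crest.Agent.R143.Col_583

/-!
# Row 143 (S0194), K7: territories off the good bricks (helper991)

Setting `Stg S A x0 L d s` (359), `F = cells (Gd A x0 L s)`; `Pw s w F` the polygon thickened by
`w` in the sup norm (453), `deep S P ρ` the sites with `closedBall · ρ ⊆ P`; `2 w < s`, `d < ρ`,
`ρ ≤ s`.
* `far_pw` : class sites are off `Pw s w F`; `pw_ball`; `deep_fr` : deep sites are free
* `way_bad` : a point `p` off `Pw s w F`, `‖p - x0‖ ≤ L + s`, is joined off `Pw s w F` to a class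
  site within `14 s`
* `joi` : (Joi) for `deep S (Pw s w F) ρ`; `near` : (Near) for EVERY site off the deep sites,
  radius `40 s`
* `terr` : territories with free sites `deep S (Pw s w F) ρ`, full thinness `960 s`
* `va_eq` : `Va` is `deep S (Pw s 0 F) (2 d)`
-/

set_option autoImplicit false

noncomputable section

open scoped Classical

namespace Crest.Agent.R143.Glux991

open Set
open Crest.Agent.R158
open Crest.Agent.R158.Sp896 (sq)
open Crest.Agent.R143.B0x346 Crest.Agent.R143.DelGx806 Crest.Agent.R143.DelRx806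
  Crest.Agent.R143.JColx54 Crest.Agent.R143.RE0x723 Crest.Agent.R143.K33x877
open Crest.Agent.R143.Brkx478
open Crest.Agent.R143.Gridx991 (tl mem_tl sq_sub_tl tl_dist nb_meet)
open Crest.Agent.R143.Segx991 Crest.Agent.R143.Pwx453 Crest.Agent.R143.GridKx991
open Crest.Agent.R143.Terr2x583 (Joi Near)
open Crest.Agent.R143.Colx583 (uA mem_uA)
open Crest.Agent.R143.K7Dx359 (Stg Gd Al Va ThF)

variable {S : Finset ℂ} {A : ZMod 3 → Set ℂ} {s L R w ρ d : ℝ} {x0 x p e z : ℂ}
  {q q' : Sp896.V} {i : ZMod 3}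

theorem clamp {a b w u : ℝ} (hab : a ≤ b) (h1 : a - w ≤ u) (h2 : u ≤ b + w) (hw : 0 ≤ w) :
    ∃ v, a ≤ v ∧ v ≤ b ∧ |u - v| ≤ w := by
  rcases le_total u a with h | h
  · exact ⟨a, le_rfl, hab, by rw [abs_le]; constructor <;> linarith⟩
  · rcases le_total u b with h' | h'
    · exact ⟨u, h, h', by rw [sub_self, abs_zero]; exact hw⟩
    · exact ⟨b, hab, le_rfl, by rw [abs_le]; constructor <;> linarith⟩

/-- a point of the thickened cell is near the cell -/
theorem sw_near (hs : 0 < s) (hw : 0 ≤ w) (hz : z ∈ sw s w q) : ∃ y ∈ sq s q, ‖z - y‖ ≤ 2 * w := by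
  obtain ⟨h1, h2, h3, h4⟩ := hz
  obtain ⟨u, u1, u2, u3⟩ := clamp (a := s * q.1) (b := s * (q.1 + 1)) (by nlinarith) h1 h2 hw
  obtain ⟨v, v1, v2, v3⟩ := clamp (a := s * q.2) (b := s * (q.2 + 1)) (by nlinarith) h3 h4 hw
  refine ⟨⟨u, v⟩, ⟨u1, u2, v1, v2⟩, ?_⟩
  have h5 := Complex.norm_le_abs_re_add_abs_im (z - ⟨u, v⟩)
  rw [Complex.sub_re, Complex.sub_im] at h5
  linarith

/-- class sites are off the thickened polygon -/
theorem far_pw (h : Stg S A x0 L d s) (hw : 0 ≤ w) (hws : 2 * w < s) (he : e ∈ A i) :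
    e ∉ Pw s w (cells (Gd A x0 L s)) := by
  intro h'
  have hs := s0 h
  obtain ⟨q, hq, hz⟩ := mem_pw.1 h'
  obtain ⟨y, hy, h1⟩ := sw_near hs hw hz
  have h2 := gd_cls hs hq (sq_sub_tl s q hy) he
  rw [norm_sub_rev] at h1
  linarith

/-- the thickened polygon is in the ball of radius `L - 3 s + 2 w` -/
theorem pw_ball (h : Stg S A x0 L d s) (hw : 0 ≤ w)
    (hz : z ∈ Pw s w (cells (Gd A x0 L s))) : ‖z - x0‖ ≤ L - 3 * s + 2 * w := by
  have hs := s0 h
  have hsL := h.sL
  obtain ⟨q, hq, hz⟩ := mem_pw.1 hz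
  obtain ⟨y, hy, h1⟩ := sw_near hs hw hz
  have h2 := gd_ball hs (by linarith) hq (sq_sub_tl s q hy)
  have h3 : ‖z - x0‖ ≤ ‖z - y‖ + ‖y - x0‖ := by
    have := norm_add_le (z - y) (y - x0)
    rwa [sub_add_sub_cancel] at this
  linarith

/-- **way from a point outside to a class site** -/
theorem way_bad (h : Stg S A x0 L d s) (hw : 0 ≤ w) (hws : 4 * w ≤ s)
    (hP : p ∉ Pw s w (cells (Gd A x0 L s))) (hpL : ‖p - x0‖ ≤ L + s) :
    ∃ e ∈ uA S A, ∃ C : Set ℂ, IsPreconnected C ∧ p ∈ C ∧ e ∈ C ∧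
      (∀ c ∈ C, c ∉ Pw s w (cells (Gd A x0 L s))) ∧ ∀ c ∈ C, ‖c - p‖ ≤ 14 * s := by
  have hs := s0 h
  have hsL := h.sL
  have hws' : 2 * w < s := by linarith
  set G := Gd A x0 L s with hG
  set q := Sp896.cellOf s p with hq
  have hp : p ∈ sq s q := Sp896.mem_cellOf hs p
  have hqF : q ∉ cells G := not_F hw hP hp
  have hbq : bk q ∉ G := hqF
  obtain ⟨c, hc, h1⟩ := bad7 hbq
  have hcG : c ∉ G := by
    rcases h1 with ⟨z, hz, h2⟩ | ⟨i, e, he, h2⟩
    · exact bad_of_out hz h2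
    · exact bad_of_cls hs he h2 (by rw [sub_self, norm_zero]; exact hs)
  -- way to a point of the tile of `c`
  have key : ∀ y ∈ tl s c, y ∉ Pw s w (cells G) → ∃ C : Set ℂ, IsPreconnected C ∧ p ∈ C ∧
      y ∈ C ∧ (∀ c ∈ C, c ∉ Pw s w (cells G)) ∧ ∀ c ∈ C, ‖c - p‖ ≤ 6 * s := by
    intro y hy hyP
    obtain ⟨q', hq', hyq⟩ : ∃ q', q' ∈ cells ({bk q, c} : Set Bk) ∧ y ∈ sq s q' := by
      rcases hy with h | h
      · exact ⟨c0 c, by rw [mem_cells, bk_c0]; exact Or.inr rfl, h⟩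
      · exact ⟨c1 c, by rw [mem_cells, bk_c1]; exact Or.inr rfl, h⟩
    have hconn : Conn ({bk q, c} : Set Bk) := by
      have m1 : bk q ∈ ({bk q, c} : Set Bk) := Or.inl rfl
      have m2 : c ∈ ({bk q, c} : Set Bk) := Or.inr rfl
      have h2 : Cn ({bk q, c} : Set Bk) (bk q) c := by
        rcases hc with hc | hc
        · rw [hc]; exact Relation.ReflTransGen.refl
        · exact Relation.ReflTransGen.single ⟨m1, m2, hc⟩
      rintro a (ha | ha) b (hb | hb)
      · rw [ha, hb]; exact Relation.ReflTransGen.refl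
      · rw [ha, hb]; exact h2
      · rw [ha, hb]; exact Gridx991.Cn.symm h2
      · rw [ha, hb]; exact Relation.ReflTransGen.refl
    have hcon := con_cells hconn q (Or.inl rfl) q' hq'
    obtain ⟨C, k1, k2, k3, k4, k5⟩ := way_pts hs hw hws' (F := cells G)
      (N := cells ({bk q, c} : Set Bk)) (by
        rintro x (hx | hx) hx'
        · exact hbq (hx ▸ hx')
        · exact hcG (hx ▸ hx')) hcon hp hP hyq hyP
    refine ⟨C, k1, k2, k3, k4, fun c' hc' => ?_⟩
    have hpb : p ∈ tl s (bk q) := sq_sub_tl s q hp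
    obtain ⟨x, hx, hcx⟩ := k5 c' hc'
    have hx' : bk x = bk q ∨ bk x = c := by
      rcases hx with rfl | hx
      · exact Or.inl rfl
      · exact hx
    have hcx' : c' ∈ tl s (bk x) := sq_sub_tl s x hcx
    rcases hx' with hx' | hx'
    · rw [hx'] at hcx'
      have := tl_dist hs hcx' hpb
      linarith
    · rw [hx'] at hcx'
      obtain ⟨u, hu1, hu2⟩ : (tl s (bk q) ∩ tl s c).Nonempty := by
        rcases hc with hc | hc
        · exact ⟨p, hpb, by rw [hc]; exact hpb⟩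
        · exact nb_meet hs hc
      have e1 := tl_dist hs hcx' hu2
      have e2 := tl_dist hs hu1 hpb
      have e3 : ‖c' - p‖ ≤ ‖c' - u‖ + ‖u - p‖ := by
        have := norm_add_le (c' - u) (u - p)
        rwa [sub_add_sub_cancel] at this
      linarith
  rcases h1 with ⟨z, hz, h2⟩ | ⟨i, e, he, h2⟩
  · -- outside
    have hzP : z ∉ Pw s w (cells G) := fun h' => by
      have := pw_ball h hw h'
      linarith
    obtain ⟨C, k1, k2, k3, k4, k5⟩ := key z hz hzP
    set D := ‖z - x0‖ with hD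
    have hD0 : 0 < D := by linarith
    obtain ⟨u, hu, hzu⟩ := DomBx722.exists_pol (c := x0) (z := z) hD0
    obtain ⟨pr, hpr⟩ := DomAx722.crossRay_exists h.dns hu
    have h3 := (DomBx722.crossRay_ends h.dns hu hpr).1
    obtain ⟨i, hi⟩ := h.tr.hull_mem (Or.inl hpr.1)
    set a := pr.1 with ha
    have hsq := sq_s h
    have e0 : 6 * (s / 2 ^ 20) ≤ s / 4 := by
      have : s / 4 - 6 * (s / 2 ^ 20) = s * (1 / 4 - 6 / 2 ^ 20) := by ring
      have h5 : 0 ≤ s * (1 / 4 - 6 / 2 ^ 20) := mul_nonneg hs.le (by norm_num)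
      linarith
    have h4 : ‖a - (x0 + L * u)‖ ≤ s / 4 := by linarith
    have hDL : D ≤ L + 7 * s := by
      have e1 := k5 z k3
      have e2 : ‖z - x0‖ ≤ ‖z - p‖ + ‖p - x0‖ := by
        have := norm_add_le (z - p) (p - x0)
        rwa [sub_add_sub_cancel] at this
      linarith
    refine ⟨a, (mem_uA h.tr).2 ⟨i, hi⟩, C ∪ segment ℝ z a, ?_, Or.inl k2,
      Or.inr (right_mem_segment ℝ z a), ?_, ?_⟩
    · exact IsPreconnected.union z k3 (left_mem_segment ℝ z a) k1 (convex_segment z a).isPreconnected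
    · rintro y (hy | ⟨α, β, hα, hβ, hαβ, rfl⟩)
      · exact k4 y hy
      · intro h'
        have h5 := pw_ball h hw h'
        have e : α • z + β • a - x0 = ((α * D + β * L : ℝ) : ℂ) * u + (β : ℂ) * (a - (x0 + L * u)) := by
          have e1 : (α : ℂ) + β = 1 := by exact_mod_cast hαβ
          have e2 : z = x0 + (D : ℂ) * u := hzu
          simp only [Complex.real_smul]
          push_cast
          rw [e2]
          linear_combination x0 * e1
        have e3 : ‖((α * D + β * L : ℝ) : ℂ) * u‖ = α * D + β * L := by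
          have hL := L0 h
          rw [norm_mul, hu, mul_one, Complex.norm_real, Real.norm_of_nonneg (by positivity)]
        have e4 : ‖(β : ℂ) * (a - (x0 + L * u))‖ ≤ s / 4 := by
          rw [norm_mul, Complex.norm_real, Real.norm_of_nonneg hβ]
          have : β ≤ 1 := by linarith
          nlinarith [norm_nonneg (a - (x0 + L * u))]
        have e5 : ‖((α * D + β * L : ℝ) : ℂ) * u‖ ≤
            ‖α • z + β • a - x0‖ + ‖(β : ℂ) * (a - (x0 + L * u))‖ := by
          have : ((α * D + β * L : ℝ) : ℂ) * u =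
              (α • z + β • a - x0) - (β : ℂ) * (a - (x0 + L * u)) := by rw [e]; ring
          rw [this]
          exact norm_sub_le _ _
        rw [e3] at e5
        have e6 : L - 2 * s ≤ α * D + β * L := by
          have : α * (L - 2 * s) ≤ α * D := mul_le_mul_of_nonneg_left h2.le hα
          have h7 : β * (L - 2 * s) ≤ β * L := mul_le_mul_of_nonneg_left (by linarith) hβ
          have h8 : L - 2 * s = α * (L - 2 * s) + β * (L - 2 * s) := by
            rw [← add_mul, hαβ, one_mul]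
          linarith
        linarith
    · rintro y (hy | hy)
      · have := k5 y hy
        linarith
      · have h5 := Nearx440.seg_add hy
        have h6 : ‖z - a‖ ≤ 7 * s + s / 4 := by
          have e1 : z - a = ((D - L : ℝ) : ℂ) * u - (a - (x0 + L * u)) := by
            have e2 : z = x0 + (D : ℂ) * u := hzu
            rw [e2]; push_cast; ring
          have e3 : ‖((D - L : ℝ) : ℂ) * u‖ ≤ 7 * s := by
            rw [norm_mul, hu, mul_one, Complex.norm_real, Real.norm_eq_abs, abs_le]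
            constructor <;> linarith
          rw [e1]
          have := norm_sub_le (((D - L : ℝ) : ℂ) * u) (a - (x0 + L * u))
          linarith
        have h7 := k5 z k3
        have h8 : ‖y - p‖ ≤ ‖y - z‖ + ‖z - p‖ := by
          have := norm_add_le (y - z) (z - p)
          rwa [sub_add_sub_cancel] at this
        have h9 := norm_nonneg (y - a)
        rw [norm_sub_rev z y] at h5
        linarith
  · obtain ⟨C, k1, k2, k3, k4, k5⟩ := key e h2 (far_pw h hw hws' he)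
    exact ⟨e, (mem_uA h.tr).2 ⟨i, he⟩, C, k1, k2, k3, k4, fun c hc => (k5 c hc).trans (by linarith)⟩

/-! ### holes -/

/-- holes inside -/
theorem hol (h : Stg S A x0 L d s) : Hl S (Metric.closedBall x0 (L - d)) d := by
  intro z hz
  rw [Metric.mem_closedBall, dist_eq_norm] at hz
  obtain ⟨a, ha, h1⟩ := h.dns.hole z hz
  exact ⟨a, ha, by rw [norm_sub_rev]; exact h1.le⟩

/-- crude holes outside -/
theorem hol' (h : Stg S A x0 L d s) (hR : 0 ≤ R) :
    Hl S (Metric.closedBall x0 (L + R)) (R + s) := by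
  intro z hz
  rw [Metric.mem_closedBall, dist_eq_norm] at hz
  have hs := s0 h
  have hds := d_s h
  have hd0 := h.dns.dpos
  have hdL := h.dns.dL
  have hd2 : 2 * d ≤ s := by
    have : s - 2 * (s / 2 ^ 20) = s * (1 - 2 / 2 ^ 20) := by ring
    have h5 : 0 ≤ s * (1 - 2 / 2 ^ 20) := mul_nonneg hs.le (by norm_num)
    linarith
  rcases le_or_gt ‖z - x0‖ (L - d) with h1 | h1
  · obtain ⟨a, ha, h2⟩ := h.dns.hole z h1
    exact ⟨a, ha, by rw [norm_sub_rev]; linarith⟩
  · obtain ⟨u, hu, hzu⟩ := DomBx722.exists_pol (c := x0) (z := z) (by linarith)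
    obtain ⟨a, ha, h2⟩ := h.dns.hole (x0 + ((L - d : ℝ) : ℂ) * u) (by
      rw [add_sub_cancel_left, norm_mul, hu, mul_one, Complex.norm_real,
        Real.norm_of_nonneg (by linarith)])
    refine ⟨a, ha, ?_⟩
    have e : z - a = ((‖z - x0‖ - (L - d) : ℝ) : ℂ) * u - (a - (x0 + ((L - d : ℝ) : ℂ) * u)) := by
      have e2 : z = x0 + (‖z - x0‖ : ℂ) * u := hzu
      nth_rewrite 1 [e2]
      push_cast; ring
    have e3 : ‖((‖z - x0‖ - (L - d) : ℝ) : ℂ) * u‖ = ‖z - x0‖ - (L - d) := by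
      rw [norm_mul, hu, mul_one, Complex.norm_real, Real.norm_of_nonneg (by linarith)]
    rw [e]
    have := norm_sub_le (((‖z - x0‖ - (L - d) : ℝ) : ℂ) * u) (a - (x0 + ((L - d : ℝ) : ℂ) * u))
    linarith

/-- holes on the thickened polygon -/
theorem hol_pw (h : Stg S A x0 L d s) (hw : 0 ≤ w) (hws : 2 * w < s) :
    Hl S (Pw s w (cells (Gd A x0 L s))) d := by
  refine (hol h).mono fun z hz => ?_
  rw [Metric.mem_closedBall, dist_eq_norm]
  have h1 := pw_ball h hw hz
  have hds := d_s h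
  have hs := s0 h
  have : s / 2 ^ 20 ≤ s := div_le_self hs.le (by norm_num)
  linarith

/-- chains off the deep sites, two hole radii -/
theorem pth_out3 {P C : Set ℂ} {x y : ℂ} {r r' : ℝ} (hS : GP (S : Set ℂ)) (h3 : 3 ≤ S.card)
    (hx : x ∈ S) (hp : p ∉ P) (hxp : ‖x - p‖ ≤ ρ) (hC : IsPreconnected C)
    (hCP : ∀ q ∈ C, q ∉ P) (hH : Hl S P d) (hd0 : 0 ≤ d) (hd : d < ρ) (hpC : p ∈ C)
    (hCr : ∀ q ∈ C, ‖q - x‖ ≤ r) (hH2 : Hl S C r') (hy : y ∈ Clm S C) :
    Pth S {z | (z ∈ S ∧ z ∉ deep S P ρ) ∧ ‖z - x‖ ≤ r + r' + 2 * ρ} x y := by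
  have hρ : 0 ≤ ρ := (norm_nonneg _).trans hxp
  have hr : 0 ≤ r := (norm_nonneg _).trans (hCr p hpC)
  have hr' : 0 ≤ r' := by
    obtain ⟨s, -, h⟩ := hH2 p hpC
    exact (norm_nonneg _).trans h
  obtain ⟨c, hc, hcc⟩ := G6Wx723.exists_cell ⟨x, hx⟩ p
  have h1 : Pth S (Clm S (segment ℝ x p)) x c :=
    pth_conn hS h3 (convex_segment x p).isPreconnected (mem_clm hx (left_mem_segment ℝ x p))
      ⟨hc, p, right_mem_segment ℝ x p, hcc⟩
  have h2 : Pth S (Clm S C) c y := pth_conn hS h3 hC ⟨hc, p, hpC, hcc⟩ hy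
  refine (h1.mono ?_).trans (h2.mono ?_)
  · intro z hz
    refine ⟨⟨hz.1, off_seg hx hp hxp hz⟩, ?_⟩
    have h4 := seg_ball hx hz
    have h5 : ‖z - x‖ ≤ ‖z - p‖ + ‖p - x‖ := by
      have := norm_add_le (z - p) (p - x)
      rwa [sub_add_sub_cancel] at this
    rw [norm_sub_rev p x] at h5
    linarith
  · intro z hz
    refine ⟨⟨hz.1, off_conn' hCP hH hd0 hd hz⟩, ?_⟩
    obtain ⟨q, hq, h4⟩ := Segx991.near hH2 hz
    have h5 : ‖z - x‖ ≤ ‖z - q‖ + ‖q - x‖ := by
      have := norm_add_le (z - q) (q - x)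
      rwa [sub_add_sub_cancel] at this
    rw [norm_sub_rev z q] at h5
    have := hCr q hq
    linarith

/-! ### main statements -/

/-- deep sites are free -/
theorem deep_fr (h : Stg S A x0 L d s) (hw : 0 ≤ w) (hws : 2 * w < s) (hρ : 0 ≤ ρ) :
    (deep S (Pw s w (cells (Gd A x0 L s))) ρ : Set ℂ) ⊆ fr S A := by
  intro x hx
  have hx' := Finset.mem_coe.1 hx
  exact ⟨(mem_deep.1 hx').1, fun i hi => far_pw h hw hws hi (deep_mem hρ hx')⟩

theorem cls_ne (h : Stg S A x0 L d s) : ∃ i, ∃ e, e ∈ A i := by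
  obtain ⟨a, b, -, ha, -⟩ := h.tr.one 0 1 (by decide)
  exact ⟨0, a, ha⟩

/-- **(Joi)** -/
theorem joi (h : Stg S A x0 L d s) (hw : 0 ≤ w) (hws : 2 * w < s) (hd : d < ρ) :
    Joi S (deep S (Pw s w (cells (Gd A x0 L s))) ρ) (uA S A) := by
  obtain ⟨i, e, he⟩ := cls_ne h
  exact joi_w h.dns.gp h.card (s0 h) hw hws (con_F7 h) (hol_pw h hw hws) h.dns.dpos.le hd
    (Finset.filter_subset _ _) ((mem_uA h.tr).2 ⟨i, he⟩) (far_pw h hw hws he)

/-- **(Near)** for every site off the deep sites -/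
theorem near (h : Stg S A x0 L d s) (hw : 0 ≤ w) (hws : 4 * w ≤ s) (hd : d < ρ) (hρ : ρ ≤ s)
    (hx : x ∈ S) (hxd : x ∉ deep S (Pw s w (cells (Gd A x0 L s))) ρ) :
    Near S (deep S (Pw s w (cells (Gd A x0 L s))) ρ) (uA S A) (40 * s) x := by
  have hs := s0 h
  have hws' : 2 * w < s := by linarith
  obtain ⟨p, hp, hxp⟩ := exists_out hx hxd
  have hxL := h.dns.sub x hx
  have hpL : ‖p - x0‖ ≤ L + s := by
    have : ‖p - x0‖ ≤ ‖p - x‖ + ‖x - x0‖ := by
      have := norm_add_le (p - x) (x - x0)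
      rwa [sub_add_sub_cancel] at this
    rw [norm_sub_rev p x] at this
    linarith
  obtain ⟨e, he, C, k1, k2, k3, k4, k5⟩ := way_bad h hw hws hp hpL
  refine ⟨e, he, (pth_out3 (r := 15 * s) (r' := 17 * s) h.dns.gp h.card hx hp hxp k1 k4
    (hol_pw h hw hws') h.dns.dpos.le hd k2 ?_ ?_ (mem_clm (Finset.filter_subset _ _ he) k3)).mono ?_⟩
  · intro q hq
    have h1 := k5 q hq
    have h2 : ‖q - x‖ ≤ ‖q - p‖ + ‖p - x‖ := by
      have := norm_add_le (q - p) (p - x)
      rwa [sub_add_sub_cancel] at this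
    rw [norm_sub_rev p x] at h2
    linarith
  · have h3 := hol' h (R := 16 * s) (by linarith)
    rw [show 16 * s + s = 17 * s by ring] at h3
    refine h3.mono fun q hq => ?_
    rw [Metric.mem_closedBall, dist_eq_norm]
    have h1 := k5 q hq
    have h2 : ‖q - x0‖ ≤ ‖q - p‖ + ‖p - x0‖ := by
      have := norm_add_le (q - p) (p - x0)
      rwa [sub_add_sub_cancel] at this
    linarith
  · rintro y ⟨h1, h2⟩
    exact ⟨h1, h2.trans (by linarith)⟩

/-- **territories** with the free sites `deep S (Pw s w F) ρ` -/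
theorem terr (h : Stg S A x0 L d s) (hw : 0 ≤ w) (hws : 4 * w ≤ s) (hd : d < ρ) (hρ : ρ ≤ s) :
    ∃ T : ZMod 3 → Set ℂ, Tr S T ∧ (∀ i, A i ⊆ T i) ∧
      fr S T = (deep S (Pw s w (cells (Gd A x0 L s))) ρ : Set ℂ) ∧
      ∀ i, ThF S A T i (960 * s) := by
  have hs := s0 h
  have hws' : 2 * w < s := by linarith
  have hρ0 : 0 ≤ ρ := h.dns.dpos.le.trans hd.le
  obtain ⟨T, h1, h2, h3, h4⟩ := Colx583.tr_terr h.tr (deep_fr h hw hws' hρ0) (joi h hw hws' hd)
    (ρ := 40 * s) (by linarith)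
  refine ⟨T, h1, h2, h3, fun i x hx => ?_⟩
  have hxS : x ∈ S := Finset.mem_coe.1 (h1.sub i hx)
  have hxd : x ∉ deep S (Pw s w (cells (Gd A x0 L s))) ρ := by
    intro h'
    have : x ∈ fr S T := by rw [h3]; exact Finset.mem_coe.2 h'
    exact this.2 i hx
  obtain ⟨y, hy, hp⟩ := h4 i x hx (near h hw hws hd hρ hxS hxd)
  refine ⟨y, hy, hp.mono ?_⟩
  rintro z ⟨h5, h6⟩
  exact ⟨h5, h6.trans (by linarith)⟩

/-- the deep sites of the setting -/
theorem va_eq : Va S A x0 L d s = deep S (Pw s 0 (cells (Gd A x0 L s))) (2 * d) := by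
  unfold Va Al NetVx346.Vin deep
  rw [pw_zero]

end Crest.Agent.R143.Glux991
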