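import Crest.Agent.R143.Grd_359
import Crest.Agent.R143.TentM_951

/-!
# Row 143 (S0194), CONT, (K7), LAYER (660's route): sides of neighbouring bricks (helper359)

* `mem_box` : points of a unit edge
* **`side`** : for neighbouring bricks `g, b` a dart with `g` on the left and `b` on the right; a
  point at distance `≤ δ` from both tiles is at distance `≤ 2 δ` from the edge
* `dart_nb` : the bricks of a dart of `G`
-/

set_option autoImplicit false
set_option linter.unreachableTactic false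
set_option linter.unusedTactic false

noncomputable section

open scoped Classical

namespace Crest.Agent.R143.Sidex359

open Set
open Crest.Agent.R143.K7Dx359 Crest.Agent.R143.K7x359 Crest.Agent.R143.Grdx359
open Crest.Agent.R158
open Crest.Agent.R143.Brkx478 (Bk Nb Conn cells Cn bk nb_iff mem_cells)
open Crest.Agent.R143.Gridx991 (tl mem_tl)
open Crest.Agent.R158.Sp896 (lc rc pt ed)

variable {s δ : ℝ} {g b : Bk} {x z w : ℂ}

theorem clamp {lo hi x δ : ℝ} (hδ : 0 ≤ δ) (h : lo ≤ hi) (h1 : lo - δ ≤ x) (h2 : x ≤ hi + δ) :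
    ∃ p, lo ≤ p ∧ p ≤ hi ∧ |x - p| ≤ δ := by
  refine ⟨max lo (min hi x), le_max_left _ _, max_le h (min_le_left _ _), ?_⟩
  rw [abs_le]
  rcases le_total hi x with h3 | h3
  · rw [min_eq_left h3, max_eq_right h]
    constructor <;> linarith
  · rw [min_eq_right h3]
    rcases le_total lo x with h4 | h4
    · rw [max_eq_right h4]; constructor <;> linarith
    · rw [max_eq_left h4]; constructor <;> linarith

/-- points of a unit edge -/
theorem mem_box (hs : 0 < s) {a a' : Sp896.V} (h : Sp896.Adj a a')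
    (h1 : s * (min a.1 a'.1 : ℤ) ≤ z.re) (h2 : z.re ≤ s * (max a.1 a'.1 : ℤ))
    (h3 : s * (min a.2 a'.2 : ℤ) ≤ z.im) (h4 : z.im ≤ s * (max a.2 a'.2 : ℤ)) : z ∈ ed s a a' := by
  rw [TentMx951.mem_ed]
  have q : ∀ {m n : ℤ} {y : ℝ}, n = m + 1 → s * (m : ℝ) ≤ y → y ≤ s * (n : ℝ) →
      ∃ t : ℝ, 0 ≤ t ∧ t ≤ 1 ∧ y = s * (m + t) := by
    intro m n y hn h5 h6
    refine ⟨y / s - m, ?_, ?_, ?_⟩
    · rw [sub_nonneg, le_div_iff₀ hs]; linarith
    · rw [sub_le_iff_le_add, div_le_iff₀ hs]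
      rw [hn] at h6
      push_cast at h6
      linarith
    · field_simp; ring
  rcases h with ⟨e1, e2⟩ | ⟨e1, e2⟩ | ⟨e1, e2⟩ | ⟨e1, e2⟩
  · rw [min_eq_left (by omega)] at h1
    rw [max_eq_right (by omega)] at h2
    rw [min_eq_left (by omega)] at h3
    rw [max_eq_left (by omega)] at h4
    obtain ⟨t, t0, t1, ht⟩ := q e1 h1 h2
    refine ⟨t, t0, t1, ?_, ?_⟩
    · rw [ht, e1]; push_cast; ring
    · rw [e2]; linarith
  · rw [min_eq_right (by omega)] at h1
    rw [max_eq_left (by omega)] at h2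
    rw [min_eq_left (by omega)] at h3
    rw [max_eq_left (by omega)] at h4
    obtain ⟨t, t0, t1, ht⟩ := q (show a.1 = a'.1 + 1 by omega) h1 h2
    refine ⟨1 - t, by linarith, by linarith, ?_, ?_⟩
    · rw [ht, e1]; push_cast; ring
    · rw [e2]; linarith
  · rw [min_eq_left (by omega)] at h1
    rw [max_eq_left (by omega)] at h2
    rw [min_eq_left (by omega)] at h3
    rw [max_eq_right (by omega)] at h4
    obtain ⟨t, t0, t1, ht⟩ := q e2 h3 h4
    refine ⟨t, t0, t1, ?_, ?_⟩
    · rw [e1]; linarith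
    · rw [ht, e2]; push_cast; ring
  · rw [min_eq_left (by omega)] at h1
    rw [max_eq_left (by omega)] at h2
    rw [min_eq_right (by omega)] at h3
    rw [max_eq_left (by omega)] at h4
    obtain ⟨t, t0, t1, ht⟩ := q (show a.2 = a'.2 + 1 by omega) h3 h4
    refine ⟨1 - t, by linarith, by linarith, ?_, ?_⟩
    · rw [e1]; linarith
    · rw [ht, e2]; push_cast; ring

/-- a point near both tiles is near the box between them -/
theorem near_box (hs : 0 < s) (hδ : 0 ≤ δ) {a a' : Sp896.V} (h : Sp896.Adj a a')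
    (hx : ∀ z ∈ tl s g, ∀ w ∈ tl s b, ‖x - z‖ ≤ δ → ‖x - w‖ ≤ δ →
      s * (min a.1 a'.1 : ℤ) - δ ≤ x.re ∧ x.re ≤ s * (max a.1 a'.1 : ℤ) + δ ∧
      s * (min a.2 a'.2 : ℤ) - δ ≤ x.im ∧ x.im ≤ s * (max a.2 a'.2 : ℤ) + δ)
    (hz : z ∈ tl s g) (hw : w ∈ tl s b) (h1 : ‖x - z‖ ≤ δ) (h2 : ‖x - w‖ ≤ δ) :
    Metric.infDist x (ed s a a') ≤ 2 * δ := by
  obtain ⟨b1, b2, b3, b4⟩ := hx z hz w hw h1 h2
  have m1 : s * ((min a.1 a'.1 : ℤ) : ℝ) ≤ s * ((max a.1 a'.1 : ℤ) : ℝ) :=
    mul_le_mul_of_nonneg_left (by exact_mod_cast min_le_max) hs.le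
  have m2 : s * ((min a.2 a'.2 : ℤ) : ℝ) ≤ s * ((max a.2 a'.2 : ℤ) : ℝ) :=
    mul_le_mul_of_nonneg_left (by exact_mod_cast min_le_max) hs.le
  obtain ⟨p, p1, p2, p3⟩ := clamp hδ m1 b1 b2
  obtain ⟨q, q1, q2, q3⟩ := clamp hδ m2 b3 b4
  have hmem : (⟨p, q⟩ : ℂ) ∈ ed s a a' := mem_box hs h p1 p2 q1 q2
  refine (Metric.infDist_le_dist_of_mem hmem).trans ?_
  rw [dist_eq_norm]
  refine (Complex.norm_le_abs_re_add_abs_im _).trans ?_
  rw [Complex.sub_re, Complex.sub_im]
  linarith

/-- **the side between two neighbouring bricks** -/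
theorem side (hs : 0 < s) (hδ : 0 ≤ δ) (h : Nb g b) : ∃ a a' : Sp896.V, Sp896.Adj a a' ∧
    bk (lc a a') = g ∧ bk (rc a a') = b ∧
    ∀ x z w, z ∈ tl s g → w ∈ tl s b → ‖x - z‖ ≤ δ → ‖x - w‖ ≤ δ →
      Metric.infDist x (ed s a a') ≤ 2 * δ := by
  have bd : ∀ {x z w : ℂ}, z ∈ tl s g → w ∈ tl s b → ‖x - z‖ ≤ δ → ‖x - w‖ ≤ δ →
      (s * (2 * g.1 + g.2) - δ ≤ x.re ∧ x.re ≤ s * (2 * g.1 + g.2 + 2) + δ ∧
        s * g.2 - δ ≤ x.im ∧ x.im ≤ s * (g.2 + 1) + δ) ∧
      (s * (2 * b.1 + b.2) - δ ≤ x.re ∧ x.re ≤ s * (2 * b.1 + b.2 + 2) + δ ∧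
        s * b.2 - δ ≤ x.im ∧ x.im ≤ s * (b.2 + 1) + δ) := by
    intro x z w hz hw h1 h2
    rw [mem_tl hs] at hz hw
    have r1 := (Complex.abs_re_le_norm (x - z)).trans h1
    have r2 := (Complex.abs_im_le_norm (x - z)).trans h1
    have r3 := (Complex.abs_re_le_norm (x - w)).trans h2
    have r4 := (Complex.abs_im_le_norm (x - w)).trans h2
    rw [Complex.sub_re, abs_le] at r1 r3
    rw [Complex.sub_im, abs_le] at r2 r4
    obtain ⟨z1, z2, z3, z4⟩ := hz
    obtain ⟨w1, w2, w3, w4⟩ := hw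
    refine ⟨⟨?_, ?_, ?_, ?_⟩, ⟨?_, ?_, ?_, ?_⟩⟩ <;> linarith
  obtain ⟨g1, g2⟩ := g
  obtain ⟨b1, b2⟩ := b
  rw [nb_iff] at h
  simp only at h bd
  have fin : ∀ {a a' : Sp896.V} (had : Sp896.Adj a a') (h1 : bk (lc a a') = (g1, g2))
      (h2 : bk (rc a a') = (b1, b2))
      (h3 : ∀ x : ℂ, (s * (2 * (g1 : ℝ) + g2) - δ ≤ x.re ∧ x.re ≤ s * (2 * g1 + g2 + 2) + δ ∧
        s * g2 - δ ≤ x.im ∧ x.im ≤ s * (g2 + 1) + δ) →
        (s * (2 * (b1 : ℝ) + b2) - δ ≤ x.re ∧ x.re ≤ s * (2 * b1 + b2 + 2) + δ ∧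
        s * b2 - δ ≤ x.im ∧ x.im ≤ s * (b2 + 1) + δ) →
        s * (min a.1 a'.1 : ℤ) - δ ≤ x.re ∧ x.re ≤ s * (max a.1 a'.1 : ℤ) + δ ∧
        s * (min a.2 a'.2 : ℤ) - δ ≤ x.im ∧ x.im ≤ s * (max a.2 a'.2 : ℤ) + δ),
      ∃ a a' : Sp896.V, Sp896.Adj a a' ∧ bk (lc a a') = (g1, g2) ∧ bk (rc a a') = (b1, b2) ∧
        ∀ x z w, z ∈ tl s (g1, g2) → w ∈ tl s (b1, b2) → ‖x - z‖ ≤ δ → ‖x - w‖ ≤ δ →
        Metric.infDist x (ed s a a') ≤ 2 * δ := by
    intro a a' had h1 h2 h3
    refine ⟨a, a', had, h1, h2, fun x z w hz hw e1 e2 => ?_⟩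
    refine near_box hs hδ had (fun z hz w hw e1 e2 => ?_) hz hw e1 e2
    obtain ⟨c1, c2⟩ := bd hz hw e1 e2
    exact h3 x c1 c2
  rcases h with ⟨e1, e2⟩ | ⟨e1, e2⟩ | ⟨e1, e2⟩ | ⟨e1, e2⟩ | ⟨e1, e2⟩ | ⟨e1, e2⟩
  · refine fin (a := (2 * g1 + g2 + 2, g2)) (a' := (2 * g1 + g2 + 2, g2 + 1)) ?_ ?_ ?_ ?_
    · unfold Sp896.Adj; first | omega | (simp only; omega)
    · unfold bk lc; ext <;> simp only <;> first | omega | rfl
    · unfold bk rc; ext <;> simp only <;> omega
    · rintro x ⟨c1, c2, c3, c4⟩ ⟨c5, c6, c7, c8⟩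
      have f1 : (b1 : ℝ) = _ := congrArg (Int.cast : ℤ → ℝ) e1
      have f2 : (b2 : ℝ) = _ := congrArg (Int.cast : ℤ → ℝ) e2
      rw [f1, f2] at c5 c6
      rw [f2] at c7 c8
      push_cast at c5 c6 c7 c8
      simp only
      refine ⟨?_, ?_, ?_, ?_⟩
      · first
          | rw [min_eq_left (by omega)]; push_cast; nlinarith
          | rw [min_eq_right (by omega)]; push_cast; nlinarith
      · first
          | rw [max_eq_left (by omega)]; push_cast; nlinarith
          | rw [max_eq_right (by omega)]; push_cast; nlinarith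
      · first
          | rw [min_eq_left (by omega)]; push_cast; nlinarith
          | rw [min_eq_right (by omega)]; push_cast; nlinarith
      · first
          | rw [max_eq_left (by omega)]; push_cast; nlinarith
          | rw [max_eq_right (by omega)]; push_cast; nlinarith
  · refine fin (a := (2 * g1 + g2 + 2, g2 + 1)) (a' := (2 * g1 + g2 + 1, g2 + 1)) ?_ ?_ ?_ ?_
    · unfold Sp896.Adj; first | omega | (simp only; omega)
    · unfold bk lc; ext <;> simp only <;> first | omega | rfl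
    · unfold bk rc; ext <;> simp only <;> omega
    · rintro x ⟨c1, c2, c3, c4⟩ ⟨c5, c6, c7, c8⟩
      have f1 : (b1 : ℝ) = _ := congrArg (Int.cast : ℤ → ℝ) e1
      have f2 : (b2 : ℝ) = _ := congrArg (Int.cast : ℤ → ℝ) e2
      rw [f1, f2] at c5 c6
      rw [f2] at c7 c8
      push_cast at c5 c6 c7 c8
      simp only
      refine ⟨?_, ?_, ?_, ?_⟩
      · first
          | rw [min_eq_left (by omega)]; push_cast; nlinarith
          | rw [min_eq_right (by omega)]; push_cast; nlinarith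
      · first
          | rw [max_eq_left (by omega)]; push_cast; nlinarith
          | rw [max_eq_right (by omega)]; push_cast; nlinarith
      · first
          | rw [min_eq_left (by omega)]; push_cast; nlinarith
          | rw [min_eq_right (by omega)]; push_cast; nlinarith
      · first
          | rw [max_eq_left (by omega)]; push_cast; nlinarith
          | rw [max_eq_right (by omega)]; push_cast; nlinarith
  · refine fin (a := (2 * g1 + g2 + 1, g2 + 1)) (a' := (2 * g1 + g2, g2 + 1)) ?_ ?_ ?_ ?_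
    · unfold Sp896.Adj; first | omega | (simp only; omega)
    · unfold bk lc; ext <;> simp only <;> first | omega | rfl
    · unfold bk rc; ext <;> simp only <;> omega
    · rintro x ⟨c1, c2, c3, c4⟩ ⟨c5, c6, c7, c8⟩
      have f1 : (b1 : ℝ) = _ := congrArg (Int.cast : ℤ → ℝ) e1
      have f2 : (b2 : ℝ) = _ := congrArg (Int.cast : ℤ → ℝ) e2
      rw [f1, f2] at c5 c6
      rw [f2] at c7 c8
      push_cast at c5 c6 c7 c8
      simp only
      refine ⟨?_, ?_, ?_, ?_⟩
      · first
          | rw [min_eq_left (by omega)]; push_cast; nlinarith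
          | rw [min_eq_right (by omega)]; push_cast; nlinarith
      · first
          | rw [max_eq_left (by omega)]; push_cast; nlinarith
          | rw [max_eq_right (by omega)]; push_cast; nlinarith
      · first
          | rw [min_eq_left (by omega)]; push_cast; nlinarith
          | rw [min_eq_right (by omega)]; push_cast; nlinarith
      · first
          | rw [max_eq_left (by omega)]; push_cast; nlinarith
          | rw [max_eq_right (by omega)]; push_cast; nlinarith
  · refine fin (a := (2 * g1 + g2, g2 + 1)) (a' := (2 * g1 + g2, g2)) ?_ ?_ ?_ ?_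
    · unfold Sp896.Adj; first | omega | (simp only; omega)
    · unfold bk lc; ext <;> simp only <;> first | omega | rfl
    · unfold bk rc; ext <;> simp only <;> omega
    · rintro x ⟨c1, c2, c3, c4⟩ ⟨c5, c6, c7, c8⟩
      have f1 : (b1 : ℝ) = _ := congrArg (Int.cast : ℤ → ℝ) e1
      have f2 : (b2 : ℝ) = _ := congrArg (Int.cast : ℤ → ℝ) e2
      rw [f1, f2] at c5 c6
      rw [f2] at c7 c8
      push_cast at c5 c6 c7 c8
      simp only
      refine ⟨?_, ?_, ?_, ?_⟩
      · first
          | rw [min_eq_left (by omega)]; push_cast; nlinarith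
          | rw [min_eq_right (by omega)]; push_cast; nlinarith
      · first
          | rw [max_eq_left (by omega)]; push_cast; nlinarith
          | rw [max_eq_right (by omega)]; push_cast; nlinarith
      · first
          | rw [min_eq_left (by omega)]; push_cast; nlinarith
          | rw [min_eq_right (by omega)]; push_cast; nlinarith
      · first
          | rw [max_eq_left (by omega)]; push_cast; nlinarith
          | rw [max_eq_right (by omega)]; push_cast; nlinarith
  · refine fin (a := (2 * g1 + g2, g2)) (a' := (2 * g1 + g2 + 1, g2)) ?_ ?_ ?_ ?_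
    · unfold Sp896.Adj; first | omega | (simp only; omega)
    · unfold bk lc; ext <;> simp only <;> first | omega | rfl
    · unfold bk rc; ext <;> simp only <;> omega
    · rintro x ⟨c1, c2, c3, c4⟩ ⟨c5, c6, c7, c8⟩
      have f1 : (b1 : ℝ) = _ := congrArg (Int.cast : ℤ → ℝ) e1
      have f2 : (b2 : ℝ) = _ := congrArg (Int.cast : ℤ → ℝ) e2
      rw [f1, f2] at c5 c6
      rw [f2] at c7 c8
      push_cast at c5 c6 c7 c8
      simp only
      refine ⟨?_, ?_, ?_, ?_⟩
      · first
          | rw [min_eq_left (by omega)]; push_cast; nlinarith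
          | rw [min_eq_right (by omega)]; push_cast; nlinarith
      · first
          | rw [max_eq_left (by omega)]; push_cast; nlinarith
          | rw [max_eq_right (by omega)]; push_cast; nlinarith
      · first
          | rw [min_eq_left (by omega)]; push_cast; nlinarith
          | rw [min_eq_right (by omega)]; push_cast; nlinarith
      · first
          | rw [max_eq_left (by omega)]; push_cast; nlinarith
          | rw [max_eq_right (by omega)]; push_cast; nlinarith
  · refine fin (a := (2 * g1 + g2 + 1, g2)) (a' := (2 * g1 + g2 + 2, g2)) ?_ ?_ ?_ ?_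
    · unfold Sp896.Adj; first | omega | (simp only; omega)
    · unfold bk lc; ext <;> simp only <;> first | omega | rfl
    · unfold bk rc; ext <;> simp only <;> omega
    · rintro x ⟨c1, c2, c3, c4⟩ ⟨c5, c6, c7, c8⟩
      have f1 : (b1 : ℝ) = _ := congrArg (Int.cast : ℤ → ℝ) e1
      have f2 : (b2 : ℝ) = _ := congrArg (Int.cast : ℤ → ℝ) e2
      rw [f1, f2] at c5 c6
      rw [f2] at c7 c8
      push_cast at c5 c6 c7 c8
      simp only
      refine ⟨?_, ?_, ?_, ?_⟩
      · first
          | rw [min_eq_left (by omega)]; push_cast; nlinarith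
          | rw [min_eq_right (by omega)]; push_cast; nlinarith
      · first
          | rw [max_eq_left (by omega)]; push_cast; nlinarith
          | rw [max_eq_right (by omega)]; push_cast; nlinarith
      · first
          | rw [min_eq_left (by omega)]; push_cast; nlinarith
          | rw [min_eq_right (by omega)]; push_cast; nlinarith
      · first
          | rw [max_eq_left (by omega)]; push_cast; nlinarith
          | rw [max_eq_right (by omega)]; push_cast; nlinarith

/-- the two cells of a lattice edge are neighbours -/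
theorem adj_lr {a a' : Sp896.V} (h : Sp896.Adj a a') : Sp896.Adj (lc a a') (rc a a') := by
  unfold Sp896.Adj at h ⊢
  unfold lc rc
  simp only
  omega

/-- the bricks of a boundary dart -/
theorem dart_nb {G : Set Bk} {a a' : Sp896.V} (h : Dart G a a') :
    bk (lc a a') ∈ G ∧ bk (rc a a') ∉ G ∧ Nb (bk (lc a a')) (bk (rc a a')) := by
  obtain ⟨h1, h2, h3⟩ := h
  refine ⟨h2, h3, ?_⟩
  rcases Crest.Agent.R143.Brkx478.adj_bk (adj_lr h1) with h4 | h4
  · exact absurd (show bk (rc a a') ∈ G from h4 ▸ h2) h3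
  · exact h4

/-- **a point near a tile of `G` and near a tile off `G` is near the common boundary edge** -/
theorem lab_side {G : Set Bk} (hs : 0 < s) (hδs : 2 * δ < s) (hg : g ∈ G) (hb : b ∉ G)
    (hz : z ∈ tl s g) (hw : w ∈ tl s b) (h1 : ‖x - z‖ ≤ δ) (h2 : ‖x - w‖ ≤ δ) :
    ∃ a a', Dart G a a' ∧ bk (lc a a') = g ∧ bk (rc a a') = b ∧
      Metric.infDist x (ed s a a') ≤ 2 * δ := by
  have hδ : 0 ≤ δ := (norm_nonneg _).trans h1
  have hgb : g ≠ b := fun h => hb (h ▸ hg)
  have hnb : Nb g b := by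
    rcases far' hs hz hw (by
      have h3 : ‖z - w‖ ≤ ‖z - x‖ + ‖x - w‖ := by
        have := norm_add_le (z - x) (x - w)
        rwa [sub_add_sub_cancel] at this
      rw [norm_sub_rev z x] at h3
      linarith) with h | h
    · exact absurd h hgb
    · exact h
  obtain ⟨a, a', h3, h4, h5, h6⟩ := side hs hδ hnb
  refine ⟨a, a', ⟨h3, ?_, ?_⟩, h4, h5, h6 x z w hz hw h1 h2⟩
  · rw [mem_cells, h4]; exact hg
  · rw [mem_cells, h5]; exact hb

end Crest.Agent.R143.Sidex359
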