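import Crest.Agent.R143.QFor_341
import Crest.Agent.R143.Glu_991
import Crest.Agent.R143.Side_359

/-!
# Row 143 (S0194), K7: the layer (helper341)

Proof of 359's `LAYER` by the quotient forest (`QFor_341`): one region only. A ring brick `b` (bad,
next to a good one) contains no class site; its core = the sites whose cells meet the shrunk tile.
The sites next to the deep sites are attached to the cores by 583's thin forest inside the free
sites off `Va`; the blocks are contracted to points, 991's `near` gives the classes.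
-/

set_option autoImplicit false

noncomputable section

open scoped Classical

namespace Crest.Agent.R143.LayKx341

open Set
open Crest.Agent.R158
open Crest.Agent.R158.Sp896 (V lc rc pt ed sq)
open Crest.Agent.R143.B0x346 Crest.Agent.R143.DelGx806 Crest.Agent.R143.DelRx806
  Crest.Agent.R143.JColx54 Crest.Agent.R143.RE0x723 Crest.Agent.R143.K33x877
open Crest.Agent.R143.Brkx478
open Crest.Agent.R143.Tenx416 (Pg)
open Crest.Agent.R143.Gridx991 (tl mem_tl tl_dist exists_tl)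
open Crest.Agent.R143.GridKx991 (al_eq int_bd' tl_near gd_iff gd_cls s0 d_s edge_s)
open Crest.Agent.R143.Segx991
open Crest.Agent.R143.Terr2x583 (Joi Near Lab thin_forest)
open Crest.Agent.R143.Colx583 (uA mem_uA)
open Crest.Agent.R143.QForx341
open Crest.Agent.R143.K7Dx359 (Stg Gd Al Va ThF Lay LAYER Dart)

variable {S : Finset ℂ} {A : ZMod 3 → Set ℂ} {s L d δ : ℝ} {x0 x y z w : ℂ} {b c g : Bk}

/-! ### boxes -/

theorem box_convex (a1 a2 b1 b2 : ℝ) :
    Convex ℝ {z : ℂ | a1 ≤ z.re ∧ z.re ≤ a2 ∧ b1 ≤ z.im ∧ z.im ≤ b2} := by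
  have h := ((convex_halfSpace_re_ge a1).inter (convex_halfSpace_re_le a2)).inter
    ((convex_halfSpace_im_ge b1).inter (convex_halfSpace_im_le b2))
  convert h using 1
  ext z
  constructor
  · rintro ⟨h1, h2, h3, h4⟩; exact ⟨⟨h1, h2⟩, h3, h4⟩
  · rintro ⟨⟨h1, h2⟩, h3, h4⟩; exact ⟨h1, h2, h3, h4⟩

/-- shrunk tile -/
def Tc (s δ : ℝ) (b : Bk) : Set ℂ :=
  {z | s * (2 * b.1 + b.2) + δ ≤ z.re ∧ z.re ≤ s * (2 * b.1 + b.2 + 2) - δ ∧
    s * b.2 + δ ≤ z.im ∧ z.im ≤ s * (b.2 + 1) - δ}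

/-- open tile -/
def Ti (s : ℝ) (b : Bk) : Set ℂ :=
  {z | s * (2 * b.1 + b.2) < z.re ∧ z.re < s * (2 * b.1 + b.2 + 2) ∧
    s * b.2 < z.im ∧ z.im < s * (b.2 + 1)}

theorem tc_convex : Convex ℝ (Tc s δ b) := box_convex _ _ _ _

theorem tl_convex (hs : 0 < s) : Convex ℝ (tl s b) := by
  have e : tl s b = {z : ℂ | s * (2 * b.1 + b.2) ≤ z.re ∧ z.re ≤ s * (2 * b.1 + b.2 + 2) ∧
      s * b.2 ≤ z.im ∧ z.im ≤ s * (b.2 + 1)} := by
    ext z; exact mem_tl hs
  rw [e]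
  exact box_convex _ _ _ _

theorem ti_tl (hs : 0 < s) (h : z ∈ Ti s b) : z ∈ tl s b := by
  rw [mem_tl hs]
  exact ⟨h.1.le, h.2.1.le, h.2.2.1.le, h.2.2.2.le⟩

/-- an inner point of a tile is in no other tile -/
theorem ti_eq (hs : 0 < s) (h : z ∈ Ti s b) (hc : z ∈ tl s c) : c = b := by
  rw [mem_tl hs] at hc
  obtain ⟨h1, h2, h3, h4⟩ := h
  obtain ⟨c1, c2, c3, c4⟩ := hc
  have k1 : (2 * c.1 + c.2) - (2 * b.1 + b.2) < (2 : ℕ) :=
    int_bd' hs (x := z.re) (by push_cast; exact c1) (by push_cast; exact h2)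
  have k2 : (2 * b.1 + b.2) - (2 * c.1 + c.2) < (2 : ℕ) :=
    int_bd' hs (x := s * (2 * b.1 + b.2)) (by push_cast; exact le_rfl)
      (by push_cast; exact h1.trans_le c2)
  have k3 : c.2 - b.2 < (1 : ℕ) := int_bd' hs (x := z.im) c3 (by push_cast; exact h4)
  have k4 : b.2 - c.2 < (1 : ℕ) :=
    int_bd' hs (x := s * b.2) le_rfl (by push_cast; exact h3.trans_le c4)
  push_cast at k1 k2 k3 k4
  exact Prod.ext (by omega) (by omega)

theorem tc_ti (hδ : 0 < δ) (h : z ∈ Tc s δ b) : z ∈ Ti s b := by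
  obtain ⟨h1, h2, h3, h4⟩ := h
  exact ⟨by linarith, by linarith, by linarith, by linarith⟩

/-- every point of the tile is near the shrunk tile -/
theorem clampT (hs : 0 < s) (hδ : 0 ≤ δ) (hδs : 2 * δ ≤ s) (hw : w ∈ tl s b) :
    ∃ p ∈ Tc s δ b, ‖w - p‖ ≤ 2 * δ := by
  rw [mem_tl hs] at hw
  obtain ⟨h1, h2, h3, h4⟩ := hw
  obtain ⟨u, u1, u2, u3⟩ := Glux991.clamp (a := s * (2 * b.1 + b.2) + δ)
    (b := s * (2 * b.1 + b.2 + 2) - δ) (w := δ) (u := w.re) (by linarith) (by linarith)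
    (by linarith) hδ
  obtain ⟨v, v1, v2, v3⟩ := Glux991.clamp (a := s * b.2 + δ)
    (b := s * (b.2 + 1) - δ) (w := δ) (u := w.im) (by linarith) (by linarith) (by linarith) hδ
  refine ⟨⟨u, v⟩, ⟨u1, u2, v1, v2⟩, ?_⟩
  have := Complex.norm_le_abs_re_add_abs_im (w - ⟨u, v⟩)
  rw [Complex.sub_re, Complex.sub_im] at this
  dsimp only at this
  linarith

/-! ### ring bricks -/

/-- ring brick: bad, next to a good one -/
def Rg (A : ZMod 3 → Set ℂ) (x0 : ℂ) (L s : ℝ) (b : Bk) : Prop :=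
  b ∉ Gd A x0 L s ∧ ∃ g ∈ Gd A x0 L s, Nb g b

theorem Rg.ball (h : Rg A x0 L s b) (hz : z ∈ tl s b) : ‖z - x0‖ ≤ L - 2 * s := by
  obtain ⟨-, g, hg, hgb⟩ := h
  exact ((gd_iff.1 hg) b (Or.inr hgb)).1 z hz

theorem Rg.cls (h : Rg A x0 L s b) {i : ZMod 3} (he : z ∈ A i) : z ∉ tl s b := by
  obtain ⟨-, g, hg, hgb⟩ := h
  exact ((gd_iff.1 hg) b (Or.inr hgb)).2 i z he

theorem mem_al : z ∈ Al A x0 L s ↔ ∃ g ∈ Gd A x0 L s, z ∈ tl s g := by
  rw [al_eq]
  simp only [mem_iUnion, exists_prop]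

theorem va_deep : Va S A x0 L d s = deep S (Al A x0 L s) (2 * d) := rfl

/-- density on the tile -/
theorem Rg.hl (h : Rg A x0 L s b) (hS : Stg S A x0 L d s) : Hl S (tl s b) d := by
  refine (Glux991.hol hS).mono fun z hz => ?_
  rw [Metric.mem_closedBall, dist_eq_norm]
  have h1 := h.ball hz
  have h2 := d_s hS
  have hs := s0 hS
  have : s / 2 ^ 20 ≤ s := div_le_self hs.le (by norm_num)
  linarith

/-- sites near a bad tile are not deep -/
theorem off_tile (hS : Stg S A x0 L d s) (hb : b ∉ Gd A x0 L s) (hw : w ∈ tl s b)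
    (hyw : ‖y - w‖ ≤ d) : y ∉ Va S A x0 L d s := by
  have hs := s0 hS
  have hd := hS.dns.dpos
  have hds := d_s hS
  have h20 : s / 2 ^ 20 ≤ s := div_le_self hs.le (by norm_num)
  obtain ⟨p, hp, hwp⟩ := clampT (δ := d / 2) hs (by linarith) (by linarith) hw
  have hpA : p ∉ Al A x0 L s := by
    intro h
    obtain ⟨g, hg, h1⟩ := mem_al.1 h
    have := ti_eq hs (tc_ti (by linarith) hp) h1
    rw [this] at hg
    exact hb hg
  rw [va_deep]
  refine not_deep hpA ?_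
  have := norm_add_le (y - w) (w - p)
  rw [sub_add_sub_cancel] at this
  linarith

/-- core of a ring brick -/
def core (S : Finset ℂ) (s δ : ℝ) (b : Bk) : Set ℂ := Clm S (Tc s δ b)

theorem core_ti (hS : Stg S A x0 L d s) (hb : Rg A x0 L s b) (hd : d < δ)
    (hx : x ∈ core S s δ b) : x ∈ S ∧ x ∈ Ti s b := by
  have hs := s0 hS
  have hd0 := hS.dns.dpos
  have hH : Hl S (Tc s δ b) d := (hb.hl hS).mono fun z hz => ti_tl hs (tc_ti (by linarith) hz)
  obtain ⟨q, hq, h1⟩ := near hH hx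
  refine ⟨hx.1, ?_⟩
  obtain ⟨q1, q2, q3, q4⟩ := hq
  have e1 := (Complex.abs_re_le_norm (q - x)).trans h1
  have e2 := (Complex.abs_im_le_norm (q - x)).trans h1
  rw [Complex.sub_re, abs_le] at e1
  rw [Complex.sub_im, abs_le] at e2
  exact ⟨by linarith [e1.2], by linarith [e1.1], by linarith [e2.2], by linarith [e2.1]⟩

/-- free sites off `Va` -/
def Of (S : Finset ℂ) (A : ZMod 3 → Set ℂ) (x0 : ℂ) (L d s : ℝ) : Finset ℂ :=
  S.filter fun x => x ∉ Va S A x0 L d s ∧ ∀ i, x ∉ A i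

theorem mem_Of : x ∈ Of S A x0 L d s ↔ x ∈ S ∧ x ∉ Va S A x0 L d s ∧ ∀ i, x ∉ A i :=
  Finset.mem_filter

theorem core_Of (hS : Stg S A x0 L d s) (hb : Rg A x0 L s b) (hd : d < δ)
    (hx : x ∈ core S s δ b) : x ∈ Of S A x0 L d s := by
  have hs := s0 hS
  obtain ⟨h1, h2⟩ := core_ti hS hb hd hx
  refine mem_Of.2 ⟨h1, ?_, fun i hi => hb.cls hi (ti_tl hs h2)⟩
  have hd0 := hS.dns.dpos
  exact off_tile hS hb.1 (ti_tl hs h2) (by rw [sub_self, norm_zero]; exact hd0.le)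

/-- **the sites next to the deep sites are joined to the cores** -/
theorem to_core (hS : Stg S A x0 L d s) (hd : 3 * d ≤ δ) (hδ : 8 * δ ≤ s) (hx : x ∈ S)
    (hxV : x ∉ Va S A x0 L d s) {v : ℂ} (hv : v ∈ Va S A x0 L d s) (hxv : Adj S x v) :
    x ∈ Of S A x0 L d s ∧ (∃ g ∈ Gd A x0 L s, v ∈ tl s g) ∧
    ∃ b, Rg A x0 L s b ∧ ∃ e ∈ core S s δ b,
      Pth S {z | z ∈ Of S A x0 L d s ∧ ‖z - x‖ ≤ 3 * δ} x e := by
  have hs := s0 hS
  have hd0 := hS.dns.dpos
  have hE := edge_s hS hxv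
  have h17 : s / 2 ^ 17 ≤ s / 8 := div_le_div_of_nonneg_left hs.le (by norm_num) (by norm_num)
  have hvA : v ∈ Al A x0 L s := deep_mem (by linarith) hv
  obtain ⟨g, hg, hvg⟩ := mem_al.1 hvA
  obtain ⟨q, hqA, hxq⟩ := exists_out hx hxV
  obtain ⟨b, hqb⟩ := exists_tl hs q
  have hbG : b ∉ Gd A x0 L s := fun h' => hqA (mem_al.2 ⟨b, h', hqb⟩)
  have hvq : ‖v - q‖ ≤ s / 8 + 2 * d := by
    have := norm_add_le (v - x) (x - q)
    rw [sub_add_sub_cancel, norm_sub_rev v x] at this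
    linarith
  have hR : Rg A x0 L s b := by
    refine ⟨hbG, g, hg, ?_⟩
    rcases tl_near hs hvg hqb (by linarith) with h' | h'
    · rw [h'] at hbG; exact absurd hg hbG
    · exact h'
  obtain ⟨p, hp, hqp⟩ := clampT (δ := δ) hs (by linarith) (by linarith) hqb
  have hseg : segment ℝ q p ⊆ tl s b := (tl_convex hs).segment_subset hqb
    (ti_tl hs (tc_ti (by linarith) hp))
  -- class sites are far
  have hcl : ∀ z, ‖v - z‖ < s → ∀ i, z ∉ A i := by
    intro z hz i hi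
    have := gd_cls hs hg hvg hi
    linarith
  have leg1 : ∀ z ∈ Clm S (segment ℝ x q), z ∈ Of S A x0 L d s ∧ ‖z - x‖ ≤ 3 * δ := by
    intro z hz
    have k1 := seg_ball hx hz
    have k2 : ‖z - x‖ ≤ 4 * d := by
      have := norm_add_le (z - q) (q - x)
      rw [sub_add_sub_cancel, norm_sub_rev q x] at this
      linarith
    refine ⟨mem_Of.2 ⟨hz.1, off_seg hx hqA hxq hz, hcl z ?_⟩, by linarith⟩
    have := norm_add_le (v - q) (q - z)
    rw [sub_add_sub_cancel, norm_sub_rev q z] at this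
    linarith
  have leg2 : ∀ z ∈ Clm S (segment ℝ q p), z ∈ Of S A x0 L d s ∧ ‖z - x‖ ≤ 3 * δ := by
    intro z hz
    obtain ⟨w, hw, hwz⟩ := near ((hR.hl hS).mono hseg) hz
    have k0 : ‖q - w‖ ≤ 2 * δ := by
      have h4 := Nearx440.seg_add hw
      have h5 := norm_nonneg (w - p)
      linarith
    have k1 : ‖q - z‖ ≤ 2 * δ + d := by
      have := norm_add_le (q - w) (w - z)
      rw [sub_add_sub_cancel] at this
      linarith
    have k2 : ‖z - x‖ ≤ 3 * δ := by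
      have := norm_add_le (z - q) (q - x)
      rw [sub_add_sub_cancel, norm_sub_rev q x, norm_sub_rev z q] at this
      linarith
    refine ⟨mem_Of.2 ⟨hz.1, off_tile hS hbG (hseg hw) (by rw [norm_sub_rev]; exact hwz),
      hcl z ?_⟩, k2⟩
    have := norm_add_le (v - q) (q - z)
    rw [sub_add_sub_cancel] at this
    linarith
  have hxm : x ∈ Clm S (segment ℝ x q) := mem_clm hx (left_mem_segment ℝ x q)
  obtain ⟨c, hc, hcq⟩ := G6Wx723.exists_cell ⟨x, hx⟩ q
  obtain ⟨e, he, hep⟩ := G6Wx723.exists_cell ⟨x, hx⟩ p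
  have hc1 : c ∈ Clm S (segment ℝ x q) := ⟨hc, q, right_mem_segment ℝ x q, hcq⟩
  have hc2 : c ∈ Clm S (segment ℝ q p) := ⟨hc, q, left_mem_segment ℝ q p, hcq⟩
  have he2 : e ∈ Clm S (segment ℝ q p) := ⟨he, p, right_mem_segment ℝ q p, hep⟩
  have P1 := pth_conn hS.dns.gp hS.card (convex_segment x q).isPreconnected hxm hc1
  have P2 := pth_conn hS.dns.gp hS.card (convex_segment q p).isPreconnected hc2 he2
  exact ⟨(leg1 x hxm).1, ⟨g, hg, hvg⟩, b, hR, e, ⟨he, p, hp, hep⟩,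
    (P1.mono fun z hz => leg1 z hz).trans (P2.mono fun z hz => leg2 z hz)⟩

/-! ### the blocks -/

/-- **the layer** -/
theorem layer : LAYER := by
  refine ⟨1344, by norm_num, fun S A x0 L d s hS => ?_⟩
  have hs := s0 hS
  have hd0 := hS.dns.dpos
  have hds := d_s hS
  obtain ⟨δ, hδ⟩ : ∃ δ, δ = s / 2 ^ 12 := ⟨_, rfl⟩
  have hδ0 : 0 < δ := by rw [hδ]; positivity
  have hsδ : s = 4096 * δ := by rw [hδ]; ring
  have hdδ : 3 * d ≤ δ := by
    have : s / 2 ^ 20 = δ / 256 := by rw [hδ]; ring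
    rw [this] at hds
    linarith
  have hdδ' : d < δ := by linarith
  have hδs : 8 * δ ≤ s := by rw [hsδ]; linarith
  -- first forest
  set O : Finset ℂ := Of S A x0 L d s with hO
  set A1 : Finset ℂ := O.filter fun x => ∃ b, Rg A x0 L s b ∧ x ∈ core S s δ b with hA1
  have hA1O : A1 ⊆ O := Finset.filter_subset _ _
  obtain ⟨E, f, hL, hE⟩ := thin_forest (R := Adj S) hA1O (fun _ _ h => Adj.ne h)
    (ρ := 3 * δ) (by linarith)
  set K : Bk → Set ℂ := fun b => {x | x ∈ E ∧ Rg A x0 L s b ∧ f x ∈ core S s δ b} with hK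
  have hcK : ∀ b, Rg A x0 L s b → core S s δ b ⊆ K b := by
    intro b hb x hx
    have h1 : x ∈ A1 := Finset.mem_filter.2 ⟨core_Of hS hb hdδ' hx, b, hb, hx⟩
    refine ⟨hL.subA h1, hb, ?_⟩
    rw [hL.fA x h1]
    exact hx
  have hlink : ∀ b, ∀ x ∈ K b, Pth S (K b) x (f x) := by
    rintro b x ⟨h1, h2, h3⟩
    refine ⟨⟨h1, h2, h3⟩, Relation.ReflTransGen.mono ?_ _ _ (hL.link x h1)⟩
    rintro a a' ⟨k1, k2, k3, -⟩
    exact ⟨k1, k2, h2, by rw [k3]; exact h3⟩
  have hfd : ∀ x ∈ E, ‖x - f x‖ ≤ 72 * δ := by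
    intro x hx
    rw [← dist_eq_norm]
    rcases Relation.ReflTransGen.cases_tail (hL.link x hx) with h | ⟨a, -, h⟩
    · rw [h, dist_self]; linarith
    · have := h.2.2.2
      linarith
  have hB : Blk S (Va S A x0 L d s) (uA S A) K (4 * s) := by
    refine ⟨by linarith, ?_, ?_, ?_, ?_⟩
    · rintro b x ⟨h1, -, -⟩
      obtain ⟨k1, k2, k3⟩ := mem_Of.1 (hL.subO h1)
      refine ⟨⟨k1, k2⟩, fun h => ?_⟩
      obtain ⟨i, hi⟩ := (mem_uA hS.tr).1 h
      exact k3 i hi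
    · intro b b' hbb
      rw [Set.disjoint_left]
      rintro x ⟨-, h2, h3⟩ ⟨-, h5, h6⟩
      exact hbb (ti_eq hs (core_ti hS h5 hdδ' h6).2 (ti_tl hs (core_ti hS h2 hdδ' h3).2))
    · intro b x hx y hy
      have h1 := hlink b x hx
      have h2 := hlink b y hy
      have h3 := pth_conn hS.dns.gp hS.card (C := Tc s δ b) tc_convex.isPreconnected hx.2.2 hy.2.2
      exact (h1.trans (h3.mono (hcK b hx.2.1))).trans h2.symm
    · intro b x hx y hy
      have h1 := hfd x hx.1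
      have h2 := hfd y hy.1
      have h3 := tl_dist hs (ti_tl hs (core_ti hS hx.2.1 hdδ' hx.2.2).2)
        (ti_tl hs (core_ti hS hy.2.1 hdδ' hy.2.2).2)
      have e : x - y = (x - f x) - (y - f y) + (f x - f y) := by ring
      rw [e]
      have k1 := norm_add_le ((x - f x) - (y - f y)) (f x - f y)
      have k2 := norm_sub_le (x - f x) (y - f y)
      rw [hsδ] at h3 ⊢
      linarith
  -- second forest
  have hVfr : (Va S A x0 L d s : Set ℂ) ⊆ fr S A := by
    rw [Glux991.va_eq]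
    exact Glux991.deep_fr hS le_rfl (by linarith) (by linarith)
  have hN : ∀ x ∈ S, x ∉ Va S A x0 L d s → Near S (Va S A x0 L d s) (uA S A) (40 * s) x := by
    intro x hx hxV
    rw [Glux991.va_eq] at hxV ⊢
    exact Glux991.near hS le_rfl (by linarith) (by linarith) (by rw [hsδ]; linarith) hx hxV
  obtain ⟨A', l, t1, t2, t3, t4, t5⟩ := tr_terrK hS.tr hVfr (by linarith) hN hB
  refine ⟨fun a a' => l (bk (rc a a')), A', t1, t2, t3, ?_, ?_⟩
  · intro j x hx
    obtain ⟨y, hy, hp⟩ := t4 j x hx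
    refine ⟨y, hy, hp.mono ?_⟩
    rintro z ⟨h1, h2⟩
    exact ⟨h1, h2.trans (by linarith)⟩
  · rintro i x hx ⟨v, hv, hxv⟩
    have hxS : x ∈ S := Finset.mem_coe.1 (t1.sub i hx)
    have hxV : x ∉ Va S A x0 L d s := by
      intro h'
      have : x ∈ fr S A' := by rw [t3]; exact Finset.mem_coe.2 h'
      exact this.2 i hx
    obtain ⟨k1, ⟨g, hg, hvg⟩, b0, hb0, e, he, hp⟩ := to_core hS hdδ hδs hxS hxV hv hxv
    have hxE : x ∈ E := by
      refine hE x k1 ⟨e, ?_, ?_⟩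
      · exact Finset.mem_filter.2 ⟨core_Of hS hb0 hdδ' he, b0, hb0, he⟩
      · refine Relation.ReflTransGen.mono ?_ _ _ hp.2
        rintro a a' ⟨m1, m2, m3⟩
        refine ⟨m1, m2, ?_⟩
        rw [dist_comm, dist_eq_norm]
        exact m3
    obtain ⟨-, b, hb, hfb⟩ := Finset.mem_filter.1 (hL.mem x hxE)
    have hxK : x ∈ K b := ⟨hxE, hb, hfb⟩
    have hli : l b = i := by
      by_contra hne
      exact Set.disjoint_left.1 (t1.disj _ _ hne) (t5 b hxK) hx
    have hE' := edge_s hS hxv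
    have h17 : s / 2 ^ 17 = δ / 32 := by rw [hδ]; ring
    rw [h17] at hE'
    have hfx := hfd x hxE
    have h16 : s / 16 = 256 * δ := by rw [hsδ]; ring
    have n1 : ‖x - v‖ ≤ s / 16 := by rw [h16]; linarith
    have n2 : ‖x - f x‖ ≤ s / 16 := by rw [h16]; linarith
    obtain ⟨a, a', m1, -, m3, m4⟩ := Sidex359.lab_side (δ := s / 16) hs (by linarith) hg hb.1 hvg
      (ti_tl hs (core_ti hS hb hdδ' hfb).2) n1 n2
    refine ⟨a, a', m1, ?_, by linarith⟩
    show l (bk (rc a a')) = i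
    rw [m3, hli]

end Crest.Agent.R143.LayKx341
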