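import Crest.Agent.R143.LabB2_951

/-!
# Row 143 (S0194), CONT, (K7), BASE part 3 (helper951): winding number of the ring around the centres
of the inner cells, and the theorem `base : BASE`
-/

set_option autoImplicit false

noncomputable section

namespace Crest.Agent.R143.LabBx951

open Set Complex
open Crest.Agent.R158 Crest.Agent.R158.Sp896
open Crest.Agent.R143.ToolWx838
open Crest.Agent.R143.Tenx416 (Pg)
open Crest.Agent.R143.LabDx755
open Crest.Agent.R143.TentMx951 (mem_sq re_im_lt mem_ed)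

theorem ang_loc {x u a b : ℂ} (ha : 0 < ((a - x) / u).re) (hb : 0 < ((b - x) / u).re) :
    ang x a b = ((b - x) / u).arg - ((a - x) / u).arg := by
  have hu : u ≠ 0 := by rintro rfl; simp at ha
  have ha0 : a - x ≠ 0 := by rintro h0; rw [h0] at ha; simp at ha
  rw [← arg_div_half ha hb]
  unfold ang
  congr 1
  field_simp

theorem half_ball {x p a : ℂ} {r : ℝ} (h : ‖a - p‖ < r) (hx : r ≤ ‖x - p‖) :
    0 < ((a - x) / (p - x)).re := by
  have h0 : 0 < ‖x - p‖ := by linarith [norm_nonneg (a - p)]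
  have h1 : p - x ≠ 0 := by
    rw [← norm_pos_iff, norm_sub_rev]; exact h0
  have e : (a - x) / (p - x) = 1 + (a - p) / (p - x) := by field_simp; ring
  rw [e, Complex.add_re, Complex.one_re]
  have h2 := (abs_le.1 (Complex.abs_re_le_norm ((a - p) / (p - x)))).1
  rw [norm_div, norm_sub_rev p x] at h2
  have h3 : ‖a - p‖ / ‖x - p‖ < 1 := by rw [div_lt_one h0]; linarith
  linarith

/-- a centre is far from the lattice points -/
theorem ctr_pt {s : ℝ} (hs : 0 < s) (q a : V) : 3 / 5 * s ≤ ‖ctr s q - pt s a‖ := by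
  have h1 := half_ge hs.le q.1 a.1
  have h2 := half_ge hs.le q.2 a.2
  have e1 : (ctr s q - pt s a).re = s * (q.1 + 1 / 2) - s * a.1 := by simp [ctr, pt]
  have e2 : (ctr s q - pt s a).im = s * (q.2 + 1 / 2) - s * a.2 := by simp [ctr, pt]
  rw [← e1] at h1
  rw [← e2] at h2
  have h3 : ‖ctr s q - pt s a‖ ^ 2 = (ctr s q - pt s a).re ^ 2 + (ctr s q - pt s a).im ^ 2 := by
    rw [Complex.sq_norm, Complex.normSq_apply]; ring
  have h4 : (s / 2) ^ 2 ≤ (ctr s q - pt s a).re ^ 2 := by
    rcases h1 with h | h <;> nlinarith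
  have h5 : (s / 2) ^ 2 ≤ (ctr s q - pt s a).im ^ 2 := by
    rcases h2 with h | h <;> nlinarith
  nlinarith [norm_nonneg (ctr s q - pt s a)]

variable {s μ : ℝ} {F : Set V} {N : ℕ} {v : ℕ → V}

theorem nI (hc : Cyc F N v) (j : ℕ) (hμ : 0 < μ) : ‖(μ : ℂ) * (I * ev v j)‖ = μ := by
  rw [norm_mul, norm_mul, Complex.norm_I, ev_eq, cv_norm (hc.step j), Complex.norm_real,
      Real.norm_of_nonneg hμ.le]; ring

theorem nS (hc : Cyc F N v) (j : ℕ) (hs : 0 < s) :
    ‖(s : ℂ) / 2 * cv (v j) (v (j + 1))‖ = s / 2 := by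
  rw [norm_mul, cv_norm (hc.step j), mul_one]
  have : (s : ℂ) / 2 = ((s / 2 : ℝ) : ℂ) := by push_cast; ring
  rw [this, Complex.norm_real, Real.norm_of_nonneg (by linarith)]

/-- the chain around a vertex, seen from a centre -/
theorem piece (hμ : 0 < μ) (hs : 16 * μ ≤ s) (hc : Cyc F N v) (q : V) (j : ℕ) :
    ang (ctr s q) (M s μ v j) (W s μ v j) + ang (ctr s q) (W s μ v j) (M s μ v (j + 1)) =
    ang (ctr s q) (md s v j) (pt s (v (j + 1))) +
      ang (ctr s q) (pt s (v (j + 1))) (md s v (j + 1)) +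
      (ang (ctr s q) (md s v (j + 1)) (M s μ v (j + 1)) - ang (ctr s q) (md s v j) (M s μ v j)) := by
  have hs0 : 0 < s := by linarith
  have hx := ctr_pt hs0 q (v (j + 1))
  set x := ctr s q
  set p := pt s (v (j + 1)) with hp
  have key : ∀ a, ‖a - p‖ < 3 / 5 * s → 0 < ((a - x) / (p - x)).re := fun a ha => half_ball ha hx
  have k1 : ‖M s μ v j - p‖ < 3 / 5 * s := by
    have e : M s μ v j - p = -(s / 2 * cv (v j) (v (j + 1))) + μ * (I * ev v j) := by
      unfold M; rw [md_eq]; ring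
    rw [e]
    refine lt_of_le_of_lt (norm_add_le _ _) ?_
    rw [norm_neg, nS hc j hs0, nI hc j hμ]
    linarith
  have k2 : ‖W s μ v j - p‖ < 3 / 5 * s := by
    have e : W s μ v j - p = μ * (I * ev v j) + μ * (I * ev v (j + 1)) := by
      unfold W; ring
    rw [e]
    refine lt_of_le_of_lt (norm_add_le _ _) ?_
    rw [nI hc j hμ, nI hc (j + 1) hμ]
    linarith
  have k3 : ‖M s μ v (j + 1) - p‖ < 3 / 5 * s := by
    have e : M s μ v (j + 1) - p = s / 2 * cv (v (j + 1)) (v (j + 1 + 1)) +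
        μ * (I * ev v (j + 1)) := by
      unfold M; rw [md_eq']; ring
    rw [e]
    refine lt_of_le_of_lt (norm_add_le _ _) ?_
    rw [nS hc (j + 1) hs0, nI hc (j + 1) hμ]
    linarith
  have k4 : ‖md s v j - p‖ < 3 / 5 * s := by
    have e : md s v j - p = -(s / 2 * cv (v j) (v (j + 1))) := by rw [md_eq]; ring
    rw [e, norm_neg, nS hc j hs0]
    linarith
  have k5 : ‖md s v (j + 1) - p‖ < 3 / 5 * s := by
    have e : md s v (j + 1) - p = s / 2 * cv (v (j + 1)) (v (j + 1 + 1)) := by rw [md_eq']; ring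
    rw [e, nS hc (j + 1) hs0]
    linarith
  have k6 : ‖p - p‖ < 3 / 5 * s := by rw [sub_self, norm_zero]; linarith
  rw [ang_loc (key _ k1) (key _ k2), ang_loc (key _ k2) (key _ k3), ang_loc (key _ k4) (key _ k6),
    ang_loc (key _ k6) (key _ k5), ang_loc (key _ k5) (key _ k3), ang_loc (key _ k4) (key _ k1)]
  ring

/-- a lattice edge is in a half plane -/
theorem edge_split (hs : 0 < s) (q : V) {a b : V} (h : Adj a b) :
    ang (ctr s q) (pt s a) (pt s b) = ang (ctr s q) (pt s a) ((pt s a + pt s b) / 2) +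
      ang (ctr s q) ((pt s a + pt s b) / 2) (pt s b) := by
  have key : ∃ u : ℂ, 0 < ((pt s a - ctr s q) / u).re ∧ 0 < ((pt s b - ctr s q) / u).re := by
    have h1 := half_ge hs.le q.1 a.1
    have h2 := half_ge hs.le q.2 a.2
    have r1 : (pt s a - ctr s q).re = s * a.1 - s * (q.1 + 1 / 2) := by simp [ctr, pt]
    have r2 : (pt s a - ctr s q).im = s * a.2 - s * (q.2 + 1 / 2) := by simp [ctr, pt]
    have r3 : (pt s b - ctr s q).re = s * b.1 - s * (q.1 + 1 / 2) := by simp [ctr, pt]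
    have r4 : (pt s b - ctr s q).im = s * b.2 - s * (q.2 + 1 / 2) := by simp [ctr, pt]
    have dI : ∀ z : ℂ, (z / I).re = z.im := by intro z; simp [Complex.div_I]
    have dI' : ∀ z : ℂ, (z / (-I)).re = -z.im := by intro z; rw [div_neg]; simp [Complex.div_I]
    have d1 : ∀ z : ℂ, (z / 1).re = z.re := by intro z; simp
    have d1' : ∀ z : ℂ, (z / (-1)).re = -z.re := by intro z; rw [div_neg, div_one, Complex.neg_re]
    have hv : (b.2 = a.2) ∨ (b.1 = a.1) := by
      rcases h with ⟨k1, k2⟩ | ⟨k1, k2⟩ | ⟨k1, k2⟩ | ⟨k1, k2⟩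
      · exact Or.inl k2
      · exact Or.inl k2
      · exact Or.inr k1
      · exact Or.inr k1
    rcases hv with hv | hv
    · rcases h2 with h2 | h2
      · refine ⟨-I, ?_, ?_⟩
        · rw [dI', r2]; linarith
        · rw [dI', r4, hv]; linarith
      · refine ⟨I, ?_, ?_⟩
        · rw [dI, r2]; linarith
        · rw [dI, r4, hv]; linarith
    · rcases h1 with h1 | h1
      · refine ⟨-1, ?_, ?_⟩
        · rw [d1', r1]; linarith
        · rw [d1', r3, hv]; linarith
      · refine ⟨1, ?_, ?_⟩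
        · rw [d1, r1]; linarith
        · rw [d1, r3, hv]; linarith
  obtain ⟨u, ha, hb⟩ := key
  have hm : 0 < (((pt s a + pt s b) / 2 - ctr s q) / u).re := by
    have e : ((pt s a + pt s b) / 2 - ctr s q) / u =
        (((1 / 2 : ℝ) : ℂ)) * ((pt s a - ctr s q) / u) + ((1 / 2 : ℝ) : ℂ) * ((pt s b - ctr s q) / u) := by
      push_cast; ring
    rw [e, Complex.add_re, Complex.re_ofReal_mul, Complex.re_ofReal_mul]
    linarith
  rw [ang_loc ha hb, ang_loc ha hm, ang_loc hm hb]
  ring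

theorem asum_snoc {x a c : ℂ} {l : List ℂ} (h : l.getLast? = some c) :
    asum x (l ++ [a]) = asum x l + ang x c a := by
  have hl : l ≠ [] := by rintro rfl; simp at h
  rw [List.getLast?_eq_some_getLast hl, Option.some.injEq] at h
  have e : l = l.dropLast ++ [c] := by
    conv_lhs => rw [← List.dropLast_append_getLast hl, h]
  rw [e, List.append_assoc, List.singleton_append, asum_append]
  simp

theorem rg_last (s μ : ℝ) (v : ℕ → V) (i n : ℕ) :
    (rg s μ v i n).getLast? = some (M s μ v (i + n)) := by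
  cases n with
  | zero => rfl
  | succ n =>
    unfold rg
    rw [List.getLast?_append_of_ne_nil _ (by simp)]
    simp [add_assoc]

theorem asum_rg (x : ℂ) (i n : ℕ) : asum x (rg s μ v i (n + 1)) = asum x (rg s μ v i n) +
    (ang x (M s μ v (i + n)) (W s μ v (i + n)) + ang x (W s μ v (i + n)) (M s μ v (i + n + 1))) := by
  show asum x (rg s μ v i n ++ [W s μ v (i + n), M s μ v (i + n + 1)]) = _
  rw [asum_append, asum_snoc (rg_last s μ v i n)]
  simp
  ring

theorem md_per (hc : Cyc F N v) (k : ℕ) : md s v (k + N) = md s v k := by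
  unfold md
  rw [hc.per, show k + N + 1 = k + 1 + N by ring, hc.per]

theorem M_per (hc : Cyc F N v) (k : ℕ) : M s μ v (k + N) = M s μ v k := by
  unfold M ev
  rw [md_per hc, hc.per, show k + N + 1 = k + 1 + N by ring, hc.per]

theorem shift_sum {E : ℕ → ℝ} (hE : ∀ k, E (k + N) = E k) (i : ℕ) :
    ∑ j ∈ Finset.range N, E (i + j) = ∑ j ∈ Finset.range N, E j := by
  induction i with
  | zero => simp
  | succ i ih =>
    rw [← ih]
    have h1 := Finset.sum_range_succ (fun j => E (i + j)) N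
    have h2 := Finset.sum_range_succ' (fun j => E (i + j)) N
    rw [h1] at h2
    simp only [add_zero] at h2
    have e : ∑ j ∈ Finset.range N, E (i + 1 + j) = ∑ k ∈ Finset.range N, E (i + (k + 1)) :=
      Finset.sum_congr rfl fun j _ => by rw [show i + 1 + j = i + (j + 1) by ring]
    rw [e, hE] at *
    linarith

/-- the ring and the boundary walk have the same total angle -/
theorem ring_walk (hμ : 0 < μ) (hs : 16 * μ ≤ s) (hc : Cyc F N v) (q : V) (i : ℕ) :
    asum (ctr s q) (rg s μ v i N) =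
    ∑ j ∈ Finset.range N, ang (ctr s q) (pt s (v j)) (pt s (v (j + 1))) := by
  have hs0 : 0 < s := by linarith
  set x := ctr s q with hx
  have h1 : ∀ n, asum x (rg s μ v i n) = ∑ j ∈ Finset.range n,
      (ang x (md s v (i + j)) (pt s (v (i + j + 1))) +
        ang x (pt s (v (i + j + 1))) (md s v (i + j + 1))) +
      (ang x (md s v (i + n)) (M s μ v (i + n)) - ang x (md s v i) (M s μ v i)) := by
    intro n
    induction n with
    | zero => simp [rg]
    | succ n ih =>
      rw [asum_rg, ih, piece hμ hs hc q (i + n), Finset.sum_range_succ]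
      rw [show i + (n + 1) = i + n + 1 by ring]
      ring
  rw [h1 N, md_per hc, M_per hc, sub_self, add_zero, Finset.sum_add_distrib]
  have h2 := shift_sum (E := fun k => ang x (md s v k) (pt s (v (k + 1)))) (N := N)
    (fun k => by
      rw [md_per hc, show k + N + 1 = k + 1 + N by ring, hc.per]) i
  have h3 := shift_sum (E := fun k => ang x (pt s (v k)) (md s v k)) (N := N)
    (fun k => by
      rw [md_per hc, hc.per]) (i + 1)
  have h4 : ∑ j ∈ Finset.range N, ang x (pt s (v (i + j + 1))) (md s v (i + j + 1)) =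
      ∑ j ∈ Finset.range N, ang x (pt s (v (i + 1 + j))) (md s v (i + 1 + j)) :=
    Finset.sum_congr rfl fun j _ => by rw [show i + j + 1 = i + 1 + j by ring]
  rw [h4, h3, h2, ← Finset.sum_add_distrib]
  refine Finset.sum_congr rfl fun j _ => ?_
  rw [edge_split hs0 q (hc.step j)]
  unfold md
  ring

/-! ### sum over the cells -/

/-- the four darts of a cell -/
def dts (q : V) : Finset (V × V) :=
  {(q, (q.1 + 1, q.2)), ((q.1 + 1, q.2), (q.1 + 1, q.2 + 1)),
    ((q.1 + 1, q.2 + 1), (q.1, q.2 + 1)), ((q.1, q.2 + 1), q)}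

theorem mem_dts {q : V} {d : V × V} : d ∈ dts q ↔ Adj d.1 d.2 ∧ lc d.1 d.2 = q := by
  obtain ⟨⟨a1, a2⟩, ⟨b1, b2⟩⟩ := d
  obtain ⟨q1, q2⟩ := q
  unfold dts
  simp only [Finset.mem_insert, Finset.mem_singleton, Prod.mk.injEq, Adj, lc]
  constructor
  · rintro (⟨⟨h1, h2⟩, h3, h4⟩ | ⟨⟨h1, h2⟩, h3, h4⟩ | ⟨⟨h1, h2⟩, h3, h4⟩ | ⟨⟨h1, h2⟩, h3, h4⟩) <;>
      omega
  · rintro ⟨h, h1, h2⟩
    omega

theorem sum_dts (A : V × V → ℝ) (q : V) : ∑ d ∈ dts q, A d =
    A (q, (q.1 + 1, q.2)) + A ((q.1 + 1, q.2), (q.1 + 1, q.2 + 1)) +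
    A ((q.1 + 1, q.2 + 1), (q.1, q.2 + 1)) + A ((q.1, q.2 + 1), q) := by
  obtain ⟨q1, q2⟩ := q
  unfold dts
  rw [Finset.sum_insert, Finset.sum_insert, Finset.sum_insert, Finset.sum_singleton]
  · ring
  · simp
  · simp
  · simp

/-- own cell -/
theorem own (hs : 0 < s) (q : V) :
    ∑ d ∈ dts q, ang (ctr s q) (pt s d.1) (pt s d.2) = 2 * Real.pi := by
  rw [sum_dts]
  have hs' : (s : ℂ) ≠ 0 := by exact_mod_cast hs.ne'
  have key : ∀ (a b : V) (w : ℂ), w ≠ 0 → pt s a - ctr s q = w → pt s b - ctr s q = I * w →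
      ang (ctr s q) (pt s a) (pt s b) = Real.pi / 2 := by
    intro a b w h0 h1 h2
    unfold ang
    rw [h1, h2, mul_div_assoc, div_self h0, mul_one, Complex.arg_I]
  have n1 : (⟨-(s / 2), -(s / 2)⟩ : ℂ) ≠ 0 := by
    intro h; have := congrArg Complex.re h; simp at this; exact hs.ne' this
  have n2 : (⟨s / 2, -(s / 2)⟩ : ℂ) ≠ 0 := by
    intro h; have := congrArg Complex.re h; simp at this; exact hs.ne' this
  have n3 : (⟨s / 2, s / 2⟩ : ℂ) ≠ 0 := by
    intro h; have := congrArg Complex.re h; simp at this; exact hs.ne' this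
  have n4 : (⟨-(s / 2), s / 2⟩ : ℂ) ≠ 0 := by
    intro h; have := congrArg Complex.re h; simp at this; exact hs.ne' this
  rw [key q (q.1 + 1, q.2) ⟨-(s / 2), -(s / 2)⟩ n1
      (by apply Complex.ext <;> simp [pt, ctr] <;> ring)
      (by apply Complex.ext <;> simp [pt, ctr] <;> ring),
    key (q.1 + 1, q.2) (q.1 + 1, q.2 + 1) ⟨s / 2, -(s / 2)⟩ n2
      (by apply Complex.ext <;> simp [pt, ctr] <;> ring)
      (by apply Complex.ext <;> simp [pt, ctr] <;> ring),
    key (q.1 + 1, q.2 + 1) (q.1, q.2 + 1) ⟨s / 2, s / 2⟩ n3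
      (by apply Complex.ext <;> simp [pt, ctr] <;> ring)
      (by apply Complex.ext <;> simp [pt, ctr] <;> ring),
    key (q.1, q.2 + 1) q ⟨-(s / 2), s / 2⟩ n4
      (by apply Complex.ext <;> simp [pt, ctr] <;> ring)
      (by apply Complex.ext <;> simp [pt, ctr] <;> ring)]
  ring

/-- other cells -/
theorem other (hs : 0 < s) {q q' : V} (hne : q' ≠ q) :
    ∑ d ∈ dts q', ang (ctr s q) (pt s d.1) (pt s d.2) = 0 := by
  rw [sum_dts]
  simp only
  set x := ctr s q with hx
  have key : ∃ u : ℂ, 0 < ((pt s q' - x) / u).re ∧ 0 < ((pt s (q'.1 + 1, q'.2) - x) / u).re ∧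
      0 < ((pt s (q'.1 + 1, q'.2 + 1) - x) / u).re ∧ 0 < ((pt s (q'.1, q'.2 + 1) - x) / u).re := by
    have r1 : ∀ a : V, (pt s a - ctr s q).re = s * a.1 - s * (q.1 + 1 / 2) := by
      intro a; simp [ctr, pt]
    have r2 : ∀ a : V, (pt s a - ctr s q).im = s * a.2 - s * (q.2 + 1 / 2) := by
      intro a; simp [ctr, pt]
    have dI : ∀ z : ℂ, (z / I).re = z.im := by intro z; simp [Complex.div_I]
    have dI' : ∀ z : ℂ, (z / (-I)).re = -z.im := by intro z; rw [div_neg]; simp [Complex.div_I]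
    have d1 : ∀ z : ℂ, (z / 1).re = z.re := by intro z; simp
    have d1' : ∀ z : ℂ, (z / (-1)).re = -z.re := by intro z; rw [div_neg, div_one, Complex.neg_re]
    rcases lt_trichotomy q'.1 q.1 with h | h | h
    · have h' : (q'.1 : ℝ) + 1 ≤ q.1 := by exact_mod_cast h
      refine ⟨-1, ?_, ?_, ?_, ?_⟩ <;> rw [d1', hx, r1] <;> push_cast <;> nlinarith
    · rcases lt_trichotomy q'.2 q.2 with k | k | k
      · have k' : (q'.2 : ℝ) + 1 ≤ q.2 := by exact_mod_cast k
        refine ⟨-I, ?_, ?_, ?_, ?_⟩ <;> rw [dI', hx, r2] <;> push_cast <;> nlinarith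
      · exact absurd (Prod.ext h k) hne
      · have k' : (q.2 : ℝ) + 1 ≤ q'.2 := by exact_mod_cast k
        refine ⟨I, ?_, ?_, ?_, ?_⟩ <;> rw [dI, hx, r2] <;> push_cast <;> nlinarith
    · have h' : (q.1 : ℝ) + 1 ≤ q'.1 := by exact_mod_cast h
      refine ⟨1, ?_, ?_, ?_, ?_⟩ <;> rw [d1, hx, r1] <;> push_cast <;> nlinarith
  obtain ⟨u, h1, h2, h3, h4⟩ := key
  rw [ang_loc h1 h2, ang_loc h2 h3, ang_loc h3 h4, ang_loc h4 h1]
  ring

theorem not_mem_edge (hs : 0 < s) (q : V) {a b : V} (h : Adj a b) :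
    ctr s q ∉ segment ℝ (pt s a) (pt s b) := by
  intro hx
  obtain ⟨t, -, -, h1, h2⟩ := mem_ed.1 hx
  have r1 : (ctr s q).re = s * (q.1 + 1 / 2) := rfl
  have r2 : (ctr s q).im = s * (q.2 + 1 / 2) := rfl
  rw [r1] at h1
  rw [r2] at h2
  have g1 := half_ge hs.le q.1 a.1
  have g2 := half_ge hs.le q.2 a.2
  rcases h with ⟨k1, k2⟩ | ⟨k1, k2⟩ | ⟨k1, k2⟩ | ⟨k1, k2⟩
  · rw [k2, sub_self, mul_zero, add_zero] at h2
    rcases g2 with g | g <;> linarith
  · rw [k2, sub_self, mul_zero, add_zero] at h2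
    rcases g2 with g | g <;> linarith
  · rw [k1, sub_self, mul_zero, add_zero] at h1
    rcases g1 with g | g <;> linarith
  · rw [k1, sub_self, mul_zero, add_zero] at h1
    rcases g1 with g | g <;> linarith

theorem swap_lc {a b : V} (h : Adj a b) : lc b a = rc a b ∧ rc b a = lc a b := by
  constructor
  · unfold lc rc; unfold Adj at h; ext <;> simp only <;> omega
  · unfold lc rc; unfold Adj at h; ext <;> simp only <;> omega

open scoped Classical in
/-- the boundary walk has total angle `2π` around the inner centres -/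
theorem walk_idx (hs : 0 < s) (hF : F.Finite) (hc : Cyc F N v) {q : V} (hq : q ∈ F) :
    ∑ j ∈ Finset.range N, ang (ctr s q) (pt s (v j)) (pt s (v (j + 1))) = 2 * Real.pi := by
  set A : V × V → ℝ := fun d => ang (ctr s q) (pt s d.1) (pt s d.2) with hA
  set D : Finset (V × V) := hF.toFinset.biUnion dts with hD
  have memD : ∀ d, d ∈ D ↔ Adj d.1 d.2 ∧ lc d.1 d.2 ∈ F := by
    intro d
    rw [hD, Finset.mem_biUnion]
    constructor
    · rintro ⟨q', hq', hd⟩
      rw [mem_dts] at hd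
      exact ⟨hd.1, by rw [hd.2]; exact hF.mem_toFinset.1 hq'⟩
    · rintro ⟨h1, h2⟩
      exact ⟨_, hF.mem_toFinset.2 h2, mem_dts.2 ⟨h1, rfl⟩⟩
  have h1 : ∑ d ∈ D, A d = 2 * Real.pi := by
    rw [hD, Finset.sum_biUnion]
    · rw [Finset.sum_eq_single_of_mem q (hF.mem_toFinset.2 hq)]
      · exact own hs q
      · intro q' _ hne
        exact other hs hne
    · intro a _ b _ hab
      rw [Function.onFun, Finset.disjoint_left]
      intro d hda hdb
      rw [mem_dts] at hda hdb
      exact hab (hda.2.symm.trans hdb.2)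
  have h2 : ∑ d ∈ D.filter (fun d => rc d.1 d.2 ∈ F), A d = 0 := by
    refine Finset.sum_involution (fun d _ => d.swap) ?_ ?_ ?_ ?_
    · intro d hd
      rw [Finset.mem_filter, memD] at hd
      have := ang_comm (not_mem_edge hs q hd.1.1)
      simp only [hA, Prod.fst_swap, Prod.snd_swap]
      rw [this]; ring
    · intro d hd _ he
      rw [Finset.mem_filter, memD] at hd
      have e : d.2 = d.1 := congrArg Prod.fst he
      have := hd.1.1
      rw [e] at this
      unfold Adj at this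
      omega
    · intro d hd
      rw [Finset.mem_filter, memD] at hd ⊢
      obtain ⟨⟨k1, k2⟩, k3⟩ := hd
      obtain ⟨e1, e2⟩ := swap_lc k1
      refine ⟨⟨k1.symm, ?_⟩, ?_⟩
      · show lc d.2 d.1 ∈ F
        rw [e1]; exact k3
      · show rc d.2 d.1 ∈ F
        rw [e2]; exact k2
    · intro d _
      exact Prod.swap_swap d
  have h3 : ∑ d ∈ D.filter (fun d => ¬ rc d.1 d.2 ∈ F), A d =
      ∑ j ∈ Finset.range N, A (v j, v (j + 1)) := by
    have e : D.filter (fun d => ¬ rc d.1 d.2 ∈ F) =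
        (Finset.range N).image fun j => (v j, v (j + 1)) := by
      ext d
      rw [Finset.mem_filter, memD, Finset.mem_image]
      constructor
      · rintro ⟨⟨k1, k2⟩, k3⟩
        obtain ⟨i, hi, e1, e2⟩ := hc.all _ _ k1 k2 k3
        exact ⟨i, Finset.mem_range.2 hi, Prod.ext e1 e2⟩
      · rintro ⟨i, -, rfl⟩
        exact ⟨⟨hc.step i, hc.left i⟩, hc.right i⟩
    rw [e, Finset.sum_image]
    intro i hi j hj hij
    simp only [Finset.coe_range, Set.mem_Iio] at hi hj
    exact hc.inj i hi j hj (Prod.mk.inj hij).1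
  have h4 := Finset.sum_filter_add_sum_filter_not D (fun d => rc d.1 d.2 ∈ F) A
  rw [h2, h3, h1, zero_add] at h4
  exact h4

/-- **BASE** -/
theorem base : BASE := by
  intro s μ F N v hs0 hμ hs hF _ _ hc
  exact
    { ring := fun k z hz => ring_ball hμ hs hc k hz
      rad := fun k z hz => rad_ball hμ hs hc k hz
      cen := fun q hq q' hq' h z hz => cen_ball hμ hs hq hq' h hz
      d1 := fun k j h1 h2 z hz w hw => d1 hμ hs hc k j h1 h2 hz hw
      d2 := fun k j h1 z hz => d2 hs0.le hc k j h1 hz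
      d3 := fun q hq q' hq' h z hz j => d3 hμ hs hc hq hq' h hz j
      mrd := fun k => mrd hμ hs hc k
      idx := fun i q hq => by rw [ring_walk hμ hs hc q i, walk_idx hs0 hF hc hq] }

end Crest.Agent.R143.LabBx951
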