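import Crest.Agent.R143.LabB1_951

/-!
# Row 143 (S0194), CONT, (K7), BASE part 2 (helper951): radial and centre segments, distances
-/

set_option autoImplicit false

noncomputable section

namespace Crest.Agent.R143.LabBx951

open Set Complex
open Crest.Agent.R158 Crest.Agent.R158.Sp896
open Crest.Agent.R143.ToolWx838
open Crest.Agent.R143.Tenx416 (Pg)
open Crest.Agent.R143.LabDx755
open Crest.Agent.R143.TentMx951 (mem_sq re_im_lt mem_ed)

theorem ctr_lc {s : ℝ} {a p : V} (h : Adj a p) :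
    ctr s (lc a p) = (pt s a + pt s p) / 2 + s / 2 * (I * cv a p) := by
  obtain ⟨a1, a2⟩ := a
  obtain ⟨p1, p2⟩ := p
  rcases h with ⟨k1, k2⟩ | ⟨k1, k2⟩ | ⟨k1, k2⟩ | ⟨k1, k2⟩ <;> simp only at k1 k2 <;> subst k1 k2
  · have e : lc (a1, p2) (a1 + 1, p2) = (a1, p2) := by unfold lc; ext <;> simp only <;> omega
    rw [e]
    apply Complex.ext <;> simp [ctr, pt, cv] <;> ring
  · have e : lc (a1, p2) (a1 - 1, p2) = (a1 - 1, p2 - 1) := by unfold lc; ext <;> simp only <;> omega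
    rw [e]
    apply Complex.ext <;> simp [ctr, pt, cv] <;> ring
  · have e : lc (p1, a2) (p1, a2 + 1) = (p1 - 1, a2) := by unfold lc; ext <;> simp only <;> omega
    rw [e]
    apply Complex.ext <;> simp [ctr, pt, cv] <;> ring
  · have e : lc (p1, a2) (p1, a2 - 1) = (p1, a2 - 1) := by unfold lc; ext <;> simp only <;> omega
    rw [e]
    apply Complex.ext <;> simp [ctr, pt, cv] <;> ring

theorem ctr_rc {s : ℝ} {a p : V} (h : Adj a p) :
    ctr s (rc a p) = (pt s a + pt s p) / 2 - s / 2 * (I * cv a p) := by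
  obtain ⟨a1, a2⟩ := a
  obtain ⟨p1, p2⟩ := p
  rcases h with ⟨k1, k2⟩ | ⟨k1, k2⟩ | ⟨k1, k2⟩ | ⟨k1, k2⟩ <;> simp only at k1 k2 <;> subst k1 k2
  · have e : rc (a1, p2) (a1 + 1, p2) = (a1, p2 - 1) := by unfold rc; ext <;> simp only <;> omega
    rw [e]
    apply Complex.ext <;> simp [ctr, pt, cv] <;> ring
  · have e : rc (a1, p2) (a1 - 1, p2) = (a1 - 1, p2) := by unfold rc; ext <;> simp only <;> omega
    rw [e]
    apply Complex.ext <;> simp [ctr, pt, cv] <;> ring
  · have e : rc (p1, a2) (p1, a2 + 1) = (p1, a2) := by unfold rc; ext <;> simp only <;> omega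
    rw [e]
    apply Complex.ext <;> simp [ctr, pt, cv] <;> ring
  · have e : rc (p1, a2) (p1, a2 - 1) = (p1 - 1, a2 - 1) := by unfold rc; ext <;> simp only <;> omega
    rw [e]
    apply Complex.ext <;> simp [ctr, pt, cv] <;> ring

theorem ctr_ic {s : ℝ} {F : Set V} {N : ℕ} {v : ℕ → V} (hc : Cyc F N v) (k : ℕ) :
    ctr s (ic v k) = md s v k + s / 2 * (I * ev v k) := by
  unfold ic md
  rw [ctr_lc (hc.step k), ev_eq]

theorem mrd {s μ : ℝ} {F : Set V} {N : ℕ} {v : ℕ → V} (hμ : 0 < μ) (hs : 16 * μ ≤ s)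
    (hc : Cyc F N v) (k : ℕ) : M s μ v k ∈ rd s v k := by
  unfold rd
  have hs0 : 0 < s := by linarith
  have e : M s μ v k = md s v k + ((2 * μ / s : ℝ) : ℂ) * (ctr s (ic v k) - md s v k) := by
    rw [ctr_ic hc]
    unfold M
    have : (s : ℂ) ≠ 0 := by exact_mod_cast hs0.ne'
    push_cast
    field_simp
    ring
  rw [e]
  refine seg_mem (by positivity) ?_
  rw [div_le_one hs0]
  linarith

/-- **(BB)** -/
theorem rad_ball {s μ : ℝ} {F : Set V} {N : ℕ} {v : ℕ → V} (hμ : 0 < μ)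
    (hs : 16 * μ ≤ s) (hc : Cyc F N v) (k : ℕ) {z : ℂ}
    (hz : z ∈ segment ℝ (M s μ v k) (ctr s (ic v k))) : Metric.ball z μ ⊆ Pg s F := by
  intro w hw
  have hA := hc.step k
  obtain ⟨t, h0, h1, hz⟩ := seg_par hz
  have hz' : z = pt s (v (k + 1)) +
      (⟨-(s / 2), μ * (1 - t) + s / 2 * t⟩ : ℂ) * cv (v k) (v (k + 1)) := by
    rw [hz, ctr_ic hc]
    unfold M
    rw [md_eq, ev_eq, Complex.mk_eq_add_mul_I]
    push_cast
    ring
  obtain ⟨ξ, hw', b1, b2, b3, b4⟩ := ball_frame hA hz' hw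
  simp only at b1 b2 b3 b4
  have m1 : 0 ≤ μ * t := by positivity
  have m2 : μ * t ≤ μ := by nlinarith
  have m3 : 0 ≤ s * t := by have : 0 ≤ s := by linarith
                            positivity
  have m4 : s * t ≤ s := by nlinarith
  have m5 : μ * (1 - t) + (s / 2) * t ≥ μ := by nlinarith
  have m6 : μ * (1 - t) + (s / 2) * t ≤ s / 2 := by nlinarith
  exact mem_Pg (hc.left k) (quadLB hA hw' (by nlinarith) (by nlinarith) (by nlinarith) (by nlinarith))

theorem ctr_cen (s : ℝ) (q : V) : ctr s q = Tj656.cen s q := rfl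

/-- **(BC)** -/
theorem cen_ball {s μ : ℝ} {F : Set V} (hμ : 0 < μ) (hs : 16 * μ ≤ s) {q q' : V} (hq : q ∈ F)
    (hq' : q' ∈ F) (h : Adj q q') {z : ℂ} (hz : z ∈ segment ℝ (ctr s q) (ctr s q')) :
    Metric.ball z μ ⊆ Pg s F := by
  intro w hw
  have hs0 : 0 < s := by linarith
  rw [ctr_cen, ctr_cen] at hz
  rcases TentMx951.seg_cells hs0 h hz (lt_of_lt_of_le (Metric.mem_ball.1 hw) (by linarith))
    (mem_cellOf hs0 w) with e | e
  · exact mem_Pg (e ▸ hq) (mem_cellOf hs0 w)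
  · exact mem_Pg (e ▸ hq') (mem_cellOf hs0 w)

/-! ### distances -/

theorem norm_ge_re {z : ℂ} {r : ℝ} (h : r ≤ z.re ∨ r ≤ -z.re ∨ r ≤ z.im ∨ r ≤ -z.im) : r ≤ ‖z‖ := by
  have h1 := abs_le.1 (Complex.abs_re_le_norm z)
  have h2 := abs_le.1 (Complex.abs_im_le_norm z)
  rcases h with h | h | h | h <;> linarith [h1.1, h1.2, h2.1, h2.2]

theorem half_ge {s : ℝ} (hs : 0 ≤ s) (m n : ℤ) :
    s / 2 ≤ s * (m + 1 / 2) - s * n ∨ s / 2 ≤ -(s * (m + 1 / 2) - s * n) := by
  rcases le_or_gt n m with h | h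
  · left
    have : (n : ℝ) ≤ m := by exact_mod_cast h
    nlinarith
  · right
    have : (m : ℝ) + 1 ≤ n := by exact_mod_cast h
    nlinarith

theorem canon {a b : V} (h : Adj a b) : ∃ p q : V, ((p = a ∧ q = b) ∨ (p = b ∧ q = a)) ∧
    (q = (p.1 + 1, p.2) ∨ q = (p.1, p.2 + 1)) := TentMx951.canon h

/-- common edge of two adjacent cells -/
def ComE (q q' a b : V) : Prop := (lc a b = q ∧ rc a b = q') ∨ (lc a b = q' ∧ rc a b = q)

theorem comE_H {q a b : V} (h : Adj a b) (hv : (a = (q.1 + 1, q.2) ∧ b = (q.1 + 1, q.2 + 1)) ∨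
    (b = (q.1 + 1, q.2) ∧ a = (q.1 + 1, q.2 + 1))) : ComE q (q.1 + 1, q.2) a b := by
  rcases hv with ⟨rfl, rfl⟩ | ⟨rfl, rfl⟩
  · left
    constructor
    · unfold lc; ext <;> simp only <;> omega
    · unfold rc; ext <;> simp only <;> omega
  · right
    constructor
    · unfold lc; ext <;> simp only <;> omega
    · unfold rc; ext <;> simp only <;> omega

theorem comE_V {q a b : V} (h : Adj a b) (hv : (a = (q.1, q.2 + 1) ∧ b = (q.1 + 1, q.2 + 1)) ∨
    (b = (q.1, q.2 + 1) ∧ a = (q.1 + 1, q.2 + 1))) : ComE q (q.1, q.2 + 1) a b := by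
  rcases hv with ⟨rfl, rfl⟩ | ⟨rfl, rfl⟩
  · right
    constructor
    · unfold lc; ext <;> simp only <;> omega
    · unfold rc; ext <;> simp only <;> omega
  · left
    constructor
    · unfold lc; ext <;> simp only <;> omega
    · unfold rc; ext <;> simp only <;> omega

/-- canonical form: horizontal or vertical neighbours, horizontal or vertical edge -/
theorem cen_far_aux {s : ℝ} (hs : 0 ≤ s) {q q' a b : V}
    (h : q' = (q.1 + 1, q.2) ∨ q' = (q.1, q.2 + 1))
    (hab : b = (a.1 + 1, a.2) ∨ b = (a.1, a.2 + 1))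
    (hne : ¬ ComE q q' a b) {z y : ℂ} (hz : z ∈ segment ℝ (ctr s q) (ctr s q'))
    (hy : y ∈ ed s a b) : s / 2 ≤ ‖z - y‖ := by
  obtain ⟨t, t0, t1, rfl⟩ := seg_par hz
  obtain ⟨u, u0, u1, y1, y2⟩ := mem_ed.1 hy
  have st0 : 0 ≤ s * t := mul_nonneg hs t0
  have st1 : s * t ≤ s := by nlinarith
  have su0 : 0 ≤ s * u := mul_nonneg hs u0
  have su1 : s * u ≤ s := by nlinarith
  apply norm_ge_re
  rw [Complex.sub_re, Complex.sub_im, y1, y2, Tj656.lin_re, Tj656.lin_im]
  rcases h with rfl | rfl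
  · rcases hab with rfl | rfl
    · -- centre path horizontal, edge horizontal
      have := half_ge hs q.2 a.2
      simp only [ctr]
      push_cast
      rcases this with h | h
      · right; right; left; linarith
      · right; right; right; linarith
    · -- centre path horizontal, edge vertical
      simp only [ctr]
      push_cast
      rcases lt_trichotomy a.1 (q.1 + 1) with h | h | h
      · left
        have : (a.1 : ℝ) ≤ q.1 := by exact_mod_cast (by omega : a.1 ≤ q.1)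
        nlinarith
      · rcases lt_trichotomy a.2 q.2 with h' | h' | h'
        · right; right; left
          have : (a.2 : ℝ) + 1 ≤ q.2 := by exact_mod_cast (by omega : a.2 + 1 ≤ q.2)
          nlinarith
        · exfalso
          apply hne
          refine comE_H (by unfold Adj; simp) (Or.inl ⟨?_, ?_⟩)
          · exact Prod.ext h h'
          · exact Prod.ext h (by simp only; omega)
        · right; right; right
          have : (q.2 : ℝ) + 1 ≤ a.2 := by exact_mod_cast (by omega : q.2 + 1 ≤ a.2)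
          nlinarith
      · right; left
        have : (q.1 : ℝ) + 2 ≤ a.1 := by exact_mod_cast (by omega : q.1 + 2 ≤ a.1)
        nlinarith
  · rcases hab with rfl | rfl
    · -- centre path vertical, edge horizontal
      simp only [ctr]
      push_cast
      rcases lt_trichotomy a.2 (q.2 + 1) with h | h | h
      · right; right; left
        have : (a.2 : ℝ) ≤ q.2 := by exact_mod_cast (by omega : a.2 ≤ q.2)
        nlinarith
      · rcases lt_trichotomy a.1 q.1 with h' | h' | h'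
        · left
          have : (a.1 : ℝ) + 1 ≤ q.1 := by exact_mod_cast (by omega : a.1 + 1 ≤ q.1)
          nlinarith
        · exfalso
          apply hne
          refine comE_V (by unfold Adj; simp) (Or.inl ⟨?_, ?_⟩)
          · exact Prod.ext h' h
          · exact Prod.ext (by simp only; omega) h
        · right; left
          have : (q.1 : ℝ) + 1 ≤ a.1 := by exact_mod_cast (by omega : q.1 + 1 ≤ a.1)
          nlinarith
      · right; right; right
        have : (q.2 : ℝ) + 2 ≤ a.2 := by exact_mod_cast (by omega : q.2 + 2 ≤ a.2)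
        nlinarith
    · -- centre path vertical, edge vertical
      have := half_ge hs q.1 a.1
      simp only [ctr]
      push_cast
      rcases this with h | h
      · left; linarith
      · right; left; linarith

theorem comE_swap {q q' a b : V} (h : Adj a b) : ComE q q' a b ↔ ComE q q' b a := by
  have e1 : lc b a = rc a b := by
    unfold lc rc; unfold Adj at h; ext <;> simp only <;> omega
  have e2 : rc b a = lc a b := by
    unfold lc rc; unfold Adj at h; ext <;> simp only <;> omega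
  unfold ComE
  rw [e1, e2]
  tauto

theorem comE_comm {q q' a b : V} : ComE q q' a b ↔ ComE q' q a b := by
  unfold ComE
  tauto

/-- **distance** between a centre segment and a lattice edge which it does not cross -/
theorem cen_far {s : ℝ} (hs : 0 ≤ s) {q q' a b : V} (h : Adj q q') (hab : Adj a b)
    (hne : ¬ ComE q q' a b) {z y : ℂ} (hz : z ∈ segment ℝ (ctr s q) (ctr s q'))
    (hy : y ∈ ed s a b) : s / 2 ≤ ‖z - y‖ := by
  obtain ⟨p, p', hp, hpp⟩ := canon h
  obtain ⟨c, d, hcd, hcc⟩ := canon hab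
  have hz' : z ∈ segment ℝ (ctr s p) (ctr s p') := by
    rcases hp with ⟨rfl, rfl⟩ | ⟨rfl, rfl⟩
    · exact hz
    · rw [segment_symm]; exact hz
  have hy' : y ∈ ed s c d := by
    rcases hcd with ⟨rfl, rfl⟩ | ⟨rfl, rfl⟩
    · exact hy
    · unfold ed; rw [segment_symm]; exact hy
  have hne' : ¬ ComE p p' c d := by
    rcases hp with ⟨rfl, rfl⟩ | ⟨rfl, rfl⟩ <;> rcases hcd with ⟨rfl, rfl⟩ | ⟨rfl, rfl⟩
    · exact hne
    · rwa [← comE_swap hab]
    · rwa [comE_comm]
    · rwa [comE_comm, ← comE_swap hab]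
  exact cen_far_aux hs hpp hcc hne' hz' hy'

theorem dart_inj {a b a' b' : V} (h : Adj a b) (h' : Adj a' b') (h1 : lc a b = lc a' b')
    (h2 : rc a b = rc a' b') : a = a' ∧ b = b' := by
  unfold Adj at h h'
  unfold lc at h1
  unfold rc at h2
  rw [Prod.mk.injEq] at h1 h2
  constructor <;> ext <;> omega

/-- the radial segment is a part of a centre segment -/
theorem rd_sub {s : ℝ} {F : Set V} {N : ℕ} {v : ℕ → V} (hc : Cyc F N v) (k : ℕ) :
    rd s v k ⊆ segment ℝ (ctr s (lc (v k) (v (k + 1)))) (ctr s (rc (v k) (v (k + 1)))) := by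
  refine (convex_segment _ _).segment_subset ?_ (left_mem_segment ℝ _ _)
  have e : md s v k = ctr s (lc (v k) (v (k + 1))) +
      ((1 / 2 : ℝ) : ℂ) * (ctr s (rc (v k) (v (k + 1))) - ctr s (lc (v k) (v (k + 1)))) := by
    rw [ctr_lc (hc.step k), ctr_rc (hc.step k)]
    unfold md
    push_cast
    ring
  rw [e]
  exact seg_mem (by norm_num) (by norm_num)

theorem rd_far {s : ℝ} {F : Set V} {N : ℕ} {v : ℕ → V} (hs : 0 ≤ s) (hc : Cyc F N v) {k j : ℕ}
    (hne : j % N ≠ k % N) {z y : ℂ} (hz : z ∈ rd s v k) (hy : y ∈ ed s (v j) (v (j + 1))) :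
    s / 2 ≤ ‖z - y‖ := by
  refine cen_far hs (adj_lc_rc (hc.step k)) (hc.step j) ?_ (rd_sub hc k hz) hy
  rintro (⟨h1, h2⟩ | ⟨h1, -⟩)
  · exact hne (mod_eq hc (dart_inj (hc.step j) (hc.step k) h1 h2).1)
  · exact hc.right k (h1 ▸ hc.left j)

theorem cc_far {s : ℝ} {F : Set V} {N : ℕ} {v : ℕ → V} (hs : 0 ≤ s) (hc : Cyc F N v) {q q' : V}
    (hq : q ∈ F) (hq' : q' ∈ F) (h : Adj q q') {j : ℕ} {z y : ℂ}
    (hz : z ∈ segment ℝ (ctr s q) (ctr s q')) (hy : y ∈ ed s (v j) (v (j + 1))) :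
    s / 2 ≤ ‖z - y‖ := by
  refine cen_far hs h (hc.step j) ?_ hz hy
  rintro (⟨-, h2⟩ | ⟨-, h2⟩)
  · exact hc.right j (h2 ▸ hq')
  · exact hc.right j (h2 ▸ hq)

/-- the ring is near the edges -/
theorem rs_near {s μ : ℝ} {F : Set V} {N : ℕ} {v : ℕ → V} (hμ : 0 < μ) (hc : Cyc F N v) (j : ℕ)
    {w : ℂ} (hw : w ∈ rs s μ v j) :
    (∃ y ∈ ed s (v j) (v (j + 1)), ‖w - y‖ ≤ 2 * μ) ∨
    ∃ y ∈ ed s (v (j + 1)) (v (j + 1 + 1)), ‖w - y‖ ≤ 2 * μ := by
  have n1 : ‖(μ : ℂ) * (I * ev v j)‖ = μ := by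
    rw [norm_mul, norm_mul, Complex.norm_I, ev_eq, cv_norm (hc.step j), Complex.norm_real,
      Real.norm_of_nonneg hμ.le]; ring
  have n2 : ‖(μ : ℂ) * (I * ev v (j + 1))‖ = μ := by
    rw [norm_mul, norm_mul, Complex.norm_I, ev_eq, cv_norm (hc.step (j + 1)), Complex.norm_real,
      Real.norm_of_nonneg hμ.le]; ring
  rcases hw with hw | hw
  · left
    obtain ⟨t, h0, h1, rfl⟩ := seg_par hw
    refine ⟨md s v j + t * (pt s (v (j + 1)) - md s v j), ?_, ?_⟩
    · have e : md s v j + t * (pt s (v (j + 1)) - md s v j) =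
          pt s (v j) + (((1 + t) / 2 : ℝ) : ℂ) * (pt s (v (j + 1)) - pt s (v j)) := by
        unfold md; push_cast; ring
      rw [e]
      exact seg_mem (by linarith) (by linarith)
    · have e : M s μ v j + t * (W s μ v j - M s μ v j) - (md s v j + t * (pt s (v (j + 1)) - md s v j))
          = μ * (I * ev v j) + t * (μ * (I * ev v (j + 1))) := by
        unfold M W; ring
      rw [e]
      refine (norm_add_le _ _).trans ?_
      rw [n1, norm_mul, n2, Complex.norm_real, Real.norm_of_nonneg h0]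
      nlinarith
  · right
    obtain ⟨t, h0, h1, rfl⟩ := seg_par hw
    refine ⟨pt s (v (j + 1)) + t * (md s v (j + 1) - pt s (v (j + 1))), ?_, ?_⟩
    · have e : pt s (v (j + 1)) + t * (md s v (j + 1) - pt s (v (j + 1))) =
          pt s (v (j + 1)) + ((t / 2 : ℝ) : ℂ) * (pt s (v (j + 1 + 1)) - pt s (v (j + 1))) := by
        unfold md; push_cast; ring
      rw [e]
      exact seg_mem (by linarith) (by linarith)
    · have e : W s μ v j + t * (M s μ v (j + 1) - W s μ v j) -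
          (pt s (v (j + 1)) + t * (md s v (j + 1) - pt s (v (j + 1))))
          = μ * (I * ev v (j + 1)) + ((1 - t : ℝ) : ℂ) * (μ * (I * ev v j)) := by
        unfold M W; push_cast; ring
      rw [e]
      refine (norm_add_le _ _).trans ?_
      rw [n2, norm_mul, n1, Complex.norm_real, Real.norm_of_nonneg (by linarith : 0 ≤ 1 - t)]
      nlinarith

theorem tri {z w y : ℂ} {s μ : ℝ} (hs : 16 * μ ≤ s) (hμ : 0 < μ) (h1 : s / 2 ≤ ‖z - y‖)
    (h2 : ‖w - y‖ ≤ 2 * μ) : s / 4 ≤ ‖z - w‖ := by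
  have e : z - y = (z - w) + (w - y) := by ring
  have h3 := norm_add_le (z - w) (w - y)
  rw [← e] at h3
  linarith

theorem md_ed (s : ℝ) (v : ℕ → V) (j : ℕ) : md s v j ∈ ed s (v j) (v (j + 1)) := by
  have e : md s v j = pt s (v j) + ((1 / 2 : ℝ) : ℂ) * (pt s (v (j + 1)) - pt s (v j)) := by
    unfold md; push_cast; ring
  rw [e]
  exact seg_mem (by norm_num) (by norm_num)

theorem d1 {s μ : ℝ} {F : Set V} {N : ℕ} {v : ℕ → V} (hμ : 0 < μ) (hs : 16 * μ ≤ s)
    (hc : Cyc F N v) (k j : ℕ) (h1 : j % N ≠ k % N) (h2 : (j + 1) % N ≠ k % N) {z w : ℂ}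
    (hz : z ∈ rd s v k) (hw : w ∈ rs s μ v j) : s / 4 ≤ ‖z - w‖ := by
  have hs0 : 0 ≤ s := by linarith
  rcases rs_near hμ hc j hw with ⟨y, hy, hy2⟩ | ⟨y, hy, hy2⟩
  · exact tri hs hμ (rd_far hs0 hc h1 hz hy) hy2
  · exact tri hs hμ (rd_far hs0 hc h2 hz hy) hy2

theorem d2 {s : ℝ} {F : Set V} {N : ℕ} {v : ℕ → V} (hs : 0 ≤ s)
    (hc : Cyc F N v) (k j : ℕ) (h1 : j % N ≠ k % N) {z : ℂ}
    (hz : z ∈ rd s v k) : s / 4 ≤ ‖z - md s v j‖ := by
  have := rd_far hs hc h1 hz (md_ed s v j)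
  linarith

theorem d3 {s μ : ℝ} {F : Set V} {N : ℕ} {v : ℕ → V} (hμ : 0 < μ) (hs : 16 * μ ≤ s)
    (hc : Cyc F N v) {q q' : V} (hq : q ∈ F) (hq' : q' ∈ F) (h : Adj q q') {z : ℂ}
    (hz : z ∈ segment ℝ (ctr s q) (ctr s q')) (j : ℕ) :
    (∀ w ∈ rs s μ v j, s / 4 ≤ ‖z - w‖) ∧ s / 4 ≤ ‖z - md s v j‖ := by
  have hs0 : 0 ≤ s := by linarith
  refine ⟨fun w hw => ?_, ?_⟩
  · rcases rs_near hμ hc j hw with ⟨y, hy, hy2⟩ | ⟨y, hy, hy2⟩
    · exact tri hs hμ (cc_far hs0 hc hq hq' h hz hy) hy2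
    · exact tri hs hμ (cc_far hs0 hc hq hq' h hz hy) hy2
  · have := cc_far hs0 hc hq hq' h hz (md_ed s v j)
    linarith

end Crest.Agent.R143.LabBx951
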