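import Crest.Agent.R143.Sep_755
import Crest.Agent.R143.Seg_991
import Crest.Agent.R143.LabB2_951

/-!
# Row 143 (S0194), CONT (K7): existence of the spokes (helper951)

* `out_pt` : the points `md k - t ν`, `0 < t < s`, are not in the polygon
* `last_out` : last element of a list with a property
* `spk_ex` : for every boundary edge a spoke exists, made of sites whose cells meet the segment
  from the middle of the edge to the inner point `M k`
-/

set_option autoImplicit false

noncomputable section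

open scoped Classical

namespace Crest.Agent.R143.Spkx951

open Set Complex
open Crest.Agent.R158 Crest.Agent.R158.Sp896
open Crest.Agent.R143.ToolWx838 Crest.Agent.R143.ToolW3x838 Crest.Agent.R143.Blkx838
open Crest.Agent.R143.Tenx416 (Pg)
open Crest.Agent.R143.LabDx755 Crest.Agent.R143.LabBx951
open Crest.Agent.R143.Labx755 (On Pl exists_chain M_md)
open Crest.Agent.R143.Sepx755 (Out Spo)
open Crest.Agent.R143.Segx991 (Clm Hl pth_conn)
open Crest.Agent.R143.B0x346 (GP)
open Crest.Agent.R143.RE0x723 (Pth)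
open Crest.Agent.R143.G6Wx723 (exists_cell)

variable {S : Finset ℂ} {s μ r δ d : ℝ} {F : Set V} {N : ℕ} {v : ℕ → V}

/-- a point near the centre of a cell is in no other cell -/
theorem near_ctr (hs : 0 < s) {q q' : V} {z : ℂ} (h : ‖z - ctr s q‖ < s / 2) (hz : z ∈ sq s q') :
    q' = q := by
  have h1 := abs_lt.1 (lt_of_le_of_lt (Complex.abs_re_le_norm _) h)
  have h2 := abs_lt.1 (lt_of_le_of_lt (Complex.abs_im_le_norm _) h)
  rw [Complex.sub_re] at h1
  rw [Complex.sub_im] at h2
  have e1 : (ctr s q).re = s * (q.1 + 1 / 2) := rfl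
  have e2 : (ctr s q).im = s * (q.2 + 1 / 2) := rfl
  rw [e1] at h1
  rw [e2] at h2
  exact Tj656.cell_unique hs (by nlinarith [h1.1]) (by nlinarith [h1.2]) (by nlinarith [h2.1])
    (by nlinarith [h2.2]) hz

/-- **outer points** next to the middle of a boundary edge -/
theorem out_pt (hs : 0 < s) (hc : Cyc F N v) (k : ℕ) {t : ℝ} (h0 : 0 < t) (h1 : t < s) :
    md s v k - t * (I * ev v k) ∉ Pg s F := by
  intro h
  obtain ⟨q, hq, hz⟩ := mem_iUnion₂.1 h
  have e : md s v k - t * (I * ev v k) - ctr s (rc (v k) (v (k + 1))) =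
      ((s / 2 - t : ℝ) : ℂ) * (I * cv (v k) (v (k + 1))) := by
    rw [ctr_rc (hc.step k), ev_eq]
    unfold md
    push_cast
    ring
  have h2 : ‖md s v k - t * (I * ev v k) - ctr s (rc (v k) (v (k + 1)))‖ < s / 2 := by
    rw [e, norm_mul, norm_mul, Complex.norm_I, cv_norm (hc.step k), Complex.norm_real,
      Real.norm_eq_abs, mul_one, mul_one, abs_lt]
    constructor <;> linarith
  exact hc.right k (near_ctr hs h2 hz ▸ hq)

/-- a site at distance less than `δ` from the middle of a boundary edge is not deep -/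
theorem out_near (hs : 0 < s) (hc : Cyc F N v) (k : ℕ) {x : ℂ} (h : ‖x - md s v k‖ < δ) :
    Out s δ F x := by
  intro hcon
  have hgap : 0 < δ - ‖x - md s v k‖ := by linarith
  set t := min (δ - ‖x - md s v k‖) (s / 2) with ht
  have t0 : 0 < t := lt_min hgap (by linarith)
  have t1 : t ≤ s / 2 := min_le_right _ _
  have t2 : t ≤ δ - ‖x - md s v k‖ := min_le_left _ _
  refine out_pt hs hc k t0 (by linarith) (hcon ?_)
  rw [mem_closedBall_iff_norm]
  have e : md s v k - t * (I * ev v k) - x = -(x - md s v k) + -(t * (I * ev v k)) := by ring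
  rw [e]
  refine (norm_add_le _ _).trans ?_
  rw [norm_neg, norm_neg, norm_mul, norm_mul, Complex.norm_I, ev_eq, cv_norm (hc.step k),
    Complex.norm_real, Real.norm_of_nonneg t0.le]
  linarith

/-- last element with a property -/
theorem last_out {α : Type*} (P : α → Prop) (l : List α) (h : ∃ x ∈ l, P x) :
    ∃ l1 y l2, l = l1 ++ y :: l2 ∧ P y ∧ ∀ x ∈ l2, ¬ P x := by
  induction l with
  | nil => simp at h
  | cons a l ih =>
    by_cases h' : ∃ x ∈ l, P x
    · obtain ⟨l1, y, l2, rfl, h2, h3⟩ := ih h'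
      exact ⟨a :: l1, y, l2, rfl, h2, h3⟩
    · push Not at h'
      obtain ⟨x, hx, hP⟩ := h
      rcases List.mem_cons.1 hx with rfl | hx
      · exact ⟨[], x, l, rfl, hP, h'⟩
      · exact absurd hP (h' x hx)

/-- **spokes exist** -/
theorem spk_ex (hS : GP (S : Set ℂ)) (h3 : 3 ≤ S.card) (hc : Cyc F N v) (hs : 0 < s)
    (hμ : 0 < μ) (hd : d < δ) (hδ : δ ≤ μ / 4) (hr : μ + d ≤ r) (k : ℕ)
    (H : Hl S (segment ℝ (md s v k) (M s μ v k)) d) :
    ∃ y c l, Spo S s μ r δ F v k y c l ∧
      ∀ x ∈ l, x ∈ Clm S (segment ℝ (md s v k) (M s μ v k)) := by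
  set C := segment ℝ (md s v k) (M s μ v k) with hC
  have hne : S.Nonempty := by rw [← Finset.card_pos]; omega
  obtain ⟨y0, hy0, hy0c⟩ := exists_cell hne (md s v k)
  obtain ⟨c0, hc0, hc0c⟩ := exists_cell hne (M s μ v k)
  have hyC : y0 ∈ Clm S C := ⟨hy0, _, left_mem_segment ℝ _ _, hy0c⟩
  have hcC : c0 ∈ Clm S C := ⟨hc0, _, right_mem_segment ℝ _ _, hc0c⟩
  obtain ⟨q, hq, hqC, hqD⟩ := exists_chain
    (pth_conn hS h3 (convex_segment _ _).isPreconnected hyC hcC)
  have hy0d : ‖y0 - md s v k‖ < δ := by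
    obtain ⟨z, hz, h1⟩ := H _ (left_mem_segment ℝ _ _)
    have := hy0c z (Finset.mem_coe.2 hz)
    rw [norm_sub_rev]
    linarith
  have hc0d : ‖c0 - M s μ v k‖ ≤ μ / 2 := by
    obtain ⟨z, hz, h1⟩ := H _ (right_mem_segment ℝ _ _)
    have := hc0c z (Finset.mem_coe.2 hz)
    rw [norm_sub_rev]
    linarith
  have hmem : ∀ x ∈ q, ‖x - md s v k‖ ≤ r := by
    intro x hx
    obtain ⟨z, hz, h1⟩ := Segx991.near H (hqC x hx)
    have h2 : ‖z - md s v k‖ ≤ μ := by
      have h4 : C ⊆ Metric.closedBall (md s v k) μ :=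
        (convex_closedBall _ _).segment_subset (Metric.mem_closedBall_self hμ.le)
          (by rw [mem_closedBall_iff_norm, M_md hc hμ])
      have := h4 hz
      rwa [mem_closedBall_iff_norm] at this
    have h5 : ‖x - md s v k‖ ≤ ‖x - z‖ + ‖z - md s v k‖ := by
      have := norm_add_le (x - z) (z - md s v k)
      rwa [sub_add_sub_cancel] at this
    rw [norm_sub_rev x z] at h5
    linarith
  obtain ⟨l1, y, l2, e, hy, hl2⟩ := last_out (Out s δ F) q
    ⟨y0, by obtain ⟨m, hm⟩ := hq.left; rw [hm]; simp, out_near hs hc k hy0d⟩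
  have hsub : ∀ x ∈ y :: l2, x ∈ q := fun x hx => by rw [e]; exact List.mem_append_right _ hx
  refine ⟨y, c0, y :: l2, ⟨⟨rfl, ?_⟩, ?_, hy, ?_, ?_, ?_, hc0d⟩, fun x hx => hqC x (hsub x hx)⟩
  · rw [← hq.lt, e, List.getLast?_append_of_ne_nil _ (by simp)]
  · exact fun x hx => (hqC x (hsub x hx)).1
  · intro x hx ho
    rcases List.mem_cons.1 hx with rfl | hx
    · rfl
    · exact absurd ho (hl2 x hx)
  · intro p hp
    refine hqD p ?_
    rw [e, prs_append]
    exact List.mem_append_right _ hp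
  · exact fun x hx => hmem x (hsub x hx)

end Crest.Agent.R143.Spkx951
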