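import Crest.Agent.R143.Comp_66
import Crest.Agent.R143.Hul_755
import Crest.Agent.R143.Spk_951
import Crest.Agent.R143.LabB3_951

/-!
# Row 143 (S0194), CONT (K7), leaf THR : three intervals of labels (helper755)

* `pg_near` : the component is well inside the disc; `inH` : inside the hull
* `st` : the setting of `Sep_755` for a component of the good bricks
* `spoke` : a spoke at every boundary edge, its outer site has the label of the edge
* **`thr : THR`**
-/

set_option autoImplicit false

noncomputable section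

open scoped Classical

namespace Crest.Agent.R143.Thrx755

open Crest.Agent.R158.Sp896 (V lc rc pt ed sq Cyc)
open Crest.Agent.R143.JColx54 (Adj)
open Crest.Agent.R143.B0x346 Crest.Agent.R143.DelGx806 Crest.Agent.R143.DelRx806
open Crest.Agent.R143.Brkx478 (Bk Nb Conn cells bk)
open Crest.Agent.R143.Tenx416 (Pg)
open Crest.Agent.R143.NetVx346 (Vin)
open Crest.Agent.R143.DomAx722 (edge_dist abs_cr_le)
open Crest.Agent.R143.LabDx755 (md M)
open Crest.Agent.R143.Sepx755 (Out Spo St)
open Crest.Agent.R143.Segx991 (Hl)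
open Crest.Agent.R143.K7Dx359
open Crest.Agent.R143.Compx66

variable {S : Finset ℂ} {A A' : ZMod 3 → Set ℂ} {x0 : ℂ} {L d s C : ℝ} {U : Finset Bk} {N : ℕ}
  {v : ℕ → V} {l : V → V → ZMod 3}

/-- the component is well inside the disc -/
theorem pg_near (hU : Cm A x0 L s U) {z : ℂ} (hz : z ∈ Pg s (cells (U : Set Bk))) :
    ‖z - x0‖ ≤ L - 2 * s := by
  obtain ⟨q, hq, hz⟩ := mem_Pg.1 hz
  exact ((hU.sub _ hq) (bk q) (Or.inl rfl)).1 z (mem_Pg.2 ⟨q, rfl, hz⟩)

/-- the component is inside the hull -/
theorem inH (h : Stg S A x0 L d s) (hU : Cm A x0 L s U) {z : ℂ}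
    (hz : z ∈ Pg s (cells (U : Set Bk))) : Ordx755.InH S z := by
  intro a b hab
  obtain ⟨hs, hd, h2d, -⟩ := numbers h
  have h1 := edge_dist h.dns hab
  have h2 := (abs_le.1 (abs_cr_le (b - a) (z - x0))).1
  have h3 := pg_near hU hz
  have hn : 0 < ‖b - a‖ := norm_pos_iff.2 (sub_ne_zero.2 (hullE.ne hab).symm)
  have e : cr (b - a) (z - a) = cr (b - a) (x0 - a) + cr (b - a) (z - x0) := by
    unfold cr
    simp only [Complex.sub_re, Complex.sub_im]
    ring
  have h4 : ‖b - a‖ * ‖z - x0‖ ≤ ‖b - a‖ * (L - 2 * s) := mul_le_mul_of_nonneg_left h3 hn.le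
  have h5 : 2 * d ≤ s := by norm_num at h2d; linarith
  rw [e]
  have h6 : 0 < ‖b - a‖ * (2 * s - 2 * d) := mul_pos hn (by linarith)
  nlinarith

/-- the setting of `Sep_755` -/
theorem st (h : Stg S A x0 L d s) (hU : Cm A x0 L s U) (hc : Cyc (cells (U : Set Bk)) N v) :
    St S s (s / 16) (s / 10) (2 * d) (cells (U : Set Bk)) N v := by
  obtain ⟨hs, hd, h2d, -⟩ := numbers h
  norm_num at h2d
  exact
    { gp := h.dns.gp
      hμ := by linarith
      hr1 := by linarith
      hr := by linarith
      hδ := by linarith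
      C := hc
      B := LabBx951.base s (s / 16) _ N v hs (by linarith) (by linarith)
        (Brkx478.cells_finite U.finite_toSet) (Brkx478.con_cells hU.con)
        (fun q hq q' hq' => Brkx478.con_cells hU.con' q hq q' hq') hc
      con := Brkx478.con_cells hU.con
      sh := fun a b hab _ => by
        have := edge_len h (show Adj S a b from hab)
        have h3 : s / 2 ^ 17 < s / 16 / 2 := by norm_num; linarith
        linarith }

/-- `A'` is off the component -/
theorem out_A (h : Stg S A x0 L d s) (hL : Lay S A x0 L d s C l A') (hU : Cm A x0 L s U)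
    {i : ZMod 3} {x : ℂ} (hx : x ∈ A' i) : Out s (2 * d) (cells (U : Set Bk)) x := by
  intro hb
  have h1 : x ∈ Vu S d s U := mem_Vin.2 ⟨hL.tr.sub i hx, hb⟩
  have h2 : x ∈ (Va S A x0 L d s : Set ℂ) := ((comp S A x0 L d s h).1 U hU).1 x h1
  rw [← hL.fr] at h2
  exact h2.2 i hx

theorem irrefl {y : ℂ} (h : Adj S y y) : False := by
  rcases h with ⟨c, hc⟩ | ⟨c, hc⟩
  · obtain ⟨o, ht⟩ := mem_delT_iff.1 hc
    have := ht.pos
    simp [cr] at this
  · obtain ⟨o, ht⟩ := mem_delT_iff.1 hc
    have := ht.pos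
    simp [cr] at this

/-- **a spoke at every boundary edge, its outer site has the label of the edge** -/
theorem spoke (h : Stg S A x0 L d s) (hL : Lay S A x0 L d s C l A') (hU : Cm A x0 L s U)
    (hB : Bd S A' d s U l N v) (k : ℕ) :
    ∃ y c q, Spo S s (s / 16) (s / 10) (2 * d) (cells (U : Set Bk)) v k y c q ∧
      y ∈ A' (l (v k) (v (k + 1))) := by
  obtain ⟨hs, hd, h2d, -⟩ := numbers h
  norm_num at h2d
  have Z := st h hU hB.cyc
  have hMP : Metric.ball (M s (s / 16) v k) (s / 16) ⊆ Pg s (cells (U : Set Bk)) :=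
    Z.B.rad k _ (left_mem_segment ℝ _ _)
  have hM : ‖M s (s / 16) v k - x0‖ ≤ L - 2 * s := pg_near hU (hMP (Metric.mem_ball_self Z.hμ))
  have hMm := Labx755.M_md (s := s) Z.C Z.hμ k
  have hm : ‖md s v k - x0‖ ≤ L - 2 * s + s / 16 := by
    have e : md s v k - x0 = (M s (s / 16) v k - x0) - (M s (s / 16) v k - md s v k) := by ring
    rw [e]
    refine (norm_sub_le _ _).trans ?_
    linarith
  have H : Hl S (segment ℝ (md s v k) (M s (s / 16) v k)) d := by
    intro z hz
    have h1 : z ∈ Metric.closedBall x0 (L - 2 * s + s / 16) := by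
      refine (convex_closedBall x0 _).segment_subset ?_ ?_ hz
      · rw [mem_closedBall_iff_norm]; exact hm
      · rw [mem_closedBall_iff_norm]; linarith
    rw [mem_closedBall_iff_norm] at h1
    obtain ⟨t, ht, ht'⟩ := h.dns.hole z (by linarith)
    exact ⟨t, ht, by rw [norm_sub_rev]; exact ht'.le⟩
  obtain ⟨y, c, q, hq, -⟩ := Spkx951.spk_ex h.dns.gp h.card hB.cyc hs Z.hμ
    (show d < 2 * d by linarith) Z.hδ (show s / 16 + d ≤ s / 10 by linarith) k H
  refine ⟨y, c, q, hq, ?_⟩
  have hcd : ¬ Out s (2 * d) (cells (U : Set Bk)) c := by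
    intro ho
    apply ho
    refine Set.Subset.trans ?_ hMP
    have h1 := hq.last
    refine Metric.closedBall_subset_ball' ?_
    rw [dist_eq_norm]
    linarith
  obtain ⟨q0, rfl⟩ := hq.pl.left
  cases q0 with
  | nil =>
    exfalso
    obtain ⟨q1, h1⟩ := hq.pl.right
    have : q1 = [] ∧ y = c := by
      cases q1 with
      | nil => simpa using h1
      | cons => simp at h1
    exact hcd (this.2 ▸ hq.out)
  | cons x q1 =>
    have hadj : Adj S y x := hq.del (y, x) (by simp [ToolWx838.prs_cons])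
    have hxq : x ∈ y :: x :: q1 := by simp
    have hx : ¬ Out s (2 * d) (cells (U : Set Bk)) x := by
      intro ho
      have e := hq.inn x hxq ho
      rw [e] at hadj
      exact irrefl hadj
    have hxV : x ∈ Vu S d s U := mem_Vin.2 ⟨hq.mem x hxq, not_not.1 hx⟩
    have hyV : y ∉ (Va S A x0 L d s : Set ℂ) := by
      intro hy
      have h1 := ((comp S A x0 L d s h).1 U hU).2.1 x hxV y hy hadj.symm
      exact hq.out (mem_Vin.1 h1).2
    have hyS : y ∈ S := hq.mem y (by simp)
    rw [← hL.fr] at hyV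
    have hyi : ∃ i, y ∈ A' i := by
      by_contra hcon
      push Not at hcon
      exact hyV ⟨hyS, hcon⟩
    obtain ⟨i, hi⟩ := hyi
    obtain ⟨k', hk', hinf⟩ := hB.lab i y hi ⟨x, hxV, hadj⟩
    have hne : (ed s (v k') (v (k' + 1))).Nonempty := ⟨_, LabBx951.md_ed s v k'⟩
    obtain ⟨z, hz, hyz⟩ := (Metric.infDist_lt_iff hne).1 (show Metric.infDist y _ < s / 4 by linarith)
    rw [dist_eq_norm] at hyz
    have hmod : k' % N = k % N := by
      by_contra hne
      have h1 := LabBx951.rd_far hs.le Z.C hne (left_mem_segment ℝ _ _) hz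
      have h2 := hq.near y (by simp)
      have e : md s v k - z = (y - z) - (y - md s v k) := by ring
      rw [e] at h1
      have h3 := norm_sub_le (y - z) (y - md s v k)
      linarith
    have hper : Function.Periodic v N := Z.C.per
    have e1 : v k' = v k := by
      rw [← hper.map_mod_nat k', ← hper.map_mod_nat k, hmod]
    have e2 : v (k' + 1) = v (k + 1) := by
      rw [← hper.map_mod_nat (k' + 1), ← hper.map_mod_nat (k + 1), Nat.add_mod, hmod,
        ← Nat.add_mod]
    rw [← e1, ← e2, hk']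
    exact hi

/-- **THR** : the labels form three intervals -/
theorem thr : THR := by
  intro S A A' x0 L d s C l U N v hC h hL hU hB
  obtain ⟨n, w, p, hP⟩ := h.pg
  have H := Hulx755.hul_of_pg hP hL.sub
  obtain ⟨a0, a1, a2, h1, h2, h3, e0, e1, e2⟩ := Ordx755.three (st h hU hB.cyc)
    (fun z hz => inH h hU hz) (A := A') (fun i x hx => hL.tr.sub i hx)
    (fun i x hx => out_A h hL hU hx) (fun i j hij => hL.tr.disj i j hij)
    (fun i => hL.tr.con i) H (lab := fun k => l (v k) (v (k + 1)))
    (fun k => by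
      show l (v (k + N)) (v (k + N + 1)) = _
      rw [hB.cyc.per, show k + N + 1 = k + 1 + N by ring, hB.cyc.per])
    hB.all (spoke h hL hU hB)
  exact ⟨![a0, a1, a2], h1, h2, h3, e0, e1, e2⟩

end Crest.Agent.R143.Thrx755
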