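import Crest.Agent.R143.FinF_894
import Crest.Agent.R143.FinG_377
import Crest.Agent.R143.RigP_854
import Crest.Agent.R143.Thr_755
import Crest.Agent.R143.LayK_341

/-!
# Row 143 (S0194): the row from 854's contracts (helper894)

`RigAll κ` : for every labelled polygon and type the contract `RigPx854.RigIn` (mean end points of
the points in `u.P`, 609). `LAYER`, `THR`, `MARK`, `RigAll κ` give the leaf.
-/

set_option autoImplicit false

noncomputable section

namespace Crest.Agent.R143.FinGx894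

open Crest.ProbabilityR.Voronoi
open Crest.Agent.R143.Finx894 Crest.Agent.R143.FinCx894 Crest.Agent.R143.PolyUx346
open Crest.Agent.R143.K7Dx359 (LAYER THR MARK K7)

/-- the contracts of RIG, one constant `κ N ε` for all polygons and types -/
def RigAll (κ : ℕ → ℝ → ℂ) : Prop := ∀ (u : Poly) (i : ZMod 3),
  Nonempty (RigPx854.RigIn (fun ε ω j => MeasDx609.mI u ε j id ω) κ u i)

theorem rig_of_all {κ : ℕ → ℝ → ℂ} (h : RigAll κ) : Rig := RigPx854.poly_of_rigInI h

theorem rig_of_w {κ : ℕ → ℝ → ℂ} (h : ∀ (u : Poly) (w : ZMod 3), Nonempty (RigPx854.RigW κ u w)) :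
    Rig := RigPx854.poly_of_rigW h

/-- the row from `LAYER`, `THR`, `MARK` and RIG -/
theorem leaf (h1 : LAYER) (h2 : THR) (h3 : MARK) (h4 : Rig) : Leaf894 :=
  Mabx377.leaf_lmt h1 h2 h3 h4

/-- **the row from `LAYER`, `THR`, `MARK` and the contracts of RIG** -/
theorem leaf_all (h1 : LAYER) (h2 : THR) (h3 : MARK) {κ : ℕ → ℝ → ℂ} (h4 : RigAll κ) : Leaf894 :=
  leaf h1 h2 h3 (rig_of_all h4)

/-- `THR` is 755's theorem -/
theorem leaf_lm (h1 : LAYER) (h3 : MARK) {κ : ℕ → ℝ → ℂ} (h4 : RigAll κ) : Leaf894 :=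
  leaf_all h1 Thrx755.thr h3 h4

theorem leaf_lm' (h1 : LAYER) (h3 : MARK) (h4 : Rig) : Leaf894 := leaf h1 Thrx755.thr h3 h4

/-- `LAYER` is 341's theorem: **the row from `MARK` and the contracts of RIG** -/
theorem leaf_m {κ : ℕ → ℝ → ℂ} (h3 : MARK) (h4 : RigAll κ) : Leaf894 :=
  leaf_lm LayKx341.layer h3 h4

theorem leaf_m' (h3 : MARK) (h4 : Rig) : Leaf894 := leaf_lm' LayKx341.layer h3 h4

end Crest.Agent.R143.FinGx894
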