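import Crest.Agent.R143.Inw_741
import Crest.Agent.R143.Spk_951
import Crest.Agent.R143.NetV_346

/-!
# Row 143 (S0194), CONT (K7), MARK: inward step and spokes in the deep sites (helper741)

In the form asked by helper165. `Vin S P d` = sites `x` with `closedBall x (2 d) ⊆ P`.
* `step1` (I1) : the inward step from a deep site in the direction `e`
* `step1b` (I1b) : the deep sites near a segment which is at distance `3 d` from the outside
* `nadj` (NADJ) : for the two edges at the vertex `v (k + 1)`: a deep site next to a site off the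
  deep sites near the middle of the edge, joined to the site of the inner corner `W k`
-/

set_option autoImplicit false

noncomputable section

open scoped Classical

namespace Crest.Agent.R143.Inwx741

open Set
open Crest.ProbabilityR.Voronoi
open Crest.Agent.R158 Crest.Agent.R158.Sp896
open Crest.Agent.R143.B0x346 Crest.Agent.R143.DelGx806 Crest.Agent.R143.B0Dx346
  Crest.Agent.R143.RE0x723 Crest.Agent.R143.G6Wx723 Crest.Agent.R143.Segx991
open Crest.Agent.R143.Tenx416 (Pg)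
open Crest.Agent.R143.JColx54 (Adj)
open Crest.Agent.R143.NetVx346 (Vin)

variable {S : Finset ℂ} {P C : Set ℂ} {x z c p q e : ℂ} {d T s μ : ℝ} {F : Set V} {N : ℕ}
  {v : ℕ → V}

theorem mem_vin : x ∈ Vin S P d ↔ x ∈ S ∧ Metric.closedBall x (2 * d) ⊆ P := by
  unfold NetVx346.Vin
  exact Finset.mem_filter

theorem vin_deep : Vin S P d = deep S P (2 * d) := by
  ext x
  rw [mem_vin, mem_deep]

/-- points of the segment from `x` in the direction `e` -/
theorem seg_dir (hT : 0 ≤ T) (hq : q ∈ segment ℝ x (x + T * e)) :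
    ∃ t ∈ Icc (0 : ℝ) T, q = x + t * e := by
  rw [segment_eq_image'] at hq
  obtain ⟨θ, ⟨h0, h1⟩, rfl⟩ := hq
  refine ⟨θ * T, ⟨by positivity, by nlinarith⟩, ?_⟩
  simp only [Complex.real_smul]
  push_cast
  ring

/-- **(I1)** the inward step -/
theorem step1 (hS : GP (S : Set ℂ)) (h3 : 3 ≤ S.card) (hx : x ∈ Vin S P d) (he : ‖e‖ = 1)
    (hd : 0 < d) (hdT : d ≤ T) (hol : ∀ t ∈ Icc (0 : ℝ) T, ∃ a ∈ S, ‖x + t * e - a‖ ≤ d)
    (hP : ∀ t ∈ Icc d T, Metric.closedBall (x + t * e) (3 * d) ⊆ P) (hc : c ∈ S)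
    (hcc : x + T * e ∈ voronoiCell (S : Set ℂ) c) :
    Pth S {z | z ∈ Vin S P d ∧ ∃ t ∈ Icc (0 : ℝ) T, ‖z - (x + t * e)‖ ≤ d} x c := by
  obtain ⟨hxS, hxP⟩ := mem_vin.1 hx
  have hT : 0 ≤ T := hd.le.trans hdT
  refine (pth_conn hS h3 (convex_segment x (x + T * e)).isPreconnected
    (mem_clm hxS (left_mem_segment ℝ _ _)) ⟨hc, _, right_mem_segment ℝ _ _, hcc⟩).mono ?_
  rintro z ⟨hzS, q, hq, hqz⟩
  obtain ⟨t, ht, rfl⟩ := seg_dir hT hq
  have h1 : ‖z - (x + t * e)‖ ≤ d := by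
    obtain ⟨a, ha, h2⟩ := hol t ht
    have := hqz a (Finset.mem_coe.2 ha)
    rw [norm_sub_rev]
    exact this.trans h2
  have h2 : ‖z - (x + t * e)‖ ≤ t := by
    have h4 := hqz x (Finset.mem_coe.2 hxS)
    rw [norm_sub_rev]
    refine h4.trans ?_
    rw [add_sub_cancel_left, norm_mul, he, mul_one, Complex.norm_real,
      Real.norm_of_nonneg ht.1]
  refine ⟨mem_vin.2 ⟨hzS, fun y hy => ?_⟩, t, ht, h1⟩
  rw [Metric.mem_closedBall, dist_eq_norm] at hy
  rcases le_total t d with h5 | h5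
  · refine hP d ⟨le_rfl, hdT⟩ ?_
    rw [Metric.mem_closedBall, dist_eq_norm]
    have h6 : ‖x + t * e - (x + d * e)‖ = d - t := by
      have : x + t * e - (x + d * e) = ((t - d : ℝ) : ℂ) * e := by push_cast; ring
      rw [this, norm_mul, he, mul_one, Complex.norm_real, Real.norm_eq_abs, abs_sub_comm,
        abs_of_nonneg (by linarith)]
    have h7 : ‖y - (x + d * e)‖ ≤ ‖y - z‖ + (‖z - (x + t * e)‖ + ‖x + t * e - (x + d * e)‖) := by
      have e1 := norm_add_le (y - z) (z - (x + d * e))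
      have e2 := norm_add_le (z - (x + t * e)) (x + t * e - (x + d * e))
      rw [sub_add_sub_cancel] at e1 e2
      linarith
    linarith
  · refine hP t ⟨h5, ht.2⟩ ?_
    rw [Metric.mem_closedBall, dist_eq_norm]
    have e1 := norm_add_le (y - z) (z - (x + t * e))
    rw [sub_add_sub_cancel] at e1
    linarith

/-- **(I1b)** along a preconnected set at distance `3 d` from the outside -/
theorem step1b' (hS : GP (S : Set ℂ)) (h3 : 3 ≤ S.card) (hC : IsPreconnected C)
    (hH : Hl S C d) (hP : ∀ z ∈ C, Metric.closedBall z (3 * d) ⊆ P) {a b : ℂ} (ha : a ∈ S)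
    (hb : b ∈ S) (hpC : p ∈ C) (hqC : q ∈ C) (hpa : p ∈ voronoiCell (S : Set ℂ) a)
    (hqb : q ∈ voronoiCell (S : Set ℂ) b) :
    Pth S {z | z ∈ Vin S P d ∧ ∃ w ∈ C, ‖z - w‖ ≤ d} a b := by
  refine (pth_conn hS h3 hC ⟨ha, p, hpC, hpa⟩ ⟨hb, q, hqC, hqb⟩).mono ?_
  intro z hz
  obtain ⟨w, hw, h1⟩ := near hH hz
  refine ⟨?_, w, hw, by rwa [norm_sub_rev]⟩
  rw [vin_deep]
  refine off_in2 hH (fun y hy => ?_) hz
  have e : d + 2 * d = 3 * d := by ring
  rw [e]
  exact hP y hy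

/-- **(I1b)** along a segment -/
theorem step1b (hS : GP (S : Set ℂ)) (h3 : 3 ≤ S.card) (hH : Hl S (segment ℝ p q) d)
    (hP : ∀ z ∈ segment ℝ p q, Metric.closedBall z (3 * d) ⊆ P) {a b : ℂ} (ha : a ∈ S)
    (hb : b ∈ S) (hpa : p ∈ voronoiCell (S : Set ℂ) a) (hqb : q ∈ voronoiCell (S : Set ℂ) b) :
    Pth S {z | z ∈ Vin S P d ∧ ∃ w ∈ segment ℝ p q, ‖z - w‖ ≤ d} a b :=
  step1b' hS h3 (convex_segment p q).isPreconnected hH hP ha hb (left_mem_segment ℝ p q)
    (right_mem_segment ℝ p q) hpa hqb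

/-! ### spokes -/

open Crest.Agent.R143.LabDx755 (md M W rs ev ctr)

theorem md_p0 (hs : 0 < s) (hc : Cyc F N v) (k : ℕ) :
    ‖md s v k - pt s (v (k + 1))‖ = s / 2 ∧ ‖md s v (k + 1) - pt s (v (k + 1))‖ = s / 2 := by
  have key : ∀ j, ‖pt s (v (j + 1)) - pt s (v j)‖ = s := by
    intro j
    have h := hc.step j
    have e : pt s (v (j + 1)) - pt s (v j) = s * LabDx755.ev v j := by
      unfold pt LabDx755.ev
      apply Complex.ext
      · simp only [Complex.sub_re, Complex.mul_re, Complex.ofReal_re, Complex.ofReal_im]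
        push_cast
        ring
      · simp only [Complex.sub_im, Complex.mul_im, Complex.ofReal_re, Complex.ofReal_im]
        push_cast
        ring
    rw [e, norm_mul, LabBx951.ev_eq, LabBx951.cv_norm h, mul_one, Complex.norm_real,
      Real.norm_of_nonneg hs.le]
  constructor
  · have e : md s v k - pt s (v (k + 1)) = -((pt s (v (k + 1)) - pt s (v k)) / 2) := by
      unfold LabDx755.md
      ring
    rw [e, norm_neg, norm_div, key k, Complex.norm_ofNat]
  · have e : md s v (k + 1) - pt s (v (k + 1)) = (pt s (v (k + 1 + 1)) - pt s (v (k + 1))) / 2 := by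
      unfold LabDx755.md
      ring
    rw [e, norm_div, key (k + 1), Complex.norm_ofNat]

theorem ev_norm' (hc : Cyc F N v) (k : ℕ) : ‖LabDx755.ev v k‖ = 1 := by
  rw [LabBx951.ev_eq, LabBx951.cv_norm (hc.step k)]

theorem W_p0 (hμ : 0 ≤ μ) (hc : Cyc F N v) (k : ℕ) :
    ‖LabDx755.W s μ v k - pt s (v (k + 1))‖ ≤ 2 * μ := by
  have e : LabDx755.W s μ v k - pt s (v (k + 1)) =
      μ * (Complex.I * LabDx755.ev v k) + μ * (Complex.I * LabDx755.ev v (k + 1)) := by
    unfold LabDx755.W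
    ring
  rw [e]
  refine (norm_add_le _ _).trans ?_
  rw [norm_mul, norm_mul, norm_mul, norm_mul, Complex.norm_I, ev_norm' hc, ev_norm' hc,
    Complex.norm_real, Real.norm_of_nonneg hμ]
  linarith

/-- **(NADJ)** -/
theorem nadj (hS : GP (S : Set ℂ)) (h3 : 3 ≤ S.card) (hc : Cyc F N v) (hs : 0 < s) (hd : 0 < d)
    (hds : 64 * d ≤ s) (k : ℕ)
    (hB : ∀ z ∈ LabDx755.rs s (s / 16) v k, Metric.ball z (s / 16) ⊆ Pg s F)
    (hol : ∀ z, ‖z - pt s (v (k + 1))‖ ≤ 3 * s / 2 → ∃ a ∈ S, ‖a - z‖ < d) {g : ℂ} (hg : g ∈ S)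
    (hgc : LabDx755.W s (s / 16) v k ∈ voronoiCell (S : Set ℂ) g) {j : ℕ}
    (hj : j = k ∨ j = k + 1) :
    ∃ x y, x ∈ Vin S (Pg s F) d ∧ y ∈ S ∧ y ∉ Vin S (Pg s F) d ∧ Adj S x y ∧
      ‖y - LabDx755.md s v j‖ ≤ s / 16 + 3 * d ∧
      Pth S {z | z ∈ Vin S (Pg s F) d ∧ ‖z - pt s (v (k + 1))‖ ≤ s} x g := by
  have hμ : 0 < s / 16 := by linarith
  set p0 := pt s (v (k + 1)) with hp0
  set Mj := LabDx755.M s (s / 16) v j with hMj
  set mj := LabDx755.md s v j with hmj
  have hne : S.Nonempty := by rw [← Finset.card_pos]; omega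
  have hm0 : ‖mj - p0‖ = s / 2 := by
    rcases hj with rfl | rfl
    · exact (md_p0 hs hc j).1
    · exact (md_p0 hs hc k).2
  have hMm : ‖Mj - mj‖ = s / 16 := Labx755.M_md hc hμ j
  have hM0 : ‖Mj - p0‖ ≤ s / 2 + s / 16 := by
    have := norm_add_le (Mj - mj) (mj - p0)
    rw [sub_add_sub_cancel] at this
    linarith
  have hW0 : ‖LabDx755.W s (s / 16) v k - p0‖ ≤ s / 2 + s / 16 := by
    have := W_p0 (s := s) hμ.le hc k
    rw [← hp0] at this
    linarith
  -- the two segments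
  have hC1 : segment ℝ mj Mj ⊆ Metric.closedBall mj (s / 16) :=
    (convex_closedBall _ _).segment_subset (Metric.mem_closedBall_self hμ.le)
      (by rw [mem_closedBall_iff_norm]; exact hMm.le)
  have hC1' : segment ℝ mj Mj ⊆ Metric.closedBall p0 (s / 2 + s / 16) :=
    (convex_closedBall _ _).segment_subset
      (by rw [mem_closedBall_iff_norm]; linarith) (by rw [mem_closedBall_iff_norm]; exact hM0)
  have hC2 : segment ℝ Mj (LabDx755.W s (s / 16) v k) ⊆
      Metric.closedBall p0 (s / 2 + s / 16) :=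
    (convex_closedBall _ _).segment_subset
      (by rw [mem_closedBall_iff_norm]; exact hM0) (by rw [mem_closedBall_iff_norm]; exact hW0)
  have hC2' : segment ℝ Mj (LabDx755.W s (s / 16) v k) ⊆ LabDx755.rs s (s / 16) v k := by
    rcases hj with rfl | rfl
    · exact fun z hz => Or.inl hz
    · intro z hz
      rw [segment_symm] at hz
      exact Or.inr hz
  have hH : ∀ {C : Set ℂ}, C ⊆ Metric.closedBall p0 (s / 2 + s / 16) → Hl S C d := by
    intro C hC z hz
    have h1 := hC hz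
    rw [mem_closedBall_iff_norm] at h1
    obtain ⟨a, ha, h2⟩ := hol z (by linarith)
    exact ⟨a, ha, by rw [norm_sub_rev]; exact h2.le⟩
  obtain ⟨y0, hy0, hy0c⟩ := exists_cell hne mj
  obtain ⟨c0, hc0, hc0c⟩ := exists_cell hne Mj
  have hy0V : y0 ∉ Vin S (Pg s F) d := by
    intro h
    have h1 : ‖y0 - mj‖ < 2 * d := by
      obtain ⟨a, ha, h2⟩ := hol mj (by linarith)
      have h4 := hy0c a (Finset.mem_coe.2 ha)
      rw [norm_sub_rev mj a, norm_sub_rev mj y0] at h4
      linarith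
    exact Spkx951.out_near hs hc j h1 (mem_vin.1 h).2
  have hMr : Mj ∈ LabDx755.rs s (s / 16) v k := hC2' (left_mem_segment ℝ _ _)
  have hc0V : c0 ∈ Vin S (Pg s F) d := by
    refine mem_vin.2 ⟨hc0, fun y hy => hB Mj hMr ?_⟩
    obtain ⟨a, ha, h2⟩ := hol Mj (by linarith)
    have h4 := hc0c a (Finset.mem_coe.2 ha)
    rw [norm_sub_rev Mj a, norm_sub_rev Mj c0] at h4
    rw [Metric.mem_closedBall, dist_eq_norm] at hy
    rw [Metric.mem_ball, dist_eq_norm]
    have := norm_add_le (y - c0) (c0 - Mj)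
    rw [sub_add_sub_cancel] at this
    linarith
  have h1 : Pth S (Clm S (segment ℝ mj Mj)) c0 y0 :=
    pth_conn hS h3 (convex_segment mj Mj).isPreconnected
      ⟨hc0, Mj, right_mem_segment ℝ _ _, hc0c⟩ ⟨hy0, mj, left_mem_segment ℝ _ _, hy0c⟩
  obtain ⟨x, y, h2, h4, h5, h6⟩ := h1.exit (Q := fun w => w ∈ Vin S (Pg s F) d) hc0V hy0V
  have hnear : ∀ z ∈ Clm S (segment ℝ mj Mj), ‖z - mj‖ ≤ s / 16 + d ∧
      ‖z - p0‖ ≤ s / 2 + s / 16 + d := by
    intro z hz
    obtain ⟨w, hw, h7⟩ := near (hH hC1') hz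
    have h8 := hC1 hw
    have h9 := hC1' hw
    rw [mem_closedBall_iff_norm] at h8 h9
    rw [norm_sub_rev] at h7
    have e1 := norm_add_le (z - w) (w - mj)
    have e2 := norm_add_le (z - w) (w - p0)
    rw [sub_add_sub_cancel] at e1 e2
    constructor <;> linarith
  refine ⟨x, y, h2.snd.2, h5.1, h6, h4, ?_, ?_⟩
  · have := (hnear y h5).1
    linarith
  · have k1 : Pth S {z | z ∈ Vin S (Pg s F) d ∧ ‖z - p0‖ ≤ s} x c0 := by
      refine h2.symm.mono ?_
      rintro z ⟨hz1, hz2⟩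
      refine ⟨hz2, ?_⟩
      have := (hnear z hz1).2
      linarith
    refine k1.trans ((step1b (P := Pg s F) hS h3 (hH hC2) (fun z hz y hy => ?_) hc0 hg hc0c
      hgc).mono ?_)
    · refine hB z (hC2' hz) ?_
      rw [Metric.mem_closedBall] at hy
      rw [Metric.mem_ball]
      linarith
    · rintro z ⟨hz1, w, hw, h7⟩
      refine ⟨hz1, ?_⟩
      have h9 := hC2 hw
      rw [mem_closedBall_iff_norm] at h9
      have e2 := norm_add_le (z - w) (w - p0)
      rw [sub_add_sub_cancel] at e2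
      linarith

end Crest.Agent.R143.Inwx741
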