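import Crest.Agent.R143.Inw_165
import Crest.Agent.R143.Inw2_741
import Crest.Agent.R143.Disp2_951
import Crest.Agent.R143.Comp_66
import Crest.Agent.R143.Grd_359
import Crest.Agent.R143.LabB3_951

/-!
# Row 143 (S0194), CONT (K7): MARK (helper165)

* `way_pth` : a deep site with a way inwards is joined inside the deep sites to the site `g` at the
  inner corner of the ring before the mark
* `Nn`, `Dd` : the sites joined to `g` near the mark, the components of the other deep sites near the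
  first half of the mark edge
* `dead` : the sites of `Dd` are within `6 d` of the first vertex of the mark edge
* **`mark`** `: K7Dx359.MARK`
-/

set_option autoImplicit false

noncomputable section

open scoped Classical

namespace Crest.Agent.R143.Markx165

open Set
open Crest.Agent.R158.Sp896 (V lc rc pt ed sq Cyc)
open Crest.ProbabilityR.Voronoi (voronoiCell)
open Crest.Agent.R143.B0x346 (GP)
open Crest.Agent.R143.JColx54 (Adj)
open Crest.Agent.R143.RE0x723 (Pth)
open Crest.Agent.R143.K33x877 (Tr fr CtrT CtrX)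
open Crest.Agent.R143.Brkx478 (Bk Nb Conn cells con_cells cells_finite)
open Crest.Agent.R143.Tenx416 (Pg)
open Crest.Agent.R143.NetVx346 (Vin Bl)
open Crest.Agent.R143.PolyUx346 (Poly)
open Crest.Agent.R143.LabDx755 (W md ev Bs rs)
open Crest.Agent.R143.Dispx951 (FH FH_nonempty int3 lb_at lb_prev lab_field Int3)
open Crest.Agent.R143.G6Wx723 (exists_cell)
open Crest.Agent.R143.Inwx741 (mem_vin step1 step1b nadj W_p0 md_p0)
open Crest.Agent.R143.Inwx165 (Way dich Shape shape)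
open Crest.Agent.R143.K7Dx359

variable {S : Finset ℂ} {A A' : ZMod 3 → Set ℂ} {x0 : ℂ} {L d s C : ℝ}

/-- a deep site with a way inwards is joined to the end of the way -/
theorem way_pth {P : Set ℂ} (hS : GP (S : Set ℂ)) (h3 : 3 ≤ S.card) (hd : 0 < d) {p : ℂ} {R : ℝ}
    (H : ∀ z, ‖z - p‖ ≤ R → ∃ a ∈ S, ‖a - z‖ < d) {w G g : ℂ} (hw : w ∈ Vin S P d)
    (hW : Way P d w G) (hwR : ‖w - p‖ + 3 * d ≤ R) (hGR : ‖G - p‖ ≤ R) (hg : g ∈ S)
    (hgG : G ∈ voronoiCell (S : Set ℂ) g) :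
    Pth S {z | z ∈ Vin S P d ∧ ‖z - p‖ ≤ R + d} w g := by
  obtain ⟨e, T, he, hT, hT3, h1, h2⟩ := hW
  have hT0 : 0 ≤ T := by linarith
  have hb : ∀ t ∈ Icc (0 : ℝ) T, ‖w + t * e - p‖ ≤ R := by
    intro t ht
    have e1 : w + t * e - p = (w - p) + t * e := by ring
    rw [e1]
    refine (norm_add_le _ _).trans ?_
    rw [norm_mul, he, mul_one, Complex.norm_real, Real.norm_of_nonneg ht.1]
    have := ht.2
    linarith
  have hne : S.Nonempty := ⟨g, hg⟩
  obtain ⟨c, hc, hcc⟩ := exists_cell hne (w + T * e)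
  have q1 := step1 hS h3 hw he hd hT (fun t ht => by
    obtain ⟨a, ha, h⟩ := H _ (hb t ht)
    exact ⟨a, ha, by rw [norm_sub_rev]; exact h.le⟩) (fun t ht => h1 t ht.1 ht.2) hc hcc
  have hseg : ∀ z ∈ segment ℝ (w + T * e) G, ‖z - p‖ ≤ R := by
    intro z hz
    have h4 : segment ℝ (w + T * e) G ⊆ Metric.closedBall p R :=
      (convex_closedBall p R).segment_subset (by
        rw [mem_closedBall_iff_norm]; exact hb T ⟨hT0, le_rfl⟩)
        (by rw [mem_closedBall_iff_norm]; exact hGR)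
    have := h4 hz
    rwa [mem_closedBall_iff_norm] at this
  have q2 := step1b (a := c) (b := g) hS h3 (fun z hz => by
    obtain ⟨a, ha, h⟩ := H _ (hseg z hz)
    exact ⟨a, ha, by rw [norm_sub_rev]; exact h.le⟩) h2 hc hg hcc hgG
  refine (q1.mono ?_).trans (q2.mono ?_)
  · rintro z ⟨hz, t, ht, h⟩
    refine ⟨hz, ?_⟩
    have e1 : z - p = (z - (w + t * e)) + (w + t * e - p) := by ring
    rw [e1]
    have := norm_add_le (z - (w + t * e)) (w + t * e - p)
    have := hb t ht
    linarith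
  · rintro z ⟨hz, y, hy, h⟩
    refine ⟨hz, ?_⟩
    have e1 : z - p = (z - y) + (y - p) := by ring
    rw [e1]
    have := norm_add_le (z - y) (y - p)
    have := hseg y hy
    linarith

/-- the sites joined to `g` inside the deep sites near the mark `m` -/
def Nn (V : Finset ℂ) (S : Finset ℂ) (m : ℂ) (r : ℝ) (g : ℂ) : Set ℂ :=
  {x | Pth S {z | z ∈ V ∧ ‖z - m‖ ≤ r} x g}

theorem nn_con {V : Finset ℂ} {m g : ℂ} {r : ℝ} : ∀ x ∈ Nn V S m r g, ∀ y ∈ Nn V S m r g,
    Pth S (Nn V S m r g) x y := by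
  have key : ∀ x ∈ Nn V S m r g, Pth S (Nn V S m r g) x g := fun x hx =>
    (Pth.self hx).mono fun z hz => hz.2
  exact fun x hx y hy => (key x hx).trans (key y hy).symm

/-- a site next to `Nn` -/
theorem nn_step {V : Finset ℂ} {m g x y : ℂ} {r : ℝ} (hy : y ∈ Nn V S m r g) (hx : x ∈ V)
    (hr : ‖x - m‖ ≤ r) (h : Adj S x y) : x ∈ Nn V S m r g :=
  (Pth.single (V := {z | z ∈ V ∧ ‖z - m‖ ≤ r}) ⟨hx, hr⟩ h hy.1).trans hy

/-- the components of the deep sites near `T` which are not in `N` -/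
def Dd (V : Finset ℂ) (S : Finset ℂ) (T : Set ℂ) (r : ℝ) (N : Set ℂ) : Set ℂ :=
  {x | ∃ w ∈ V, Metric.infDist w T ≤ r ∧ w ∉ N ∧ Pth S {z | z ∈ V} w x}

/-! ### the polygon -/

variable {u : Poly} {b : Fin 3}

/-- the region is well inside the disc -/
theorem inball (hU : Cm A x0 L u.s u.U) {z : ℂ} (hz : z ∈ u.P) : ‖z - x0‖ ≤ L - 2 * u.s := by
  obtain ⟨q, hq, hzq⟩ := mem_iUnion₂.1 hz
  have h1 := hU.sub _ hq
  refine (h1 _ (Or.inl rfl)).1 z ?_
  exact mem_iUnion₂.2 ⟨q, rfl, hzq⟩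

/-- index of the edge before the mark edge -/
def ki (u : Poly) (b : Fin 3) : ℕ := u.k b + u.L - 1

theorem ki_succ (u : Poly) (b : Fin 3) : ki u b + 1 = u.k b + u.L := by
  have := u.cyc.four_le
  unfold ki
  omega

theorem v_ki (u : Poly) (b : Fin 3) : u.v (ki u b + 1) = u.v (u.k b) := by
  rw [ki_succ, u.cyc.per]

theorem v_ki' (u : Poly) (b : Fin 3) : u.v (ki u b + 1 + 1) = u.v (u.k b + 1) := by
  rw [ki_succ, show u.k b + u.L + 1 = u.k b + 1 + u.L by ring, u.cyc.per]

/-- first vertex of the mark edge -/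
def p0 (u : Poly) (b : Fin 3) : ℂ := pt u.s (u.v (u.k b))

theorem p0_eq (u : Poly) (b : Fin 3) : pt u.s (u.v (ki u b + 1)) = p0 u b := by
  rw [v_ki]; rfl

theorem p0_mem (u : Poly) (b : Fin 3) : p0 u b ∈ u.P := by
  have hs := u.s_pos
  have key : ∀ Q : ℂ → Prop, Shape u.s (Pg u.s (cells (u.U : Set Bk)))
      (pt u.s (u.v (ki u b + 1))) (ev u.v (ki u b)) Q → Q 0 → p0 u b ∈ u.P := by
    intro Q h hQ
    have := (h 0 (by simpa using hs) (by simpa using hs)).2 hQ
    rwa [zero_mul, add_zero, p0_eq] at this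
  rcases shape hs u.cyc (ki u b) with ⟨-, h⟩ | ⟨-, h⟩ | ⟨-, h⟩
  · exact key _ h (by simp)
  · exact key _ h (by simp)
  · exact key _ h (by simp)

theorem mid_p0 (u : Poly) (b : Fin 3) : ‖u.mid (u.k b) - p0 u b‖ = u.s / 2 := by
  have h := (md_p0 u.s_pos u.cyc (ki u b)).2
  rw [p0_eq] at h
  have e : md u.s u.v (ki u b + 1) = u.mid (u.k b) := by
    unfold md Poly.mid
    rw [v_ki, v_ki']
  rwa [e] at h

theorem fh_p0 {w : ℂ} {r : ℝ} (h : Metric.infDist w (FH u b) ≤ r) :
    ‖w - p0 u b‖ ≤ r + u.s / 2 := by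
  refine le_of_forall_pos_lt_add fun ε hε => ?_
  obtain ⟨y, hy, h1⟩ := (Metric.infDist_lt_iff (FH_nonempty u b)).1
    (lt_of_le_of_lt h (by linarith : r < r + ε))
  have h2 : FH u b ⊆ Metric.closedBall (p0 u b) (u.s / 2) :=
    (convex_closedBall _ _).segment_subset
      (Metric.mem_closedBall_self (by have := u.s_pos; linarith))
      (by rw [mem_closedBall_iff_norm, mid_p0])
  have h3 := h2 hy
  rw [mem_closedBall_iff_norm] at h3
  rw [dist_eq_norm] at h1
  have e : w - p0 u b = (w - y) + (y - p0 u b) := by ring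
  rw [e]
  have := norm_add_le (w - y) (y - p0 u b)
  linarith

theorem infDist_fh {w : ℂ} : Metric.infDist w (FH u b) ≤ ‖w - p0 u b‖ := by
  rw [← dist_eq_norm]
  exact Metric.infDist_le_dist_of_mem (left_mem_segment ℝ _ _)

/-! ### the marks -/

section main

variable {l : V → V → ZMod 3} {g : ℂ}

/-- sites near the vertex of the mark -/
theorem hol (hS : Stg S A x0 L d u.s) (hU : Cm A x0 L u.s u.U) (b : Fin 3) :
    ∀ z, ‖z - p0 u b‖ ≤ 3 * u.s / 2 → ∃ a ∈ S, ‖a - z‖ < d := by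
  intro z hz
  have h1 := inball hU (p0_mem u b)
  have h2 := hS.ds
  have h3 := hS.dpos
  refine hS.dns.hole z ?_
  have e : z - x0 = (z - p0 u b) + (p0 u b - x0) := by ring
  rw [e]
  have := norm_add_le (z - p0 u b) (p0 u b - x0)
  linarith

/-- **the alternative for sites** -/
theorem alt (hS : Stg S A x0 L d u.s) (hU : Cm A x0 L u.s u.U) (hg : g ∈ S)
    (hgc : W u.s (u.s / 16) u.v (ki u b) ∈ voronoiCell (S : Set ℂ) g) {w : ℂ}
    (hw : w ∈ Vin S u.P d) (hn : ‖w - p0 u b‖ ≤ 3 / 4 * u.s) :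
    w ∈ Nn (Vin S u.P d) S (u.mid (u.k b)) (2 * u.s) g ∨ ‖w - p0 u b‖ ≤ 6 * d := by
  have hs := u.s_pos
  have h2 := hS.ds
  have h3 := hS.dpos
  have hd := dich (U := (u.U : Set Bk)) hs h3 (by linarith) u.cyc (ki u b) (w := w)
    (mem_vin.1 hw).2 (by rw [p0_eq]; exact hn)
  rw [p0_eq] at hd
  rcases hd with hd | hd
  · left
    have hG := W_p0 (s := u.s) (μ := u.s / 16) (by linarith) u.cyc (ki u b)
    rw [p0_eq] at hG
    have q := way_pth hS.dns.gp hS.card h3 (p := p0 u b) (R := u.s) (fun z hz =>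
      hol hS hU b z (by linarith)) hw hd (by linarith) (by linarith) hg hgc
    refine q.mono ?_
    rintro z ⟨hz, h4⟩
    refine ⟨hz, ?_⟩
    have h5 := mid_p0 u b
    have e : z - u.mid (u.k b) = (z - p0 u b) - (u.mid (u.k b) - p0 u b) := by ring
    rw [e]
    have := norm_sub_le (z - p0 u b) (u.mid (u.k b) - p0 u b)
    linarith
  · exact Or.inr hd

/-- **dead sites are near the vertex** -/
theorem dead (hS : Stg S A x0 L d u.s) (hU : Cm A x0 L u.s u.U) (hg : g ∈ S)
    (hgc : W u.s (u.s / 16) u.v (ki u b) ∈ voronoiCell (S : Set ℂ) g) {x : ℂ}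
    (hx : x ∈ Dd (Vin S u.P d) S (FH u b) (u.s / 4)
      (Nn (Vin S u.P d) S (u.mid (u.k b)) (2 * u.s) g)) : ‖x - p0 u b‖ ≤ 6 * d := by
  have hs := u.s_pos
  have h2 := hS.ds
  have h3 := hS.dpos
  obtain ⟨w, hw, hwT, hwN, hp⟩ := hx
  have key : ‖x - p0 u b‖ ≤ 6 * d ∧
      x ∉ Nn (Vin S u.P d) S (u.mid (u.k b)) (2 * u.s) g := by
    refine hp.ind (P := fun y => ‖y - p0 u b‖ ≤ 6 * d ∧
      y ∉ Nn (Vin S u.P d) S (u.mid (u.k b)) (2 * u.s) g) ⟨?_, hwN⟩ ?_
    · rcases alt hS hU hg hgc hw (by have := fh_p0 hwT; linarith) with h | h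
      · exact absurd h hwN
      · exact h
    · rintro a a' ha ha' haa ⟨i1, i2⟩
      have h4 := hS.adj haa
      have h5 : ‖a' - p0 u b‖ ≤ 3 / 4 * u.s := by
        have e : a' - p0 u b = (a - p0 u b) - (a - a') := by ring
        rw [e]
        have := norm_sub_le (a - p0 u b) (a - a')
        linarith
      have h6 : a' ∉ Nn (Vin S u.P d) S (u.mid (u.k b)) (2 * u.s) g := by
        intro h
        refine i2 (nn_step h ha ?_ haa)
        have h5 := mid_p0 u b
        have e : a - u.mid (u.k b) = (a - p0 u b) - (u.mid (u.k b) - p0 u b) := by ring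
        rw [e]
        have := norm_sub_le (a - p0 u b) (u.mid (u.k b) - p0 u b)
        linarith
      refine ⟨?_, h6⟩
      rcases alt hS hU hg hgc ha' h5 with h | h
      · exact absurd h h6
      · exact h
  exact key.1

theorem z3 (b : Fin 3) (i : ZMod 3) (h : i ≠ ((b : ℕ) : ZMod 3) + 1) :
    i = ((b : ℕ) : ZMod 3) ∨ i = ((b : ℕ) : ZMod 3) + 2 := by
  revert i b
  decide

/-- **MARK** -/
theorem mark : MARK := by
  intro S A A' x0 L d s C l u hC hus hS hLay hU hB h0 h1 h2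
  subst hus
  have hs := u.s_pos
  have hds := hS.ds
  have hd := hS.dpos
  have hI : Int3 u l := int3 h0 h1 h2
  obtain ⟨c1, c2, -⟩ := (Compx66.comp S A x0 L d u.s hS).1 u.U hU
  -- a site next to the deep sites is deep or in a class
  have hcl : ∀ x ∈ S, x ∉ Vin S u.P d → (∃ v ∈ Vin S u.P d, Adj S x v) → ∃ i, x ∈ A' i := by
    intro x hx hxV hv
    by_contra hcon
    push Not at hcon
    have hf : x ∈ fr S A' := ⟨hx, hcon⟩
    rw [hLay.fr] at hf
    obtain ⟨v, hv, hxv⟩ := hv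
    exact hxV (c2 v hv x hf hxv.symm)
  -- the ring
  have hbase : Bs u.s (u.s / 16) (cells (u.U : Set Bk)) u.L u.v :=
    LabBx951.base u.s (u.s / 16) _ u.L u.v hs (by linarith) (by linarith)
      (cells_finite u.U.finite_toSet) (con_cells u.con)
      (fun q hq q' hq' => by
        have := con_cells u.con' q (by rw [Brkx478.cells_compl]; exact hq) q'
          (by rw [Brkx478.cells_compl]; exact hq')
        rwa [Brkx478.cells_compl] at this) u.cyc
  have hne : S.Nonempty := by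
    rw [← Finset.card_pos]
    have := hS.card
    omega
  -- the sites `g b`
  have hg : ∀ b : Fin 3, ∃ g ∈ S,
      W u.s (u.s / 16) u.v (ki u b) ∈ voronoiCell (S : Set ℂ) g := fun b => exists_cell hne _
  choose g hgS hgc using hg
  set N : Fin 3 → Set ℂ := fun b => Nn (Vin S u.P d) S (u.mid (u.k b)) (2 * u.s) (g b) with hN
  set De : Fin 3 → Set ℂ := fun b => Dd (Vin S u.P d) S (FH u b) (u.s / 4) (N b) with hDe
  have hdead : ∀ b, ∀ x ∈ De b, ‖x - p0 u b‖ ≤ 6 * d := fun b x hx =>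
    dead hS hU (hgS b) (hgc b) hx
  refine ⟨N, De, ⟨?_, ?_, ?_, ?_, ?_, ?_, ?_, ?_⟩⟩
  · -- `lab`
    refine lab_field hLay.tr rfl hB h0 h1 h2 ?_ ?_
    · intro x hx hxV v hv hxv
      obtain ⟨i, hi⟩ := hcl x hx.1 hxV ⟨v, hv, hxv⟩
      exact hx.2 i hi
    · intro b x hx hxV hxT v hv hxv
      by_cases hvN : v ∈ N b
      · exact Or.inl hvN
      · refine Or.inr ⟨v, hv, ?_, hvN, Pth.refl hv⟩
        have h3 : Metric.infDist v (FH u b) ≤ Metric.infDist x (FH u b) + dist v x :=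
          Metric.infDist_le_infDist_add_dist
        have h4 := hS.adj hxv
        rw [dist_comm, dist_eq_norm] at h3
        linarith
  · exact fun b x hx => hx.1.1
  · exact fun b => nn_con
  · exact fun b x hx => hx.1.2
  · -- `nadj`
    intro b i hi
    have key : ∀ j, j = ki u b ∨ j = ki u b + 1 → l (u.v j) (u.v (j + 1)) = i →
        ∃ x ∈ N b, ∃ y ∈ A' i, Adj S x y := by
      intro j hj hji
      obtain ⟨x, y, hx, hy, hyV, hxy, hyn, hp⟩ := nadj hS.dns.gp hS.card u.cyc hs hd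
        (by linarith) (ki u b) (fun z hz => hbase.ring _ z hz)
        (by rw [p0_eq]; exact hol hS hU b) (hgS b) (hgc b) hj
      refine ⟨x, ?_, y, ?_, hxy⟩
      · refine hp.mono ?_
        rintro z ⟨hz, h4⟩
        rw [p0_eq] at h4
        refine ⟨hz, ?_⟩
        have h5 := mid_p0 u b
        have e : z - u.mid (u.k b) = (z - p0 u b) - (u.mid (u.k b) - p0 u b) := by ring
        rw [e]
        have := norm_sub_le (z - p0 u b) (u.mid (u.k b) - p0 u b)
        linarith
      · obtain ⟨i', hi'⟩ := hcl y hy hyV ⟨x, hx, hxy.symm⟩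
        obtain ⟨κ, hκ, hκd⟩ := hB.lab i' y hi' ⟨x, hx, hxy.symm⟩
        have hm : ‖y - u.mid j‖ ≤ u.s / 8 := by
          have e : u.mid j = md u.s u.v j := rfl
          rw [e]
          linarith
        have h6 := Dispx951.near_md_lb (l := l) hm hκd
        rw [hκ, hji] at h6
        rwa [h6] at hi'
    rcases z3 b i hi with e | e
    · refine key (ki u b + 1) (Or.inr rfl) ?_
      rw [e]
      exact lb_at hI b (by rw [ki_succ]; unfold Nat.ModEq; simp)
    · refine key (ki u b) (Or.inl rfl) ?_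
      rw [e]
      exact lb_prev hI b (by rw [ki_succ]; unfold Nat.ModEq; simp)
  · rintro b x ⟨w, -, -, -, hp⟩
    exact hp.snd
  · rintro b x ⟨w, hw, hwT, hwN, hp⟩ y hy hxy
    exact ⟨w, hw, hwT, hwN, hp.tail hxy hy⟩
  · intro b x hx y hxy
    have h3 := hdead b x hx
    have hxV : x ∈ Vin S u.P d := by
      obtain ⟨w, -, -, -, hp⟩ := hx
      exact hp.snd
    have h4 := hS.adj hxy
    have h5 : Metric.infDist y (FH u b) ≤ 3 / 16 * u.s := by
      refine (infDist_fh (u := u) (b := b)).trans ?_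
      have e : y - p0 u b = (x - p0 u b) - (x - y) := by ring
      rw [e]
      have := norm_sub_le (x - p0 u b) (x - y)
      linarith
    obtain ⟨n1, n2⟩ := Dispx951.near_fh hI h5
    refine ⟨fun hyA => ?_, fun hyB => n1 hyB.2.2.2⟩
    obtain ⟨κ, hκ, hκd⟩ := hB.lab _ y hyA ⟨x, hxV, hxy.symm⟩
    exact n2 κ hκd hκ

end main

end Crest.Agent.R143.Markx165
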