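import Crest.Agent.R143.FinG_377
import Crest.Agent.R143.LayK_341
import Crest.Agent.R143.Thr_755
import Crest.Agent.R143.Mark_165

/-!
# Row 143 (S0194): CONT is a theorem; the leaf from RIG (helper377)

`LAYER` (341), `THR` (755), `MARK` (165) are theorems.

* `k7 : K7`, `contB : ContB`, `contD : ContD`
* **`leaf_of_rig : Rig → Leaf894`**
-/

set_option autoImplicit false

noncomputable section

namespace Crest.Agent.R143.Mabx377

open Crest.Agent.R143.Finx894
open Crest.Agent.R143.FinCx894 (ContB ContD Rig)

/-- **K7** -/
theorem k7 : K7Dx359.K7 := k7_lmt LayKx341.layer Thrx755.thr Markx165.mark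

/-- **CONT**, wired weight -/
theorem contB : ContB := contB_of_k7 k7

/-- **CONT**, dual weight -/
theorem contD : ContD := contD_of_k7 k7

/-- **the row from RIG** -/
theorem leaf_of_rig (h5 : Rig) : Leaf894 := leaf_rig k7 h5

end Crest.Agent.R143.Mabx377
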