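import Crest.Agent.R143.FinG_894
import Crest.Agent.R143.Mark_165

/-!
# Row 143 (S0194): CONT is closed, the row from RIG alone (helper894)

`k7 : K7` (359, with LAYER 341, GRID 359, COMP 54, CENT 723, THR 755, MARK 165),
`contB : ContB`, `contD : ContD` (no hypothesis), `leaf_rig : Rig → Leaf894`,
`leaf_of_all : RigAll κ → Leaf894`.
-/

set_option autoImplicit false

noncomputable section

namespace Crest.Agent.R143.FinHx894

open Crest.ProbabilityR.Voronoi
open Crest.Agent.R143.Finx894 Crest.Agent.R143.FinCx894 Crest.Agent.R143.FinGx894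

/-- **(K7)** -/
theorem k7 : K7Dx359.K7 := Mabx377.k7_lmt LayKx341.layer Thrx755.thr Markx165.mark

/-- **CONT, weight `e`** -/
theorem contB : ContB := FinFx894.contB k7

/-- **CONT, weight `conj e`** -/
theorem contD : ContD := FinFx894.contD k7

/-- **the row from RIG** -/
theorem leaf_rig (h : Rig) : Leaf894 := leaf_frozen contB contD h

/-- **the row from 854's contracts** -/
theorem leaf_of_all {κ : ℕ → ℝ → ℂ} (h : RigAll κ) : Leaf894 := leaf_rig (rig_of_all h)

end Crest.Agent.R143.FinHx894
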