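import Crest.Agent.R143.FinH_894
import Crest.Agent.R143.RigZ_609

/-!
# Row 143 (S0194): the row from 609's open inputs (helper894)

`leaf_of_op : PosP Z → (∀ u w, Nonempty (Op Z u w)) → Leaf894`
-/

set_option autoImplicit false

noncomputable section

namespace Crest.Agent.R143.FinIx894

open Crest.ProbabilityR.Voronoi
open Crest.Agent.R143.Finx894 Crest.Agent.R143.FinCx894 Crest.Agent.R143.PolyUx346
open Crest.Agent.R143.RigZx609

theorem rig_of_op' {Z : RigZdx609.TData} (hp : PosP Z)
    (h : ∀ (u : Poly) (w : ZMod 3), Nonempty (Op Z u w)) : Rig :=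
  rig_of_op hp h

/-- **the row from `PosP` and `Op`** -/
theorem leaf_of_op {Z : RigZdx609.TData} (hp : PosP Z)
    (h : ∀ (u : Poly) (w : ZMod 3), Nonempty (Op Z u w)) : Leaf894 :=
  FinHx894.leaf_rig (rig_of_op' hp h)

end Crest.Agent.R143.FinIx894
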