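import Crest.Agent.R143.TileG_73

/-!
# Row 143, CORE-C, block V4 (c): straight tile, monotonicity and supports (helper73)

Unit: `e = η · direction`, so that `X z0 e`, `Y z0 e` are measured in `η`.
* `num` : the numbers: gate window `(-1, 1)`, levels `(-8, 8)`, black strip `(-8, 0)`, white strip
  `(2, 8)`, landing zones `(10, 12)`, `(-12, -10)`, margins `mN < 1`, `4`, `m' < 1`, region
  `-1 < X < 17`, `-17 < X < 1`, `-9 < Y < 9`
* `tileS` : the tile event of the straight tile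
* `up_extR`, `dn_extR`, .. : the extension events are increasing (black) / decreasing (white);
  `dep_extR`, .. : their supports
-/

set_option autoImplicit false

noncomputable section

open scoped Classical

namespace Crest.Agent.R143.TileGx73

open Crest.Agent.R143.B0x346 Crest.Agent.R143.DelGx806 Crest.Agent.R143.DelRx806
open Crest.Agent.R143.ToolWx838 Crest.Agent.R143.Blkx838 Crest.Agent.R143.ToolW2x838
open Crest.Agent.R143.ToolW3x838 Crest.Agent.R143.Circ4x838 Crest.Agent.R143.Harx315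
open Crest.Agent.R143.RB0x838 Crest.Agent.R143.CircPx838 Crest.Agent.R143.Gatex838
open Crest.Agent.R143.Neckx921

variable {S V β : Finset ℂ} {z0 e : ℂ} {a0 a1 b0 b1 l0 l1 r0 r1 p0 p1 q0 q1 m m' mN : ℝ}

/-- **the numbers** -/
theorem num (hN : 0 ≤ mN) (hN' : mN < 1) (hm : 0 ≤ m') (hm' : m' < 1) :
    Num (-1) 1 (-8) 8 mN (-8) 0 2 8 10 12 (-12) (-10) 4 m' (-9) 9 (-17) 17 := by
  constructor <;> linarith

/-- **straight tile** : gates at `z0` and `z0 + e T`, both in the direction `e` -/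
theorem tileS (hS : GP (S : Set ℂ)) (he : e ≠ 0) {T : ℝ} (hT : 24 ≤ T) (hβ : β ⊆ V)
    (hm : 0 ≤ mN) (hm1 : mN < 1) (hm' : 0 ≤ m') (hm1' : m' < 1) {mb mw s0 s1 t0 t1 : ℝ}
    {y x y' x' : ℂ} {Q Qw Q' Qw' M Mw : List ℂ} {R : Set ℂ}
    (g : NeckD S z0 e (-1) 1 (-8) 8 mN V β y x)
    (g' : NeckD S (z0 + e * (T : ℂ)) e (-1) 1 (-8) 8 mN V β y' x')
    (xb : ExtR S z0 e (-1) 10 12 (-8) 0 4 m' β Q)
    (xw : ExtR S z0 e (-1) 10 12 2 8 4 m' (V \ β) Qw)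
    (xb' : ExtL S (z0 + e * (T : ℂ)) e 1 (-12) (-10) (-8) 0 4 m' β Q')
    (xw' : ExtL S (z0 + e * (T : ℂ)) e 1 (-12) (-10) 2 8 4 m' (V \ β) Qw')
    (cb : HC S z0 e 10 (T - 10) s0 s1 mb β M) (cw : HC S z0 e 10 (T - 10) t0 t1 mw (V \ β) Mw)
    (h0 : -8 ≤ s0) (h1 : s1 ≤ 0) (h0' : 2 ≤ t0) (h1' : t1 ≤ 8) (hmb : mb ≤ 10) (hmw : mw ≤ 10)
    (hR : ∀ s ∈ V, s ∈ Rc z0 e (-1) (T + 1) (-9) 9 → s ∈ R) : Tile S V β R y x y' x' := by
  have N := num hm hm1 hm' hm1'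
  have hR1 : ∀ s ∈ V, s ∈ Rc z0 e (-1) 17 (-9) 9 → s ∈ R := fun s hs h =>
    hR s hs ⟨⟨h.1.1, by linarith [h.1.2]⟩, h.2⟩
  have hR2 : ∀ s ∈ V, s ∈ Rc (z0 + e * (T : ℂ)) e (-17) 1 (-9) 9 → s ∈ R := fun s hs h => by
    have h2 := h.1
    have h3 := h.2
    rw [X_shift he, Complex.ofReal_re] at h2
    rw [Y_shift he, Complex.ofReal_im, sub_zero] at h3
    exact hR s hs ⟨⟨by linarith [h2.1], by linarith [h2.2]⟩, h3⟩
  obtain ⟨k1, k2⟩ := right_links N hS he g hβ xb xw hR1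
  obtain ⟨k1', k2'⟩ := left_links N hS he g' hβ xb' xw' hR2
  refine tile_of k1 k2 k1' k2' ?_ ?_
  · refine midS hS he xb.2 xb'.2 (by convert cb using 1; ring) h0 h1 (by linarith) (by linarith)
      fun s hs => hR s (hβ (cb.col s hs)) ⟨⟨?_, ?_⟩, ?_, ?_⟩
    · linarith [(cb.loc s hs).1]
    · linarith [(cb.loc s hs).2]
    · linarith [(cb.strip s hs).1]
    · linarith [(cb.strip s hs).2]
  · refine midS hS he xw.2 xw'.2 (by convert cw using 1; ring) h0' h1' (by linarith) (by linarith)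
      fun s hs => hR s (Finset.mem_sdiff.1 (cw.col s hs)).1 ⟨⟨?_, ?_⟩, ?_, ?_⟩
    · linarith [(cw.loc s hs).1]
    · linarith [(cw.loc s hs).2]
    · linarith [(cw.strip s hs).1]
    · linarith [(cw.strip s hs).2]

/-! ### monotonicity and supports -/

theorem ExtR.mono {A A' : Finset ℂ} {Q : List ℂ} (h : ExtR S z0 e a0 l0 l1 p0 p1 m m' A Q)
    (hA : A ⊆ A') : ExtR S z0 e a0 l0 l1 p0 p1 m m' A' Q :=
  ⟨⟨h.1.choose, h.1.choose_spec.mono hA⟩, h.2.mono hA⟩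

theorem ExtL.mono {A A' : Finset ℂ} {Q : List ℂ} (h : ExtL S z0 e a1 r0 r1 p0 p1 m m' A Q)
    (hA : A ⊆ A') : ExtL S z0 e a1 r0 r1 p0 p1 m m' A' Q :=
  ⟨⟨h.1.choose, h.1.choose_spec.mono hA⟩, h.2.mono hA⟩

/-- the sites of a horizontal crossing can be restricted -/
theorem HC.inter {A W : Finset ℂ} {x0 x1 y0 y1 : ℝ} {P : List ℂ} (h : HC S z0 e x0 x1 y0 y1 m A P)
    (hW : ∀ s ∈ A, y0 < Y z0 e s → Y z0 e s < y1 → x0 - m ≤ X z0 e s → X z0 e s ≤ x1 + m → s ∈ W) :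
    HC S z0 e x0 x1 y0 y1 m (A ∩ W) P :=
  ⟨h.ne, h.adj, fun s hs => Finset.mem_inter.2 ⟨h.col s hs, hW s (h.col s hs) (h.strip s hs).1
    (h.strip s hs).2 (h.loc s hs).1 (h.loc s hs).2⟩, h.strip, h.loc, h.left, h.right⟩

theorem VC.inter {A W : Finset ℂ} {x0 x1 y0 y1 : ℝ} {P : List ℂ} (h : VC S z0 e x0 x1 y0 y1 m A P)
    (hW : ∀ s ∈ A, x0 < X z0 e s → X z0 e s < x1 → y0 - m ≤ Y z0 e s → Y z0 e s ≤ y1 + m → s ∈ W) :
    VC S z0 e x0 x1 y0 y1 m (A ∩ W) P :=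
  ⟨h.ne, h.adj, fun s hs => Finset.mem_inter.2 ⟨h.col s hs, hW s (h.col s hs) (h.strip s hs).1
    (h.strip s hs).2 (h.loc s hs).1 (h.loc s hs).2⟩, h.strip, h.loc, h.left, h.right⟩

theorem ExtR.inter {A W : Finset ℂ} {Q : List ℂ} (h : ExtR S z0 e a0 l0 l1 p0 p1 m m' A Q)
    (hW : ∀ s ∈ A, p0 < Y z0 e s → Y z0 e s < p1 → a0 - m ≤ X z0 e s → X z0 e s ≤ l1 + m → s ∈ W)
    (hW' : ∀ s ∈ A, l0 < X z0 e s → X z0 e s < l1 → p0 - m' ≤ Y z0 e s → Y z0 e s ≤ p1 + m' → s ∈ W) :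
    ExtR S z0 e a0 l0 l1 p0 p1 m m' (A ∩ W) Q :=
  ⟨⟨h.1.choose, HC.inter h.1.choose_spec hW⟩, VC.inter h.2 hW'⟩

theorem ExtL.inter {A W : Finset ℂ} {Q : List ℂ} (h : ExtL S z0 e a1 r0 r1 p0 p1 m m' A Q)
    (hW : ∀ s ∈ A, p0 < Y z0 e s → Y z0 e s < p1 → r0 - m ≤ X z0 e s → X z0 e s ≤ a1 + m → s ∈ W)
    (hW' : ∀ s ∈ A, r0 < X z0 e s → X z0 e s < r1 → p0 - m' ≤ Y z0 e s → Y z0 e s ≤ p1 + m' → s ∈ W) :
    ExtL S z0 e a1 r0 r1 p0 p1 m m' (A ∩ W) Q :=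
  ⟨⟨h.1.choose, HC.inter h.1.choose_spec hW⟩, VC.inter h.2 hW'⟩

/-- a monotone event with a support: black version -/
theorem up_of {E : Finset ℂ → Prop} (hE : ∀ A A', A ⊆ A' → E A → E A') : Up V E :=
  fun β β' h _ h1 => hE β β' h h1

/-- white version -/
theorem dn_of {E : Finset ℂ → Prop} (hE : ∀ A A', A ⊆ A' → E A → E A') : Dn V fun β => E (V \ β) :=
  fun β β' h _ h1 => hE (V \ β') (V \ β) (Finset.sdiff_subset_sdiff subset_rfl h) h1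

theorem dep_of {E : Finset ℂ → Prop} (hE : ∀ A A', A ⊆ A' → E A → E A') {W : Finset ℂ}
    (hW : ∀ A, A ⊆ V → E A → E (A ∩ W)) : Dep V W E :=
  fun β hβ => ⟨hW β hβ, hE _ _ Finset.inter_subset_left⟩

theorem dep_of' {E : Finset ℂ → Prop} (hE : ∀ A A', A ⊆ A' → E A → E A') {W : Finset ℂ}
    (hW : ∀ A, A ⊆ V → E A → E (A ∩ W)) : Dep V W fun β => E (V \ β) := by
  intro β hβ
  constructor
  · intro h
    exact hE _ _ (Finset.sdiff_subset_sdiff subset_rfl Finset.inter_subset_left) h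
  · intro h
    refine hE _ _ ?_ (hW _ Finset.sdiff_subset h)
    intro s hs
    rw [Finset.mem_inter, Finset.mem_sdiff, Finset.mem_inter] at hs
    exact Finset.mem_sdiff.2 ⟨hs.1.1, fun h => hs.1.2 ⟨h, hs.2⟩⟩

end Crest.Agent.R143.TileGx73
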