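import Crest.Agent.R143.PiLow_73
import Crest.Agent.R143.TileS_73

/-!
# Row 143, CORE-C, block V4: quenched link probability of a tile for good gates (helper73)

`G`, `G'` the free sites of the two gate boxes, `T` the free sites of the tube, `To ⊆ T` (white half),
`Ti ⊆ T` (black half). All events are monotone predicates `E A` of the set `A` of the sites of one
colour.
* `Mo`, `Su` : monotone, supported in `W`
* `GoodR`, `GoodL` : the conditional probability of the extension (both colours) is at least `a`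
* `theta_ge` : for good `q ⊆ G`, `q' ⊆ G'` the tile event has probability at least `a (p p) a`
* `theta_w` : the same for the white half only
* `good_ge` : `P(Good) ≥ a` if the gate event and the two extensions have probability `≥ 2a`
-/

set_option autoImplicit false

noncomputable section

open scoped Classical

namespace Crest.Agent.R143.Thetax73

open Finset
open Crest.Agent.R143.Harx315 Crest.Agent.R143.PiLowx73

variable {α : Type*} {V W G G' T To Ti : Finset α}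

/-- monotone in the set of the sites of the colour -/
def Mo (E : Finset α → Prop) : Prop := ∀ A A', A ⊆ A' → E A → E A'

/-- supported in `W`, for sets inside `U` -/
def Su (U W : Finset α) (E : Finset α → Prop) : Prop := ∀ A, A ⊆ U → E A → E (A ∩ W)

theorem Su.mono {U W' : Finset α} {E : Finset α → Prop} (h : Su U W E) (hE : Mo E) (hW : W ⊆ W') :
    Su U W' E := fun A hA h1 => hE _ _ (inter_subset_inter subset_rfl hW) (h A hA h1)

variable {E Eb Ew Fb Fw Mb Mw : Finset α → Prop} {a p : ℝ} {q q' : Finset α}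

theorem upT (hE : Mo E) : Up T fun τ => E (τ ∪ q) :=
  fun _ _ h _ h1 => hE _ _ (union_subset_union h subset_rfl) h1

theorem dnT {U : Finset α} (hE : Mo E) : Dn T fun τ => E (U \ (τ ∪ q)) :=
  fun _ _ h _ h1 => hE _ _ (sdiff_subset_sdiff subset_rfl (union_subset_union h subset_rfl)) h1

theorem depB (hE : Mo E) (hG : Disjoint G T) (hW : Su (G ∪ T) (G ∪ Ti) E) (hq : q ⊆ G) :
    Dep T Ti fun τ => E (τ ∪ q) := by
  intro τ hτ
  constructor
  · intro h
    refine hE _ _ ?_ (hW _ (union_subset (hτ.trans subset_union_right) (hq.trans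
      subset_union_left)) h)
    intro s hs
    simp only [mem_inter, mem_union] at hs ⊢
    rcases hs with ⟨h1 | h1, h2 | h2⟩
    · exact absurd (hτ h1) (disjoint_left.1 hG h2)
    · exact Or.inl ⟨h1, h2⟩
    · exact Or.inr h1
    · exact Or.inr h1
  · intro h
    exact hE _ _ (union_subset_union inter_subset_left subset_rfl) h

theorem depW (hE : Mo E) (hG : Disjoint G T) (hW : Su (G ∪ T) (G ∪ To) E) :
    Dep T To fun τ => E ((G ∪ T) \ (τ ∪ q)) := by
  intro τ hτ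
  constructor
  · intro h
    exact hE _ _ (sdiff_subset_sdiff subset_rfl (union_subset_union inter_subset_left subset_rfl)) h
  · intro h
    refine hE _ _ ?_ (hW _ sdiff_subset h)
    intro s hs
    simp only [mem_inter, mem_union, mem_sdiff, not_or, not_and] at hs ⊢
    obtain ⟨⟨h1, h2, h3⟩, h4⟩ := hs
    refine ⟨h1, fun h5 => ?_, h3⟩
    rcases h4 with h4 | h4
    · exact disjoint_left.1 hG h4 (hτ h5)
    · exact h2 h5 h4

/-- white and black extension of the gate `G` into the tube `T` have conditional probability `≥ a` -/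
def Gd (G T : Finset α) (Ew Eb : Finset α → Prop) (a : ℝ) (q : Finset α) : Prop :=
  a ≤ pr T fun τ => Ew ((G ∪ T) \ (τ ∪ q)) ∧ Eb (τ ∪ q)

/-- **quenched link probability of a tile** -/
theorem theta_ge (ha : 0 ≤ a) (hp : 0 ≤ p) (hG : Disjoint G T) (hG' : Disjoint G' T)
    (hGG : Disjoint G G') (hd : Disjoint To Ti) (hq : q ⊆ G) (hq' : q' ⊆ G')
    (mEw : Mo Ew) (mEb : Mo Eb) (mFw : Mo Fw) (mFb : Mo Fb) (mMw : Mo Mw) (mMb : Mo Mb)
    (sEw : Su (G ∪ T) (G ∪ To) Ew) (sEb : Su (G ∪ T) (G ∪ Ti) Eb)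
    (sFw : Su (G' ∪ T) (G' ∪ To) Fw) (sFb : Su (G' ∪ T) (G' ∪ Ti) Fb)
    (sMw : Su T To Mw) (sMb : Su T Ti Mb)
    (h1 : Gd G T Ew Eb a q) (h2 : p ≤ pr T fun τ => Mw (T \ τ)) (h3 : p ≤ pr T Mb)
    (h4 : Gd G' T Fw Fb a q')
    (hE : ∀ β, β ⊆ G ∪ T ∪ G' → Eb β → Ew ((G ∪ T ∪ G') \ β) → Fb β → Fw ((G ∪ T ∪ G') \ β) → Mb β →
      Mw ((G ∪ T ∪ G') \ β) → E β) : a * (p * p) * a ≤ pr T fun τ => E (τ ∪ (q ∪ q')) := by
  have sMw' : Su (∅ ∪ T) (∅ ∪ To) Mw := by simpa using sMw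
  have sMb' : Su (∅ ∪ T) (∅ ∪ Ti) Mb := by simpa using sMb
  have dMw : Dep T To fun τ => Mw (T \ τ) := by
    simpa using depW (q := ∅) mMw (disjoint_empty_left T) sMw'
  have dMb : Dep T Ti fun τ => Mb τ := by
    simpa using depB (q := ∅) mMb (disjoint_empty_left T) sMb' (empty_subset _)
  have uMw : Dn T fun τ => Mw (T \ τ) := fun β β' h _ h1 =>
    mMw _ _ (sdiff_subset_sdiff subset_rfl h) h1
  have uMb : Up T fun τ => Mb τ := fun β β' h _ h1 => mMb _ _ h h1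
  refine pi_ge (T := T) (Rw := fun β => Ew ((G ∪ T) \ β)) (Rb := Eb) (Mw := fun τ => Mw (T \ τ))
    (Mb := Mb) (Lw := fun β => Fw ((G' ∪ T) \ β)) (Lb := Fb) ha hp hd (depW mEw hG sEw)
    (depB mEb hG sEb hq) dMw dMb (depW mFw hG' sFw) (depB mFb hG' sFb hq') (dnT mEw) (upT mEb)
    uMw uMb (dnT mFw) (upT mFb) h1 h2 h3 h4 ?_
  intro τ hτ hw hb
  have e1 : (G ∪ T) \ (τ ∪ q) ⊆ (G ∪ T ∪ G') \ (τ ∪ (q ∪ q')) := by
    intro s hs
    simp only [mem_sdiff, mem_union, not_or] at hs ⊢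
    refine ⟨Or.inl hs.1, hs.2.1, hs.2.2, fun h => ?_⟩
    rcases hs.1 with h5 | h5
    · exact disjoint_left.1 hGG h5 (hq' h)
    · exact disjoint_left.1 hG' (hq' h) h5
  have e2 : (G' ∪ T) \ (τ ∪ q') ⊆ (G ∪ T ∪ G') \ (τ ∪ (q ∪ q')) := by
    intro s hs
    simp only [mem_sdiff, mem_union, not_or] at hs ⊢
    refine ⟨?_, hs.2.1, fun h => ?_, hs.2.2⟩
    · rcases hs.1 with h5 | h5
      · exact Or.inr h5
      · exact Or.inl (Or.inr h5)
    · rcases hs.1 with h5 | h5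
      · exact disjoint_left.1 hGG (hq h) h5
      · exact disjoint_left.1 hG (hq h) h5
  have e3 : T \ τ ⊆ (G ∪ T ∪ G') \ (τ ∪ (q ∪ q')) := by
    intro s hs
    simp only [mem_sdiff, mem_union, not_or] at hs ⊢
    exact ⟨Or.inl (Or.inr hs.1), hs.2, fun h => disjoint_left.1 hG (hq h) hs.1,
      fun h => disjoint_left.1 hG' (hq' h) hs.1⟩
  refine hE _ ?_ (mEb _ _ ?_ hb.1) (mEw _ _ e1 hw.1) (mFb _ _ ?_ hb.2.2) (mFw _ _ e2 hw.2.2)
    (mMb _ _ subset_union_left hb.2.1) (mMw _ _ e3 hw.2.1)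
  · refine union_subset (hτ.trans (subset_union_right.trans subset_union_left)) (union_subset
      (hq.trans (subset_union_left.trans subset_union_left)) (hq'.trans subset_union_right))
  · exact union_subset_union subset_rfl subset_union_left
  · exact union_subset_union subset_rfl subset_union_right

/-- **white half only** (tiles along the white arc) -/
theorem theta_w (ha : 0 ≤ a) (hp : 0 ≤ p) (hG : Disjoint G T) (hG' : Disjoint G' T)
    (hGG : Disjoint G G') (hq : q ⊆ G) (hq' : q' ⊆ G')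
    (mEw : Mo Ew) (mFw : Mo Fw) (mMw : Mo Mw)
    (h1 : Gd G T Ew Eb a q) (h2 : p ≤ pr T fun τ => Mw (T \ τ)) (h4 : Gd G' T Fw Fb a q')
    (hE : ∀ β, β ⊆ G ∪ T ∪ G' → Ew ((G ∪ T ∪ G') \ β) → Fw ((G ∪ T ∪ G') \ β) →
      Mw ((G ∪ T ∪ G') \ β) → E β) : a * p * a ≤ pr T fun τ => E (τ ∪ (q ∪ q')) := by
  have uMw : Dn T fun τ => Mw (T \ τ) := fun β β' h _ h1 =>
    mMw _ _ (sdiff_subset_sdiff subset_rfl h) h1
  have k1 : a ≤ pr T fun τ => Ew ((G ∪ T) \ (τ ∪ q)) := h1.trans (pr_mono fun _ _ h => h.1)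
  have k4 : a ≤ pr T fun τ => Fw ((G' ∪ T) \ (τ ∪ q')) := h4.trans (pr_mono fun _ _ h => h.1)
  have h5 : pr T (fun τ => Ew ((G ∪ T) \ (τ ∪ q))) * (pr T (fun τ => Mw (T \ τ)) *
      pr T (fun τ => Fw ((G' ∪ T) \ (τ ∪ q')))) ≤ pr T (fun τ => Ew ((G ∪ T) \ (τ ∪ q)) ∧
        Mw (T \ τ) ∧ Fw ((G' ∪ T) \ (τ ∪ q'))) :=
    (mul_le_mul_of_nonneg_left (harris_dn uMw (dnT mFw)) pr_nonneg).trans (harris_dn (dnT mEw)
      (fun β β' h1 h2 h3 => ⟨uMw β β' h1 h2 h3.1, dnT mFw β β' h1 h2 h3.2⟩))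
  have h6 : a * p * a ≤ pr T (fun τ => Ew ((G ∪ T) \ (τ ∪ q))) * (pr T (fun τ => Mw (T \ τ)) *
      pr T (fun τ => Fw ((G' ∪ T) \ (τ ∪ q')))) := by
    rw [mul_assoc]
    exact mul_le_mul k1 (mul_le_mul h2 k4 ha pr_nonneg) (by positivity) pr_nonneg
  refine (h6.trans h5).trans (pr_mono fun τ hτ hw => ?_)
  have e1 : (G ∪ T) \ (τ ∪ q) ⊆ (G ∪ T ∪ G') \ (τ ∪ (q ∪ q')) := by
    intro s hs
    simp only [mem_sdiff, mem_union, not_or] at hs ⊢
    refine ⟨Or.inl hs.1, hs.2.1, hs.2.2, fun h => ?_⟩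
    rcases hs.1 with h5 | h5
    · exact disjoint_left.1 hGG h5 (hq' h)
    · exact disjoint_left.1 hG' (hq' h) h5
  have e2 : (G' ∪ T) \ (τ ∪ q') ⊆ (G ∪ T ∪ G') \ (τ ∪ (q ∪ q')) := by
    intro s hs
    simp only [mem_sdiff, mem_union, not_or] at hs ⊢
    refine ⟨?_, hs.2.1, fun h => ?_, hs.2.2⟩
    · rcases hs.1 with h5 | h5
      · exact Or.inr h5
      · exact Or.inl (Or.inr h5)
    · rcases hs.1 with h5 | h5
      · exact disjoint_left.1 hGG (hq h) h5
      · exact disjoint_left.1 hG (hq h) h5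
  have e3 : T \ τ ⊆ (G ∪ T ∪ G') \ (τ ∪ (q ∪ q')) := by
    intro s hs
    simp only [mem_sdiff, mem_union, not_or] at hs ⊢
    exact ⟨Or.inl (Or.inr hs.1), hs.2, fun h => disjoint_left.1 hG (hq h) hs.1,
      fun h => disjoint_left.1 hG' (hq' h) hs.1⟩
  refine hE _ ?_ (mEw _ _ e1 hw.1) (mFw _ _ e2 hw.2.2) (mMw _ _ e3 hw.2.1)
  refine union_subset (hτ.trans (subset_union_right.trans subset_union_left)) (union_subset
      (hq.trans (subset_union_left.trans subset_union_left)) (hq'.trans subset_union_right))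

/-- **good gates have probability at least `a`** : `TL`, `TR` the tubes on the two sides -/
theorem good_ge {TL TR : Finset α} {C : Finset α → Prop} (ha : 0 ≤ a) (hL : Disjoint G TL)
    (hR : Disjoint G TR) (mEw : Mo Ew) (mFw : Mo Fw)
    (h : 2 * a ≤ pr (G ∪ (TL ∪ TR)) (fun β => C (β ∩ G) ∧
      (Fw ((G ∪ TL) \ β) ∧ Fb (β ∩ (TL ∪ G))) ∧ (Ew ((G ∪ TR) \ β) ∧ Eb (β ∩ (TR ∪ G))))) :
    a ≤ pr G (fun q => C q ∧ Gd G TL Fw Fb a q ∧ Gd G TR Ew Eb a q) := by
  have h1 := good_pr (G := G) (TL := TL) (TR := TR) (C := C)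
    (L := fun β => Fw ((G ∪ TL) \ β) ∧ Fb β) (R := fun β => Ew ((G ∪ TR) \ β) ∧ Eb β) ha hL hR
    (h.trans (pr_mono fun β _ h1 => ⟨h1.1, ⟨mFw _ _ ?_ h1.2.1.1, h1.2.1.2⟩,
      ⟨mEw _ _ ?_ h1.2.2.1, h1.2.2.2⟩⟩))
  · exact h1
  · exact sdiff_subset_sdiff subset_rfl inter_subset_left
  · exact sdiff_subset_sdiff subset_rfl inter_subset_left

end Crest.Agent.R143.Thetax73
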