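import Crest.Agent.R143.WLoc7_713
import Crest.Agent.R143.Blk_838

/-!
# Row 143 (S0194), CORE-C block V, leaf V3 (helper713): chains and tube events

* `ch S χ κ A u v` : chain of Delaunay edges of the colour `κ` inside the set `A` from `u` to `v`
* `ch_loc` : locality; `iso_ch` : transport
* `TE A Q Q' G G' X` : tube event: chain of the colour 1 between the left sites and chain of the
  colour 0 between the right sites of the least gate darts of `X ∩ ovr Q`, `X ∩ ovr Q'`, inside `A`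
* `TE_fme`, `TE_cut`
-/

set_option autoImplicit false
set_option linter.all false

noncomputable section

open scoped Classical

namespace Crest.Agent.R143.WLocx713

open Set MeasureTheory
open Crest.Agent.R143.B0x346 Crest.Agent.R143.DelGx806 Crest.Agent.R143.DelRx806
  Crest.Agent.R143.JColx54
open Crest.Agent.R143.Frame10x395 Crest.Agent.R143.Locx922
open Crest.Agent.R143.Frame5x395 (sd mem_sd th th_spec)
open Crest.Agent.R143.Blkx838 (DE)
open Crest.Agent.R143.PP0x831 Crest.Agent.R143.Poisx304 Crest.Agent.R143.Janx304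
open Crest.Agent.R143.Prodx609 Crest.Agent.R143.FinMx609 Crest.Agent.R143.FinM2x609

variable {S S' : Finset ℂ} {W : Set ℂ} {d : ℝ} {χ χ' : ℂ → ZMod 2}

/-- one step of a chain -/
def cst (S : Finset ℂ) (χ : ℂ → ZMod 2) (κ : ZMod 2) (A : Set ℂ) (u v : ℂ) : Prop :=
  DE S u v ∧ χ u = κ ∧ χ v = κ ∧ u ∈ A ∧ v ∈ A

/-- chain of the colour `κ` in `A` -/
def ch (S : Finset ℂ) (χ : ℂ → ZMod 2) (κ : ZMod 2) (A : Set ℂ) (u v : ℂ) : Prop :=
  Relation.ReflTransGen (cst S χ κ A) u v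

theorem de_mem {u v : ℂ} (h : DE S u v) : u ∈ S ∧ v ∈ S := by
  rcases h with ⟨c, h⟩ | ⟨c, h⟩
  · exact ⟨(mem_delT.1 h).1, (mem_delT.1 h).2.1⟩
  · exact ⟨(mem_delT.1 h).2.1, (mem_delT.1 h).1⟩

theorem DE.symm' {u v : ℂ} (h : DE S u v) : DE S v u := h.symm

/-- locality of a Delaunay edge -/
theorem de_loc (hd : 0 < d) (hH : Hol (S : Set ℂ) W d)
    (hA : Agr (S : Set ℂ) (S' : Set ℂ) W (2 * d)) {u v : ℂ} (hu : u ∈ W) :
    DE S u v ↔ DE S' u v := by
  unfold Blkx838.DE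
  refine or_congr (exists_congr fun c => ?_) (exists_congr fun c => ?_)
  · exact delT_vertex hd hH hA hu
  · exact delT_vertex2 hd hH hA hu

theorem de_near (hd : 0 < d) (hH : Hol (S : Set ℂ) W d) {u v : ℂ} (hu : u ∈ W) (h : DE S u v) :
    ‖v - u‖ < 2 * d := by
  rcases h with ⟨c, h⟩ | ⟨c, h⟩
  · have h1 := del_side hd hH hu (inD_self _ _ _) (mem_delT.1 h)
    rw [norm_sub_rev]; exact h1.1
  · exact (del_side hd hH hu (inD_snd _ _ _) (mem_delT.1 h)).1

/-- **locality of a chain** -/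
theorem ch_loc (hd : 0 < d) (hH : Hol (S : Set ℂ) W d)
    (hA : Agr (S : Set ℂ) (S' : Set ℂ) W (2 * d)) (hc : CAgr S χ χ' W (2 * d)) {κ : ZMod 2}
    {u v : ℂ} : ch S χ κ W u v ↔ ch S' χ' κ W u v := by
  have key : ∀ a b, cst S χ κ W a b ↔ cst S' χ' κ W a b := by
    intro a b
    unfold cst
    by_cases ha : a ∈ W
    · by_cases hb : b ∈ W
      · rw [← de_loc hd hH hA ha]
        by_cases h : DE S a b
        · have h1 := hc a ha a (de_mem h).1 (by simpa using hd)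
          have h2 := hc b hb b (de_mem h).2 (by simpa using hd)
          rw [h1, h2]
        · simp only [h, false_and]
      · simp only [hb, and_false]
    · simp only [ha, false_and, and_false]
  have e : cst S χ κ W = cst S' χ' κ W := by
    funext a b
    exact propext (key a b)
  unfold ch
  rw [e]

section transport

variable {ι κ : Type*} [Finite ι] [Finite κ] {U : ι → Set ℂ} {R : κ → ℂ × ℂ × ℂ → Prop}
  {X X' : Set (ℂ × Bool)} {e : ℂ → ℂ}

theorem iso_de (hX : X.Finite) (hX' : X'.Finite) (he : PIso U R X X' e) {u v : ℂ}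
    (h : DE (sX X) u v) : DE (sX X') (e u) (e v) := by
  rcases h with ⟨c, h⟩ | ⟨c, h⟩
  · obtain ⟨h1, h2, h3⟩ := ps_of_del hX h
    exact Or.inl ⟨e c, (iso_del hX hX' he h1 h2 h3).1 h⟩
  · obtain ⟨h1, h2, h3⟩ := ps_of_del hX h
    exact Or.inr ⟨e c, (iso_del hX hX' he h1 h2 h3).1 h⟩

theorem de_ps (hX : X.Finite) {u v : ℂ} (h : DE (sX X) u v) : u ∈ ps X ∧ v ∈ ps X :=
  ⟨(mem_sX hX).1 (de_mem h).1, (mem_sX hX).1 (de_mem h).2⟩

/-- **transport of a chain** -/
theorem iso_ch (hX : X.Finite) (hX' : X'.Finite) (he : PIso U R X X' e) {k : ZMod 2} {a : ι}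
    {u v : ℂ} (h : ch (sX X) (cX X) k (U a) u v) :
    ch (sX X') (cX X') k (U a) (e u) (e v) := by
  induction h with
  | refl => exact .refl
  | tail _ h ih =>
    obtain ⟨h1, h2, h3, h4, h5⟩ := h
    obtain ⟨m1, m2⟩ := de_ps hX h1
    exact ih.tail ⟨iso_de hX hX' he h1, by rw [iso_col he m1, h2], by rw [iso_col he m2, h3],
      (he.loc _ m1 a).1 h4, (he.loc _ m2 a).1 h5⟩

end transport

/-- **tube event** -/
def TE (A Q Q' : Set ℂ) (G G' : Set (ℂ × Bool) → ℂ × ℂ → Prop) (X : Set (ℂ × Bool)) : Prop :=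
  ∃ p q, Least (G (X ∩ ovr Q)) p ∧ Least (G' (X ∩ ovr Q')) q ∧
    ch (sX X) (cX X) 1 A p.1 q.1 ∧ ch (sX X) (cX X) 0 A p.2 q.2

/-- **measurability of the tube event** -/
theorem TE_fme {ι κ : Type*} [Finite ι] [Finite κ] {U0 : ι → Set ℂ} {R : κ → ℂ × ℂ × ℂ → Prop}
    (hU : ∀ a, MeasurableSet (U0 a)) (hR : ∀ a, MeasurableSet {t | R a t})
    {G G' : Set (ℂ × Bool) → ℂ × ℂ → Prop} (hG : GInv (UC U0) (RL R) G)
    (hG' : GInv (UC U0) (RL R) G') (a q q' : ι) :
    FMe (TE (U0 a) (U0 q) (U0 q') G G') := by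
  have h1 := (hG.restrict (UC_cl U0) {q}).least
  have h2 := (hG'.restrict (UC_cl U0) {q'}).least
  simp only [UC_single] at h1 h2
  refine finMeas_iso (UC_meas hU) (meas_RL hR) ?_
  rintro X X' hX hX' e he ⟨p, r, hp, hr, h3, h4⟩
  rw [← UC_single U0 a] at h3 h4
  have h5 := iso_ch hX hX' he h3
  have h6 := iso_ch hX hX' he h4
  rw [UC_single] at h5 h6
  exact ⟨mp e p, mp e r, h1.tr X X' hX hX' e he p hp, h2.tr X X' hX hX' e he r hr, h5, h6⟩

/-- **locality of the tube event** -/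
theorem TE_cut {A Q Q' : Set ℂ} {G G' : Set (ℂ × Bool) → ℂ × ℂ → Prop} {X : Set (ℂ × Bool)}
    (hX : X.Finite) (hd : 0 < d) (hH : Hol (ps X) A d) {R : Set ℂ}
    (hR : ∀ w ∈ A, ∀ s, ‖s - w‖ < 2 * d → s ∈ R) (hQ : Q ⊆ R) (hQ' : Q' ⊆ R) :
    TE A Q Q' G G' (X ∩ ovr R) ↔ TE A Q Q' G G' X := by
  have e : ∀ {B : Set ℂ}, B ⊆ R → X ∩ ovr R ∩ ovr B = X ∩ ovr B := by
    intro B hB
    rw [inter_assoc]
    congr 1
    ext v
    exact ⟨fun h => h.2, fun h => ⟨hB h, h⟩⟩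
  have hY : (X ∩ ovr R).Finite := hX.subset inter_subset_left
  have hc : (sX (X ∩ ovr R) : Set ℂ) = ps X ∩ R := by rw [coe_sX hY, ps_inter]
  have hH' : Hol (sX X : Set ℂ) A d := by rw [coe_sX hX]; exact hH
  have hA : Agr (sX X : Set ℂ) (sX (X ∩ ovr R) : Set ℂ) A (2 * d) := by
    intro w hw s hs
    rw [hc, coe_sX hX]
    exact ⟨fun h => ⟨h, hR w hw s hs⟩, fun h => h.1⟩
  have hC : CAgr (sX X) (cX X) (cX (X ∩ ovr R)) A (2 * d) := by
    intro w hw v _ hvw
    rw [cX_inter (hR w hw v hvw)]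
  unfold TE
  rw [e hQ, e hQ']
  refine exists_congr fun p => exists_congr fun q => ?_
  rw [← ch_loc hd hH' hA hC, ← ch_loc hd hH' hA hC]

end Crest.Agent.R143.WLocx713
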