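import Crest.Agent.R143.GEpr_838
import Crest.Agent.R143.TileRR_345
import Crest.Agent.R143.EnvH_653
import Crest.Agent.R143.WLoc8_713

/-!
# Row 143, R1d (E): the middle lanes of a tile for fresh points (helper838)

`S` = all sites of the sample in a big disc, `M` = any finite set in general position which agrees with
the sample in the region `D` of the tube, `V` = sites of `M` in `D`.

* `hc_loc`, `lane_tr` : transport of a lane from `DE S` to `DE M`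
* `midB_pr`, `midW_pr` : `p ^ 2 ≤ pr V (MidB M ..)`, `p ^ 2 ≤ pr V (fun τ => MidW M .. (V \ τ))`
* `Gm` : environment event; `gm_pr` : its complement has small probability
* `gm_mid`, `gm_ge` : the lanes and the gate on `Gm`
-/

set_option autoImplicit false

noncomputable section

open scoped Classical

namespace Crest.Agent.R143.Gmx838

open MeasureTheory Filter Topology
open Crest.ProbabilityR.Voronoi
open Crest.Agent.R143.B0x346 Crest.Agent.R143.DelGx806 Crest.Agent.R143.DelRx806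
open Crest.Agent.R143.ToolWx838 Crest.Agent.R143.Blkx838 Crest.Agent.R143.ToolW2x838
open Crest.Agent.R143.ToolW3x838 Crest.Agent.R143.Circ4x838 Crest.Agent.R143.Harx315
open Crest.Agent.R143.RB0x838 Crest.Agent.R143.CircPx838 Crest.Agent.R143.Gatex838
open Crest.Agent.R143.RBmx838 Crest.Agent.R143.RbEx838 Crest.Agent.R143.Neckx921
open Crest.Agent.R143.GEprx838 Crest.Agent.R143.TileRRx345 Crest.Agent.R143.Thetax73
open Crest.Agent.R143.Locx922 Crest.Agent.R143.EnvHx653 Crest.Agent.R143.CBx838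
open Crest.Agent.R143.TileGx73 Crest.Agent.R143.PP1x831
open scoped ENNReal

variable {S M V A : Finset ℂ} {z e z' e' : ℂ} {T p d : ℝ} {W : Set ℂ}

/-! ### transport -/

theorem hc_loc {x0 x1 y0 y1 m : ℝ} {l : List ℂ} (h : HC S z e x0 x1 y0 y1 m A l)
    (hl : ∀ s ∈ l, s ∈ W) (hde : ∀ u ∈ W, ∀ v, DE S u v → DE M u v) :
    HC M z e x0 x1 y0 y1 m A l :=
  ⟨h.ne, fun q hq => hde q.1 (hl _ (mem_of_prs hq).1) _ (h.adj q hq), h.col, h.strip, h.loc, h.left,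
    h.right⟩

/-- **transport of a lane** -/
theorem lane_tr (hA : AllX S z e p) {x0 x1 y0 y1 m : ℝ} (h1 : |x0| ≤ 200) (h2 : |x1| ≤ 200)
    (h3 : |y0| ≤ 200) (h4 : |y1| ≤ 200) (h5 : x0 + 1 / 20 ≤ x1) (h6 : y0 + 1 / 20 ≤ y1)
    (h7 : y1 - y0 ≤ 10) (h8 : (y1 - y0) / 2 ≤ m)
    (hW : ∀ s, y0 < Y z e s → Y z e s < y1 → x0 - m ≤ X z e s → X z e s ≤ x1 + m → s ∈ W)
    (hV : ∀ s ∈ S, s ∈ W → s ∈ V) (hde : ∀ u ∈ W, ∀ v, DE S u v → DE M u v) :
    p ≤ pr V (fun β => ∃ l, HC M z e x0 x1 y0 y1 m β l) := by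
  have hsub : S.filter (· ∈ W) ⊆ V := fun s hs => by
    rw [Finset.mem_filter] at hs; exact hV s hs.1 hs.2
  have k1 := ((hA (S.filter (· ∈ W)) (Finset.filter_subset _ _) x0 x1 y0 y1 m h1 h2 h3 h4 h5 h6).1 h7
    h8 (fun s hs g1 g2 g3 g4 => Finset.mem_filter.2 ⟨hs, hW s g1 g2 g3 g4⟩)).1
  refine (k1.trans (pr_mono fun β hβ ⟨l, hl⟩ => ⟨l, hc_loc hl (fun s hs =>
    (Finset.mem_filter.1 (hβ (hl.col s hs))).2) hde⟩)).trans
    (pr_le_of_sub hsub fun β β' hb ⟨l, hl⟩ => ⟨l, hl.mono hb⟩)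

/-! ### supports of the lanes -/

theorem regS (he : e ≠ 0) (k : e' = e) (f : Fr T z e z' e') {y0 y1 : ℝ}
    (h0 : -9 ≤ y0) (h1 : y1 ≤ 9) (s : ℂ) (l4 : y0 < Y z e s) (l5 : Y z e s < y1)
    (l2 : 10 - 1 ≤ X z e s) (l3 : X z e s ≤ T - 10 + 1) :
    s ∈ Mi z e z' e' ∩ Re T z e z' e' := by
  have hX := (f.coord he).resolve_right (by
    rintro (⟨h, -⟩ | ⟨h, -⟩)
    · exact ne_I he (k.symm.trans h)
    · exact ne_I' he (k.symm.trans h))
  have e1 := hX.2.1 s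
  have e2 := hX.2.2 s
  refine ⟨⟨by linarith, by linarith⟩, ?_⟩
  rcases lt_or_ge (X z e s) (T / 2 + 9) with h5 | h5
  · exact Or.inl ⟨⟨by linarith, h5⟩, by linarith, by linarith⟩
  · exact Or.inr ⟨⟨by linarith, by linarith⟩, by linarith, by linarith⟩

theorem regT (hT : 40 ≤ T) (he : e ≠ 0) (k : e' ≠ e) (f : Fr T z e z' e') {y0 y1 u w : ℝ}
    (h0 : -9 ≤ y0) (h1 : y1 ≤ 9) (hu : u < T / 2 + 8) (hw : -(T / 2 + 8) < w) (s : ℂ) :
    (y0 < Y z e s → Y z e s < y1 → 10 - 1 ≤ X z e s → X z e s ≤ u + 1 →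
      s ∈ Mi z e z' e' ∩ Re T z e z' e') ∧
    (y0 < Y z' e' s → Y z' e' s < y1 → w - 1 ≤ X z' e' s → X z' e' s ≤ -10 + 1 →
      s ∈ Mi z e z' e' ∩ Re T z e z' e') := by
  have hf : (-9 < Y z e s → Y z e s < 9 → X z' e' s ≤ -9) ∧
      (-9 < Y z' e' s → Y z' e' s < 9 → 9 ≤ X z e s) := by
    rcases f.coord he with ⟨h, -⟩ | ⟨-, hX, hY⟩ | ⟨-, hX, hY⟩
    · exact absurd h k
    · exact ⟨fun h1 h2 => by linarith [hX s], fun h1 h2 => by linarith [hY s]⟩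
    · exact ⟨fun h1 h2 => by linarith [hX s], fun h1 h2 => by linarith [hY s]⟩
  refine ⟨fun l4 l5 l2 l3 => ?_, fun l4 l5 l2 l3 => ?_⟩
  · exact ⟨⟨by linarith, hf.1 (by linarith) (by linarith)⟩,
      Or.inl ⟨⟨by linarith, by linarith⟩, by linarith, by linarith⟩⟩
  · exact ⟨⟨hf.2 (by linarith) (by linarith), by linarith⟩,
      Or.inr ⟨⟨by linarith, by linarith⟩, by linarith, by linarith⟩⟩

theorem two {A B : Finset ℂ → Prop} (hp : 0 ≤ p) (hA : Up V A) (hB : Up V B) (h1 : p ≤ pr V A)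
    (h2 : p ≤ pr V B) : p ^ 2 ≤ pr V (fun β => A β ∧ B β) := by
  rw [sq]
  exact (mul_le_mul h1 h2 hp pr_nonneg).trans (harris_up hA hB)

/-- one leg or two legs of lanes -/
theorem mid_pr (hp : 0 ≤ p) (hp1 : p ≤ 1) (he : e ≠ 0) (hT : 40 ≤ T) (hT' : T ≤ 150)
    (f : Fr T z e z' e') (A1 : AllX S z e p) (A2 : AllX S z' e' p)
    (hV : ∀ s ∈ S, s ∈ Mi z e z' e' → s ∈ Re T z e z' e' → s ∈ V)
    (hde : ∀ u ∈ Mi z e z' e' ∩ Re T z e z' e', ∀ v, DE S u v → DE M u v)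
    {y0 y1 uL uR : ℝ} (h0 : -9 ≤ y0) (h1 : y1 ≤ 9) (h2 : y0 + 1 / 20 ≤ y1) (h3 : y1 - y0 ≤ 2)
    (a1 : 12 ≤ uL) (a2 : uL < T / 2 + 8) (a3 : 12 ≤ uR) (a4 : uR < T / 2 + 8) :
    p ^ 2 ≤ pr V (fun A => (e' = e → ∃ l, HC M z e 10 (T - 10) y0 y1 1 A l) ∧
      (e' = e * Complex.I → (∃ l, HC M z e 10 uL y0 y1 1 A l) ∧
        ∃ l, HC M z' e' (-uL) (-10) y0 y1 1 A l) ∧
      (e' = e * -Complex.I → (∃ l, HC M z e 10 uR y0 y1 1 A l) ∧
        ∃ l, HC M z' e' (-uR) (-10) y0 y1 1 A l)) := by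
  have hV' : ∀ s ∈ S, s ∈ Mi z e z' e' ∩ Re T z e z' e' → s ∈ V := fun s hs h => hV s hs h.1 h.2
  have by0 : |y0| ≤ 200 := abs_le.2 ⟨by linarith, by linarith⟩
  have by1 : |y1| ≤ 200 := abs_le.2 ⟨by linarith, by linarith⟩
  rcases f.coord he with ⟨k, -⟩ | ⟨k, -⟩ | ⟨k, -⟩
  · have n1 : e' ≠ e * Complex.I := by rw [k]; exact ne_I he
    have n2 : e' ≠ e * -Complex.I := by rw [k]; exact ne_I' he
    have g := lane_tr (V := V) (M := M) (W := Mi z e z' e' ∩ Re T z e z' e') A1 (x0 := 10)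
      (x1 := T - 10) (y0 := y0) (y1 := y1) (m := 1) (by norm_num)
      (abs_le.2 ⟨by linarith, by linarith⟩) by0 by1 (by linarith) h2 (by linarith) (by linarith)
      (fun s => regS he k f h0 h1 s) hV' hde
    refine le_trans ?_ (g.trans (pr_mono fun β _ h => ⟨fun _ => h, fun h' => absurd h' n1,
      fun h' => absurd h' n2⟩))
    nlinarith
  · have n1 : e' ≠ e := by rw [k]; exact (ne_I he).symm
    have n2 : e' ≠ e * -Complex.I := by rw [k]; exact ne_II he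
    have r := regT (z := z) (z' := z') (y0 := y0) (y1 := y1) (u := uL) (w := -uL) hT he n1 f h0 h1 a2
      (by linarith)
    have g1 := lane_tr (V := V) (M := M) (W := Mi z e z' e' ∩ Re T z e z' e') A1 (x0 := 10)
      (x1 := uL) (y0 := y0) (y1 := y1) (m := 1) (by norm_num)
      (abs_le.2 ⟨by linarith, by linarith⟩) by0 by1 (by linarith) h2 (by linarith) (by linarith)
      (fun s => (r s).1) hV' hde
    have g2 := lane_tr (V := V) (M := M) (W := Mi z e z' e' ∩ Re T z e z' e') A2 (x0 := -uL)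
      (x1 := -10) (y0 := y0) (y1 := y1) (m := 1) (abs_le.2 ⟨by linarith, by linarith⟩)
      (by norm_num) by0 by1 (by linarith) h2 (by linarith) (by linarith)
      (fun s => (r s).2) hV' hde
    refine (two hp (up_hc V M z e 10 uL y0 y1 1) (up_hc V M z' e' (-uL) (-10) y0 y1 1) g1 g2).trans
      (pr_mono fun β _ h => ⟨fun h' => absurd h' n1, fun _ => h, fun h' => absurd h' n2⟩)
  · have n1 : e' ≠ e := by rw [k]; exact (ne_I' he).symm
    have n2 : e' ≠ e * Complex.I := by rw [k]; exact (ne_II he).symm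
    have r := regT (z := z) (z' := z') (y0 := y0) (y1 := y1) (u := uR) (w := -uR) hT he n1 f h0 h1 a4
      (by linarith)
    have g1 := lane_tr (V := V) (M := M) (W := Mi z e z' e' ∩ Re T z e z' e') A1 (x0 := 10)
      (x1 := uR) (y0 := y0) (y1 := y1) (m := 1) (by norm_num)
      (abs_le.2 ⟨by linarith, by linarith⟩) by0 by1 (by linarith) h2 (by linarith) (by linarith)
      (fun s => (r s).1) hV' hde
    have g2 := lane_tr (V := V) (M := M) (W := Mi z e z' e' ∩ Re T z e z' e') A2 (x0 := -uR)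
      (x1 := -10) (y0 := y0) (y1 := y1) (m := 1) (abs_le.2 ⟨by linarith, by linarith⟩)
      (by norm_num) by0 by1 (by linarith) h2 (by linarith) (by linarith)
      (fun s => (r s).2) hV' hde
    refine (two hp (up_hc V M z e 10 uR y0 y1 1) (up_hc V M z' e' (-uR) (-10) y0 y1 1) g1 g2).trans
      (pr_mono fun β _ h => ⟨fun h' => absurd h' n1, fun h' => absurd h' n2, fun _ => h⟩)

/-- **black lanes** -/
theorem midB_pr (hp : 0 ≤ p) (hp1 : p ≤ 1) (he : e ≠ 0) (hT : 40 ≤ T) (hT' : T ≤ 150)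
    (f : Fr T z e z' e') (A1 : AllX S z e p) (A2 : AllX S z' e' p)
    (hV : ∀ s ∈ S, s ∈ Mi z e z' e' → s ∈ Re T z e z' e' → s ∈ V)
    (hde : ∀ u ∈ Mi z e z' e' ∩ Re T z e z' e', ∀ v, DE S u v → DE M u v) :
    p ^ 2 ≤ pr V (MidB M T z e z' e') :=
  mid_pr hp hp1 he hT hT' f A1 A2 hV hde (y0 := -7) (y1 := -6) (uL := T / 2 + 7)
    (uR := T / 2 - 6) (by norm_num) (by norm_num) (by norm_num) (by norm_num) (by linarith)
    (by linarith) (by linarith) (by linarith)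

/-- **white lanes** -/
theorem midW_pr (hp : 0 ≤ p) (hp1 : p ≤ 1) (he : e ≠ 0) (hT : 40 ≤ T) (hT' : T ≤ 150)
    (f : Fr T z e z' e') (A1 : AllX S z e p) (A2 : AllX S z' e' p)
    (hV : ∀ s ∈ S, s ∈ Mi z e z' e' → s ∈ Re T z e z' e' → s ∈ V)
    (hde : ∀ u ∈ Mi z e z' e' ∩ Re T z e z' e', ∀ v, DE S u v → DE M u v) :
    p ^ 2 ≤ pr V (fun τ => MidW M T z e z' e' (V \ τ)) := by
  rw [pr_flip V (MidW M T z e z' e')]
  exact mid_pr hp hp1 he hT hT' f A1 A2 hV hde (y0 := 4) (y1 := 6) (uL := T / 2 - 4)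
    (uR := T / 2 + 6) (by norm_num) (by norm_num) (by norm_num) (by norm_num) (by linarith)
    (by linarith) (by linarith) (by linarith)

/-! ### the environment event -/

/-- environment event: `EnvH` at the scales `≥ 5 η`, general position, finitely many points in the disc -/
def Gm (R0 ε d K c2 η : ℝ) (ω : Sample) : Prop :=
  EnvH R0 ε d K c2 (5 * η) ω ∧ GP (points ε ω) ∧ (points ε ω ∩ Metric.closedBall 0 R0).Finite

theorem gm_pr (R0 A : ℝ) : ∃ C : ℝ, 0 < C ∧ ∀ K c1 c2 η : ℝ, 0 ≤ K → 0 < c1 → 0 < c2 → 0 < η →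
    ∀ᶠ ε : ℝ in 𝓝[>] 0, (0 < rad C ε ∧ rad C ε ≤ c1 * η) ∧
      sampleLaw {ω | ¬ Gm R0 ε (rad C ε) K c2 η ω} ≤ ENNReal.ofReal (ε ^ A) := by
  obtain ⟨C, hC, H⟩ := env_h R0 A
  refine ⟨C, hC, fun K c1 c2 η hK hc1 hc2 hη => ?_⟩
  filter_upwards [H K (c1 / 5) c2 (5 * η) hK (by positivity) hc2 (by positivity),
    (eventually_mem_nhdsWithin : ∀ᶠ ε : ℝ in 𝓝[>] 0, ε ∈ Set.Ioi 0)] with ε h1 h0
  refine ⟨⟨h1.1.1, by linarith [h1.1.2]⟩, ?_⟩
  have h3a : sampleLaw {ω | ¬ (GP (points ε ω) ∧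
      (points ε ω ∩ Metric.closedBall 0 R0).Finite)} = 0 := by
    have h := PoisM3x930.m3a ε h0
    have h' : ∀ᵐ ω ∂sampleLaw, GP (points ε ω) ∧
        (points ε ω ∩ Metric.closedBall 0 R0).Finite := by
      filter_upwards [h] with ω hω
      exact ⟨hω.1, hω.2.2 R0⟩
    exact ae_iff.1 h'
  calc sampleLaw {ω | ¬ Gm R0 ε (rad C ε) K c2 η ω}
      ≤ sampleLaw ({ω | ¬ EnvH R0 ε (rad C ε) K c2 (5 * η) ω} ∪ {ω | ¬ (GP (points ε ω) ∧
      (points ε ω ∩ Metric.closedBall 0 R0).Finite)}) := by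
        refine measure_mono fun ω hω => ?_
        by_contra hc
        simp only [Set.mem_union, not_or, Set.mem_ofPred_eq, not_not] at hc
        exact hω ⟨hc.1, hc.2⟩
    _ ≤ _ := measure_union_le _ _
    _ ≤ ENNReal.ofReal (ε ^ A) := by rw [h3a, add_zero]; exact h1.2

theorem Re_norm (he : e ≠ 0) (hT : T ≤ 150) (hT0 : 0 ≤ T) {w : ℂ} (h : w ∈ Re T z e z' e') :
    ‖w - z‖ ≤ 94 * ‖e‖ ∨ (e' ≠ 0 → ‖w - z'‖ ≤ 94 * ‖e'‖) := by
  rcases h with ⟨⟨h1, h2⟩, h3, h4⟩ | ⟨⟨h1, h2⟩, h3, h4⟩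
  · left
    refine (norm_le_XY he w).trans ?_
    have a1 : |X z e w| ≤ T / 2 + 9 := abs_le.2 ⟨by linarith, by linarith⟩
    have a2 : |Y z e w| ≤ 9 := abs_le.2 ⟨by linarith, by linarith⟩
    have := norm_nonneg e
    nlinarith
  · right
    intro he'
    refine (norm_le_XY he' w).trans ?_
    have a1 : |X z' e' w| ≤ T / 2 + 9 := abs_le.2 ⟨by linarith, by linarith⟩
    have a2 : |Y z' e' w| ≤ 9 := abs_le.2 ⟨by linarith, by linarith⟩
    have := norm_nonneg e'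
    nlinarith

theorem Fr.norm (f : Fr T z e z' e') : ‖e'‖ = ‖e‖ := by
  rcases f.2 with h | h | h <;> rw [h] <;> simp

/-- **the environment of a tile and of a gate** -/
theorem gm : ∃ p c1 c2 K : ℝ, 0 < p ∧ p ≤ 1 ∧ 0 < c1 ∧ c1 ≤ 1 / 20 ∧ 0 < c2 ∧ c2 ≤ 1 ∧ 20 ≤ K ∧
    (∀ (R0 ε d η T : ℝ) (ω : Sample) (z e z' e' : ℂ), Gm R0 ε d K c2 η ω → 0 < d → d ≤ c1 * η →
      0 < η → 10 * η ≤ 1 → 40 ≤ T → T ≤ 150 → ‖e‖ = η → Fr T z e z' e' →
      ‖z‖ + (K + 1) * (5 * η) + 2 * d ≤ R0 → ‖z'‖ + (K + 1) * (5 * η) + 2 * d ≤ R0 →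
      ∀ D : Set ℂ, (∀ w, w ∈ Mi z e z' e' → w ∈ Re T z e z' e' → ∀ s, ‖s - w‖ < 2 * d → s ∈ D) →
      ∀ M V : Finset ℂ, (∀ s ∈ D, (s ∈ M ↔ s ∈ points ε ω)) →
      (∀ s ∈ D, s ∈ points ε ω → s ∈ V) →
      p ≤ pr V (MidB M T z e z' e') ∧ p ≤ pr V (fun τ => MidW M T z e z' e' (V \ τ))) ∧
    (∀ (R0 ε d η : ℝ) (ω : Sample) (z e : ℂ), Gm R0 ε d K c2 η ω → 0 < d → d ≤ c1 * η → 0 < η →
      10 * η ≤ 1 → ‖e‖ = η → ‖z‖ + (K + 1) * (5 * η) + 2 * d ≤ R0 →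
      ∀ S : Finset ℂ, GP (S : Set ℂ) →
      (∀ s : ℂ, ‖s - z‖ ≤ (K + 1) * (5 * η) + 2 * d → (s ∈ points ε ω ↔ s ∈ S)) →
      NvA S z (K * (5 * η)) c2 (5 * η) d Cab ∧ AllX S z e p ∧
      ∀ V : Finset ℂ, V ⊆ S → BoxIn S V z e →
        En S V z e (-12) 12 (-(91 / 10)) (-(48 / 10)) (1 / 20) ∧
        ∀ b1 : ℝ, 9 ≤ b1 → b1 ≤ 11 → p ≤ pr V (GEn S V z e b1)) := by
  obtain ⟨p, c1, c2, K, hp, hp1, hc1, hc1', hc2, hc2', hK, H⟩ := nums Cab Cab_pos.le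
  have hq : p ^ 9 ≤ p ^ 2 := pow_le_pow_of_le_one hp.le hp1 (by norm_num)
  have hq1 : p ^ 9 ≤ p := by
    calc p ^ 9 ≤ p ^ 1 := pow_le_pow_of_le_one hp.le hp1 (by norm_num)
      _ = p := pow_one p
  -- crossings for a set which agrees with the sample
  have key : ∀ (R0 ε d η : ℝ) (ω : Sample) (z e : ℂ), Gm R0 ε d K c2 η ω → 0 < d → d ≤ c1 * η →
      0 < η → 10 * η ≤ 1 → ‖e‖ = η → ‖z‖ + (K + 1) * (5 * η) + 2 * d ≤ R0 →
      ∀ S : Finset ℂ, GP (S : Set ℂ) →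
      (∀ s : ℂ, ‖s - z‖ ≤ (K + 1) * (5 * η) + 2 * d → (s ∈ points ε ω ↔ s ∈ S)) →
      NvA S z (K * (5 * η)) c2 (5 * η) d Cab ∧ AllX S z e p ∧
      ∀ V : Finset ℂ, V ⊆ S → BoxIn S V z e →
        En S V z e (-12) 12 (-(91 / 10)) (-(48 / 10)) (1 / 20) ∧
        ∀ b1 : ℝ, 9 ≤ b1 → b1 ≤ 11 → p ^ 9 ≤ pr V (GEn S V z e b1) := by
    intro R0 ε d η ω z e hG hd hd1 hη hη1 he hR S hS hA
    have he0 : e ≠ 0 := by rintro rfl; rw [norm_zero] at he; linarith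
    have hN := hG.1 S z (5 * η) hS le_rfl (by linarith) hR hA
    have h1 := H S z e d he0 (by rw [he]; exact hN) (by rw [he]; exact hd1)
    exact ⟨hN, h1⟩
  refine ⟨p ^ 9, c1, c2, K, by positivity, pow_le_one₀ hp.le hp1, hc1, hc1', hc2, hc2', hK, ?_, ?_⟩
  · intro R0 ε d η T ω z e z' e' hG hd hd1 hη hη1 hT hT' he f hR hR' D hD M V hM hV
    have he0 : e ≠ 0 := by rintro rfl; rw [norm_zero] at he; linarith
    have he' : ‖e'‖ = η := (Fr.norm f).trans he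
    have he0' : e' ≠ 0 := by rintro rfl; rw [norm_zero] at he'; linarith
    have hfin := hG.2.2
    set S : Finset ℂ := hfin.toFinset with hSdef
    have hS1 : ∀ s, s ∈ S ↔ s ∈ points ε ω ∧ ‖s‖ ≤ R0 := by
      intro s
      rw [hSdef, Set.Finite.mem_toFinset, Set.mem_inter_iff, mem_closedBall_zero_iff]
    have hSgp : GP (S : Set ℂ) := by
      refine Locx922.GP.mono hG.2.1 fun s hs => ?_
      exact ((hS1 s).1 (Finset.mem_coe.1 hs)).1
    have agr : ∀ y : ℂ, ‖y‖ + (K + 1) * (5 * η) + 2 * d ≤ R0 →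
        ∀ s : ℂ, ‖s - y‖ ≤ (K + 1) * (5 * η) + 2 * d → (s ∈ points ε ω ↔ s ∈ S) := by
      intro y hy s hs
      rw [hS1]
      refine ⟨fun h => ⟨h, ?_⟩, fun h => h.1⟩
      have := norm_add_le (s - y) y
      rw [sub_add_cancel] at this
      linarith
    obtain ⟨N1, A1, -⟩ := key R0 ε d η ω z e hG hd hd1 hη hη1 he hR S hSgp (agr z hR)
    obtain ⟨N2, A2, -⟩ := key R0 ε d η ω z' e' hG hd hd1 hη hη1 he' hR' S hSgp (agr z' hR')
    have hc1η : c1 * η ≤ 1 / 20 * η := mul_le_mul_of_nonneg_right hc1' hη.le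
    have hKη : 100 * η ≤ K * (5 * η) := by nlinarith
    have near : ∀ w ∈ Mi z e z' e' ∩ Re T z e z' e', ∃ y : ℂ, (y = z ∨ y = z') ∧
        ‖w - y‖ ≤ 94 * η := by
      rintro w ⟨-, hw⟩
      rcases Re_norm he0 hT' (by linarith) hw with h | h
      · exact ⟨z, Or.inl rfl, by rwa [he] at h⟩
      · exact ⟨z', Or.inr rfl, by have := h he0'; rwa [he'] at this⟩
    have hH : Hol (S : Set ℂ) (Mi z e z' e' ∩ Re T z e z' e') d := by
      intro w hw x hx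
      obtain ⟨y, hy, hwy⟩ := near w hw
      have h1 : ‖x - y‖ ≤ K * (5 * η) := by
        have := norm_sub_le_norm_sub_add_norm_sub x w y
        linarith
      rcases hy with rfl | rfl
      · exact N1.dns.hole x h1
      · exact N2.dns.hole x h1
    have hAg : Agr (S : Set ℂ) (M : Set ℂ) (Mi z e z' e' ∩ Re T z e z' e') (2 * d) := by
      intro w hw s hs
      have h1 := hD w hw.1 hw.2 s hs
      obtain ⟨y, hy, hwy⟩ := near w hw
      have h2 : ‖s - y‖ ≤ (K + 1) * (5 * η) + 2 * d := by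
        have := norm_sub_le_norm_sub_add_norm_sub s w y
        nlinarith
      rw [Finset.mem_coe, Finset.mem_coe, hM s h1]
      rcases hy with rfl | rfl
      · exact (agr _ hR s h2).symm
      · exact (agr _ hR' s h2).symm
    have hde : ∀ u ∈ Mi z e z' e' ∩ Re T z e z' e', ∀ v, DE S u v → DE M u v :=
      fun u hu v h => (WLocx713.de_loc hd hH hAg hu).1 h
    have hV' : ∀ s ∈ S, s ∈ Mi z e z' e' → s ∈ Re T z e z' e' → s ∈ V := by
      intro s hs h1 h2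
      exact hV s (hD s h1 h2 s (by rw [sub_self, norm_zero]; linarith)) ((hS1 s).1 hs).1
    exact ⟨hq.trans (midB_pr hp.le hp1 he0 hT hT' f A1 A2 hV' hde),
      hq.trans (midW_pr hp.le hp1 he0 hT hT' f A1 A2 hV' hde)⟩
  · intro R0 ε d η ω z e hG hd hd1 hη hη1 he hR S hS hA
    obtain ⟨h1, h2, h3⟩ := key R0 ε d η ω z e hG hd hd1 hη hη1 he hR S hS hA
    refine ⟨h1, ?_, h3⟩
    intro V hV x0 x1 y0 y1 m g1 g2 g3 g4 g5 g6
    have h4 := h2 V hV x0 x1 y0 y1 m g1 g2 g3 g4 g5 g6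
    refine ⟨fun a b c => ?_, fun a b c => ?_⟩
    · exact ⟨hq1.trans (h4.1 a b c).1, hq1.trans (h4.1 a b c).2⟩
    · exact ⟨hq1.trans (h4.2 a b c).1, hq1.trans (h4.2 a b c).2⟩

end Crest.Agent.R143.Gmx838
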