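import Crest.Agent.R143.Tpl3_978
import Crest.Agent.R143.WLoc11_713
import Crest.Agent.R143.PthF_765

/-!
# Row 143 (S0194), RIG, box R6/R8: the template of the corridor (helper204)

Instance of 978's `Tpl` from 713's selected gate darts `LG` and tile events `TC`, 921's neck gates and
765's boxes `WQ`, `WR`, `WD`, `nxt`.

* `Ty = Tn × Bool` (`true`: full tile, `false`: white half only)
* `TB b A St En X` : tile event (`b = true`: `TC`; `b = false`: white link only); `TB_fme`, `TB_cut`,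
  `TB_gate_mv`
* `DT` : data of the template (gate, sizes, additional event `Gd` of the gate)
* `DT.A`, `DT.E` : weights; `DT.A_ne`, `DT.E_ne`; `DT.trA_ne`, `DT.trE_ne` in a frame
* `DT.tpl` : the template, from the lower bound `pos`; `DT.raw` : 978's `Raw` (forced events)
* `gd` : 73's goodness `a ≤ Rs CR 1_RH`, `a ≤ Rs CL 1_LH`; `gd_fm`, `gd_cut`
-/

set_option autoImplicit false
set_option linter.all false

noncomputable section

open scoped Classical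

namespace Crest.Agent.R143.TplIx204

open Set MeasureTheory
open Crest.ProbabilityR.Voronoi
open Crest.Agent.R143.B0x346 Crest.Agent.R143.DelGx806 Crest.Agent.R143.DelRx806
  Crest.Agent.R143.JColx54
open Crest.Agent.R143.Locx922
open Crest.Agent.R143.Blkx838 (DE)
open Crest.Agent.R143.Neckx921 (Neck NeckD Tile Lk)
open Crest.Agent.R143.PP0x831 Crest.Agent.R143.Poisx304 Crest.Agent.R143.Janx304
open Crest.Agent.R143.Prodx609 Crest.Agent.R143.FinMx609 Crest.Agent.R143.FinM2x609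
open Crest.Agent.R143.CovBx126 (Mo)
open Crest.Agent.R143.WLocx713 Crest.Agent.R143.PWx978 Crest.Agent.R143.Tplx978
open Crest.Agent.R143.TileRx228 Crest.Agent.R143.PthFx765
open scoped ENNReal

/-! ### tile events, full or white half -/

/-- **tile event**: white link `x → x'`, and for `b = true` also the black link `y → y'` -/
def TB (b : Bool) (A : Set ℂ) (St En : Set (ℂ × Bool) → ℂ × ℂ → Prop) (X : Set (ℂ × Bool)) : Prop :=
  X.Finite ∧ ∃ p q, St X p ∧ En X q ∧ (b = true → Lk (sX X) {s | s ∈ bX X ∧ s ∈ A} p.1 q.1) ∧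
    Lk (sX X) {s | (s ∈ sX X ∧ s ∉ bX X) ∧ s ∈ A} p.2 q.2

theorem TB_true {A : Set ℂ} {St En : Set (ℂ × Bool) → ℂ × ℂ → Prop} {X : Set (ℂ × Bool)} :
    TB true A St En X ↔ TC A St En X := by
  unfold TB TC Tile
  simp only [forall_const]

theorem TB_of {b : Bool} {A : Set ℂ} {St En : Set (ℂ × Bool) → ℂ × ℂ → Prop}
    {X : Set (ℂ × Bool)} (h : TC A St En X) : TB b A St En X := by
  obtain ⟨hX, p, q, hp, hq, h⟩ := h
  exact ⟨hX, p, q, hp, hq, fun _ => h.1, h.2⟩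

section

variable {ι κ : Type*} [Finite ι] [Finite κ] {U : ι → Set ℂ} {R : κ → ℂ × ℂ × ℂ → Prop}
  {St En : Set (ℂ × Bool) → ℂ × ℂ → Prop} {X : Set (ℂ × Bool)} {A : Set ℂ} {d : ℝ} {b : Bool}

theorem iso_tb {X X' : Set (ℂ × Bool)} {e : ℂ → ℂ} (hX : X.Finite) (hX' : X'.Finite)
    (he : PIso U R X X' e) {A A' : Set ℂ} (hA : ∀ s ∈ ps X, s ∈ A → e s ∈ A') {p q : ℂ × ℂ}
    (h1 : p.1 ∈ ps X) (h2 : p.2 ∈ ps X) (h3 : q.1 ∈ ps X) (h4 : q.2 ∈ ps X)
    (h : (b = true → Lk (sX X) {s | s ∈ bX X ∧ s ∈ A} p.1 q.1) ∧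
      Lk (sX X) {s | (s ∈ sX X ∧ s ∉ bX X) ∧ s ∈ A} p.2 q.2) :
    (b = true → Lk (sX X') {s | s ∈ bX X' ∧ s ∈ A'} (e p.1) (e q.1)) ∧
      Lk (sX X') {s | (s ∈ sX X' ∧ s ∉ bX X') ∧ s ∈ A'} (e p.2) (e q.2) := by
  refine ⟨fun hb => iso_lk hX hX' he ?_ h1 h3 (h.1 hb), iso_lk hX hX' he ?_ h2 h4 h.2⟩
  · rintro s hs ⟨h5, h6⟩
    exact ⟨(iso_bX hX hX' he hs).1 h5, hA s hs h6⟩
  · rintro s hs ⟨⟨h5, h6⟩, h7⟩
    exact ⟨⟨(iso_sX hX hX' he hs).1 h5, fun h => h6 ((iso_bX hX hX' he hs).2 h)⟩, hA s hs h7⟩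

/-- **measurability** -/
theorem TB_fme (hU : ∀ a, MeasurableSet (U a)) (hR : ∀ a, MeasurableSet {t | R a t})
    (hSt : GInv U R St) (hEn : GInv U R En) (a : ι) : FMe (TB b (U a) St En) := by
  refine finMeas_iso hU hR (P := TB b (U a) St En) ?_
  rintro X X' hX hX' e he ⟨-, p, r, hp, hr, h⟩
  exact ⟨hX', mp e p, mp e r, hSt.tr X X' hX hX' e he p hp, hEn.tr X X' hX hX' e he r hr,
    iso_tb hX hX' he (fun s hs h => (he.loc s hs a).1 h) (hSt.mem X p hp).1 (hSt.mem X p hp).2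
      (hEn.mem X r hr).1 (hEn.mem X r hr).2 h⟩

/-- **locality of the tile event** -/
theorem TB_cut (hX : X.Finite) (hd : 0 < d) (hH : Hol (ps X) A d) {R : Set ℂ}
    (hR : ∀ w ∈ A, ∀ s, ‖s - w‖ < 2 * d → s ∈ R)
    (hSt : ∀ p, St (X ∩ ovr R) p ↔ St X p) (hEn : ∀ p, En (X ∩ ovr R) p ↔ En X p) :
    TB b A St En (X ∩ ovr R) ↔ TB b A St En X := by
  have hY : (X ∩ ovr R).Finite := hX.subset inter_subset_left
  have hc : (sX (X ∩ ovr R) : Set ℂ) = ps X ∩ R := by rw [coe_sX hY, ps_inter]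
  have hH' : Hol (sX X : Set ℂ) A d := by rw [coe_sX hX]; exact hH
  have hA : Locx922.Agr (sX X : Set ℂ) (sX (X ∩ ovr R) : Set ℂ) A (2 * d) := by
    intro w hw s hs
    rw [hc, coe_sX hX]
    exact ⟨fun h => ⟨h, hR w hw s hs⟩, fun h => h.1⟩
  have hwR : ∀ s ∈ A, s ∈ R := fun s hs => hR s hs s (by simpa using hd)
  have mS : ∀ s ∈ A, (s ∈ sX X ↔ s ∈ sX (X ∩ ovr R)) := by
    intro s hs
    rw [mem_sX hX, mem_sX hY, ps_inter]
    exact ⟨fun h => ⟨h, hwR s hs⟩, fun h => h.1⟩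
  have mB : ∀ s ∈ A, (s ∈ bX X ↔ s ∈ bX (X ∩ ovr R)) := by
    intro s hs
    rw [mem_bX hX, mem_bX hY, ps_inter, cX_inter (hwR s hs)]
    exact ⟨fun h => ⟨⟨h.1, hwR s hs⟩, h.2⟩, fun h => ⟨h.1.1, h.2⟩⟩
  have key : ∀ (B B' : Set ℂ), (∀ u, u ∈ B ↔ u ∈ B') → (∀ u ∈ B, u ∈ A) → ∀ u v,
      (Lk (sX (X ∩ ovr R)) B' u v ↔ Lk (sX X) B u v) := by
    intro B B' hB hBA u v
    refine (lk_congr (fun a b => ?_) hB).symm
    constructor
    · rintro ⟨h1, h2, h3⟩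
      exact ⟨(de_loc hd hH' hA (hBA a h2)).1 h1, (hB a).1 h2, (hB b).1 h3⟩
    · rintro ⟨h1, h2, h3⟩
      have h2' := (hB a).2 h2
      exact ⟨(de_loc hd hH' hA (hBA a h2')).2 h1, h2', (hB b).2 h3⟩
  unfold TB
  have k1 := key {s | s ∈ bX X ∧ s ∈ A} {s | s ∈ bX (X ∩ ovr R) ∧ s ∈ A}
    (fun u => by
      constructor
      · rintro ⟨h1, h2⟩; exact ⟨(mB u h2).1 h1, h2⟩
      · rintro ⟨h1, h2⟩; exact ⟨(mB u h2).2 h1, h2⟩) (fun u h => h.2)
  have k2 := key {s | (s ∈ sX X ∧ s ∉ bX X) ∧ s ∈ A}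
    {s | (s ∈ sX (X ∩ ovr R) ∧ s ∉ bX (X ∩ ovr R)) ∧ s ∈ A}
    (fun u => by
      constructor
      · rintro ⟨⟨h1, h3⟩, h2⟩; exact ⟨⟨(mS u h2).1 h1, fun h => h3 ((mB u h2).2 h)⟩, h2⟩
      · rintro ⟨⟨h1, h3⟩, h2⟩; exact ⟨⟨(mS u h2).2 h1, fun h => h3 ((mB u h2).1 h)⟩, h2⟩)
    (fun u h => h.2)
  constructor
  · rintro ⟨-, p, q, hp, hq, h⟩
    exact ⟨hX, p, q, (hSt p).1 hp, (hEn q).1 hq, fun hb => (k1 _ _).1 (h.1 hb), (k2 _ _).1 h.2⟩
  · rintro ⟨-, p, q, hp, hq, h⟩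
    exact ⟨hY, p, q, (hSt p).2 hp, (hEn q).2 hq, fun hb => (k1 _ _).2 (h.1 hb), (k2 _ _).2 h.2⟩

end

/-- **measurability for neck gates** -/
theorem TB_neck_fme {b : Bool} {A Q Q' : Set ℂ} (hA : MeasurableSet A) (hQ : MeasurableSet Q)
    (hQ' : MeasurableSet Q') (g g' : GPar) : FMe (TB b A (LG g Q) (LG g' Q')) := by
  have h := TB_fme (b := b) (UC_meas (UT_meas hA hA hQ hQ' g g')) (RT_meas g g')
    (UT_LG (W := A) (A := A) (Q' := Q') g g') (UT_LG' (W := A) (A := A) (Q := Q) g g')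
    {Sum.inl 0}
  rw [UC_single] at h
  exact h

/-- **the existence of the gate dart is measurable** -/
theorem LGx_fme {Q : Set ℂ} (hQ : MeasurableSet Q) (g : GPar) :
    FMe fun X => X.Finite ∧ ∃ p, LG g Q X p := by
  have h : FinMeas fun X : Set (ℂ × Bool) => X.Finite ∧ ∃ p, LG g Q X p := by
    refine finMeas_iso (UC_meas (UT_meas hQ hQ hQ hQ g g)) (RT_meas g g)
      (P := fun X => X.Finite ∧ ∃ p, LG g Q X p) ?_
    rintro X X' hX hX' e he ⟨-, p, hp⟩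
    exact ⟨hX', mp e p, (UT_LG (W := Q) (A := Q) (Q' := Q) g g).tr X X' hX hX' e he p hp⟩
  exact h

section mv

variable {φ : ℂ ≃ ℂ} {c : ℂ} {X : Set (ℂ × Bool)} {b : Bool}

theorem TB_mv_imp {X : Set (ℂ × Bool)} {φ : ℂ ≃ ℂ} {c : ℂ} (h : Mo φ c) {A A' : Set ℂ}
    {St En St' En' : Set (ℂ × Bool) → ℂ × ℂ → Prop} (hA : ∀ s, φ s ∈ A' ↔ s ∈ A)
    (hSt : OnPs St) (hEn : OnPs En) (h1 : ∀ p, St X p → St' (mvX φ X) (mp φ p))
    (h2 : ∀ p, En X p → En' (mvX φ X) (mp φ p)) (ht : TB b A St En X) :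
    TB b A' St' En' (mvX φ X) := by
  obtain ⟨hX, p, q, hp, hq, ht⟩ := ht
  exact ⟨hX.image _, mp φ p, mp φ q, h1 p hp, h2 q hq,
    iso_tb hX (hX.image _) (piso_mv h) (fun s _ hs => (hA s).2 hs) (hSt X p hp).1 (hSt X p hp).2
      (hEn X q hq).1 (hEn X q hq).2 ht⟩

/-- **covariance of the tile event** -/
theorem TB_mv (h : Mo φ c) {A A' : Set ℂ} {St En St' En' : Set (ℂ × Bool) → ℂ × ℂ → Prop}
    (hA : ∀ s, φ s ∈ A' ↔ s ∈ A) (hSt : OnPs St) (hEn : OnPs En) (hSt' : OnPs St')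
    (hEn' : OnPs En') (h1 : ∀ p, St' (mvX φ X) (mp φ p) ↔ St X p)
    (h2 : ∀ p, En' (mvX φ X) (mp φ p) ↔ En X p) :
    TB b A' St' En' (mvX φ X) ↔ TB b A St En X := by
  refine ⟨fun ht => ?_, TB_mv_imp h hA hSt hEn (fun p => (h1 p).2) fun p => (h2 p).2⟩
  have h3 := TB_mv_imp (X := mvX φ X) (St' := St) (En' := En) (A' := A) (mo_symm h)
    (fun s => by rw [← hA, φ.apply_symm_apply]) hSt' hEn' (fun p hp => by
      rw [mvX_symm]
      rw [← h1, mp_symm']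
      exact hp) (fun p hp => by
      rw [mvX_symm]
      rw [← h2, mp_symm']
      exact hp) ht
  rwa [mvX_symm] at h3

theorem TB_gate_mv (h : Mo φ c) (g g' : GPar) {A A' Q Q' Q1 Q1' : Set ℂ}
    (hA : ∀ s, φ s ∈ A' ↔ s ∈ A) (hQ : ∀ s, φ s ∈ Q' ↔ s ∈ Q)
    (hQ1 : ∀ s, φ s ∈ Q1' ↔ s ∈ Q1) :
    TB b A' (LG (g.mv φ c) Q') (LG (g'.mv φ c) Q1') (mvX φ X) ↔
      TB b A (LG g Q) (LG g' Q1) X :=
  TB_mv h hA (LG_onPs g Q) (LG_onPs g' Q1) (LG_onPs _ _) (LG_onPs _ _)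
    (fun p => LG_mv h g hQ p) fun p => LG_mv h g' hQ1 p

/-- two motions -/
theorem mv_mv' (g : GPar) (φ ψ : ℂ → ℂ) (c d : ℂ) :
    (g.mv φ c).mv ψ d = g.mv (fun z => ψ (φ z)) (d * c) := by
  unfold GPar.mv
  simp only [mul_assoc]

end mv

/-! ### frames -/

/-- an affine frame is a rigid motion -/
theorem mo_aff (v u : ℂ) (hu : ‖u‖ = 1) : Mo (Fr.aff v u hu).e.toEquiv u :=
  ⟨hu, fun z w => by
    show (Fr.aff v u hu).e z - (Fr.aff v u hu).e w = u * (z - w)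
    rw [Fr.aff_apply, Fr.aff_apply]
    ring⟩

theorem mo_nxt (h : ℝ) (t : Tn) : Mo (nxt h t).e.toEquiv (rot t) := mo_aff _ _ _

theorem mo_frm {M : ℕ} {W : ℤ → ℤ × ℤ} (P : FPath M W) (h : ℝ) (a : ℤ) :
    Mo (frm P h a).e.toEquiv (ge W a) := mo_aff _ _ _

/-- frames are isometric -/
theorem mo_symm_norm {f : Fr} {c : ℂ} (hf : Mo f.e.toEquiv c) (z w : ℂ) :
    ‖f.e.symm z - f.e.symm w‖ = ‖z - w‖ := by
  have h := hf.sub (f.e.symm z) (f.e.symm w)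
  have h1 : f.e.toEquiv (f.e.symm z) = z := f.e.apply_symm_apply z
  have h2 : f.e.toEquiv (f.e.symm w) = w := f.e.apply_symm_apply w
  rw [h1, h2] at h
  rw [h, norm_mul, hf.ne, one_mul]

/-- points near the tile region are in the enlarged region -/
theorem WR_near {A B A' B' r h : ℝ} (t : Tn) (hA : A + r ≤ A') (hB : B + r ≤ B')
    {w s : ℂ} (hw : w ∈ WR A B h t) (hs : ‖s - w‖ ≤ r) : s ∈ WR A' B' h t := by
  have key : ∀ {z z' : ℂ}, ‖z' - z‖ ≤ r → |z'.re - z.re| ≤ r ∧ |z'.im - z.im| ≤ r := by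
    intro z z' hz
    have h1 := (Complex.abs_re_le_norm (z' - z)).trans hz
    have h2 := (Complex.abs_im_le_norm (z' - z)).trans hz
    rw [Complex.sub_re] at h1
    rw [Complex.sub_im] at h2
    exact ⟨h1, h2⟩
  rcases hw with ⟨⟨h1, h2⟩, h3⟩ | ⟨⟨h1, h2⟩, h3⟩
  · obtain ⟨k1, k2⟩ := key hs
    rw [abs_le] at k1 k2
    rw [abs_lt] at h3
    refine Or.inl ⟨⟨by linarith, by linarith⟩, ?_⟩
    rw [abs_lt]
    constructor <;> linarith
  · have hs' : ‖(nxt h t).e.symm s - (nxt h t).e.symm w‖ ≤ r := by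
      rw [mo_symm_norm (mo_nxt h t)]
      exact hs
    obtain ⟨k1, k2⟩ := key hs'
    rw [abs_le] at k1 k2
    rw [abs_lt] at h3
    refine Or.inr ⟨⟨by linarith, by linarith⟩, ?_⟩
    rw [abs_lt]
    constructor <;> linarith

/-! ### the template -/

/-- data of the template -/
structure DT where
  /-- the gate -/
  g : GPar
  /-- sizes of the tile region (links) -/
  A : ℝ
  B : ℝ
  /-- sizes of the enlarged tile region (points) -/
  A' : ℝ
  B' : ℝ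
  /-- tile side -/
  h : ℝ
  /-- additional event of the gate -/
  Gd : Cf → Prop
  Gm : FinMeas Gd

/-- indicator -/
def ind (P : Prop) : ℝ≥0∞ := if P then 1 else 0

theorem ind_le (P : Prop) : ind P ≤ 1 := by unfold ind; split_ifs <;> simp

theorem ind_ne {P : Prop} : ind P ≠ 0 ↔ P := by unfold ind; split_ifs with h <;> simp [h]

theorem ind_of {P : Prop} (h : P) : ind P = 1 := by unfold ind; rw [if_pos h]

theorem ind_fm {P : Cf → Prop} (h : FinMeas P) : FinMeas fun X => ind (P X) := fun n =>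
  Measurable.ite (measurableSet_setOfPred.2 (h n)) measurable_const measurable_const

theorem fm_interP {P : Cf → Prop} (h : FinMeas P) {D : Set ℂ} (hD : MeasurableSet D) :
    FinMeas fun X => P (X ∩ ovr D) := by
  intro n
  have h1 := fm_inter (ind_fm h) hD n
  have h2 : MeasurableSet {z : Fin n → ℂ × Bool | ind (P (range z ∩ ovr D)) ≠ 0} :=
    (h1 (measurableSet_singleton (0 : ℝ≥0∞))).compl
  simp only [ind_ne] at h2
  exact measurableSet_setOfPred.1 h2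

theorem fm_and {P Q : Cf → Prop} (h : FinMeas P) (h' : FinMeas Q) :
    FinMeas fun X => P X ∧ Q X := fun n => (h n).and (h' n)

theorem inter_ovr2 {X : Cf} {R : Set ℂ} : X ∩ ovr R ∩ ovr R = X ∩ ovr R := by
  rw [inter_assoc, inter_self]

/-! ### goodness of a gate -/

/-- goodness: the extensions into `CR`, `CL` have conditional probability at least `a` -/
def gd (ε : ℝ) (a : ℝ≥0∞) (CR CL : Set ℂ) (RH LH : Cf → Prop) (X : Cf) : Prop :=
  a ≤ Rs ε CR (fun X => ind (RH X)) X ∧ a ≤ Rs ε CL (fun X => ind (LH X)) X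

section gd

variable {ε : ℝ} {a : ℝ≥0∞} {CR CL : Set ℂ} {RH LH : Cf → Prop}

theorem gd_fm (hε : 0 < ε) (hR : MeasurableSet CR) (bR : Bornology.IsBounded CR)
    (hL : MeasurableSet CL) (bL : Bornology.IsBounded CL) (fR : FinMeas RH) (fL : FinMeas LH) :
    FinMeas (gd ε a CR CL RH LH) := fun n =>
  (measurableSet_setOfPred.1 (measurableSet_le measurable_const
    (Rs_meas hε hR bR (ind_fm fR) n))).and
  (measurableSet_setOfPred.1 (measurableSet_le measurable_const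
    (Rs_meas hε hL bL (ind_fm fL) n)))

theorem gd_cut {Q : Set ℂ} (hε : 0 < ε) (hR : MeasurableSet CR) (bR : Bornology.IsBounded CR)
    (hL : MeasurableSet CL) (bL : Bornology.IsBounded CL) (lR : LocalOn (Q ∪ CR) RH)
    (lL : LocalOn (Q ∪ CL) LH) (X : Cf) :
    gd ε a CR CL RH LH (X ∩ ovr Q) ↔ gd ε a CR CL RH LH X := by
  have key : ∀ {C : Set ℂ} {H : Cf → Prop}, MeasurableSet C → Bornology.IsBounded C →
      LocalOn (Q ∪ C) H → Rs ε C (fun X => ind (H X)) (X ∩ ovr Q) =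
        Rs ε C (fun X => ind (H X)) X := by
    intro C H hC bC lH
    have h1 : LocalOn (Q ∪ C) fun X => ind (H X) := by
      intro S
      have h2 := lH S
      show ind (H S) = ind (H (S ∩ {p | p.1 ∈ Q ∪ C}))
      rw [← h2]
    have h2 := Rs_local hε hC bC h1
    have h3 : LocalOn Q (Rs ε C fun X => ind (H X)) := by
      refine IndLocx279.LocalOn.mono ?_ h2
      rintro z ⟨h4 | h4, h5⟩
      · exact h4
      · exact absurd h4 h5
    exact (h3 X).symm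
  unfold gd
  rw [key hR bR lR, key hL bL lL]

end gd

namespace DT

variable (P : DT)

/-- the gate box -/
def Q : Set ℂ := WQ P.A' P.B' P.h

/-- the next gate -/
def gn (t : Tn) : GPar := P.g.mv (nxt P.h t).e (rot t)

/-- the next gate box -/
def Qn (t : Tn) : Set ℂ := (nxt P.h t).e.symm ⁻¹' P.Q

/-- the region of the tile without its gate boxes -/
def D (t : Tn) : Set ℂ := WD P.A' P.B' P.h t

/-- everything the tile event looks at -/
def Z (t : Tn) : Set ℂ := (P.Q ∪ P.Qn t) ∪ P.D t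

/-- event of the gate -/
def GA (X : Cf) : Prop := ((X ∩ ovr P.Q).Finite ∧ ∃ p, LG P.g P.Q (X ∩ ovr P.Q) p) ∧
  P.Gd (X ∩ ovr P.Q)

/-- event of the tile -/
def TE (t : Tn × Bool) (X : Cf) : Prop :=
  TB t.2 (WR P.A P.B P.h t.1) (LG P.g P.Q) (LG (P.gn t.1) (P.Qn t.1)) (X ∩ ovr (P.Z t.1))

/-- weight of the gate -/
def wA (X : Cf) : ℝ≥0∞ := ind (P.GA X)

/-- weight of the tile -/
def wE (t : Tn × Bool) (X : Cf) : ℝ≥0∞ := ind (P.TE t X)

theorem Q_meas : MeasurableSet P.Q := WQ_meas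

theorem Q_bdd : Bornology.IsBounded P.Q := WQ_bdd

theorem Qn_meas (t : Tn) : MeasurableSet (P.Qn t) := (nxt P.h t).e.symm.measurable P.Q_meas

theorem Qn_bdd (t : Tn) : Bornology.IsBounded (P.Qn t) := (nxt P.h t).bdd' _ P.Q_bdd

theorem D_meas (t : Tn) : MeasurableSet (P.D t) := WD_meas t

theorem D_bdd (t : Tn) : Bornology.IsBounded (P.D t) := WD_bdd t

theorem Z_meas (t : Tn) : MeasurableSet (P.Z t) := (P.Q_meas.union (P.Qn_meas t)).union (P.D_meas t)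

theorem D_disj (t : Tn) : Disjoint (P.Q ∪ P.Qn t) (P.D t) := disjoint_sdiff_right

theorem WR_Z (t : Tn) : WR P.A' P.B' P.h t ⊆ P.Z t := WR_sub t

/-- points near the tile region are in `Z` -/
theorem near_Z {r : ℝ} (hA : P.A + r ≤ P.A') (hB : P.B + r ≤ P.B') (t : Tn) {w s : ℂ}
    (hw : w ∈ WR P.A P.B P.h t) (hs : ‖s - w‖ ≤ r) : s ∈ P.Z t :=
  P.WR_Z t (WR_near t hA hB hw hs)

theorem wA_local : LocalOn P.Q P.wA := by
  intro S
  show ind (P.GA S) = ind (P.GA (S ∩ ovr P.Q))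
  unfold GA
  rw [inter_ovr2]

theorem wA_fm : FinMeas P.wA := by
  refine ind_fm (P := P.GA) (fm_and ?_ ?_)
  · have h1 : FinMeas fun X : Cf => X.Finite ∧ ∃ p, LG P.g P.Q X p := LGx_fme P.Q_meas P.g
    exact fm_interP h1 P.Q_meas
  · exact fm_interP P.Gm P.Q_meas

theorem wE_local (t : Tn × Bool) : LocalOn ((P.Q ∪ P.Qn t.1) ∪ P.D t.1) (P.wE t) := by
  intro S
  show ind (P.TE t S) = ind (P.TE t (S ∩ ovr (P.Z t.1)))
  unfold TE
  rw [inter_ovr2]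

theorem wE_fm (t : Tn × Bool) : FinMeas (P.wE t) := by
  refine ind_fm (P := P.TE t) ?_
  have h1 : FinMeas (TB t.2 (WR P.A P.B P.h t.1) (LG P.g P.Q) (LG (P.gn t.1) (P.Qn t.1))) :=
    TB_neck_fme (WR_meas _) P.Q_meas (P.Qn_meas _) _ _
  exact fm_interP h1 (P.Z_meas _)

/-- **the template** -/
def tpl (ε : ℝ) (hε : 0 < ε) (c : ℝ≥0∞) (c0 : c ≠ 0) (c1 : c ≠ ∞)
    (pos : ∀ t : Tn × Bool, ∀ S : Cf, S.Finite → P.wA S ≠ 0 → tr (nxt P.h t.1).e P.wA S ≠ 0 →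
      c ≤ Rs ε (P.D t.1) (P.wE t) S) : Tpl ε (Tn × Bool) where
  Q := P.Q
  A := P.wA
  D t := P.D t.1
  E := P.wE
  nx t := nxt P.h t.1
  c := c
  eps := hε
  c0 := c0
  c1 := c1
  Qm := P.Q_meas
  Qb := P.Q_bdd
  Dm t := P.D_meas t.1
  Db t := P.D_bdd t.1
  Al := P.wA_local
  Am := P.wA_fm
  A1 S := ind_le _
  El := P.wE_local
  Em := P.wE_fm
  E1 t S := ind_le _
  pos := pos

/-- **the template without the lower bound** (978's forced events) -/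
def raw (ε : ℝ) (hε : 0 < ε) (c : ℝ≥0∞) (c0 : c ≠ 0) (c1 : c ≤ 1) : Raw ε (Tn × Bool) where
  Q := P.Q
  A := P.wA
  D t := P.D t.1
  E := P.wE
  nx t := nxt P.h t.1
  c := c
  eps := hε
  c0 := c0
  c1 := c1
  Qm := P.Q_meas
  Qb := P.Q_bdd
  Dm t := P.D_meas t.1
  Db t := P.D_bdd t.1
  Al := P.wA_local
  Am := P.wA_fm
  A1 S := ind_le _
  El := P.wE_local
  Em := P.wE_fm
  E1 t S := ind_le _

/-! ### the events in a frame -/

/-- **gate event** (finite configurations) -/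
theorem A_ne {S : Cf} (hS : S.Finite) :
    P.wA S ≠ 0 ↔ (∃ p, LG P.g P.Q S p) ∧ P.Gd (S ∩ ovr P.Q) := by
  unfold wA
  rw [ind_ne]
  unfold GA
  have h1 : (S ∩ ovr P.Q).Finite := hS.subset inter_subset_left
  simp only [h1, true_and]
  refine and_congr_left fun _ => exists_congr fun p => LG_cut subset_rfl p

/-- **tile event** -/
theorem E_ne {t : Tn × Bool} {S : Cf} : P.wE t S ≠ 0 ↔
    TB t.2 (WR P.A P.B P.h t.1) (LG P.g P.Q) (LG (P.gn t.1) (P.Qn t.1)) (S ∩ ovr (P.Z t.1)) := by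
  unfold wE
  rw [ind_ne]
  rfl

/-- the tile event of a dense configuration is the tile event of the full configuration -/
theorem TB_Z {t : Tn × Bool} {S : Cf} (hS : S.Finite) {d : ℝ} (hd : 0 < d)
    (hA : P.A + 2 * d ≤ P.A') (hB : P.B + 2 * d ≤ P.B')
    (hH : Hol (ps S) (WR P.A P.B P.h t.1) d) :
    TB t.2 (WR P.A P.B P.h t.1) (LG P.g P.Q) (LG (P.gn t.1) (P.Qn t.1)) (S ∩ ovr (P.Z t.1)) ↔
      TB t.2 (WR P.A P.B P.h t.1) (LG P.g P.Q) (LG (P.gn t.1) (P.Qn t.1)) S :=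
  TB_cut hS hd hH (fun w hw s hs => P.near_Z hA hB t.1 hw hs.le)
    (fun p => LG_cut (fun z hz => Or.inl (Or.inl hz)) p)
    (fun p => LG_cut (fun z hz => Or.inl (Or.inr hz)) p)

section frame

variable {f : Fr} {c : ℂ} {S : Cf}

theorem symm_mem (f : Fr) (Q : Set ℂ) (s : ℂ) :
    f.e.toEquiv s ∈ f.e.symm ⁻¹' Q ↔ s ∈ Q := by
  show f.e.symm (f.e s) ∈ Q ↔ s ∈ Q
  rw [f.e.symm_apply_apply]

theorem mvX_self (f : Fr) (S : Cf) : mvX f.e.toEquiv (mv f.e.symm S) = S :=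
  mv_mv_symm f.e S

/-- the selected dart in a frame -/
theorem LG_fr (hf : Mo f.e.toEquiv c) (g : GPar) (Q : Set ℂ) (p : ℂ × ℂ) :
    LG (g.mv f.e c) (f.e.symm ⁻¹' Q) S (mp f.e p) ↔ LG g Q (mv f.e.symm S) p := by
  have h := LG_mv hf g (symm_mem f Q) (X := mv f.e.symm S) p
  rw [mvX_self] at h
  exact h

/-- the tile event in a frame -/
theorem TB_fr (hf : Mo f.e.toEquiv c) (b : Bool) (g g' : GPar) (A Q Q1 : Set ℂ) :
    TB b (f.e.symm ⁻¹' A) (LG (g.mv f.e c) (f.e.symm ⁻¹' Q)) (LG (g'.mv f.e c) (f.e.symm ⁻¹' Q1))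
      S ↔ TB b A (LG g Q) (LG g' Q1) (mv f.e.symm S) := by
  have h := TB_gate_mv (b := b) hf g g' (symm_mem f A) (symm_mem f Q) (symm_mem f Q1)
    (X := mv f.e.symm S)
  rw [mvX_self] at h
  exact h

theorem mv_inter (f : Fr) (S : Cf) (Q : Set ℂ) :
    mv f.e.symm S ∩ ovr Q = mv f.e.symm (S ∩ ovr (f.e.symm ⁻¹' Q)) := by
  have h := mvX_inter (φ := f.e.symm.toEquiv) (X := S) (Q := f.e.symm ⁻¹' Q) (Q' := Q)
    (fun s => Iff.rfl)
  exact h

/-- **gate event in a frame** -/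
theorem trA_ne (hf : Mo f.e.toEquiv c) (hS : S.Finite) : tr f.e P.wA S ≠ 0 ↔
    (∃ p, LG (P.g.mv f.e c) (f.e.symm ⁻¹' P.Q) S p) ∧
      P.Gd (mv f.e.symm (S ∩ ovr (f.e.symm ⁻¹' P.Q))) := by
  unfold tr
  rw [P.A_ne (mv_finite _ hS), mv_inter]
  refine and_congr_left fun _ => ?_
  constructor
  · rintro ⟨p, hp⟩
    exact ⟨mp f.e p, (LG_fr hf P.g P.Q p).2 hp⟩
  · rintro ⟨p, hp⟩
    refine ⟨mp f.e.symm p, (LG_fr hf P.g P.Q _).1 ?_⟩
    have e : mp f.e (mp f.e.symm p) = p := mp_symm' (φ := f.e.toEquiv) p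
    rw [e]
    exact hp

/-- **tile event in a frame** -/
theorem trE_ne (hf : Mo f.e.toEquiv c) {t : Tn × Bool} : tr f.e (P.wE t) S ≠ 0 ↔
    TB t.2 (f.e.symm ⁻¹' WR P.A P.B P.h t.1) (LG (P.g.mv f.e c) (f.e.symm ⁻¹' P.Q))
      (LG ((P.gn t.1).mv f.e c) (f.e.symm ⁻¹' P.Qn t.1)) (S ∩ ovr (f.e.symm ⁻¹' P.Z t.1)) := by
  unfold tr
  rw [P.E_ne, mv_inter, TB_fr hf]

/-- the tile event of a dense configuration, in a frame -/
theorem trE_ne' (hf : Mo f.e.toEquiv c) {t : Tn × Bool} (hS : S.Finite) {d : ℝ} (hd : 0 < d)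
    (hA : P.A + 2 * d ≤ P.A') (hB : P.B + 2 * d ≤ P.B')
    (hH : Hol (ps S) (f.e.symm ⁻¹' WR P.A P.B P.h t.1) d) : tr f.e (P.wE t) S ≠ 0 ↔
    TB t.2 (f.e.symm ⁻¹' WR P.A P.B P.h t.1) (LG (P.g.mv f.e c) (f.e.symm ⁻¹' P.Q))
      (LG ((P.gn t.1).mv f.e c) (f.e.symm ⁻¹' P.Qn t.1)) S := by
  rw [P.trE_ne hf]
  refine TB_cut hS hd hH (fun w hw s hs => ?_) (fun p => LG_cut (fun z hz => Or.inl (Or.inl hz)) p)
    (fun p => LG_cut (fun z hz => Or.inl (Or.inr hz)) p)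
  refine P.near_Z (r := 2 * d) hA hB t.1 hw ?_
  rw [mo_symm_norm hf]
  exact hs.le

end frame

end DT

end Crest.Agent.R143.TplIx204
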