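import Crest.Agent.R143.GPm_653
import Crest.Agent.R143.TplI_204

/-!
# R143 (helper653), box R1 (C): the lower bound of the tiles given good gates, and `P(good) ≥ b`

* `wE_mono` : full tile implies white tile
* `QTile P t RH LH a p S T` : quenched tile bound for the fresh positions `T` (form of 120's `TileQ2`)
* `aepos_t` : from `QTile` on a set of samples of probability `≥ 1 - d`: almost surely good gates give
  `p (a² - d) ≤ Rs ε (P.D t) (P.wE (t, b)) (cfg ε ω)`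
* `aepos` : 978's `Raw.AePos`
* `mass` : `b ≤ P (P.wA ≠ 0)`
-/

set_option autoImplicit false

noncomputable section

open scoped Classical

namespace Crest.Agent.R143.Posx653

open MeasureTheory Set ProbabilityTheory
open Crest.ProbabilityR.Voronoi
open Crest.Agent.R143.B0x346 (GP)
open Crest.Agent.R143.PP0x831 Crest.Agent.R143.Poisx304 Crest.Agent.R143.Janx304
open Crest.Agent.R143.IndLocx279 Crest.Agent.R143.IndLoc2x279 Crest.Agent.R143.IndLoc3x279
open Crest.Agent.R143.IndLoc4x279 Crest.Agent.R143.PWx978 Crest.Agent.R143.Tplx978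
open Crest.Agent.R143.Fairx653 Crest.Agent.R143.GPmx653 Crest.Agent.R143.TplIx204
open Crest.Agent.R143.PthFx765 Crest.Agent.R143.WLocx713
open Crest.Agent.R143.Harx315 (pr nb)
open scoped ENNReal

variable {ε : ℝ} {P : DT} {t : Tn} {RH LH K : Cf → Prop} {CR CL : Set ℂ} {a b p : ℝ}

/-! ## white tiles -/

theorem TB_mono {A : Set ℂ} {St En : Set (ℂ × Bool) → ℂ × ℂ → Prop} {X : Set (ℂ × Bool)} {b : Bool}
    (h : TB true A St En X) : TB b A St En X :=
  TB_of (TB_true.1 h)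

theorem wE_mono (b : Bool) (X : Cf) : P.wE (t, true) X ≤ P.wE (t, b) X := by
  show ind (P.TE (t, true) X) ≤ ind (P.TE (t, b) X)
  unfold ind
  by_cases h : P.TE (t, true) X
  · have h' : P.TE (t, b) X := TB_mono h
    rw [if_pos h, if_pos h']
  · rw [if_neg h]
    exact zero_le

/-! ## the tile -/

/-- existence of the gate dart -/
def KG (P : DT) (X : Cf) : Prop := (X ∩ ovr P.Q).Finite ∧ ∃ p, LG P.g P.Q (X ∩ ovr P.Q) p

lemma KG_local : LocalOn P.Q (KG P) := by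
  intro S
  show KG P S = KG P (S ∩ ovr P.Q)
  unfold KG
  rw [inter_ovr2]

lemma KG_fm : FinMeas (KG P) := by
  have h1 : FinMeas fun X : Cf => X.Finite ∧ ∃ p, LG P.g P.Q X p := LGx_fme P.Q_meas P.g
  exact fm_interP h1 P.Q_meas

/-- quenched tile bound: `S` = configuration of the gates (both gate darts exist), `T` = fresh
positions -/
def QTile (P : DT) (t : Tn) (RH LH : Cf → Prop) (a p : ℝ) (S : Cf) (T : Finset ℂ) : Prop :=
  KG P S → tr (nxt P.h t).e (KG P) S → a ≤ pr T (fun τ => RH (S ∪ clr T τ)) → a ≤ pr T (fun τ => tr (nxt P.h t).e LH (S ∪ clr T τ)) →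
    p ≤ pr T fun τ => P.TE (t, true) (S ∪ clr T τ)

lemma ind_local {B : Set ℂ} (h : LocalOn B K) : LocalOn B fun X => ind (K X) :=
  IndLocx279.LocalOn.comp h ind

lemma fs_fin {A : Set ℂ} (h : A.Finite) : (fs A : Set ℂ) = A := by
  ext z
  rw [Finset.mem_coe, mem_fs h]

lemma cavE_one {f : Cf → ℝ≥0∞} {T : Finset ℂ} (h : ∀ τ, τ ⊆ T → 1 ≤ f (clr T τ)) :
    1 ≤ cavE f T := by
  unfold cavE
  calc (1 : ℝ≥0∞) = (2⁻¹ : ℝ≥0∞) ^ T.card * ∑ τ ∈ T.powerset, 1 := by
        rw [Finset.sum_const, Finset.card_powerset, nsmul_eq_mul, mul_one]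
        push_cast
        rw [← mul_pow, ENNReal.inv_mul_cancel (by norm_num) (by norm_num), one_pow]
    _ ≤ _ := mul_le_mul_right (Finset.sum_le_sum fun τ hτ => h τ (Finset.mem_powerset.1 hτ)) _

/-- **the lower bound of a tile given good gates, almost surely** -/
theorem aepos_t (hε : 0 < ε) (hCR : MeasurableSet CR) (hCL : MeasurableSet CL)
    (hR : CR ⊆ P.D t) (hL : (nxt P.h t).e.symm ⁻¹' CL ⊆ P.D t) (hCLb : Bornology.IsBounded CL)
    (hd : Disjoint CR ((nxt P.h t).e.symm ⁻¹' CL))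
    (lR : LocalOn (P.Q ∪ CR) RH) (lL : LocalOn (P.Q ∪ CL) LH) (fR : FinMeas RH) (fL : FinMeas LH)
    (hGd : ∀ X, P.Gd X → gd ε (ENNReal.ofReal a + ENNReal.ofReal a) CR CL RH LH X)
    (hp : p ≤ 1) {Gm : Set Sample} {d : ℝ≥0∞} (hGm : sampleLaw Gmᶜ ≤ d)
    (hq : ∀ ω ∈ Gm, ∀ S : Cf, S.Finite → S ⊆ ovr (P.Q ∪ P.Qn t) → Sc S →
      GP (psn S ∪ (points ε ω ∩ P.D t)) → QTile P t RH LH a p S (fs (points ε ω ∩ P.D t))) :
    ∀ᵐ ω ∂sampleLaw, P.wA (cfg ε ω) ≠ 0 → tr (nxt P.h t).e P.wA (cfg ε ω) ≠ 0 →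
      ENNReal.ofReal p * (ENNReal.ofReal a * ENNReal.ofReal a - d) ≤
        Rs ε (P.D t) (P.wE (t, true)) (cfg ε ω) := by
  set f := nxt P.h t with hf
  set a' := ENNReal.ofReal a with ha'
  set CL' : Set ℂ := f.e.symm ⁻¹' CL with hCL'
  have hCL'm : MeasurableSet CL' := f.e.symm.measurable hCL
  have hCL'b : Bornology.IsBounded CL' := f.bdd' _ hCLb
  have hCRb : Bornology.IsBounded CR := (P.D_bdd t).subset hR
  have dD : Disjoint (P.Q ∪ P.Qn t) (P.D t) := P.D_disj t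
  have dQ : Disjoint P.Q (P.D t) := Disjoint.mono_left subset_union_left dD
  have dQn : Disjoint (P.Qn t) (P.D t) := Disjoint.mono_left subset_union_right dD
  have l1 : LocalOn (P.Q ∪ CR) fun X => ind (RH X) := ind_local lR
  have l2 : LocalOn (P.Qn t ∪ CL') (tr f.e fun X => ind (LH X)) :=
    tr_local f.e (ind_local lL)
  have m1 : FinMeas fun X => ind (RH X) := ind_fm fR
  have m2' : FinMeas fun X => ind (LH X) := ind_fm fL
  have m2 : FinMeas (tr f.e fun X => ind (LH X)) := tr_fm f.e m2'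
  set A : Cf → Prop := fun S => (KG P S ∧ tr f.e (KG P) S) ∧
    a' + a' ≤ Rs ε CR (fun X => ind (RH X)) S ∧
    a' + a' ≤ Rs ε CL' (tr f.e fun X => ind (LH X)) S with hA
  have lK : LocalOn (P.Qn t) (tr f.e (KG P)) := tr_local f.e KG_local
  have dQCR : Disjoint P.Q CR := Disjoint.mono_right hR dQ
  have dQCL : Disjoint (P.Qn t) CL' := Disjoint.mono_right hL dQn
  have hBm : MeasurableSet (P.Q ∪ P.Qn t) := P.Q_meas.union (P.Qn_meas t)
  have hBb : Bornology.IsBounded (P.Q ∪ P.Qn t) := P.Q_bdd.union (P.Qn_bdd t)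
  have hZb : Bornology.IsBounded (P.Z t) := hBb.union (P.D_bdd t)
  have key : ∀ᵐ ω ∂sampleLaw, A (cfg ε ω) →
      ENNReal.ofReal p * (a' * a' - d) ≤ Rs ε (P.D t) (P.wE (t, true)) (cfg ε ω) := by
    refine force_of (D := P.Z t) hε hBm hBb (P.Z_meas t) hZb (P.D_meas t) (P.D_bdd t) dD
      subset_rfl (P.wE_local (t, true)) (P.wE_fm (t, true)) ?_ ?_
    · intro S S' hSS h
      have e1 : S ∩ ovr P.Q = S' ∩ ovr P.Q := by
        have := congrArg (fun X => X ∩ ovr P.Q) hSS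
        simp only [inter_assoc] at this
        have e : ovr (P.Q ∪ P.Qn t) ∩ ovr P.Q = ovr P.Q := by
          ext q; simp only [ovr, mem_inter_iff, mem_ofPred_eq, mem_union]; tauto
        rwa [e] at this
      have e2 : S ∩ ovr (P.Qn t) = S' ∩ ovr (P.Qn t) := by
        have := congrArg (fun X => X ∩ ovr (P.Qn t)) hSS
        simp only [inter_assoc] at this
        have e : ovr (P.Q ∪ P.Qn t) ∩ ovr (P.Qn t) = ovr (P.Qn t) := by
          ext q; simp only [ovr, mem_inter_iff, mem_ofPred_eq, mem_union]; tauto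
        rwa [e] at this
      have e3 : KG P S = KG P S' := by
        rw [KG_local S, KG_local S']
        exact congrArg (KG P) e1
      have e4 : tr f.e (KG P) S = tr f.e (KG P) S' := by
        rw [lK S, lK S']
        exact congrArg (tr f.e (KG P)) e2
      exact ⟨⟨e3 ▸ h.1.1, e4 ▸ h.1.2⟩, (Rs_local' l1 e1 dQCR) ▸ h.2.1,
        (Rs_local' l2 e2 dQCL) ▸ h.2.2⟩
    · intro S hS hSB hSc hAS
      have hm : FinMeas fun X => P.wE (t, true) X + gpE (P.Z t) X := fun n =>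
        (P.wE_fm (t, true) n).add (gpE_fm (P.Z_meas t) n)
      refine tile' (B1 := P.Q) (B2 := P.Qn t) hε (P.D_meas t) (P.D_bdd t) hCR hCL'm hd hR hL dQ dQn
        l1 l2 hm m1 m2 (fun X => ind_le _) (fun X => ind_le _) hS hAS.2.1 hAS.2.2 hGm ?_
      intro ω hω h1 h2
      set A0 : Set ℂ := points ε ω ∩ P.D t with hA0
      set T : Finset ℂ := fs A0 with hT
      have hfin : A0.Finite := pts_fin hε (P.D_bdd t) ω
      have eS : S ∩ ovr (P.D t)ᶜ = S := by
        rw [inter_eq_left]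
        intro q hq hq'
        exact Set.disjoint_left.1 dD (hSB hq) hq'
      have e1 : qn (P.D t) (fun X => ind (RH X)) S A0 =
          ENNReal.ofReal (pr T fun τ => RH (S ∪ clr T τ)) := by
        have := qn_pr (C := P.D t) RH S A0
        rw [eS] at this
        exact this
      have e2 : qn (P.D t) (tr f.e fun X => ind (LH X)) S A0 =
          ENNReal.ofReal (pr T fun τ => tr f.e LH (S ∪ clr T τ)) := by
        have := qn_pr (C := P.D t) (tr f.e LH) S A0
        rw [eS] at this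
        exact this
      rw [e1] at h1
      rw [e2] at h2
      have h1' := (ENNReal.ofReal_le_ofReal_iff (Harx315.pr_nonneg)).1 h1
      have h2' := (ENNReal.ofReal_le_ofReal_iff (Harx315.pr_nonneg)).1 h2
      by_cases hgp : GP (psn S ∪ A0)
      · have h3 := hq ω hω S hS hSB hSc hgp hAS.1.1 hAS.1.2 h1' h2'
        have e3 : qn (P.D t) (P.wE (t, true)) S A0 =
            ENNReal.ofReal (pr T fun τ => P.TE (t, true) (S ∪ clr T τ)) := by
          have := qn_pr (C := P.D t) (P.TE (t, true)) S A0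
          rw [eS] at this
          exact this
        calc ENNReal.ofReal p ≤ qn (P.D t) (P.wE (t, true)) S A0 := by
              rw [e3]; exact ENNReal.ofReal_le_ofReal h3
          _ ≤ _ := qn_mono (fun X => le_self_add) S A0
      · refine (ENNReal.ofReal_le_one.2 hp).trans ?_
        unfold qn
        refine cavE_one fun τ _ => ?_
        rw [eS]
        have e4 : psn (S ∪ clr (fs A0) τ) ∩ P.Z t = psn S ∪ A0 := by
          have e5 : psn (S ∪ clr (fs A0) τ) = psn S ∪ A0 := by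
            unfold psn
            rw [image_union]
            have := psn_clr (fs A0) τ
            unfold psn at this
            rw [this, fs_fin hfin]
          rw [e5, inter_eq_left]
          rintro z (hz | hz)
          · obtain ⟨q, hq, rfl⟩ := hz
            exact Or.inl (hSB hq)
          · exact Or.inr hz.2
        have e6 : gpE (P.Z t) (S ∪ clr (fs A0) τ) = 1 := by
          unfold gpE
          rw [e4, if_neg hgp]
        show 1 ≤ P.wE (t, true) (S ∪ clr (fs A0) τ) + gpE (P.Z t) (S ∪ clr (fs A0) τ)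
        rw [e6]
        exact le_add_self
  filter_upwards [key] with ω hω h1 h2
  refine hω ⟨⟨(ind_ne.1 h1).1, (ind_ne.1 h2).1⟩, ?_, ?_⟩
  · have h3 : P.GA (cfg ε ω) := ind_ne.1 h1
    have h4 := hGd _ h3.2
    rw [gd_cut hε hCR hCRb hCL hCLb lR lL] at h4
    exact h4.1
  · have h3 : P.GA (mv f.e.symm (cfg ε ω)) := ind_ne.1 h2
    have h4 := hGd _ h3.2
    rw [gd_cut hε hCR hCRb hCL hCLb lR lL] at h4
    have h5 := h4.2
    have h6 := Raw.Rs_tr_cfg (B := P.Q ∪ CL) hε f hCL hCLb (P.Q_bdd.union hCLb) m2' (ind_local lL) ω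
    rw [hCL', h6]
    exact h5

/-- **978's `AePos`** -/
theorem aepos (hε : 0 < ε) (hCR : MeasurableSet CR) (hCL : MeasurableSet CL)
    (hR : ∀ t, CR ⊆ P.D t) (hL : ∀ t, (nxt P.h t).e.symm ⁻¹' CL ⊆ P.D t)
    (hCLb : Bornology.IsBounded CL) (hd : ∀ t, Disjoint CR ((nxt P.h t).e.symm ⁻¹' CL))
    (lR : LocalOn (P.Q ∪ CR) RH) (lL : LocalOn (P.Q ∪ CL) LH) (fR : FinMeas RH) (fL : FinMeas LH)
    (hGd : ∀ X, P.Gd X → gd ε (ENNReal.ofReal a + ENNReal.ofReal a) CR CL RH LH X)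
    (hp : p ≤ 1) {Gm : Set Sample} {d : ℝ≥0∞} (hGm : sampleLaw Gmᶜ ≤ d)
    (hq : ∀ t, ∀ ω ∈ Gm, ∀ S : Cf, S.Finite → S ⊆ ovr (P.Q ∪ P.Qn t) → Sc S →
      GP (psn S ∪ (points ε ω ∩ P.D t)) → QTile P t RH LH a p S (fs (points ε ω ∩ P.D t)))
    {c : ℝ≥0∞} (c0 : c ≠ 0) (c1 : c ≤ 1)
    (hc : c ≤ ENNReal.ofReal p * (ENNReal.ofReal a * ENNReal.ofReal a - d)) :
    (P.raw ε hε c c0 c1).AePos := by
  rintro ⟨t, b⟩
  filter_upwards [aepos_t hε hCR hCL (hR t) (hL t) hCLb (hd t) lR lL fR fL hGd hp hGm (hq t)]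
    with ω hω h1 h2
  exact (hc.trans (hω h1 h2)).trans (Rs_mono (fun X => wE_mono b X) _)

/-! ## the gate -/

/-- gate event and both extensions -/
def FG (P : DT) (RH LH : Cf → Prop) (X : Cf) : Prop := KG P X ∧ RH X ∧ LH X

lemma FG_fm (fR : FinMeas RH) (fL : FinMeas LH) : FinMeas (FG P RH LH) :=
  fm_and KG_fm (fm_and fR fL)

lemma FG_local (lR : LocalOn (P.Q ∪ CR) RH) (lL : LocalOn (P.Q ∪ CL) LH) :
    LocalOn (P.Q ∪ (CR ∪ CL)) (FG P RH LH) := by
  have h1 : LocalOn (P.Q ∪ (CR ∪ CL)) (KG P) := LocalOn.mono subset_union_left KG_local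
  have h2 : LocalOn (P.Q ∪ (CR ∪ CL)) RH :=
    LocalOn.mono (union_subset_union_right _ subset_union_left) lR
  have h3 : LocalOn (P.Q ∪ (CR ∪ CL)) LH :=
    LocalOn.mono (union_subset_union_right _ subset_union_right) lL
  intro S
  unfold FG
  rw [← h1 S, ← h2 S, ← h3 S]

/-- **good gates have positive probability** (annealed form of the input) -/
theorem mass_of (hε : 0 < ε) (hCR : MeasurableSet CR) (hCRb : Bornology.IsBounded CR)
    (hCL : MeasurableSet CL) (hCLb : Bornology.IsBounded CL) (hd : Disjoint CR CL)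
    (hdR : Disjoint P.Q CR) (hdL : Disjoint P.Q CL)
    (lR : LocalOn (P.Q ∪ CR) RH) (lL : LocalOn (P.Q ∪ CL) LH) (fR : FinMeas RH) (fL : FinMeas LH)
    {a b : ℝ≥0∞} (ha : a ≠ 0) (hGd : ∀ X, gd ε a CR CL RH LH X → P.Gd X)
    (h : a + b ≤ ∫⁻ ω, ind (FG P RH LH (cfg ε ω)) ∂sampleLaw) :
    b ≤ sampleLaw {ω | P.wA (cfg ε ω) ≠ 0} := by
  set F : Cf → ℝ≥0∞ := fun X => ind (FG P RH LH X) with hF
  have hFm : FinMeas F := ind_fm (FG_fm fR fL)
  have hFl : LocalOn (P.Q ∪ (CR ∪ CL)) F := ind_local (FG_local lR lL)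
  have hCm : MeasurableSet (CR ∪ CL) := hCR.union hCL
  have hCb : Bornology.IsBounded (CR ∪ CL) := hCRb.union hCLb
  have hdB : Disjoint P.Q (CR ∪ CL) := disjoint_union_right.2 ⟨hdR, hdL⟩
  refine (markov hε (P.Q_meas.union hCm) (P.Q_bdd.union hCb) hCm hCb hFl hFm (fun X => ind_le _)
    h).trans (measure_mono fun ω hω => ?_)
  have hω' : a ≤ Rs ε (CR ∪ CL) F (cfg ε ω) := hω
  set S0 : Cf := cfg ε ω ∩ ovr P.Q with hS0
  have hfin : S0.Finite := cfg_finite hε P.Q_bdd ω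
  have l0 : LocalOn P.Q (Rs ε (CR ∪ CL) F) := by
    refine LocalOn.mono ?_ (Rs_local hε hCm hCb hFl)
    rintro z ⟨hz | hz, hz'⟩
    · exact hz
    · exact absurd hz hz'
  have e0 : Rs ε (CR ∪ CL) F (cfg ε ω) = Rs ε (CR ∪ CL) F S0 := l0 _
  rw [e0] at hω'
  have hFR : ∀ X, F X ≤ ind (RH X) := by
    intro X
    simp only [hF]
    unfold ind
    by_cases h1 : FG P RH LH X
    · rw [if_pos h1, if_pos h1.2.1]
    · rw [if_neg h1]; exact zero_le
  have hFL : ∀ X, F X ≤ ind (LH X) := by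
    intro X
    simp only [hF]
    unfold ind
    by_cases h1 : FG P RH LH X
    · rw [if_pos h1, if_pos h1.2.2]
    · rw [if_neg h1]; exact zero_le
  have g1 : gd ε a CR CL RH LH S0 := by
    constructor
    · rw [← Rs_drop hε hCRb hCL hCLb hd (ind_local lR) (disjoint_union_left.2 ⟨hdL, hd⟩)
        (ind_fm fR) hfin]
      exact hω'.trans (Rs_mono hFR _)
    · rw [← Rs_drop hε hCLb hCR hCRb hd.symm (ind_local lL) (disjoint_union_left.2 ⟨hdR, hd.symm⟩)
        (ind_fm fL) hfin, union_comm]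
      exact hω'.trans (Rs_mono hFL _)
  have g2 : KG P (cfg ε ω) := by
    by_contra hK
    have h2 : Rs ε (CR ∪ CL) F S0 = 0 := by
      have := finite_mu' hε hCb
      unfold Rs
      have h3 : J (mu ε (CR ∪ CL)) (fun T => F ((S0 ∩ ovr (CR ∪ CL)ᶜ) ∪ T)) =
          J (mu ε (CR ∪ CL)) fun _ => 0 := by
        refine J_congr_ovr hε hCm hCb fun T hT => ?_
        simp only [hF]
        unfold ind
        rw [if_neg]
        intro h4
        apply hK
        have h5 : KG P ((S0 ∩ ovr (CR ∪ CL)ᶜ) ∪ T) = KG P (cfg ε ω) := by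
          refine local_eq' KG_local ?_
          ext q
          have h6 : q.1 ∈ P.Q → q.1 ∉ CR ∪ CL := fun h h' => Set.disjoint_left.1 hdB h h'
          have h7 : q ∈ T → q.1 ∈ CR ∪ CL := fun h => hT h
          simp only [hS0, ovr, mem_inter_iff, mem_union, mem_ofPred_eq, mem_compl_iff] at h6 h7 ⊢
          tauto
        rw [← h5]
        exact h4.1
      rw [h3, J_const]
    rw [h2] at hω'
    exact ha (le_antisymm hω' zero_le)
  show P.wA (cfg ε ω) ≠ 0
  unfold DT.wA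
  rw [ind_ne]
  exact ⟨g2, hGd _ g1⟩

/-- **annealed from quenched**: `V ω` = any finite set of points containing the points near the gate -/
theorem lint_FG (hε : 0 < ε) (hCR : MeasurableSet CR) (hCRb : Bornology.IsBounded CR)
    (hCL : MeasurableSet CL) (hCLb : Bornology.IsBounded CL)
    (lR : LocalOn (P.Q ∪ CR) RH) (lL : LocalOn (P.Q ∪ CL) LH) (fR : FinMeas RH) (fL : FinMeas LH)
    {V : Sample → Finset ℂ} (hV : ∀ᵐ ω ∂sampleLaw, (V ω : Set ℂ) ⊆ points ε ω ∧
      points ε ω ∩ (P.Q ∪ (CR ∪ CL)) ⊆ V ω) {c : ℝ} {Gm : Set Sample} {d : ℝ≥0∞}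
    (hGm : sampleLaw Gmᶜ ≤ d)
    (hq : ∀ ω ∈ Gm, c ≤ pr (V ω) fun β => FG P RH LH (clr (V ω) β)) :
    ENNReal.ofReal c * (1 - d) ≤ ∫⁻ ω, ind (FG P RH LH (cfg ε ω)) ∂sampleLaw := by
  have h1 := lint_ge (F := fun X => ind (FG P RH LH X)) (p := ENNReal.ofReal c) (Gd := Gm) hε
    (P.Q_meas.union (hCR.union hCL)) (P.Q_bdd.union (hCRb.union hCLb))
    (ind_local (FG_local lR lL)) (ind_fm (FG_fm fR fL)) hV ?_
  · refine (mul_le_mul_right ?_ _).trans h1
    rw [tsub_le_iff_right]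
    calc (1 : ℝ≥0∞) = sampleLaw univ := measure_univ.symm
      _ ≤ sampleLaw (Gm ∪ Gmᶜ) := by rw [union_compl_self]
      _ ≤ sampleLaw Gm + sampleLaw Gmᶜ := measure_union_le _ _
      _ ≤ sampleLaw Gm + d := add_le_add_right hGm _
  · intro ω hω
    have h2 := cavE_pr (FG P RH LH) (V ω)
    have h3 : cavE (fun X => ind (FG P RH LH X)) (V ω) =
        ENNReal.ofReal (pr (V ω) fun β => FG P RH LH (clr (V ω) β)) := h2
    rw [h3]
    exact ENNReal.ofReal_le_ofReal (hq ω hω)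

/-- **`P(A) ≥ b`** from the quenched gate probability -/
theorem mass (hε : 0 < ε) (hCR : MeasurableSet CR) (hCRb : Bornology.IsBounded CR)
    (hCL : MeasurableSet CL) (hCLb : Bornology.IsBounded CL) (hd : Disjoint CR CL)
    (hdR : Disjoint P.Q CR) (hdL : Disjoint P.Q CL)
    (lR : LocalOn (P.Q ∪ CR) RH) (lL : LocalOn (P.Q ∪ CL) LH) (fR : FinMeas RH) (fL : FinMeas LH)
    {a b : ℝ≥0∞} (ha : a ≠ 0) (hGd : ∀ X, gd ε a CR CL RH LH X → P.Gd X)
    {V : Sample → Finset ℂ} (hV : ∀ᵐ ω ∂sampleLaw, (V ω : Set ℂ) ⊆ points ε ω ∧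
      points ε ω ∩ (P.Q ∪ (CR ∪ CL)) ⊆ V ω) {c : ℝ} {Gm : Set Sample} {d : ℝ≥0∞}
    (hGm : sampleLaw Gmᶜ ≤ d)
    (hq : ∀ ω ∈ Gm, c ≤ pr (V ω) fun β => FG P RH LH (clr (V ω) β))
    (hab : a + b ≤ ENNReal.ofReal c * (1 - d)) :
    b ≤ sampleLaw {ω | P.wA (cfg ε ω) ≠ 0} :=
  mass_of hε hCR hCRb hCL hCLb hd hdR hdL lR lL fR fL ha hGd
    (hab.trans (lint_FG hε hCR hCRb hCL hCLb lR lL fR fL hV hGm hq))

end Crest.Agent.R143.Posx653
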