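import Crest.Agent.R143.TplI_204

/-!
# Row 143 (S0194), RIG, box R6: the zones of the template (helper204)

Gate box `WQ (12 η) (h / 2 + 2 η) h = {|re| < 2 η, |im| < 12 η}`, right and left contact zones
`CR η = {2 η ≤ re < 13 η, |im| < 12 η}`, `CL η = {-13 η < re ≤ -2 η, |im| < 12 η}`, tile side
`h ≥ 60 η`. In standard position and for the next gate.

* `TB_mono`, `wE_mono` : a full tile event is a white tile event
* `CR_D`, `CL_D` : both zones are in the tube box `WD`, disjoint from each other and from the boxes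
* `QCR_Z`, `QCL_Z` : the events of the zones are events of `Z`
-/

set_option autoImplicit false
set_option linter.all false

noncomputable section

open scoped Classical

namespace Crest.Agent.R143.TplIx204

open Set MeasureTheory
open Crest.ProbabilityR.Voronoi
open Crest.Agent.R143.PP0x831 Crest.Agent.R143.Poisx304 Crest.Agent.R143.Janx304
open Crest.Agent.R143.Locx922
open Crest.Agent.R143.Neckx921 (Neck NeckD Tile Lk)
open Crest.Agent.R143.JColx54
open Crest.Agent.R143.Prodx609 Crest.Agent.R143.FinMx609 Crest.Agent.R143.FinM2x609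
open Crest.Agent.R143.WLocx713 Crest.Agent.R143.PWx978 Crest.Agent.R143.Tplx978
open Crest.Agent.R143.TileRx228 Crest.Agent.R143.PthFx765
open scoped ENNReal

/-! ### full tiles are white tiles -/

theorem TB_mono {A : Set ℂ} {St En : Set (ℂ × Bool) → ℂ × ℂ → Prop} {X : Set (ℂ × Bool)}
    (h : TB true A St En X) : TB false A St En X := by
  obtain ⟨hX, p, q, hp, hq, h⟩ := h
  exact ⟨hX, p, q, hp, hq, fun hb => absurd hb (by simp), h.2⟩

/-- `TB` is monotone in the region -/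
theorem TB_sub {b : Bool} {A A' : Set ℂ} {St En : Set (ℂ × Bool) → ℂ × ℂ → Prop}
    {X : Set (ℂ × Bool)} (hA : A ⊆ A') (h : TB b A St En X) : TB b A' St En X := by
  obtain ⟨hX, p, q, hp, hq, h1, h2⟩ := h
  refine ⟨hX, p, q, hp, hq, fun hb => (h1 hb).mono ?_, h2.mono ?_⟩
  · rintro s ⟨h3, h4⟩
    exact ⟨h3, hA h4⟩
  · rintro s ⟨h3, h4⟩
    exact ⟨h3, hA h4⟩

theorem ind_mono {P Q : Prop} (h : P → Q) : ind P ≤ ind Q := by
  by_cases hP : P
  · rw [ind_of hP, ind_of (h hP)]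
  · unfold ind
    rw [if_neg hP]
    exact zero_le

theorem DT.wE_mono (P : DT) (t : Tn) (S : Cf) : P.wE (t, true) S ≤ P.wE (t, false) S :=
  ind_mono (P := P.TE (t, true) S) (Q := P.TE (t, false) S) fun h => TB_mono h

theorem DT.Rs_wE_mono (P : DT) (ε : ℝ) (t : Tn) (D : Set ℂ) (S : Cf) :
    Rs ε D (P.wE (t, true)) S ≤ Rs ε D (P.wE (t, false)) S := by
  unfold Rs Poisx304.J Poisx304.Q Poisx304.P
  gcongr
  exact P.wE_mono t _

/-! ### coordinates of the next frame -/

variable {h η : ℝ}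

theorem nxS (z : ℂ) : ((nxt h Tn.S).e.symm z).re = z.re - h ∧ ((nxt h Tn.S).e.symm z).im = z.im := by
  unfold nxt
  rw [Fr.aff_symm]
  simp only [rot, inv_one, one_mul]
  constructor
  · simp only [Complex.sub_re, Complex.mul_re, Complex.add_re, Complex.add_im, Complex.one_re,
      Complex.one_im, Complex.div_ofNat_re, Complex.div_ofNat_im, Complex.ofReal_re,
      Complex.ofReal_im]
    ring
  · simp only [Complex.sub_im, Complex.mul_im, Complex.add_re, Complex.add_im, Complex.one_re,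
      Complex.one_im, Complex.div_ofNat_re, Complex.div_ofNat_im, Complex.ofReal_re,
      Complex.ofReal_im]
    ring

theorem nxL (z : ℂ) :
    ((nxt h Tn.L).e.symm z).re = z.im - h / 2 ∧ ((nxt h Tn.L).e.symm z).im = h / 2 - z.re := by
  unfold nxt
  rw [Fr.aff_symm]
  simp only [rot, Complex.inv_I]
  constructor
  · simp only [Complex.sub_re, Complex.sub_im, Complex.mul_re, Complex.mul_im, Complex.neg_re,
      Complex.neg_im, Complex.add_re, Complex.add_im, Complex.one_re,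
      Complex.one_im, Complex.I_re, Complex.I_im, Complex.div_ofNat_re, Complex.div_ofNat_im,
      Complex.ofReal_re, Complex.ofReal_im]
    ring
  · simp only [Complex.sub_re, Complex.sub_im, Complex.mul_re, Complex.mul_im, Complex.neg_re,
      Complex.neg_im, Complex.add_re, Complex.add_im, Complex.one_re,
      Complex.one_im, Complex.I_re, Complex.I_im, Complex.div_ofNat_re, Complex.div_ofNat_im,
      Complex.ofReal_re, Complex.ofReal_im]
    ring

theorem nxR (z : ℂ) :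
    ((nxt h Tn.R).e.symm z).re = -(z.im + h / 2) ∧ ((nxt h Tn.R).e.symm z).im = z.re - h / 2 := by
  unfold nxt
  rw [Fr.aff_symm]
  simp only [rot, inv_neg, Complex.inv_I, neg_neg]
  constructor
  · simp only [Complex.sub_re, Complex.sub_im, Complex.mul_re, Complex.mul_im, Complex.neg_re,
      Complex.neg_im, Complex.add_re, Complex.add_im, Complex.one_re,
      Complex.one_im, Complex.I_re, Complex.I_im, Complex.div_ofNat_re, Complex.div_ofNat_im,
      Complex.ofReal_re, Complex.ofReal_im]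
    ring
  · simp only [Complex.sub_re, Complex.sub_im, Complex.mul_re, Complex.mul_im, Complex.neg_re,
      Complex.neg_im, Complex.add_re, Complex.add_im, Complex.one_re,
      Complex.one_im, Complex.I_re, Complex.I_im, Complex.div_ofNat_re, Complex.div_ofNat_im,
      Complex.ofReal_re, Complex.ofReal_im]
    ring

/-! ### the zones -/

/-- right contact zone -/
def CR (η : ℝ) : Set ℂ := {z | (2 * η ≤ z.re ∧ z.re < 13 * η) ∧ |z.im| < 12 * η}

/-- left contact zone -/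
def CL (η : ℝ) : Set ℂ := {z | (-(13 * η) < z.re ∧ z.re ≤ -(2 * η)) ∧ |z.im| < 12 * η}

/-- the left contact zone of the next gate -/
def CLn (h η : ℝ) (t : Tn) : Set ℂ := (nxt h t).e.symm ⁻¹' CL η

theorem CR_meas : MeasurableSet (CR η) := by
  have h1 : Measurable fun z : ℂ => z.re := by fun_prop
  have h2 : Measurable fun z : ℂ => |z.im| := by fun_prop
  exact ((measurableSet_le measurable_const h1).inter
    (measurableSet_lt h1 measurable_const)).inter (measurableSet_lt h2 measurable_const)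

theorem CL_meas : MeasurableSet (CL η) := by
  have h1 : Measurable fun z : ℂ => z.re := by fun_prop
  have h2 : Measurable fun z : ℂ => |z.im| := by fun_prop
  exact ((measurableSet_lt measurable_const h1).inter
    (measurableSet_le h1 measurable_const)).inter (measurableSet_lt h2 measurable_const)

theorem CLn_meas (t : Tn) : MeasurableSet (CLn h η t) := (nxt h t).e.symm.measurable CL_meas

theorem CR_bdd (h0 : 0 < η) : Bornology.IsBounded (CR η) :=
  (box_bdd η (13 * η) (12 * η)).subset fun z hz => ⟨⟨by linarith [hz.1.1], hz.1.2⟩, hz.2⟩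

theorem CL_bdd (h0 : 0 < η) : Bornology.IsBounded (CL η) :=
  (box_bdd (-(13 * η)) (-η) (12 * η)).subset fun z hz => ⟨⟨hz.1.1, by linarith [hz.1.2]⟩, hz.2⟩

theorem CLn_bdd (h0 : 0 < η) (t : Tn) : Bornology.IsBounded (CLn h η t) :=
  (nxt h t).bdd' _ (CL_bdd h0)

/-- the gate box -/
theorem mem_WQG {z : ℂ} : z ∈ WQ (12 * η) (h / 2 + 2 * η) h ↔ |z.re| < 2 * η ∧ |z.im| < 12 * η := by
  unfold WQ
  rw [mem_ofPred_eq, add_sub_cancel_left]

/-- the gate box is disjoint from the right zone -/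
theorem Q_CR : Disjoint (WQ (12 * η) (h / 2 + 2 * η) h) (CR η) := by
  rw [Set.disjoint_left]
  rintro z hz ⟨⟨h1, -⟩, -⟩
  rw [mem_WQG, abs_lt] at hz
  linarith [hz.1.2]

theorem Q_CL : Disjoint (WQ (12 * η) (h / 2 + 2 * η) h) (CL η) := by
  rw [Set.disjoint_left]
  rintro z hz ⟨⟨-, h1⟩, -⟩
  rw [mem_WQG, abs_lt] at hz
  linarith [hz.1.1]

theorem CR_CL (h0 : 0 < η) : Disjoint (CR η) (CL η) := by
  rw [Set.disjoint_left]
  rintro z ⟨⟨h1, -⟩, -⟩ ⟨⟨-, h2⟩, -⟩
  linarith

/-- the next gate box is disjoint from its left zone -/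
theorem Qn_CLn (t : Tn) :
    Disjoint ((nxt h t).e.symm ⁻¹' WQ (12 * η) (h / 2 + 2 * η) h) (CLn h η t) :=
  Q_CL.preimage _

theorem CR_Qn (h0 : 0 < η) (hh : 60 * η ≤ h) (t : Tn) :
    Disjoint ((nxt h t).e.symm ⁻¹' WQ (12 * η) (h / 2 + 2 * η) h) (CR η) := by
  rw [Set.disjoint_left]
  rintro z hz ⟨⟨h1, h2⟩, h3⟩
  rw [mem_preimage, mem_WQG, abs_lt, abs_lt] at hz
  rw [abs_lt] at h3
  cases t
  · rw [(nxS z).1] at hz
    linarith [hz.1.1]
  · rw [(nxL z).1] at hz
    linarith [hz.1.1]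
  · rw [(nxR z).1] at hz
    linarith [hz.1.1]

theorem Q_CLn (h0 : 0 < η) (hh : 60 * η ≤ h) (t : Tn) :
    Disjoint (WQ (12 * η) (h / 2 + 2 * η) h) (CLn h η t) := by
  rw [Set.disjoint_left]
  rintro z hz ⟨⟨h1, h2⟩, h3⟩
  rw [mem_WQG, abs_lt, abs_lt] at hz
  rw [abs_lt] at h3
  cases t
  · rw [(nxS z).1] at h1 h2
    linarith [hz.1.1]
  · rw [(nxL z).2] at h3
    linarith [hz.1.1]
  · rw [(nxR z).2] at h3
    linarith [hz.1.1]

theorem Q_Qn (h0 : 0 < η) (hh : 60 * η ≤ h) (t : Tn) :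
    Disjoint (WQ (12 * η) (h / 2 + 2 * η) h)
      ((nxt h t).e.symm ⁻¹' WQ (12 * η) (h / 2 + 2 * η) h) := by
  rw [Set.disjoint_left]
  rintro z hz hz'
  rw [mem_WQG, abs_lt, abs_lt] at hz
  rw [mem_preimage, mem_WQG, abs_lt, abs_lt] at hz'
  cases t
  · rw [(nxS z).1] at hz'
    linarith [hz.1.2, hz'.1.1]
  · rw [(nxL z).1] at hz'
    linarith [hz.2.2, hz'.1.1]
  · rw [(nxR z).1] at hz'
    linarith [hz.2.1, hz'.1.2]

/-- the two zones of a tile are disjoint -/
theorem CR_CLn (h0 : 0 < η) (hh : 60 * η ≤ h) (t : Tn) : Disjoint (CR η) (CLn h η t) := by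
  rw [Set.disjoint_left]
  rintro z ⟨⟨h1, h2⟩, h3⟩ ⟨⟨h4, h5⟩, h6⟩
  rw [abs_lt] at h3 h6
  cases t
  · rw [(nxS z).1] at h4
    linarith
  · rw [(nxL z).1] at h4
    linarith
  · rw [(nxR z).1] at h4
    linarith

theorem CR_WR (h0 : 0 < η) (hh : 60 * η ≤ h) (t : Tn) :
    CR η ⊆ WR (12 * η) (h / 2 + 2 * η) h t := by
  rintro z ⟨⟨h1, h2⟩, h3⟩
  exact Or.inl ⟨⟨by linarith, by linarith⟩, h3⟩

theorem CLn_WR (h0 : 0 < η) (hh : 60 * η ≤ h) (t : Tn) :
    CLn h η t ⊆ WR (12 * η) (h / 2 + 2 * η) h t := by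
  rintro z ⟨⟨h1, h2⟩, h3⟩
  exact Or.inr ⟨⟨by linarith, by linarith⟩, h3⟩

/-- **the right zone is in the tube box** -/
theorem CR_D (h0 : 0 < η) (hh : 60 * η ≤ h) (t : Tn) :
    CR η ⊆ WD (12 * η) (h / 2 + 2 * η) h t := by
  intro z hz
  refine ⟨CR_WR h0 hh t hz, ?_⟩
  rintro (h1 | h1)
  · exact Set.disjoint_left.1 Q_CR h1 hz
  · exact Set.disjoint_left.1 (CR_Qn h0 hh t) h1 hz

/-- **the left zone of the next gate is in the tube box** -/
theorem CL_D (h0 : 0 < η) (hh : 60 * η ≤ h) (t : Tn) :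
    CLn h η t ⊆ WD (12 * η) (h / 2 + 2 * η) h t := by
  intro z hz
  refine ⟨CLn_WR h0 hh t hz, ?_⟩
  rintro (h1 | h1)
  · exact Set.disjoint_left.1 (Q_CLn h0 hh t) h1 hz
  · exact Set.disjoint_left.1 (Qn_CLn t) h1 hz

/-! ### for the data of a template -/

namespace DT

variable (P : DT)

section

variable {P} (hA : P.A' = 12 * η) (hB : P.B' = P.h / 2 + 2 * η) (h0 : 0 < η) (hh : 60 * η ≤ P.h)

include hA hB in
theorem Q_eq : P.Q = WQ (12 * η) (P.h / 2 + 2 * η) P.h := by
  unfold DT.Q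
  rw [hA, hB]

include hA hB in
theorem mem_Q {z : ℂ} : z ∈ P.Q ↔ |z.re| < 2 * η ∧ |z.im| < 12 * η := by
  rw [Q_eq hA hB, mem_WQG]

include hA hB in
theorem D_eq (t : Tn) : P.D t = WD (12 * η) (P.h / 2 + 2 * η) P.h t := by
  unfold DT.D
  rw [hA, hB]

include hA hB in
theorem Qn_eq (t : Tn) : P.Qn t = (nxt P.h t).e.symm ⁻¹' WQ (12 * η) (P.h / 2 + 2 * η) P.h := by
  unfold DT.Qn
  rw [Q_eq hA hB]

include hA hB h0 hh

theorem CRD (t : Tn) : CR η ⊆ P.D t := by
  rw [D_eq hA hB]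
  exact CR_D h0 hh t

theorem CLD (t : Tn) : CLn P.h η t ⊆ P.D t := by
  rw [D_eq hA hB]
  exact CL_D h0 hh t

omit h0 hh in
theorem QCR : Disjoint P.Q (CR η) := by
  rw [Q_eq hA hB]
  exact Q_CR

omit h0 hh in
theorem QCL : Disjoint P.Q (CL η) := by
  rw [Q_eq hA hB]
  exact Q_CL

omit h0 hh in
theorem QnCLn (t : Tn) : Disjoint (P.Qn t) (CLn P.h η t) := by
  rw [Qn_eq hA hB]
  exact Qn_CLn t

theorem QnCR (t : Tn) : Disjoint (P.Qn t) (CR η) := by
  rw [Qn_eq hA hB]
  exact CR_Qn h0 hh t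

theorem QCLn (t : Tn) : Disjoint P.Q (CLn P.h η t) := by
  rw [Q_eq hA hB]
  exact Q_CLn h0 hh t

theorem QQn (t : Tn) : Disjoint P.Q (P.Qn t) := by
  rw [Q_eq hA hB, Qn_eq hA hB]
  exact Q_Qn h0 hh t

/-- the events of the right zone see only `Z` -/
theorem QCR_Z (t : Tn) : P.Q ∪ CR η ⊆ P.Z t := by
  rintro z (hz | hz)
  · exact Or.inl (Or.inl hz)
  · exact Or.inr (CRD hA hB h0 hh t hz)

/-- the events of the left zone see only `Z` -/
theorem QCL_Z (t : Tn) : P.Qn t ∪ CLn P.h η t ⊆ P.Z t := by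
  rintro z (hz | hz)
  · exact Or.inl (Or.inr hz)
  · exact Or.inr (CLD hA hB h0 hh t hz)

/-- the right half, the left half of the next gate and their windows are disjoint -/
theorem QCR_QCL (t : Tn) : Disjoint (P.Q ∪ CR η) (P.Qn t ∪ CLn P.h η t) := by
  rw [Set.disjoint_union_left, Set.disjoint_union_right, Set.disjoint_union_right]
  exact ⟨⟨QQn hA hB h0 hh t, QCLn hA hB h0 hh t⟩, (QnCR hA hB h0 hh t).symm,
    CR_CLn h0 hh t⟩

end

end DT

end Crest.Agent.R143.TplIx204
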