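import Crest.Agent.R143.GeH_345
import Crest.Agent.R143.Gm_838
import Crest.Agent.R143.Pos_653
import Crest.Agent.R143.TplG_204

/-!
# Row 143, CORE-C, box R1d: `P(A ≥ b)` with one constant for all units (helper73)

* `MidH`, `GateH` : the two halves of 838's `gm`, named
* `mass_F` : `GateH` + `Gm` on a set of probability `≥ 1 - δ` ⟹ `b ≤ P (P.wA ≠ 0)` for every `P : DT`
  with `g = g0 η`, `Q = Q0 η` whose `Gd` is implied by 73's goodness with `RH η d`, `LH η d`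
-/

set_option autoImplicit false

noncomputable section

open scoped Classical

namespace Crest.Agent.R143.MassFx73

open Set MeasureTheory
open Crest.ProbabilityR.Voronoi
open Crest.Agent.R143.B0x346 Crest.Agent.R143.Blkx838
open Crest.Agent.R143.Gatex838 Crest.Agent.R143.Harx315
open Crest.Agent.R143.PP0x831 Crest.Agent.R143.Poisx304
open Crest.Agent.R143.Fairx653 Crest.Agent.R143.Halfx73
open Crest.Agent.R143.TplIx204 (DT gd)
open Crest.Agent.R143.IndLocx279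
open Crest.Agent.R143.RBmx838 (NvA)
open Crest.Agent.R143.EnvHx653 (Cab)
open Crest.Agent.R143.Posx653 Crest.Agent.R143.Gmx838 Crest.Agent.R143.GEprx838
open Crest.Agent.R143.TileRRx345 Crest.Agent.R143.ToolW2x838 Crest.Agent.R143.Neckx921
open Crest.Agent.R143.IndLoc3x279
open scoped ENNReal

/-- first half of 838's `gm` -/
def MidH (p c1 c2 K : ℝ) : Prop :=
  ∀ (R0 ε d η T : ℝ) (ω : Sample) (z e z' e' : ℂ), Gm R0 ε d K c2 η ω → 0 < d → d ≤ c1 * η →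
      0 < η → 10 * η ≤ 1 → 40 ≤ T → T ≤ 150 → ‖e‖ = η → Fr T z e z' e' →
      ‖z‖ + (K + 1) * (5 * η) + 2 * d ≤ R0 → ‖z'‖ + (K + 1) * (5 * η) + 2 * d ≤ R0 →
      ∀ D : Set ℂ, (∀ w, w ∈ Mi z e z' e' → w ∈ Re T z e z' e' → ∀ s, ‖s - w‖ < 2 * d → s ∈ D) →
      ∀ M V : Finset ℂ, (∀ s ∈ D, (s ∈ M ↔ s ∈ points ε ω)) →
      (∀ s ∈ D, s ∈ points ε ω → s ∈ V) →
      p ≤ pr V (MidB M T z e z' e') ∧ p ≤ pr V (fun τ => MidW M T z e z' e' (V \ τ))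

/-- second half of 838's `gm` -/
def GateH (p c1 c2 K : ℝ) : Prop :=
  ∀ (R0 ε d η : ℝ) (ω : Sample) (z e : ℂ), Gm R0 ε d K c2 η ω → 0 < d → d ≤ c1 * η → 0 < η →
      10 * η ≤ 1 → ‖e‖ = η → ‖z‖ + (K + 1) * (5 * η) + 2 * d ≤ R0 →
      ∀ S : Finset ℂ, GP (S : Set ℂ) →
      (∀ s : ℂ, ‖s - z‖ ≤ (K + 1) * (5 * η) + 2 * d → (s ∈ points ε ω ↔ s ∈ S)) →
      NvA S z (K * (5 * η)) c2 (5 * η) d Cab ∧ AllX S z e p ∧
      ∀ V : Finset ℂ, V ⊆ S → BoxIn S V z e →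
        En S V z e (-12) 12 (-(91 / 10)) (-(48 / 10)) (1 / 20) ∧
        ∀ b1 : ℝ, 9 ≤ b1 → b1 ≤ 11 → p ≤ pr V (GEn S V z e b1)

theorem gm' : ∃ p c1 c2 K : ℝ, 0 < p ∧ p ≤ 1 ∧ 0 < c1 ∧ c1 ≤ 1 / 20 ∧ 0 < c2 ∧ c2 ≤ 1 ∧ 20 ≤ K ∧
    MidH p c1 c2 K ∧ GateH p c1 c2 K := gm

variable {ε η p c1 c2 K r d R0 : ℝ} {P : DT}

/-- the sites of the sample in the big disc -/
def VR (ε R0 : ℝ) (ω : Sample) : Finset ℂ := fs (points ε ω ∩ Metric.closedBall 0 R0)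

theorem coe_VR (hε : 0 < ε) (R0 : ℝ) (ω : Sample) :
    (VR ε R0 ω : Set ℂ) = points ε ω ∩ Metric.closedBall 0 R0 :=
  fs_fin (pts_fin hε Metric.isBounded_closedBall ω)

theorem mem_VR (hε : 0 < ε) {ω : Sample} {s : ℂ} :
    s ∈ VR ε R0 ω ↔ s ∈ points ε ω ∧ ‖s‖ ≤ R0 := by
  have h := Set.ext_iff.1 (coe_VR hε R0 ω) s
  rw [Finset.mem_coe, mem_inter_iff, mem_closedBall_zero_iff] at h
  exact h

theorem box_sub (hη : 0 < η) (hR : 26 * η ≤ R0) {z : ℂ} (hz : z ∈ Q0 η ∪ (CR η ∪ CL η)) :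
    ‖z‖ ≤ R0 := by
  have h1 := Complex.norm_le_abs_re_add_abs_im z
  have h2 : |z.re| ≤ 13 * η ∧ |z.im| ≤ 12 * η := by
    rcases hz with ⟨a, b⟩ | ⟨⟨a, b⟩, c⟩ | ⟨⟨a, b⟩, c⟩
    · exact ⟨by linarith, b.le⟩
    · exact ⟨abs_le.2 ⟨by linarith, by linarith⟩, c.le⟩
    · exact ⟨abs_le.2 ⟨by linarith, by linarith⟩, c.le⟩
  linarith [h2.1, h2.2]

/-- **good gates have probability `≥ b`**, `b` does not depend on the unit -/
theorem mass_F (H : GateH p c1 c2 K) (hc1 : c1 ≤ 1 / 20) (hK : 20 ≤ K) (hg : P.g = g0 η)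
    (hQ : P.Q = Q0 η) (hε : 0 < ε) (hη : 0 < η) (hη1 : 10 * η ≤ 1) (hr : 0 < r) (hr1 : r ≤ c1 * η)
    (hrd : 2 * r ≤ d) (hd : 4 * d ≤ η) (hR : (K + 1) * (5 * η) + 2 * r ≤ R0) {δ : ℝ≥0∞}
    (hGm : sampleLaw {ω | ¬ Gm R0 ε r K c2 η ω} ≤ δ) {a b : ℝ≥0∞} (ha : a ≠ 0)
    (hGd : ∀ X, gd ε a (CR η) (CL η) (RH η d) (LH η d) X → P.Gd X)
    (hab : a + b ≤ ENNReal.ofReal p * (1 - δ)) : b ≤ sampleLaw {ω | P.wA (cfg ε ω) ≠ 0} := by
  have hd0 : 0 < d := by linarith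
  have hR26 : 26 * η ≤ R0 := by nlinarith
  have mR : MeasurableSet (CR η) := TplIx204.CR_meas (η := η)
  have mL : MeasurableSet (CL η) := TplIx204.CL_meas (η := η)
  have bR : Bornology.IsBounded (CR η) := TplIx204.CR_bdd (η := η) hη
  have bL : Bornology.IsBounded (CL η) := TplIx204.CL_bdd (η := η) hη
  have dRL : Disjoint (CR η) (CL η) := TplIx204.CR_CL (η := η) hη
  have dQR : Disjoint P.Q (CR η) := by
    rw [hQ, ← WQ_Q0 η (100 * η)]; exact TplIx204.Q_CR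
  have dQL : Disjoint P.Q (CL η) := by
    rw [hQ, ← WQ_Q0 η (100 * η)]; exact TplIx204.Q_CL
  have lR : LocalOn (P.Q ∪ CR η) (RH η d) := by rw [hQ]; exact RH_local η d
  have lL : LocalOn (P.Q ∪ CL η) (LH η d) := by rw [hQ]; exact LH_local η d
  refine mass (V := VR ε R0) (c := p) hε mR bR mL bL dRL dQR dQL lR lL (RH_fm η d) (LH_fm η d)
    ha hGd (Filter.Eventually.of_forall fun ω => ⟨?_, ?_⟩) (Gm := {ω | Gm R0 ε r K c2 η ω}) hGm ?_ hab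
  · rw [coe_VR hε]; exact inter_subset_left
  · rintro z ⟨hz, hz'⟩
    rw [hQ] at hz'
    rw [Finset.mem_coe, mem_VR hε]
    exact ⟨hz, box_sub hη hR26 hz'⟩
  · intro ω hω
    have hgp : GP ((VR ε R0 ω : Finset ℂ) : Set ℂ) := by
      refine Locx922.GP.mono hω.2.1 fun s hs => ?_
      exact ((mem_VR hε).1 (Finset.mem_coe.1 hs)).1
    have he : ‖((η : ℝ) : ℂ)‖ = η := by rw [Complex.norm_real, Real.norm_of_nonneg hη.le]
    have h1 := H R0 ε r η ω 0 (η : ℂ) hω hr hr1 hη hη1 he (by rw [norm_zero]; linarith)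
      (VR ε R0 ω) hgp (fun s hs => by
        rw [mem_VR hε]
        rw [sub_zero] at hs
        exact ⟨fun h => ⟨h, hs.trans hR⟩, fun h => h.1⟩)
    have h2 := (h1.2.2 (VR ε R0 ω) subset_rfl fun s hs _ _ => hs).2 10 (by norm_num) (by norm_num)
    exact GeHx345.fg_nva hg hQ hη hd0 hd hK h1.1 hrd (by nlinarith) h2

end Crest.Agent.R143.MassFx73
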