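import Crest.Agent.R143.QTb_653
import Crest.Agent.R143.MassF_73

/-!
# R143 (helper653), box R1 (C): the template has positive constants

* `Dx η d a ε hε` : data of the template (73's gate `g0 η`, half events `RH η d`, `LH η d`; sizes
  `9 η`, `51 η`, `12 η`, `52 η`, side `100 η`; goodness level `2 a`)
* `aepos_Dx`, `mass_Dx`, `wA_meas`, `lint_wA`
* `mids` : the lanes of a tile for the fresh positions (838)
* `TQ` : the quenched tile bound (120)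
* `cC`, `ca`, `cc`, `cb` : **absolute constants**; `Dt η ε`, `Tr η ε` : the template
* `posF_of` : `TQ` gives `AePos` and `cb ≤ E wA`, eventually in `ε`, for every unit `η ≤ 1 / 10`
-/

set_option autoImplicit false

noncomputable section

open scoped Classical

namespace Crest.Agent.R143.PosFx653

open MeasureTheory Set ProbabilityTheory Filter Topology
open Crest.ProbabilityR.Voronoi
open Crest.Agent.R143.B0x346 (GP)
open Crest.Agent.R143.PP0x831 Crest.Agent.R143.Poisx304 Crest.Agent.R143.Janx304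
open Crest.Agent.R143.IndLocx279 Crest.Agent.R143.IndLoc3x279
open Crest.Agent.R143.PWx978 Crest.Agent.R143.Tplx978
open Crest.Agent.R143.Fairx653 Crest.Agent.R143.Posx653 Crest.Agent.R143.TplIx204
open Crest.Agent.R143.QTbx653 Crest.Agent.R143.CBx838
open Crest.Agent.R143.PthFx765 Crest.Agent.R143.WLocx713 Crest.Agent.R143.TileRx228
open Crest.Agent.R143.Harx315 (pr pr_mono)
open Crest.Agent.R143.PP1x831 (rad)
open Crest.Agent.R143.Halfx73 (g0 RH LH RH_fm LH_fm RH_local LH_local Q0 WQ_Q0 gS gB)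
open scoped ENNReal

variable {η d a ε : ℝ}

/-- **the data of the template** -/
def Dx (η d a ε : ℝ) (hε : 0 < ε) (hη : 0 < η) : DT where
  g := g0 η
  A := 9 * η
  B := 51 * η
  A' := 12 * η
  B' := 52 * η
  h := 100 * η
  Gd := gd ε (ENNReal.ofReal a + ENNReal.ofReal a) (TplIx204.CR η) (TplIx204.CL η) (RH η d) (LH η d)
  Gm := gd_fm hε CR_meas (CR_bdd hη) CL_meas (CL_bdd hη) (RH_fm η d) (LH_fm η d)

section geo

variable (hε : 0 < ε) (hη : 0 < η)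

theorem dA : (Dx η d a ε hε hη).A' = 12 * η := rfl

theorem dB : (Dx η d a ε hε hη).B' = (Dx η d a ε hε hη).h / 2 + 2 * η := by
  show 52 * η = 100 * η / 2 + 2 * η
  ring

theorem dh : 60 * η ≤ (Dx η d a ε hε hη).h := by
  show 60 * η ≤ 100 * η
  linarith

theorem dQ : (Dx η d a ε hε hη).Q = Q0 η := by
  rw [DT.Q_eq (dA hε hη) (dB hε hη), WQ_Q0]

end geo

/-- **978's `AePos` for the template** -/
theorem aepos_Dx (hε : 0 < ε) (hη : 0 < η) {p : ℝ} (hp : p ≤ 1) {Gm : Set Sample} {δ : ℝ≥0∞}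
    (hGm : sampleLaw Gmᶜ ≤ δ)
    (hq : ∀ t, ∀ ω ∈ Gm, ∀ S : Cf, S.Finite →
      S ⊆ ovr ((Dx η d a ε hε hη).Q ∪ (Dx η d a ε hε hη).Qn t) → Sc S →
      GP (psn S ∪ (points ε ω ∩ (Dx η d a ε hε hη).D t)) →
      QTile (Dx η d a ε hε hη) t (RH η d) (LH η d) a p S
        (fs (points ε ω ∩ (Dx η d a ε hε hη).D t)))
    {c : ℝ≥0∞} (c0 : c ≠ 0) (c1 : c ≤ 1)
    (hc : c ≤ ENNReal.ofReal p * (ENNReal.ofReal a * ENNReal.ofReal a - δ)) :
    ((Dx η d a ε hε hη).raw ε hε c c0 c1).AePos := by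
  have hA := dA (d := d) (a := a) hε hη
  have hB := dB (d := d) (a := a) hε hη
  have hh := dh (d := d) (a := a) hε hη
  refine aepos (CR := TplIx204.CR η) (CL := TplIx204.CL η) (RH := RH η d) (LH := LH η d) (a := a)
    hε CR_meas CL_meas (fun t => DT.CRD hA hB hη hh t) (fun t => DT.CLD hA hB hη hh t) (CL_bdd hη)
    (fun t => CR_CLn hη hh t) ?_ ?_ (RH_fm η d) (LH_fm η d) (fun X h => h) hp hGm hq c0 c1 hc
  · rw [dQ]
    exact RH_local η d
  · rw [dQ]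
    exact LH_local η d

/-- **good gates have positive probability** -/
theorem mass_Dx (hε : 0 < ε) (hη : 0 < η) (ha : 0 < a) {V : Sample → Finset ℂ}
    (hV : ∀ᵐ ω ∂sampleLaw, (V ω : Set ℂ) ⊆ points ε ω ∧
      points ε ω ∩ (Q0 η ∪ (TplIx204.CR η ∪ TplIx204.CL η)) ⊆ V ω) {c : ℝ} {Gm : Set Sample}
    {δ b : ℝ≥0∞} (hGm : sampleLaw Gmᶜ ≤ δ)
    (hq : ∀ ω ∈ Gm, c ≤ pr (V ω) fun β => FG (Dx η d a ε hε hη) (RH η d) (LH η d) (clr (V ω) β))
    (h : ENNReal.ofReal a + ENNReal.ofReal a + b ≤ ENNReal.ofReal c * (1 - δ)) :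
    b ≤ sampleLaw {ω | (Dx η d a ε hε hη).wA (cfg ε ω) ≠ 0} := by
  have hA := dA (d := d) (a := a) hε hη
  have hB := dB (d := d) (a := a) hε hη
  have ha' : ENNReal.ofReal a + ENNReal.ofReal a ≠ 0 := by
    rw [← ENNReal.ofReal_add ha.le ha.le]
    exact (ENNReal.ofReal_pos.2 (by linarith)).ne'
  refine mass (CR := TplIx204.CR η) (CL := TplIx204.CL η) (RH := RH η d) (LH := LH η d)
    hε CR_meas (CR_bdd hη) CL_meas (CL_bdd hη) (CR_CL hη) (DT.QCR hA hB) (DT.QCL hA hB) ?_ ?_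
    (RH_fm η d) (LH_fm η d) ha' (fun X h => h) (V := V) ?_ hGm hq h
  · rw [dQ]
    exact RH_local η d
  · rw [dQ]
    exact LH_local η d
  · rw [dQ]
    exact hV

/-- the weight of the gate is measurable -/
theorem wA_meas (P : DT) (hε : 0 < ε) : Measurable fun ω => P.wA (cfg ε ω) := by
  have h := Prodx609.meas_cfg hε P.Q_meas P.Q_bdd P.wA_fm
  have e : (fun ω => P.wA (cfg ε ω)) = fun ω => P.wA (cfg ε ω ∩ ovr P.Q) :=
    funext fun ω => P.wA_local _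
  rw [e]
  exact h

/-- the mean of the weight of the gate -/
theorem lint_wA (P : DT) (hε : 0 < ε) :
    ∫⁻ ω, P.wA (cfg ε ω) ∂sampleLaw = sampleLaw {ω | P.wA (cfg ε ω) ≠ 0} := by
  have hm := wA_meas P hε
  have hs : MeasurableSet {ω | P.wA (cfg ε ω) ≠ 0} := (hm (measurableSet_singleton 0)).compl
  rw [← lintegral_indicator_one hs]
  refine lintegral_congr fun ω => ?_
  by_cases h : P.wA (cfg ε ω) ≠ 0
  · rw [Set.indicator_of_mem (by exact h)]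
    have h1 : P.GA (cfg ε ω) := ind_ne.1 h
    show ind (P.GA (cfg ε ω)) = 1
    exact ind_of h1
  · rw [Set.indicator_of_notMem (by exact h)]
    exact not_not.1 h

/-! ### the middles -/

section mid

open Crest.Agent.R143.Gatex838 Crest.Agent.R143.TileRRx345 Crest.Agent.R143.Gmx838

theorem X_zero (η : ℝ) (s : ℂ) : X 0 (η : ℂ) s = s.re / η := by
  unfold X
  rw [sub_zero, Complex.div_ofReal_re]

theorem Y_zero (η : ℝ) (s : ℂ) : Y 0 (η : ℂ) s = s.im / η := by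
  unfold Y
  rw [sub_zero, Complex.div_ofReal_im]

theorem nxt_symm (h : ℝ) (t : Tn) (s : ℂ) :
    (nxt h t).e.symm s = (s - (nxt h t).e 0) / rot t := by
  have e : s - (nxt h t).e 0 = (nxt h t).e ((nxt h t).e.symm s) - (nxt h t).e 0 := by
    rw [(nxt h t).e.apply_symm_apply]
  rw [e, nxt_apply, nxt_apply]
  have h0 : rot t ≠ 0 := by
    intro h1
    have := norm_rot t
    rw [h1, norm_zero] at this
    exact zero_ne_one this
  field_simp
  ring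

theorem X_nxt (η : ℝ) (h : ℝ) (t : Tn) (s : ℂ) :
    X ((nxt h t).e 0) (rot t * (η : ℂ)) s = ((nxt h t).e.symm s).re / η := by
  unfold X
  rw [nxt_symm, ← Complex.div_ofReal_re, div_div]

theorem Y_nxt (η : ℝ) (h : ℝ) (t : Tn) (s : ℂ) :
    Y ((nxt h t).e 0) (rot t * (η : ℂ)) s = ((nxt h t).e.symm s).im / η := by
  unfold Y
  rw [nxt_symm, ← Complex.div_ofReal_im, div_div]

theorem near_abs {w s : ℂ} {r : ℝ} (h : ‖s - w‖ < r) : |s.re - w.re| < r ∧ |s.im - w.im| < r := by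
  have h1 := Complex.abs_re_le_norm (s - w)
  have h2 := Complex.abs_im_le_norm (s - w)
  rw [Complex.sub_re] at h1
  rw [Complex.sub_im] at h2
  exact ⟨h1.trans_lt h, h2.trans_lt h⟩

/-- points near the middle of the tile are in the tube box -/
theorem mi_D (hη : 0 < η) (hd : 4 * d ≤ η) (t : Tn) {w s : ℂ}
    (h1 : w ∈ Mi 0 (η : ℂ) ((nxt (100 * η) t).e 0) (rot t * (η : ℂ)))
    (h2 : w ∈ Re 100 0 (η : ℂ) ((nxt (100 * η) t).e 0) (rot t * (η : ℂ)))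
    (hs : ‖s - w‖ < 2 * d) : s ∈ WD (12 * η) (52 * η) (100 * η) t := by
  have hs' : ‖(nxt (100 * η) t).e.symm s - (nxt (100 * η) t).e.symm w‖ < 2 * d := by
    rw [mo_symm_norm (mo_nxt (100 * η) t)]
    exact hs
  obtain ⟨k1, k2⟩ := near_abs hs
  obtain ⟨k3, k4⟩ := near_abs hs'
  rw [abs_lt] at k1 k2 k3 k4
  obtain ⟨m1, m2⟩ := h1
  rw [X_zero η, le_div_iff₀ hη] at m1
  rw [X_nxt η, div_le_iff₀ hη] at m2
  refine ⟨?_, ?_⟩
  · rcases h2 with ⟨⟨a1, a2⟩, a3, a4⟩ | ⟨⟨a1, a2⟩, a3, a4⟩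
    · rw [X_zero η, lt_div_iff₀ hη] at a1
      rw [X_zero η, div_lt_iff₀ hη] at a2
      rw [Y_zero η, lt_div_iff₀ hη] at a3
      rw [Y_zero η, div_lt_iff₀ hη] at a4
      refine Or.inl ⟨⟨by linarith, by linarith⟩, ?_⟩
      rw [abs_lt]
      constructor <;> linarith
    · rw [X_nxt η, lt_div_iff₀ hη] at a1
      rw [X_nxt η, div_lt_iff₀ hη] at a2
      rw [Y_nxt η, lt_div_iff₀ hη] at a3
      rw [Y_nxt η, div_lt_iff₀ hη] at a4
      refine Or.inr ⟨⟨by linarith, by linarith⟩, ?_⟩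
      rw [abs_lt]
      constructor <;> linarith
  · rintro (⟨a1, -⟩ | ⟨a1, -⟩)
    · rw [abs_lt] at a1
      linarith
    · rw [abs_lt] at a1
      linarith

theorem norm_nx (hη : 0 < η) (hη1 : 10 * η ≤ 1) (t : Tn) : ‖(nxt (100 * η) t).e 0‖ ≤ 10 := by
  rw [nxt_zero, norm_mul, Complex.norm_real, Real.norm_eq_abs, abs_of_pos (by positivity)]
  have h1 : ‖1 + rot t‖ ≤ 2 := by
    refine (norm_add_le _ _).trans ?_
    rw [norm_one, norm_rot]
    norm_num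
  have h2 : 100 * η / 2 * ‖1 + rot t‖ ≤ 100 * η / 2 * 2 :=
    mul_le_mul_of_nonneg_left h1 (by positivity)
  linarith

/-- **the middles of a tile for the fresh positions** -/
theorem mids {p c1 c2 K r R0 : ℝ} (H : MassFx73.MidH p c1 c2 K) (hc1 : c1 ≤ 1 / 20)
    (hε : 0 < ε) (hη : 0 < η) (hη1 : 10 * η ≤ 1) (hr : 0 < r) (hr1 : r ≤ c1 * η)
    (hR : 10 + (K + 1) * (5 * η) + 2 * r ≤ R0) {ω : Sample}
    (hω : Gmx838.Gm R0 ε r K c2 η ω) (t : Tn) (S : Cf) :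
    p ≤ pr (fs (points ε ω ∩ (Dx η d a ε hε hη).D t))
      (MidB (gS S (Dx η d a ε hε hη).Q ∪ fs (points ε ω ∩ (Dx η d a ε hε hη).D t) ∪
        gS S ((Dx η d a ε hε hη).Qn t)) 100 0 (η : ℂ) ((nxt (100 * η) t).e 0)
        (rot t * (η : ℂ))) ∧
    p ≤ pr (fs (points ε ω ∩ (Dx η d a ε hε hη).D t)) (fun τ =>
      MidW (gS S (Dx η d a ε hε hη).Q ∪ fs (points ε ω ∩ (Dx η d a ε hε hη).D t) ∪
        gS S ((Dx η d a ε hε hη).Qn t)) 100 0 (η : ℂ) ((nxt (100 * η) t).e 0)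
        (rot t * (η : ℂ)) (fs (points ε ω ∩ (Dx η d a ε hε hη).D t) \ τ)) := by
  set P := Dx η d a ε hε hη with hP
  set V := fs (points ε ω ∩ P.D t) with hV
  have hVm : ∀ s, s ∈ V ↔ s ∈ points ε ω ∧ s ∈ P.D t := fun s =>
    mem_fs (pts_fin hε (P.D_bdd t) ω)
  have he : ‖((η : ℝ) : ℂ)‖ = η := by rw [Complex.norm_real, Real.norm_of_nonneg hη.le]
  have hnx := norm_nx hη hη1 t
  have dD : Disjoint (P.Q ∪ P.Qn t) (P.D t) := P.D_disj t
  have hc : c1 * η ≤ 1 / 20 * η := mul_le_mul_of_nonneg_right hc1 hη.le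
  refine H R0 ε r η 100 ω 0 (η : ℂ) _ _ hω hr hr1 hη hη1 (by norm_num) (by norm_num) he
    (fr_nxt η 100 t) (by rw [norm_zero]; linarith) (by linarith) (P.D t) ?_ _ V ?_
    (fun s h1 h2 => (hVm s).2 ⟨h2, h1⟩)
  · intro w h1 h2 s hs
    exact mi_D hη (d := r) (by linarith) t h1 h2 hs
  · intro s hs
    rw [Finset.mem_union, Finset.mem_union]
    constructor
    · rintro ((h | h) | h)
      · exact absurd hs (fun h' => Set.disjoint_left.1 dD (Or.inl (gS_mem h)) h')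
      · exact ((hVm s).1 h).1
      · exact absurd hs (fun h' => Set.disjoint_left.1 dD (Or.inr (gS_mem h)) h')
    · intro h
      exact Or.inl (Or.inr ((hVm s).2 ⟨h, hs⟩))

end mid

/-! ### the constants -/

/-- the quenched tile bound (120) -/
def TQ : Prop := ∀ (η d a p ε : ℝ) (hε : 0 < ε) (hη : 0 < η), 0 < d → 4 * d ≤ η → 0 ≤ a → 0 ≤ p →
  ∀ (t : Tn) (S : Cf) (T : Finset ℂ), S.Finite → Sc S →
  S ⊆ ovr ((Dx η d a ε hε hη).Q ∪ (Dx η d a ε hε hη).Qn t) →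
  (∀ s ∈ T, s ∈ (Dx η d a ε hε hη).D t) → GP (psn S ∪ T) →
  p ≤ pr T (TileRRx345.MidB (gS S (Dx η d a ε hε hη).Q ∪ T ∪
        gS S ((Dx η d a ε hε hη).Qn t)) 100 0 (η : ℂ) ((nxt (100 * η) t).e 0)
        (rot t * (η : ℂ))) →
  p ≤ pr T (fun τ => TileRRx345.MidW (gS S (Dx η d a ε hε hη).Q ∪ T ∪
        gS S ((Dx η d a ε hε hη).Qn t)) 100 0 (η : ℂ) ((nxt (100 * η) t).e 0)
        (rot t * (η : ℂ)) (T \ τ)) →
  QTile (Dx η d a ε hε hη) t (RH η d) (LH η d) a (a * (p * p) * a) S T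

/-- **THE TEMPLATE HAS POSITIVE CONSTANTS** (the constants do not depend on the unit `η`) -/
theorem pos_ex : ∃ (C a : ℝ) (c b : ℝ≥0∞), (0 < C ∧ 0 < a ∧ c ≠ 0 ∧ c ≤ 1 ∧ b ≠ 0 ∧ b ≤ 1) ∧ (TQ →
    ∀ η : ℝ, 0 < η → 10 * η ≤ 1 → ∀ᶠ ε : ℝ in 𝓝[>] 0, 0 < rad C ε ∧ 8 * rad C ε ≤ η ∧
      ∀ (hε : 0 < ε) (hη : 0 < η) (c0 : c ≠ 0) (c1 : c ≤ 1),
        ((Dx η (2 * rad C ε) a ε hε hη).raw ε hε c c0 c1).AePos ∧
        b ≤ sampleLaw {ω | (Dx η (2 * rad C ε) a ε hε hη).wA (cfg ε ω) ≠ 0}) := by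
  obtain ⟨p, c1, c2, K, hp, hp1, hc1, hc1', hc2, hc2', hK, HM, HG⟩ := MassFx73.gm'
  obtain ⟨C, hC, HC⟩ := Gmx838.gm_pr (11 + (K + 1)) 1
  set a : ℝ := p / 4 with ha
  have ha0 : 0 < a := by positivity
  have ha1 : a ≤ 1 / 4 := by rw [ha]; linarith
  set δ : ℝ := a ^ 2 / 2 with hδ
  have hδ0 : 0 < δ := by positivity
  have hδ1 : δ ≤ 1 / 4 := by rw [hδ]; nlinarith
  set p' : ℝ := a * (p * p) * a with hp'
  have hp'0 : 0 < p' := by positivity
  have hp'1 : p' ≤ 1 := by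
    rw [hp']
    have h1 : p * p ≤ 1 := by nlinarith
    have h2 : a * (p * p) ≤ 1 / 4 := by nlinarith [mul_pos hp hp]
    nlinarith [mul_pos ha0 (mul_pos hp hp)]
  refine ⟨C, a, ENNReal.ofReal (p' * δ), ENNReal.ofReal (p / 4), ⟨hC, ha0,
    (ENNReal.ofReal_pos.2 (by positivity)).ne', ?_, (ENNReal.ofReal_pos.2 (by positivity)).ne', ?_⟩, ?_⟩
  · rw [ENNReal.ofReal_le_one]
    nlinarith
  · rw [ENNReal.ofReal_le_one]
    linarith
  intro HT η hη hη1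
  have hsm : ∀ᶠ ε : ℝ in 𝓝[>] 0, ε ≤ δ :=
    (tendsto_nhdsWithin_of_tendsto_nhds tendsto_id).eventually (Iic_mem_nhds hδ0)
  filter_upwards [HC K (min c1 (1 / 16)) c2 η (by linarith) (by positivity) hc2 hη, hsm,
    eventually_mem_nhdsWithin] with ε h1 h2 hε'
  obtain ⟨⟨hr, hr1⟩, hGm⟩ := h1
  have hra : rad C ε ≤ c1 * η := hr1.trans (mul_le_mul_of_nonneg_right (min_le_left _ _) hη.le)
  have hrb : rad C ε ≤ 1 / 16 * η := hr1.trans (mul_le_mul_of_nonneg_right (min_le_right _ _) hη.le)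
  refine ⟨hr, by linarith, ?_⟩
  intro hε hη' c0' c1'
  have hKη : (K + 1) * (5 * η) ≤ (K + 1) / 2 := by nlinarith
  have hR : 10 + (K + 1) * (5 * η) + 2 * rad C ε ≤ 11 + (K + 1) := by linarith
  have hGd : sampleLaw {ω | ¬ Gmx838.Gm (11 + (K + 1)) ε (rad C ε) K c2 η ω} ≤ ENNReal.ofReal δ := by
    refine hGm.trans (ENNReal.ofReal_le_ofReal ?_)
    rw [Real.rpow_one]
    exact h2
  constructor
  · refine aepos_Dx hε hη' hp'1 (Gm := {ω | Gmx838.Gm (11 + (K + 1)) ε (rad C ε) K c2 η ω}) hGd ?_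
      c0' c1' ?_
    · intro t ω hω S hS hSQ hc hgp
      set P := Dx η (2 * rad C ε) a ε hε hη' with hP
      have hVm : ∀ s, s ∈ fs (points ε ω ∩ P.D t) ↔ s ∈ points ε ω ∧ s ∈ P.D t := fun s =>
        mem_fs (pts_fin hε (P.D_bdd t) ω)
      obtain ⟨m1, m2⟩ := mids (d := 2 * rad C ε) (a := a) HM hc1' hε hη' hη1 hr hra hR hω t S
      refine HT η (2 * rad C ε) a p ε hε hη' (by linarith) (by linarith) ha0.le hp.le t S _ hS hc hSQ
        (fun s hs => ((hVm s).1 hs).2) ?_ m1 m2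
      rw [fs_fin (pts_fin hε (P.D_bdd t) ω)]
      exact hgp
    · rw [← ENNReal.ofReal_mul ha0.le, ← ENNReal.ofReal_sub _ hδ0.le, ← ENNReal.ofReal_mul hp'0.le]
      refine ENNReal.ofReal_le_ofReal ?_
      refine mul_le_mul_of_nonneg_left ?_ hp'0.le
      rw [hδ]
      nlinarith
  · refine MassFx73.mass_F (P := Dx η (2 * rad C ε) a ε hε hη') HG hc1' hK rfl (dQ hε hη') hε hη hη1
      hr hra (d := 2 * rad C ε) le_rfl (by linarith) (by linarith) hGd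
      (a := ENNReal.ofReal a + ENNReal.ofReal a) ?_ (fun X h => h) ?_
    · rw [← ENNReal.ofReal_add ha0.le ha0.le]
      exact (ENNReal.ofReal_pos.2 (by linarith)).ne'
    · rw [← ENNReal.ofReal_one, ← ENNReal.ofReal_sub _ hδ0.le, ← ENNReal.ofReal_mul hp.le,
        ← ENNReal.ofReal_add ha0.le ha0.le, ← ENNReal.ofReal_add (by linarith) (by positivity)]
      refine ENNReal.ofReal_le_ofReal ?_
      rw [ha]
      nlinarith

/-- the constant of the density radius `rad cC ε` -/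
def cC : ℝ := pos_ex.choose

/-- the goodness level (`gd` at the level `2 ca`) -/
def ca : ℝ := pos_ex.choose_spec.choose

/-- **the constant of the tiles** -/
def cc : ℝ≥0∞ := pos_ex.choose_spec.choose_spec.choose

/-- **the constant of the gates** -/
def cb : ℝ≥0∞ := pos_ex.choose_spec.choose_spec.choose_spec.choose

theorem cs : 0 < cC ∧ 0 < ca ∧ cc ≠ 0 ∧ cc ≤ 1 ∧ cb ≠ 0 ∧ cb ≤ 1 :=
  pos_ex.choose_spec.choose_spec.choose_spec.choose_spec.1

theorem cC_pos : 0 < cC := cs.1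

theorem ca_pos : 0 < ca := cs.2.1

theorem cc_ne : cc ≠ 0 := cs.2.2.1

theorem cc_le : cc ≤ 1 := cs.2.2.2.1

theorem cb_ne : cb ≠ 0 := cs.2.2.2.2.1

theorem cb_le : cb ≤ 1 := cs.2.2.2.2.2

/-- **data of the template** at the unit `η` and intensity `ε` -/
def Dt (η ε : ℝ) (hε : 0 < ε) (hη : 0 < η) : DT := Dx η (2 * rad cC ε) ca ε hε hη

/-- **the template** -/
def Tr (η ε : ℝ) (hε : 0 < ε) (hη : 0 < η) : Raw ε (Tn × Bool) :=
  (Dt η ε hε hη).raw ε hε cc cc_ne cc_le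

/-- **THE TEMPLATE HAS POSITIVE CONSTANTS** -/
theorem posF_of (HT : TQ) {η : ℝ} (hη : 0 < η) (hη1 : 10 * η ≤ 1) :
    ∀ᶠ ε : ℝ in 𝓝[>] 0, 0 < rad cC ε ∧ 8 * rad cC ε ≤ η ∧ ∀ (hε : 0 < ε) (hη : 0 < η),
      (Tr η ε hε hη).AePos ∧ cb ≤ sampleLaw {ω | (Dt η ε hε hη).wA (cfg ε ω) ≠ 0} ∧
      cb ≤ ∫⁻ ω, (Dt η ε hε hη).wA (cfg ε ω) ∂sampleLaw := by
  filter_upwards [pos_ex.choose_spec.choose_spec.choose_spec.choose_spec.2 HT η hη hη1] with ε h
  refine ⟨h.1, h.2.1, fun hε hη => ?_⟩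
  obtain ⟨h1, h2⟩ := h.2.2 hε hη cc_ne cc_le
  exact ⟨h1, h2, by rw [lint_wA _ hε]; exact h2⟩

end Crest.Agent.R143.PosFx653
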