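import Crest.Agent.R143.PosF_653

/-!
# R143 (helper653), box R1 (C): the quenched tile bound at the template

* `tq : TQ`, from `theta_ge` (73), the middles (345) and the half events `gdR`, `gdL` (73)
* `posF` : the template has positive constants
-/

set_option autoImplicit false

noncomputable section

open scoped Classical

namespace Crest.Agent.R143.PosFx653

open MeasureTheory Set ProbabilityTheory Filter Topology
open Crest.ProbabilityR.Voronoi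
open Crest.Agent.R143.B0x346 (GP)
open Crest.Agent.R143.PP0x831 Crest.Agent.R143.Poisx304 Crest.Agent.R143.Janx304
open Crest.Agent.R143.IndLocx279 Crest.Agent.R143.IndLoc3x279
open Crest.Agent.R143.PWx978 Crest.Agent.R143.Tplx978
open Crest.Agent.R143.Fairx653 Crest.Agent.R143.Posx653 Crest.Agent.R143.TplIx204
open Crest.Agent.R143.QTbx653 Crest.Agent.R143.CBx838
open Crest.Agent.R143.PthFx765 Crest.Agent.R143.WLocx713 Crest.Agent.R143.TileRx228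
open Crest.Agent.R143.Harx315 (pr pr_mono)
open Crest.Agent.R143.PP1x831 (rad)
open Crest.Agent.R143.Gatex838 Crest.Agent.R143.TileRRx345
open Crest.Agent.R143.Neckx921 (Tile Lk)
open Crest.Agent.R143.Thetax73 (Su theta_ge)
open Crest.Agent.R143.RHx73 (Hf Pb Pw)
open Crest.Agent.R143.Halfx73 (g0 RH LH Q0 WQ_Q0 gS gB gB_sub KBR KWR KBL KWL gdR gdL)
open scoped ENNReal

variable {η d a ε : ℝ}

/-- the rectangles of the tile are in the tile region -/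
theorem re_WR (hη : 0 < η) (t : Tn) {w : ℂ}
    (h2 : w ∈ Re 100 0 (η : ℂ) ((nxt (100 * η) t).e 0) (rot t * (η : ℂ))) :
    w ∈ WR (9 * η) (51 * η) (100 * η) t := by
  rcases h2 with ⟨⟨a1, a2⟩, a3, a4⟩ | ⟨⟨a1, a2⟩, a3, a4⟩
  · rw [X_zero η, lt_div_iff₀ hη] at a1
    rw [X_zero η, div_lt_iff₀ hη] at a2
    rw [Y_zero η, lt_div_iff₀ hη] at a3
    rw [Y_zero η, div_lt_iff₀ hη] at a4
    refine Or.inl ⟨⟨by linarith, by linarith⟩, ?_⟩
    rw [abs_lt]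
    constructor <;> linarith
  · rw [X_nxt η, lt_div_iff₀ hη] at a1
    rw [X_nxt η, div_lt_iff₀ hη] at a2
    rw [Y_nxt η, lt_div_iff₀ hη] at a3
    rw [Y_nxt η, div_lt_iff₀ hη] at a4
    refine Or.inr ⟨⟨by linarith, by linarith⟩, ?_⟩
    rw [abs_lt]
    constructor <;> linarith

/-- a link region at the first gate -/
theorem kr_WR (hη : 0 < η) (t : Tn) {w : ℂ} (h : w ∈ KBR η ∪ KWR η) :
    w ∈ WR (9 * η) (51 * η) (100 * η) t := by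
  rcases h with ⟨⟨h1, h2⟩, h3, -⟩ | ⟨⟨h1, h2⟩, h3, -⟩ <;>
    exact Or.inl ⟨⟨by linarith, by linarith⟩, h3⟩

/-- a link region at the second gate -/
theorem kl_WR (hη : 0 < η) (t : Tn) {w : ℂ}
    (h : w ∈ (nxt (100 * η) t).e.symm ⁻¹' (KBL η ∪ KWL η)) :
    w ∈ WR (9 * η) (51 * η) (100 * η) t := by
  rcases h with ⟨⟨h1, h2⟩, h3, -⟩ | ⟨⟨h1, h2⟩, h3, -⟩ <;>
    exact Or.inr ⟨⟨by linarith, by linarith⟩, h3⟩

/-- outside the gate box a point of a link region is beyond `2 η` -/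
theorem off_Q0 (hη : 0 < η) {w : ℂ} (h : w ∉ Q0 η) (h1 : -η < w.re) (h2 : |w.im| < 9 * η) :
    2 * η ≤ w.re := by
  by_contra h3
  refine h ⟨?_, by linarith⟩
  rw [abs_lt]
  constructor <;> linarith

theorem off_Q0' (hη : 0 < η) {w : ℂ} (h : w ∉ Q0 η) (h1 : w.re < η) (h2 : |w.im| < 9 * η) :
    w.re ≤ -(2 * η) := by
  by_contra h3
  refine h ⟨?_, by linarith⟩
  rw [abs_lt]
  constructor <;> linarith

/-- **the quenched tile bound** -/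
theorem tq : TQ := by
  intro η d a p ε hε hη hd hdη ha hp t S T hS hc hSQ hT hgp mB mW
  set P := Dx η d a ε hε hη with hP
  have hA := dA (d := d) (a := a) hε hη
  have hB := dB (d := d) (a := a) hε hη
  have hh := dh (d := d) (a := a) hε hη
  have eQ : P.Q = Q0 η := dQ hε hη
  have dD : Disjoint (P.Q ∪ P.Qn t) (P.D t) := P.D_disj t
  refine qtile_of hS hc hSQ hT ?_
  intro b b' hb hb' h1 h2
  -- frames
  set z' : ℂ := (nxt (100 * η) t).e 0 with hz'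
  set e' : ℂ := rot t * (η : ℂ) with he'
  have he : (η : ℂ) ≠ 0 := by exact_mod_cast hη.ne'
  have f : Fr 100 0 (η : ℂ) z' e' := fr_nxt η 100 t
  -- sets of sites
  set G := gS S P.Q with hG
  set G' := gS S (P.Qn t) with hG'
  set q := gB S P.Q with hq
  set q' := gB S (P.Qn t) with hq'
  set M := G ∪ T ∪ G' with hM
  have hT1 : ∀ s ∈ T, s ∉ P.Q := fun s hs h => Set.disjoint_left.1 dD (Or.inl h) (hT s hs)
  have hT2 : ∀ s ∈ T, s ∉ P.Qn t := fun s hs h => Set.disjoint_left.1 dD (Or.inr h) (hT s hs)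
  have dG : Disjoint G T := gs_disj hT1
  have dG' : Disjoint G' T := gs_disj hT2
  have dGG : Disjoint G G' := gs_gs (DT.QQn hA hB hη hh t)
  have eM : sx S ∪ T = M := sx_gS hS hSQ
  have gM : GP (M : Set ℂ) := by rw [hM, coe_gS hS hSQ]; exact hgp
  set To := T.filter (· ∈ Wh 0 (η : ℂ) z' e') with hTo
  set Ti := T.filter (fun s => ¬ s ∈ Wh 0 (η : ℂ) z' e') with hTi
  have hoi : Disjoint To Ti := by
    rw [Finset.disjoint_left]
    intro s h3 h4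
    exact (Finset.mem_filter.1 h4).2 (Finset.mem_filter.1 h3).2
  -- the half events
  have g1 := gdR (T := T) (a := a) hη hd hdη hS hc (fun s hs h3 => by
    obtain ⟨v, hv, rfl⟩ := hs
    exact Set.disjoint_left.1 dD (hSQ hv) (DT.CRD hA hB hη hh t h3)) (fun s hs => by
      rw [← eQ]; exact hT1 s hs) h1
  have g2 := gdL (T := T) (a := a) (h := 100 * η) (t := t) hη hd hdη hS hc (fun s hs h3 => by
    obtain ⟨v, hv, rfl⟩ := hs
    exact Set.disjoint_left.1 dD (hSQ hv) (DT.CLD hA hB hη hh t h3)) (fun s hs h3 => by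
      refine hT2 s hs ?_
      show (nxt (100 * η) t).e.symm s ∈ P.Q
      rw [eQ]; exact h3) h2
  rw [eM] at g1 g2
  rw [← eQ] at g1 g2
  rw [mul_comm (η : ℂ) (rot t)] at g2
  -- supports
  have K1 : ∀ s ∈ T, s ∈ KBR η → s ∈ Ti := fun s hs h3 => by
    refine Finset.mem_filter.2 ⟨hs, not_wh he (by norm_num) f ?_ ?_⟩
    · rw [Y_zero, div_lt_iff₀ hη]
      have := h3.2.2 (off_Q0 hη (by rw [← eQ]; exact hT1 s hs) h3.1.1 h3.2.1)
      linarith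
    · rw [X_zero, div_le_iff₀ hη]
      linarith [h3.1.2]
  have K2 : ∀ s ∈ T, s ∈ KWR η → s ∈ To := fun s hs h3 => by
    refine Finset.mem_filter.2 ⟨hs, wh he (by norm_num) f ?_ ?_⟩
    · rw [Y_zero, lt_div_iff₀ hη]
      have := h3.2.2 (off_Q0 hη (by rw [← eQ]; exact hT1 s hs) h3.1.1 h3.2.1)
      linarith
    · rw [X_zero, div_le_iff₀ hη]
      linarith [h3.1.2]
  have oQn : ∀ s ∈ T, (nxt (100 * η) t).e.symm s ∉ Q0 η := fun s hs h3 => by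
    refine hT2 s hs ?_
    show (nxt (100 * η) t).e.symm s ∈ P.Q
    rw [eQ]
    exact h3
  have K3 : ∀ s ∈ T, s ∈ (nxt (100 * η) t).e.symm ⁻¹' KBL η → s ∈ Ti := fun s hs h3 => by
    refine Finset.mem_filter.2 ⟨hs, not_wh' he (by norm_num) f ?_ ?_⟩
    · rw [Y_nxt, div_lt_iff₀ hη]
      have := h3.2.2 (off_Q0' hη (oQn s hs) h3.1.2 h3.2.1)
      linarith
    · rw [X_nxt, le_div_iff₀ hη]
      linarith [h3.1.1]
  have K4 : ∀ s ∈ T, s ∈ (nxt (100 * η) t).e.symm ⁻¹' KWL η → s ∈ To := fun s hs h3 => by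
    refine Finset.mem_filter.2 ⟨hs, wh' he (by norm_num) f ?_ ?_⟩
    · rw [Y_nxt, lt_div_iff₀ hη]
      have := h3.2.2 (off_Q0' hη (oQn s hs) h3.1.2 h3.2.1)
      linarith
    · rw [X_nxt, le_div_iff₀ hη]
      linarith [h3.1.1]
  have Z1 : ∀ s ∈ T, 10 < X 0 (η : ℂ) s → X 0 (η : ℂ) s < 101 / 10 → (-8 : ℝ) - 1 / 20 ≤ Y 0 (η : ℂ) s →
      Y 0 (η : ℂ) s ≤ -(47 / 10) + 1 / 20 → s ∈ Ti := fun s hs a1 a2 a3 a4 =>
    Finset.mem_filter.2 ⟨hs, not_wh he (by norm_num) f (by linarith) (by linarith)⟩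
  have Z2 : ∀ s ∈ T, 10 < X 0 (η : ℂ) s → X 0 (η : ℂ) s < 101 / 10 → (2 : ℝ) - 1 / 20 ≤ Y 0 (η : ℂ) s →
      Y 0 (η : ℂ) s ≤ 8 + 1 / 20 → s ∈ To := fun s hs a1 a2 a3 a4 =>
    Finset.mem_filter.2 ⟨hs, wh he (by norm_num) f (by linarith) (by linarith)⟩
  have Z3 : ∀ s ∈ T, -(101 / 10) < X z' e' s → X z' e' s < -10 → (-8 : ℝ) - 1 / 20 ≤ Y z' e' s →
      Y z' e' s ≤ -(47 / 10) + 1 / 20 → s ∈ Ti := fun s hs a1 a2 a3 a4 =>
    Finset.mem_filter.2 ⟨hs, not_wh' he (by norm_num) f (by linarith) (by linarith)⟩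
  have Z4 : ∀ s ∈ T, -(101 / 10) < X z' e' s → X z' e' s < -10 → (2 : ℝ) - 1 / 20 ≤ Y z' e' s →
      Y z' e' s ≤ 8 + 1 / 20 → s ∈ To := fun s hs a1 a2 a3 a4 =>
    Finset.mem_filter.2 ⟨hs, wh' he (by norm_num) f (by linarith) (by linarith)⟩
  have su : ∀ {G0 W : Finset ℂ} {z e : ℂ} {l0 l1 p0 p1 m : ℝ} {K P0 : Set ℂ},
      (∀ s ∈ T, s ∈ K → s ∈ W) → (∀ s ∈ T, l0 < X z e s → X z e s < l1 → p0 - m ≤ Y z e s →
        Y z e s ≤ p1 + m → s ∈ W) → Su (G0 ∪ T) (G0 ∪ W) (Hf M z e l0 l1 p0 p1 m K P0) := by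
    intro G0 W z e l0 l1 p0 p1 m K P0 k1 k2
    refine Hf.su (fun s hs hk => ?_) (fun s hs b1 b2 b3 b4 => ?_)
    · rw [Finset.mem_union] at hs ⊢
      exact hs.imp id fun h => k1 s h hk
    · rw [Finset.mem_union] at hs ⊢
      exact hs.imp id fun h => k2 s h b1 b2 b3 b4
  refine theta_ge (To := To) (Ti := Ti) (Mw := MidW M 100 0 (η : ℂ) z' e')
    (Mb := MidB M 100 0 (η : ℂ) z' e')
    (E := fun β => Tile M M β (WR P.A P.B P.h t) b.1 b.2 b'.1 b'.2) ha hp dG dG' dGG hoi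
    (gB_sub hS _) (gB_sub hS _) Hf.mo Hf.mo Hf.mo Hf.mo mo_midW mo_midB
    (su K2 Z2) (su K1 Z1) (su K4 Z4) (su K3 Z3)
    (su_midW he (by norm_num) f fun s hs h3 _ _ => Finset.mem_filter.2 ⟨hs, h3⟩)
    (su_midB he (by norm_num) f fun s hs h3 _ _ => Finset.mem_filter.2 ⟨hs, h3⟩)
    g1 mW mB g2 ?_
  -- the deterministic part
  rintro β hβ ⟨l1, v1, k1⟩ ⟨l2, v2, k2⟩ ⟨l3, v3, k3⟩ ⟨l4, v4, k4⟩ hMb hMw
  have w1 : ∀ t0 ∈ l1, Lk M {s | s ∈ β ∧ s ∈ WR P.A P.B P.h t} b.1 t0 := fun t0 ht0 =>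
    (k1 b.1 ⟨b, hb, rfl⟩ t0 ht0).mono fun s hs => ⟨hs.1, kr_WR hη t (Or.inl hs.2)⟩
  have w2 : ∀ t0 ∈ l2, Lk M {s | (s ∈ M ∧ s ∉ β) ∧ s ∈ WR P.A P.B P.h t} b.2 t0 := fun t0 ht0 =>
    (k2 b.2 ⟨b, hb, rfl⟩ t0 ht0).mono fun s hs =>
      ⟨Finset.mem_sdiff.1 hs.1, kr_WR hη t (Or.inr hs.2)⟩
  have w3 : ∀ t0 ∈ l3, Lk M {s | s ∈ β ∧ s ∈ WR P.A P.B P.h t} b'.1 t0 := fun t0 ht0 =>
    (k3 b'.1 ⟨b', hb', rfl⟩ t0 ht0).mono fun s hs => ⟨hs.1, kl_WR hη t (Or.inl hs.2)⟩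
  have w4 : ∀ t0 ∈ l4, Lk M {s | (s ∈ M ∧ s ∉ β) ∧ s ∈ WR P.A P.B P.h t} b'.2 t0 := fun t0 ht0 =>
    (k4 b'.2 ⟨b', hb', rfl⟩ t0 ht0).mono fun s hs =>
      ⟨Finset.mem_sdiff.1 hs.1, kl_WR hη t (Or.inr hs.2)⟩
  exact tile_all
    (half_b gM he (by norm_num) f v1 v3 (by norm_num) (by norm_num) (by norm_num) (by norm_num)
      hMb w1 w3 fun s _ _ h3 => re_WR hη t h3)
    (half_w gM he (by norm_num) f v2 v4 (by norm_num) (by norm_num) (by norm_num) (by norm_num)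
      hMw w2 w4 fun s _ _ h3 => re_WR hη t h3)

/-- **THE TEMPLATE HAS POSITIVE CONSTANTS** -/
theorem posF {η : ℝ} (hη : 0 < η) (hη1 : 10 * η ≤ 1) :
    ∀ᶠ ε : ℝ in 𝓝[>] 0, 0 < rad cC ε ∧ 8 * rad cC ε ≤ η ∧ ∀ (hε : 0 < ε) (hη : 0 < η),
      (Tr η ε hε hη).AePos ∧ cb ≤ sampleLaw {ω | (Dt η ε hε hη).wA (cfg ε ω) ≠ 0} ∧
      cb ≤ ∫⁻ ω, (Dt η ε hε hη).wA (cfg ε ω) ∂sampleLaw :=
  posF_of tq hη hη1

end Crest.Agent.R143.PosFx653
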