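import Crest.Agent.R143.RigZ_609
import Crest.Agent.R143.PosF_653
import Crest.Agent.R143.TQ_653

/-!
# Row 143 (S0194), RIG: the template data of all widths and meshes (helper204, for 609's `TData`)

* `Zt : TData` : 653's template at the unit `et N = hN N / 100` (trivial data for `ε ≤ 0`)
* `Zt_D`, `Zt_tpl`, `Zt_raw` : for `0 < ε`
* **`posP_of : TQ → PosP Zt`** ; **`ae_of`** : 978's `AePos`, eventually in `ε`
-/

set_option autoImplicit false

noncomputable section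

open scoped Classical ENNReal

namespace Crest.Agent.R143.TDatx204

open MeasureTheory Set Filter Topology
open Crest.ProbabilityR.Voronoi
open Crest.Agent.R143.PP0x831
open Crest.Agent.R143.PWx978 Crest.Agent.R143.Tplx978
open Crest.Agent.R143.PthFx765 Crest.Agent.R143.TplIx204
open Crest.Agent.R143.PosFx653 Crest.Agent.R143.RigPx854
open Crest.Agent.R143.RigZdx609 Crest.Agent.R143.RigZx609
open Crest.Agent.R143.PP1x831 (rad)

theorem fm_true : FinMeas fun _ : Cf => True := fun n => measurable_const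

/-- trivial data -/
def D0 (η : ℝ) : DT where
  g := CorHx713.gO η
  A := 9 * η
  B := 51 * η
  A' := 12 * η
  B' := 52 * η
  h := 100 * η
  Gd _ := True
  Gm := fm_true

/-- the data -/
def Zd (N : ℕ) (ε : ℝ) : DT := if h : 0 < ε then Dt (et N) ε h (et_pos N) else D0 (et N)

theorem Zd_pos (N : ℕ) {ε : ℝ} (h : 0 < ε) : Zd N ε = Dt (et N) ε h (et_pos N) := dif_pos h

theorem num_Dt {η ε : ℝ} (hε : 0 < ε) (hη : 0 < η) : GPosCx348.NumC (Dt η ε hε hη) η :=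
  ⟨hη, rfl, rfl, rfl, rfl, rfl, rfl⟩

theorem num_D0 {η : ℝ} (hη : 0 < η) : GPosCx348.NumC (D0 η) η := ⟨hη, rfl, rfl, rfl, rfl, rfl, rfl⟩

theorem num_Zd (N : ℕ) (ε : ℝ) : GPosCx348.NumC (Zd N ε) (et N) := by
  unfold Zd
  split_ifs with h
  · exact num_Dt h (et_pos N)
  · exact num_D0 (et_pos N)

/-- **the template data** -/
def Zt : TData where
  D := Zd
  c _ _ := cc
  c0 _ _ := cc_ne
  c1 _ _ := cc_le
  num := num_Zd

theorem Zt_D (N : ℕ) {ε : ℝ} (h : 0 < ε) : Zt.D N ε = Dt (et N) ε h (et_pos N) := Zd_pos N h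

theorem Zt_raw (N : ℕ) {ε : ℝ} (h : 0 < ε) : Zt.raw N h = Tr (et N) ε h (et_pos N) := by
  have key : ∀ P : DT, P = Dt (et N) ε h (et_pos N) →
      P.raw ε h cc cc_ne cc_le = Tr (et N) ε h (et_pos N) := by
    rintro P rfl
    rfl
  exact key _ (Zt_D N h)

theorem Zt_tpl (N : ℕ) {ε : ℝ} (h : 0 < ε) : Zt.tpl N h = (Tr (et N) ε h (et_pos N)).tpl := by
  unfold TData.tpl
  rw [Zt_raw]

theorem et_small (N : ℕ) : 10 * et N ≤ 1 := by
  have h1 : hN N ≤ 1 := by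
    unfold hN
    exact pow_le_one₀ (by norm_num) (by norm_num)
  unfold et
  linarith

/-- **653's bounds at the unit `et N`** -/
theorem all_of (HT : TQ) (N : ℕ) : ∀ᶠ ε : ℝ in 𝓝[>] 0, 0 < rad cC ε ∧ 8 * rad cC ε ≤ et N ∧
    ∀ he : 0 < ε, (Zt.raw N he).AePos ∧
      cb ≤ sampleLaw {ω | (Zt.D N ε).wA (cfg ε ω) ≠ 0} ∧
      cb ≤ ∫⁻ ω, (Zt.tpl N he).A (cfg ε ω) ∂sampleLaw := by
  filter_upwards [posF_of HT (et_pos N) (et_small N)] with ε h
  refine ⟨h.1, h.2.1, fun he => ?_⟩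
  obtain ⟨h1, h2, h3⟩ := h.2.2 he (et_pos N)
  rw [Zt_raw, Zt_D N he, Zt_tpl]
  exact ⟨h1, h2, h3⟩

/-- **978's `AePos`** -/
theorem ae_of (HT : TQ) (N : ℕ) : ∀ᶠ ε : ℝ in 𝓝[>] 0, ∀ he : 0 < ε, (Zt.raw N he).AePos :=
  (all_of HT N).mono fun _ h he => (h.2.2 he).1

/-- **`PosP`** -/
theorem posP_of (HT : TQ) : PosP Zt := by
  have t1 : cc ≠ ∞ := ne_top_of_le_ne_top ENNReal.one_ne_top cc_le
  have t2 : cb ≠ ∞ := ne_top_of_le_ne_top ENNReal.one_ne_top cb_le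
  refine ⟨cc.toReal, ENNReal.toReal_pos cc_ne t1, cb.toReal, ENNReal.toReal_pos cb_ne t2,
    fun N => ?_⟩
  filter_upwards [all_of HT N] with ε h he
  rw [ENNReal.ofReal_toReal t1, ENNReal.ofReal_toReal t2]
  exact ⟨le_rfl, (h.2.2 he).2.2⟩

/-- **positivity of the template** -/
theorem posP : PosP Zt := posP_of tq

theorem ae (N : ℕ) : ∀ᶠ ε : ℝ in 𝓝[>] 0, ∀ he : 0 < ε, (Zt.raw N he).AePos := ae_of tq N

end Crest.Agent.R143.TDatx204
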