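import Crest.Agent.R143.PosF_653

/-!
# Row 143, CORE-C, box R1d: the quenched tile bound `TQ` (helper73)

* `core` : `a (p p) a ≤ pr T Tile` from the half events of the two gates and the lanes
* **`tq`** : helper653's `PosFx653.TQ`
* **`posF`** : the template has positive constants, no hypothesis left
-/

set_option autoImplicit false

noncomputable section

open scoped Classical

namespace Crest.Agent.R143.TQx73

open Set MeasureTheory Filter Topology
open Crest.ProbabilityR.Voronoi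
open Crest.Agent.R143.B0x346 (GP)
open Crest.Agent.R143.PP0x831 Crest.Agent.R143.Poisx304 Crest.Agent.R143.Janx304
open Crest.Agent.R143.IndLoc3x279 Crest.Agent.R143.IndLocx279
open Crest.Agent.R143.Prodx609 Crest.Agent.R143.FinMx609 Crest.Agent.R143.FinM2x609
open Crest.Agent.R143.DelGx806 Crest.Agent.R143.DelRx806 Crest.Agent.R143.Locx922
open Crest.Agent.R143.PWx978 Crest.Agent.R143.Tplx978
open Crest.Agent.R143.Gatex838
open Crest.Agent.R143.Fairx653 Crest.Agent.R143.Posx653 Crest.Agent.R143.PosFx653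
open Crest.Agent.R143.TplIx204 (DT)
open Crest.Agent.R143.QTbx653
open Crest.Agent.R143.PthFx765 Crest.Agent.R143.WLocx713 Crest.Agent.R143.TileRx228
open Crest.Agent.R143.Neckx921 (Tile Lk)
open Crest.Agent.R143.Harx315 (pr pr_mono)
open Crest.Agent.R143.Thetax73 Crest.Agent.R143.RHx73
open Crest.Agent.R143.TileRRx345
open Crest.Agent.R143.Halfx73 (g0 RH LH Q0 KBR KWR KBL KWL gS gB gB_sub gdR gdL CR CL)
open scoped ENNReal

variable {η d a p : ℝ} {t : Tn} {S : Cf} {T : Finset ℂ}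

section geo

variable (hη : 0 < η)
include hη

theorem re_WR {s : ℂ} (h : s ∈ Re 100 0 (η : ℂ) ((nxt (100 * η) t).e 0) (rot t * (η : ℂ))) :
    s ∈ WR (9 * η) (51 * η) (100 * η) t := by
  rcases h with ⟨⟨a1, a2⟩, a3, a4⟩ | ⟨⟨a1, a2⟩, a3, a4⟩
  · rw [X_zero η, lt_div_iff₀ hη] at a1
    rw [X_zero η, div_lt_iff₀ hη] at a2
    rw [Y_zero η, lt_div_iff₀ hη] at a3
    rw [Y_zero η, div_lt_iff₀ hη] at a4
    refine Or.inl ⟨⟨by linarith, by linarith⟩, ?_⟩
    rw [abs_lt]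
    constructor <;> linarith
  · rw [X_nxt η, lt_div_iff₀ hη] at a1
    rw [X_nxt η, div_lt_iff₀ hη] at a2
    rw [Y_nxt η, lt_div_iff₀ hη] at a3
    rw [Y_nxt η, div_lt_iff₀ hη] at a4
    refine Or.inr ⟨⟨by linarith, by linarith⟩, ?_⟩
    rw [abs_lt]
    constructor <;> linarith

theorem kr_WR {s : ℂ} (h : -η < s.re ∧ s.re < 11 * η) (h' : |s.im| < 9 * η) :
    s ∈ WR (9 * η) (51 * η) (100 * η) t :=
  Or.inl ⟨⟨by linarith [h.1], by linarith [h.2]⟩, h'⟩

theorem kl_WR {s : ℂ} (h : -(11 * η) < ((nxt (100 * η) t).e.symm s).re ∧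
    ((nxt (100 * η) t).e.symm s).re < η) (h' : |((nxt (100 * η) t).e.symm s).im| < 9 * η) :
    s ∈ WR (9 * η) (51 * η) (100 * η) t :=
  Or.inr ⟨⟨by linarith [h.1], by linarith [h.2]⟩, h'⟩

theorem offQ {u : ℂ} (h : u ∉ Q0 η) (h1 : |u.im| < 9 * η) : 2 * η ≤ |u.re| := by
  by_contra hc
  exact h ⟨not_le.1 hc, by linarith⟩

end geo

/-- **quenched tile bound**, explicit sets -/
theorem core (hη : 0 < η) (hd : 0 < d) (hdη : 4 * d ≤ η) (ha : 0 ≤ a) (hp : 0 ≤ p)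
    (hS : S.Finite) (hc : Sc S)
    (hSQ : S ⊆ ovr (Q0 η ∪ (nxt (100 * η) t).e.symm ⁻¹' Q0 η))
    (hT : ∀ s ∈ T, s ∈ WD (12 * η) (52 * η) (100 * η) t) (hgp : GP (psn S ∪ T))
    (m1 : p ≤ pr T (MidB (gS S (Q0 η) ∪ T ∪ gS S ((nxt (100 * η) t).e.symm ⁻¹' Q0 η)) 100 0 (η : ℂ)
      ((nxt (100 * η) t).e 0) (rot t * (η : ℂ))))
    (m2 : p ≤ pr T fun τ => MidW (gS S (Q0 η) ∪ T ∪ gS S ((nxt (100 * η) t).e.symm ⁻¹' Q0 η)) 100 0
      (η : ℂ) ((nxt (100 * η) t).e 0) (rot t * (η : ℂ)) (T \ τ))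
    {p1 p2 : ℂ × ℂ} (hp1 : LG (g0 η) (Q0 η) (clr (gS S (Q0 η)) (gB S (Q0 η))) p1)
    (hp2 : LG ((g0 η).mv (nxt (100 * η) t).e (rot t)) ((nxt (100 * η) t).e.symm ⁻¹' Q0 η)
      (clr (gS S ((nxt (100 * η) t).e.symm ⁻¹' Q0 η)) (gB S ((nxt (100 * η) t).e.symm ⁻¹' Q0 η)))
      p2)
    (h1 : a ≤ pr T fun τ => RH η d (S ∪ clr T τ))
    (h2 : a ≤ pr T fun τ => tr (nxt (100 * η) t).e (LH η d) (S ∪ clr T τ)) :
    a * (p * p) * a ≤ pr T fun τ =>
      Tile (gS S (Q0 η) ∪ T ∪ gS S ((nxt (100 * η) t).e.symm ⁻¹' Q0 η))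
        (gS S (Q0 η) ∪ T ∪ gS S ((nxt (100 * η) t).e.symm ⁻¹' Q0 η))
        (τ ∪ (gB S (Q0 η) ∪ gB S ((nxt (100 * η) t).e.symm ⁻¹' Q0 η)))
        (WR (9 * η) (51 * η) (100 * η) t) p1.1 p1.2 p2.1 p2.2 := by
  set N := nxt (100 * η) t with hN
  set Qn := N.e.symm ⁻¹' Q0 η with hQn
  set M := gS S (Q0 η) ∪ T ∪ gS S Qn with hM
  have f : TileRRx345.Fr 100 0 (η : ℂ) (N.e 0) (rot t * (η : ℂ)) := fr_nxt η 100 t
  have he : (η : ℂ) ≠ 0 := by exact_mod_cast hη.ne'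
  have h40 : (40 : ℝ) ≤ 100 := by norm_num
  have hWQ := Halfx73.WQ_Q0 η (100 * η)
  have h52 : 52 * η = 100 * η / 2 + 2 * η := by ring
  -- fresh positions are off the gates
  have tQ : ∀ s ∈ T, s ∉ Q0 η := by
    intro s hs h
    have := (hT s hs).2
    rw [h52, hWQ] at this
    exact this (Or.inl h)
  have tQn : ∀ s ∈ T, s ∉ Qn := by
    intro s hs h
    have := (hT s hs).2
    rw [h52, hWQ] at this
    exact this (Or.inr h)
  have hps : ∀ s ∈ ps S, s ∈ Q0 η ∪ Qn := by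
    rintro s ⟨q, hq, rfl⟩
    exact hSQ hq
  have hh : 60 * η ≤ 100 * η := by linarith
  have d1 : Disjoint (Q0 η) (TplIx204.CR η) := by
    rw [← hWQ]; exact TplIx204.Q_CR
  have d2 : Disjoint Qn (TplIx204.CR η) := by
    have := TplIx204.CR_Qn hη hh t
    rw [← hWQ] at hQn
    rw [hQn]
    exact this
  have d3 : Disjoint (Q0 η) (TplIx204.CLn (100 * η) η t) := by
    rw [← hWQ]; exact TplIx204.Q_CLn hη hh t
  have d4 : Disjoint Qn (TplIx204.CLn (100 * η) η t) := by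
    have := TplIx204.Qn_CLn (h := 100 * η) (η := η) t
    rw [← hWQ] at hQn
    rw [hQn]
    exact this
  have d0 : Disjoint (Q0 η) Qn := by
    have := TplIx204.Q_Qn hη hh t
    rw [hWQ] at this
    exact this
  have g1 := gdR hη hd hdη hS hc (T := T) (fun s hs h => by
    rcases hps s hs with h3 | h3
    · exact Set.disjoint_left.1 d1 h3 h
    · exact Set.disjoint_left.1 d2 h3 h) tQ h1
  have g2 := gdL (h := 100 * η) (t := t) hη hd hdη hS hc (T := T) (fun s hs h => by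
    rcases hps s hs with h3 | h3
    · exact Set.disjoint_left.1 d3 h3 h
    · exact Set.disjoint_left.1 d4 h3 h) tQn h2
  have hsx : sx S ∪ T = M := sx_gS hS hSQ
  rw [hsx] at g1 g2
  rw [mul_comm (η : ℂ) (rot t)] at g2
  have hGP : GP (M : Set ℂ) := by
    rw [hM, coe_gS hS hSQ]
    exact hgp
  have hWn : 100 / 2 + 9 = (59 : ℝ) := by norm_num
  refine theta_ge (To := T.filter (· ∈ Wh 0 (η : ℂ) (N.e 0) (rot t * (η : ℂ))))
    (Ti := T.filter (· ∉ Wh 0 (η : ℂ) (N.e 0) (rot t * (η : ℂ))))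
    (Mw := MidW M 100 0 (η : ℂ) (N.e 0) (rot t * (η : ℂ)))
    (Mb := MidB M 100 0 (η : ℂ) (N.e 0) (rot t * (η : ℂ)))
    (E := fun β => Tile M M β (WR (9 * η) (51 * η) (100 * η) t) p1.1 p1.2 p2.1 p2.2)
    ha hp (gs_disj tQ) (gs_disj tQn) (gs_gs d0) (Finset.disjoint_filter_filter_not _ _ _)
    (gB_sub hS _) (gB_sub hS _) Hf.mo Hf.mo Hf.mo Hf.mo mo_midW mo_midB
    ?_ ?_ ?_ ?_ ?_ ?_ g1 m2 m1 g2 ?_
  · -- white half of the first gate
    refine Hf.su (fun s hs hk => ?_) (fun s hs a1 a2 a3 a4 => ?_)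
    · rcases Finset.mem_union.1 hs with hs | hs
      · exact Finset.mem_union_left _ hs
      refine Finset.mem_union_right _ (Finset.mem_filter.2 ⟨hs, ?_⟩)
      obtain ⟨⟨k1, k2⟩, k3, k4⟩ := hk
      have h3 := offQ hη (tQ s hs) k3
      have h4 : 2 * η ≤ s.re := by
        rcases le_abs.1 h3 with h | h <;> linarith
      refine wh he h40 f ?_ ?_
      · rw [Y_zero η, lt_div_iff₀ hη]; linarith [k4 h4]
      · rw [X_zero η, div_le_iff₀ hη]; linarith
    · rcases Finset.mem_union.1 hs with hs | hs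
      · exact Finset.mem_union_left _ hs
      exact Finset.mem_union_right _ (Finset.mem_filter.2 ⟨hs, wh he h40 f (by linarith)
        (by linarith)⟩)
  · refine Hf.su (fun s hs hk => ?_) (fun s hs a1 a2 a3 a4 => ?_)
    · rcases Finset.mem_union.1 hs with hs | hs
      · exact Finset.mem_union_left _ hs
      refine Finset.mem_union_right _ (Finset.mem_filter.2 ⟨hs, ?_⟩)
      obtain ⟨⟨k1, k2⟩, k3, k4⟩ := hk
      have h3 := offQ hη (tQ s hs) k3
      have h4 : 2 * η ≤ s.re := by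
        rcases le_abs.1 h3 with h | h <;> linarith
      refine not_wh he h40 f ?_ ?_
      · rw [Y_zero η, div_lt_iff₀ hη]; linarith [k4 h4]
      · rw [X_zero η, div_le_iff₀ hη]; linarith
    · rcases Finset.mem_union.1 hs with hs | hs
      · exact Finset.mem_union_left _ hs
      exact Finset.mem_union_right _ (Finset.mem_filter.2 ⟨hs, not_wh he h40 f (by linarith)
        (by linarith)⟩)
  · refine Hf.su (fun s hs hk => ?_) (fun s hs a1 a2 a3 a4 => ?_)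
    · rcases Finset.mem_union.1 hs with hs | hs
      · exact Finset.mem_union_left _ hs
      refine Finset.mem_union_right _ (Finset.mem_filter.2 ⟨hs, ?_⟩)
      obtain ⟨⟨k1, k2⟩, k3, k4⟩ := hk
      have h3 := offQ hη (tQn s hs) k3
      have h4 : (N.e.symm s).re ≤ -(2 * η) := by
        rcases le_abs.1 h3 with h | h <;> linarith
      refine wh' he h40 f ?_ ?_
      · rw [hN, Y_nxt η, lt_div_iff₀ hη]; linarith [k4 h4]
      · rw [hN, X_nxt η, le_div_iff₀ hη]; linarith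
    · rcases Finset.mem_union.1 hs with hs | hs
      · exact Finset.mem_union_left _ hs
      exact Finset.mem_union_right _ (Finset.mem_filter.2 ⟨hs, wh' he h40 f (by linarith)
        (by linarith)⟩)
  · refine Hf.su (fun s hs hk => ?_) (fun s hs a1 a2 a3 a4 => ?_)
    · rcases Finset.mem_union.1 hs with hs | hs
      · exact Finset.mem_union_left _ hs
      refine Finset.mem_union_right _ (Finset.mem_filter.2 ⟨hs, ?_⟩)
      obtain ⟨⟨k1, k2⟩, k3, k4⟩ := hk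
      have h3 := offQ hη (tQn s hs) k3
      have h4 : (N.e.symm s).re ≤ -(2 * η) := by
        rcases le_abs.1 h3 with h | h <;> linarith
      refine not_wh' he h40 f ?_ ?_
      · rw [hN, Y_nxt η, div_lt_iff₀ hη]; linarith [k4 h4]
      · rw [hN, X_nxt η, le_div_iff₀ hη]; linarith
    · rcases Finset.mem_union.1 hs with hs | hs
      · exact Finset.mem_union_left _ hs
      exact Finset.mem_union_right _ (Finset.mem_filter.2 ⟨hs, not_wh' he h40 f (by linarith)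
        (by linarith)⟩)
  · exact su_midW he h40 f fun s hs h3 _ _ => Finset.mem_filter.2 ⟨hs, h3⟩
  · exact su_midB he h40 f fun s hs h3 _ _ => Finset.mem_filter.2 ⟨hs, h3⟩
  · rintro β hβ ⟨l, v, hl⟩ ⟨u, w, hu⟩ ⟨l', v', hl'⟩ ⟨u', w', hu'⟩ hMb hMw
    have hR : ∀ s, s ∈ Re 100 0 (η : ℂ) (N.e 0) (rot t * (η : ℂ)) →
        s ∈ WR (9 * η) (51 * η) (100 * η) t := fun s hs => re_WR hη hs
    constructor
    · refine half_b hGP he h40 f v v' (by norm_num) (by norm_num) (by norm_num) (by norm_num) hMb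
        (fun s hs => ?_) (fun s hs => ?_) (fun s _ _ h3 => hR s h3)
      · exact (hl p1.1 ⟨p1, hp1, rfl⟩ s hs).mono fun x hx => ⟨hx.1, kr_WR hη hx.2.1 hx.2.2.1⟩
      · exact (hl' p2.1 ⟨p2, hp2, rfl⟩ s hs).mono fun x hx => ⟨hx.1, kl_WR hη hx.2.1 hx.2.2.1⟩
    · refine half_w hGP he h40 f w w' (by norm_num) (by norm_num) (by norm_num) (by norm_num) hMw
        (fun s hs => ?_) (fun s hs => ?_) (fun s _ _ h3 => hR s h3)
      · exact (hu p1.2 ⟨p1, hp1, rfl⟩ s hs).mono fun x hx =>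
          ⟨Finset.mem_sdiff.1 hx.1, kr_WR hη hx.2.1 hx.2.2.1⟩
      · exact (hu' p2.2 ⟨p2, hp2, rfl⟩ s hs).mono fun x hx =>
          ⟨Finset.mem_sdiff.1 hx.1, kl_WR hη hx.2.1 hx.2.2.1⟩

/-- **the quenched tile bound** -/
theorem tq : TQ := by
  intro η d a p ε hε hη hd hdη ha hp t S T hS hc hSQ hT hgp m1 m2
  have hQ : (Dx η d a ε hε hη).Q = Q0 η := dQ hε hη
  have hQn : (Dx η d a ε hε hη).Qn t = (nxt (100 * η) t).e.symm ⁻¹' Q0 η := by
    unfold DT.Qn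
    rw [hQ]
    rfl
  refine qtile_of hS hc hSQ hT ?_
  intro p1 p2 hp1 hp2 h1 h2
  rw [hQ, hQn] at hSQ m1 m2 ⊢
  rw [hQ] at hp1
  rw [hQn] at hp2
  exact core hη hd hdη ha hp hS hc hSQ hT hgp m1 m2 hp1 hp2 h1 h2

/-- **THE TEMPLATE HAS POSITIVE CONSTANTS** -/
theorem posF {η : ℝ} (hη : 0 < η) (hη1 : 10 * η ≤ 1) :
    ∀ᶠ ε : ℝ in 𝓝[>] 0, 0 < PP1x831.rad cC ε ∧ 8 * PP1x831.rad cC ε ≤ η ∧
      ∀ (hε : 0 < ε) (hη : 0 < η), (Tr η ε hε hη).AePos ∧
        cb ≤ sampleLaw {ω | (Dt η ε hε hη).wA (cfg ε ω) ≠ 0} ∧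
        cb ≤ ∫⁻ ω, (Dt η ε hε hη).wA (cfg ε ω) ∂sampleLaw :=
  posF_of tq hη hη1

end Crest.Agent.R143.TQx73
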