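import Crest.Agent.R143.FinI_894
import Crest.Agent.R143.TDat_204
import Crest.Agent.R143.TQ_73

/-!
# Row 143 (S0194): the row from 609's open inputs at the concrete template (helper894)

* `Z` : 204's template family `Zt` (653's template, all widths and meshes)
* **`posZ : PosP Z`** (653 PosF, 73 TQ): no hypotheses
* **`leaf_of_opz : (∀ u w, Nonempty (Op Z u w)) → Leaf894`**
-/

set_option autoImplicit false

noncomputable section

namespace Crest.Agent.R143.FinJx894

open Crest.ProbabilityR.Voronoi
open Crest.Agent.R143.Finx894 Crest.Agent.R143.PolyUx346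
open Crest.Agent.R143.RigZx609

/-- the template -/
abbrev Z : RigZdx609.TData := TDatx204.Zt

/-- **positivity of the template** -/
theorem posZ : PosP Z := TDatx204.posP_of TQx73.tq

/-- **the row from `Op Z`** -/
theorem leaf_of_opz (h : ∀ (u : Poly) (w : ZMod 3), Nonempty (Op Z u w)) : Leaf894 :=
  FinIx894.leaf_of_op posZ h

end Crest.Agent.R143.FinJx894
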