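import Crest.Agent.R143.OpJ_894
import Crest.Agent.R143.FinJ_894
import Crest.Agent.R143.RigQ_377

/-!
# Row 143 (S0194): the row from two inputs at the concrete template (helper894)

`Z = FinJx894.Z` (204's `Zt`), `Q = Qz Z u w` (377).

* `MomZ` : second moments of the charges (854); `EnvZ` : the data of almost every good environment
* **`leaf_fin : MomZ → EnvZ → Leaf894`**
-/

set_option autoImplicit false

noncomputable section

open scoped Classical

namespace Crest.Agent.R143.FinKx894

open MeasureTheory Set Filter Topology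
open Crest.ProbabilityR.Voronoi
open Crest.Agent.R143.Finx894 Crest.Agent.R143.FinJx894
open Crest.Agent.R143.PolyUx346 (Poly)
open Crest.Agent.R143.RigYx609 (CEs OkT)
open Crest.Agent.R143.RigXx609
open Crest.Agent.R143.RigNx377
open Crest.Agent.R143.RigQx377
open Crest.Agent.R143.OpJx894

/-- (I) second moments -/
def MomZ : Prop := ∀ (u : Poly) (w : ZMod 3), ∃ C1 : ℝ, 0 ≤ C1 ∧ Mom Z u w C1

/-- (II) the data of almost every good environment -/
def EnvZ : Prop := ∀ (u : Poly) (w : ZMod 3), ∃ L : ℕ → List (ℝ × ℝ × ℝ),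
  (∀ᶠ N in atTop, ∀ t ∈ L N, OkT t) ∧ (∀ N, (K0, c2c u N, dU u) ∈ L N) ∧
    EnvP Z u w L (Qz Z u w)

/-- **RIG** -/
theorem rig_fin (hm : MomZ) (he : EnvZ) : FinCx894.Rig :=
  rig_env posZ hm fun u w => by
    obtain ⟨L, h1, h2, h3⟩ := he u w
    exact ⟨C3z Z posZ u w, Qz Z u w, L, hQ_z Z posZ u w, h1, h2, h3⟩

/-- **the row** -/
theorem leaf_fin (hm : MomZ) (he : EnvZ) : Leaf894 := FinHx894.leaf_rig (rig_fin hm he)

end Crest.Agent.R143.FinKx894
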