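import Crest.Agent.R143.PolyU_346

/-!
# Row 143 (S0194), CONT: finitely many brick polygons at one scale (helper722)

* `T_congr`, `T'_congr` : the totals depend on the unit, the bricks and the three arcs only
* `fin_poly` : finitely many polygons represent all the polygons with the unit `2⁻ⁿ` whose bricks
  are in a finite set `B`
* `fin_bk` : finitely many bricks at the scale `2⁻ⁿ` in a ball
* **`fin_ball`** : for all `n c L` there is `Q : Finset Poly` such that every `u` with the unit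
  `2⁻ⁿ` and `u.P ⊆ closedBall c L` has a representative `u' ∈ Q` with `u'.T = u.T`, `u'.T' = u.T'`
-/

set_option autoImplicit false

noncomputable section

open scoped Classical

namespace Crest.Agent.R143.FinPx722

open Crest.ProbabilityR.Voronoi
open Crest.Agent.R143.NetVx346
open Crest.Agent.R143.PolyUx346
open Crest.Agent.R143.Brkx478
open Crest.Agent.R143.Tenx416 (Pg)
open Crest.Agent.R158.Sp896

/-- same unit, same bricks, same arcs -/
structure Same (u u' : Poly) : Prop where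
  n : u.n = u'.n
  U : u.U = u'.U
  arc : ∀ j, u.Arc j = u'.Arc j

variable {u u' : Poly}

theorem Same.P (h : Same u u') : u.P = u'.P := by
  unfold Poly.P Poly.s
  rw [h.n, h.U]

theorem Same.Lab (h : Same u u') : u.Lab = u'.Lab := by
  have e : u.Near = u'.Near := by
    funext x j
    unfold Poly.Near
    simp only [h.arc]
  funext x
  unfold Poly.Lab
  rw [e]

theorem Same.S (h : Same u u') : u.S = u'.S := by
  funext ε ω
  unfold Poly.S
  rw [h.P]

/-- **the total only depends on the unit, the bricks and the arcs** -/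
theorem T_congr (h : Same u u') : u.T = u'.T := by
  funext ε ω
  unfold Poly.T
  rw [h.S, h.P, h.Lab]

theorem T'_congr (h : Same u u') : u.T' = u'.T' := by
  funext ε ω
  unfold Poly.T'
  rw [h.S, h.P, h.Lab]

/-! ### finitely many vertices -/

/-- lattice points next to the cells of the bricks of `B` -/
def Ws (B : Finset Bk) : Set V := {a | ∃ q ∈ cells (B : Set Bk), ∃ i ∈ Finset.Icc (-1 : ℤ) 2,
  ∃ j ∈ Finset.Icc (-1 : ℤ) 2, a = (q.1 + i, q.2 + j)}

theorem ws_fin (B : Finset Bk) : (Ws B).Finite := by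
  have h1 : (cells (B : Set Bk)).Finite := cells_finite B.finite_toSet
  have h2 : ((cells (B : Set Bk)) ×ˢ (((Finset.Icc (-1 : ℤ) 2 : Finset ℤ) : Set ℤ) ×ˢ
      ((Finset.Icc (-1 : ℤ) 2 : Finset ℤ) : Set ℤ))).Finite :=
    h1.prod ((Finset.finite_toSet _).prod (Finset.finite_toSet _))
  refine (h2.image fun p => ((p.1.1 + p.2.1, p.1.2 + p.2.2) : V)).subset ?_
  rintro a ⟨q, hq, i, hi, j, hj, rfl⟩
  exact ⟨(q, (i, j)), ⟨hq, Finset.mem_coe.2 hi, Finset.mem_coe.2 hj⟩, rfl⟩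

theorem mem_ws {B : Finset Bk} {a b : V} (h : Adj a b) (hq : lc a b ∈ cells (B : Set Bk)) :
    a ∈ Ws B := by
  refine ⟨lc a b, hq, a.1 - (lc a b).1, ?_, a.2 - (lc a b).2, ?_, ?_⟩
  · rw [Finset.mem_Icc]
    unfold Adj at h
    unfold lc
    simp only
    omega
  · rw [Finset.mem_Icc]
    unfold Adj at h
    unfold lc
    simp only
    omega
  · exact Prod.ext (by simp) (by simp)

theorem v_mem {B : Finset Bk} (hB : u.U ⊆ B) (i : ℕ) : u.v i ∈ Ws B := by
  refine mem_ws (u.cyc.step i) ?_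
  have h := u.cyc.left i
  rw [mem_cells] at h ⊢
  exact hB h

/-! ### finitely many arcs -/

/-- the shape of an arc -/
def arcF (s : ℝ) (t : (V × V) × Set (V × V) × (V × V)) : Set ℂ :=
  segment ℝ ((pt s t.1.1 + pt s t.1.2) / 2) (pt s t.1.2) ∪
    (⋃ p ∈ t.2.1, ed s p.1 p.2) ∪
    segment ℝ (pt s t.2.2.1) ((pt s t.2.2.1 + pt s t.2.2.2) / 2)

theorem arc_eq (u : Poly) (j : Fin 3) : u.Arc j = arcF u.s
    ((u.v (u.k j), u.v (u.k j + 1)),
      ((fun i => (u.v i, u.v (i + 1))) '' Set.Ioo (u.k j) (u.k' j)),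
      (u.v (u.k' j), u.v (u.k' j + 1))) := by
  unfold Poly.Arc arcF Poly.mid
  simp only [Set.biUnion_image]

theorem arc_fin (n : ℕ) (B : Finset Bk) :
    {X : Set ℂ | ∃ (u : Poly) (j : Fin 3), u.n = n ∧ u.U ⊆ B ∧ X = u.Arc j}.Finite := by
  have hW := ws_fin B
  have h2 : (Ws B ×ˢ Ws B).Finite := hW.prod hW
  have h3 : (𝒫 (Ws B ×ˢ Ws B)).Finite := h2.finite_subsets
  refine ((h2.prod (h3.prod h2)).image (arcF ((1 / 2) ^ n))).subset ?_
  rintro X ⟨u, j, hn, hU, rfl⟩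
  refine ⟨((u.v (u.k j), u.v (u.k j + 1)),
      ((fun i => (u.v i, u.v (i + 1))) '' Set.Ioo (u.k j) (u.k' j)),
      (u.v (u.k' j), u.v (u.k' j + 1))), ⟨⟨v_mem hU _, v_mem hU _⟩, ⟨?_, ⟨v_mem hU _, v_mem hU _⟩⟩⟩, ?_⟩
  · rw [Set.mem_powerset_iff]
    rintro p ⟨i, -, rfl⟩
    exact ⟨v_mem hU _, v_mem hU _⟩
  · have := arc_eq u j
    unfold Poly.s at this
    rw [hn] at this
    exact this.symm

/-- representatives of a map with finite range -/
theorem reps {α β : Type*} (f : α → β) (s : Set α) (h : (f '' s).Finite) :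
    ∃ Q : Finset α, (∀ x ∈ Q, x ∈ s) ∧ ∀ x ∈ s, ∃ y ∈ Q, f y = f x := by
  have key : ∀ y ∈ f '' s, ∃ x, x ∈ s ∧ f x = y := fun y hy => hy
  let g : β → Option α := fun y => if hy : y ∈ f '' s then some (key y hy).choose else none
  refine ⟨h.toFinset.biUnion fun y => (g y).toFinset, ?_, ?_⟩
  · intro x hx
    rw [Finset.mem_biUnion] at hx
    obtain ⟨y, hy, hx⟩ := hx
    rw [Set.Finite.mem_toFinset] at hy
    have hg : g y = some (key y hy).choose := dif_pos hy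
    rw [hg, Option.toFinset_some, Finset.mem_singleton] at hx
    rw [hx]
    exact (key y hy).choose_spec.1
  · intro x hx
    have hy : f x ∈ f '' s := ⟨x, hx, rfl⟩
    refine ⟨(key _ hy).choose, ?_, (key _ hy).choose_spec.2⟩
    rw [Finset.mem_biUnion]
    refine ⟨f x, (Set.Finite.mem_toFinset h).2 hy, ?_⟩
    have hg : g (f x) = some (key _ hy).choose := dif_pos hy
    rw [hg, Option.toFinset_some, Finset.mem_singleton]

/-- **finitely many polygons with the unit `2⁻ⁿ` and bricks in `B`** -/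
theorem fin_poly (n : ℕ) (B : Finset Bk) : ∃ Q : Finset Poly,
    (∀ u ∈ Q, u.n = n ∧ u.U ⊆ B) ∧ ∀ u : Poly, u.n = n → u.U ⊆ B → ∃ u' ∈ Q, Same u' u := by
  have hA := arc_fin n B
  set A := {X : Set ℂ | ∃ (u : Poly) (j : Fin 3), u.n = n ∧ u.U ⊆ B ∧ X = u.Arc j} with hAd
  have h1 : ((fun u : Poly => (u.U, fun j => u.Arc j)) '' {u : Poly | u.n = n ∧ u.U ⊆ B}).Finite := by
    have h2 : (((B.powerset : Finset (Finset Bk)) : Set (Finset Bk)) ×ˢ
        (Set.univ.pi fun _ : Fin 3 => A)).Finite :=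
      (Finset.finite_toSet _).prod (Set.Finite.pi fun _ => hA)
    refine h2.subset ?_
    rintro p ⟨u, ⟨hn, hU⟩, rfl⟩
    exact ⟨Finset.mem_coe.2 (Finset.mem_powerset.2 hU), fun j _ => ⟨u, j, hn, hU, rfl⟩⟩
  obtain ⟨Q, hQ1, hQ2⟩ := reps _ _ h1
  refine ⟨Q, fun u hu => hQ1 u hu, fun u hn hU => ?_⟩
  obtain ⟨u', hu', e⟩ := hQ2 u ⟨hn, hU⟩
  simp only [Prod.mk.injEq] at e
  refine ⟨u', hu', ⟨?_, e.1, fun j => congrFun e.2 j⟩⟩
  rw [(hQ1 u' hu').1, hn]

/-! ### bricks in a ball -/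

theorem fin_bk (n : ℕ) (c : ℂ) (L : ℝ) : ∃ B : Finset Bk, ∀ u : Poly, u.n = n →
    u.P ⊆ Metric.closedBall c L → u.U ⊆ B := by
  set s : ℝ := (1 / 2) ^ n with hs
  have hs0 : 0 < s := by positivity
  let I1 : Finset ℤ := Finset.Icc ⌊(c.re - L) / s⌋ ⌈(c.re + L) / s⌉
  let I2 : Finset ℤ := Finset.Icc ⌊(c.im - L) / s⌋ ⌈(c.im + L) / s⌉
  refine ⟨(I1 ×ˢ I2).image bk, ?_⟩
  intro u hn hP b hb
  have hb' : c0 b ∈ cells (u.U : Set Bk) := by
    rw [mem_cells, bk_c0]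
    exact hb
  have hpt : pt s (c0 b) ∈ u.P := by
    unfold Poly.P Pg Poly.s
    rw [hn, Set.mem_iUnion₂]
    refine ⟨c0 b, hb', ?_⟩
    unfold Crest.Agent.R158.Sp896.sq pt
    simp only [Set.mem_ofPred_eq]
    refine ⟨le_rfl, ?_, le_rfl, ?_⟩ <;> nlinarith
  have h1 := hP hpt
  rw [Metric.mem_closedBall, dist_eq_norm] at h1
  have h2 := (Complex.abs_re_le_norm (pt s (c0 b) - c)).trans h1
  have h3 := (Complex.abs_im_le_norm (pt s (c0 b) - c)).trans h1
  rw [Complex.sub_re, abs_le] at h2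
  rw [Complex.sub_im, abs_le] at h3
  have e1 : (pt s (c0 b)).re = s * (c0 b).1 := rfl
  have e2 : (pt s (c0 b)).im = s * (c0 b).2 := rfl
  rw [e1] at h2
  rw [e2] at h3
  rw [Finset.mem_image]
  refine ⟨c0 b, ?_, bk_c0 b⟩
  rw [Finset.mem_product, Finset.mem_Icc, Finset.mem_Icc]
  refine ⟨⟨?_, ?_⟩, ⟨?_, ?_⟩⟩
  · have h4 : (c.re - L) / s ≤ ((c0 b).1 : ℝ) := by
      rw [div_le_iff₀ hs0]; linarith
    exact_mod_cast (Int.floor_le _).trans h4
  · have h4 : ((c0 b).1 : ℝ) ≤ (c.re + L) / s := by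
      rw [le_div_iff₀ hs0]; linarith
    exact_mod_cast h4.trans (Int.le_ceil _)
  · have h4 : (c.im - L) / s ≤ ((c0 b).2 : ℝ) := by
      rw [div_le_iff₀ hs0]; linarith
    exact_mod_cast (Int.floor_le _).trans h4
  · have h4 : ((c0 b).2 : ℝ) ≤ (c.im + L) / s := by
      rw [le_div_iff₀ hs0]; linarith
    exact_mod_cast h4.trans (Int.le_ceil _)

/-- **finitely many polygons of the scale `2⁻ⁿ` in a ball** -/
theorem fin_ball (n : ℕ) (c : ℂ) (L : ℝ) : ∃ Q : Finset Poly,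
    (∀ u ∈ Q, u.n = n) ∧ ∀ u : Poly, u.n = n → u.P ⊆ Metric.closedBall c L →
      ∃ u' ∈ Q, Same u' u ∧ u'.T = u.T ∧ u'.T' = u.T' := by
  obtain ⟨B, hB⟩ := fin_bk n c L
  obtain ⟨Q, hQ1, hQ2⟩ := fin_poly n B
  refine ⟨Q, fun u hu => (hQ1 u hu).1, fun u hn hP => ?_⟩
  obtain ⟨u', hu', h⟩ := hQ2 u hn (hB u hn hP)
  exact ⟨u', hu', h, T_congr h, T'_congr h⟩

/-- in the form used by CONT: one term of the finite sum -/
theorem le_sum {T : Poly → ℝ} (hT : ∀ u, 0 ≤ T u) {Q : Finset Poly} {u' : Poly} (h : u' ∈ Q) :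
    T u' ≤ ∑ u ∈ Q, T u := Finset.single_le_sum (f := T) (fun u _ => hT u) h

end Crest.Agent.R143.FinPx722
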