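import Crest.Agent.R143.FinM2_609
import Crest.Agent.R143.NetU_346
import Crest.Agent.R143.IndLoc4_279

/-!
# Row 143 (S0194), RIG: measurability of `Ey`, `TS`, of the hits (helper609)

`X` = coloured configuration, `Sf W X` = the finite set of its positions in `W`, `A P i` = the class
`i` as a function of the set of positions `P` (NATURAL: transported by `PIso`).

* `SIso` : isomorphism of Delaunay triangulations; `hitO_iso`
* `fme_hits` : `X ↦ ∑ t ∈ hits (Sf W X) (A (ps X)) i (black X), f t` is `FMe`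
* `TS_cav` : `TS S A z` is the colour mean of `HT`, `HT X = 3 ∑ i, omz i * ∑ hits z t.1`
-/

set_option autoImplicit false
set_option linter.unusedSectionVars false

noncomputable section

open scoped Classical

namespace Crest.Agent.R143.FinTx609

open MeasureTheory Set Filter Topology
open Crest.Agent.R143.B0x346 Crest.Agent.R143.DelGx806
open Crest.Agent.R143.Prodx609 Crest.Agent.R143.FinMx609
open Crest.Agent.R143.JColx54 (Adj)
open Crest.Agent.R143.RE0x723 (Pth)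
open Crest.Agent.R143.K33x877 (Clu fr)
open Crest.Agent.R143.NetUx346
open Crest.Agent.R143.IndLoc3x279 (fs clr cav)

/-! ### isomorphisms of triangulations -/

/-- isomorphism of the Delaunay triangulations of `S` and `S'` -/
structure SIso (S S' : Finset ℂ) (e : ℂ → ℂ) : Prop where
  bij : BijOn e (S : Set ℂ) (S' : Set ℂ)
  tri : ∀ x ∈ S, ∀ y ∈ S, ∀ w ∈ S, (x, y, w) ∈ delT S ↔ (e x, e y, e w) ∈ delT S'

theorem mem_delT' {S : Finset ℂ} {t : ℂ × ℂ × ℂ} :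
    t ∈ delT S ↔ Del (S : Set ℂ) t.1 t.2.1 t.2.2 := by
  unfold delT
  rw [Finset.mem_filter, Finset.mem_product, Finset.mem_product]
  exact ⟨fun h => h.2, fun h => ⟨⟨h.1, h.2.1, h.2.2.1⟩, h⟩⟩

theorem del_mem {S : Finset ℂ} {x y w : ℂ} (h : (x, y, w) ∈ delT S) : x ∈ S ∧ y ∈ S ∧ w ∈ S := by
  have := mem_delT'.1 h
  exact ⟨this.1, this.2.1, this.2.2.1⟩

variable {S S' : Finset ℂ} {e : ℂ → ℂ}

theorem SIso.symm (h : SIso S S' e) : SIso S' S (Function.invFunOn e (S : Set ℂ)) := by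
  have hinv := h.bij.invOn_invFunOn
  have hm : MapsTo (Function.invFunOn e (S : Set ℂ)) (S' : Set ℂ) (S : Set ℂ) := fun y hy =>
    Function.invFunOn_mem (h.bij.surjOn hy)
  have hr : ∀ y ∈ S', e (Function.invFunOn e (S : Set ℂ) y) = y := fun y hy => hinv.2 hy
  refine ⟨⟨hm, hinv.2.injOn, ?_⟩, ?_⟩
  · intro x hx
    exact ⟨e x, h.bij.mapsTo hx, hinv.1 hx⟩
  · intro x hx y hy w hw
    rw [h.tri _ (hm hx) _ (hm hy) _ (hm hw), hr x hx, hr y hy, hr w hw]

theorem SIso.mem (h : SIso S S' e) {x : ℂ} (hx : x ∈ S) : e x ∈ S' := h.bij.mapsTo hx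

theorem SIso.adj (h : SIso S S' e) {a b : ℂ} (hab : Adj S a b) : Adj S' (e a) (e b) := by
  rcases hab with ⟨c, hc⟩ | ⟨c, hc⟩
  · obtain ⟨h1, h2, h3⟩ := del_mem hc
    exact Or.inl ⟨e c, (h.tri _ h1 _ h2 _ h3).1 hc⟩
  · obtain ⟨h1, h2, h3⟩ := del_mem hc
    exact Or.inr ⟨e c, (h.tri _ h1 _ h2 _ h3).1 hc⟩

theorem SIso.pth (h : SIso S S' e) {V V' : Set ℂ} (hV : ∀ x ∈ S, x ∈ V → e x ∈ V') {x y : ℂ}
    (hx : x ∈ S) (hp : Pth S V x y) : Pth S' V' (e x) (e y) := by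
  obtain ⟨h1, h2⟩ := hp
  refine ⟨hV x hx h1, ?_⟩
  have key : y ∈ S ∧ Relation.ReflTransGen (fun a b => Adj S' a b ∧ b ∈ V') (e x) (e y) := by
    induction h2 with
    | refl => exact ⟨hx, Relation.ReflTransGen.refl⟩
    | tail _ h3 ih =>
      obtain ⟨h4, h5⟩ := h3
      have hb := h4.mem.2
      exact ⟨hb, ih.2.tail ⟨h.adj h4, hV _ hb h5⟩⟩
  exact key.2

theorem SIso.fr (h : SIso S S' e) {A A' : ZMod 3 → Set ℂ}
    (hA : ∀ i, ∀ x ∈ S, x ∈ A i ↔ e x ∈ A' i) {x : ℂ} (hx : x ∈ S) :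
    x ∈ fr S A ↔ e x ∈ fr S' A' := by
  unfold K33x877.fr
  simp only [mem_ofPred_eq]
  constructor
  · rintro ⟨-, h2⟩; exact ⟨h.mem hx, fun i hi => h2 i ((hA i x hx).2 hi)⟩
  · rintro ⟨-, h2⟩; exact ⟨hx, fun i hi => h2 i ((hA i x hx).1 hi)⟩

theorem SIso.clu (h : SIso S S' e) {B B' T T' : Set ℂ} (hBS : B ⊆ S)
    (hB : ∀ x ∈ S, x ∈ B → e x ∈ B') (hT : ∀ x ∈ S, x ∈ T → e x ∈ T') {v : ℂ}
    (hv : v ∈ Clu S T B) : e v ∈ Clu S' T' B' := by
  obtain ⟨x, hx, hp⟩ := hv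
  refine ⟨e x, hB x (hBS hx) hx, h.pth ?_ (hBS hx) hp⟩
  rintro y hy (h1 | h1)
  · exact Or.inl (hT y hy h1)
  · exact Or.inr (hB y hy h1)

/-- the hits are transported -/
theorem hitO_iso (h : SIso S S' e) {A A' : ZMod 3 → Set ℂ} (hAS : ∀ i, A i ⊆ S)
    (hA : ∀ i, ∀ x ∈ S, x ∈ A i ↔ e x ∈ A' i) {T T' : Set ℂ} (hT : ∀ x ∈ S, x ∈ T ↔ e x ∈ T')
    {i : ZMod 3} {t : ℂ × ℂ × ℂ} (ht : HitO S A i T t) : HitO S' A' i T' (e t.1, e t.2.1, e t.2.2) := by
  obtain ⟨h1, h2, h3, h4⟩ := ht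
  obtain ⟨m1, m2, m3⟩ := del_mem (x := t.1) (y := t.2.1) (w := t.2.2) h1
  refine ⟨(h.tri _ m1 _ m2 _ m3).1 h1, (hA i _ m1).1 h2, ?_, ?_⟩
  · refine h.clu (hAS _) (fun x hx hx' => (hA _ x hx).1 hx') ?_ h3
    rintro x hx ⟨h5, h6⟩
    exact ⟨(h.fr hA hx).1 h5, (hT x hx).1 h6⟩
  · refine h.clu (hAS _) (fun x hx hx' => (hA _ x hx).1 hx') ?_ h4
    rintro x hx ⟨h5, h6⟩
    exact ⟨(h.fr hA hx).1 h5, fun h7 => h6 ((hT x hx).2 h7)⟩

/-! ### the configuration -/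

/-- the sites of the configuration `X` in `W` -/
def Sf (W : Set ℂ) (X : Set (ℂ × Bool)) : Finset ℂ := fs (ps X ∩ W)

theorem fs_coe {P : Set ℂ} (h : P.Finite) : (fs P : Set ℂ) = P := by
  unfold IndLoc3x279.fs
  rw [dif_pos h]
  exact h.coe_toFinset

theorem ps_fin {X : Set (ℂ × Bool)} (hX : X.Finite) : (ps X).Finite := hX.image _

theorem Sf_coe {W : Set ℂ} {X : Set (ℂ × Bool)} (hX : X.Finite) : (Sf W X : Set ℂ) = ps X ∩ W :=
  fs_coe ((ps_fin hX).inter_of_left W)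

theorem mem_Sf {W : Set ℂ} {X : Set (ℂ × Bool)} (hX : X.Finite) {x : ℂ} :
    x ∈ Sf W X ↔ x ∈ ps X ∧ x ∈ W := by
  rw [← Finset.mem_coe, Sf_coe hX]
  rfl

/-- the black points -/
def bl (X : Set (ℂ × Bool)) : Set ℂ := {x | (x, true) ∈ X}

section piso

variable {ι κ : Type*} {U : ι → Set ℂ} {R : κ → ℂ × ℂ × ℂ → Prop} {X X' : Set (ℂ × Bool)}

theorem siso_of_piso (h : PIso U R X X' e) (hX : X.Finite) (hX' : X'.Finite) (a : ι) :
    SIso (Sf (U a) X) (Sf (U a) X') e := by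
  refine ⟨?_, ?_⟩
  · rw [Sf_coe hX, Sf_coe hX']
    refine ⟨?_, ?_, ?_⟩
    · rintro x ⟨h1, h2⟩; exact ⟨h.bij.mapsTo h1, (h.loc x h1 a).1 h2⟩
    · rintro x ⟨h1, -⟩ y ⟨h2, -⟩ hxy; exact h.bij.injOn h1 h2 hxy
    · rintro y ⟨h1, h2⟩
      obtain ⟨x, hx, rfl⟩ := h.bij.surjOn h1
      exact ⟨x, ⟨hx, (h.loc x hx a).2 h2⟩, rfl⟩
  · intro x hx y hy w hw
    rw [mem_delT', mem_delT', Sf_coe hX, Sf_coe hX']
    exact h.delU x ((mem_Sf hX).1 hx).1 y ((mem_Sf hX).1 hy).1 w ((mem_Sf hX).1 hw).1 a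

end piso

/-! ### measurability of the hits -/

section fme

variable {ι κ : Type*} [Finite ι] [Finite κ] {U : ι → Set ℂ} {R : κ → ℂ × ℂ × ℂ → Prop}

/-- natural classes -/
structure NatA (U : ι → Set ℂ) (R : κ → ℂ × ℂ × ℂ → Prop) (W : Set ℂ)
    (A : Set (ℂ × Bool) → ZMod 3 → Set ℂ) : Prop where
  sub : ∀ X, X.Finite → ∀ i, A X i ⊆ ps X ∩ W
  iso : ∀ X X' : Set (ℂ × Bool), X.Finite → X'.Finite → ∀ e, PIso U R X X' e →
    ∀ i, ∀ x ∈ ps X, x ∈ W → (x ∈ A X i ↔ e x ∈ A X' i)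

theorem fme_hits {C : Type*} [MeasurableSpace C] [AddCommMonoid C] [MeasurableAdd₂ C]
    (hU : ∀ a, MeasurableSet (U a)) (hR : ∀ a, MeasurableSet {t | R a t}) (a : ι)
    {A : Set (ℂ × Bool) → ZMod 3 → Set ℂ} (hA : NatA U R (U a) A) (i : ZMod 3)
    {f : ℂ × ℂ × ℂ → C} (hf : Measurable f) :
    FMe fun X => ∑ t ∈ hits (Sf (U a) X) (A X) i (bl X), f t := by
  have key := fme_sum (C := C) hU hR
    (P := fun X t => X.Finite ∧ HitO (Sf (U a) X) (A X) i (bl X) t)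
    (by
      rintro X t ⟨hX, h⟩
      obtain ⟨m1, m2, m3⟩ := del_mem (x := t.1) (y := t.2.1) (w := t.2.2) h.1
      exact ⟨((mem_Sf hX).1 m1).1, ((mem_Sf hX).1 m2).1, ((mem_Sf hX).1 m3).1⟩)
    (by
      rintro X X' hX hX' e he x hx y hy w hw ⟨-, h⟩
      refine ⟨hX', ?_⟩
      have hs := siso_of_piso he hX hX' a
      refine hitO_iso hs ?_ ?_ ?_ h
      · intro j z hz
        rw [Sf_coe hX]
        exact hA.sub X hX j hz
      · intro j z hz
        obtain ⟨h1, h2⟩ := (mem_Sf hX).1 hz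
        exact hA.iso X X' hX hX' e he j z h1 h2
      · intro z hz
        exact he.col z ((mem_Sf hX).1 hz).1 true)
    hf
  have e : ∀ n : ℕ, (fun z : Fin n → ℂ × Bool => ∑ t ∈ hits (Sf (U a) (range z)) (A (range z)) i
      (bl (range z)), f t) = fun z => ∑ᶠ (t : ℂ × ℂ × ℂ) (_ : (range z).Finite ∧
        HitO (Sf (U a) (range z)) (A (range z)) i (bl (range z)) t), f t := by
    intro n
    funext z
    rw [← finsum_mem_coe_finset]
    refine finsum_congr fun t => ?_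
    have e1 : (t ∈ ((hits (Sf (U a) (range z)) (A (range z)) i (bl (range z)) :
        Finset (ℂ × ℂ × ℂ)) : Set (ℂ × ℂ × ℂ))) = ((range z).Finite ∧
        HitO (Sf (U a) (range z)) (A (range z)) i (bl (range z)) t) := by
      rw [Finset.mem_coe, mem_hits]
      exact propext ⟨fun h => ⟨finite_range z, h⟩, fun h => h.2⟩
    rw [e1]
  intro n
  rw [show (fun z : Fin n → ℂ × Bool => (fun X => ∑ t ∈ hits (Sf (U a) X) (A X) i (bl X), f t)
    (range z)) = _ from e n]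
  exact key n

end fme

/-! ### the totals -/

section total

variable {W : Set ℂ}

/-- coloured functional whose colour mean is `TS` -/
def HT (W : Set ℂ) (A : Set ℂ → ZMod 3 → Set ℂ) (z : ℂ → ℂ) (X : Set (ℂ × Bool)) : ℂ :=
  3 * ∑ i : ZMod 3, omz i * ∑ t ∈ hits (Sf W X) (A (ps X ∩ W)) i (bl X), z t.1

/-- the same for one end point -/
def HE (W : Set ℂ) (A : Set ℂ → ZMod 3 → Set ℂ) (z : ℂ → ℂ) (i : ZMod 3) (X : Set (ℂ × Bool)) : ℂ :=
  ∑ t ∈ hits (Sf W X) (A (ps X ∩ W)) i (bl X), z t.1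

theorem ps_clr (S β : Finset ℂ) : ps (clr S β) = S := by
  ext x
  simp only [ps, clr, mem_image, mem_ofPred_eq, Prod.exists, exists_and_right, exists_eq_right,
    Finset.mem_coe]
  constructor
  · rintro ⟨b, h, -⟩; exact h
  · intro h
    by_cases hb : x ∈ β
    · exact ⟨true, h, by simp [hb]⟩
    · exact ⟨false, h, by simp [hb]⟩

theorem clr_fin (S β : Finset ℂ) : (clr S β).Finite := by
  refine (S.finite_toSet.prod (Set.finite_univ (α := Bool))).subset ?_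
  rintro ⟨x, b⟩ h
  exact ⟨h.1, mem_univ _⟩

theorem bl_clr {S β : Finset ℂ} (h : β ⊆ S) : bl (clr S β) = (β : Set ℂ) := by
  ext x
  simp only [bl, clr, mem_ofPred_eq, true_iff, Finset.mem_coe]
  exact ⟨fun h => h.2, fun h' => ⟨h h', h'⟩⟩

theorem Sf_clr {S β : Finset ℂ} (hS : (S : Set ℂ) ⊆ W) : Sf W (clr S β) = S := by
  rw [← Finset.coe_inj, Sf_coe (clr_fin S β), ps_clr, inter_eq_left.2 hS]

theorem fs_eq (S : Finset ℂ) : fs (S : Set ℂ) = S := by
  rw [← Finset.coe_inj, fs_coe S.finite_toSet]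

/-- averages over all colourings of functions of the black sites in `V` -/
theorem sum_pow_inter {M : Type*} [AddCommMonoid M] {V D : Finset ℂ} (h : Disjoint V D)
    (g : Finset ℂ → M) : ∑ β ∈ (V ∪ D).powerset, g (β ∩ V) =
      (2 ^ D.card) • ∑ T ∈ V.powerset, g T := by
  rw [IndLoc3x279.sum_powerset_union h]
  have e : ∀ a ∈ V.powerset, ∑ b ∈ D.powerset, g ((a ∪ b) ∩ V) = (2 ^ D.card) • g a := by
    intro a ha
    rw [Finset.mem_powerset] at ha
    have e2 : ∀ b ∈ D.powerset, g ((a ∪ b) ∩ V) = g a := by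
      intro b hb
      rw [Finset.mem_powerset] at hb
      congr 1
      ext x
      simp only [Finset.mem_inter, Finset.mem_union]
      constructor
      · rintro ⟨h1 | h1, h2⟩
        · exact h1
        · exact absurd (hb h1) (Finset.disjoint_left.1 h h2)
      · intro h1; exact ⟨Or.inl h1, ha h1⟩
    rw [Finset.sum_congr rfl e2, Finset.sum_const, Finset.card_powerset]
  rw [Finset.sum_congr rfl e, ← Finset.smul_sum]

theorem hits_inter (S : Finset ℂ) (A : ZMod 3 → Set ℂ) (i : ZMod 3) (β : Finset ℂ) :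
    hits S A i (β : Set ℂ) = hits S A i ((β ∩ ff S A : Finset ℂ) : Set ℂ) := by
  have e1 : fr S A ∩ (β : Set ℂ) = fr S A ∩ ((β ∩ ff S A : Finset ℂ) : Set ℂ) := by
    ext x
    simp only [mem_inter_iff, Finset.mem_coe, Finset.mem_inter, mem_ff]
    tauto
  have e2 : fr S A \ (β : Set ℂ) = fr S A \ ((β ∩ ff S A : Finset ℂ) : Set ℂ) := by
    ext x
    simp only [Set.mem_sdiff, Finset.mem_coe, Finset.mem_inter, mem_ff]
    tauto
  ext t
  rw [mem_hits, mem_hits]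
  unfold HitO
  rw [e1, e2]

/-- `Ey` is a mean over all the colourings of `S` -/
theorem Ey_all (S : Finset ℂ) (A : ZMod 3 → Set ℂ) (z : ℂ → ℂ) (i : ZMod 3) :
    Ey S A z i = ((2⁻¹ : ℝ) ^ S.card) •
      ∑ β ∈ S.powerset, ∑ t ∈ hits S A i (β : Set ℂ), z t.1 := by
  have hV : ff S A ⊆ S := Finset.filter_subset _ _
  have hd : Disjoint (ff S A) (S \ ff S A) := Finset.disjoint_sdiff
  have hu : ff S A ∪ (S \ ff S A) = S := Finset.union_sdiff_of_subset hV
  have h1 := sum_pow_inter hd fun T => ∑ t ∈ hits S A i (T : Set ℂ), z t.1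
  rw [hu] at h1
  have h2 : ∑ β ∈ S.powerset, ∑ t ∈ hits S A i (β : Set ℂ), z t.1 =
      ∑ β ∈ S.powerset, ∑ t ∈ hits S A i ((β ∩ ff S A : Finset ℂ) : Set ℂ), z t.1 :=
    Finset.sum_congr rfl fun β _ => by rw [hits_inter]
  rw [h2, h1]
  have hc : S.card = (S \ ff S A).card + (ff S A).card := by
    rw [Finset.card_sdiff_add_card_eq_card hV]
  unfold Ey exC
  rw [hc, pow_add, mul_smul, ← Nat.cast_smul_eq_nsmul ℝ, smul_smul, smul_smul]
  rw [show (2⁻¹ : ℝ) ^ (S \ ff S A).card * (2⁻¹ : ℝ) ^ (ff S A).card *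
      ((2 ^ (S \ ff S A).card : ℕ) : ℝ) = (2⁻¹ : ℝ) ^ (ff S A).card by
    push_cast
    rw [inv_pow, inv_pow]
    field_simp]
  rw [Complex.real_smul, div_eq_inv_mul]
  push_cast
  rw [inv_pow]

/-- **`Ey` is the colour mean of `HE`** -/
theorem Ey_cav {S : Finset ℂ} (hS : (S : Set ℂ) ⊆ W) (A : Set ℂ → ZMod 3 → Set ℂ) (z : ℂ → ℂ)
    (i : ZMod 3) : Ey S (A S) z i = cav (HE W A z i) S := by
  rw [Ey_all]
  unfold IndLoc3x279.cav
  congr 1
  refine Finset.sum_congr rfl fun β hβ => ?_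
  unfold HE
  rw [Sf_clr hS, ps_clr, inter_eq_left.2 hS, bl_clr (Finset.mem_powerset.1 hβ)]

/-- **`TS` is the colour mean of `HT`** -/
theorem TS_cav {S : Finset ℂ} (hS : (S : Set ℂ) ⊆ W) (A : Set ℂ → ZMod 3 → Set ℂ) (z : ℂ → ℂ) :
    TS S (A S) z = cav (HT W A z) S := by
  unfold TS
  simp only [Ey_all]
  unfold IndLoc3x279.cav
  simp only [mul_smul_comm]
  rw [← Finset.smul_sum, mul_smul_comm]
  congr 1
  rw [Finset.mul_sum]
  simp only [Finset.mul_sum]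
  rw [Finset.sum_comm]
  refine Finset.sum_congr rfl fun β hβ => ?_
  unfold HT
  rw [Sf_clr hS, ps_clr, inter_eq_left.2 hS, bl_clr (Finset.mem_powerset.1 hβ)]
  simp only [Finset.mul_sum]

variable {ι κ : Type*} [Finite ι] [Finite κ] {U : ι → Set ℂ} {R : κ → ℂ × ℂ × ℂ → Prop}

/-- natural classes, as a function of the positions in the window -/
def NatP (U : ι → Set ℂ) (R : κ → ℂ × ℂ × ℂ → Prop) (W : Set ℂ) (A : Set ℂ → ZMod 3 → Set ℂ) :
    Prop := NatA U R W fun X => A (ps X ∩ W)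

theorem fme_HE (hU : ∀ a, MeasurableSet (U a)) (hR : ∀ a, MeasurableSet {t | R a t}) (a : ι)
    {A : Set ℂ → ZMod 3 → Set ℂ} (hA : NatP U R (U a) A) {z : ℂ → ℂ} (hz : Measurable z)
    (i : ZMod 3) : FMe (HE (U a) A z i) :=
  fme_hits hU hR a hA i (f := fun t => z t.1) (hz.comp measurable_fst)

theorem fme_HT (hU : ∀ a, MeasurableSet (U a)) (hR : ∀ a, MeasurableSet {t | R a t}) (a : ι)
    {A : Set ℂ → ZMod 3 → Set ℂ} (hA : NatP U R (U a) A) {z : ℂ → ℂ} (hz : Measurable z) :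
    FMe (HT (U a) A z) := fun n => by
  unfold HT
  refine Measurable.const_mul ?_ 3
  refine Finset.measurable_fun_sum _ fun i _ => ?_
  exact (fme_HE hU hR a hA hz i n).const_mul _

/-- **measurability of the mean end point** as a function of the positions -/
theorem fme_Ey (hU : ∀ a, MeasurableSet (U a)) (hR : ∀ a, MeasurableSet {t | R a t}) (a : ι)
    {A : Set ℂ → ZMod 3 → Set ℂ} (hA : NatP U R (U a) A) {z : ℂ → ℂ} (hz : Measurable z)
    (i : ZMod 3) : FMe fun X => Ey (Sf (U a) X) (A (ps X ∩ U a)) z i := by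
  have h1 := IndLoc4x279.ps_measX (f := fun P => cav (HE (U a) A z i) (fs P))
    (fun n => IndLoc4x279.cav_meas (F := HE (U a) A z i) (fme_HE hU hR a hA hz i) n) (hU a)
  intro n
  have h2 := h1 n
  have e : (fun w : Fin n → ℂ × Bool => Ey (Sf (U a) (range w)) (A (ps (range w) ∩ U a)) z i) =
      fun w => cav (HE (U a) A z i) (fs (IndLoc3x279.psn (range w) ∩ U a)) := by
    funext w
    have hc : (Sf (U a) (range w) : Set ℂ) = ps (range w) ∩ U a := Sf_coe (finite_range w)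
    have h3 := Ey_cav (W := U a) (S := Sf (U a) (range w)) (by rw [hc]; exact inter_subset_right)
      A z i
    rw [hc] at h3
    exact h3
  rw [show (fun w : Fin n → ℂ × Bool => (fun X => Ey (Sf (U a) X) (A (ps X ∩ U a)) z i)
    (range w)) = _ from e]
  exact h2

/-- **measurability of `TS`** as a function of the positions -/
theorem fme_TS (hU : ∀ a, MeasurableSet (U a)) (hR : ∀ a, MeasurableSet {t | R a t}) (a : ι)
    {A : Set ℂ → ZMod 3 → Set ℂ} (hA : NatP U R (U a) A) {z : ℂ → ℂ} (hz : Measurable z) :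
    FMe fun X => TS (Sf (U a) X) (A (ps X ∩ U a)) z := by
  intro n
  unfold TS
  refine Measurable.const_mul ?_ 3
  refine Finset.measurable_fun_sum _ fun i _ => ?_
  exact (fme_Ey hU hR a hA hz i n).const_mul _

end total

end Crest.Agent.R143.FinTx609
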