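import Crest.Agent.R143.FinT_609
import Crest.Agent.R143.NetV_346
import Crest.Agent.R143.Dbl2_609

/-!
# Row 143 (S0194), RIG: measurability of `TU` (frozen object `NetV_346`) (helper609)

* `fme_hitsV`, `fme_zV`, `TV_cav`, `fme_TV` : natural free sets and labels
* `fme_yU`, `fme_TU` : the end points (of a colouring) and the totals of a labelled region
  (`P`, `L`), `W` = window (Borel), `{x | closedBall x (2 d) ⊆ P}` and `{x | L x = i}` Borel
* `meas_ball_closed`, `meas_ball_open` : `{x | closedBall x r ⊆ P}` is Borel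
* `TUω`, `meas_TU`, `indep_TU` : on the sample
-/

set_option autoImplicit false
set_option linter.unusedSectionVars false

noncomputable section

open scoped Classical

namespace Crest.Agent.R143.FinUx609

open MeasureTheory Set Filter Topology
open Crest.ProbabilityR.Voronoi
open Crest.Agent.R143.PP0x831 Crest.Agent.R143.Janx304 Crest.Agent.R143.Dblx609
open Crest.Agent.R143.Dbl2x609
open Crest.Agent.R143.B0x346 Crest.Agent.R143.DelGx806
open Crest.Agent.R143.Prodx609 Crest.Agent.R143.FinMx609 Crest.Agent.R143.FinTx609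
open Crest.Agent.R143.JColx54 (Adj)
open Crest.Agent.R143.RE0x723 (Pth)
open Crest.Agent.R143.K33x877 (Clu)
open Crest.Agent.R143.NetUx346 Crest.Agent.R143.NetVx346
open Crest.Agent.R143.IndLoc3x279 (clr cav)

/-! ### transport -/

section tr

variable {S S' V V' : Finset ℂ} {B B' : ZMod 3 → Set ℂ} {e : ℂ → ℂ}

theorem hitV_iso (h : SIso S S' e) (hBS : ∀ i, B i ⊆ S)
    (hV : ∀ x ∈ S, x ∈ V ↔ e x ∈ V') (hB : ∀ i, ∀ x ∈ S, x ∈ B i ↔ e x ∈ B' i)
    {T T' : Set ℂ} (hT : ∀ x ∈ S, x ∈ T ↔ e x ∈ T') {i : ZMod 3} {t : ℂ × ℂ × ℂ}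
    (ht : HitV S V B i T t) : HitV S' V' B' i T' (e t.1, e t.2.1, e t.2.2) := by
  obtain ⟨h1, h2, h3, h4, h5⟩ := ht
  obtain ⟨m1, m2, m3⟩ := del_mem (x := t.1) (y := t.2.1) (w := t.2.2) h1
  refine ⟨(h.tri _ m1 _ m2 _ m3).1 h1, (hB i _ m1).1 h2, ?_, ?_, ?_⟩
  · rcases h3 with h3 | h3
    · exact Or.inl ((hV _ m2).1 h3)
    · exact Or.inr ((hV _ m3).1 h3)
  · refine h.clu (hBS _) (fun x hx hx' => (hB _ x hx).1 hx') ?_ h4
    rintro x hx ⟨h6, h7⟩
    exact ⟨(hV x hx).1 h6, (hT x hx).1 h7⟩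
  · refine h.clu (hBS _) (fun x hx hx' => (hB _ x hx).1 hx') ?_ h5
    rintro x hx ⟨h6, h7⟩
    exact ⟨(hV x hx).1 h6, fun h8 => h7 ((hT x hx).2 h8)⟩

end tr

/-! ### natural free sets and labels -/

section fme

variable {ι κ : Type*} [Finite ι] [Finite κ] {U : ι → Set ℂ} {R : κ → ℂ × ℂ × ℂ → Prop}

/-- natural free set and labels in the window `W` -/
structure NatV (U : ι → Set ℂ) (R : κ → ℂ × ℂ × ℂ → Prop) (W : Set ℂ)
    (V : Set (ℂ × Bool) → Finset ℂ) (B : Set (ℂ × Bool) → ZMod 3 → Set ℂ) : Prop where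
  sub : ∀ X, X.Finite → ∀ i, B X i ⊆ ps X ∩ W
  isoV : ∀ X X' : Set (ℂ × Bool), X.Finite → X'.Finite → ∀ e, PIso U R X X' e →
    ∀ x ∈ ps X, x ∈ W → (x ∈ V X ↔ e x ∈ V X')
  isoB : ∀ X X' : Set (ℂ × Bool), X.Finite → X'.Finite → ∀ e, PIso U R X X' e →
    ∀ i, ∀ x ∈ ps X, x ∈ W → (x ∈ B X i ↔ e x ∈ B X' i)

theorem fme_hitsV {C : Type*} [MeasurableSpace C] [AddCommMonoid C] [MeasurableAdd₂ C]
    (hU : ∀ a, MeasurableSet (U a)) (hR : ∀ a, MeasurableSet {t | R a t}) (a : ι)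
    {V : Set (ℂ × Bool) → Finset ℂ} {B : Set (ℂ × Bool) → ZMod 3 → Set ℂ}
    (hA : NatV U R (U a) V B) (i : ZMod 3) {f : ℂ × ℂ × ℂ → C} (hf : Measurable f) :
    FMe fun X => ∑ t ∈ hitsV (Sf (U a) X) (V X) (B X) i (bl X), f t := by
  have key := fme_sum (C := C) hU hR
    (P := fun X t => X.Finite ∧ HitV (Sf (U a) X) (V X) (B X) i (bl X) t)
    (by
      rintro X t ⟨hX, h⟩
      obtain ⟨m1, m2, m3⟩ := del_mem (x := t.1) (y := t.2.1) (w := t.2.2) h.1
      exact ⟨((mem_Sf hX).1 m1).1, ((mem_Sf hX).1 m2).1, ((mem_Sf hX).1 m3).1⟩)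
    (by
      rintro X X' hX hX' e he x hx y hy w hw ⟨-, h⟩
      refine ⟨hX', ?_⟩
      have hs := siso_of_piso he hX hX' a
      refine hitV_iso hs ?_ ?_ ?_ ?_ h
      · intro j z hz
        rw [Sf_coe hX]
        exact hA.sub X hX j hz
      · intro z hz
        obtain ⟨h1, h2⟩ := (mem_Sf hX).1 hz
        exact hA.isoV X X' hX hX' e he z h1 h2
      · intro j z hz
        obtain ⟨h1, h2⟩ := (mem_Sf hX).1 hz
        exact hA.isoB X X' hX hX' e he j z h1 h2
      · intro z hz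
        exact he.col z ((mem_Sf hX).1 hz).1 true)
    hf
  have e : ∀ n : ℕ, (fun z : Fin n → ℂ × Bool =>
      ∑ t ∈ hitsV (Sf (U a) (range z)) (V (range z)) (B (range z)) i (bl (range z)), f t) =
      fun z => ∑ᶠ (t : ℂ × ℂ × ℂ) (_ : (range z).Finite ∧
        HitV (Sf (U a) (range z)) (V (range z)) (B (range z)) i (bl (range z)) t), f t := by
    intro n
    funext z
    rw [← finsum_mem_coe_finset]
    refine finsum_congr fun t => ?_
    have e1 : (t ∈ ((hitsV (Sf (U a) (range z)) (V (range z)) (B (range z)) i (bl (range z)) :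
        Finset (ℂ × ℂ × ℂ)) : Set (ℂ × ℂ × ℂ))) = ((range z).Finite ∧
        HitV (Sf (U a) (range z)) (V (range z)) (B (range z)) i (bl (range z)) t) := by
      rw [Finset.mem_coe, mem_hitsV]
      exact propext ⟨fun h => ⟨finite_range z, h⟩, fun h => h.2⟩
    rw [e1]
  intro n
  rw [show (fun z : Fin n → ℂ × Bool => (fun X =>
    ∑ t ∈ hitsV (Sf (U a) X) (V X) (B X) i (bl X), f t) (range z)) = _ from e n]
  exact key n

/-- **the end point in a colouring** -/
theorem fme_zV (hU : ∀ a, MeasurableSet (U a)) (hR : ∀ a, MeasurableSet {t | R a t}) (a : ι)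
    {V : Set (ℂ × Bool) → Finset ℂ} {B : Set (ℂ × Bool) → ZMod 3 → Set ℂ}
    (hA : NatV U R (U a) V B) (i : ZMod 3) {z : ℂ → ℂ} (hz : Measurable z) :
    FMe fun X => zV (Sf (U a) X) (V X) (B X) i (bl X) z := by
  intro n
  have h1 := fme_hitsV (C := ℕ) hU hR a hA i (f := fun _ => 1) measurable_const n
  have h2 := fme_hitsV hU hR a hA i (f := fun t => z t.1) (hz.comp measurable_fst) n
  simp only [Finset.sum_const, smul_eq_mul, mul_one] at h1
  exact Measurable.ite (h1 (measurableSet_singleton 1)) h2 measurable_const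

end fme

/-! ### `TV` as a colour mean -/

section total

variable {W : Set ℂ}

/-- coloured functional for `TV` -/
def HV (W : Set ℂ) (V : Set ℂ → Finset ℂ) (B : Set ℂ → ZMod 3 → Set ℂ) (z : ℂ → ℂ)
    (X : Set (ℂ × Bool)) : ℂ :=
  3 * ∑ i : ZMod 3, omz i * zV (Sf W X) (V (ps X ∩ W)) (B (ps X ∩ W)) i (bl X) z

theorem hitsV_inter (S V : Finset ℂ) (B : ZMod 3 → Set ℂ) (i : ZMod 3) (β : Finset ℂ) :
    hitsV S V B i (β : Set ℂ) = hitsV S V B i ((β ∩ V : Finset ℂ) : Set ℂ) := by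
  have e1 : {x | x ∈ V} ∩ (β : Set ℂ) = {x | x ∈ V} ∩ ((β ∩ V : Finset ℂ) : Set ℂ) := by
    ext x
    simp only [mem_inter_iff, Finset.mem_coe, Finset.mem_inter, mem_ofPred_eq]
    tauto
  have e2 : {x | x ∈ V} \ (β : Set ℂ) = {x | x ∈ V} \ ((β ∩ V : Finset ℂ) : Set ℂ) := by
    ext x
    simp only [Set.mem_sdiff, Finset.mem_coe, Finset.mem_inter, mem_ofPred_eq]
    tauto
  ext t
  rw [mem_hitsV, mem_hitsV]
  unfold HitV
  rw [e1, e2]

/-- a mean over the colourings of `V` is a mean over the colourings of `S` -/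
theorem exC_all {S V : Finset ℂ} (hV : V ⊆ S) {g : Finset ℂ → ℂ} (hg : ∀ β, g β = g (β ∩ V)) :
    exC V g = ((2⁻¹ : ℝ) ^ S.card) • ∑ β ∈ S.powerset, g β := by
  have hd : Disjoint V (S \ V) := Finset.disjoint_sdiff
  have hu : V ∪ (S \ V) = S := Finset.union_sdiff_of_subset hV
  have h1 := sum_pow_inter hd g
  rw [hu] at h1
  have h2 : ∑ β ∈ S.powerset, g β = ∑ β ∈ S.powerset, g (β ∩ V) :=
    Finset.sum_congr rfl fun β _ => hg β
  rw [h2, h1]
  have hc : S.card = (S \ V).card + V.card := by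
    rw [Finset.card_sdiff_add_card_eq_card hV]
  unfold exC
  rw [hc, pow_add, ← Nat.cast_smul_eq_nsmul ℝ, smul_smul]
  rw [show (2⁻¹ : ℝ) ^ (S \ V).card * (2⁻¹ : ℝ) ^ V.card *
      ((2 ^ (S \ V).card : ℕ) : ℝ) = (2⁻¹ : ℝ) ^ V.card by
    push_cast
    rw [inv_pow, inv_pow]
    field_simp]
  rw [Complex.real_smul, div_eq_inv_mul]
  push_cast
  rw [inv_pow]

/-- **`TV` is the colour mean of `HV`** -/
theorem TV_cav {S : Finset ℂ} (hS : (S : Set ℂ) ⊆ W) {V : Set ℂ → Finset ℂ} (hV : V S ⊆ S)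
    (B : Set ℂ → ZMod 3 → Set ℂ) (z : ℂ → ℂ) :
    TV S (V S) (B S) z = cav (HV W V B z) S := by
  unfold TV
  have h1 : ∀ i : ZMod 3, exC (V S) (fun T => zV S (V S) (B S) i (T : Set ℂ) z) =
      ((2⁻¹ : ℝ) ^ S.card) • ∑ β ∈ S.powerset, zV S (V S) (B S) i (β : Set ℂ) z := by
    intro i
    refine exC_all hV fun β => ?_
    show zV S (V S) (B S) i (β : Set ℂ) z = zV S (V S) (B S) i ((β ∩ V S : Finset ℂ) : Set ℂ) z
    unfold zV
    rw [hitsV_inter]
  simp only [h1]
  unfold IndLoc3x279.cav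
  simp only [mul_smul_comm]
  rw [← Finset.smul_sum, mul_smul_comm]
  congr 1
  rw [Finset.mul_sum]
  simp only [Finset.mul_sum]
  rw [Finset.sum_comm]
  refine Finset.sum_congr rfl fun β hβ => ?_
  unfold HV
  rw [Sf_clr hS, ps_clr, inter_eq_left.2 hS, bl_clr (Finset.mem_powerset.1 hβ)]
  simp only [Finset.mul_sum]

variable {ι κ : Type*} [Finite ι] [Finite κ] {U : ι → Set ℂ} {R : κ → ℂ × ℂ × ℂ → Prop}

theorem fme_HV (hU : ∀ a, MeasurableSet (U a)) (hR : ∀ a, MeasurableSet {t | R a t}) (a : ι)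
    {V : Set ℂ → Finset ℂ} {B : Set ℂ → ZMod 3 → Set ℂ}
    (hA : NatV U R (U a) (fun X => V (ps X ∩ U a)) fun X => B (ps X ∩ U a)) {z : ℂ → ℂ}
    (hz : Measurable z) : FMe (HV (U a) V B z) := fun n => by
  unfold HV
  refine Measurable.const_mul ?_ 3
  refine Finset.measurable_fun_sum _ fun i _ => ?_
  exact (fme_zV hU hR a hA i hz n).const_mul _

/-- a colour mean of an `FMe` functional is an `FMe` functional (of the positions) -/
theorem fme_cav {F : Set (ℂ × Bool) → ℂ} (hF : FMe F) {W : Set ℂ} (hW : MeasurableSet W) :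
    FMe fun X => cav F (Sf W X) :=
  IndLoc4x279.ps_measX (f := fun P => cav F (IndLoc3x279.fs P))
    (fun n => IndLoc4x279.cav_meas (F := F) hF n) hW

theorem fme_TV (hU : ∀ a, MeasurableSet (U a)) (hR : ∀ a, MeasurableSet {t | R a t}) (a : ι)
    {V : Set ℂ → Finset ℂ} {B : Set ℂ → ZMod 3 → Set ℂ}
    (hA : NatV U R (U a) (fun X => V (ps X ∩ U a)) fun X => B (ps X ∩ U a))
    (hV : ∀ P, P.Finite → (V P : Set ℂ) ⊆ P) {z : ℂ → ℂ} (hz : Measurable z) :
    FMe fun X => TV (Sf (U a) X) (V (ps X ∩ U a)) (B (ps X ∩ U a)) z := by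
  have h1 := fme_cav (fme_HV hU hR a hA hz) (hU a)
  intro n
  have e : (fun w : Fin n → ℂ × Bool => TV (Sf (U a) (range w)) (V (ps (range w) ∩ U a))
      (B (ps (range w) ∩ U a)) z) = fun w => cav (HV (U a) V B z) (Sf (U a) (range w)) := by
    funext w
    have hc : (Sf (U a) (range w) : Set ℂ) = ps (range w) ∩ U a := Sf_coe (finite_range w)
    have h3 := TV_cav (W := U a) (S := Sf (U a) (range w)) (by rw [hc]; exact inter_subset_right)
      (V := V) (by
        have := hV _ (Sf (U a) (range w)).finite_toSet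
        exact Finset.coe_subset.1 this) B z
    rw [hc] at h3
    exact h3
  rw [show (fun w : Fin n → ℂ × Bool => (fun X => TV (Sf (U a) X) (V (ps X ∩ U a))
    (B (ps X ∩ U a)) z) (range w)) = _ from e]
  exact h1 n

end total

/-! ### labelled regions -/

section region

/-- the family of Borel sets of a labelled region -/
def UF (W P : Set ℂ) (d : ℝ) (L : ℂ → ZMod 3) : Option (Option (ZMod 3)) → Set ℂ
  | none => W
  | some none => {x | Metric.closedBall x (2 * d) ⊆ P}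
  | some (some i) => {x | L x = i}

theorem meas_UF {W P : Set ℂ} {d : ℝ} {L : ℂ → ZMod 3} (hW : MeasurableSet W)
    (hP : MeasurableSet {x | Metric.closedBall x (2 * d) ⊆ P})
    (hL : ∀ i, MeasurableSet {x | L x = i}) : ∀ a, MeasurableSet (UF W P d L a)
  | none => hW
  | some none => hP
  | some (some i) => hL i

/-- no relation -/
def R0 : Empty → ℂ × ℂ × ℂ → Prop := fun a => a.elim

variable {W P : Set ℂ} {d : ℝ} {L : ℂ → ZMod 3}

theorem Vin_fs {X : Set (ℂ × Bool)} (hX : X.Finite) {x : ℂ} :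
    x ∈ Vin (Sf W X) P d ↔ (x ∈ ps X ∧ x ∈ W) ∧ Metric.closedBall x (2 * d) ⊆ P := by
  unfold Vin
  rw [Finset.mem_filter, mem_Sf hX]

/-- the region data are natural -/
theorem natV_region : NatV (UF W P d L) R0 W
    (fun X => Vin (Sf W X) P d) (fun X => Bl (Sf W X) (Vin (Sf W X) P d) L) := by
  have hVi : ∀ X X' : Set (ℂ × Bool), X.Finite → X'.Finite → ∀ e, PIso (UF W P d L) R0 X X' e →
      ∀ x ∈ ps X, x ∈ Vin (Sf W X) P d ↔ e x ∈ Vin (Sf W X') P d := by
    intro X X' hX hX' e he x hx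
    rw [Vin_fs hX, Vin_fs hX']
    have h1 := he.loc x hx none
    have h2 := he.loc x hx (some none)
    have h3 : e x ∈ ps X' := he.bij.mapsTo hx
    simp only [UF, mem_ofPred_eq] at h1 h2
    rw [h1, h2]
    simp only [hx, h3, true_and]
  refine ⟨?_, fun X X' hX hX' e he x hx _ => hVi X X' hX hX' e he x hx, ?_⟩
  · rintro X hX i x ⟨h1, -⟩
    exact (mem_Sf hX).1 h1
  · intro X X' hX hX' e he i x hx hxW
    have hs : SIso (Sf W X) (Sf W X') e := siso_of_piso he hX hX' none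
    have hs' := hs.symm
    have hl := he.loc x hx (some (some i))
    simp only [UF, mem_ofPred_eq] at hl
    have hxS : x ∈ Sf W X := (mem_Sf hX).2 ⟨hx, hxW⟩
    unfold NetVx346.Bl
    simp only [mem_ofPred_eq]
    rw [← hl, ← hVi X X' hX hX' e he x hx]
    constructor
    · rintro ⟨h1, h2, ⟨v, hv, hxv⟩, h4⟩
      refine ⟨hs.mem h1, h2, ⟨e v, ?_, hs.adj hxv⟩, h4⟩
      exact (hVi X X' hX hX' e he v ((Vin_fs hX).1 hv).1.1).1 hv
    · rintro ⟨h1, h2, ⟨v', hv', hxv⟩, h4⟩
      obtain ⟨v, hv, rfl⟩ := he.bij.surjOn ((Vin_fs hX').1 hv').1.1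
      have hvV := (hVi X X' hX hX' e he v hv).2 hv'
      have hvS : v ∈ Sf W X := (mem_Sf hX).2 ((Vin_fs hX).1 hvV).1
      refine ⟨hxS, h2, ⟨v, hvV, ?_⟩, h4⟩
      have h5 := hs'.adj hxv
      have hinv := hs.bij.invOn_invFunOn
      rwa [hinv.1 (show x ∈ (Sf W X : Set ℂ) from hxS),
        hinv.1 (show v ∈ (Sf W X : Set ℂ) from hvS)] at h5

/-- **the end point of the labelled region, in the colouring of `X`** -/
theorem fme_yU (hW : MeasurableSet W)
    (hP : MeasurableSet {x | Metric.closedBall x (2 * d) ⊆ P})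
    (hL : ∀ i, MeasurableSet {x | L x = i}) (i : ZMod 3) {z : ℂ → ℂ} (hz : Measurable z) :
    FMe fun X => zV (Sf W X) (Vin (Sf W X) P d) (Bl (Sf W X) (Vin (Sf W X) P d) L) i (bl X) z :=
  fme_zV (meas_UF hW hP hL) (R := R0) (fun a => a.elim) none natV_region i hz

/-- **`TU` is measurable** -/
theorem fme_TU (hW : MeasurableSet W)
    (hP : MeasurableSet {x | Metric.closedBall x (2 * d) ⊆ P})
    (hL : ∀ i, MeasurableSet {x | L x = i}) {z : ℂ → ℂ} (hz : Measurable z) :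
    FMe fun X => TU (Sf W X) P d L z :=
  fme_TV (U := UF W P d L) (R := R0) (meas_UF hW hP hL) (fun a => a.elim) none
    (V := fun Q => Vin (IndLoc3x279.fs Q) P d)
    (B := fun Q => Bl (IndLoc3x279.fs Q) (Vin (IndLoc3x279.fs Q) P d) L) natV_region
    (by
      intro Q hQ x hx
      unfold Vin at hx
      rw [Finset.mem_coe, Finset.mem_filter] at hx
      have := hx.1
      rwa [← Finset.mem_coe, fs_coe hQ] at this) hz

/-- `{x | closedBall x r ⊆ P}` for `P` open -/
theorem meas_ball_open {r : ℝ} (hP : IsOpen P) :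
    MeasurableSet {x : ℂ | Metric.closedBall x r ⊆ P} := by
  by_cases hne : (Pᶜ).Nonempty
  · rcases lt_or_ge r 0 with hr | hr
    · have : {x : ℂ | Metric.closedBall x r ⊆ P} = univ := by
        ext x; simp [Metric.closedBall_eq_empty.2 hr]
      rw [this]; exact MeasurableSet.univ
    · have e : {x : ℂ | Metric.closedBall x r ⊆ P} = {x | r < Metric.infDist x Pᶜ} := by
        ext x
        simp only [mem_ofPred_eq]
        constructor
        · intro h
          obtain ⟨y, hy, he⟩ := (hP.isClosed_compl).exists_infDist_eq_dist hne x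
          rw [he]
          by_contra hc
          exact hy (h (by rw [Metric.mem_closedBall, dist_comm]; exact not_lt.1 hc))
        · intro h y hy
          by_contra hc
          have h1 := Metric.infDist_le_dist_of_mem (x := x) (show y ∈ Pᶜ from hc)
          rw [Metric.mem_closedBall, dist_comm] at hy
          linarith
      rw [e]
      exact measurableSet_lt measurable_const (Metric.continuous_infDist_pt _).measurable
  · have h : P = univ := by
      rw [Set.not_nonempty_iff_eq_empty] at hne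
      rw [← compl_compl P, hne, compl_empty]
    rw [h]
    simp

/-- `{x | closedBall x r ⊆ P}` for `P` closed -/
theorem meas_ball_closed {r : ℝ} (hP : IsClosed P) :
    MeasurableSet {x : ℂ | Metric.closedBall x r ⊆ P} := by
  have e : {x : ℂ | Metric.closedBall x r ⊆ P} = ⋂ n : ℕ,
      {x | Metric.closedBall x r ⊆ Metric.thickening (1 / (n + 1)) P} := by
    ext x
    simp only [mem_ofPred_eq, mem_iInter]
    constructor
    · intro h n
      exact h.trans (Metric.self_subset_thickening (by positivity) P)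
    · intro h y hy
      have h1 : y ∈ ⋂ δ > 0, Metric.thickening δ P := by
        simp only [mem_iInter]
        intro δ hδ
        obtain ⟨n, hn⟩ := exists_nat_one_div_lt hδ
        exact Metric.thickening_mono hn.le P (h n hy)
      rw [← Metric.closure_eq_iInter_thickening, hP.closure_eq] at h1
      exact h1
  rw [e]
  exact MeasurableSet.iInter fun n => meas_ball_open Metric.isOpen_thickening

end region

/-! ### on the sample -/

section sample

variable {W P : Set ℂ} {d ε : ℝ} {L : ℂ → ZMod 3}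

theorem Sf_cfg (hε : 0 < ε) (hb : Bornology.IsBounded W) (ω : Sample) :
    Sf W (cfg ε ω ∩ ovr W) = Ap ε W ω := by
  rw [← Finset.coe_inj, coe_Ap hε hb]
  have h1 : ps (cfg ε ω ∩ ovr W) ∩ W = points ε ω ∩ W := by
    rw [← fst_cfg ε ω]
    ext x
    simp only [ps, mem_inter_iff, mem_image]
    constructor
    · rintro ⟨⟨q, ⟨h1, h2⟩, rfl⟩, h3⟩; exact ⟨⟨q, h1, rfl⟩, h3⟩
    · rintro ⟨⟨q, h1, rfl⟩, h3⟩; exact ⟨⟨q, ⟨h1, h3⟩, rfl⟩, h3⟩
  unfold Sf
  rw [h1]
  exact fs_coe (finite_points hε hb ω)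

theorem Sf_cfg2 (hε : 0 < ε) (hb : Bornology.IsBounded W) (ω : Sample) :
    Sf W (cfg2 ε ω ∩ ovr W) = Ap ε W ω := by
  rw [← Finset.coe_inj, coe_Ap hε hb]
  have h1 : ps (cfg2 ε ω ∩ ovr W) ∩ W = points ε ω ∩ W := by
    rw [← fst_cfg2 ε ω]
    ext x
    simp only [ps, mem_inter_iff, mem_image]
    constructor
    · rintro ⟨⟨q, ⟨h1, h2⟩, rfl⟩, h3⟩; exact ⟨⟨q, h1, rfl⟩, h3⟩
    · rintro ⟨⟨q, h1, rfl⟩, h3⟩; exact ⟨⟨q, ⟨h1, h3⟩, rfl⟩, h3⟩
  unfold Sf
  rw [h1]
  exact fs_coe (finite_points hε hb ω)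

/-- **`ω ↦ TU` is measurable** -/
theorem meas_TU (hε : 0 < ε) (hb : Bornology.IsBounded W) (hW : MeasurableSet W)
    (hP : MeasurableSet {x | Metric.closedBall x (2 * d) ⊆ P})
    (hL : ∀ i, MeasurableSet {x | L x = i}) {z : ℂ → ℂ} (hz : Measurable z) :
    Measurable fun ω : Sample => TU (Ap ε W ω) P d L z := by
  have h := meas_cfg hε hW hb (fme_TU (W := W) hW hP hL hz)
  simp only [Sf_cfg hε hb] at h
  exact h

/-- **`TU` is independent of the marked configuration off the window** -/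
theorem indep_TU (hε : 0 < ε) (hb : Bornology.IsBounded W) (hW : MeasurableSet W)
    (hP : MeasurableSet {x | Metric.closedBall x (2 * d) ⊆ P})
    (hL : ∀ i, MeasurableSet {x | L x = i}) {z : ℂ → ℂ} (hz : Measurable z) {C : Set ℂ}
    (hC : MeasurableSet C) (hbC : Bornology.IsBounded C) (hd : Disjoint C W) {Y : Type*}
    [MeasurableSpace Y] {F : Set (ℂ × (Bool × Bool)) → Y} (hF : FMe F) :
    ProbabilityTheory.IndepFun (fun ω => F (dcf ε ω ∩ ovM _ C))
      (fun ω => TU (Ap ε W ω) P d L z) sampleLaw := by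
  have h := R8_indep hε hC hbC hW hb hd hF (fme_p1 (fme_TU (W := W) hW hP hL hz))
  simp only [p1_inter, p1_dcf, Sf_cfg hε hb] at h
  exact h

/-- `TU` is bounded -/
theorem norm_TUω {z : ℂ → ℂ} {b : ℝ} (hε : 0 < ε) (hb : Bornology.IsBounded W) (h0 : 0 ≤ b)
    (h : ∀ v ∈ W, ‖z v‖ ≤ b) (ω : Sample) : ‖TU (Ap ε W ω) P d L z‖ ≤ 9 * b :=
  norm_TU h0 fun v hv => h v (by
    have : v ∈ (Ap ε W ω : Set ℂ) := hv
    rw [coe_Ap hε hb] at this
    exact this.2)

end sample

end Crest.Agent.R143.FinUx609
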