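import Crest.Agent.R143.RigZ_609
import Crest.Agent.R143.WndX_829
import Crest.Agent.R143.WndS_416

/-!
# Row 143 (S0194), RIG, box Q2: THE windows, on the objects of the last layer (helper416)

One definition of the windows for the outer field `Q` and for the quenched bound. `l` = tile in the
order of the strand (= path tile `nT - 1 - l`).

* `oZ` gate `0`; `aZ`, `bZ` : the window of `WndG` (relative to `oZ`); `pZ = oZ + aZ - 5`,
  `qZ = oZ + bZ + 5` : removed tiles; `I1`, `J1` : removed gates and tiles; `DZ` : 169's region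
* `wd` : the data `WdA` of the window; `pq` : numbers
* **`wnd`** : 304's `Wnd` (side `4 h`, width `48`); **`ev_wnd`** : for large `N`, small `ε`, `d = √ε`
* `QZ` : 304's `Qt` for these windows, constant `9 * 48`
* **`reg_off`** : the region of the net off a window `p .. q` is in the tiles `q < j < p + M`
-/

set_option autoImplicit false
set_option linter.style.haveILetI false

noncomputable section

open scoped Classical

namespace Crest.Agent.R143.WndZx416

open MeasureTheory Set Filter Topology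
open scoped ENNReal
open Crest.ProbabilityR.Voronoi
open Crest.Agent.R143.PP0x831 Crest.Agent.R143.PWx978 Crest.Agent.R143.Tplx978
open Crest.Agent.R143.TileRx228 Crest.Agent.R143.PthFx765 Crest.Agent.R143.Hqx304
open Crest.Agent.R143.HqPx304 Crest.Agent.R143.CorNx765
open Crest.Agent.R143.LayQx811 Crest.Agent.R143.Layx416 Crest.Agent.R143.LayUx416
open Crest.Agent.R143.WndIx416 Crest.Agent.R143.WndGx416
open Crest.Agent.R143.PolyUx346 (Poly)
open Crest.Agent.R143.RigPx854 Crest.Agent.R143.RigZdx609 Crest.Agent.R143.RigZx609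
open Crest.Agent.R143.CorEx133 (Rp RU UU SU)
open Crest.Agent.R143.SpRx169 (QX)

/-! ### the windows -/

section defs

variable (u : Poly) (w : ZMod 3) (N l : ℕ)

/-- gate `0` of the corridor -/
def oZ (u : Poly) (w : ZMod 3) (N : ℕ) : ℤ := al (ly u N).A (ly u N).e w

/-- first tile of the window -/
def aZ : ℤ := wa (ly u N).A (ly u N).W (oZ u w N) (nT u w N) (ly u N).M ((nT u w N : ℤ) - 1 - l)

/-- last tile of the window -/
def bZ : ℤ := wb (ly u N).A (ly u N).W (oZ u w N) (nT u w N) (ly u N).M ((nT u w N : ℤ) - 1 - l)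

/-- first removed tile -/
def pZ : ℤ := pS (ly u N).A (ly u N).W (oZ u w N) (nT u w N) (ly u N).M l

/-- last removed tile -/
def qZ : ℤ := qS (ly u N).A (ly u N).W (oZ u w N) (nT u w N) (ly u N).M l

/-- removed gates -/
def I1 : Finset (ZMod (ly u N).M) := Iw (ly u N).M (pZ u w N l) (qZ u w N l)

/-- removed tiles -/
def J1 : Finset (ZMod (ly u N).M) := Jw (ly u N).M (pZ u w N l) (qZ u w N l)

/-- the region of the strand tile `l` (831's `Ft`) -/
def DZ : Set ℂ := QX (100 * et N) (ly u N).W (oZ u w N) (nT u w N) (nT u w N - 1 - l)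

end defs

variable {u : Poly} {w : ZMod 3} {N l : ℕ}

theorem pZ_eq : pZ u w N l = oZ u w N + aZ u w N l - 5 := rfl

theorem qZ_eq : qZ u w N l = oZ u w N + bZ u w N l + 5 := rfl

theorem m40 (h : u.n + 6 ≤ N) : (40 : ℤ) ≤ mN u N := by
  have h1 : 2 ^ 6 ≤ 2 ^ (N - u.n) := Nat.pow_le_pow_right (by norm_num) (by omega)
  unfold mN
  have h2 : 40 ≤ 2 ^ (N - u.n) := le_trans (by norm_num) h1
  exact_mod_cast h2

/-- **the data of the window** of the strand tile `l` -/
theorem wd (hN : u.n + 6 ≤ N) (hl : l < nT u w N) :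
    WdA (ly u N).A (ly u N).W (oZ u w N) (nT u w N) (ly u N).M ((nT u w N : ℤ) - 1 - l)
      (aZ u w N l) (bZ u w N l) := by
  have h1 : nT u w N = nn (ly u N).A (ly u N).e w := rfl
  exact wab_lay (ly_spec (u := u) (N := N) (by omega)).lay (m40 hN) w (by omega) (by omega)

/-- the same, with the natural number `nT - 1 - l` -/
theorem wd' (hN : u.n + 6 ≤ N) (hl : l < nT u w N) :
    WdA (ly u N).A (ly u N).W (oZ u w N) (nT u w N) (ly u N).M ((nT u w N - 1 - l : ℕ) : ℤ)
      (aZ u w N l) (bZ u w N l) := by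
  have h := wd (u := u) (w := w) hN hl
  rwa [show ((nT u w N - 1 - l : ℕ) : ℤ) = (nT u w N : ℤ) - 1 - l by omega]

/-- numbers -/
theorem pq (hN : u.n + 6 ≤ N) (hl : l < nT u w N) :
    pZ u w N l + 1 < oZ u w N + ((nT u w N - 1 - l : ℕ) : ℤ) ∧
      oZ u w N + ((nT u w N - 1 - l : ℕ) : ℤ) + 1 < qZ u w N l ∧
      qZ u w N l ≤ pZ u w N l + (48 : ℕ) := by
  have h := pqS (ly_spec (u := u) (N := N) (by omega)).lay (m40 hN) w hl
  have e : ((nT u w N - 1 - l : ℕ) : ℤ) = (nT u w N : ℤ) - 1 - l := by omega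
  rw [e]
  exact h

/-- no wrap -/
theorem pq_M (hN : u.n + 6 ≤ N) (hl : l < nT u w N) :
    qZ u w N l + 70 ≤ pZ u w N l + (ly u N).M := by
  have h := (wd (u := u) (w := w) hN hl).room
  rw [pZ_eq, qZ_eq]
  omega

/-! ### 304's windows -/

theorem hN_le_one (N : ℕ) : RigPx854.hN N ≤ 1 := pow_le_one₀ (by norm_num) (by norm_num)

/-- the `5 h`-neighbourhood of the polygon is in the disc -/
theorem near_RU (hN : u.n + 4 ≤ N) {s : ℂ} (hs : Metric.infDist s u.P ≤ 5 * RigPx854.hN N) :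
    s ∈ Metric.closedBall (0 : ℂ) (RU u) := by
  obtain ⟨x0, hx0, -⟩ := cen_P (ly_spec hN) (mN_hN (by omega)) 0
  have h1 := hN_le_one N
  have h2 : Metric.infDist s u.P < 6 := by linarith
  obtain ⟨x, hx, h3⟩ := (Metric.infDist_lt_iff ⟨x0, hx0⟩).1 h2
  rw [mem_closedBall_zero_iff]
  have h4 := CorEx133.P_norm u hx
  have h5 := CorEx133.one_le_Rp u
  rw [dist_eq_norm] at h3
  have h6 : ‖s‖ ≤ ‖s - x‖ + ‖x‖ := by
    have := norm_add_le (s - x) x
    rwa [sub_add_cancel] at this
  unfold RU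
  linarith

variable (Z : TData) {ε : ℝ}

/-- **304's `Wnd` for the windows** -/
theorem wnd (h6 : u.n + 6 ≤ N) (hN : u.n + 4 ≤ N) (he : 0 < ε) {d : ℝ} (hd : d < 38 * et N)
    (hε : ε ≤ 2 * RigPx854.hN N) (hA : ∫⁻ ω, (Z.tpl N he).A (cfg ε ω) ∂sampleLaw ≠ 0) :
    Wnd (net Z u w hN he) (uM hN) (uM hN) (nT u w N) (I1 u w N) (J1 u w N) (DZ u w N) d
      (2 * (2 * RigPx854.hN N)) (Metric.closedBall 0 (RU u)) (mm (Z.tpl N he) 48) := by
  haveI := neM hN
  have h1 := Z.num N ε
  have e0 := et_pos N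
  have eh := Z.h_eq N ε
  have e1 := et_h N
  have hW := WndXx829.wnd_QX (ly_spec hN) (mNh Z hN ε) (Z.std N he) w (o := oZ u w N)
    (n := nT u w N) (p' := pZ u w N) (q' := qZ u w N) (w := 48)
    (fun l hl => (pq h6 hl).1) (fun l hl => (pq h6 hl).2.1) (fun l hl => (pq h6 hl).2.2)
    (d := d) (ρ := 38 * et N) hd (by rw [h1.A', h1.h]; linarith) (by rw [eh]; exact hε)
    (X := Metric.closedBall 0 (RU u)) measurableSet_closedBall Metric.isBounded_closedBall
    (fun s hs => near_RU hN (by rwa [eh] at hs)) hA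
  have e2 : (fun l => QX (Z.D N ε).h (ly u N).W (oZ u w N) (nT u w N) (nT u w N - 1 - l)) =
      DZ u w N := by
    funext l
    unfold DZ
    rw [eh, e1]
  have e3 : 2 * (2 * (Z.D N ε).h) = 2 * (2 * RigPx854.hN N) := by rw [eh]
  rw [e2, e3] at hW
  exact hW

/-- **304's `Qt` for the windows** -/
def QZ (u : Poly) (w : ZMod 3) (hN : u.n + 4 ≤ N) (he : 0 < ε) : Sample → ℝ :=
  Qt (net Z u w hN he) (uM hN) (uM hN) (nT u w N) (I1 u w N) (J1 u w N) (DZ u w N) √ε
    (Metric.closedBall 0 (RU u)) (9 * 48)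

/-- **the windows, for large `N` and small `ε`** -/
theorem ev_wnd (hp : PosP Z) (u : Poly) (w : ZMod 3) : Ev u fun N ε hn he =>
    u.n + 6 ≤ N ∧
    Wnd (net Z u w hn he) (uM hn) (uM hn) (nT u w N) (I1 u w N) (J1 u w N) (DZ u w N) √ε
      (2 * (2 * RigPx854.hN N)) (Metric.closedBall 0 (RU u)) (mm (Z.tpl N he) 48) := by
  obtain ⟨cc, hcc, c0, hc0, hpos⟩ := hp
  filter_upwards [eventually_ge_atTop (u.n + 6)] with N h6
  have e0 := et_pos N
  have hh := RigPx854.hN_pos N
  have t1 : Tendsto (fun ε : ℝ => √ε) (𝓝[>] 0) (𝓝 0) := by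
    have := (Real.continuous_sqrt.tendsto 0).mono_left (nhdsWithin_le_nhds (s := Ioi (0 : ℝ)))
    rwa [Real.sqrt_zero] at this
  have t2 : Tendsto (fun ε : ℝ => ε) (𝓝[>] 0) (𝓝 0) := nhdsWithin_le_nhds
  filter_upwards [hpos N, t1.eventually_lt_const (show (0 : ℝ) < 38 * et N by positivity),
    t2.eventually_lt_const (show (0 : ℝ) < 2 * RigPx854.hN N by positivity)] with ε k1 k2 k3 hn he
  refine ⟨h6, wnd Z h6 hn he k2 k3.le ?_⟩
  intro h0
  have h1 := (k1 he).2
  rw [h0] at h1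
  exact absurd (ENNReal.ofReal_eq_zero.1 (le_antisymm h1 zero_le)) (not_le.2 hc0)

/-! ### the region off a window -/

section off

variable {M : ℕ} {W : ℤ → ℤ × ℤ} {Ac e : ℤ → ℤ} {A B h : ℝ} {T : Tpl ε (Tn × Bool)}
  [DecidableEq (ZMod M)]

omit [DecidableEq (ZMod M)] in
/-- representative -/
theorem repr (hM : 0 < M) (p a : ℤ) : ∃ j : ℤ, p ≤ j ∧ j < p + M ∧ (M : ℤ) ∣ a - j := by
  have h0 : (0 : ℤ) < M := by exact_mod_cast hM
  refine ⟨p + (a - p) % M, ?_, ?_, (a - p) / M, ?_⟩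
  · have := Int.emod_nonneg (a - p) h0.ne'
    omega
  · have := Int.emod_lt_of_pos (a - p) h0
    omega
  · have := Int.emod_add_mul_ediv (a - p) M
    linarith

/-- **the region of the net off the window `p .. q` is in the tiles `q < j < p + M`** -/
theorem reg_off (P : FPath M W) (Hs : Std T A B h Prod.fst) (i : ZMod 3)
    (I J : Finset (ZMod M)) (hM : 0 < M) {p q : ℤ} (hpq : q + 2 ≤ p + M) {s : ℂ}
    (hs : s ∈ (cpth P Hs Ac e i).net.reg (I \ Iw M p q) (J \ Jw M p q)) :
    ∃ j, q < j ∧ j < p + M ∧ s ∈ RR A B h W j := by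
  rcases hs with hs | hs
  · obtain ⟨k, hk, hs⟩ := mem_iUnion₂.1 hs
    have hk' := (Finset.mem_sdiff.1 hk).2
    have hs' : s ∈ PthFx765.GB A B h W (zc k) := by
      have := net_B P Hs (cty_typ (M := M) (W := W) (Ac := Ac) (e := e) i) (zc k)
      rw [zc_cast] at this
      rwa [← this]
    obtain ⟨j, h1, h2, h3⟩ := repr hM p (zc k)
    have hj : s ∈ PthFx765.GB A B h W j := by
      rwa [PthFx765.GB_dvd P h3] at hs'
    have hkj : k = ((j : ℤ) : ZMod M) := by
      rw [← zc_cast k]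
      exact cast_dvd h3
    by_cases hq : q < j
    · exact ⟨j, hq, h2, PthFx765.GB_sub P Hs.hA Hs.hB j hj⟩
    · by_cases hp : p < j
      · exact absurd (hkj ▸ mem_Iw hp (not_lt.1 hq)) hk'
      · have e1 : j = p := by omega
        have e2 : PthFx765.GB A B h W j = PthFx765.GB A B h W (p + M - 1 + 1) := by
          refine (PthFx765.GB_dvd P ⟨1, ?_⟩).symm
          rw [e1]
          ring
        rw [e2] at hj
        exact ⟨p + M - 1, by omega, by omega, PthFx765.GB_sub' P Hs.hA Hs.hB _ hj⟩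
  · obtain ⟨k, hk, hs⟩ := mem_iUnion₂.1 hs
    have hk' := (Finset.mem_sdiff.1 hk).2
    have hs' : s ∈ PthFx765.TB A B h W (zc k) := by
      have := net_C P Hs (cty_typ (M := M) (W := W) (Ac := Ac) (e := e) i) (zc k)
      rw [zc_cast] at this
      rwa [← this]
    obtain ⟨j, h1, h2, h3⟩ := repr hM p (zc k)
    have hkj : k = ((j : ℤ) : ZMod M) := by
      rw [← zc_cast k]
      exact cast_dvd h3
    have hR : s ∈ RR A B h W j := by
      have := hs'.1
      rwa [PthFx765.RR_dvd P h3] at this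
    by_cases hq : q < j
    · exact ⟨j, hq, h2, hR⟩
    · exact absurd (hkj ▸ mem_Jw h1 (not_lt.1 hq)) hk'

end off

end Crest.Agent.R143.WndZx416
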