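import Crest.Agent.R143.LocZ_776
import Crest.Agent.R143.EnC_927
import Crest.Agent.R143.WndZ_416
import Crest.Agent.R143.PLL_228
import Crest.Agent.R143.SepS_697

/-!
# Row 143 (S0194), RIG box Q2, LOCX for the concrete corridor (helper776)

* `lxw_S` : 228's `LXW` for a colouring of a fixed set of sites, polygon level
* **`curI`** : 228's `CurI` (the last hypothesis of `PLLx228.tileI_of`)
* **`tileI`** : 597's `TileI` for every tile, no hypothesis left
-/

set_option autoImplicit false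
set_option linter.unusedSectionVars false
set_option linter.style.haveILetI false

noncomputable section

open scoped Classical

namespace Crest.Agent.R143.LocWx776

open Crest.ProbabilityR.Voronoi
open Crest.Agent.R143.B0x346 Crest.Agent.R143.DelGx806 Crest.Agent.R143.DelRx806
open Crest.Agent.R143.FinCx811 (Cs rc0 cs rcol)
open Crest.Agent.R143.WLocx713 (sX cX)
open Crest.Agent.R143.Frame8x395 hiding cfg
open Crest.Agent.R143.Frame10x395
open Crest.Agent.R143.PP0x831 Crest.Agent.R143.PWx978 Crest.Agent.R143.Tplx978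
open Crest.Agent.R143.PolyUx346 (Poly)
open Crest.Agent.R143.CorEx133
open Crest.Agent.R143.RcTx422 (Hc RC Hc_eq)
open Crest.Agent.R143.RigPx854 (ly ly_spec mN mN_hN mN_10 hN hN_pos nT)
open Crest.Agent.R143.RigZdx609 Crest.Agent.R143.LayUx416 Crest.Agent.R143.Layx416
open Crest.Agent.R143.TileRx228
open Crest.Agent.R143.CorHx713 (CorH xx yy)
open Crest.Agent.R143.CorrIx831 (Rws SDS Col col_Xc col_eq)
open Crest.Agent.R143.ColXx829 (Xc)
open Crest.Agent.R143.Uniqx323 (Zn)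
open Crest.Agent.R143.ZnQx323 (T₁)
open Crest.Agent.R143.WndGx416 (wa wb wab_lay)
open Crest.Agent.R143.QuenIx597
open Crest.Agent.R143.PLKx228 (LXW)
open Crest.Agent.R143.PLLx228 (CurI OneI tileI_of)
open Crest.Agent.R143.SepHx697
open Crest.Agent.R143.RegEx523 (Kin)
open Crest.Agent.R143.Tenx416 (Pg)
open Crest.Agent.R143.Brkx478 (Bk cells)

/-- **`LXW` on a fixed set of sites** -/
theorem lxw_S {u : Poly} {m M : ℕ} {pp W : ℤ → ℤ × ℤ} {A e : ℤ → ℤ} {ε d K1 c2 ρ0 η : ℝ}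
    {ω : Sample} {S : Finset ℂ} {hS : GP (S : Set ℂ)} {i : ZMod 3} {U : Set ℂ}
    (C0 : CorEnv u ε d K1 c2 ρ0 ω) (L0 : LayU u m M pp W A e) (hh : (m : ℝ) * (100 * η) = u.s)
    (hd : 100 * d ≤ η) (hm : (40 : ℤ) ≤ m) (hSU : S = SU u ε ω) (h3 : 3 ≤ S.card)
    {X : Set (ℂ × Bool)} {s : Cs hS → ZMod 2} (Cl : Col hS X s)
    (H : CorH X U M W η d (al A e i) (nn A e i)) {p : ℕ → D0 S} {q : D0 S} {N : ℕ} {T : ℕ → ℕ}
    (hp : ∀ k : ℕ, (p k).1 = (yy η W X (al A e i + k), xx η W X (al A e i + k)))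
    (sd : SDS hS s η W (al A e i) (nn A e i) p q N T) {l : ℤ} (l0 : 0 ≤ l) (hl : l < nn A e i)
    {L : Finset (Cs hS)}
    (hL : ∀ c ∈ L, ∃ v ∈ S, c.1 = Quot.mk (hullE S) v ∧ ∃ j : ℤ,
      al A e i + wb A W (al A e i) (nn A e i) M l + 5 ≤ j ∧
      j ≤ al A e i + wa A W (al A e i) (nn A e i) M l - 5 + M ∧
      v ∈ RR (12 * η) (52 * η) (100 * η) W j) :
    LXW hS (RC hS (Rws η W (al A e i) (nn A e i) M))
      (RC hS (T₁ η W (al A e i + wa A W (al A e i) (nn A e i) M l)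
        (al A e i + wb A W (al A e i) (nn A e i) M l + 1))) L s q (T (nn A e i)) := by
  obtain rfl : sX X = S := Cl.e
  obtain rfl := col_eq H.hull h3 Cl
  have hpe : p = H.p := by
    funext k
    exact Subtype.ext (hp k)
  subst hpe
  have St : StH H (RingDx117.RD (sX X) (CorrIx831.Rts η W (al A e i) (nn A e i))) q N T :=
    SepSx697.sth_of_sd sd
  have e0 := H.e0
  have hh0 := L0.h_pos hh
  obtain ⟨k1, G⟩ := SepUx697.geoU L0 hh H
  have E := EnCx927.en_S C0 L0 hh hd hSU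
  obtain ⟨w0, -, hw0, hw⟩ := EnCx927.w0_S C0 L0 hh hd hSU
  have eK : (9 * η + η) = 10 * η := by ring
  rw [eK] at G
  refine LocZx776.lxw_X St E G (SepUx697.backU L0 H).1 ?_ (fun g => RegSx523.K0_bot L0 hh
    (by linarith) (by linarith) g) hw0 hw l0 hl (wab_lay L0.lay hm i l0 hl) hL
  intro z hz
  unfold RegSx523.K0
  rw [LayU.P_eq u hh, show 100 * η - 10 * η = 90 * η by ring]
  exact hz

variable {N : ℕ} {ε : ℝ} {u : Poly} {w : ZMod 3} {Z : TData} {hN : u.n + 4 ≤ N} {hε : 0 < ε}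
  {ω : Sample} {hS : GP (SU u ε ω : Set ℂ)} {h3 : 3 ≤ (SU u ε ω).card} {h₀ : Cs hS}
  {R : Set (Cs hS)} {Zz : Zn (rc0 hS)} {K1 c2 ρ0 : ℝ}

/-- **228's `CurI`** -/
theorem curI (C : CorEnv u ε √ε K1 c2 ρ0 ω) (hd : 100 * √ε ≤ et N) (hm : 40 ≤ mN u N)
    (hR : R = RC hS (Rws (et N) (ly u N).W (oT u w N) (nT u w N) (ly u N).M)) :
    CurI w Z hN hε hS h3 R Zz := by
  intro s hs p q k T O j hj
  have L := ly_spec hN
  have num := Z.num N ε
  have e0 := et_pos N
  have hM : 0 < (ly u N).M := by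
    have := L.lay.nn_lt w
    omega
  have hl : ((j : ℕ) : ℤ) < (nT u w N : ℤ) := by exact_mod_cast hj
  have ww : WndGx416.WdA (ly u N).A (ly u N).W (oT u w N) (nT u w N) (ly u N).M (j : ℤ)
      (wa (ly u N).A (ly u N).W (oT u w N) (nT u w N) (ly u N).M j)
      (wb (ly u N).A (ly u N).W (oT u w N) (nT u w N) (ly u N).M j) :=
    wab_lay L.lay (by exact_mod_cast hm) w (l := (j : ℤ)) (by omega) hl
  have hr := ww.room
  subst hR
  refine lxw_S (i := w) (pp := (ly u N).p) C L (mh hN) hd (by exact_mod_cast hm) rfl h3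
    (col_Xc hS h3 s) O.H O.hp O.sd (by omega) hl ?_
  intro c hc
  obtain ⟨v, hv, hvU, rfl⟩ := QuYx810.mem_Lc.1 hc
  obtain ⟨i, i1, i2, h⟩ := WndZx416.reg_off (fp hN) (Z.std N hε) w (uM hN) (uM hN) hM
    (by omega) hvU
  rw [num.A', num.B', num.h] at h
  have key : ∃ j' : ℤ, oT u w N + wb (ly u N).A (ly u N).W (oT u w N) (nT u w N) (ly u N).M j + 5 ≤ j' ∧
      j' ≤ oT u w N + wa (ly u N).A (ly u N).W (oT u w N) (nT u w N) (ly u N).M j - 5 + (ly u N).M ∧
      v ∈ RR (12 * et N) (52 * et N) (100 * et N) (ly u N).W j' :=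
    ⟨i, by omega, by omega, h⟩
  exact ⟨v, hv, rfl, key⟩

/-- **597's `TileI`, all tiles** -/
theorem tileI (X : Sx w Z hN hε hS h3 h₀ R Zz) (C : CorEnv u ε √ε K1 c2 ρ0 ω)
    (hd : 100 * √ε ≤ et N) (hm : 40 ≤ mN u N)
    (hR : R = RC hS (Rws (et N) (ly u N).W (oT u w N) (nT u w N) (ly u N).M)) :
    ∀ l < nT u w N, TileI w Z hN hε hS h3 h₀ R Zz l :=
  tileI_of X C hd hm hR (curI C hd hm hR)

end Crest.Agent.R143.LocWx776
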