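import Crest.Agent.R143.OpK_894
import Crest.Agent.R143.LocW_776
import Crest.Agent.R143.BrZ_609
import Crest.Agent.R143.Final_894

/-!
# Row 143 (S0194): the last plug (helper609; twin of 894's)
-/

set_option autoImplicit false

noncomputable section

namespace Crest.Agent.R143.FinZx609

open Filter

/-- the curtain (776) at the concrete objects -/
theorem curZ : Crest.Agent.R143.OpKx894.CurZ := fun u w =>
  Eventually.of_forall fun N => Eventually.of_forall fun ε hn he =>
    Eventually.of_forall fun ω C hd hm _ hS h3 h₀ _ =>
      LocWx776.curI C hd hm (BrZx609.Rc_RC hn C)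

/-- **the leaf of the row** -/
theorem leaf : Finx894.Leaf894 := OpKx894.leaf_cur curZ

end Crest.Agent.R143.FinZx609
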