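import Crest.Agent.R143.SubH_117
import Crest.Agent.R143.ZnL_903
import Crest.Agent.R143.WndG_416

/-!
# Row 143 (S0194), RIG box Q2: the fixed data of a window (helper117)

Everything at the level of the sites `S` (no colours).

* `AB` all enlarged strips, `TWs o x y` the tiles `o + x .. o + y`
* `top_ext` : the top zone (903) is joined to the hull off all strips
* `fix_of` : `PLx535.Fix` from zones made of cells of sites
* `bb_dis`, `ks_tws` : disjointness of tiles and windows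
* **`fix_mid`, `fix_lft`, `fix_rgt`** : `Fix` for the three kinds of windows of `WndG_416`
-/

set_option autoImplicit false
set_option linter.all false

noncomputable section

open scoped Classical

namespace Crest.Agent.R143.FixIx117

open Crest.Agent.R143.B0x346 Crest.Agent.R143.DelGx806 Crest.Agent.R143.DelRx806
open Crest.Agent.R143.TileRx228 Crest.Agent.R143.ZnGx903
open Crest.Agent.R143.Gatex838 (X Y)
open Crest.Agent.R143.Frame1x395 Crest.Agent.R143.Frame2x395 Crest.Agent.R143.Frame3x395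
  Crest.Agent.R143.Frame8x395 Crest.Agent.R143.NonXx592
open Crest.Agent.R143.Frame10x395
open Crest.Agent.R143.FinCx811 Crest.Agent.R143.K33x137 Crest.Agent.R143.Uniqx323
open Crest.Agent.R143.Extx358 Crest.Agent.R143.SysAx168
open Crest.Agent.R143.ZnLx903
open Crest.Agent.R143.SubDx117 (UB UB_mono sub_UB)
open Crest.Agent.R143.SubHx117 (Bk)
open Crest.Agent.R143.PLx535 (Fix)

variable {S : Finset ℂ} {hS : GP (S : Set ℂ)} {η d : ℝ} {W : ℤ → ℤ × ℤ} {M : ℕ} {o : ℤ} {n : ℕ}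

/-- all the enlarged strips -/
def AB (η : ℝ) (W : ℤ → ℤ × ℤ) : Set ℂ := {q | ∃ a, q ∈ BB η W a}

/-- the enlarged tiles `o + x .. o + y` -/
def TWs (η : ℝ) (W : ℤ → ℤ × ℤ) (o x y : ℤ) : Set ℂ :=
  {q | ∃ c : ℤ, (o + x ≤ c ∧ c ≤ o + y) ∧ q ∈ BB η W c}

theorem TWs_AB {x y : ℤ} : TWs η W o x y ⊆ AB η W := fun _ ⟨c, _, h⟩ => ⟨c, h⟩

theorem UB_AB {a b : ℕ} : UB (Bk η W o) a b ⊆ AB η W := fun _ ⟨_, _, _, h⟩ => ⟨_, h⟩

/-- white strips: closing tiles and the two end tiles (831, 168) -/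
theorem white_eq : {q | ∃ a : ℤ, (o + n - 1 ≤ a ∧ a ≤ o + M) ∧ q ∈ BB η W a} =
    TWs η W o (n - 1) M := by
  ext q
  constructor
  · rintro ⟨a, ⟨h1, h2⟩, h3⟩
    exact ⟨a, ⟨by omega, h2⟩, h3⟩
  · rintro ⟨a, ⟨h1, h2⟩, h3⟩
    exact ⟨a, ⟨by omega, h2⟩, h3⟩

/-! ### the top zone -/

/-- **the top zone is joined to the hull off all strips** -/
theorem top_ext (hinn : ∀ s ∈ S, s ∈ AB η W → ¬ OnHull S s) {c0 : Cs hS}
    (hc0 : c0 ∈ RcTx422.Hc hS) {J : Set ℤ} {t : Cs hS}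
    (ht : t ∈ comp (rc0 hS) (clR hS (GT η d W J)) c0) :
    Ext (rc0 hS) {c0} (clR hS (AB η W)) t := by
  obtain ⟨x, hx, h0⟩ := hc0
  have hoff : ∀ c ∈ clR hS (GT η d W J), c ∉ clR hS (AB η W) := fun c hc hc' =>
    Set.disjoint_left.1 (clR_disj (hS := hS) (F := AB η W) (G := GT η d W J)
      (fun s _ ⟨a, h⟩ h' => h'.1 a h) hinn) hc' hc
  have h00 : c0 ∉ clR hS (AB η W) := by
    rintro ⟨s, g1, g2, g3⟩
    have : x = s := quot_inner hS (hinn s g1 g2) (by rw [← g3, h0])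
    rw [this] at hx
    exact hinn s g1 g2 hx
  have base : Ext (rc0 hS) {c0} (clR hS (AB η W)) c0 := Ext.hull rfl h00
  have key : ∀ u v, Lk (rc0 hS) (clR hS (GT η d W J)) u v →
      (Ext (rc0 hS) {c0} (clR hS (AB η W)) u ↔ Ext (rc0 hS) {c0} (clR hS (AB η W)) v) := by
    intro u v huv
    have step : ∀ u v, v ∈ clR hS (GT η d W J) → Ed (rc0 hS) u v →
        Ext (rc0 hS) {c0} (clR hS (AB η W)) u → Ext (rc0 hS) {c0} (clR hS (AB η W)) v := by
      intro u v hv he hu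
      rcases ed_ad he with rfl | had
      · exact hu
      · exact Ext.step hu had (hoff v hv)
    induction huv with
    | rel u v h => exact ⟨step u v h.2.1 h.2.2, step v u h.1 h.2.2.symm⟩
    | refl u => exact Iff.rfl
    | symm u v _ ih => exact ih.symm
    | trans u v w _ _ ih1 ih2 => exact ih1.trans ih2
  exact (key _ _ ht.2).2 base

/-! ### `Fix` -/

/-- **`Fix` from zones of cells of sites** -/
theorem fix_of {κ : Type} [Fintype κ] {Z : κ → Zn (rc0 hS)} {h₀ : Cs hS}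
    (hinn : ∀ s ∈ S, s ∈ AB η W → ¬ OnHull S s) (hh : h₀ ∈ RcTx422.Hc hS)
    {RW TW : Set ℂ} {F K : κ → Set ℂ} (hRW : RW ⊆ AB η W) (hTW : TW ⊆ AB η W)
    (hF : ∀ k, F k ⊆ AB η W) (hZR : ∀ k, (Z k).R ⊆ clR hS (F k))
    (hZK : ∀ k, (Z k).K ⊆ clR hS (K k)) (dis : ∀ k k', k ≠ k' → Disjoint (F k) (F k'))
    (kr : ∀ k, Disjoint (K k) RW) (kt : ∀ k, Disjoint (K k) TW)
    (top : ∀ k, ∀ t ∈ (Z k).T, Ext (rc0 hS) {h₀} (clR hS (AB η W)) t) :
    Fix (rc0 hS) {h₀} (clR hS RW) (clR hS TW) Z where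
  hR := by
    rintro c rfl ⟨s, h1, h2, h3⟩
    obtain ⟨x, hx, h4⟩ := hh
    have : x = s := quot_inner hS (hinn s h1 (hRW h2)) (by rw [← h3, h4])
    rw [this] at hx
    exact hinn s h1 (hRW h2) hx
  dis := fun k k' hk => (clR_disj (hS := hS) (F := F k) (G := F k')
    (fun s _ h h' => Set.disjoint_left.1 (dis k k' hk) h h')
    (fun s h1 h2 => hinn s h1 (hF k h2))).mono (hZR k) (hZR k')
  KR := fun k => ((clR_disj (hS := hS) (F := RW) (G := K k)
    (fun s _ h h' => Set.disjoint_left.1 (kr k) h' h)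
    (fun s h1 h2 => hinn s h1 (hRW h2))).symm).mono_left (hZK k)
  KT := fun k => ((clR_disj (hS := hS) (F := TW) (G := K k)
    (fun s _ h h' => Set.disjoint_left.1 (kt k) h' h)
    (fun s h1 h2 => hinn s h1 (hTW h2))).symm).mono_left (hZK k)
  top := fun k t ht => (top k t ht).mono fun c hc h => hc.off (by
    rcases h with (h | h) | h
    · obtain ⟨j, hj⟩ := Set.mem_iUnion.1 h
      exact clR_mono (hF j) (hZR j hj)
    · exact clR_mono hRW h
    · exact clR_mono hTW h)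
  con := fun Y => by
    have h := RcTx422.con_rc (hS := hS) (Z := Y)
    rwa [RcTx422.Hc_eq hh] at h

/-! ### tiles and windows -/

/-- tiles which are not neighbours are disjoint -/
theorem bb_dis (P : FPath M W) (e0 : 0 < η) {a b : ℤ} (h1 : a + 2 ≤ b) (h2 : b + 1 < a + M) :
    Disjoint (BB η W a) (BB η W b) :=
  disj P (by linarith) (by linarith) (by linarith)
    (CorPx503.not_dvd_of (by omega) (by omega) (by omega))
    (CorPx503.not_dvd_of (by omega) (by omega) (by omega))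
    (CorPx503.not_dvd_of (by omega) (by omega) (by omega))

/-- the window of a gate is off the tiles which are not its neighbours -/
theorem ks_off (P : FPath M W) (e0 : 0 < η) {a b : ℤ} (h0 : ¬ (M : ℤ) ∣ a - b)
    (h1 : ¬ (M : ℤ) ∣ a - (b + 1)) {q : ℂ} (hq : q ∈ KS η W a) : q ∉ BB η W b := by
  have h4 : q ∈ BB η W (a - 1) := by
    have h5 := hq.1
    have h6 := hq.2
    refine win_left P (by linarith) (by linarith) ?_ ?_
    · rw [sub_add_cancel]; linarith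
    · rw [sub_add_cancel]; exact h6
  have h5 : q ∈ BB η W a := win_right P (by linarith) (by linarith) (by linarith [hq.1]) hq.2
  exact far P (by linarith) (by linarith) (by linarith) h0 h1 h4 h5

/-- the window of the gate `o + g` is off the tiles `o + x .. o + y` -/
theorem ks_tws (P : FPath M W) (e0 : 0 < η) {g x y : ℤ}
    (h : (y + 2 ≤ g ∧ g - x < M) ∨ (g + 1 ≤ x ∧ y + 1 - g < M)) :
    Disjoint (KS η W (o + g)) (TWs η W o x y) := by
  rw [Set.disjoint_left]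
  rintro q hq ⟨c, ⟨h1, h2⟩, h3⟩
  refine ks_off P e0 ?_ ?_ hq h3
  · rcases h with ⟨h4, h5⟩ | ⟨h4, h5⟩
    · exact CorPx503.not_dvd_of (by omega) (by omega) (by omega)
    · exact CorPx503.not_dvd_of (by omega) (by omega) (by omega)
  · rcases h with ⟨h4, h5⟩ | ⟨h4, h5⟩
    · exact CorPx503.not_dvd_of (by omega) (by omega) (by omega)
    · exact CorPx503.not_dvd_of (by omega) (by omega) (by omega)

/-- the window of a gate is in the tiles on both sides -/
theorem ks_bb (P : FPath M W) (e0 : 0 < η) {a : ℤ} : KS η W a ⊆ BB η W (a - 1) ∩ BB η W a := by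
  intro q hq
  have h5 := hq.1
  have h6 := hq.2
  refine ⟨win_left P (by linarith) (by linarith) ?_ ?_,
    win_right P (by linarith) (by linarith) (by linarith) hq.2⟩
  · rw [sub_add_cancel]; linarith
  · rw [sub_add_cancel]; exact h6

/-- region of the piece in the tiles `≥ b'` -/
abbrev FR (η : ℝ) (W : ℤ → ℤ × ℤ) (o : ℤ) (n a' b' : ℕ) : Set ℂ :=
  UB (Bk η W o) b' (n - 1) \ UB (Bk η W o) a' b'

/-- region of the piece in the tiles `< a'` -/
abbrev FL (η : ℝ) (W : ℤ → ℤ × ℤ) (o : ℤ) (a' b' : ℕ) : Set ℂ :=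
  UB (Bk η W o) 1 a' \ UB (Bk η W o) a' b'

theorem fr_fl (P : FPath M W) (e0 : 0 < η) (hM : n ≤ M) {a' b' : ℕ} (hab : a' < b') :
    Disjoint (FR η W o n a' b') (FL η W o a' b') := by
  rw [Set.disjoint_left]
  rintro q ⟨⟨j, h1, h2, h3⟩, -⟩ ⟨⟨k, h4, h5, h6⟩, -⟩
  exact Set.disjoint_left.1 (bb_dis P e0 (a := o + k) (b := o + j) (by omega) (by omega)) h6 h3

/-- the window of an inner gate is in the region of its piece -/
theorem ks_fr (P : FPath M W) (e0 : 0 < η) (hM : n ≤ M) {a' b' g : ℕ} (hab : a' < b')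
    (h1 : b' + 2 ≤ g) (h2 : g + 2 ≤ n) : KS η W (o + g) ⊆ FR η W o n a' b' := by
  intro q hq
  have h3 := ks_bb P e0 hq
  refine ⟨⟨g, by omega, by omega, h3.2⟩, ?_⟩
  rintro ⟨j, h4, h5, h6⟩
  exact Set.disjoint_left.1 (bb_dis P e0 (a := o + j) (b := o + g) (by omega) (by omega)) h6 h3.2

theorem ks_fl (P : FPath M W) (e0 : 0 < η) {a' b' g : ℕ} (hM : b' ≤ M) (h1 : 1 ≤ g)
    (h2 : g + 2 ≤ a') (h3 : b' + 1 < g + M) : KS η W (o + g) ⊆ FL η W o a' b' := by
  intro q hq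
  have h4 := ks_bb P e0 hq
  refine ⟨⟨g, h1, by omega, h4.2⟩, ?_⟩
  rintro ⟨j, h5, h6, h7⟩
  exact Set.disjoint_left.1 (bb_dis P e0 (a := o + g) (b := o + j) (by omega) (by omega)) h4.2 h7

/-! ### the three kinds of windows -/

/-- **middle window**: two pieces, `T` = tiles `a .. b`, columns at the gates `gL < a`,
`gR ≥ b + 2` -/
theorem fix_mid (P : FPath M W) (e0 : 0 < η) (hM : n + 20 ≤ M)
    (hinn : ∀ s ∈ S, s ∈ AB η W → ¬ OnHull S s) {h₀ : Cs hS} (hh : h₀ ∈ RcTx422.Hc hS)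
    {a b a' b' gL gR : ℕ} (hab : a' < b') (han : a + 1 ≤ n) (hbn : b ≤ n) (gL2 : 2 ≤ gL)
    (gLa : gL + 1 ≤ a) (gRb : b + 2 ≤ gR) (gRn : gR + 2 ≤ n) {Z : Bool → Zn (rc0 hS)}
    (hRR : (Z false).R = clR hS (FR η W o n a' b')) (hRL : (Z true).R = clR hS (FL η W o a' b'))
    (hKR : (Z false).K ⊆ clR hS (KS η W (o + gR))) (hKL : (Z true).K ⊆ clR hS (KS η W (o + gL)))
    (top : ∀ k, ∀ t ∈ (Z k).T, Ext (rc0 hS) {h₀} (clR hS (AB η W)) t) :
    Fix (rc0 hS) {h₀} (clR hS (TWs η W o (n - 1) M)) (clR hS (TWs η W o a b)) Z := by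
  refine fix_of hinn hh (F := fun k => cond k (FL η W o a' b') (FR η W o n a' b'))
    (K := fun k => cond k (KS η W (o + gL)) (KS η W (o + gR))) TWs_AB TWs_AB ?_ ?_ ?_ ?_ ?_ ?_ top
  · rintro (_ | _)
    · exact fun s hs => UB_AB hs.1
    · exact fun s hs => UB_AB hs.1
  · rintro (_ | _)
    · exact hRR.le
    · exact hRL.le
  · rintro (_ | _)
    · exact hKR
    · exact hKL
  · have h := fr_fl (o := o) P e0 (show n ≤ M by omega) hab
    rintro (_ | _) (_ | _) hk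
    · exact absurd rfl hk
    · exact h
    · exact h.symm
    · exact absurd rfl hk
  · rintro (_ | _)
    · exact ks_tws P e0 (Or.inr ⟨by omega, by omega⟩)
    · exact ks_tws P e0 (Or.inr ⟨by omega, by omega⟩)
  · rintro (_ | _)
    · exact ks_tws P e0 (Or.inl ⟨by omega, by omega⟩)
    · exact ks_tws P e0 (Or.inr ⟨by omega, by omega⟩)

/-- **left window**: one piece (tiles `≥ b'`), `T` = tiles `-2 .. b` -/
theorem fix_lft (P : FPath M W) (e0 : 0 < η) (hM : n + 20 ≤ M)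
    (hinn : ∀ s ∈ S, s ∈ AB η W → ¬ OnHull S s) {h₀ : Cs hS} (hh : h₀ ∈ RcTx422.Hc hS)
    {b a' b' gR : ℕ} (gRb : b + 2 ≤ gR) (gRn : gR + 2 ≤ n) {Z : Unit → Zn (rc0 hS)}
    (hRR : (Z ()).R = clR hS (FR η W o n a' b')) (hKR : (Z ()).K ⊆ clR hS (KS η W (o + gR)))
    (top : ∀ k, ∀ t ∈ (Z k).T, Ext (rc0 hS) {h₀} (clR hS (AB η W)) t) :
    Fix (rc0 hS) {h₀} (clR hS (TWs η W o (n - 1) M)) (clR hS (TWs η W o (-2) b)) Z :=
  fix_of hinn hh (F := fun _ => FR η W o n a' b') (K := fun _ => KS η W (o + gR)) TWs_AB TWs_AB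
    (fun _ s hs => UB_AB hs.1) (fun _ => hRR.le) (fun _ => hKR) (fun _ _ h => absurd rfl h)
    (fun _ => ks_tws P e0 (Or.inr ⟨by omega, by omega⟩))
    (fun _ => ks_tws P e0 (Or.inl ⟨by omega, by omega⟩)) top

/-- **right window**: one piece (tiles `< a'`), `T` = tiles `a .. n + 1` -/
theorem fix_rgt (P : FPath M W) (e0 : 0 < η) (hM : n + 20 ≤ M)
    (hinn : ∀ s ∈ S, s ∈ AB η W → ¬ OnHull S s) {h₀ : Cs hS} (hh : h₀ ∈ RcTx422.Hc hS)
    {a a' b' gL : ℕ} (gL2 : 2 ≤ gL) (gLa : gL + 1 ≤ a) (han : a + 1 ≤ n) {Z : Unit → Zn (rc0 hS)}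
    (hRL : (Z ()).R = clR hS (FL η W o a' b')) (hKL : (Z ()).K ⊆ clR hS (KS η W (o + gL)))
    (top : ∀ k, ∀ t ∈ (Z k).T, Ext (rc0 hS) {h₀} (clR hS (AB η W)) t) :
    Fix (rc0 hS) {h₀} (clR hS (TWs η W o (n - 1) M)) (clR hS (TWs η W o a (n + 1))) Z :=
  fix_of hinn hh (F := fun _ => FL η W o a' b') (K := fun _ => KS η W (o + gL)) TWs_AB TWs_AB
    (fun _ s hs => UB_AB hs.1) (fun _ => hRL.le) (fun _ => hKL) (fun _ _ h => absurd rfl h)
    (fun _ => ks_tws P e0 (Or.inr ⟨by omega, by omega⟩))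
    (fun _ => ks_tws P e0 (Or.inr ⟨by omega, by omega⟩)) top

end Crest.Agent.R143.FixIx117
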