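import Crest.Agent.R143.Frame11_395
import Crest.Agent.R143.Coarse2_166

/-!
# Row 143 (S0194), hedge block H2 of notes 3216 / 3378 (helper357)

* `Stp R` : `R` is a stopping set (the set of the revealed cells)
* `flp R A` : the revealed cells in `A` are inverted; `flp_inj`, `flp_bij` : this is a bijection
  of the colourings as soon as `A` is a function of the colours of an earlier stopping set `R₁`
  which it does not meet (`R₁` = the gate chains, `A` = the region between them)
* `sum_flip_le` : transport of a sum over (configuration, chord) to a sum over (configuration, block)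
* `circ_of_con`, `block_of_con` : a closed sequence of gaps whose old cells are different genuine
  cells and whose third cells are in one cluster is exactly one block
-/

set_option autoImplicit false

noncomputable section

open scoped Classical

namespace Crest.Agent.R143.Flipx357

open Crest.Agent.R143.Frame1x395 Crest.Agent.R143.Frame2x395 Crest.Agent.R143.Frame3x395
  Crest.Agent.R143.Frame4x395 Crest.Agent.R143.Frame8x395 Crest.Agent.R143.Frame9x395
  Crest.Agent.R143.Frame11x395 Crest.Agent.R143.NonXx592 Crest.Agent.R143.Coarsex166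
  Crest.Agent.R143.Coarse2x166

section flip

variable {V : Type} {R R₁ A : (V → ZMod 2) → Set V}

/-- stopping set -/
def Stp (R : (V → ZMod 2) → Set V) : Prop :=
  ∀ ω ω' : V → ZMod 2, (∀ c ∈ R ω, ω' c = ω c) → R ω' = R ω

/-- the revealed cells in `A` are inverted -/
def flp (R A : (V → ZMod 2) → Set V) (ω : V → ZMod 2) : V → ZMod 2 :=
  fun c => ω c + if c ∈ R ω ∧ c ∈ A ω then 1 else 0

theorem flp_of_not {ω : V → ZMod 2} {c : V} (h : c ∉ A ω) : flp R A ω c = ω c := by
  unfold flp
  rw [if_neg fun h' => h h'.2, add_zero]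

theorem flp_off {ω : V → ZMod 2} {c : V} (h : c ∉ R ω) : flp R A ω c = ω c := by
  unfold flp
  rw [if_neg fun h' => h h'.1, add_zero]

theorem flp_on {ω : V → ZMod 2} {c : V} (h : c ∈ R ω) (h' : c ∈ A ω) :
    flp R A ω c = ω c + 1 := by
  unfold flp
  rw [if_pos ⟨h, h'⟩]

theorem Stp.glue (h : Stp R) {ω ω' : V → ZMod 2}
    (e : ∀ c, c ∈ R ω → c ∈ R ω' → ω c = ω' c) : R ω = R ω' := by
  have h1 : R (fun c => if c ∈ R ω then ω c else ω' c) = R ω :=
    h ω _ (fun c hc => if_pos hc)
  have h2 : R (fun c => if c ∈ R ω then ω c else ω' c) = R ω' := by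
    refine h ω' _ (fun c hc => ?_)
    by_cases hc' : c ∈ R ω
    · show (if c ∈ R ω then ω c else ω' c) = ω' c
      rw [if_pos hc', e c hc' hc]
    · exact if_neg hc'
  exact h1.symm.trans h2

/-- **inverting the revealed cells of a region is injective** -/
theorem flp_inj (h₁ : Stp R₁) (h : Stp R)
    (hA : ∀ ω ω' : V → ZMod 2, (∀ c ∈ R₁ ω, ω' c = ω c) → A ω' = A ω)
    (hd : ∀ ω, ∀ c ∈ R₁ ω, c ∉ A ω) : Function.Injective (flp R A) := by
  intro ω ω' e
  have e1 : ∀ c, c ∈ R₁ ω → c ∈ R₁ ω' → ω c = ω' c := by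
    intro c h1 h2
    have h3 := congrFun e c
    rwa [flp_of_not (hd ω c h1), flp_of_not (hd ω' c h2)] at h3
  have e2 := h₁.glue e1
  have e3 : A ω' = A ω := hA ω ω' fun c hc => (e1 c hc (e2 ▸ hc)).symm
  have e4 : ∀ c, c ∈ R ω → c ∈ R ω' → ω c = ω' c := by
    intro c h1 h2
    have h3 := congrFun e c
    unfold flp at h3
    rw [e3] at h3
    by_cases h4 : c ∈ A ω
    · rw [if_pos ⟨h1, h4⟩, if_pos ⟨h2, h4⟩] at h3
      exact add_right_cancel h3
    · rw [if_neg fun h' => h4 h'.2, if_neg fun h' => h4 h'.2, add_zero, add_zero] at h3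
      exact h3
  have e5 := h.glue e4
  funext c
  by_cases hc : c ∈ R ω
  · exact e4 c hc (e5 ▸ hc)
  · have h3 := congrFun e c
    rwa [flp_off hc, flp_off (e5 ▸ hc)] at h3

theorem flp_bij [Finite V] (h₁ : Stp R₁) (h : Stp R)
    (hA : ∀ ω ω' : V → ZMod 2, (∀ c ∈ R₁ ω, ω' c = ω c) → A ω' = A ω)
    (hd : ∀ ω, ∀ c ∈ R₁ ω, c ∉ A ω) : Function.Bijective (flp R A) :=
  Finite.injective_iff_bijective.1 (flp_inj h₁ h hA hd)

/-- fixed region -/
theorem flp_bij_fix [Finite V] (h : Stp R) (A : Set V) :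
    Function.Bijective (flp R fun _ => A) :=
  flp_bij (R₁ := fun _ => ∅) (fun _ _ _ => rfl) h (fun _ _ _ => rfl)
    fun _ _ hc => absurd hc (Set.notMem_empty _)

theorem sum_flp [Fintype V] {E : Type} [AddCommMonoid E] (h₁ : Stp R₁) (h : Stp R)
    (hA : ∀ ω ω' : V → ZMod 2, (∀ c ∈ R₁ ω, ω' c = ω c) → A ω' = A ω)
    (hd : ∀ ω, ∀ c ∈ R₁ ω, c ∉ A ω) (F : (V → ZMod 2) → E) :
    ∑ ω, F (flp R A ω) = ∑ ω, F ω :=
  Fintype.sum_bijective _ (flp_bij h₁ h hA hd) _ _ fun _ => rfl

end flip

/-- **transport** of a sum over the chords to a sum over the blocks -/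
theorem sum_flip_le {Ω G B : Type} [Fintype Ω] {Φ : Ω → Ω} (hΦ : Function.Injective Φ)
    {O : Ω → Prop} {gam : Ω → Finset G} {bl : Ω → Finset B} {b : Ω → G → B}
    (hb : ∀ ω, O ω → ∀ γ ∈ gam ω, b ω γ ∈ bl (Φ ω))
    (inj : ∀ ω, O ω → ∀ γ ∈ gam ω, ∀ γ' ∈ gam ω, b ω γ = b ω γ' → γ = γ')
    {F : Ω → G → ℝ} {F' : Ω → B → ℝ} (F0 : ∀ ω β, 0 ≤ F' ω β)
    (hF : ∀ ω, O ω → ∀ γ ∈ gam ω, F ω γ ≤ F' (Φ ω) (b ω γ)) :
    ∑ ω, (if O ω then ∑ γ ∈ gam ω, F ω γ else 0) ≤ ∑ ω, ∑ β ∈ bl ω, F' ω β := by
  have h1 : ∀ ω, (if O ω then ∑ γ ∈ gam ω, F ω γ else 0) ≤ ∑ β ∈ bl (Φ ω), F' (Φ ω) β := by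
    intro ω
    by_cases ho : O ω
    · rw [if_pos ho]
      calc ∑ γ ∈ gam ω, F ω γ ≤ ∑ γ ∈ gam ω, F' (Φ ω) (b ω γ) :=
            Finset.sum_le_sum (hF ω ho)
        _ = ∑ β ∈ (gam ω).image (b ω), F' (Φ ω) β :=
            (Finset.sum_image fun γ h γ' h' e => inj ω ho γ h γ' h' e).symm
        _ ≤ ∑ β ∈ bl (Φ ω), F' (Φ ω) β := by
            refine Finset.sum_le_sum_of_subset_of_nonneg ?_ fun β _ _ => F0 _ β
            intro β hβ
            obtain ⟨γ, h, rfl⟩ := Finset.mem_image.1 hβ
            exact hb ω ho γ h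
    · rw [if_neg ho]
      exact Finset.sum_nonneg fun β _ => F0 _ β
  refine (Finset.sum_le_sum fun ω _ => h1 ω).trans ?_
  have h2 : Function.Bijective Φ := Finite.injective_iff_bijective.1 hΦ
  exact (Fintype.sum_bijective Φ h2 (fun ω => ∑ β ∈ bl (Φ ω), F' (Φ ω) β)
    (fun ω => ∑ β ∈ bl ω, F' ω β) fun _ => rfl).le

/-! ### a circuit with connected third cells is a block -/

variable {D C : Type} {M : CMap D C} {x : D → ZMod 2}

theorem con_symm {a b : C} (h : Con M x a b) : Con M x b a := Relation.EqvGen.symm _ _ h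

theorem con_trans {a b c : C} (h : Con M x a b) (h' : Con M x b c) : Con M x a c :=
  Relation.EqvGen.trans _ _ _ h h'

theorem con_gp {g : D} (hg : Gp M x g) : Con M x (M.cell g) (M.cell (M.rho g)) :=
  Relation.EqvGen.rel _ _ ⟨g, hg.1, rfl, rfl⟩

/-- the third cell is the cell on the right of the walker who leaves the gap -/
theorem cell_rho_out (h : IsC M ∅ x) {g : D} (hg : Gp M x g) :
    M.cell (M.rho (out M g)) = M.cell (M.rho (M.rho g)) := by
  unfold out
  exact cell_rho_iota M (h.lv (hg.two h))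

/-- the cells of a closed sequence of gaps are in one cluster -/
theorem con_seq {t : ℕ → D} (gp : ∀ i, Gp M x (t i))
    (nx : ∀ i, M.cell (t i) = M.cell (M.rho (t (i + 1)))) (i j : ℕ) :
    Con M x (M.cell (t i)) (M.cell (t j)) := by
  have key : ∀ i k, Con M x (M.cell (t i)) (M.cell (t (i + k))) := by
    intro i k
    induction k with
    | zero => exact Relation.EqvGen.refl _
    | succ k ih =>
      refine con_trans ih ?_
      rw [nx (i + k)]
      exact con_symm (con_gp (gp (i + k + 1)))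
  rcases le_total i j with h | h
  · obtain ⟨k, rfl⟩ := Nat.exists_eq_add_of_le h
    exact key i k
  · obtain ⟨k, rfl⟩ := Nat.exists_eq_add_of_le h
    exact con_symm (key j k)

/-- **a closed sequence of gaps with connected third cells is on one loop** -/
theorem circ_of_con [Finite D] (h : IsC M ∅ x) {n : ℕ} {t : ℕ → D} (two : 2 ≤ n)
    (per : ∀ i, t (i + n) = t i) (gp : ∀ i, Gp M x (t i))
    (nx : ∀ i, M.cell (t i) = M.cell (M.rho (t (i + 1))))
    (inj : ∀ i j, M.cell (M.rho (t i)) = M.cell (M.rho (t j)) → i % n = j % n)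
    (gen : ∀ i, Gen M (M.cell (M.rho (t i))))
    (third : ∀ i j, Con M x (M.cell (M.rho (M.rho (t i)))) (M.cell (M.rho (M.rho (t j))))) :
    Circ M x n t := by
  refine ⟨two, per, gp, nx, inj, gen, fun i j => ?_⟩
  refine same_loop h ((gp i).out h) (gp j).2 ?_ ?_
  · rw [cell_out h (gp i)]
    exact con_trans (con_seq gp nx i j) (con_gp (gp j))
  · rw [cell_rho_out h (gp i)]
    exact third i j

/-- **block identity** -/
theorem block_of_con [Fintype D] (h : IsC M ∅ x) {n : ℕ} {t : ℕ → D} (two : 2 ≤ n)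
    (per : ∀ i, t (i + n) = t i) (gp : ∀ i, Gp M x (t i))
    (nx : ∀ i, M.cell (t i) = M.cell (M.rho (t (i + 1))))
    (inj : ∀ i j, M.cell (M.rho (t i)) = M.cell (M.rho (t j)) → i % n = j % n)
    (gen : ∀ i, Gen M (M.cell (M.rho (t i))))
    (third : ∀ i j, Con M x (M.cell (M.rho (M.rho (t i)))) (M.cell (M.rho (M.rho (t j))))) :
    blk M x (t 0) = (Finset.range n).image t :=
  (circ_of_con h two per gp nx inj gen third).block h

/-! ### every block is one cycle -/

/-- the gap of the block which leaves the cell entered by `k` -/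
def nxt (M : CMap D C) (x : D → ZMod 2) [Fintype D] (g₀ k : D) : D :=
  if h : ∃ l ∈ blk M x g₀, M.cell (M.rho l) = M.cell k then h.choose else k

variable [Fintype D]

theorem nxt_spec (hx : IsC M ∅ x) {g₀ k : D} (hg₀ : Gp M x g₀) (hk : k ∈ blk M x g₀) :
    nxt M x g₀ k ∈ blk M x g₀ ∧ M.cell (M.rho (nxt M x g₀ k)) = M.cell k := by
  have h : ∃ l ∈ blk M x g₀, M.cell (M.rho l) = M.cell k := exists_prev hx hg₀ hk
  unfold nxt
  rw [dif_pos h]
  exact h.choose_spec

theorem nxt_eq (hx : IsC M ∅ x) {g₀ k l : D} (hg₀ : Gp M x g₀) (hk : k ∈ blk M x g₀)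
    (hl : l ∈ blk M x g₀) (e : M.cell (M.rho l) = M.cell k) : nxt M x g₀ k = l :=
  blk_old_inj hx hg₀ (nxt_spec hx hg₀ hk).1 hl ((nxt_spec hx hg₀ hk).2.trans e.symm)

theorem nxt_inj (hx : IsC M ∅ x) {g₀ k l : D} (hg₀ : Gp M x g₀) (hk : k ∈ blk M x g₀)
    (hl : l ∈ blk M x g₀) (e : nxt M x g₀ k = nxt M x g₀ l) : k = l := by
  refine blk_new_inj hx hg₀ hk hl ?_
  rw [← (nxt_spec hx hg₀ hk).2, ← (nxt_spec hx hg₀ hl).2, e]

theorem self_mem {g₀ : D} (hg₀ : Gp M x g₀) : g₀ ∈ blk M x g₀ := mem_blk.2 ⟨hg₀, rel_refl _⟩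

theorem it_mem (hx : IsC M ∅ x) {g₀ : D} (hg₀ : Gp M x g₀) (i : ℕ) :
    (nxt M x g₀)^[i] g₀ ∈ blk M x g₀ := by
  induction i with
  | zero => exact self_mem hg₀
  | succ i ih =>
    rw [Function.iterate_succ_apply']
    exact (nxt_spec hx hg₀ ih).1

omit [Fintype D] in
theorem time_of {k g : D} {N : ℕ} (hNpos : 0 < N) (hN : P M x (out M k) N = out M k) {n : ℕ}
    (H : (stp M x)^[n] (out M k) = M.rho g) : ∃ b, b < N ∧ M.rho g = P M x (out M k) b := by
  refine ⟨n % N, Nat.mod_lt _ hNpos, ?_⟩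
  rw [← H]
  conv_lhs => rw [← Nat.mod_add_div n N]
  show P M x (out M k) (n % N + N * (n / N)) = _
  rw [P_add]
  congr 1
  have : ∀ q, P M x (out M k) (N * q) = out M k := by
    intro q
    induction q with
    | zero => rfl
    | succ q ih => rw [Nat.mul_succ, P_add, hN, ih]
  exact this _

/-- **single cycle** -/
theorem it_surj (hx : IsC M ∅ x) {g₀ : D} (hg₀ : Gp M x g₀) {k : D} (hk : k ∈ blk M x g₀) :
    ∃ i, (nxt M x g₀)^[i] g₀ = k := by
  obtain ⟨N, hNpos, hN, hinj, hlast⟩ := exists_period hx hg₀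
  have tm : ∀ k ∈ blk M x g₀, k ≠ g₀ → ∃ b, b + 1 < N ∧ M.rho k = P M x (out M g₀) b := by
    intro k hk hne
    obtain ⟨h1, h2⟩ := mem_blk.1 hk
    have h3 : ∃ b, b < N ∧ M.rho k = P M x (out M g₀) b := by
      rcases h2 (M.cell g₀) with e | h | h
      · exact absurd e.symm hne
      · exact time_of_av hNpos hN h
      · obtain ⟨m, h4, -⟩ := h
        obtain ⟨m', h5⟩ := come_back hx h1 hg₀ h4
        exact time_of hNpos hN h5
    obtain ⟨b, hb, hkb⟩ := h3
    refine ⟨b, ?_, hkb⟩
    by_contra hc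
    have : b = N - 1 := by omega
    rw [this, ← hlast] at hkb
    exact hne (rho_inj M hkb)
  have key : ∀ b, ∀ k ∈ blk M x g₀, k ≠ g₀ → M.rho k = P M x (out M g₀) b → b + 1 < N →
      ∃ i, (nxt M x g₀)^[i] g₀ = k := by
    intro b
    induction b using Nat.strong_induction_on with
    | _ b ih =>
      intro k hk hne hkb hbN
      obtain ⟨l, hl, hlk⟩ := exists_next hx hg₀ hk
      have hnk : nxt M x g₀ l = k := nxt_eq hx hg₀ hl hk hlk.symm
      by_cases hl0 : l = g₀
      · rw [hl0] at hnk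
        exact ⟨1, hnk⟩
      · obtain ⟨a, haN, hla⟩ := tm l hl hl0
        have hab : a < b := by
          by_contra hc
          have h1 := (rel_loop hx hg₀ hN hinj hlast haN (mem_blk.1 hl).1 hla).1 (mem_blk.1 hl).2
          refine h1 b (by omega) (a + 1) (by omega) (by omega) ?_
          rw [← hkb, ← out_eq hx (mem_blk.1 hl).1 hla, cell_out hx (mem_blk.1 hl).1, hlk]
        obtain ⟨i, hi⟩ := ih a hab l hl hl0 hla haN
        exact ⟨i + 1, by rw [Function.iterate_succ_apply', hi]; exact hnk⟩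
  by_cases h0 : k = g₀
  · exact ⟨0, h0.symm⟩
  · obtain ⟨b, hb, hkb⟩ := tm k hk h0
    exact key b k hk h0 hkb hb

/-- **every block is one cyclic sequence of gaps** -/
theorem blk_seq (hx : IsC M ∅ x) {g₀ : D} (hg₀ : Gp M x g₀) :
    ∃ (n : ℕ) (t : ℕ → D), 0 < n ∧ t 0 = g₀ ∧ (∀ i, t (i + n) = t i) ∧
      (∀ i, t i ∈ blk M x g₀) ∧ (∀ i, M.cell (t i) = M.cell (M.rho (t (i + 1)))) ∧
      (∀ i j, t i = t j → i % n = j % n) ∧ (Finset.range n).image t = blk M x g₀ := by
  set f := nxt M x g₀ with hf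
  have hmem : ∀ i, f^[i] g₀ ∈ blk M x g₀ := it_mem hx hg₀
  have cancel : ∀ j i, f^[i + j] g₀ = f^[j] g₀ → f^[i] g₀ = g₀ := by
    intro j
    induction j with
    | zero => intro i h; exact h
    | succ j ih =>
      intro i h
      rw [show i + (j + 1) = (i + j) + 1 by ring, Function.iterate_succ_apply',
        Function.iterate_succ_apply'] at h
      exact ih i (nxt_inj hx hg₀ (hmem _) (hmem _) h)
  have hper : ∃ n, 0 < n ∧ f^[n] g₀ = g₀ := by
    have h1 : ∃ a b : ℕ, a ≠ b ∧ f^[a] g₀ = f^[b] g₀ := by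
      by_contra hc
      push Not at hc
      have h2 : Function.Injective fun i : ℕ => f^[i] g₀ := by
        intro a b e
        by_contra hab
        exact hc a b hab e
      exact not_injective_infinite_finite _ h2
    obtain ⟨a, b, hab, e⟩ := h1
    rcases lt_or_gt_of_ne hab with h | h
    · refine ⟨b - a, by omega, cancel a (b - a) ?_⟩
      rw [Nat.sub_add_cancel h.le]; exact e.symm
    · refine ⟨a - b, by omega, cancel b (a - b) ?_⟩
      rw [Nat.sub_add_cancel h.le]; exact e
  set n := Nat.find hper with hn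
  have hn1 := Nat.find_spec hper
  have hmin : ∀ m, 0 < m → m < n → f^[m] g₀ ≠ g₀ := fun m h1 h2 h3 =>
    Nat.find_min hper h2 ⟨h1, h3⟩
  have per : ∀ i, f^[i + n] g₀ = f^[i] g₀ := by
    intro i
    rw [Function.iterate_add_apply, hn1.2]
  have pmod : ∀ i, f^[i % n] g₀ = f^[i] g₀ := by
    intro i
    induction i using Nat.strong_induction_on with
    | _ i ih =>
      rcases Nat.lt_or_ge i n with h1 | h1
      · rw [Nat.mod_eq_of_lt h1]
      · rw [Nat.mod_eq_sub_mod h1, ih (i - n) (by omega)]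
        conv_rhs => rw [show i = (i - n) + n by omega, per]
  refine ⟨n, fun i => f^[i] g₀, hn1.1, rfl, per, hmem, ?_, ?_, ?_⟩
  · intro i
    show M.cell (f^[i] g₀) = M.cell (M.rho (f^[i + 1] g₀))
    rw [Function.iterate_succ_apply']
    exact (nxt_spec hx hg₀ (hmem i)).2.symm
  · intro i j e
    have e' : f^[i % n] g₀ = f^[j % n] g₀ := by rw [pmod, pmod]; exact e
    have hi : i % n < n := Nat.mod_lt _ hn1.1
    have hj : j % n < n := Nat.mod_lt _ hn1.1
    by_contra hne
    rcases lt_or_gt_of_ne hne with h | h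
    · refine hmin (j % n - i % n) (by omega) (by omega) (cancel (i % n) _ ?_)
      rw [Nat.sub_add_cancel h.le]; exact e'.symm
    · refine hmin (i % n - j % n) (by omega) (by omega) (cancel (j % n) _ ?_)
      rw [Nat.sub_add_cancel h.le]; exact e'
  · ext k
    constructor
    · intro hk
      obtain ⟨i, -, rfl⟩ := Finset.mem_image.1 hk
      exact hmem i
    · intro hk
      obtain ⟨i, hi⟩ := it_surj hx hg₀ hk
      exact Finset.mem_image.2 ⟨i % n, Finset.mem_range.2 (Nat.mod_lt _ hn1.1),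
        (pmod i).trans hi⟩

/-- the number of gaps of a block is the period -/
theorem blk_seq_card {g₀ : D} {n : ℕ} {t : ℕ → D}
    (hinj : ∀ i j, t i = t j → i % n = j % n)
    (him : (Finset.range n).image t = blk M x g₀) : (blk M x g₀).card = n := by
  rw [← him, Finset.card_image_of_injOn, Finset.card_range]
  intro i hi j hj e
  have h := hinj i j e
  rwa [Nat.mod_eq_of_lt (Finset.mem_range.1 hi), Nat.mod_eq_of_lt (Finset.mem_range.1 hj)] at h

/-! ### chord and outer arc -/

/-- **a chord and an outer arc form one block**: `t 0, .., t (n-1)` = the chord (gaps of an open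
sequence from the old cell of `t 0` to the new cell of `t (n-1)`), `s 0, .., s (m-1)` = the outer
gaps from there back to the old cell of `t 0` -/
theorem chord_block (hx : IsC M ∅ x) {n m : ℕ} {t s : ℕ → D} (hn : 0 < n) (h2 : 2 ≤ n + m)
    (gt : ∀ i < n, Gp M x (t i)) (gs : ∀ j < m, Gp M x (s j))
    (ct : ∀ i, i + 1 < n → M.cell (t i) = M.cell (M.rho (t (i + 1))))
    (cs : ∀ j, j + 1 < m → M.cell (s j) = M.cell (M.rho (s (j + 1))))
    (c0 : m = 0 → M.cell (t (n - 1)) = M.cell (M.rho (t 0)))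
    (c1 : 0 < m → M.cell (t (n - 1)) = M.cell (M.rho (s 0)))
    (c2 : 0 < m → M.cell (s (m - 1)) = M.cell (M.rho (t 0)))
    (it : ∀ i < n, ∀ j < n, M.cell (M.rho (t i)) = M.cell (M.rho (t j)) → i = j)
    (is : ∀ i < m, ∀ j < m, M.cell (M.rho (s i)) = M.cell (M.rho (s j)) → i = j)
    (ts : ∀ i < n, ∀ j < m, M.cell (M.rho (t i)) ≠ M.cell (M.rho (s j)))
    (Gt : ∀ i < n, Gen M (M.cell (M.rho (t i)))) (Gs : ∀ j < m, Gen M (M.cell (M.rho (s j))))
    {w : C} (wt : ∀ i < n, Con M x w (M.cell (M.rho (M.rho (t i)))))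
    (ws : ∀ j < m, Con M x w (M.cell (M.rho (M.rho (s j))))) :
    blk M x (t 0) = (Finset.range n).image t ∪ (Finset.range m).image s := by
  set r : ℕ → D := fun i => if i % (n + m) < n then t (i % (n + m)) else s (i % (n + m) - n)
    with hr
  have hnm : 0 < n + m := by omega
  have hlt : ∀ i, i % (n + m) < n + m := fun i => Nat.mod_lt _ hnm
  have r1 : ∀ i, i % (n + m) < n → r i = t (i % (n + m)) := fun i h => if_pos h
  have r2 : ∀ i, ¬ i % (n + m) < n → r i = s (i % (n + m) - n) := fun i h => if_neg h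
  have r0 : r 0 = t 0 := by
    rw [r1 0 (by rw [Nat.zero_mod]; exact hn), Nat.zero_mod]
  have succ_mod : ∀ i, (i + 1) % (n + m) = if i % (n + m) + 1 = n + m then 0
      else i % (n + m) + 1 := by
    intro i
    have h1 := hlt i
    rw [Nat.add_mod i 1]
    split_ifs with h
    · rcases Nat.lt_or_ge 1 (n + m) with h3 | h3
      · rw [Nat.mod_eq_of_lt h3, h, Nat.mod_self]
      · omega
    · rw [Nat.mod_eq_of_lt (show 1 < n + m by omega), Nat.mod_eq_of_lt (by omega)]
  have hblk := block_of_con (M := M) (x := x) hx (n := n + m) (t := r) h2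
    (fun i => by
      show (if (i + (n + m)) % (n + m) < n then _ else _) = _
      rw [Nat.add_mod_right])
    (fun i => by
      by_cases h : i % (n + m) < n
      · rw [r1 i h]; exact gt _ h
      · rw [r2 i h]; exact gs _ (by have := hlt i; omega))
    (fun i => by
      have h1 := hlt i
      have h3 := succ_mod i
      by_cases h : i % (n + m) < n
      · rw [r1 i h]
        by_cases h4 : i % (n + m) + 1 = n + m
        · rw [if_pos h4] at h3
          have hm : m = 0 := by omega
          rw [r1 (i + 1) (by rw [h3]; exact hn), h3, ← c0 hm]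
          congr 2
          omega
        · rw [if_neg h4] at h3
          by_cases h5 : i % (n + m) + 1 < n
          · rw [r1 (i + 1) (by rw [h3]; exact h5), h3]
            exact ct _ h5
          · rw [r2 (i + 1) (by rw [h3]; exact h5), h3,
              show i % (n + m) + 1 - n = 0 by omega, ← c1 (by omega)]
            congr 2
            omega
      · rw [r2 i h]
        by_cases h4 : i % (n + m) + 1 = n + m
        · rw [if_pos h4] at h3
          rw [r1 (i + 1) (by rw [h3]; exact hn), h3, ← c2 (by omega)]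
          congr 2
          omega
        · rw [if_neg h4] at h3
          rw [r2 (i + 1) (by rw [h3]; omega), h3,
            show i % (n + m) + 1 - n = i % (n + m) - n + 1 by omega]
          exact cs _ (by omega))
    (fun i j e => by
      have h1 := hlt i
      have h3 := hlt j
      by_cases hi : i % (n + m) < n <;> by_cases hj : j % (n + m) < n
      · rw [r1 i hi, r1 j hj] at e
        exact it _ hi _ hj e
      · rw [r1 i hi, r2 j hj] at e
        exact absurd e (ts _ hi _ (by omega))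
      · rw [r2 i hi, r1 j hj] at e
        exact absurd e.symm (ts _ hj _ (by omega))
      · rw [r2 i hi, r2 j hj] at e
        have := is _ (by omega) _ (by omega) e
        omega)
    (fun i => by
      by_cases h : i % (n + m) < n
      · rw [r1 i h]; exact Gt _ h
      · rw [r2 i h]; exact Gs _ (by have := hlt i; omega))
    (fun i j => by
      have hw : ∀ i, Con M x w (M.cell (M.rho (M.rho (r i)))) := by
        intro i
        by_cases h : i % (n + m) < n
        · rw [r1 i h]; exact wt _ h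
        · rw [r2 i h]; exact ws _ (by have := hlt i; omega)
      exact con_trans (con_symm (hw i)) (hw j))
  rw [r0] at hblk
  rw [hblk]
  ext g
  simp only [Finset.mem_image, Finset.mem_union, Finset.mem_range]
  constructor
  · rintro ⟨i, hi, rfl⟩
    by_cases h : i % (n + m) < n
    · exact Or.inl ⟨_, h, (r1 i h).symm⟩
    · exact Or.inr ⟨i % (n + m) - n, by have := hlt i; omega, (r2 i h).symm⟩
  · rintro (⟨i, hi, rfl⟩ | ⟨j, hj, rfl⟩)
    · refine ⟨i, by omega, ?_⟩
      have h1 : i % (n + m) = i := Nat.mod_eq_of_lt (by omega)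
      rw [r1 i (by rw [h1]; exact hi), h1]
    · refine ⟨n + j, by omega, ?_⟩
      have h1 : (n + j) % (n + m) = n + j := Nat.mod_eq_of_lt (by omega)
      rw [r2 (n + j) (by rw [h1]; omega), h1]
      congr 1
      omega

end Crest.Agent.R143.Flipx357
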