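import Crest.Agent.R143.Rel2_126
import Crest.Agent.R143.Flip_357

/-!
# Row 143 (S0194), block H, box (P) of 4110 (helper820): relative frame in the flipped configuration

`O` exploration of the ring (stopping set), `K` its part up to the first entrance into the window `T`
(311's `Dens2`), `Df σ` = flipped cells (`⊆ K σ`, decided by the data `r σ`), real configuration
`fx (Df σ) (mix O σ τ)` = the explored cells of `σ` flipped on `Df σ`, fresh `τ` elsewhere.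

* `fx A μ` : `μ` inverted on `A`; `fx_glue` : the flip goes through the gluing
* `FlO` : a decided flip; `stop_fl`, `mix_fl`, `wt_fl`, `sum_wt_fl` : transport of an exploration and
  of its weight by the bijection `Φ`
* `part_fl` : **conditional frame relative to the weight of the other tiles, flipped configuration**
* `pot_le` : `‖pot start - pot end‖² ≤ 2 ∑_{β ∈ onL} ‖∑_β φ‖² + 2 ‖∑_{chord} φ‖²` for a joined chord
* `part_root` : **(P), coupling form**: for one joined chord per configuration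
  `∑_σ ∑_τ g σ ‖pot start - pot end‖² ≤ 2 (2^m/4) card ∑ g₁ ∑ ‖φ‖² + 2 ∑_σ ∑_τ g σ ‖∑_{chord} φ‖²`
-/

set_option autoImplicit false
set_option linter.unusedSectionVars false

noncomputable section

open scoped Classical

namespace Crest.Agent.R143.FlPx820

open Crest.Agent.R143.Frame1x395 Crest.Agent.R143.Frame2x395 Crest.Agent.R143.Frame3x395
  Crest.Agent.R143.Frame4x395 Crest.Agent.R143.Frame8x395 Crest.Agent.R143.NonXx592
  Crest.Agent.R143.Coarsex166 Crest.Agent.R143.Giantx46 Crest.Agent.R143.Resax778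
  Crest.Agent.R143.Partx778 Crest.Agent.R143.Chordx355 Crest.Agent.R143.ChordCx357
  Crest.Agent.R143.Chord2x355 Crest.Agent.R143.H2x355 Crest.Agent.R143.Dens2x311
  Crest.Agent.R143.Relx352

/-! ### flips -/

section flip

variable {S : Type*} [Fintype S]

/-- `μ` inverted on `A` -/
def fx (A : Finset S) (μ : S → ZMod 2) : S → ZMod 2 := fun s => μ s + if s ∈ A then 1 else 0

theorem fx_on {A : Finset S} {μ : S → ZMod 2} {s : S} (h : s ∈ A) : fx A μ s = μ s + 1 := by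
  unfold fx; rw [if_pos h]

theorem fx_off {A : Finset S} {μ : S → ZMod 2} {s : S} (h : s ∉ A) : fx A μ s = μ s := by
  unfold fx; rw [if_neg h, add_zero]

theorem fx_fx (A : Finset S) (μ : S → ZMod 2) : fx A (fx A μ) = μ := by
  funext s
  by_cases h : s ∈ A
  · rw [fx_on h, fx_on h, add_assoc, show (1 : ZMod 2) + 1 = 0 from rfl, add_zero]
  · rw [fx_off h, fx_off h]

/-- the flip goes through the gluing -/
theorem fx_glue {A K : Finset S} (h : A ⊆ K) (σ τ : S → ZMod 2) :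
    fx A (glue K σ τ) = glue K (fx A σ) τ := by
  funext s
  by_cases hs : s ∈ K
  · rw [glue_on hs]
    unfold fx
    rw [glue_on hs]
  · rw [glue_off hs, fx_off fun h' => hs (h h'), glue_off hs]

/-- a flip `Φ` of the revealed cells, decided by the exploration, bijective -/
structure FlO {B : Type*} [Fintype B] (O : (S → B) → Finset S) (Φ : (S → B) → (S → B)) : Prop where
  stop : StopSet O
  off : ∀ σ s, s ∉ O σ → Φ σ s = σ s
  dec : ∀ σ τ, (∀ s ∈ O σ, τ s = σ s) → ∀ s ∈ O σ, Φ τ s = Φ σ s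
  bij : Function.Bijective Φ

variable {B : Type*} [Fintype B] {O : (S → B) → Finset S} {Φ : (S → B) → (S → B)}

/-- the inverse -/
def inv (h : FlO O Φ) : (S → B) → (S → B) := (Equiv.ofBijective Φ h.bij).symm

theorem inv_phi (h : FlO O Φ) (σ : S → B) : inv h (Φ σ) = σ :=
  (Equiv.ofBijective Φ h.bij).symm_apply_apply σ

theorem phi_inv (h : FlO O Φ) (μ : S → B) : Φ (inv h μ) = μ :=
  (Equiv.ofBijective Φ h.bij).apply_symm_apply μ

theorem phi_mix (h : FlO O Φ) (σ τ : S → B) : Φ (mix O σ τ) = glue (O σ) (Φ σ) τ := by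
  funext s
  by_cases hs : s ∈ O σ
  · rw [glue_on hs]
    exact h.dec σ _ (fun _ h' => mix_on h') s hs
  · rw [glue_off hs, h.off _ s (by rw [stop_mix h.stop]; exact hs), mix_off hs]

/-- a configuration which agrees with `Φ σ` on the revealed cells -/
theorem inv_of (h : FlO O Φ) {σ μ : S → B} (e : ∀ s ∈ O σ, μ s = Φ σ s) :
    inv h μ = glue (O σ) σ μ := by
  have h1 : Φ (glue (O σ) σ μ) = μ := by
    show Φ (mix O σ μ) = μ
    rw [phi_mix h]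
    funext s
    by_cases hs : s ∈ O σ
    · rw [glue_on hs, e s hs]
    · rw [glue_off hs]
  conv_lhs => rw [← h1]
  exact inv_phi h _

theorem stop_fl (h : FlO O Φ) : StopSet fun μ => O (inv h μ) := by
  intro μ ν e
  have e2 : ∀ s ∈ O (inv h μ), ν s = Φ (inv h μ) s := by
    intro s hs
    rw [phi_inv h]
    exact e s hs
  show O (inv h ν) = O (inv h μ)
  rw [inv_of h e2]
  exact stop_mix h.stop _ _

theorem mix_fl (h : FlO O Φ) (σ τ : S → B) :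
    mix (fun μ => O (inv h μ)) (Φ σ) τ = Φ (mix O σ τ) := by
  rw [phi_mix h]
  show glue (O (inv h (Φ σ))) (Φ σ) τ = _
  rw [inv_phi h]

theorem inv_mix (h : FlO O Φ) (μ τ : S → B) :
    inv h (mix (fun μ => O (inv h μ)) μ τ) = mix O (inv h μ) τ := by
  have e := mix_fl h (inv h μ) τ
  rw [phi_inv h] at e
  rw [e, inv_phi h]

theorem wt_fl (h : FlO O Φ) (g : (S → B) → ℝ) (μ : S → B) :
    wt (fun μ => O (inv h μ)) (fun μ => g (inv h μ)) μ = wt O g (inv h μ) := by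
  unfold wt
  congr 1
  refine Finset.sum_congr rfl fun τ _ => ?_
  show g (inv h (mix (fun μ => O (inv h μ)) μ τ)) = _
  rw [inv_mix]

theorem sum_fl (h : FlO O Φ) {E : Type*} [AddCommMonoid E]
    (F : (S → B) → E) : ∑ σ, F (Φ σ) = ∑ μ, F μ :=
  Fintype.sum_bijective Φ h.bij _ _ fun _ => rfl

theorem sum_wt_fl (h : FlO O Φ) (g Y : (S → B) → ℝ) :
    ∑ μ, wt (fun μ => O (inv h μ)) (fun μ => g (inv h μ)) μ * Y μ = ∑ σ, wt O g σ * Y (Φ σ) := by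
  rw [← sum_fl h]
  refine Finset.sum_congr rfl fun σ _ => ?_
  rw [wt_fl h, inv_phi h]

end flip

/-! ### the relative frame in the flipped configuration -/

section part

variable {D C : Type} [Fintype D] [Fintype C] {M : CMap D C}

/-- **PARTIAL TILES, flipped configuration**: bound relative to the weight `g₁` of the other tiles
and gates, which does not see the colours in `T` -/
theorem part_fl {w : ℂ} (w3 : w ^ 3 = 1) (w1 : w ≠ 1) (wc : (starRingEnd ℂ) w = w ^ 2)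
    {O K : (C → ZMod 2) → Finset C} (hO : StopSet O) (hK : StopSet K) {T : Finset C} {R : Type}
    {r : (C → ZMod 2) → R} (hr : ∀ σ τ, (∀ s ∈ K σ, τ s = σ s) → r τ = r σ)
    {Dk : R → Finset C}
    {g g₁ : (C → ZMod 2) → ℝ} (hg0 : ∀ σ, 0 ≤ g σ) (hgg : ∀ σ, g σ ≤ g₁ σ)
    (hg₁ : ∀ σ τ, (∀ s, s ∉ T → τ s = σ s) → g₁ τ = g₁ σ)
    (hKO : ∀ σ, g σ ≠ 0 → K σ ⊆ O σ) (hT : ∀ σ, g σ ≠ 0 → O σ \ K σ ⊆ T)
    (hDk : ∀ σ, g σ ≠ 0 → Dk (r σ) ⊆ K σ)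
    {C' : R → Type} [∀ q, Fintype (C' q)] {π : ∀ q, C → C' q} {hπ : ∀ q, ClsCon M (π q)}
    {A : ∀ q, Finset (C' q)} {v : ∀ q, C' q → ZMod 2} {m : ℕ} (hA : ∀ q, (A q).card ≤ m)
    (HG : ∀ σ, g σ ≠ 0 → Gts (π (r σ)) (K σ) (fx (Dk (r σ)) σ) (A (r σ)) (v (r σ)))
    {a : R → D → ℂ} (ha : ∀ q, Spin M w (a q)) {Y : (C → ZMod 2) → ℝ}
    (hY : ∀ σ τ, g σ ≠ 0 → Y (fx (Dk (r σ)) (mix O σ τ)) ≤
      ∑ β ∈ blks (coarse M (π (r σ)) (hπ (r σ))) (cfg M (fx (Dk (r σ)) (mix O σ τ))),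
        ‖∑ k ∈ β, a (r σ) k‖ ^ 2) :
    ∑ σ, ∑ τ, g σ * Y (fx (Dk (r σ)) (mix O σ τ)) ≤
      (2 : ℝ) ^ m / 4 * Fintype.card (C → ZMod 2) * ∑ σ, g₁ σ * ∑ k, ‖a (r σ) k‖ ^ 2 := by
  have hg₁0 : ∀ σ, 0 ≤ g₁ σ := fun σ => (hg0 σ).trans (hgg σ)
  -- cylinders which meet the event
  obtain ⟨G, hG⟩ : ∃ G : (C → ZMod 2) → Prop, ∀ σ, G σ ↔ g σ ≠ 0 := ⟨_, fun _ => Iff.rfl⟩
  set G' : (C → ZMod 2) → Prop := fun σ => ∃ ρ, G ρ ∧ ∀ s ∈ K ρ, σ s = ρ s with hG'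
  have hG'c : ∀ σ τ, (∀ s ∈ K σ, τ s = σ s) → (G' τ ↔ G' σ) := by
    intro σ τ h
    have e : K τ = K σ := hK σ τ h
    constructor
    · rintro ⟨ρ, h1, h2⟩
      have e2 : K τ = K ρ := hK ρ τ h2
      refine ⟨ρ, h1, fun s hs => ?_⟩
      rw [← h2 s hs]
      exact (h s (by rw [← e, e2]; exact hs)).symm
    · rintro ⟨ρ, h1, h2⟩
      have e2 : K σ = K ρ := hK ρ σ h2
      refine ⟨ρ, h1, fun s hs => ?_⟩
      rw [← h2 s hs]
      exact h s (by rw [e2]; exact hs)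
  set F : (C → ZMod 2) → (C → ZMod 2) → ℝ := fun σ μ => if G' σ then
    ∑ β ∈ blks (coarse M (π (r σ)) (hπ (r σ))) (cfg M (fx (Dk (r σ)) μ)),
      ‖∑ k ∈ β, a (r σ) k‖ ^ 2 else 0 with hF
  have h1 : ∑ σ, ∑ τ, g σ * Y (fx (Dk (r σ)) (mix O σ τ)) ≤
      ∑ σ, ∑ τ, (if G σ then g₁ σ * F σ (mix O σ τ) else 0) := by
    refine Finset.sum_le_sum fun σ _ => Finset.sum_le_sum fun τ _ => ?_
    by_cases h : g σ = 0
    · rw [h, zero_mul, if_neg fun h' => (hG σ).1 h' h]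
    · rw [if_pos ((hG σ).2 h)]
      have hX : (0 : ℝ) ≤ ∑ β ∈ blks (coarse M (π (r σ)) (hπ (r σ)))
          (cfg M (fx (Dk (r σ)) (mix O σ τ))), ‖∑ k ∈ β, a (r σ) k‖ ^ 2 :=
        Finset.sum_nonneg fun _ _ => by positivity
      have e5 : F σ (mix O σ τ) = ∑ β ∈ blks (coarse M (π (r σ)) (hπ (r σ)))
          (cfg M (fx (Dk (r σ)) (mix O σ τ))), ‖∑ k ∈ β, a (r σ) k‖ ^ 2 :=
        if_pos ⟨σ, (hG σ).2 h, fun _ _ => rfl⟩
      rw [e5]
      exact (mul_le_mul_of_nonneg_left (hY σ τ h) (hg0 σ)).trans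
        (mul_le_mul_of_nonneg_right (hgg σ) hX)
  have h2 := dens2 (S := C) (B := ZMod 2) hO hK (G := G) (fun σ h => hKO σ ((hG σ).1 h))
    (fun σ h => hT σ ((hG σ).1 h)) hg₁0 hg₁ (F := F)
    (fun σ μ => by
      show 0 ≤ if G' σ then _ else _
      split_ifs
      · exact Finset.sum_nonneg fun β _ => by positivity
      · exact le_rfl)
    (fun σ τ μ h => by
      have e := hr σ τ h
      have e' := hG'c σ τ h
      show (if G' τ then ∑ β ∈ blks (coarse M (π (r τ)) (hπ (r τ))) (cfg M (fx (Dk (r τ)) μ)),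
        ‖∑ k ∈ β, a (r τ) k‖ ^ 2 else 0) =
        if G' σ then ∑ β ∈ blks (coarse M (π (r σ)) (hπ (r σ))) (cfg M (fx (Dk (r σ)) μ)),
          ‖∑ k ∈ β, a (r σ) k‖ ^ 2 else 0
      rw [e]
      by_cases h' : G' σ
      · rw [if_pos h', if_pos (e'.2 h')]
      · rw [if_neg h', if_neg fun h'' => h' (e'.1 h'')])
  refine (h1.trans h2).trans ?_
  rw [Finset.mul_sum]
  refine Finset.sum_le_sum fun σ _ => ?_
  rw [← Finset.mul_sum]
  have hE : 0 ≤ ∑ k, ‖a (r σ) k‖ ^ 2 := Finset.sum_nonneg fun k _ => by positivity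
  by_cases h' : G' σ
  · obtain ⟨ρ, hρ, hs⟩ := h'
    have hρ' := (hG ρ).1 hρ
    have eK : K σ = K ρ := hK ρ σ hs
    have er : r σ = r ρ := hr ρ σ hs
    have hD : Dk (r σ) ⊆ K σ := by
      rw [er, eK]; exact hDk ρ hρ'
    have hGt : Gts (π (r σ)) (K σ) (fx (Dk (r σ)) σ) (A (r σ)) (v (r σ)) := by
      have := gts_congr (χ' := fx (Dk (r ρ)) σ) (HG ρ hρ') (fun c hc => by
        unfold fx
        rw [hs c hc])
      rw [eK, er]
      exact this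
    have h3 := hGt.frame (M := M) (hπ := hπ (r σ)) w3 w1 wc (ha (r σ))
    have e4 : ∀ τ, F σ (glue (K σ) σ τ) =
        ∑ β ∈ blks (coarse M (π (r σ)) (hπ (r σ)))
          (cfg M (glue (K σ) (fx (Dk (r σ)) σ) τ)), ‖∑ k ∈ β, a (r σ) k‖ ^ 2 := by
      intro τ
      rw [← fx_glue hD]
      exact if_pos ⟨ρ, hρ, hs⟩
    calc g₁ σ * ∑ τ, F σ (glue (K σ) σ τ)
        ≤ g₁ σ * ((2 : ℝ) ^ (A (r σ)).card / 4 * Fintype.card (C → ZMod 2) *
          ∑ k, ‖a (r σ) k‖ ^ 2) := by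
          refine mul_le_mul_of_nonneg_left ?_ (hg₁0 σ)
          rw [Finset.sum_congr rfl fun τ _ => e4 τ]
          exact h3
      _ ≤ g₁ σ * ((2 : ℝ) ^ m / 4 * Fintype.card (C → ZMod 2) *
          ∑ k, ‖a (r σ) k‖ ^ 2) := by
          refine mul_le_mul_of_nonneg_left ?_ (hg₁0 σ)
          have h5 : (2 : ℝ) ^ (A (r σ)).card ≤ 2 ^ m := pow_le_pow_right₀ (by norm_num) (hA _)
          gcongr
      _ = _ := by ring
  · have e4 : ∀ τ, F σ (glue (K σ) σ τ) = 0 := fun τ => if_neg h'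
    rw [Finset.sum_congr rfl fun τ _ => e4 τ, Finset.sum_const_zero, mul_zero]
    have := hg₁0 σ
    positivity

/-! ### the partial charge of a joined chord -/

theorem sq_sub_le (u v : ℂ) : ‖u‖ ^ 2 ≤ 2 * ‖v + u‖ ^ 2 + 2 * ‖v‖ ^ 2 := by
  have h1 : ‖u‖ ≤ ‖v + u‖ + ‖v‖ := by
    have := norm_sub_le (v + u) v
    rwa [add_sub_cancel_left] at this
  have h2 : 0 ≤ ‖u‖ := norm_nonneg _
  nlinarith [sq_nonneg (‖v + u‖ - ‖v‖), norm_nonneg (v + u), norm_nonneg v]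

/-- difference of the potential at the two ends of a chord -/
def dpt (M : CMap D C) (x : D → ZMod 2) (p₀ : D) (b : ℕ) (φ : D → ℂ) (k : D) (n : ℕ) : ℂ :=
  pot M x p₀ b φ (M.cell (M.rho k)) - pot M x p₀ b φ (lc M x (M.rho k) n)

/-- **the partial charge of a joined chord** is paid by the blocks of the loop and the chord sum -/
theorem pot_le {x : D → ZMod 2} {p₀ : D} {b : ℕ} {Rv : Set C} (O : Oa M x p₀ b Rv) {k : D} {n : ℕ}
    (J : Jc M x p₀ b Rv k n) (φ : D → ℂ) :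
    ‖dpt M x p₀ b φ k n‖ ^ 2 ≤ 2 * ∑ β ∈ onL M x p₀, ‖∑ h ∈ β, φ h‖ ^ 2 +
      2 * ‖∑ h ∈ cset M (P M x (M.rho k)) 0 n, φ h‖ ^ 2 := by
  have h1 := J.sum O φ
  have h2 : ‖∑ h ∈ blk M x k, φ h‖ ^ 2 ≤ ∑ β ∈ onL M x p₀, ‖∑ h ∈ β, φ h‖ ^ 2 :=
    Finset.single_le_sum (f := fun β => ‖∑ h ∈ β, φ h‖ ^ 2) (fun _ _ => by positivity)
      (blk_onL O J)
  have h3 := sq_sub_le (dpt M x p₀ b φ k n) (∑ h ∈ cset M (P M x (M.rho k)) 0 n, φ h)
  have h4 : ∑ h ∈ cset M (P M x (M.rho k)) 0 n, φ h + dpt M x p₀ b φ k n =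
      ∑ h ∈ blk M x k, φ h := h1.symm
  rw [h4] at h3
  linarith

/-- **(P), coupling form** : one joined chord per configuration.  `μ = fx (Dk (r σ)) (mix O σ τ)` is
the flipped real configuration, `J σ τ` the event that the chord is there and joined -/
theorem part_root {w : ℂ} (w3 : w ^ 3 = 1) (w1 : w ≠ 1) (wc : (starRingEnd ℂ) w = w ^ 2)
    {O K : (C → ZMod 2) → Finset C} (hO : StopSet O) (hK : StopSet K) {T : Finset C} {R : Type}
    {r : (C → ZMod 2) → R} (hr : ∀ σ τ, (∀ s ∈ K σ, τ s = σ s) → r τ = r σ)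
    {Dk : R → Finset C}
    {g g₁ : (C → ZMod 2) → ℝ} (hg0 : ∀ σ, 0 ≤ g σ) (hgg : ∀ σ, g σ ≤ g₁ σ)
    (hg₁ : ∀ σ τ, (∀ s, s ∉ T → τ s = σ s) → g₁ τ = g₁ σ)
    (hKO : ∀ σ, g σ ≠ 0 → K σ ⊆ O σ) (hT : ∀ σ, g σ ≠ 0 → O σ \ K σ ⊆ T)
    (hDk : ∀ σ, g σ ≠ 0 → Dk (r σ) ⊆ K σ)
    {C' : R → Type} [∀ q, Fintype (C' q)] {π : ∀ q, C → C' q} {hπ : ∀ q, ClsCon M (π q)}
    {A : ∀ q, Finset (C' q)} {v : ∀ q, C' q → ZMod 2} {m : ℕ} (hA : ∀ q, (A q).card ≤ m)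
    (HG : ∀ σ, g σ ≠ 0 → Gts (π (r σ)) (K σ) (fx (Dk (r σ)) σ) (A (r σ)) (v (r σ)))
    {φ : D → ℂ} (hφ : Spin M w φ) {Q : D → Prop} (hQ : ∀ k, ¬ Q k → φ k = 0)
    {p' : (C → ZMod 2) → D}
    (hH : ∀ σ τ, g σ ≠ 0 →
      cfg M (fx (Dk (r σ)) (mix O σ τ)) (p' (fx (Dk (r σ)) (mix O σ τ))) = 1 ∧
      ∀ c', Harm M (π (r σ)) (cfg M (fx (Dk (r σ)) (mix O σ τ)))
        (p' (fx (Dk (r σ)) (mix O σ τ))) Q c')
    {J : (C → ZMod 2) → (C → ZMod 2) → Prop}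
    {p₀ : (C → ZMod 2) → (C → ZMod 2) → D} {b : (C → ZMod 2) → (C → ZMod 2) → ℕ}
    {Rv : (C → ZMod 2) → (C → ZMod 2) → Set C}
    {k : (C → ZMod 2) → (C → ZMod 2) → D} {n : (C → ZMod 2) → (C → ZMod 2) → ℕ}
    (hJ : ∀ σ τ, g σ ≠ 0 → J σ τ → p₀ σ τ = p' (fx (Dk (r σ)) (mix O σ τ)) ∧
      Oa M (cfg M (fx (Dk (r σ)) (mix O σ τ))) (p₀ σ τ) (b σ τ) (Rv σ τ) ∧
      Jc M (cfg M (fx (Dk (r σ)) (mix O σ τ))) (p₀ σ τ) (b σ τ) (Rv σ τ) (k σ τ) (n σ τ)) :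
    ∑ σ, ∑ τ, (if J σ τ then g σ *
        ‖dpt M (cfg M (fx (Dk (r σ)) (mix O σ τ))) (p₀ σ τ) (b σ τ) φ (k σ τ) (n σ τ)‖ ^ 2
        else 0) ≤
      2 * ((2 : ℝ) ^ m / 4 * Fintype.card (C → ZMod 2) * ((∑ k, ‖φ k‖ ^ 2) * ∑ σ, g₁ σ)) +
      2 * ∑ σ, ∑ τ, (if J σ τ then g σ * ‖∑ h ∈ cset M
        (P M (cfg M (fx (Dk (r σ)) (mix O σ τ))) (M.rho (k σ τ))) 0 (n σ τ), φ h‖ ^ 2 else 0) := by
  set Y : (C → ZMod 2) → ℝ := fun μ => ∑ β ∈ onL M (cfg M μ) (p' μ), ‖∑ h ∈ β, φ h‖ ^ 2 with hYd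
  have hY0 : ∀ μ, 0 ≤ Y μ := fun μ => Finset.sum_nonneg fun _ _ => by positivity
  have h1 := part_fl (M := M) w3 w1 wc hO hK hr hg0 hgg hg₁ hKO hT hDk (hπ := hπ) hA HG
    (a := fun _ => φ) (fun _ => hφ) (Y := Y) ?_
  · have h2 : ∑ σ, ∑ τ, (if J σ τ then g σ *
        ‖dpt M (cfg M (fx (Dk (r σ)) (mix O σ τ))) (p₀ σ τ) (b σ τ) φ (k σ τ) (n σ τ)‖ ^ 2
        else 0) ≤
      2 * (∑ σ, ∑ τ, g σ * Y (fx (Dk (r σ)) (mix O σ τ))) +
      2 * ∑ σ, ∑ τ, (if J σ τ then g σ * ‖∑ h ∈ cset M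
        (P M (cfg M (fx (Dk (r σ)) (mix O σ τ))) (M.rho (k σ τ))) 0 (n σ τ), φ h‖ ^ 2
        else 0) := by
      rw [Finset.mul_sum, Finset.mul_sum, ← Finset.sum_add_distrib]
      refine Finset.sum_le_sum fun σ _ => ?_
      rw [Finset.mul_sum, Finset.mul_sum, ← Finset.sum_add_distrib]
      refine Finset.sum_le_sum fun τ _ => ?_
      by_cases hj : J σ τ
      · rw [if_pos hj, if_pos hj]
        by_cases hg : g σ = 0
        · rw [hg]; simp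
        · obtain ⟨e1, e2, e3⟩ := hJ σ τ hg hj
          have h3 := pot_le e2 e3 φ
          have h4 : ∑ β ∈ onL M (cfg M (fx (Dk (r σ)) (mix O σ τ))) (p₀ σ τ),
              ‖∑ h ∈ β, φ h‖ ^ 2 = Y (fx (Dk (r σ)) (mix O σ τ)) := by
            rw [hYd, e1]
          rw [h4] at h3
          have h5 := mul_le_mul_of_nonneg_left h3 (hg0 σ)
          nlinarith [h5]
      · rw [if_neg hj, if_neg hj]
        have := mul_nonneg (hg0 σ) (hY0 (fx (Dk (r σ)) (mix O σ τ)))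
        linarith
    refine h2.trans ?_
    have h6 : ∑ σ, g₁ σ * ∑ k, ‖φ k‖ ^ 2 = (∑ k, ‖φ k‖ ^ 2) * ∑ σ, g₁ σ := by
      rw [← Finset.sum_mul, mul_comm]
    rw [h6] at h1
    linarith
  · intro σ τ hσ
    obtain ⟨h5, h6⟩ := hH σ τ hσ
    have hD : Dk (r σ) ⊆ O σ := (hDk σ hσ).trans (hKO σ hσ)
    refine onL_le (hπ := hπ (r σ)) (Gts_isC (HG σ hσ) fun c hc => ?_) h5 hQ h6
    have h7 : c ∈ O σ := hKO σ hσ hc
    unfold fx
    rw [mix_on h7]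

end part

end Crest.Agent.R143.FlPx820
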