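import Crest.Agent.R143.EqdM_811
import Crest.Agent.R143.H2_355

/-!
# Row 143 (S0194), block H, H5 (b), measure part (helper357; notes 3505, 3909, 4022)

* `Fp R R' b` : the coins revealed by `R'`, but not by `R`, are inverted (`R`, `R'` stopping sets in
  389's language, `b ⊆ V`); `fp_inj`, `sum_fp`, `fpE` : a bijection of the configurations
* `Fair` : fair coins, one for every cell except the frozen cell `o`; `fp_col`, `fp_flip` : colours
  of the cells after the flip
* `it_flip` : the walker does not see the flip as long as the three cells of his faces are kept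
* `Eqd.comp`, `eqd_pow`, `eqd_fp` : `b ↦ cfg M (χ (Fp R R' b))` is equidistributed (304's `Eqd`), so
  box R7 (`MassQx304.R7`) applies to the flipped configuration
* `Ucol` : uniform colourings in 778's language (`StopSet`, `mix`), `flS` : the flip, `eqd_flS`
* `jc_L2`, `jc_L1` : the value of one joined chord per configuration of an equidistributed family is
  paid by the macroscopic closed blocks
-/

set_option autoImplicit false

noncomputable section

open scoped Classical ENNReal

namespace Crest.Agent.R143.FlipMx357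

open Crest.Agent.R143.Frame1x395 Crest.Agent.R143.Frame2x395 Crest.Agent.R143.Frame3x395
  Crest.Agent.R143.Frame8x395 Crest.Agent.R143.Frame9x395 Crest.Agent.R143.Frame11x395
  Crest.Agent.R143.NonXx592 Crest.Agent.R143.Harx315 Crest.Agent.R143.Histx389
  Crest.Agent.R143.Chordx355 Crest.Agent.R143.ChordCx357 Crest.Agent.R143.Chord2x355
  Crest.Agent.R143.H2x355 Crest.Agent.R143.Resax778 Crest.Agent.R143.MassQx304
  Crest.Agent.R143.EqdMx811
open Crest.Agent.R143.Mass5x302 (bigB)

/-! ### the flip of the coins between two stopping sets -/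

section flip

variable {α : Type*} {V : Finset α} {R R' : Finset α → Finset α}

/-- the coins revealed by `R'`, but not by `R`, are inverted -/
def Fp (R R' : Finset α → Finset α) (b : Finset α) : Finset α := symmDiff b (R' b \ R b)

theorem mem_fp {b : Finset α} {a : α} :
    a ∈ Fp R R' b ↔ (a ∈ b ∧ ¬ (a ∈ R' b ∧ a ∉ R b)) ∨ (a ∉ b ∧ a ∈ R' b ∧ a ∉ R b) := by
  unfold Fp
  rw [Finset.mem_symmDiff, Finset.mem_sdiff]
  tauto

theorem mem_fp_off {b : Finset α} {a : α} (h : ¬ (a ∈ R' b ∧ a ∉ R b)) :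
    a ∈ Fp R R' b ↔ a ∈ b := by
  rw [mem_fp]; tauto

theorem mem_fp_on {b : Finset α} {a : α} (h : a ∈ R' b) (h' : a ∉ R b) :
    a ∈ Fp R R' b ↔ a ∉ b := by
  rw [mem_fp]; tauto

theorem fp_sub (hR' : IsStop V R') {b : Finset α} (hb : b ⊆ V) : Fp R R' b ⊆ V := by
  intro a ha
  rcases mem_fp.1 ha with h | h
  · exact hb h.1
  · exact hR'.sub b hb h.2.1

theorem fp_inter {b K : Finset α} (h : ∀ a ∈ K, a ∈ R' b → a ∈ R b) :
    Fp R R' b ∩ K = b ∩ K := by
  ext a
  rw [Finset.mem_inter, Finset.mem_inter]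
  constructor
  · rintro ⟨h1, h2⟩
    exact ⟨(mem_fp_off fun h3 => h3.2 (h a h2 h3.1)).1 h1, h2⟩
  · rintro ⟨h1, h2⟩
    exact ⟨(mem_fp_off fun h3 => h3.2 (h a h2 h3.1)).2 h1, h2⟩

/-- the earlier stopping set is not changed -/
theorem fp_R (hR : IsStop V R) (hR' : IsStop V R') {b : Finset α} (hb : b ⊆ V) :
    R (Fp R R' b) = R b :=
  hR.stop b _ hb (fp_sub hR' hb) (fp_inter fun _ h _ => h).symm

theorem stop_glue {J : Finset α → Finset α} (hJ : IsStop V J) {b b' : Finset α} (hb : b ⊆ V)
    (hb' : b' ⊆ V) (h : ∀ a ∈ J b, a ∈ J b' → (a ∈ b ↔ a ∈ b')) : J b = J b' := by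
  set c := (b ∩ J b) ∪ (b' \ J b) with hc
  have hcV : c ⊆ V :=
    Finset.union_subset (Finset.inter_subset_left.trans hb) (Finset.sdiff_subset.trans hb')
  have h1 : J c = J b := by
    refine hJ.stop b c hb hcV ?_
    ext a
    simp only [hc, Finset.mem_inter, Finset.mem_union, Finset.mem_sdiff]
    tauto
  have h2 : J c = J b' := by
    refine hJ.stop b' c hb' hcV ?_
    ext a
    simp only [hc, Finset.mem_inter, Finset.mem_union, Finset.mem_sdiff]
    by_cases h3 : a ∈ J b
    · have := h a h3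
      tauto
    · tauto
  exact h1.symm.trans h2

/-- **the flip is injective** -/
theorem fp_inj (hR : IsStop V R) (hR' : IsStop V R') {b b' : Finset α} (hb : b ⊆ V)
    (hb' : b' ⊆ V) (e : Fp R R' b = Fp R R' b') : b = b' := by
  have e1 : R b = R b' := by
    rw [← fp_R hR hR' hb, ← fp_R hR hR' hb', e]
  have e2 : ∀ a ∈ R' b, a ∈ R' b' → (a ∈ b ↔ a ∈ b') := by
    intro a h1 h2
    by_cases h3 : a ∈ R b
    · have h4 : a ∈ R b' := e1 ▸ h3
      rw [← mem_fp_off (R := R) (R' := R') (b := b) fun h => h.2 h3, e,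
        mem_fp_off fun h => h.2 h4]
    · have h4 : a ∉ R b' := e1 ▸ h3
      have h5 := mem_fp_on h1 h3
      have h6 := mem_fp_on h2 h4
      rw [e] at h5
      tauto
  have e3 := stop_glue hR' hb hb' e2
  ext a
  by_cases h1 : a ∈ R' b
  · exact e2 a h1 (e3 ▸ h1)
  · rw [← mem_fp_off (R := R) (R' := R') (b := b) fun h => h1 h.1, e,
      mem_fp_off fun h => h1 (e3 ▸ h.1)]

theorem fp_image (hR : IsStop V R) (hR' : IsStop V R') :
    V.powerset.image (Fp R R') = V.powerset := by
  refine Finset.eq_of_subset_of_card_le ?_ ?_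
  · intro c hc
    obtain ⟨b, hb, rfl⟩ := Finset.mem_image.1 hc
    exact Finset.mem_powerset.2 (fp_sub hR' (Finset.mem_powerset.1 hb))
  · rw [Finset.card_image_of_injOn]
    intro b hb b' hb' e
    exact fp_inj hR hR' (Finset.mem_powerset.1 hb) (Finset.mem_powerset.1 hb') e

/-- **the flip preserves sums** -/
theorem sum_fp (hR : IsStop V R) (hR' : IsStop V R') {A : Type*} [AddCommMonoid A]
    (F : Finset α → A) : ∑ b ∈ V.powerset, F (Fp R R' b) = ∑ b ∈ V.powerset, F b := by
  conv_rhs => rw [← fp_image hR hR']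
  rw [Finset.sum_image]
  intro b hb b' hb' e
  exact fp_inj hR hR' (Finset.mem_powerset.1 hb) (Finset.mem_powerset.1 hb') e

/-- the flip on the configurations -/
def fpF (hR' : IsStop V R') (b : V.powerset) : V.powerset :=
  ⟨Fp R R' b.1, Finset.mem_powerset.2 (fp_sub hR' (Finset.mem_powerset.1 b.2))⟩

theorem fpF_bij (hR : IsStop V R) (hR' : IsStop V R') :
    Function.Bijective (fpF (R := R) hR') := by
  refine Finite.injective_iff_bijective.1 fun b b' e => Subtype.ext ?_
  exact fp_inj hR hR' (Finset.mem_powerset.1 b.2) (Finset.mem_powerset.1 b'.2)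
    (congrArg Subtype.val e)

/-- **one block per configuration** : `w b ‖e b‖²` is paid by a term of the flipped configuration -/
theorem sum_fp_le (hR : IsStop V R) (hR' : IsStop V R') {w f F : Finset α → ℝ}
    (w0 : ∀ b, b ⊆ V → 0 ≤ w b) (w1 : ∀ b, b ⊆ V → w b ≤ 1) (F0 : ∀ b, b ⊆ V → 0 ≤ F b)
    (h : ∀ b, b ⊆ V → w b ≠ 0 → f b ≤ F (Fp R R' b)) :
    ∑ b ∈ V.powerset, w b * f b ≤ ∑ b ∈ V.powerset, F b := by
  rw [← sum_fp hR hR' F]
  refine Finset.sum_le_sum fun b hb => ?_
  have hb' := Finset.mem_powerset.1 hb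
  have hF := F0 _ (fp_sub hR' hb' : Fp R R' b ⊆ V)
  by_cases hw : w b = 0
  · rw [hw, zero_mul]; exact hF
  · calc w b * f b ≤ w b * F (Fp R R' b) := mul_le_mul_of_nonneg_left (h b hb' hw) (w0 b hb')
      _ ≤ 1 * F (Fp R R' b) := mul_le_mul_of_nonneg_right (w1 b hb') hF
      _ = _ := one_mul _

end flip

/-! ### fair coins -/

variable {α : Type} {V : Finset α} {R R' : Finset α → Finset α}
variable {D C : Type} {M : CMap D C} {χ : Finset α → C → ZMod 2} {K : C → Finset α} {o : C}

/-- one fair coin for every cell of the map, except for the frozen cell `o` -/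
structure Fair (M : CMap D C) (V : Finset α) (χ : Finset α → C → ZMod 2) (K : C → Finset α)
    (o : C) : Prop where
  coins : Coins V χ K
  coin : ∀ d, M.cell d ≠ o → ∃ a ∈ V, K (M.cell d) = {a}
  bit : ∀ c a b, a ∈ K c → b ⊆ V → χ b c = if a ∈ b then 1 else 0
  inj : ∀ c c' a, a ∈ K c → a ∈ K c' → c = c'
  base : K o = ∅

/-- a kept cell -/
theorem fp_col (hχ : Coins V χ K) (hR' : IsStop V R') {b : Finset α} (hb : b ⊆ V) {c : C}
    (h : ∀ a ∈ K c, a ∈ R' b → a ∈ R b) : χ (Fp R R' b) c = χ b c :=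
  hχ c _ _ (fp_sub hR' hb) hb (fp_inter h)

/-- a flipped cell -/
theorem fp_flip (H : Fair M V χ K o) (hR' : IsStop V R') {b : Finset α} (hb : b ⊆ V) {c : C}
    {a : α} (ha : a ∈ K c) (h1 : a ∈ R' b) (h2 : a ∉ R b) :
    χ (Fp R R' b) c = χ b c + 1 := by
  rw [H.bit c a _ ha (fp_sub hR' hb), H.bit c a _ ha hb]
  by_cases h3 : a ∈ b
  · rw [if_pos h3, if_neg fun h => (mem_fp_on h1 h2).1 h h3]; decide
  · rw [if_neg h3, if_pos ((mem_fp_on h1 h2).2 h3)]; decide

/-- **the walker does not see the flip** as long as the cells of his faces are kept -/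
theorem it_flip {η η' : C → ZMod 2} {p₀ : D} {m : ℕ}
    (h : ∀ a, a + 1 < m → η' (M.cell (P M (cfg M η) p₀ a)) = η (M.cell (P M (cfg M η) p₀ a)) ∧
      η' (M.cell (M.rho (P M (cfg M η) p₀ a))) = η (M.cell (M.rho (P M (cfg M η) p₀ a))) ∧
      η' (M.cell (M.rho (M.rho (P M (cfg M η) p₀ a)))) =
        η (M.cell (M.rho (M.rho (P M (cfg M η) p₀ a))))) :
    ∀ a, a < m → P M (cfg M η') p₀ a = P M (cfg M η) p₀ a := by
  intro a
  induction a with
  | zero => intro _; rfl
  | succ a ih =>
    intro ha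
    obtain ⟨h1, h2, h3⟩ := h a (by omega)
    rw [P_succ, P_succ, ih (by omega)]
    unfold stp
    have e : cfg M η' (M.rho (P M (cfg M η) p₀ a)) = cfg M η (M.rho (P M (cfg M η) p₀ a)) := by
      show η' _ + η' _ = η _ + η _
      rw [h2, h3]
    rw [e]

/-! ### equidistribution -/

variable [Fintype D]

theorem Eqd.comp {I : Type} [Fintype I] {x : I → D → ZMod 2} (h : Eqd M x) {e : I → I}
    (he : Function.Bijective e) : Eqd M fun i => x (e i) := by
  refine ⟨fun i => h.ev _, fun y hy => ?_⟩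
  refine le_trans (le_of_eq ?_) (h.fib y hy)
  congr 1
  exact Finset.card_bijective e he fun i => by simp

/-- **fair coins give an equidistributed configuration** -/
theorem eqd_pow (H : Fair M V χ K o) :
    Eqd M fun b : V.powerset => cfg M (χ b.1) := by
  refine ⟨fun b => mem_ev.2 (cfg_isC _), ?_⟩
  -- translation
  have tr : ∀ b0, b0 ⊆ V → ∀ b, b ⊆ V →
      cfg M (χ (symmDiff b b0)) = fun d => cfg M (χ b) d + (cfg M (χ b0) d + cfg M (χ ∅) d) := by
    intro b0 hb0 b hb
    have hs : symmDiff b b0 ⊆ V := by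
      intro a ha
      rcases Finset.mem_symmDiff.1 ha with h | h
      · exact hb h.1
      · exact hb0 h.1
    have key : ∀ d, χ (symmDiff b b0) (M.cell d) =
        χ b (M.cell d) + (χ b0 (M.cell d) + χ ∅ (M.cell d)) := by
      intro d
      by_cases hd : M.cell d = o
      · have e1 : ∀ b', b' ⊆ V → χ b' (M.cell d) = χ ∅ (M.cell d) := fun b' hb' =>
          H.coins _ _ _ hb' (Finset.empty_subset V) (by rw [hd, H.base]; simp)
        rw [e1 _ hs, e1 _ hb, e1 _ hb0]
        generalize χ ∅ (M.cell d) = z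
        revert z; decide
      · obtain ⟨a, -, ha⟩ := H.coin d hd
        have ha' : a ∈ K (M.cell d) := by rw [ha]; exact Finset.mem_singleton_self a
        rw [H.bit _ a _ ha' hs, H.bit _ a _ ha' hb, H.bit _ a _ ha' hb0,
          H.bit _ a _ ha' (Finset.empty_subset V)]
        by_cases h1 : a ∈ b <;> by_cases h2 : a ∈ b0 <;> simp [Finset.mem_symmDiff, h1, h2] <;>
          decide
    funext d
    show χ _ _ + χ _ _ = χ _ _ + χ _ _ + ((χ _ _ + χ _ _) + (χ _ _ + χ _ _))
    rw [key, key]
    ring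
  -- surjectivity
  have sur : ∀ y ∈ ev M, ∃ b, b ⊆ V ∧ cfg M (χ b) = y := by
    intro y hy
    obtain ⟨η, hη⟩ := exists_cfg (mem_ev.1 hy)
    set η' : C → ZMod 2 := fun c => η c + (η o + χ ∅ o) with hη'
    set b := V.filter fun a => ∃ d, a ∈ K (M.cell d) ∧ η' (M.cell d) = 1 with hb
    have hbV : b ⊆ V := Finset.filter_subset _ _
    have key : ∀ d, χ b (M.cell d) = η' (M.cell d) := by
      intro d
      by_cases hd : M.cell d = o
      · have e1 : χ b (M.cell d) = χ ∅ (M.cell d) :=
          H.coins _ _ _ hbV (Finset.empty_subset V) (by rw [hd, H.base]; simp)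
        rw [e1, hη']
        show χ ∅ (M.cell d) = η (M.cell d) + (η o + χ ∅ o)
        rw [hd]
        generalize η o = z
        generalize χ ∅ o = z'
        revert z z'; decide
      · obtain ⟨a, haV, ha⟩ := H.coin d hd
        have ha' : a ∈ K (M.cell d) := by rw [ha]; exact Finset.mem_singleton_self a
        rw [H.bit _ a _ ha' hbV]
        rcases z01 (η' (M.cell d)) with h0 | h0
        · rw [h0, if_neg]
          intro h1
          obtain ⟨-, d', h2, h3⟩ := Finset.mem_filter.1 h1
          rw [← H.inj _ _ a ha' h2, h0] at h3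
          exact absurd h3 (by decide)
        · rw [h0, if_pos]
          exact Finset.mem_filter.2 ⟨haV, d, ha', h0⟩
    refine ⟨b, hbV, ?_⟩
    rw [← hη]
    funext d
    show χ b _ + χ b _ = η _ + η _
    rw [key, key]
    show η _ + (η o + χ ∅ o) + (η _ + (η o + χ ∅ o)) = _
    generalize η (M.cell d) = z1
    generalize η (M.cell (M.rho d)) = z2
    generalize η o = z3
    generalize χ ∅ o = z4
    revert z1 z2 z3 z4; decide
  -- all the fibres are equal
  have fib : ∀ y ∈ ev M, ∀ y' ∈ ev M,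
      (Finset.univ.filter fun b : V.powerset => cfg M (χ b.1) = y).card =
        (Finset.univ.filter fun b : V.powerset => cfg M (χ b.1) = y').card := by
    intro y hy y' hy'
    obtain ⟨b1, h1, e1⟩ := sur y hy
    obtain ⟨b2, h2, e2⟩ := sur y' hy'
    have h3 : symmDiff b1 b2 ⊆ V := by
      intro a ha
      rcases Finset.mem_symmDiff.1 ha with h | h
      · exact h1 h.1
      · exact h2 h.1
    have mem : ∀ b : V.powerset, symmDiff b.1 (symmDiff b1 b2) ∈ V.powerset := by
      intro b
      have hb := Finset.mem_powerset.1 b.2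
      refine Finset.mem_powerset.2 fun a ha => ?_
      rcases Finset.mem_symmDiff.1 ha with h | h
      · exact hb h.1
      · exact h3 h.1
    refine Finset.card_bijective
      (fun b : V.powerset => (⟨symmDiff b.1 (symmDiff b1 b2), mem b⟩ : V.powerset)) ?_ ?_
    · refine Finite.injective_iff_bijective.1 fun b b' e => Subtype.ext ?_
      exact symmDiff_left_injective _ (congrArg Subtype.val e)
    · intro b
      have hb := Finset.mem_powerset.1 b.2
      simp only [Finset.mem_filter, Finset.mem_univ, true_and]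
      have e3 : cfg M (χ (symmDiff b.1 (symmDiff b1 b2))) =
          fun d => cfg M (χ b.1) d + (y d + y' d) := by
        rw [tr _ h3 b.1 hb]
        have e4 := tr b2 h2 b1 h1
        funext d
        rw [congrFun e4 d, ← congrFun e1 d, ← congrFun e2 d]
        generalize cfg M (χ b.1) d = z1
        generalize cfg M (χ b1) d = z2
        generalize cfg M (χ b2) d = z3
        generalize cfg M (χ ∅) d = z4
        revert z1 z2 z3 z4; decide
      rw [e3]
      constructor
      · intro h
        funext d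
        rw [h]
        generalize y d = z1
        generalize y' d = z2
        revert z1 z2; decide
      · intro h
        funext d
        have := congrFun h d
        revert this
        generalize cfg M (χ b.1) d = z0
        generalize y d = z1
        generalize y' d = z2
        revert z0 z1 z2; decide
  intro y hy
  apply le_of_eq
  have h1 : ∑ y' ∈ ev M, (Finset.univ.filter fun b : V.powerset => cfg M (χ b.1) = y').card =
      Fintype.card V.powerset := by
    rw [← Finset.card_eq_sum_card_fiberwise (f := fun b : V.powerset => cfg M (χ b.1))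
      (s := Finset.univ) (t := ev M) fun b _ => mem_ev.2 (cfg_isC _), Finset.card_univ]
  rw [← h1, Finset.sum_congr rfl fun y' hy' => fib y' hy' y hy, Finset.sum_const, smul_eq_mul,
    mul_comm]

/-- **the flipped configuration is equidistributed** -/
theorem eqd_fp (H : Fair M V χ K o) (hR : IsStop V R) (hR' : IsStop V R') :
    Eqd M fun b : V.powerset => cfg M (χ (Fp R R' b.1)) :=
  Eqd.comp (eqd_pow H) (fpF_bij hR hR')

/-! ### the flip in 778's language -/

section colour

variable [Fintype C]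

/-- a family of uniform colourings -/
def Ucol {I : Type} [Fintype I] (μ : I → C → ZMod 2) : Prop :=
  ∀ η : C → ZMod 2, (Finset.univ.filter fun i => μ i = η).card * Fintype.card (C → ZMod 2) =
    Fintype.card I

theorem ucol_id : Ucol fun η : C → ZMod 2 => η := by
  intro η
  rw [Finset.filter_eq' , if_pos (Finset.mem_univ η), Finset.card_singleton, one_mul]

theorem ucol_mix {O : (C → ZMod 2) → Finset C} (hO : StopSet O) :
    Ucol fun p : (C → ZMod 2) × (C → ZMod 2) => mix O p.1 p.2 := by
  intro η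
  have h := sum_mix hO (M := ℕ) fun μ => if μ = η then 1 else 0
  rw [Finset.sum_ite_eq', if_pos (Finset.mem_univ η), smul_eq_mul, mul_one] at h
  rw [Finset.card_filter, Fintype.sum_prod_type, h, Fintype.card_prod, Fintype.card_fun]

theorem Ucol.comp {I : Type} [Fintype I] {μ : I → C → ZMod 2} (h : Ucol μ)
    {G : (C → ZMod 2) → C → ZMod 2} (hG : Function.Bijective G) : Ucol fun i => G (μ i) := by
  intro η
  obtain ⟨η', rfl⟩ := hG.2 η
  rw [← h η']
  congr 2
  ext i
  simp only [Finset.mem_filter, Finset.mem_univ, true_and]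
  exact ⟨fun e => hG.1 e, fun e => by rw [e]⟩

/-- **uniform colourings give equidistributed configurations** -/
theorem Ucol.eqd {I : Type} [Fintype I] {μ : I → C → ZMod 2} (h : Ucol μ) :
    Eqd M fun i => cfg M (μ i) := by
  have h1 := eqd_col M
  refine ⟨fun i => mem_ev.2 (cfg_isC _), fun y hy => ?_⟩
  have e1 : (Finset.univ.filter fun i => cfg M (μ i) = y).card =
      ∑ η ∈ Finset.univ.filter (fun η : C → ZMod 2 => cfg M η = y),
        (Finset.univ.filter fun i => μ i = η).card := by
    rw [Finset.card_eq_sum_card_fiberwise (f := μ)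
      (t := Finset.univ.filter fun η : C → ZMod 2 => cfg M η = y)]
    · refine Finset.sum_congr rfl fun η hη => ?_
      congr 1
      ext i
      simp only [Finset.mem_filter, Finset.mem_univ, true_and]
      constructor
      · rintro ⟨-, h3⟩; exact h3
      · intro h3
        refine ⟨?_, h3⟩
        rw [h3]
        exact (Finset.mem_filter.1 hη).2
    · intro i hi
      have h3 := (Finset.mem_filter.1 hi).2
      exact Finset.mem_coe.2 (Finset.mem_filter.2 ⟨Finset.mem_univ _, h3⟩)
  have hpos : 0 < Fintype.card (C → ZMod 2) := Fintype.card_pos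
  refine Nat.le_of_mul_le_mul_right ?_ hpos
  have e2 : (∑ η ∈ Finset.univ.filter (fun η : C → ZMod 2 => cfg M η = y),
      (Finset.univ.filter fun i => μ i = η).card) * Fintype.card (C → ZMod 2) =
      (Finset.univ.filter fun η : C → ZMod 2 => cfg M η = y).card * Fintype.card I := by
    rw [Finset.sum_mul, Finset.sum_congr rfl fun η _ => h η, Finset.sum_const, smul_eq_mul]
  have h2 := h1.fib y hy
  calc (Finset.univ.filter fun i => cfg M (μ i) = y).card * (ev M).card *
        Fintype.card (C → ZMod 2)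
      = ((Finset.univ.filter fun η : C → ZMod 2 => cfg M η = y).card * (ev M).card) *
          Fintype.card I := by
        rw [e1, mul_right_comm, e2]; ring
    _ ≤ Fintype.card (C → ZMod 2) * Fintype.card I := Nat.mul_le_mul_right _ h2
    _ = Fintype.card I * Fintype.card (C → ZMod 2) := mul_comm _ _

/-- the cells revealed by `O'`, but not by `O`, are flipped -/
def flS (O O' : (C → ZMod 2) → Finset C) (η : C → ZMod 2) : C → ZMod 2 :=
  fun c => if c ∈ O' η ∧ c ∉ O η then η c + 1 else η c

theorem flS_off {O O' : (C → ZMod 2) → Finset C} {η : C → ZMod 2} {c : C}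
    (h : ¬ (c ∈ O' η ∧ c ∉ O η)) : flS O O' η c = η c := if_neg h

theorem flS_on {O O' : (C → ZMod 2) → Finset C} {η : C → ZMod 2} {c : C}
    (h : c ∈ O' η) (h' : c ∉ O η) : flS O O' η c = η c + 1 := if_pos ⟨h, h'⟩

theorem flS_O {O O' : (C → ZMod 2) → Finset C} (hO : StopSet O) (η : C → ZMod 2) :
    O (flS O O' η) = O η := hO η _ fun _ hc => flS_off fun h => h.2 hc

theorem glueS {O : (C → ZMod 2) → Finset C} (hO : StopSet O) {η η' : C → ZMod 2}
    (h : ∀ c ∈ O η, c ∈ O η' → η c = η' c) : O η = O η' := by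
  have h1 : O (fun c => if c ∈ O η then η c else η' c) = O η :=
    hO η _ fun c hc => if_pos hc
  have h2 : O (fun c => if c ∈ O η then η c else η' c) = O η' := by
    refine hO η' _ fun c hc => ?_
    by_cases hc' : c ∈ O η
    · show (if c ∈ O η then η c else η' c) = η' c
      rw [if_pos hc', h c hc' hc]
    · exact if_neg hc'
  exact h1.symm.trans h2

/-- **the flip is a bijection of the colourings** -/
theorem flS_bij {O O' : (C → ZMod 2) → Finset C} (hO : StopSet O) (hO' : StopSet O') :
    Function.Bijective (flS O O') := by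
  refine Finite.injective_iff_bijective.1 fun η η' e => ?_
  have e1 : O η = O η' := by rw [← flS_O hO (O' := O') η, ← flS_O hO (O' := O') η', e]
  have e2 : ∀ c ∈ O' η, c ∈ O' η' → η c = η' c := by
    intro c h1 h2
    have h3 := congrFun e c
    by_cases h4 : c ∈ O η
    · rw [flS_off fun h => h.2 h4, flS_off fun h => h.2 (e1 ▸ h4)] at h3
      exact h3
    · rw [flS_on h1 h4, flS_on h2 (e1 ▸ h4)] at h3
      exact add_right_cancel h3
  have e3 := glueS hO' e2
  funext c
  by_cases h1 : c ∈ O' η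
  · exact e2 c h1 (e3 ▸ h1)
  · have h3 := congrFun e c
    rwa [flS_off fun h => h1 h.1, flS_off fun h => h1 (e3 ▸ h.1)] at h3

/-- **mix and flip** : the configuration is equidistributed -/
theorem eqd_flS_mix {O O₁ O₂ : (C → ZMod 2) → Finset C} (hO : StopSet O) (h₁ : StopSet O₁)
    (h₂ : StopSet O₂) :
    Eqd M fun p : (C → ZMod 2) × (C → ZMod 2) => cfg M (flS O₁ O₂ (mix O p.1 p.2)) :=
  ((ucol_mix hO).comp (flS_bij h₁ h₂)).eqd

end colour

/-! ### one joined chord per configuration -/

variable {I : Type} [Fintype I] {P U : Set ℂ} {δ : ℂ → ℂ → D}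

/-- **L2 form** -/
theorem jc_L2 {x : I → D → ZMod 2} (hx : Eqd M x) {g : I → ℝ} (hg : ∀ i, g i ≤ 1) {k : ℝ}
    {p₀ : I → D} {m : I → ℕ} {Rv : I → Set C} {s : I → D} {n : I → ℕ}
    (hO : ∀ i, 0 < g i → Oa M (x i) (p₀ i) (m i) (Rv i))
    (hJ : ∀ i, 0 < g i → Jc M (x i) (p₀ i) (m i) (Rv i) (s i) (n i))
    (hs : ∀ i, 0 < g i → blk M (x i) (s i) ∈ bigB P U M δ k (x i)) {a : D → ℂ} {E : ℝ≥0∞}
    (hE : ∑ y ∈ ev M, ∑ β ∈ bigB P U M δ k y, ENNReal.ofReal (‖∑ t ∈ β, a t‖ ^ 2) ≤
      ((ev M).card : ℝ≥0∞) * E) :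
    ∑ i, ENNReal.ofReal (g i * ‖cv M (x i) (p₀ i) (m i) a (s i) (n i)‖ ^ 2) ≤
      (Fintype.card I : ℝ≥0∞) * E := by
  refine le_trans (Finset.sum_le_sum fun i _ => ?_) (blk_L2 hx hg hs hE)
  by_cases hi : 0 < g i
  · refine le_of_eq ?_
    congr 3
    rw [(hJ i hi).sum (hO i hi) a]
    rfl
  · rw [ENNReal.ofReal_of_nonpos (mul_nonpos_of_nonpos_of_nonneg (not_lt.1 hi) (by positivity))]
    exact zero_le

/-- **L1 form** -/
theorem jc_L1 {x : I → D → ZMod 2} (hx : Eqd M x) {g : I → ℝ} (hg0 : ∀ i, 0 ≤ g i)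
    (hg : ∀ i, g i ≤ 1) {k : ℝ}
    {p₀ : I → D} {m : I → ℕ} {Rv : I → Set C} {s : I → D} {n : I → ℕ}
    (hO : ∀ i, 0 < g i → Oa M (x i) (p₀ i) (m i) (Rv i))
    (hJ : ∀ i, 0 < g i → Jc M (x i) (p₀ i) (m i) (Rv i) (s i) (n i))
    (hs : ∀ i, 0 < g i → blk M (x i) (s i) ∈ bigB P U M δ k (x i)) {a : D → ℂ} {E : ℝ≥0∞}
    (hE : ∑ y ∈ ev M, ∑ β ∈ bigB P U M δ k y, ENNReal.ofReal (‖∑ t ∈ β, a t‖ ^ 2) ≤
      ((ev M).card : ℝ≥0∞) * E) :
    ∑ i, ENNReal.ofReal (g i * ‖cv M (x i) (p₀ i) (m i) a (s i) (n i)‖) ≤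
      (Fintype.card I : ℝ≥0∞) * E ^ (1 / 2 : ℝ) :=
  cs_fin hg0 hg (fun _ => norm_nonneg _) (jc_L2 hx hg hO hJ hs hE)

end Crest.Agent.R143.FlipMx357
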