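import Crest.Agent.R143.HGlue_136
import Crest.Agent.R143.H2_355

/-!
# Row 143 (S0194), block H, H5 (Q), shadow (helper565): flip of the coins between two explorations

* `flf G b = b ∆ G b` : the coins of `G b` are flipped; `flf_inj`, `flf_bij`, `sum_flf` : this is a
  bijection of the colourings if `G b = R b ∩ A b`, `R`, `R₁` explorations, `A` decided by `R₁` and
  disjoint from `R₁` (special case `flr` : `G b = R b \ R₁ b`)
* `flf_dec` : functions decided by `R₁` do not change under the flip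
* `flip_pay` : decided or not, the values of joined chords of the flipped configuration are paid by
  the big closed blocks : `∑ b, Φ b ≤ ∑ b, ∑ β ∈ Big b, ‖∑_β φ‖²`
* `Qf`, `flipM` : quenched / annealed form (136's convention: `mq ≤ E`, `E` measurable, `∫ E → 0`)
-/

set_option autoImplicit false

noncomputable section

open scoped Classical

namespace Crest.Agent.R143.FlipQx565

open MeasureTheory Filter Topology
open Crest.Agent.R143.Harx315 Crest.Agent.R143.Histx389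
open Crest.Agent.R143.Frame1x395 Crest.Agent.R143.Frame2x395 Crest.Agent.R143.Frame3x395
  Crest.Agent.R143.Frame8x395 Crest.Agent.R143.Frame9x395 Crest.Agent.R143.Frame11x395
  Crest.Agent.R143.Chordx355 Crest.Agent.R143.ChordCx357 Crest.Agent.R143.Chord2x355
  Crest.Agent.R143.H2x355
open scoped ENNReal

section flip

variable {α : Type*} {V : Finset α} {R R₁ A G : Finset α → Finset α}

/-- the coins of `G b` are flipped -/
def flf (G : Finset α → Finset α) (b : Finset α) : Finset α := symmDiff b (G b)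

theorem mem_flf {b : Finset α} {y : α} : y ∈ flf G b ↔ ¬ (y ∈ b ↔ y ∈ G b) := by
  unfold flf
  rw [Finset.mem_symmDiff]
  tauto

theorem flf_sub {b : Finset α} (hb : b ⊆ V) (hG : G b ⊆ V) : flf G b ⊆ V := by
  intro y hy
  rw [mem_flf] at hy
  by_contra hc
  exact hy ⟨fun h => absurd (hb h) hc, fun h => absurd (hG h) hc⟩

/-- the flip does not change the coins of `R₁` -/
theorem flf_inter {b : Finset α} (hd : Disjoint (G b) (R₁ b)) :
    flf G b ∩ R₁ b = b ∩ R₁ b := by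
  ext y
  rw [Finset.mem_inter, Finset.mem_inter, mem_flf]
  have h : y ∈ G b → y ∉ R₁ b := fun h => Finset.disjoint_left.1 hd h
  tauto

/-- the flip between the exploration `R₁` and the exploration `R` -/
structure FlG (V : Finset α) (R₁ R A : Finset α → Finset α) : Prop where
  s1 : IsStop V R₁
  s2 : IsStop V R
  dec : DecF V R₁ A
  disj : ∀ b, b ⊆ V → Disjoint (A b) (R₁ b)

/-- the flipped coins -/
def gf (R A : Finset α → Finset α) (b : Finset α) : Finset α := R b ∩ A b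

theorem FlG.sub (h : FlG V R₁ R A) {b : Finset α} (hb : b ⊆ V) : gf R A b ⊆ V :=
  Finset.inter_subset_left.trans (h.s2.sub b hb)

theorem FlG.dj (h : FlG V R₁ R A) {b : Finset α} (hb : b ⊆ V) : Disjoint (gf R A b) (R₁ b) :=
  (h.disj b hb).mono_left Finset.inter_subset_right

theorem FlG.maps (h : FlG V R₁ R A) {b : Finset α} (hb : b ⊆ V) : flf (gf R A) b ⊆ V :=
  flf_sub hb (h.sub hb)

/-- functions decided by `R₁` do not change -/
theorem FlG.keep (h : FlG V R₁ R A) {β : Type*} {F : Finset α → β} (hF : DecF V R₁ F)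
    {b : Finset α} (hb : b ⊆ V) : F (flf (gf R A) b) = F b :=
  (hF b _ hb (h.maps hb) (flf_inter (h.dj hb)).symm).symm

theorem FlG.keepR (h : FlG V R₁ R A) {b : Finset α} (hb : b ⊆ V) :
    R₁ (flf (gf R A) b) = R₁ b := h.keep (DecF.self h.s1) hb

theorem FlG.keepA (h : FlG V R₁ R A) {b : Finset α} (hb : b ⊆ V) :
    A (flf (gf R A) b) = A b := h.keep h.dec hb

/-- gluing of two colourings which agree where both are explored -/
theorem stop_glue (h : IsStop V R) {b b' : Finset α} (hb : b ⊆ V) (hb' : b' ⊆ V)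
    (e : ∀ y, y ∈ R b → y ∈ R b' → (y ∈ b ↔ y ∈ b')) : R b = R b' := by
  set d : Finset α := (b ∩ R b) ∪ (b' \ R b) with hd
  have hdV : d ⊆ V := Finset.union_subset (Finset.inter_subset_left.trans hb)
    (Finset.sdiff_subset.trans hb')
  have h1 : b ∩ R b = d ∩ R b := by
    ext y
    simp only [hd, Finset.mem_inter, Finset.mem_union, Finset.mem_sdiff]
    tauto
  have h2 : b' ∩ R b' = d ∩ R b' := by
    ext y
    simp only [hd, Finset.mem_inter, Finset.mem_union, Finset.mem_sdiff]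
    have := e y
    tauto
  exact (h.stop b d hb hdV h1).symm.trans (h.stop b' d hb' hdV h2)

/-- **the flip is injective** -/
theorem FlG.inj (h : FlG V R₁ R A) {b b' : Finset α} (hb : b ⊆ V) (hb' : b' ⊆ V)
    (e : flf (gf R A) b = flf (gf R A) b') : b = b' := by
  have hm : ∀ y, (¬ (y ∈ b ↔ y ∈ gf R A b)) ↔ ¬ (y ∈ b' ↔ y ∈ gf R A b') := by
    intro y
    rw [← mem_flf, ← mem_flf, e]
  have n1 : ∀ y, y ∈ R₁ b → y ∉ gf R A b := fun y hy hy' =>
    Finset.disjoint_left.1 (h.dj hb) hy' hy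
  have n2 : ∀ y, y ∈ R₁ b' → y ∉ gf R A b' := fun y hy hy' =>
    Finset.disjoint_left.1 (h.dj hb') hy' hy
  have e2 : R₁ b = R₁ b' := stop_glue h.s1 hb hb' fun y h1 h2 => by
    have := hm y; have := n1 y h1; have := n2 y h2
    tauto
  have e3 : A b = A b' := by
    refine h.dec b b' hb hb' ?_
    ext y
    rw [Finset.mem_inter, Finset.mem_inter]
    have h3 := hm y
    have h1 := n1 y
    have h2 := n2 y
    rw [← e2] at h2
    tauto
  have e4 : R b = R b' := stop_glue h.s2 hb hb' fun y h1 h2 => by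
    have h3 := hm y
    unfold gf at h3
    rw [Finset.mem_inter, Finset.mem_inter, e3] at h3
    tauto
  ext y
  have h3 := hm y
  unfold gf at h3
  rw [Finset.mem_inter, Finset.mem_inter, e3, e4] at h3
  tauto

theorem FlG.image (h : FlG V R₁ R A) :
    V.powerset.image (flf (gf R A)) = V.powerset := by
  refine Finset.eq_of_subset_of_card_le ?_ ?_
  · intro b hb
    obtain ⟨b', hb', rfl⟩ := Finset.mem_image.1 hb
    exact Finset.mem_powerset.2 (h.maps (Finset.mem_powerset.1 hb'))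
  · rw [Finset.card_image_of_injOn]
    intro b hb b' hb' e
    exact h.inj (Finset.mem_powerset.1 hb) (Finset.mem_powerset.1 hb') e

/-- **the flip preserves the uniform law** -/
theorem FlG.sum (h : FlG V R₁ R A) {E : Type*} [AddCommMonoid E] (H : Finset α → E) :
    ∑ b ∈ V.powerset, H (flf (gf R A) b) = ∑ b ∈ V.powerset, H b := by
  conv_rhs => rw [← h.image]
  rw [Finset.sum_image]
  intro b hb b' hb' e
  exact h.inj (Finset.mem_powerset.1 hb) (Finset.mem_powerset.1 hb') e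

/-- the coins revealed after `R₁` and not later than `R` -/
theorem flG_sdiff (h1 : IsStop V R₁) (h2 : IsStop V R) :
    FlG V R₁ R fun b => V \ R₁ b where
  s1 := h1
  s2 := h2
  dec := fun b b' hb hb' e => by
    show V \ R₁ b = V \ R₁ b'
    rw [h1.stop b b' hb hb' e]
  disj := fun b _ => Finset.sdiff_disjoint

end flip

/-! ### the chords of the flipped configuration -/

section pay

variable {α D C : Type} [Fintype D] {M : CMap D C} {V : Finset α} {χ : Finset α → C → ZMod 2}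
  {R R₁ A : Finset α → Finset α}

/-- energy of a block -/
def ec (φ : D → ℂ) (β : Finset D) : ℝ≥0∞ := ENNReal.ofReal (‖∑ h ∈ β, φ h‖ ^ 2)

/-- the configuration `x` has a finite family of joined chords (for some outer arc), all blocks in
`Big`, which pays `e` -/
def Paid (M : CMap D C) (x : D → ZMod 2) (φ : D → ℂ) (Big : Finset (Finset D)) (e : ℝ≥0∞) : Prop :=
  ∃ (p₀ : D) (m : ℕ) (Rv : Set C) (Γ : Finset (D × ℕ)), Oa M x p₀ m Rv ∧
    (∀ i ∈ Γ, Jc M x p₀ m Rv i.1 i.2 ∧ blk M x i.1 ∈ Big) ∧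
    e ≤ ∑ i ∈ Γ, ENNReal.ofReal (‖cv M x p₀ m φ i.1 i.2‖ ^ 2)

/-- one joined chord -/
theorem Paid.one {x : D → ZMod 2} {φ : D → ℂ} {Big : Finset (Finset D)} {e : ℝ≥0∞} {p₀ : D}
    {m : ℕ} {Rv : Set C} {k : D} {n : ℕ} (O : Oa M x p₀ m Rv) (J : Jc M x p₀ m Rv k n)
    (hB : blk M x k ∈ Big) (he : e ≤ ENNReal.ofReal (‖cv M x p₀ m φ k n‖ ^ 2)) :
    Paid M x φ Big e := by
  refine ⟨p₀, m, Rv, {(k, n)}, O, ?_, ?_⟩
  · intro i hi
    rw [Finset.mem_singleton] at hi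
    subst hi
    exact ⟨J, hB⟩
  · rw [Finset.sum_singleton]
    exact he

theorem Paid.le {x : D → ZMod 2} {φ : D → ℂ} {Big : Finset (Finset D)} {e : ℝ≥0∞}
    (h : Paid M x φ Big e) : e ≤ ∑ β ∈ Big, ec φ β := by
  obtain ⟨p₀, m, Rv, Γ, O, h1, h2⟩ := h
  refine h2.trans ?_
  have h3 := sum_joined' O Γ (fun i hi => (h1 i hi).1) φ Big fun i hi => (h1 i hi).2
  unfold ec
  rw [← ENNReal.ofReal_sum_of_nonneg fun i _ => by positivity,
    ← ENNReal.ofReal_sum_of_nonneg fun i _ => by positivity]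
  exact ENNReal.ofReal_le_ofReal h3

/-- **the chords of the flipped configuration are paid by the blocks of the plane net** -/
theorem flip_pay (h : FlG V R₁ R A) (φ : D → ℂ) (Big : (D → ZMod 2) → Finset (Finset D))
    {F : Finset α → ℝ≥0∞}
    (hF : ∀ b, b ⊆ V → F b ≠ 0 →
      Paid M (cfg M (χ (flf (gf R A) b))) φ (Big (cfg M (χ (flf (gf R A) b)))) (F b)) :
    ∑ b ∈ V.powerset, F b ≤
      ∑ b ∈ V.powerset, ∑ β ∈ Big (cfg M (χ b)), ec φ β := by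
  rw [← h.sum fun b => ∑ β ∈ Big (cfg M (χ b)), ec φ β]
  refine Finset.sum_le_sum fun b hb => ?_
  by_cases h0 : F b = 0
  · rw [h0]; exact zero_le
  · exact (hF b (Finset.mem_powerset.1 hb) h0).le

end pay

/-! ### the quenched and the annealed form -/

open Crest.ProbabilityR.Voronoi
open Crest.Agent.R143.B0x346 Crest.Agent.R143.SumScx302 Crest.Agent.R143.Mass1x302
  Crest.Agent.R143.Mass2x302 Crest.Agent.R143.Mass3x302 Crest.Agent.R143.Mass4x302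
  Crest.Agent.R143.Mass5x302 Crest.Agent.R143.HGluex136
open Crest.Agent.R143.PP0x831 Crest.Agent.R143.DelGx806 Crest.Agent.R143.DelRx806
  Crest.Agent.R143.JColx54 Crest.Agent.R143.FinCx811 Crest.Agent.R143.SmallAx304
  Crest.Agent.R143.Dblx609 Crest.Agent.R143.Dbl2x609 Crest.Agent.R143.MassPx304
  Crest.Agent.R143.Frame10x395

/-- the quenched hypothesis at the set `A` of the points in the box: where `Φ` does not vanish it is
at most the sum of the squared values of joined chords of the *flipped* configuration -/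
def Qf (k : ℝ) (U P : Set ℂ) (A : Finset ℂ) (Φ : Set (ℂ × Bool) → ℝ≥0∞) : Prop :=
  (∀ β ∈ A.powerset, Φ (paint A β) = 0) ∨
  ∃ (hS : GP (A : Set ℂ)) (h3 : 3 ≤ A.card), (∀ v ∈ A, v ∈ U → ¬ OnHull A v) ∧
    ∃ (e0 : D0 A) (a : D0 A → ℂ),
      (∀ t : T3, Fc P U t.1 t.2.1 t.2.2 → a (gd (dl e0) t) = Nn t) ∧
    ∃ R₁ R Ar : Finset ℂ → Finset ℂ, FlG A R₁ R Ar ∧
      ∀ β ∈ A.powerset, Φ (paint A β) ≠ 0 →
        Paid (rc0 hS) (cfg (rc0 hS) (chiS hS h3 (flf (gf R Ar) β))) a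
          (bigB P U (rc0 hS) (dl e0) k (cfg (rc0 hS) (chiS hS h3 (flf (gf R Ar) β))))
          (Φ (paint A β))

/-- **H5 (Q), quenched form.** `E ε` is measurable, `∫ E ε → 0`, and depends only on `k` and `U` -/
theorem flipM {k : ℝ} (hk : 0 < k) {U : Set ℂ} (hU : Bornology.IsBounded U) :
    ∃ E : ℝ → Sample → ℝ≥0∞, (∀ ε, 0 < ε → Measurable (E ε)) ∧
      Tendsto (fun ε : ℝ => ∫⁻ ω, E ε ω ∂sampleLaw) (𝓝[>] 0) (𝓝 0) ∧
      ∀ ε : ℝ, 0 < ε → ∀ B : Set ℂ, Bornology.IsBounded B → U ⊆ B →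
      ∀ Φ : Set (ℂ × Bool) → ℝ≥0∞, (∀ᵐ ω ∂sampleLaw, Qf k U (points ε ω) (Ap ε B ω) Φ) →
        ∀ᵐ ω ∂sampleLaw, mq ε B Φ ω ≤ E ε ω := by
  obtain ⟨E, h1, h2, -, h4⟩ := sum_rule_meas hk hU
  refine ⟨E, h1, h2, ?_⟩
  intro ε hε B hB hUB Φ hQ
  have hGP : ∀ᵐ ω ∂sampleLaw, GP (points ε ω) := by
    filter_upwards [PoisM3x930.m3a ε hε] with ω h using h.1
  filter_upwards [hGP, hQ] with ω hP hq
  have hA := coe_Ap hε hB ω
  have hPS : ∀ z ∈ U, z ∈ points ε ω ↔ z ∈ ((Ap ε B ω : Finset ℂ) : Set ℂ) := by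
    intro z hz
    rw [hA]
    exact ⟨fun h => ⟨h, hUB hz⟩, fun h => h.1⟩
  unfold mq
  rcases hq with hq | ⟨hS, h3, hin, e0, a, ha, R₁, R, Ar, hF, hst⟩
  · rw [Finset.sum_eq_zero fun β hβ => hq β hβ, mul_zero]
    exact zero_le
  · have A := agr_restr (agr0 hP hS hPS hin e0) e0
    have h5 := h4 ε ω (D0 (Ap ε B ω)) (Cs hS) (rc0 hS) (dl e0) _ A a ha
    refine le_trans (mul_le_mul_right ?_ _) (real_le hS h3 h5)
    exact flip_pay hF a (fun x => bigB (points ε ω) U (rc0 hS) (dl e0) k x)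
      fun b hb h0 => hst b (Finset.mem_powerset.2 hb) h0

/-- **H5 (Q), annealed form** -/
theorem flipA {k : ℝ} (hk : 0 < k) {U : Set ℂ} (hU : Bornology.IsBounded U) :
    ∃ e : ℝ → ℝ≥0∞, Tendsto e (𝓝[>] 0) (𝓝 0) ∧
      ∀ ε : ℝ, 0 < ε → ∀ B : Set ℂ, Bornology.IsBounded B → U ⊆ B →
      ∀ Φ : Set (ℂ × Bool) → ℝ≥0∞, (∀ᵐ ω ∂sampleLaw, Qf k U (points ε ω) (Ap ε B ω) Φ) →
        ∫⁻ ω, Φ (PP0x831.cfg ε ω ∩ ovM Bool B) ∂sampleLaw ≤ e ε := by
  obtain ⟨E, -, h2, h3⟩ := flipM hk hU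
  exact ⟨_, h2, fun ε hε B hB hUB Φ hQ => lint_le_mq hε hB (h3 ε hε B hB hUB Φ hQ)⟩

/-! ### first moments -/

/-- Cauchy–Schwarz for the quenched means -/
theorem mq_cs (ε : ℝ) (B : Set ℂ) (Φ Ψ : Set (ℂ × Bool) → ℝ≥0∞) (ω : Sample) :
    mq ε B (fun X => Φ X * Ψ X) ω ≤
      mq ε B (fun X => Φ X ^ 2) ω ^ (1 / 2 : ℝ) * mq ε B (fun X => Ψ X ^ 2) ω ^ (1 / 2 : ℝ) := by
  unfold mq
  set c : ℝ≥0∞ := ((2 : ℝ≥0∞) ^ (Ap ε B ω).card)⁻¹ with hc
  have h := ENNReal.inner_le_Lp_mul_Lq (Ap ε B ω).powerset (fun β => Φ (paint (Ap ε B ω) β))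
    (fun β => Ψ (paint (Ap ε B ω) β)) Real.HolderConjugate.two_two
  have e : ∀ y : ℝ≥0∞, y ^ (2 : ℝ) = y ^ 2 := fun y => by
    rw [← ENNReal.rpow_natCast]; norm_num
  simp only [e] at h
  rw [ENNReal.mul_rpow_of_nonneg _ _ (by norm_num : (0 : ℝ) ≤ 1 / 2),
    ENNReal.mul_rpow_of_nonneg _ _ (by norm_num : (0 : ℝ) ≤ 1 / 2)]
  have e2 : c ^ (1 / 2 : ℝ) * c ^ (1 / 2 : ℝ) = c := by
    rw [← ENNReal.rpow_add_of_nonneg _ _ (by norm_num) (by norm_num)]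
    norm_num
  calc c * ∑ β ∈ (Ap ε B ω).powerset, Φ (paint (Ap ε B ω) β) * Ψ (paint (Ap ε B ω) β)
      ≤ c * ((∑ β ∈ (Ap ε B ω).powerset, Φ (paint (Ap ε B ω) β) ^ 2) ^ (1 / 2 : ℝ) *
          (∑ β ∈ (Ap ε B ω).powerset, Ψ (paint (Ap ε B ω) β) ^ 2) ^ (1 / 2 : ℝ)) := by gcongr
    _ = (c ^ (1 / 2 : ℝ) * c ^ (1 / 2 : ℝ)) *
          ((∑ β ∈ (Ap ε B ω).powerset, Φ (paint (Ap ε B ω) β) ^ 2) ^ (1 / 2 : ℝ) *
          (∑ β ∈ (Ap ε B ω).powerset, Ψ (paint (Ap ε B ω) β) ^ 2) ^ (1 / 2 : ℝ)) := by rw [e2]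
    _ = _ := by ring

theorem mq_one_le (ε : ℝ) (B : Set ℂ) {g : Set (ℂ × Bool) → ℝ≥0∞} (hg : ∀ X, g X ≤ 1)
    (ω : Sample) : mq ε B g ω ≤ 1 := by
  unfold mq
  calc ((2 : ℝ≥0∞) ^ (Ap ε B ω).card)⁻¹ * ∑ β ∈ (Ap ε B ω).powerset, g (paint (Ap ε B ω) β)
      ≤ ((2 : ℝ≥0∞) ^ (Ap ε B ω).card)⁻¹ * ∑ _β ∈ (Ap ε B ω).powerset, 1 := by
        gcongr with β hβ; exact hg _
    _ = 1 := by
        rw [Finset.sum_const, Finset.card_powerset, nsmul_eq_mul, mul_one]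
        push_cast
        exact ENNReal.inv_mul_cancel (by positivity) (ENNReal.pow_ne_top (by norm_num))

/-- **Cauchy–Schwarz with a weight** : `E[g v] ≤ E[g]^(1/2) E[g v²]^(1/2)` -/
theorem mq_csw (ε : ℝ) (B : Set ℂ) (g v : Set (ℂ × Bool) → ℝ≥0∞) (ω : Sample) :
    mq ε B (fun X => g X * v X) ω ≤
      mq ε B g ω ^ (1 / 2 : ℝ) * mq ε B (fun X => g X * v X ^ 2) ω ^ (1 / 2 : ℝ) := by
  have h := mq_cs ε B (fun X => g X ^ (1 / 2 : ℝ)) (fun X => g X ^ (1 / 2 : ℝ) * v X) ω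
  have e1 : ∀ X, g X ^ (1 / 2 : ℝ) * (g X ^ (1 / 2 : ℝ) * v X) = g X * v X := fun X => by
    rw [← mul_assoc, ← ENNReal.rpow_add_of_nonneg _ _ (by norm_num) (by norm_num)]
    norm_num
  have e2 : ∀ X, (g X ^ (1 / 2 : ℝ)) ^ 2 = g X := fun X => by
    rw [← ENNReal.rpow_natCast, ← ENNReal.rpow_mul]
    norm_num
  have e3 : ∀ X, (g X ^ (1 / 2 : ℝ) * v X) ^ 2 = g X * v X ^ 2 := fun X => by
    rw [mul_pow, e2]
  simp only [e1, e2, e3] at h
  exact h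

/-- **H5 (Q), first moment.** the same `E` bounds the first moment `mq (g * v) ≤ E^(1/2)`,
`∫ E^(1/2) → 0` -/
theorem flipL1 {k : ℝ} (hk : 0 < k) {U : Set ℂ} (hU : Bornology.IsBounded U) :
    ∃ E : ℝ → Sample → ℝ≥0∞, (∀ ε, 0 < ε → Measurable (E ε)) ∧
      Tendsto (fun ε : ℝ => ∫⁻ ω, E ε ω ∂sampleLaw) (𝓝[>] 0) (𝓝 0) ∧
      Tendsto (fun ε : ℝ => ∫⁻ ω, E ε ω ^ (1 / 2 : ℝ) ∂sampleLaw) (𝓝[>] 0) (𝓝 0) ∧
      ∀ ε : ℝ, 0 < ε → ∀ B : Set ℂ, Bornology.IsBounded B → U ⊆ B →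
      ∀ g v : Set (ℂ × Bool) → ℝ≥0∞, (∀ X, g X ≤ 1) →
        (∀ᵐ ω ∂sampleLaw, Qf k U (points ε ω) (Ap ε B ω) fun X => g X * v X ^ 2) →
        ∀ᵐ ω ∂sampleLaw, mq ε B (fun X => g X * v X ^ 2) ω ≤ E ε ω ∧
          mq ε B (fun X => g X * v X) ω ≤ E ε ω ^ (1 / 2 : ℝ) := by
  obtain ⟨E, h1, h2, h3⟩ := flipM hk hU
  refine ⟨E, h1, h2, MassQx304.sqrt_tendsto h1 h2, ?_⟩
  intro ε hε B hB hUB g v hg hQ
  filter_upwards [h3 ε hε B hB hUB _ hQ] with ω h4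
  refine ⟨h4, (mq_csw ε B g v ω).trans ?_⟩
  calc mq ε B g ω ^ (1 / 2 : ℝ) * mq ε B (fun X => g X * v X ^ 2) ω ^ (1 / 2 : ℝ)
      ≤ 1 ^ (1 / 2 : ℝ) * E ε ω ^ (1 / 2 : ℝ) := by
        gcongr
        exact mq_one_le ε B hg ω
    _ = _ := by rw [ENNReal.one_rpow, one_mul]

/-- **annealed first moment** -/
theorem flipA1 {k : ℝ} (hk : 0 < k) {U : Set ℂ} (hU : Bornology.IsBounded U) :
    ∃ e : ℝ → ℝ≥0∞, Tendsto e (𝓝[>] 0) (𝓝 0) ∧
      ∀ ε : ℝ, 0 < ε → ∀ B : Set ℂ, Bornology.IsBounded B → U ⊆ B →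
      ∀ g v : Set (ℂ × Bool) → ℝ≥0∞, (∀ X, g X ≤ 1) →
        (∀ᵐ ω ∂sampleLaw, Qf k U (points ε ω) (Ap ε B ω) fun X => g X * v X ^ 2) →
        ∫⁻ ω, g (PP0x831.cfg ε ω ∩ ovM Bool B) * v (PP0x831.cfg ε ω ∩ ovM Bool B) ∂sampleLaw ≤
          e ε := by
  obtain ⟨E, -, -, h2, h3⟩ := flipL1 hk hU
  exact ⟨_, h2, fun ε hε B hB hUB g v hg hQ =>
    lint_le_mq (Φ := fun X => g X * v X) hε hB (by
      filter_upwards [h3 ε hε B hB hUB g v hg hQ] with ω h using h.2)⟩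

end Crest.Agent.R143.FlipQx565
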