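import Crest.Agent.R143.Hq_304
import Crest.Agent.R143.RingL_239

/-!
# Row 143 (S0194), block H, H5, box (F) of note 4110, annealed half (helper253)

The energy of the field near a corridor / in the inside of a ring under the weight `g`.

* `en_tile` : `E[g Hd(D_l)] ≤ (C₀ s² / m0) E g` for one window of 304's `Wnd` (176's `tile` with
  `X = Hd`); boxes far from all gates and tubes are windows with `I₁ = ∅`, `J₁ = ∅`, `m0 ≤ 1`
* `en_sum` : `E[g ∑_{l < n} Hd(D_l)] ≤ n (C₀ s² / m0) E g`, and the real form `en_int`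
* `Hd_cover` : `Hd D d X ≤ ∑_l Hd (D l) d X` if `D ⊆ ⋃_l D l`, `X` finite
* `en_cover` : `E[g Hd(D)] ≤ n (C₀ s² / m0) E g` if `D` is covered by the boxes
-/

set_option autoImplicit false

noncomputable section

namespace Crest.Agent.R143.FrEnx253

open MeasureTheory Set Filter Topology
open Crest.ProbabilityR.Voronoi
open Crest.Agent.R143.PP0x831 Crest.Agent.R143.Poisx304 Crest.Agent.R143.Janx304
open Crest.Agent.R143.Prodx609 Crest.Agent.R143.ColSumx304 Crest.Agent.R143.Lawx831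
open Crest.Agent.R143.Dblx609 Crest.Agent.R143.Dbl2x609
open Crest.Agent.R143.B0x346
open Crest.Agent.R143.FinMx609 (rad3)
open Crest.Agent.R143.IndLocx279 Crest.Agent.R143.PWx978 Crest.Agent.R143.TilePx176
  Crest.Agent.R143.TileQx176 Crest.Agent.R143.TileRx176 Crest.Agent.R143.Hqx304
open Crest.Agent.R143.RingLx239 (mass)
open Crest.Agent.R143.SumScx302 (sq)
open Crest.Agent.R143.Mass1x302 (T3)
open scoped ENNReal

attribute [local instance] probS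

/-! ### one window -/

/-- **the energy of one window under the weight** -/
theorem en_tile : ∃ C₀ : ℝ, 0 ≤ C₀ ∧ ∀ {ε d s : ℝ} {ι κ : Type} [DecidableEq ι] [DecidableEq κ]
    {M : Net ε ι κ} {I : Finset ι} {J : Finset κ} {n : ℕ} {I₁ : ℕ → Finset ι}
    {J₁ : ℕ → Finset κ} {D : ℕ → Set ℂ} {B : Set ℂ} {m0 : ℝ≥0∞},
    Wnd M I J n I₁ J₁ D d s B m0 → ∀ l < n,
    ∫⁻ ω, M.gw I J (cfg ε ω) * Hd (D l) d (cfg ε ω) ∂sampleLaw ≤
      ENNReal.ofReal (C₀ * s ^ 2 / m0.toReal) * mass M I J := by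
  obtain ⟨C, hC, ht⟩ := tile
  refine ⟨C.toReal, ENNReal.toReal_nonneg, ?_⟩
  intro ε d s ι κ _ _ M I J n I₁ J₁ D B m0 h l hl
  obtain ⟨z, W, w1, w2, w3, w4, w5⟩ := h.W l hl
  have q1 : ∫⁻ ω, M.gw (I \ I₁ l) (J \ J₁ l) (cfg ε ω) *
      (win M (I₁ l) (J₁ l) (cfg ε ω) * Hd (D l) d (cfg ε ω)) ∂sampleLaw ≤
      1 * ∫⁻ ω, M.gw (I \ I₁ l) (J \ J₁ l) (cfg ε ω) * Hd (D l) d (cfg ε ω) ∂sampleLaw := by
    rw [one_mul]
    refine lintegral_mono fun ω => ?_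
    dsimp only
    gcongr
    calc win M (I₁ l) (J₁ l) (cfg ε ω) * Hd (D l) d (cfg ε ω) ≤ 1 * Hd (D l) d (cfg ε ω) := by
          gcongr
          exact win_le_one M _
      _ = _ := one_mul _
  have e1 := ht M I (I₁ l) J (J₁ l) h.es (h.hI l hl) (h.hJ l hl) h.hN (h.hN₁ l hl) z (D l) W d
    (h.Dm l hl) w1 w3 w4 w5 (fun ω => Hd (D l) d (cfg ε ω)) 1 q1
  rw [one_mul] at e1
  have e2 : m0 * ∫⁻ ω, M.gw I J (cfg ε ω) * Hd (D l) d (cfg ε ω) ∂sampleLaw ≤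
      C * ENNReal.ofReal (s ^ 2) * mass M I J :=
    le_trans (by gcongr; exact h.mass l hl) e1
  have t0 := m0_ne_top h hl
  have hp : 0 < m0.toReal := ENNReal.toReal_pos h.pos t0
  have e3 : ENNReal.ofReal (C.toReal * s ^ 2 / m0.toReal) = m0⁻¹ * (C * ENNReal.ofReal (s ^ 2)) := by
    rw [ENNReal.ofReal_div_of_pos hp, ENNReal.ofReal_toReal t0,
      ENNReal.ofReal_mul ENNReal.toReal_nonneg, ENNReal.ofReal_toReal hC, ENNReal.div_eq_inv_mul]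
  rw [e3]
  calc ∫⁻ ω, M.gw I J (cfg ε ω) * Hd (D l) d (cfg ε ω) ∂sampleLaw
      = m0⁻¹ * (m0 * ∫⁻ ω, M.gw I J (cfg ε ω) * Hd (D l) d (cfg ε ω) ∂sampleLaw) := by
        rw [← mul_assoc, ENNReal.inv_mul_cancel h.pos t0, one_mul]
    _ ≤ m0⁻¹ * (C * ENNReal.ofReal (s ^ 2) * mass M I J) := by gcongr
    _ = _ := by ring

section many

variable {ε d s : ℝ} {ι κ : Type} [DecidableEq ι] [DecidableEq κ]
    {M : Net ε ι κ} {I : Finset ι} {J : Finset κ} {n : ℕ} {I₁ : ℕ → Finset ι}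
    {J₁ : ℕ → Finset κ} {D : ℕ → Set ℂ} {B : Set ℂ} {m0 : ℝ≥0∞}

theorem hd_meas (h : Wnd M I J n I₁ J₁ D d s B m0) {l : ℕ} (hl : l < n) :
    Measurable fun ω => Hd (D l) d (cfg ε ω) := by
  obtain ⟨z, W, w1, w2, w3, w4, w5⟩ := h.W l hl
  exact meas_fun M.eps w1 (h.Bb.subset w2) (Hd_local w4) (Hd_meas (h.Dm l hl) d)

theorem gw_meas' (h : Wnd M I J n I₁ J₁ D d s B m0) : Measurable fun ω => M.gw I J (cfg ε ω) :=
  meas_fun M.eps (M.reg_meas I J) (M.reg_bdd I J) (M.gw_local h.hN) (M.gw_meas I J)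

end many

/-- **the energy of all the windows** -/
theorem en_sum : ∃ C₀ : ℝ, 0 ≤ C₀ ∧ ∀ {ε d s : ℝ} {ι κ : Type} [DecidableEq ι] [DecidableEq κ]
    {M : Net ε ι κ} {I : Finset ι} {J : Finset κ} {n : ℕ} {I₁ : ℕ → Finset ι}
    {J₁ : ℕ → Finset κ} {D : ℕ → Set ℂ} {B : Set ℂ} {m0 : ℝ≥0∞},
    Wnd M I J n I₁ J₁ D d s B m0 →
    ∫⁻ ω, M.gw I J (cfg ε ω) * ∑ l ∈ Finset.range n, Hd (D l) d (cfg ε ω) ∂sampleLaw ≤
      ENNReal.ofReal (n * (C₀ * s ^ 2 / m0.toReal)) * mass M I J := by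
  obtain ⟨C₀, hC₀, ht⟩ := en_tile
  refine ⟨C₀, hC₀, ?_⟩
  intro ε d s ι κ _ _ M I J n I₁ J₁ D B m0 h
  simp_rw [Finset.mul_sum]
  rw [lintegral_finsetSum (f := fun l ω => M.gw I J (cfg ε ω) * Hd (D l) d (cfg ε ω)) _
    fun l hl => (gw_meas' h).mul (hd_meas h (Finset.mem_range.1 hl))]
  refine (Finset.sum_le_sum fun l hl => ht h l (Finset.mem_range.1 hl)).trans (le_of_eq ?_)
  rw [Finset.sum_const, Finset.card_range, nsmul_eq_mul, ← mul_assoc,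
    ENNReal.ofReal_mul (Nat.cast_nonneg _), ENNReal.ofReal_natCast]

/-! ### covers -/

open scoped Classical in
/-- the energy is subadditive in the region, finite configurations -/
theorem Hd_cover {D : Set ℂ} {n : ℕ} {D' : ℕ → Set ℂ} {d : ℝ} (h : D ⊆ ⋃ l ∈ Finset.range n, D' l)
    {X : Set (ℂ × Bool)} (hX : X.Finite) :
    Hd D d X ≤ ∑ l ∈ Finset.range n, Hd (D' l) d X := by
  have h1 : (FinMx609.ps X).Finite := hX.image _
  have hA : FinMx609.ps X = (h1.toFinset : Set ℂ) := by simp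
  rw [Hd_sum hA]
  simp_rw [fun l => Hd_sum (D := D' l) (d := d) hA]
  set A := h1.toFinset with hAA
  have h2 : ∀ t ∈ (A ×ˢ A ×ˢ A).filter fun t => Ht D d X t,
      ENNReal.ofReal (rad3 t ^ 2) ≤ ∑ l ∈ Finset.range n,
        (if Ht (D' l) d X t then ENNReal.ofReal (rad3 t ^ 2) else 0) := by
    intro t ht
    obtain ⟨-, h3, h4, h5⟩ := Finset.mem_filter.1 ht
    obtain ⟨l, hl, hl'⟩ := mem_iUnion₂.1 (h h4)
    have h6 : Ht (D' l) d X t := ⟨h3, hl', h5⟩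
    refine le_trans ?_ (Finset.single_le_sum (f := fun l =>
      (if Ht (D' l) d X t then ENNReal.ofReal (rad3 t ^ 2) else 0)) (fun _ _ => zero_le) hl)
    rw [if_pos h6]
  refine (Finset.sum_le_sum h2).trans ?_
  rw [Finset.sum_comm]
  refine Finset.sum_le_sum fun l _ => ?_
  rw [← Finset.sum_filter, Finset.filter_filter]
  refine Finset.sum_le_sum_of_subset ?_
  intro t ht
  obtain ⟨h3, -, h4⟩ := Finset.mem_filter.1 ht
  exact Finset.mem_filter.2 ⟨h3, h4⟩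

/-- **the energy of a covered region under the weight** -/
theorem en_cover : ∃ C₀ : ℝ, 0 ≤ C₀ ∧ ∀ {ε d s : ℝ} {ι κ : Type} [DecidableEq ι] [DecidableEq κ]
    {M : Net ε ι κ} {I : Finset ι} {J : Finset κ} {n : ℕ} {I₁ : ℕ → Finset ι}
    {J₁ : ℕ → Finset κ} {D : ℕ → Set ℂ} {B : Set ℂ} {m0 : ℝ≥0∞},
    Wnd M I J n I₁ J₁ D d s B m0 → ∀ (D₀ : Set ℂ), D₀ ⊆ (⋃ l ∈ Finset.range n, D l) →
    ∫⁻ ω, M.gw I J (cfg ε ω) * Hd D₀ d (cfg ε ω) ∂sampleLaw ≤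
      ENNReal.ofReal (n * (C₀ * s ^ 2 / m0.toReal)) * mass M I J := by
  obtain ⟨C₀, hC₀, ht⟩ := en_sum
  refine ⟨C₀, hC₀, ?_⟩
  intro ε d s ι κ _ _ M I J n I₁ J₁ D B m0 h D₀ hD
  refine le_trans (lintegral_mono fun ω => ?_) (ht h)
  dsimp only
  gcongr
  have hl : ∀ l ∈ Finset.range n, ∀ o ∈ D l, Metric.closedBall o d ⊆ B := by
    intro l hl o ho
    obtain ⟨z, W, w1, w2, w3, w4, w5⟩ := h.W l (Finset.mem_range.1 hl)
    exact (w4 o ho).trans w2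
  have h0 : ∀ o ∈ D₀, Metric.closedBall o d ⊆ B := by
    intro o ho
    obtain ⟨l, hl', ho'⟩ := mem_iUnion₂.1 (hD ho)
    exact hl l hl' o ho'
  have e0 : Hd D₀ d (cfg ε ω) = Hd D₀ d (cfg ε ω ∩ ovr B) := Hd_local h0 (cfg ε ω)
  have e1 : ∀ l ∈ Finset.range n, Hd (D l) d (cfg ε ω) = Hd (D l) d (cfg ε ω ∩ ovr B) :=
    fun l hl' => Hd_local (hl l hl') (cfg ε ω)
  rw [e0, Finset.sum_congr rfl e1]
  exact Hd_cover hD (cfg_finite M.eps h.Bb ω)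

/-- real form -/
theorem en_int : ∃ C₀ : ℝ, 0 ≤ C₀ ∧ ∀ {ε d s : ℝ} {ι κ : Type} [DecidableEq ι] [DecidableEq κ]
    {M : Net ε ι κ} {I : Finset ι} {J : Finset κ} {n : ℕ} {I₁ : ℕ → Finset ι}
    {J₁ : ℕ → Finset κ} {D : ℕ → Set ℂ} {B : Set ℂ} {m0 : ℝ≥0∞},
    Wnd M I J n I₁ J₁ D d s B m0 → ∀ (D₀ : Set ℂ), MeasurableSet D₀ →
    D₀ ⊆ (⋃ l ∈ Finset.range n, D l) →
    Integrable (fun ω => (M.gw I J (cfg ε ω)).toReal * (Hd D₀ d (cfg ε ω)).toReal) sampleLaw ∧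
    ∫ ω, (M.gw I J (cfg ε ω)).toReal * (Hd D₀ d (cfg ε ω)).toReal ∂sampleLaw ≤
      n * (C₀ * s ^ 2 / m0.toReal) * (mass M I J).toReal := by
  obtain ⟨C₀, hC₀, ht⟩ := en_cover
  refine ⟨C₀, hC₀, ?_⟩
  intro ε d s ι κ _ _ M I J n I₁ J₁ D B m0 h D₀ hDm hD
  have h1 := ht h D₀ hD
  have h0 : ∀ o ∈ D₀, Metric.closedBall o d ⊆ B := by
    intro o ho
    obtain ⟨l, hl', ho'⟩ := mem_iUnion₂.1 (hD ho)
    obtain ⟨z, W, w1, w2, w3, w4, w5⟩ := h.W l (Finset.mem_range.1 hl')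
    exact (w4 o ho').trans w2
  have mH : Measurable fun ω => Hd D₀ d (cfg ε ω) :=
    meas_fun M.eps h.Bm h.Bb (Hd_local h0) (Hd_meas hDm d)
  have mm : Measurable fun ω => M.gw I J (cfg ε ω) * Hd D₀ d (cfg ε ω) := (gw_meas' h).mul mH
  have t1 : ENNReal.ofReal (n * (C₀ * s ^ 2 / m0.toReal)) * mass M I J ≠ ∞ :=
    ENNReal.mul_ne_top ENNReal.ofReal_ne_top (gw_lint_ne_top h)
  have t2 : ∫⁻ ω, M.gw I J (cfg ε ω) * Hd D₀ d (cfg ε ω) ∂sampleLaw ≠ ∞ :=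
    ne_top_of_le_ne_top t1 h1
  have e3 : (fun ω => (M.gw I J (cfg ε ω)).toReal * (Hd D₀ d (cfg ε ω)).toReal) = fun ω =>
      (M.gw I J (cfg ε ω) * Hd D₀ d (cfg ε ω)).toReal := by
    funext ω
    rw [ENNReal.toReal_mul]
  rw [e3]
  refine ⟨integrable_toReal_of_lintegral_ne_top mm.aemeasurable t2, ?_⟩
  rw [integral_toReal mm.aemeasurable (ae_lt_top' mm.aemeasurable t2)]
  have e4 := ENNReal.toReal_mono t1 h1
  rw [ENNReal.toReal_mul, ENNReal.toReal_ofReal (by positivity)] at e4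
  exact e4

end Crest.Agent.R143.FrEnx253
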