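import Crest.Agent.R143.Frame8_395

/-!
# Row 143 (S0194): conditional frame with prescribed colours of finitely many cells (helper46)

(858 in note 3240, after 983 (6); the cells `c ∈ A` are the giants of an explored net.)

* `sum_nG_le` : `∑ g, ‖a g‖² nG g ≤ nE / 4 * ∑ g, ‖a g‖²` for spin functions (sum over darts:
  every face is counted three times)
* `frame_avg` : `∑ χ, ∑ β, ‖∑ g ∈ β, a g‖² ≤ #χ / 4 * ∑ g, ‖a g‖²`
* `card_pre` : number of colourings with prescribed colours on `A`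
* `giants` : **conditional frame**: the average over the colourings with prescribed colours on `A`
  is at most `2 ^ #A / 4 * ∑ g, ‖a g‖²`
* `giants_sub` : the same for any subset of these colourings (no division)
-/

set_option autoImplicit false

noncomputable section

open scoped Classical

namespace Crest.Agent.R143.Giantx46

open Crest.Agent.R143.Frame1x395 Crest.Agent.R143.Frame2x395 Crest.Agent.R143.Frame3x395
  Crest.Agent.R143.Frame4x395 Crest.Agent.R143.Frame8x395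

variable {D C : Type} [Fintype D] {M : CMap D C}

theorem nG3_le (g : D) :
    ((nG M g : ℝ) + nG M (M.rho g) + nG M (M.rho (M.rho g))) ≤ 3 / 4 * nE M := by
  have h1 := nG_le (M := M) g
  have h2 := nG_le (M := M) (M.rho g)
  have h3 := nG_le (M := M) (M.rho (M.rho g))
  rw [nZ_rot] at h2 h3
  rw [nZ_rot] at h3
  have h4 := nE_eq (M := M) g
  have h5 : 4 * (nG M g + nG M (M.rho g) + nG M (M.rho (M.rho g))) ≤ 3 * nE M := by omega
  have h6 : (4 : ℝ) * ((nG M g + nG M (M.rho g) + nG M (M.rho (M.rho g)) : ℕ) : ℝ) ≤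
      3 * nE M := by exact_mod_cast h5
  push_cast at h6
  linarith

theorem sum_nG_le {w : ℂ} (w3 : w ^ 3 = 1) {a : D → ℂ} (ha : Spin M w a) :
    ∑ g, ‖a g‖ ^ 2 * (nG M g : ℝ) ≤ nE M / 4 * ∑ g, ‖a g‖ ^ 2 := by
  have hw : ‖w‖ = 1 := by
    have : ‖w‖ ^ 3 = 1 := by rw [← norm_pow, w3, norm_one]
    exact (pow_eq_one_iff_of_nonneg (norm_nonneg _) (by norm_num)).1 this
  have hr : ∀ g, ‖a (M.rho g)‖ = ‖a g‖ := fun g => by rw [ha g, norm_mul, hw, one_mul]
  have e1 : ∑ g, ‖a g‖ ^ 2 * (nG M g : ℝ) = ∑ g, ‖a g‖ ^ 2 * (nG M (M.rho g) : ℝ) := by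
    rw [← Equiv.sum_comp (rhoE M) (fun g => ‖a g‖ ^ 2 * (nG M g : ℝ))]
    refine Finset.sum_congr rfl fun g _ => ?_
    show ‖a (M.rho g)‖ ^ 2 * (nG M (M.rho g) : ℝ) = _
    rw [hr]
  have e2 : ∑ g, ‖a g‖ ^ 2 * (nG M g : ℝ) =
      ∑ g, ‖a g‖ ^ 2 * (nG M (M.rho (M.rho g)) : ℝ) := by
    rw [e1, ← Equiv.sum_comp (rhoE M) (fun g => ‖a g‖ ^ 2 * (nG M (M.rho g) : ℝ))]
    refine Finset.sum_congr rfl fun g _ => ?_
    show ‖a (M.rho g)‖ ^ 2 * (nG M (M.rho (M.rho g)) : ℝ) = _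
    rw [hr]
  have e3 : 3 * ∑ g, ‖a g‖ ^ 2 * (nG M g : ℝ) = ∑ g, ‖a g‖ ^ 2 *
      ((nG M g : ℝ) + nG M (M.rho g) + nG M (M.rho (M.rho g))) := by
    have : ∑ g, ‖a g‖ ^ 2 * ((nG M g : ℝ) + nG M (M.rho g) + nG M (M.rho (M.rho g))) =
        ∑ g, ‖a g‖ ^ 2 * (nG M g : ℝ) + ∑ g, ‖a g‖ ^ 2 * (nG M (M.rho g) : ℝ) +
          ∑ g, ‖a g‖ ^ 2 * (nG M (M.rho (M.rho g)) : ℝ) := by
      rw [← Finset.sum_add_distrib, ← Finset.sum_add_distrib]
      exact Finset.sum_congr rfl fun g _ => by ring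
    rw [this, ← e1, ← e2]
    ring
  have e4 : ∑ g, ‖a g‖ ^ 2 * ((nG M g : ℝ) + nG M (M.rho g) + nG M (M.rho (M.rho g))) ≤
      ∑ g, ‖a g‖ ^ 2 * (3 / 4 * nE M) :=
    Finset.sum_le_sum fun g _ => mul_le_mul_of_nonneg_left (nG3_le g) (by positivity)
  rw [← Finset.sum_mul] at e4
  nlinarith [e3, e4]

variable [Fintype C]

theorem nK_nE : (nK M : ℝ) * nE M = (Fintype.card (C → ZMod 2) : ℝ) := by
  have h := sum_cfg (M := M) (A := ℝ) (fun _ => 1)
  rw [Finset.sum_const, Finset.sum_const, Finset.card_univ] at h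
  simp only [nsmul_eq_mul, mul_one] at h
  rw [h]
  rfl

/-- **frame, colourings** -/
theorem frame_avg {w : ℂ} (w3 : w ^ 3 = 1) (w1 : w ≠ 1) (wc : (starRingEnd ℂ) w = w ^ 2)
    {a : D → ℂ} (ha : Spin M w a) :
    ∑ χ : C → ZMod 2, ∑ β ∈ blks M (cfg M χ), ‖∑ g ∈ β, a g‖ ^ 2 ≤
      (Fintype.card (C → ZMod 2) : ℝ) / 4 * ∑ g, ‖a g‖ ^ 2 := by
  have h := sum_cfg (M := M) (A := ℝ) (fun x => ∑ β ∈ blks M x, ‖∑ g ∈ β, a g‖ ^ 2)
  rw [h, i1_norm w3 w1 wc ha, nsmul_eq_mul]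
  calc (nK M : ℝ) * ∑ g, ‖a g‖ ^ 2 * (nG M g : ℝ)
      ≤ (nK M : ℝ) * (nE M / 4 * ∑ g, ‖a g‖ ^ 2) :=
        mul_le_mul_of_nonneg_left (sum_nG_le w3 ha) (Nat.cast_nonneg _)
    _ = ((nK M : ℝ) * nE M) / 4 * ∑ g, ‖a g‖ ^ 2 := by ring
    _ = _ := by rw [nK_nE]

/-- colourings with prescribed colours on `A` -/
def pre (A : Finset C) (v : C → ZMod 2) : Finset (C → ZMod 2) :=
  Finset.univ.filter fun χ => ∀ c ∈ A, χ c = v c

theorem card_pre (A : Finset C) (v : C → ZMod 2) :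
    2 ^ A.card * (pre A v).card = Fintype.card (C → ZMod 2) := by
  have e : pre A v = Fintype.piFinset fun c => if c ∈ A then {v c} else Finset.univ := by
    ext χ
    unfold pre
    rw [Finset.mem_filter, Fintype.mem_piFinset]
    constructor
    · rintro ⟨-, h⟩ c
      by_cases hc : c ∈ A
      · rw [if_pos hc, Finset.mem_singleton]; exact h c hc
      · rw [if_neg hc]; exact Finset.mem_univ _
    · intro h
      refine ⟨Finset.mem_univ _, fun c hc => ?_⟩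
      have := h c
      rw [if_pos hc, Finset.mem_singleton] at this
      exact this
  rw [e, Fintype.card_piFinset]
  have e2 : ∀ c : C, (if c ∈ A then ({v c} : Finset (ZMod 2)) else Finset.univ).card =
      if c ∈ A then 1 else 2 := by
    intro c
    by_cases hc : c ∈ A
    · rw [if_pos hc, if_pos hc]; rfl
    · rw [if_neg hc, if_neg hc]; rfl
  rw [Finset.prod_congr rfl fun c _ => e2 c]
  have e3 : (2 : ℕ) ^ A.card = ∏ c : C, if c ∈ A then 2 else 1 := by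
    rw [Finset.prod_ite_mem, Finset.univ_inter, Finset.prod_const]
  rw [e3, ← Finset.prod_mul_distrib]
  have e4 : ∀ c : C, ((if c ∈ A then 2 else 1) * (if c ∈ A then 1 else 2) : ℕ) = 2 := by
    intro c
    by_cases hc : c ∈ A
    · rw [if_pos hc, if_pos hc]
    · rw [if_neg hc, if_neg hc]
  rw [Finset.prod_congr rfl fun c _ => e4 c, Finset.prod_const, Finset.card_univ,
    Fintype.card_fun, ZMod.card]

/-- **conditional frame, any set of colourings with prescribed colours on `A`** -/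
theorem giants_sub {w : ℂ} (w3 : w ^ 3 = 1) (w1 : w ≠ 1) (wc : (starRingEnd ℂ) w = w ^ 2)
    {a : D → ℂ} (ha : Spin M w a) (A : Finset C) (v : C → ZMod 2) {S : Finset (C → ZMod 2)}
    (_hS : S ⊆ pre A v) :
    ∑ χ ∈ S, ∑ β ∈ blks M (cfg M χ), ‖∑ g ∈ β, a g‖ ^ 2 ≤
      (2 : ℝ) ^ A.card / 4 * (pre A v).card * ∑ g, ‖a g‖ ^ 2 := by
  refine (Finset.sum_le_sum_of_subset_of_nonneg (Finset.subset_univ S) fun χ _ _ =>
    Finset.sum_nonneg fun β _ => by positivity).trans ?_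
  refine (frame_avg w3 w1 wc ha).trans (le_of_eq ?_)
  have h : (Fintype.card (C → ZMod 2) : ℝ) = 2 ^ A.card * (pre A v).card := by
    rw [← card_pre A v]; push_cast; ring
  rw [h]
  ring

/-- **conditional frame**: average over the colourings with prescribed colours on `A` -/
theorem giants {w : ℂ} (w3 : w ^ 3 = 1) (w1 : w ≠ 1) (wc : (starRingEnd ℂ) w = w ^ 2)
    {a : D → ℂ} (ha : Spin M w a) (A : Finset C) (v : C → ZMod 2) :
    (∑ χ ∈ pre A v, ∑ β ∈ blks M (cfg M χ), ‖∑ g ∈ β, a g‖ ^ 2) / (pre A v).card ≤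
      (2 : ℝ) ^ A.card / 4 * ∑ g, ‖a g‖ ^ 2 := by
  have h0 : (0 : ℝ) < (pre A v).card := by
    have h1 := card_pre A v
    have h2 : 0 < Fintype.card (C → ZMod 2) := Fintype.card_pos
    have h3 : 0 < (pre A v).card := by
      rcases Nat.eq_zero_or_pos (pre A v).card with h | h
      · rw [h, mul_zero] at h1; omega
      · exact h
    exact_mod_cast h3
  rw [div_le_iff₀ h0]
  refine (giants_sub w3 w1 wc ha A v subset_rfl).trans (le_of_eq (by ring))

end Crest.Agent.R143.Giantx46
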