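import Crest.Agent.R143.C2SB_395
import Crest.Agent.R143.Giant_46

/-!
# Row 143 (S0194), block H, H5, box (F) of note 4110 (helper253): frame of the static net

Language of `C2SBx395`: `M : CMap D C`, giants `A 0, A 1, A 2` (`Gi`), `π` their contraction (`Cq`),
`g` the root gap (`Root`), colours `χ₀` of the giants at the root (`Rc`), `Pin A χ₀ χ` = `χ` is a
colouring of the free cells, `N0 A` = number of these colourings.

* `pin_card` : `8 * N0 A = #colourings of the coarse map`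
* `pin_frame` : **mean over the free colours of the sum over ALL coarse blocks of `‖∑_β a‖²` is at
  most `2 ∑ ‖a‖²`**
* `cutF g a` : the field `a` off the face of `g`; `sum_erase`
* `root_frame` : **the same for the root block without the root face**: `E_in |V(γ)|² ≤ 2 ∑ ‖a‖²`, sum
  over the faces different from the root face; `root_frame'`
* `root_frameR` : the field `a 1_R`: `E_in |V(γ 1_R)|² ≤ 2 ∑_R ‖a‖²`
* `root_cs` : on a set `B` of colourings (marks): `(∑_B ‖V(γ)‖)² ≤ #B * 2 N0 ∑ ‖a‖²`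
* `root_one` : first moment: `(E_in ‖V(γ)‖)² ≤ 2 ∑ ‖a‖²`
-/

set_option autoImplicit false
set_option linter.unusedSectionVars false

noncomputable section

open scoped Classical

namespace Crest.Agent.R143.FrStx253

open Crest.Agent.R143.Frame1x395 Crest.Agent.R143.Frame2x395 Crest.Agent.R143.Frame3x395
  Crest.Agent.R143.Frame4x395 Crest.Agent.R143.Frame8x395 Crest.Agent.R143.Frame9x395
  Crest.Agent.R143.NonXx592 Crest.Agent.R143.Coarsex166 Crest.Agent.R143.Coarse2x166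
  Crest.Agent.R143.C2Sx395 Crest.Agent.R143.K33x137 Crest.Agent.R143.C2SBx395
  Crest.Agent.R143.Giantx46

section field

variable {D C : Type} {M : CMap D C}

/-- the face of `g` -/
def Fc (M : CMap D C) (g h : D) : Prop := h = g ∨ h = M.rho g ∨ h = M.rho (M.rho g)

theorem fc_rho {g h : D} : Fc M g (M.rho h) ↔ Fc M g h := by
  unfold Fc
  constructor
  · rintro (e | e | e)
    · right; right
      rw [← e, M.rho3]
    · exact Or.inl (rho_inj M e)
    · exact Or.inr (Or.inl (rho_inj M e))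
  · rintro (e | e | e)
    · exact Or.inr (Or.inl (by rw [e]))
    · exact Or.inr (Or.inr (by rw [e]))
    · left; rw [e, M.rho3]

/-- the field `a` off the face of `g` -/
def cutF (M : CMap D C) (g : D) (a : D → ℂ) (h : D) : ℂ := if Fc M g h then 0 else a h

/-- the field `a` on the faces of `R` -/
def resR (R : D → Prop) (a : D → ℂ) (h : D) : ℂ := if R h then a h else 0

theorem cutF_spin {w : ℂ} {a : D → ℂ} (ha : Spin M w a) (g : D) : Spin M w (cutF M g a) := by
  intro d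
  unfold cutF
  by_cases h : Fc M g d
  · rw [if_pos h, if_pos (fc_rho.2 h), mul_zero]
  · rw [if_neg h, if_neg fun h' => h (fc_rho.1 h'), ha d]

theorem resR_spin {w : ℂ} {a : D → ℂ} (ha : Spin M w a) {R : D → Prop}
    (hR : ∀ d, R (M.rho d) ↔ R d) : Spin M w (resR R a) := by
  intro d
  unfold resR
  by_cases h : R d
  · rw [if_pos h, if_pos ((hR d).2 h), ha d]
  · rw [if_neg h, if_neg fun h' => h ((hR d).1 h'), mul_zero]

/-- every face has at most one gap -/
theorem one_gap {x : D → ZMod 2} {g h : D} (hg : Gp M x g) (hh : Gp M x h) (e : Fc M g h) :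
    h = g := by
  rcases e with e | e | e
  · exact e
  · exfalso
    subst e
    exact absurd (hg.2.symm.trans hh.1) (by decide)
  · exfalso
    subst e
    have h1 := hh.2
    rw [M.rho3] at h1
    exact absurd (h1.symm.trans hg.1) (by decide)

/-- the block without the root gap -/
theorem sum_erase [Fintype D] {x : D → ZMod 2} {g : D} (hg : Gp M x g) (a : D → ℂ) :
    ∑ h ∈ (blk M x g).erase g, a h = ∑ h ∈ blk M x g, cutF M g a h := by
  have h1 : ∑ h ∈ (blk M x g).erase g, a h = ∑ h ∈ (blk M x g).erase g, cutF M g a h := by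
    refine Finset.sum_congr rfl fun h hh => ?_
    obtain ⟨h2, h3⟩ := Finset.mem_erase.1 hh
    have h4 : ¬ Fc M g h := fun h5 => h2 (one_gap hg (mem_blk.1 h3).1 h5)
    unfold cutF
    rw [if_neg h4]
  rw [h1]
  refine Finset.sum_subset (Finset.erase_subset _ _) fun h h2 h3 => ?_
  have h4 : h = g := by
    by_contra h5
    exact h3 (Finset.mem_erase.2 ⟨h5, h2⟩)
  have h5 : Fc M g h := Or.inl h4
  unfold cutF
  rw [if_pos h5]

end field

section mean

variable {D C C' : Type} {M : CMap D C} {A : ZMod 3 → Set C} {i : ZMod 3} {π : C → C'}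
  {hπ : ClsCon M π} [Fintype D] [Fintype C] [Fintype C'] {g : D} {χ₀ : C → ZMod 2}

/-- colourings with prescribed colours on the giants -/
theorem pin_card (R : Root M A i g) (Q : Cq π A) (G : Gi M A) (hc : Rc A i χ₀) :
    8 * N0 A = Fintype.card (C' → ZMod 2) := by
  have H := expl R Q G hc
  set a := π (M.cell g) with ha
  set b := π (M.cell (M.rho g)) with hb
  set u := π (M.cell (M.rho (M.rho g))) with hu
  have hab : a ≠ b := Q.ne G R.r0 R.r1 (z3a i).1.symm
  have hbu : b ≠ u := Q.ne G R.r1 R.r2 (z3a i).2.1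
  have hau : a ≠ u := Q.ne G R.r0 R.r2 (z3a i).2.2
  have h1 := H.sum (A := ℕ) fun _ => 1
  rw [sum_conv (A := A) (χ₀ := χ₀) (E := {c | ¬ Free A c}) fun _ => Iff.rfl, ← Finset.card_filter,
    n0_eq, ← Finset.card_filter] at h1
  have h2 : (Finset.univ.filter fun χ : C' → ZMod 2 => χ a = 1 ∧ χ b = 1 ∧ χ u = 0) =
      pre {a, b, u} (fun c => if c = u then 0 else 1) := by
    ext χ
    unfold pre
    rw [Finset.mem_filter, Finset.mem_filter]
    refine and_congr_right fun _ => ?_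
    constructor
    · rintro ⟨e1, e2, e3⟩ c hcc
      simp only [Finset.mem_insert, Finset.mem_singleton] at hcc
      show χ c = if c = u then 0 else 1
      rcases hcc with h | h | h
      · rw [h, if_neg hau]; exact e1
      · rw [h, if_neg hbu]; exact e2
      · rw [h, if_pos rfl]; exact e3
    · intro h3
      have h4 : ∀ c, c ∈ ({a, b, u} : Finset C') → χ c = if c = u then 0 else 1 := h3
      refine ⟨?_, ?_, ?_⟩
      · have := h4 a (by simp)
        rwa [if_neg hau] at this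
      · have := h4 b (by simp)
        rwa [if_neg hbu] at this
      · have := h4 u (by simp)
        rwa [if_pos rfl] at this
  rw [h2] at h1
  rw [h1]
  have h3 := card_pre {a, b, u} (fun c : C' => if c = u then (0 : ZMod 2) else 1)
  have h4 : ({a, b, u} : Finset C').card = 3 := by
    rw [Finset.card_insert_of_notMem, Finset.card_insert_of_notMem, Finset.card_singleton]
    · simpa using hbu
    · simp only [Finset.mem_insert, Finset.mem_singleton, not_or]
      exact ⟨hab, hau⟩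
  rw [h4] at h3
  rw [← h3]
  norm_num

/-- **FRAME OF THE STATIC NET** -/
theorem pin_frame (R : Root M A i g) (Q : Cq π A) (G : Gi M A) (hc : Rc A i χ₀) {w : ℂ}
    (w3 : w ^ 3 = 1) (w1 : w ≠ 1) (wc : (starRingEnd ℂ) w = w ^ 2) {a : D → ℂ}
    (ha : Spin M w a) :
    (∑ χ : C → ZMod 2, if Pin A χ₀ χ then
      ∑ β ∈ blks (coarse M π hπ) (cfg M χ), ‖∑ k ∈ β, a k‖ ^ 2 else 0) ≤
      2 * (N0 A : ℝ) * ∑ k, ‖a k‖ ^ 2 := by
  have H := expl R Q G hc
  have h1 := H.sum fun χ => ∑ β ∈ blks (coarse M π hπ) (cfg M χ), ‖∑ k ∈ β, a k‖ ^ 2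
  rw [sum_conv (A := A) (χ₀ := χ₀) (E := {c | ¬ Free A c}) fun _ => Iff.rfl] at h1
  rw [h1]
  have ha' : Spin (coarse M π hπ) w a := ha
  have h2 := frame_avg (M := coarse M π hπ) w3 w1 wc ha'
  have h3 : (Fintype.card (C' → ZMod 2) : ℝ) = 8 * N0 A := by
    exact_mod_cast (pin_card R Q G hc).symm
  rw [h3] at h2
  refine le_trans (Finset.sum_le_sum fun χ _ => ?_) (h2.trans (le_of_eq (by ring)))
  have h0 : (0 : ℝ) ≤ ∑ β ∈ blks (coarse M π hπ) (cfg (coarse M π hπ) χ), ‖∑ k ∈ β, a k‖ ^ 2 :=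
    Finset.sum_nonneg fun _ _ => by positivity
  split_ifs with h
  · exact le_rfl
  · exact h0

/-- the root gap is a gap of every pinned configuration -/
theorem pin_gp (R : Root M A i g) (hc : Rc A i χ₀) {χ : C → ZMod 2} (hχ : Pin A χ₀ χ) :
    Gp M (cfg M χ) g := by
  have f0 : χ (M.cell g) = 1 := by
    rw [hχ _ fun h => h _ R.r0]; exact hc.c0 _ R.r0
  have f1 : χ (M.cell (M.rho g)) = 1 := by
    rw [hχ _ fun h => h _ R.r1]; exact hc.c1 _ R.r1
  have f2 : χ (M.cell (M.rho (M.rho g))) = 0 := by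
    rw [hχ _ fun h => h _ R.r2]; exact hc.c2 _ R.r2
  constructor
  · show χ (M.cell g) + χ (M.cell (M.rho g)) = 0
    rw [f0, f1]; decide
  · show χ (M.cell (M.rho g)) + χ (M.cell (M.rho (M.rho g))) = 1
    rw [f1, f2]; decide

/-- the value of the root chord -/
def Vg (M : CMap D C) (π : C → C') (hπ : ClsCon M π) (g : D) (a : D → ℂ) (χ : C → ZMod 2) : ℂ :=
  ∑ h ∈ (blk (coarse M π hπ) (cfg M χ) g).erase g, a h

theorem vg_eq (R : Root M A i g) (hc : Rc A i χ₀) {χ : C → ZMod 2} (hχ : Pin A χ₀ χ)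
    (a : D → ℂ) :
    Vg M π hπ g a χ = ∑ h ∈ blk (coarse M π hπ) (cfg M χ) g, cutF M g a h :=
  sum_erase (M := coarse M π hπ) (show Gp (coarse M π hπ) (cfg M χ) g from pin_gp R hc hχ) a

theorem vg_le (R : Root M A i g) (hc : Rc A i χ₀) {χ : C → ZMod 2} (hχ : Pin A χ₀ χ)
    (a : D → ℂ) :
    ‖Vg M π hπ g a χ‖ ^ 2 ≤
      ∑ β ∈ blks (coarse M π hπ) (cfg M χ), ‖∑ k ∈ β, cutF M g a k‖ ^ 2 := by
  rw [vg_eq R hc hχ]
  refine Finset.single_le_sum (f := fun β => ‖∑ k ∈ β, cutF M g a k‖ ^ 2)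
    (fun β _ => by positivity) ?_
  exact Finset.mem_image.2 ⟨g, mem_gaps.2 (show Gp (coarse M π hπ) (cfg M χ) g from
    pin_gp R hc hχ), rfl⟩

/-- **FRAME OF THE ROOT CHORD**: the faces different from the root face -/
theorem root_frame (R : Root M A i g) (Q : Cq π A) (G : Gi M A) (hc : Rc A i χ₀) {w : ℂ}
    (w3 : w ^ 3 = 1) (w1 : w ≠ 1) (wc : (starRingEnd ℂ) w = w ^ 2) {a : D → ℂ}
    (ha : Spin M w a) :
    (∑ χ : C → ZMod 2, if Pin A χ₀ χ then ‖Vg M π hπ g a χ‖ ^ 2 else 0) ≤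
      2 * (N0 A : ℝ) * ∑ k, ‖cutF M g a k‖ ^ 2 := by
  refine le_trans (Finset.sum_le_sum fun χ _ => ?_)
    (pin_frame (hπ := hπ) R Q G hc w3 w1 wc (cutF_spin ha g))
  split_ifs with h
  · exact vg_le R hc h a
  · exact le_rfl

theorem cutF_le (a : D → ℂ) : ∑ k, ‖cutF M g a k‖ ^ 2 ≤ ∑ k, ‖a k‖ ^ 2 := by
  refine Finset.sum_le_sum fun k _ => ?_
  unfold cutF
  by_cases h : Fc M g k
  · rw [if_pos h, norm_zero, zero_pow two_ne_zero]
    exact sq_nonneg _
  · rw [if_neg h]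

theorem root_frame' (R : Root M A i g) (Q : Cq π A) (G : Gi M A) (hc : Rc A i χ₀) {w : ℂ}
    (w3 : w ^ 3 = 1) (w1 : w ≠ 1) (wc : (starRingEnd ℂ) w = w ^ 2) {a : D → ℂ}
    (ha : Spin M w a) :
    (∑ χ : C → ZMod 2, if Pin A χ₀ χ then ‖Vg M π hπ g a χ‖ ^ 2 else 0) ≤
      2 * (N0 A : ℝ) * ∑ k, ‖a k‖ ^ 2 :=
  (root_frame R Q G hc w3 w1 wc ha).trans
    (mul_le_mul_of_nonneg_left (cutF_le a) (by positivity))

/-- **the part of the root chord in a region** (a set of faces) -/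
theorem root_frameR (R : Root M A i g) (Q : Cq π A) (G : Gi M A) (hc : Rc A i χ₀) {w : ℂ}
    (w3 : w ^ 3 = 1) (w1 : w ≠ 1) (wc : (starRingEnd ℂ) w = w ^ 2) {a : D → ℂ}
    (ha : Spin M w a) {F : D → Prop} (hF : ∀ d, F (M.rho d) ↔ F d) :
    (∑ χ : C → ZMod 2, if Pin A χ₀ χ then
      ‖∑ h ∈ ((blk (coarse M π hπ) (cfg M χ) g).erase g).filter F, a h‖ ^ 2 else 0) ≤
      2 * (N0 A : ℝ) * ∑ k ∈ Finset.univ.filter F, ‖a k‖ ^ 2 := by
  have h1 := root_frame' (hπ := hπ) R Q G hc w3 w1 wc (resR_spin ha hF)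
  have e1 : ∀ χ, Vg M π hπ g (resR F a) χ =
      ∑ h ∈ ((blk (coarse M π hπ) (cfg M χ) g).erase g).filter F, a h := by
    intro χ
    rw [Finset.sum_filter]
    rfl
  have e2 : ∑ k, ‖resR F a k‖ ^ 2 = ∑ k ∈ Finset.univ.filter F, ‖a k‖ ^ 2 := by
    rw [Finset.sum_filter]
    refine Finset.sum_congr rfl fun k _ => ?_
    unfold resR
    split_ifs
    · rfl
    · rw [norm_zero]; norm_num
  rw [e2] at h1
  simpa only [e1] using h1

/-- **Cauchy-Schwarz on a set of colourings** -/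
theorem root_cs (R : Root M A i g) (Q : Cq π A) (G : Gi M A) (hc : Rc A i χ₀) {w : ℂ}
    (w3 : w ^ 3 = 1) (w1 : w ≠ 1) (wc : (starRingEnd ℂ) w = w ^ 2) {a : D → ℂ}
    (ha : Spin M w a) {B : Finset (C → ZMod 2)} (hB : ∀ χ ∈ B, Pin A χ₀ χ) :
    (∑ χ ∈ B, ‖Vg M π hπ g a χ‖) ^ 2 ≤ B.card * (2 * (N0 A : ℝ) * ∑ k, ‖a k‖ ^ 2) := by
  have h1 : (∑ χ ∈ B, ‖Vg M π hπ g a χ‖) ^ 2 ≤ B.card * ∑ χ ∈ B, ‖Vg M π hπ g a χ‖ ^ 2 :=
    sq_sum_le_card_mul_sum_sq
  refine h1.trans (mul_le_mul_of_nonneg_left ?_ (Nat.cast_nonneg _))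
  refine le_trans ?_ (root_frame' (hπ := hπ) R Q G hc w3 w1 wc ha)
  rw [← Finset.sum_filter]
  refine Finset.sum_le_sum_of_subset_of_nonneg ?_ fun _ _ _ => by positivity
  intro χ hχ
  exact Finset.mem_filter.2 ⟨Finset.mem_univ _, hB χ hχ⟩

/-- **first moment of the root chord** on all the colourings of the free cells -/
theorem root_one (R : Root M A i g) (Q : Cq π A) (G : Gi M A) (hc : Rc A i χ₀) {w : ℂ}
    (w3 : w ^ 3 = 1) (w1 : w ≠ 1) (wc : (starRingEnd ℂ) w = w ^ 2) {a : D → ℂ}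
    (ha : Spin M w a) :
    (∑ χ : C → ZMod 2, if Pin A χ₀ χ then ‖Vg M π hπ g a χ‖ else 0) ^ 2 ≤
      (N0 A : ℝ) ^ 2 * (2 * ∑ k, ‖a k‖ ^ 2) := by
  have h1 := root_cs (hπ := hπ) R Q G hc w3 w1 wc ha
    (B := Finset.univ.filter fun χ => Pin A χ₀ χ) fun χ hχ => (Finset.mem_filter.1 hχ).2
  rw [n0_eq, Finset.sum_filter] at h1
  refine h1.trans (le_of_eq (by ring))

end mean

end Crest.Agent.R143.FrStx253
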