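import Mathlib

/-!
# Row 143 (S0194), part B without E3: the tight frame, part 1 (helper395, after helper493)

* `CMap D C` : closed sphere map with triangular faces, given by darts `D` and cells `C`
* `IsC M O x` : configurations (`ZMod 2` valued, odd faces `O`)
* `stp`, `Tr` : the walker and the set of his states up to the first state in the stop set `B`
* `swap` : adding the boundary of the cells on the left of an arc, except the arc itself
* `card_eq` : bijection (pairs of gaps with separated arcs) <-> thetas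
-/

set_option autoImplicit false

noncomputable section

open scoped Classical

namespace Crest.Agent.R143.Frame1x395

/-- closed sphere map with triangular faces. Darts = sides of faces; `rho` = next side of the face
(counterclockwise), `iota` = the other side of the edge, `cell d` = tail of the dart. -/
structure CMap (D C : Type) where
  rho : D → D
  rho3 : ∀ d, rho (rho (rho d)) = d
  rho_ne : ∀ d, rho d ≠ d
  iota : D → D
  iota2 : ∀ d, iota (iota d) = d
  live : Set D
  iota_live : ∀ d, d ∈ live → iota d ∈ live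
  iota_ne : ∀ d, d ∈ live → iota d ≠ d
  cell : D → C
  cell_iota : ∀ d, d ∈ live → cell (iota d) = cell (rho d)
  dead : ∀ d, d ∉ live → cell d = cell (rho d)
  ex : ∀ x : D → ZMod 2, (∀ d, d ∉ live → x d = 0) → (∀ d, x (iota d) = x d) →
    (∀ d, x d + x (rho d) + x (rho (rho d)) = 0) →
    ∃ χ : C → ZMod 2, ∀ d, x d = χ (cell d) + χ (cell (rho d))

variable {D C : Type} {M : CMap D C} {x y : D → ZMod 2} {O B : Set D}

theorem z01 : ∀ a : ZMod 2, a = 0 ∨ a = 1 := by decide

theorem z_ne : ∀ a : ZMod 2, a ≠ 1 ↔ a = 0 := by decide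

theorem z_ne' : ∀ a : ZMod 2, a ≠ 0 ↔ a = 1 := by decide

theorem z_self : ∀ a : ZMod 2, a + a = 0 := by decide

theorem iota_inj (M : CMap D C) {a b : D} (h : M.iota a = M.iota b) : a = b := by
  rw [← M.iota2 a, h, M.iota2]

theorem rho_inj (M : CMap D C) {a b : D} (h : M.rho a = M.rho b) : a = b := by
  rw [← M.rho3 a, h, M.rho3]

theorem rho2_ne (M : CMap D C) (d : D) : M.rho (M.rho d) ≠ d := by
  intro h
  have := M.rho3 d
  rw [h] at this
  exact M.rho_ne d this

/-- configurations with odd faces `O` -/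
structure IsC (M : CMap D C) (O : Set D) (x : D → ZMod 2) : Prop where
  dead : ∀ d, d ∉ M.live → x d = 0
  iot : ∀ d, x (M.iota d) = x d
  par : ∀ d, x d + x (M.rho d) + x (M.rho (M.rho d)) = if d ∈ O then 1 else 0

theorem IsC.lv (h : IsC M O x) {d : D} (hd : x d = 1) : d ∈ M.live := by
  by_contra hn
  rw [h.dead d hn] at hd
  exact absurd hd (by decide)

/-- the right cell of the state `p` -/
theorem cell_rho_iota (M : CMap D C) {d : D} (hd : d ∈ M.live) :
    M.cell (M.rho (M.iota d)) = M.cell d := by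
  rw [← M.cell_iota _ (M.iota_live d hd), M.iota2]

/-- one step of the walker -/
def stp (M : CMap D C) (x : D → ZMod 2) (p : D) : D :=
  if x (M.rho p) = 1 then M.iota (M.rho p) else M.iota (M.rho (M.rho p))

theorem stp_cases (h : IsC M O x) {p : D} (hp : x p = 1) (hO : p ∉ O) :
    (x (M.rho p) = 1 ∧ x (M.rho (M.rho p)) = 0 ∧ stp M x p = M.iota (M.rho p)) ∨
    (x (M.rho p) = 0 ∧ x (M.rho (M.rho p)) = 1 ∧ stp M x p = M.iota (M.rho (M.rho p))) := by
  have h1 := h.par p
  rw [if_neg hO, hp] at h1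
  unfold stp
  rcases z01 (x (M.rho p)) with h2 | h2 <;> rcases z01 (x (M.rho (M.rho p))) with h3 | h3 <;>
    rw [h2, h3] at h1
  · exact absurd h1 (by decide)
  · right
    exact ⟨h2, h3, by rw [if_neg]; rw [h2]; decide⟩
  · left
    exact ⟨h2, h3, by rw [if_pos h2]⟩
  · exact absurd h1 (by decide)

theorem stp_occ (h : IsC M O x) {p : D} (hp : x p = 1) (hO : p ∉ O) : x (stp M x p) = 1 := by
  rcases stp_cases h hp hO with ⟨h1, -, e⟩ | ⟨-, h1, e⟩
  · rw [e, h.iot, h1]
  · rw [e, h.iot, h1]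

/-- **reversal** -/
theorem stp_rev (h : IsC M O x) {p : D} (hp : x p = 1) (hO : p ∉ O) :
    stp M x (M.iota (stp M x p)) = M.iota p := by
  rcases stp_cases h hp hO with ⟨h1, h2, e⟩ | ⟨h1, h2, e⟩
  · rw [e, M.iota2]
    unfold stp
    rw [if_neg (by rw [h2]; decide), M.rho3]
  · rw [e, M.iota2]
    unfold stp
    rw [M.rho3, if_pos hp]

theorem stp_inj (h : IsC M O x) {p q : D} (hp : x p = 1) (hO : p ∉ O) (hq : x q = 1)
    (hO' : q ∉ O) (e : stp M x p = stp M x q) : p = q := by
  have h1 := stp_rev h hp hO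
  rw [e, stp_rev h hq hO'] at h1
  exact (iota_inj M h1).symm

/-- stop sets -/
def Inv (M : CMap D C) (B : Set D) : Prop := ∀ d, M.rho d ∈ B ↔ d ∈ B

/-- the exit is a side of the face of `p`, different from `p` -/
theorem exit_mem (h : IsC M O x) (hB : Inv M B) {p : D} (hp : x p = 1) (hO : p ∉ O)
    (hpB : p ∉ B) : M.iota (stp M x p) ∉ B := by
  rcases stp_cases h hp hO with ⟨-, -, e⟩ | ⟨-, -, e⟩
  · rw [e, M.iota2, hB]; exact hpB
  · rw [e, M.iota2, hB, hB]; exact hpB

theorem exit_ne (h : IsC M O x) {p : D} (hp : x p = 1) (hO : p ∉ O) :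
    M.iota (stp M x p) ≠ p := by
  rcases stp_cases h hp hO with ⟨-, -, e⟩ | ⟨-, -, e⟩
  · rw [e, M.iota2]; exact M.rho_ne p
  · rw [e, M.iota2]; exact rho2_ne M p

/-- the states of the walker up to the first state in `B` -/
def Tr (M : CMap D C) (x : D → ZMod 2) (B : Set D) (p0 : D) : Set D :=
  {d | ∃ n, (stp M x)^[n] p0 = d ∧ ∀ k < n, (stp M x)^[k] p0 ∉ B}

variable {p0 : D}

theorem tr_start : p0 ∈ Tr M x B p0 := ⟨0, rfl, fun k hk => absurd hk (Nat.not_lt_zero k)⟩

theorem tr_step {p : D} (hp : p ∈ Tr M x B p0) (hB : p ∉ B) : stp M x p ∈ Tr M x B p0 := by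
  obtain ⟨n, rfl, h2⟩ := hp
  refine ⟨n + 1, Function.iterate_succ_apply' _ _ _, fun k hk => ?_⟩
  rcases Nat.lt_succ_iff_lt_or_eq.1 hk with h | rfl
  · exact h2 k h
  · exact hB

theorem tr_ind {P : D → Prop} (h0 : P p0)
    (hs : ∀ p, p ∈ Tr M x B p0 → p ∉ B → P p → P (stp M x p)) : ∀ p, p ∈ Tr M x B p0 → P p := by
  rintro p ⟨n, rfl, h2⟩
  induction n with
  | zero => exact h0
  | succ n ih =>
    rw [Function.iterate_succ_apply']
    have h3 : ∀ k < n, (stp M x)^[k] p0 ∉ B := fun k hk => h2 k (by omega)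
    exact hs _ ⟨n, rfl, h3⟩ (h2 n (by omega)) (ih h3)

theorem tr_cases {p : D} (hp : p ∈ Tr M x B p0) :
    p = p0 ∨ ∃ q, q ∈ Tr M x B p0 ∧ q ∉ B ∧ p = stp M x q := by
  obtain ⟨n, rfl, h2⟩ := hp
  cases n with
  | zero => left; rfl
  | succ n =>
    right
    exact ⟨(stp M x)^[n] p0, ⟨n, rfl, fun k hk => h2 k (by omega)⟩, h2 n (by omega),
      Function.iterate_succ_apply' _ _ _⟩

theorem tr_end {e e' : D} (h : e ∈ Tr M x B p0) (h' : e' ∈ Tr M x B p0) (hB : e ∈ B)
    (hB' : e' ∈ B) : e = e' := by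
  obtain ⟨n, rfl, h2⟩ := h
  obtain ⟨m, rfl, h3⟩ := h'
  rcases lt_trichotomy n m with hl | rfl | hl
  · exact absurd hB (h3 n hl)
  · rfl
  · exact absurd hB' (h2 m hl)

theorem tr_occ (h : IsC M O x) (hOB : O ⊆ B) (h0 : x p0 = 1) :
    ∀ p, p ∈ Tr M x B p0 → x p = 1 :=
  tr_ind h0 fun _ _ hB hp => stp_occ h hp fun hO => hB (hOB hO)

theorem tr_congr (he : ∀ p, p ∈ Tr M x B p0 → p ∉ B → stp M y p = stp M x p) :
    Tr M y B p0 = Tr M x B p0 := by
  have key : ∀ n, (∀ k < n, (stp M x)^[k] p0 ∉ B) → (stp M y)^[n] p0 = (stp M x)^[n] p0 := by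
    intro n
    induction n with
    | zero => intro _; rfl
    | succ n ih =>
      intro h
      have h3 : ∀ k < n, (stp M x)^[k] p0 ∉ B := fun k hk => h k (by omega)
      rw [Function.iterate_succ_apply', Function.iterate_succ_apply', ih h3]
      exact he _ ⟨n, rfl, h3⟩ (h n (by omega))
  have key2 : ∀ n, (∀ k < n, (stp M y)^[k] p0 ∉ B) → ∀ k < n, (stp M x)^[k] p0 ∉ B := by
    intro n
    induction n with
    | zero => intro _ k hk; exact absurd hk (Nat.not_lt_zero k)
    | succ n ih =>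
      intro h k hk
      have h3 := ih fun k hk => h k (by omega)
      rcases Nat.lt_succ_iff_lt_or_eq.1 hk with hl | rfl
      · exact h3 k hl
      · rw [← key k h3]; exact h k (by omega)
  ext d
  constructor
  · rintro ⟨n, h1, h2⟩
    have h3 := key2 n h2
    exact ⟨n, by rw [← key n h3]; exact h1, h3⟩
  · rintro ⟨n, h1, h2⟩
    refine ⟨n, by rw [key n h2]; exact h1, fun k hk => ?_⟩
    rw [key k fun j hj => h2 j (by omega)]
    exact h2 k hk

theorem tr_cons {a : D} (ha : a ∉ B) {p : D} (hp : p ∈ Tr M x B (stp M x a)) :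
    p ∈ Tr M x B a := by
  obtain ⟨n, rfl, h2⟩ := hp
  refine ⟨n + 1, rfl, fun k hk => ?_⟩
  cases k with
  | zero => exact ha
  | succ k => exact h2 k (by omega)

/-- **reversal of a walk** -/
theorem tr_rev (h : IsC M O x) (hOB : O ⊆ B) (hB : Inv M B) (h0 : x p0 = 1) :
    ∀ p, p ∈ Tr M x B p0 → M.iota p0 ∈ Tr M x B (M.iota p) := by
  refine tr_ind tr_start ?_
  intro p hp hpB ih
  have hx := tr_occ h hOB h0 p hp
  have hO : p ∉ O := fun hO => hpB (hOB hO)
  have h1 := exit_mem h hB hx hO hpB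
  apply tr_cons h1
  rw [stp_rev h hx hO]
  exact ih

/-- a walk from `B` does not return -/
theorem tr_noret (h : IsC M O x) (hOB : O ⊆ B) (h0 : x p0 = 1) :
    M.iota p0 ∉ Tr M x B p0 := by
  rintro ⟨n, h1, h2⟩
  set p : ℕ → D := fun k => (stp M x)^[k] p0 with hp
  have hs : ∀ k, p (k + 1) = stp M x (p k) := fun k => Function.iterate_succ_apply' _ _ _
  have hocc : ∀ k, k ≤ n → x (p k) = 1 := by
    intro k hk
    exact tr_occ h hOB h0 _ ⟨k, rfl, fun j hj => h2 j (by omega)⟩
  have hO : ∀ k, k < n → p k ∉ O := fun k hk hO => h2 k hk (hOB hO)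
  have key : ∀ k, k ≤ n → p (n - k) = M.iota (p k) := by
    intro k
    induction k with
    | zero => intro _; exact h1
    | succ k ih =>
      intro hk
      have h3 := ih (by omega)
      have h4 : n - k = (n - (k + 1)) + 1 := by omega
      rw [h4, hs] at h3
      have h5 := stp_rev h (hocc (n - (k + 1)) (by omega)) (hO _ (by omega))
      rw [h3, M.iota2, ← hs] at h5
      rw [h5, M.iota2]
  rcases Nat.even_or_odd' n with ⟨m, hm | hm⟩
  · have h3 := key m (by omega)
    rw [show n - m = m by omega] at h3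
    exact M.iota_ne _ (h.lv (hocc m (by omega))) h3.symm
  · have h3 := key m (by omega)
    rw [show n - m = m + 1 by omega, hs] at h3
    have h4 := exit_ne h (hocc m (by omega)) (hO m (by omega))
    rw [h3, M.iota2] at h4
    exact h4 rfl

/-- a walk from `B` ends -/
theorem tr_fin [Finite D] (h : IsC M O x) (hOB : O ⊆ B) (hB : Inv M B) (h0 : x p0 = 1)
    (hp0 : M.iota p0 ∈ B) : ∃ e, e ∈ Tr M x B p0 ∧ e ∈ B := by
  by_contra hc
  push Not at hc
  set p : ℕ → D := fun k => (stp M x)^[k] p0 with hp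
  have hs : ∀ k, p (k + 1) = stp M x (p k) := fun k => Function.iterate_succ_apply' _ _ _
  have hn : ∀ n, p n ∉ B := by
    intro n
    induction n using Nat.strong_induction_on with
    | _ n ih => exact hc _ ⟨n, rfl, ih⟩
  have hocc : ∀ n, x (p n) = 1 := fun n => tr_occ h hOB h0 _ ⟨n, rfl, fun k _ => hn k⟩
  have hO : ∀ n, p n ∉ O := fun n hO => hn n (hOB hO)
  have key : ∀ a b, a < b → p a ≠ p b := by
    intro a
    induction a with
    | zero =>
      intro b hb he
      obtain ⟨c, rfl⟩ := Nat.exists_eq_succ_of_ne_zero hb.ne'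
      rw [Nat.succ_eq_add_one, hs] at he
      have h1 := exit_mem h hB (hocc c) (hO c) (hn c)
      rw [← he] at h1
      exact h1 hp0
    | succ a ih =>
      intro b hb he
      obtain ⟨c, rfl⟩ := Nat.exists_eq_succ_of_ne_zero (show b ≠ 0 by omega)
      rw [Nat.succ_eq_add_one, hs, hs] at he
      exact ih c (by omega) (stp_inj h (hocc a) (hO a) (hocc c) (hO c) he)
  have hinj : Function.Injective p := by
    intro a b hab
    rcases lt_trichotomy a b with hl | rfl | hl
    · exact absurd hab (key a b hl)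
    · rfl
    · exact absurd hab.symm (key b a hl)
  exact not_injective_infinite_finite p hinj

/-! ### left and right cells -/

/-- left and right cells of a walk, seen by a colouring whose boundary is contained in `x` -/
theorem tr_col (h : IsC M O x) (hOB : O ⊆ B) (h0 : x p0 = 1) {χ : C → ZMod 2}
    (hχ : ∀ d, x d = 0 → χ (M.cell d) = χ (M.cell (M.rho d))) :
    ∀ p, p ∈ Tr M x B p0 → χ (M.cell p) = χ (M.cell p0) ∧
      χ (M.cell (M.rho p)) = χ (M.cell (M.rho p0)) := by
  refine tr_ind ⟨rfl, rfl⟩ ?_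
  intro p hp hpB ih
  have hx := tr_occ h hOB h0 p hp
  rcases stp_cases h hx fun hO => hpB (hOB hO) with ⟨h1, h2, e⟩ | ⟨h1, h2, e⟩
  · have e1 := M.cell_iota _ (h.lv h1)
    have e2 := cell_rho_iota M (h.lv h1)
    have e3 := hχ _ h2
    rw [M.rho3] at e3
    rw [e, e1, e2]
    exact ⟨e3.trans ih.1, ih.2⟩
  · have e1 := M.cell_iota _ (h.lv h2)
    have e2 := cell_rho_iota M (h.lv h2)
    have e3 := hχ _ h1
    rw [e, e1, e2, M.rho3]
    exact ⟨ih.1, e3.symm.trans ih.2⟩

/-- darts of an arc -/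
def arc (M : CMap D C) (x : D → ZMod 2) (B : Set D) (p0 : D) (d : D) : ZMod 2 :=
  if d ∈ Tr M x B p0 ∨ M.iota d ∈ Tr M x B p0 then 1 else 0

theorem arc_iot (d : D) : arc M x B p0 (M.iota d) = arc M x B p0 d := by
  unfold arc
  rw [M.iota2]
  by_cases h : d ∈ Tr M x B p0 ∨ M.iota d ∈ Tr M x B p0
  · rw [if_pos h, if_pos h.symm]
  · rw [if_neg h, if_neg fun h' => h h'.symm]

theorem arc_le (h : IsC M O x) (hOB : O ⊆ B) (h0 : x p0 = 1) {d : D} (hd : x d = 0) :
    arc M x B p0 d = 0 := by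
  unfold arc
  rw [if_neg]
  rintro (h1 | h1)
  · rw [tr_occ h hOB h0 _ h1] at hd
    exact absurd hd (by decide)
  · have h2 := tr_occ h hOB h0 _ h1
    rw [h.iot, hd] at h2
    exact absurd h2 (by decide)

/-- the arc in the stop faces -/
theorem arc_stop (h : IsC M O x) (hOB : O ⊆ B) (hB : Inv M B) (h0 : x p0 = 1) {e d : D}
    (he : e ∈ Tr M x B p0) (heB : e ∈ B) (hd : d ∈ B) :
    arc M x B p0 d = if d = e ∨ d = M.iota p0 then 1 else 0 := by
  unfold arc
  congr 1
  apply propext
  constructor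
  · rintro (h1 | h1)
    · left; exact tr_end h1 he hd heB
    · rcases tr_cases h1 with h2 | ⟨q, h2, h3, h4⟩
      · right; rw [← h2, M.iota2]
      · exfalso
        have h5 := exit_mem h hB (tr_occ h hOB h0 q h2) (fun hO => h3 (hOB hO)) h3
        rw [← h4, M.iota2] at h5
        exact h5 hd
  · rintro (rfl | rfl)
    · left; exact he
    · right; rw [M.iota2]; exact tr_start

theorem sum_rot (f : D → ZMod 2) (d : D) :
    f (M.rho d) + f (M.rho (M.rho d)) + f (M.rho (M.rho (M.rho d))) =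
      f d + f (M.rho d) + f (M.rho (M.rho d)) := by
  rw [M.rho3]; ring

/-- the arc in the other faces -/
theorem arc_off (h : IsC M O x) (hOB : O ⊆ B) (hB : Inv M B) (h0 : x p0 = 1)
    (hp0 : M.iota p0 ∈ B) {d : D} (hd : d ∉ B) :
    arc M x B p0 d + arc M x B p0 (M.rho d) + arc M x B p0 (M.rho (M.rho d)) = 0 := by
  -- the face of a state
  have key : ∀ p, p ∈ Tr M x B p0 → p ∉ B →
      arc M x B p0 p + arc M x B p0 (M.rho p) + arc M x B p0 (M.rho (M.rho p)) = 0 := by
    intro p hp hpB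
    have hx := tr_occ h hOB h0 p hp
    have h1 : arc M x B p0 p = 1 := if_pos (Or.inl hp)
    have h2 := tr_step hp hpB
    rcases stp_cases h hx fun hO => hpB (hOB hO) with ⟨h3, h4, e⟩ | ⟨h3, h4, e⟩
    · have h5 : arc M x B p0 (M.rho p) = 1 := if_pos (Or.inr (e ▸ h2))
      rw [h1, h5, arc_le h hOB h0 h4]; decide
    · have h5 : arc M x B p0 (M.rho (M.rho p)) = 1 := if_pos (Or.inr (e ▸ h2))
      rw [h1, h5, arc_le h hOB h0 h3]; decide
  -- the face of a dart of the arc
  have key2 : ∀ p, p ∉ B → arc M x B p0 p ≠ 0 →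
      arc M x B p0 p + arc M x B p0 (M.rho p) + arc M x B p0 (M.rho (M.rho p)) = 0 := by
    intro p hpB hp
    have hp' : p ∈ Tr M x B p0 ∨ M.iota p ∈ Tr M x B p0 := by
      by_contra hc
      exact hp (if_neg hc)
    rcases hp' with h1 | h1
    · exact key p h1 hpB
    · rcases tr_cases h1 with h2 | ⟨q, h2, h3, h4⟩
      · exfalso
        rw [← h2, M.iota2] at hp0
        exact hpB hp0
      · have hq := key q h2 h3
        rcases stp_cases h (tr_occ h hOB h0 q h2) (fun hO => h3 (hOB hO)) with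
          ⟨-, -, e⟩ | ⟨-, -, e⟩
        · rw [e] at h4
          have h5 := iota_inj M h4
          rw [h5, sum_rot]
          exact hq
        · rw [e] at h4
          have h5 := iota_inj M h4
          rw [h5, sum_rot, sum_rot]
          exact hq
  by_cases c1 : arc M x B p0 d = 0
  · by_cases c2 : arc M x B p0 (M.rho d) = 0
    · by_cases c3 : arc M x B p0 (M.rho (M.rho d)) = 0
      · rw [c1, c2, c3]; decide
      · have := key2 _ (by rw [hB, hB]; exact hd) c3
        rwa [sum_rot, sum_rot] at this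
    · have := key2 _ (by rw [hB]; exact hd) c2
      rwa [sum_rot] at this
  · exact key2 d hd c1

end Crest.Agent.R143.Frame1x395
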