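import Crest.Agent.R143.Frame1_395

/-!
# Row 143 (S0194), part B without E3: the tight frame, part 2 (helper395, after helper493)

* `Sw` : hypotheses of the swap; `sw` : the swap
* `IsS`, `IsT` : two gaps with separated arcs; thetas; `card_eq` : they are equinumerous
-/

set_option autoImplicit false

noncomputable section

open scoped Classical

namespace Crest.Agent.R143.Frame2x395

open Crest.Agent.R143.Frame1x395

variable {D C : Type} {M : CMap D C} {x y : D → ZMod 2} {O B : Set D} {p0 q0 : D}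

/-- cells on the left of the arc -/
def Wc (M : CMap D C) (x : D → ZMod 2) (B : Set D) (p0 : D) (c : C) : ZMod 2 :=
  if ∃ p, p ∈ Tr M x B p0 ∧ M.cell p = c then 1 else 0

/-- their boundary -/
def dW (M : CMap D C) (x : D → ZMod 2) (B : Set D) (p0 : D) (d : D) : ZMod 2 :=
  Wc M x B p0 (M.cell d) + Wc M x B p0 (M.cell (M.rho d))

/-- the swap -/
def sw (M : CMap D C) (x : D → ZMod 2) (B : Set D) (p0 : D) (d : D) : ZMod 2 :=
  x d + dW M x B p0 d + arc M x B p0 d

/-- hypotheses of the swap -/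
structure Sw (M : CMap D C) (O B : Set D) (x : D → ZMod 2) (p0 q0 : D) : Prop where
  c : IsC M O x
  ob : O ⊆ B
  inv : Inv M B
  xp : x p0 = 1
  xq : x q0 = 1
  ip : M.iota p0 ∈ B
  s1 : ∀ p, p ∈ Tr M x B p0 → Wc M x B p0 (M.cell (M.rho p)) = 0
  s2 : ∀ q, q ∈ Tr M x B q0 → Wc M x B p0 (M.cell q) = 0
  s3 : ∀ q, q ∈ Tr M x B q0 → Wc M x B p0 (M.cell (M.rho q)) = 0

theorem wc_mem {p : D} (hp : p ∈ Tr M x B p0) : Wc M x B p0 (M.cell p) = 1 :=
  if_pos ⟨p, hp, rfl⟩

/-- on the arc the boundary is `1` -/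
theorem Sw.arc1 (h : Sw M O B x p0 q0) {d : D} (hd : arc M x B p0 d = 1) :
    dW M x B p0 d = 1 := by
  have h1 : d ∈ Tr M x B p0 ∨ M.iota d ∈ Tr M x B p0 := by
    by_contra hc
    unfold arc at hd
    rw [if_neg hc] at hd
    exact absurd hd (by decide)
  rcases h1 with h1 | h1
  · unfold dW
    rw [wc_mem h1, h.s1 _ h1]; decide
  · have h2 := tr_occ h.c h.ob h.xp _ h1
    have h3 := M.cell_iota _ (h.c.lv h2)
    have h4 := cell_rho_iota M (h.c.lv h2)
    rw [M.iota2] at h3 h4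
    unfold dW
    rw [h3, h4, wc_mem h1, h.s1 _ h1]; decide

/-- no change in the faces of the first arc -/
theorem Sw.fix1 (h : Sw M O B x p0 q0) {p : D} (hp : p ∈ Tr M x B p0) (hB : p ∉ B) :
    sw M x B p0 p = x p ∧ sw M x B p0 (M.rho p) = x (M.rho p) ∧
      sw M x B p0 (M.rho (M.rho p)) = x (M.rho (M.rho p)) := by
  have hx := tr_occ h.c h.ob h.xp p hp
  have hs := tr_step hp hB
  have on : ∀ d, arc M x B p0 d = 1 → sw M x B p0 d = x d := by
    intro d hd
    unfold sw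
    rw [hd, h.arc1 hd, add_assoc, z_self, add_zero]
  have off : ∀ d, arc M x B p0 d = 0 → dW M x B p0 d = 0 → sw M x B p0 d = x d := by
    intro d h1 h2
    unfold sw
    rw [h1, h2, add_zero, add_zero]
  refine ⟨on p (if_pos (Or.inl hp)), ?_⟩
  rcases stp_cases h.c hx fun hO => hB (h.ob hO) with ⟨h1, h2, e⟩ | ⟨h1, h2, e⟩
  · refine ⟨on _ (if_pos (Or.inr (e ▸ hs))), off _ (arc_le h.c h.ob h.xp h2) ?_⟩
    have e1 := M.cell_iota _ (h.c.lv h1)
    unfold dW
    rw [M.rho3, wc_mem hp, ← e1, wc_mem (e ▸ hs)]; decide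
  · refine ⟨off _ (arc_le h.c h.ob h.xp h1) ?_, on _ (if_pos (Or.inr (e ▸ hs)))⟩
    have e1 := cell_rho_iota M (h.c.lv h2)
    unfold dW
    rw [h.s1 _ hp, ← e1, h.s1 _ (e ▸ hs)]; decide

/-- no change in the faces of the second arc -/
theorem Sw.fix2 (h : Sw M O B x p0 q0) {q : D} (hq : q ∈ Tr M x B q0) (hB : q ∉ B) :
    sw M x B p0 q = x q ∧ sw M x B p0 (M.rho q) = x (M.rho q) ∧
      sw M x B p0 (M.rho (M.rho q)) = x (M.rho (M.rho q)) := by
  have hx := tr_occ h.c h.ob h.xq q hq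
  have hs := tr_step hq hB
  have off : ∀ d, dW M x B p0 d = 0 → sw M x B p0 d = x d := by
    intro d h2
    have h1 : arc M x B p0 d = 0 := by
      rcases z01 (arc M x B p0 d) with h1 | h1
      · exact h1
      · rw [h.arc1 h1] at h2; exact absurd h2 (by decide)
    unfold sw
    rw [h1, h2, add_zero, add_zero]
  have h1 := h.s2 _ hq
  have h2 := h.s3 _ hq
  have h3 : Wc M x B p0 (M.cell (M.rho (M.rho q))) = 0 := by
    rcases stp_cases h.c hx fun hO => hB (h.ob hO) with ⟨h1, -, e⟩ | ⟨-, h2, e⟩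
    · rw [← M.cell_iota _ (h.c.lv h1)]; exact h.s2 _ (e ▸ hs)
    · rw [← cell_rho_iota M (h.c.lv h2)]; exact h.s3 _ (e ▸ hs)
  refine ⟨off _ ?_, off _ ?_, off _ ?_⟩
  · unfold dW; rw [h1, h2]; decide
  · unfold dW; rw [h2, h3]; decide
  · unfold dW; rw [M.rho3, h3, h1]; decide

theorem Sw.tr1 (h : Sw M O B x p0 q0) : Tr M (sw M x B p0) B p0 = Tr M x B p0 :=
  tr_congr fun p hp hB => by
    unfold stp
    rw [(h.fix1 hp hB).2.1]

theorem Sw.tr2 (h : Sw M O B x p0 q0) : Tr M (sw M x B p0) B q0 = Tr M x B q0 :=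
  tr_congr fun p hp hB => by
    unfold stp
    rw [(h.fix2 hp hB).2.1]

/-- the swap is an involution -/
theorem Sw.invol (h : Sw M O B x p0 q0) : sw M (sw M x B p0) B p0 = x := by
  have h1 : dW M (sw M x B p0) B p0 = dW M x B p0 := by
    funext d
    unfold dW Wc
    rw [h.tr1]
  have h2 : arc M (sw M x B p0) B p0 = arc M x B p0 := by
    funext d
    unfold arc
    rw [h.tr1]
  funext d
  have e : sw M (sw M x B p0) B p0 d =
      sw M x B p0 d + dW M (sw M x B p0) B p0 d + arc M (sw M x B p0) B p0 d := rfl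
  rw [e, h1, h2]
  unfold sw
  generalize x d = a
  generalize dW M x B p0 d = b
  generalize arc M x B p0 d = c
  revert a b c
  decide

/-- dead darts and edges -/
theorem Sw.dead (h : Sw M O B x p0 q0) (d : D) (hd : d ∉ M.live) : sw M x B p0 d = 0 := by
  have h1 := h.c.dead d hd
  have h2 := M.dead d hd
  unfold sw dW
  rw [h1, ← h2, z_self, arc_le h.c h.ob h.xp h1]; decide

theorem Sw.iot (h : Sw M O B x p0 q0) (d : D) : sw M x B p0 (M.iota d) = sw M x B p0 d := by
  by_cases hd : d ∈ M.live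
  · unfold sw dW
    rw [h.c.iot, arc_iot, M.cell_iota d hd, cell_rho_iota M hd, add_comm (Wc M x B p0 _)]
  · have h1 : M.iota d ∉ M.live := fun h1 => hd (by
      have := M.iota_live _ h1
      rwa [M.iota2] at this)
    rw [h.dead _ hd, h.dead _ h1]

theorem Sw.sum (h : Sw M O B x p0 q0) (d : D) :
    sw M x B p0 d + sw M x B p0 (M.rho d) + sw M x B p0 (M.rho (M.rho d)) =
      (if d ∈ O then 1 else 0) +
        (arc M x B p0 d + arc M x B p0 (M.rho d) + arc M x B p0 (M.rho (M.rho d))) := by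
  rw [← h.c.par d]
  unfold sw dW
  rw [M.rho3]
  generalize Wc M x B p0 (M.cell d) = a
  generalize Wc M x B p0 (M.cell (M.rho d)) = b
  generalize Wc M x B p0 (M.cell (M.rho (M.rho d))) = c
  have := z_self a
  have := z_self b
  have := z_self c
  linear_combination z_self a + z_self b + z_self c

/-! ### two faces -/

/-- the face of `g` -/
def Fa (M : CMap D C) (g : D) : Set D := {d | d = g ∨ d = M.rho g ∨ d = M.rho (M.rho g)}

/-- the two faces -/
def BB (M : CMap D C) (g h : D) : Set D := Fa M g ∪ Fa M h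

theorem fa_inv (M : CMap D C) (g : D) : Inv M (Fa M g) := by
  intro d
  constructor
  · rintro (h | h | h)
    · right; right; rw [← h, M.rho3]
    · left; exact rho_inj M h
    · right; left; exact rho_inj M h
  · rintro (rfl | rfl | rfl)
    · right; left; rfl
    · right; right; rfl
    · left; exact M.rho3 _

theorem bb_inv (M : CMap D C) (g h : D) : Inv M (BB M g h) := by
  intro d
  unfold BB
  rw [Set.mem_union, Set.mem_union, fa_inv M g d, fa_inv M h d]

theorem bb_symm (M : CMap D C) (g h : D) : BB M g h = BB M h g := Set.union_comm _ _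

theorem fa_rot (M : CMap D C) (g : D) : Fa M (M.rho g) = Fa M g := by
  ext d
  unfold Fa
  simp only [Set.mem_setOf_eq, M.rho3]
  tauto

theorem bb_rot (M : CMap D C) (g h : D) : BB M (M.rho g) (M.rho (M.rho h)) = BB M g h := by
  unfold BB
  rw [fa_rot, fa_rot, fa_rot]

theorem fa0 (M : CMap D C) (g : D) : g ∈ Fa M g := Or.inl rfl
theorem fa1 (M : CMap D C) (g : D) : M.rho g ∈ Fa M g := Or.inr (Or.inl rfl)
theorem fa2 (M : CMap D C) (g : D) : M.rho (M.rho g) ∈ Fa M g := Or.inr (Or.inr rfl)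

/-- darts of different faces are different -/
theorem ne_of_fa {g h a b : D} (hgh : h ∉ Fa M g) (ha : a ∈ Fa M g) (hb : b ∈ Fa M h) : a ≠ b := by
  rintro rfl
  apply hgh
  rcases hb with rfl | rfl | rfl
  · exact ha
  · exact (fa_inv M g _).1 ha
  · exact (fa_inv M g _).1 ((fa_inv M g _).1 ha)

theorem fa_symm {g h : D} (hgh : h ∉ Fa M g) : g ∉ Fa M h := fun hg =>
  ne_of_fa hgh (fa0 M g) hg rfl

/-- **two gaps with separated arcs** -/
structure IsS (M : CMap D C) (g h : D) (x : D → ZMod 2) : Prop where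
  c : IsC M ∅ x
  g0 : x g = 0
  g1 : x (M.rho g) = 1
  g2 : x (M.rho (M.rho g)) = 1
  h0 : x h = 0
  h1 : x (M.rho h) = 1
  h2 : x (M.rho (M.rho h)) = 1
  a1 : M.rho h ∈ Tr M x (BB M g h) (M.iota (M.rho (M.rho g)))
  a2 : M.rho g ∈ Tr M x (BB M g h) (M.iota (M.rho (M.rho h)))
  dj : ∀ p, p ∈ Tr M x (BB M g h) (M.iota (M.rho (M.rho g))) →
    ∀ q, q ∈ Tr M x (BB M g h) (M.iota (M.rho (M.rho h))) → M.cell p ≠ M.cell q

/-- **thetas** -/
structure IsT (M : CMap D C) (g h : D) (y : D → ZMod 2) : Prop where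
  c : IsC M (BB M g h) y
  g0 : y g = 1
  g1 : y (M.rho g) = 1
  g2 : y (M.rho (M.rho g)) = 1
  h0 : y h = 1
  h1 : y (M.rho h) = 1
  h2 : y (M.rho (M.rho h)) = 1
  l0 : h ∈ Tr M y (BB M g h) (M.iota g)
  l1 : M.rho (M.rho h) ∈ Tr M y (BB M g h) (M.iota (M.rho g))
  l2 : M.rho h ∈ Tr M y (BB M g h) (M.iota (M.rho (M.rho g)))

theorem IsT.rot {g h : D} (H : IsT M g h y) : IsT M (M.rho g) (M.rho (M.rho h)) y := by
  refine ⟨?_, H.g1, H.g2, ?_, H.h2, ?_, ?_, ?_, ?_, ?_⟩
  · rw [bb_rot]; exact H.c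
  · rw [M.rho3]; exact H.g0
  · rw [M.rho3]; exact H.h0
  · rw [M.rho3]; exact H.h1
  · rw [bb_rot]; exact H.l1
  · rw [bb_rot, M.rho3]; exact H.l2
  · rw [bb_rot, M.rho3, M.rho3]; exact H.l0

theorem isT_rot {g h : D} : IsT M (M.rho g) (M.rho (M.rho h)) y ↔ IsT M g h y := by
  refine ⟨fun H => ?_, IsT.rot⟩
  have h1 := H.rot.rot
  rwa [M.rho3, M.rho3, M.rho3] at h1

section two

variable {g h : D}

theorem memg (M : CMap D C) (g h : D) : g ∈ BB M g h := Or.inl (fa0 M g)
theorem memg1 (M : CMap D C) (g h : D) : M.rho g ∈ BB M g h := Or.inl (fa1 M g)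
theorem memg2 (M : CMap D C) (g h : D) : M.rho (M.rho g) ∈ BB M g h := Or.inl (fa2 M g)
theorem memh (M : CMap D C) (g h : D) : h ∈ BB M g h := Or.inr (fa0 M h)
theorem memh1 (M : CMap D C) (g h : D) : M.rho h ∈ BB M g h := Or.inr (fa1 M h)
theorem memh2 (M : CMap D C) (g h : D) : M.rho (M.rho h) ∈ BB M g h := Or.inr (fa2 M h)

/-- **a pair of gaps satisfies the hypotheses of the swap** -/
theorem IsS.sw (H : IsS M g h x) :
    Sw M ∅ (BB M g h) x (M.iota (M.rho (M.rho g))) (M.iota (M.rho (M.rho h))) := by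
  have hob : (∅ : Set D) ⊆ BB M g h := Set.empty_subset _
  have hxp : x (M.iota (M.rho (M.rho g))) = 1 := by rw [H.c.iot]; exact H.g2
  have hxq : x (M.iota (M.rho (M.rho h))) = 1 := by rw [H.c.iot]; exact H.h2
  obtain ⟨χ, hχ⟩ := M.ex x H.c.dead H.c.iot (fun d => by rw [H.c.par d, if_neg (Set.notMem_empty d)])
  have hχ0 : ∀ d, x d = 0 → χ (M.cell d) = χ (M.cell (M.rho d)) := by
    intro d hd
    rw [hχ d] at hd
    revert hd
    generalize χ (M.cell d) = a
    generalize χ (M.cell (M.rho d)) = b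
    revert a b; decide
  have hl := H.c.lv H.g2
  have hl' := H.c.lv H.h2
  have e1 := M.cell_iota _ hl
  have e2 := cell_rho_iota M hl
  have e3 := M.cell_iota _ hl'
  have e4 := cell_rho_iota M hl'
  rw [M.rho3] at e1 e3
  have cp := tr_col H.c hob hxp hχ0
  have cq := tr_col H.c hob hxq hχ0
  rw [e1, e2] at cp
  rw [e3, e4] at cq
  -- the value on the left of the two arcs
  have k1 := cq _ H.a2
  have k2 := hχ0 _ H.g0
  have k3 := hχ (M.rho (M.rho g))
  rw [H.g2, M.rho3] at k3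
  have hW : ∀ c, χ c ≠ χ (M.cell g) →
      Wc M x (BB M g h) (M.iota (M.rho (M.rho g))) c = 0 := by
    intro c hc
    unfold Wc
    rw [if_neg]
    rintro ⟨p, hp, rfl⟩
    exact hc (cp p hp).1
  have hne : χ (M.cell (M.rho (M.rho g))) ≠ χ (M.cell g) := by
    intro e
    rw [e, z_self] at k3
    exact absurd k3 (by decide)
  refine ⟨H.c, hob, bb_inv M g h, hxp, hxq, ?_, ?_, ?_, ?_⟩
  · rw [M.iota2]; exact memg2 M g h
  · intro p hp
    exact hW _ (by rw [(cp p hp).2]; exact hne)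
  · intro q hq
    unfold Wc
    rw [if_neg]
    rintro ⟨p, hp, e⟩
    exact H.dj p hp q hq e
  · intro q hq
    apply hW
    rw [(cq q hq).2, ← k1.2]
    exact hne

/-- **a theta satisfies the hypotheses of the swap** -/
theorem IsT.sw (hgh : h ∉ Fa M g) (H : IsT M g h y) :
    Sw M (BB M g h) (BB M g h) y (M.iota (M.rho (M.rho g))) (M.iota (M.rho (M.rho h))) ∧
      M.rho g ∈ Tr M y (BB M g h) (M.iota (M.rho (M.rho h))) := by
  set B := BB M g h with hBdef
  have hob : B ⊆ B := subset_rfl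
  have hinv : Inv M B := bb_inv M g h
  have hxp : y (M.iota (M.rho (M.rho g))) = 1 := by rw [H.c.iot]; exact H.g2
  have hxq : y (M.iota (M.rho (M.rho h))) = 1 := by rw [H.c.iot]; exact H.h2
  have hxr : y (M.iota g) = 1 := by rw [H.c.iot]; exact H.g0
  have hx1 : y (M.iota (M.rho g)) = 1 := by rw [H.c.iot]; exact H.g1
  have harc : M.rho g ∈ Tr M y B (M.iota (M.rho (M.rho h))) := by
    have := tr_rev H.c hob hinv hx1 _ H.l1
    rwa [M.iota2] at this
  have hip : M.iota (M.iota (M.rho (M.rho g))) ∈ B := by rw [M.iota2]; exact memg2 M g h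
  have hir : M.iota (M.iota g) ∈ B := by rw [M.iota2]; exact memg M g h
  -- the colouring of the legs 0 and 2
  set a1 := arc M y B (M.iota (M.rho (M.rho g))) with ha1
  set a3 := arc M y B (M.iota g) with ha3
  have s1 : ∀ d, d ∈ B → a1 d = if d = M.rho h ∨ d = M.rho (M.rho g) then 1 else 0 := by
    intro d hd
    have := arc_stop H.c hob hinv hxp H.l2 (memh1 M g h) hd
    rwa [M.iota2] at this
  have s3 : ∀ d, d ∈ B → a3 d = if d = h ∨ d = g then 1 else 0 := by
    intro d hd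
    have := arc_stop H.c hob hinv hxr H.l0 (memh M g h) hd
    rwa [M.iota2] at this
  have n1 := M.rho_ne g
  have n2 := rho2_ne M g
  have n3 : M.rho (M.rho g) ≠ M.rho g := M.rho_ne (M.rho g)
  have m1 := M.rho_ne h
  have m2 := rho2_ne M h
  have m3 : M.rho (M.rho h) ≠ M.rho h := M.rho_ne (M.rho h)
  have gg0 := ne_of_fa hgh (fa0 M g) (fa0 M h)
  have gg1 := ne_of_fa hgh (fa0 M g) (fa1 M h)
  have gg2 := ne_of_fa hgh (fa0 M g) (fa2 M h)
  have gh0 := ne_of_fa hgh (fa1 M g) (fa0 M h)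
  have gh1 := ne_of_fa hgh (fa1 M g) (fa1 M h)
  have gh2 := ne_of_fa hgh (fa1 M g) (fa2 M h)
  have gi0 := ne_of_fa hgh (fa2 M g) (fa0 M h)
  have gi1 := ne_of_fa hgh (fa2 M g) (fa1 M h)
  have gi2 := ne_of_fa hgh (fa2 M g) (fa2 M h)
  have A1g : a1 g = 0 := by rw [s1 _ (memg M g h), if_neg]; tauto
  have A1g1 : a1 (M.rho g) = 0 := by rw [s1 _ (memg1 M g h), if_neg]; tauto
  have A1g2 : a1 (M.rho (M.rho g)) = 1 := by rw [s1 _ (memg2 M g h), if_pos]; tauto
  have A1h : a1 h = 0 := by rw [s1 _ (memh M g h), if_neg]; tauto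
  have A1h1 : a1 (M.rho h) = 1 := by rw [s1 _ (memh1 M g h), if_pos]; tauto
  have A1h2 : a1 (M.rho (M.rho h)) = 0 := by rw [s1 _ (memh2 M g h), if_neg]; tauto
  have A3g : a3 g = 1 := by rw [s3 _ (memg M g h), if_pos]; tauto
  have A3g1 : a3 (M.rho g) = 0 := by rw [s3 _ (memg1 M g h), if_neg]; tauto
  have A3g2 : a3 (M.rho (M.rho g)) = 0 := by rw [s3 _ (memg2 M g h), if_neg]; tauto
  have A3h : a3 h = 1 := by rw [s3 _ (memh M g h), if_pos]; tauto
  have A3h1 : a3 (M.rho h) = 0 := by rw [s3 _ (memh1 M g h), if_neg]; tauto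
  have A3h2 : a3 (M.rho (M.rho h)) = 0 := by rw [s3 _ (memh2 M g h), if_neg]; tauto
  obtain ⟨χ, hχ⟩ := M.ex (fun d => a1 d + a3 d)
    (fun d hd => by
      have h1 := H.c.dead d hd
      show a1 d + a3 d = 0
      rw [ha1, ha3, arc_le H.c hob hxp h1, arc_le H.c hob hxr h1]; decide)
    (fun d => by
      show a1 (M.iota d) + a3 (M.iota d) = a1 d + a3 d
      rw [ha1, ha3, arc_iot, arc_iot])
    (fun d => by
      show a1 d + a3 d + (a1 (M.rho d) + a3 (M.rho d)) +
        (a1 (M.rho (M.rho d)) + a3 (M.rho (M.rho d))) = 0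
      by_cases hd : d ∈ B
      · have hG : ∀ f : D → ZMod 2, f g + f (M.rho g) + f (M.rho (M.rho g)) = 1 → d ∈ Fa M g →
            f d + f (M.rho d) + f (M.rho (M.rho d)) = 1 := by
          intro f hf hd
          rcases hd with rfl | rfl | rfl
          · exact hf
          · rw [sum_rot]; exact hf
          · rw [sum_rot, sum_rot]; exact hf
        have hH : ∀ f : D → ZMod 2, f h + f (M.rho h) + f (M.rho (M.rho h)) = 1 → d ∈ Fa M h →
            f d + f (M.rho d) + f (M.rho (M.rho d)) = 1 := by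
          intro f hf hd
          rcases hd with rfl | rfl | rfl
          · exact hf
          · rw [sum_rot]; exact hf
          · rw [sum_rot, sum_rot]; exact hf
        have e1 : a1 d + a1 (M.rho d) + a1 (M.rho (M.rho d)) = 1 := by
          rcases hd with hd | hd
          · exact hG a1 (by rw [A1g, A1g1, A1g2]; decide) hd
          · exact hH a1 (by rw [A1h, A1h1, A1h2]; decide) hd
        have e3 : a3 d + a3 (M.rho d) + a3 (M.rho (M.rho d)) = 1 := by
          rcases hd with hd | hd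
          · exact hG a3 (by rw [A3g, A3g1, A3g2]; decide) hd
          · exact hH a3 (by rw [A3h, A3h1, A3h2]; decide) hd
        linear_combination e1 + e3 + z_self 1
      · have e1 := arc_off H.c hob hinv hxp hip hd
        have e3 := arc_off H.c hob hinv hxr hir hd
        linear_combination e1 + e3)
  have hχ0 : ∀ d, y d = 0 → χ (M.cell d) = χ (M.cell (M.rho d)) := by
    intro d hd
    have h1 := hχ d
    simp only [ha1, ha3, arc_le H.c hob hxp hd, arc_le H.c hob hxr hd] at h1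
    revert h1
    generalize χ (M.cell d) = a
    generalize χ (M.cell (M.rho d)) = b
    revert a b; decide
  have hl := H.c.lv H.g2
  have e1 := M.cell_iota _ hl
  have e2 := cell_rho_iota M hl
  rw [M.rho3] at e1
  have cp := tr_col H.c hob hxp hχ0
  have cq := tr_col H.c hob hxq hχ0
  rw [e1, e2] at cp
  have k1 := cq _ harc
  have k0 := hχ g
  have k2 := hχ (M.rho (M.rho g))
  simp only [A1g, A3g] at k0
  simp only [A1g2, A3g2, M.rho3] at k2
  have hW : ∀ c, χ c ≠ χ (M.cell g) → Wc M y B (M.iota (M.rho (M.rho g))) c = 0 := by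
    intro c hc
    unfold Wc
    rw [if_neg]
    rintro ⟨p, hp, rfl⟩
    exact hc (cp p hp).1
  have hne2 : χ (M.cell (M.rho (M.rho g))) ≠ χ (M.cell g) := by
    intro e
    rw [e, z_self] at k2
    exact absurd k2 (by decide)
  have hne1 : χ (M.cell (M.rho g)) ≠ χ (M.cell g) := by
    intro e
    rw [e, z_self] at k0
    exact absurd k0 (by decide)
  refine ⟨⟨H.c, hob, hinv, hxp, hxq, hip, ?_, ?_, ?_⟩, harc⟩
  · intro p hp
    exact hW _ (by rw [(cp p hp).2]; exact hne2)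
  · intro q hq
    exact hW _ (by rw [(cq q hq).1, ← k1.1]; exact hne1)
  · intro q hq
    exact hW _ (by rw [(cq q hq).2, ← k1.2]; exact hne2)

/-- the values after the swap in the two faces -/
theorem Sw.face (hgh : h ∉ Fa M g)
    (H : Sw M O (BB M g h) x (M.iota (M.rho (M.rho g))) (M.iota (M.rho (M.rho h))))
    (hl1 : M.rho (M.rho g) ∈ M.live) (hl2 : M.rho (M.rho h) ∈ M.live)
    (ha1 : M.rho h ∈ Tr M x (BB M g h) (M.iota (M.rho (M.rho g))))
    (ha2 : M.rho g ∈ Tr M x (BB M g h) (M.iota (M.rho (M.rho h)))) :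
    let z := sw M x (BB M g h) (M.iota (M.rho (M.rho g)))
    z g = x g + 1 ∧ z (M.rho g) = x (M.rho g) ∧ z (M.rho (M.rho g)) = x (M.rho (M.rho g)) ∧
    z h = x h + 1 ∧ z (M.rho h) = x (M.rho h) ∧ z (M.rho (M.rho h)) = x (M.rho (M.rho h)) ∧
    ∀ d, d ∈ BB M g h →
      arc M x (BB M g h) (M.iota (M.rho (M.rho g))) d +
      arc M x (BB M g h) (M.iota (M.rho (M.rho g))) (M.rho d) +
      arc M x (BB M g h) (M.iota (M.rho (M.rho g))) (M.rho (M.rho d)) = 1 := by
  set B := BB M g h with hBdef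
  set p0 := M.iota (M.rho (M.rho g)) with hp0
  set q0 := M.iota (M.rho (M.rho h)) with hq0
  have s1 : ∀ d, d ∈ B → arc M x B p0 d = if d = M.rho h ∨ d = M.rho (M.rho g) then 1 else 0 := by
    intro d hd
    have := arc_stop H.c H.ob H.inv H.xp ha1 (memh1 M g h) hd
    rwa [hp0, M.iota2] at this
  have n1 := M.rho_ne g
  have n2 := rho2_ne M g
  have n3 : M.rho (M.rho g) ≠ M.rho g := M.rho_ne (M.rho g)
  have m1 := M.rho_ne h
  have m2 := rho2_ne M h
  have m3 : M.rho (M.rho h) ≠ M.rho h := M.rho_ne (M.rho h)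
  have gg0 := ne_of_fa hgh (fa0 M g) (fa0 M h)
  have gg1 := ne_of_fa hgh (fa0 M g) (fa1 M h)
  have gg2 := ne_of_fa hgh (fa0 M g) (fa2 M h)
  have gh0 := ne_of_fa hgh (fa1 M g) (fa0 M h)
  have gh1 := ne_of_fa hgh (fa1 M g) (fa1 M h)
  have gh2 := ne_of_fa hgh (fa1 M g) (fa2 M h)
  have gi0 := ne_of_fa hgh (fa2 M g) (fa0 M h)
  have gi1 := ne_of_fa hgh (fa2 M g) (fa1 M h)
  have gi2 := ne_of_fa hgh (fa2 M g) (fa2 M h)
  have A1g : arc M x B p0 g = 0 := by rw [s1 _ (memg M g h), if_neg]; tauto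
  have A1g1 : arc M x B p0 (M.rho g) = 0 := by rw [s1 _ (memg1 M g h), if_neg]; tauto
  have A1g2 : arc M x B p0 (M.rho (M.rho g)) = 1 := by rw [s1 _ (memg2 M g h), if_pos]; tauto
  have A1h : arc M x B p0 h = 0 := by rw [s1 _ (memh M g h), if_neg]; tauto
  have A1h1 : arc M x B p0 (M.rho h) = 1 := by rw [s1 _ (memh1 M g h), if_pos]; tauto
  have A1h2 : arc M x B p0 (M.rho (M.rho h)) = 0 := by rw [s1 _ (memh2 M g h), if_neg]; tauto
  -- the cells
  have e1 := M.cell_iota _ hl1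
  have e3 := M.cell_iota _ hl2
  rw [M.rho3] at e1 e3
  have Wg : Wc M x B p0 (M.cell g) = 1 := by rw [← e1]; exact wc_mem tr_start
  have Wg1 : Wc M x B p0 (M.cell (M.rho g)) = 0 := H.s2 _ ha2
  have Wg2 : Wc M x B p0 (M.cell (M.rho (M.rho g))) = 0 := H.s3 _ ha2
  have Wh1 : Wc M x B p0 (M.cell (M.rho h)) = 1 := wc_mem ha1
  have Wh2 : Wc M x B p0 (M.cell (M.rho (M.rho h))) = 0 := H.s1 _ ha1
  have Wh : Wc M x B p0 (M.cell h) = 0 := by rw [← e3]; exact H.s2 _ tr_start
  refine ⟨?_, ?_, ?_, ?_, ?_, ?_, ?_⟩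
  · unfold sw dW; rw [A1g, Wg, Wg1, add_zero, add_zero]
  · unfold sw dW; rw [A1g1, Wg1, Wg2, add_zero, add_zero, add_zero]
  · unfold sw dW; rw [A1g2, M.rho3, Wg2, Wg, zero_add, add_assoc, z_self, add_zero]
  · unfold sw dW; rw [A1h, Wh, Wh1, add_zero, zero_add]
  · unfold sw dW; rw [A1h1, Wh1, Wh2, add_zero, add_assoc, z_self, add_zero]
  · unfold sw dW; rw [A1h2, M.rho3, Wh2, Wh, add_zero, add_zero, add_zero]
  · rintro d (hd | hd)
    · rcases hd with rfl | rfl | rfl
      · rw [A1g, A1g1, A1g2]; decide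
      · rw [sum_rot, A1g, A1g1, A1g2]; decide
      · rw [sum_rot, sum_rot, A1g, A1g1, A1g2]; decide
    · rcases hd with rfl | rfl | rfl
      · rw [A1h, A1h1, A1h2]; decide
      · rw [sum_rot, A1h, A1h1, A1h2]; decide
      · rw [sum_rot, sum_rot, A1h, A1h1, A1h2]; decide

/-- **theta from two gaps** -/
theorem IsS.toT [Finite D] (hgh : h ∉ Fa M g) (H : IsS M g h x) :
    IsT M g h (Frame2x395.sw M x (BB M g h) (M.iota (M.rho (M.rho g)))) := by
  have K := H.sw
  have F := Sw.face hgh K (H.c.lv H.g2) (H.c.lv H.h2) H.a1 H.a2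
  set B := BB M g h with hBdef
  set p0 := M.iota (M.rho (M.rho g)) with hp0
  set q0 := M.iota (M.rho (M.rho h)) with hq0
  set z := Frame2x395.sw M x B p0 with hz
  obtain ⟨f1, f2, f3, f4, f5, f6, f7⟩ := F
  have hC : IsC M B z := by
    refine ⟨K.dead, K.iot, fun d => ?_⟩
    rw [hz, K.sum d, if_neg (Set.notMem_empty d), zero_add]
    by_cases hd : d ∈ B
    · rw [if_pos hd]; exact f7 d hd
    · rw [if_neg hd]; exact arc_off K.c K.ob K.inv K.xp K.ip hd
  have zg : z g = 1 := by rw [f1, H.g0]; decide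
  have zg1 : z (M.rho g) = 1 := by rw [f2, H.g1]
  have zg2 : z (M.rho (M.rho g)) = 1 := by rw [f3, H.g2]
  have zh : z h = 1 := by rw [f4, H.h0]; decide
  have zh1 : z (M.rho h) = 1 := by rw [f5, H.h1]
  have zh2 : z (M.rho (M.rho h)) = 1 := by rw [f6, H.h2]
  have t1 : M.rho h ∈ Tr M z B p0 := by rw [K.tr1]; exact H.a1
  have t2 : M.rho g ∈ Tr M z B q0 := by rw [K.tr2]; exact H.a2
  have zp0 : z p0 = 1 := by rw [hp0, hC.iot]; exact zg2
  have zq0 : z q0 = 1 := by rw [hq0, hC.iot]; exact zh2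
  have zr0 : z (M.iota g) = 1 := by rw [hC.iot]; exact zg
  have hinv : Inv M B := bb_inv M g h
  have hob : B ⊆ B := subset_rfl
  have l1 : M.rho (M.rho h) ∈ Tr M z B (M.iota (M.rho g)) := by
    have := tr_rev hC hob hinv zq0 _ t2
    rwa [hq0, M.iota2] at this
  have l1' : M.rho (M.rho g) ∈ Tr M z B (M.iota (M.rho h)) := by
    have := tr_rev hC hob hinv zp0 _ t1
    rwa [hp0, M.iota2] at this
  refine ⟨hC, zg, zg1, zg2, zh, zh1, zh2, ?_, l1, t1⟩
  -- the third leg
  obtain ⟨e, he, heB⟩ := tr_fin hC hob hinv zr0 (by rw [M.iota2]; exact memg M g h)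
  have hr : g ∈ Tr M z B (M.iota e) := by
    have := tr_rev hC hob hinv zr0 _ he
    rwa [M.iota2] at this
  have hgB := memg M g h
  have hno := tr_noret hC hob zr0
  rw [M.iota2] at hno
  rcases heB with (rfl | rfl | rfl) | (rfl | rfl | rfl)
  · exact absurd he hno
  · exact absurd (tr_end hr l1 hgB (memh2 M g h)) (ne_of_fa hgh (fa0 M g) (fa2 M h))
  · exact absurd (tr_end hr t1 hgB (memh1 M g h)) (ne_of_fa hgh (fa0 M g) (fa1 M h))
  · exact he
  · exact absurd (tr_end hr l1' hgB (memg2 M g h)) (rho2_ne M g).symm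
  · exact absurd (tr_end hr t2 hgB (memg1 M g h)) (M.rho_ne g).symm

/-- **two gaps from a theta** -/
theorem IsT.toS (hgh : h ∉ Fa M g) (H : IsT M g h y) :
    IsS M g h (Frame2x395.sw M y (BB M g h) (M.iota (M.rho (M.rho g)))) := by
  obtain ⟨K, ha2⟩ := H.sw hgh
  have F := Sw.face hgh K (H.c.lv H.g2) (H.c.lv H.h2) H.l2 ha2
  set B := BB M g h with hBdef
  set p0 := M.iota (M.rho (M.rho g)) with hp0
  set q0 := M.iota (M.rho (M.rho h)) with hq0
  set z := Frame2x395.sw M y B p0 with hz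
  obtain ⟨f1, f2, f3, f4, f5, f6, f7⟩ := F
  have hC : IsC M ∅ z := by
    refine ⟨K.dead, K.iot, fun d => ?_⟩
    rw [hz, K.sum d, if_neg (Set.notMem_empty d)]
    by_cases hd : d ∈ B
    · rw [if_pos hd, f7 d hd]; decide
    · rw [if_neg hd, arc_off K.c K.ob K.inv K.xp K.ip hd]; decide
  refine ⟨hC, ?_, ?_, ?_, ?_, ?_, ?_, ?_, ?_, ?_⟩
  · rw [f1, H.g0]; decide
  · rw [f2, H.g1]
  · rw [f3, H.g2]
  · rw [f4, H.h0]; decide
  · rw [f5, H.h1]
  · rw [f6, H.h2]
  · rw [K.tr1]; exact H.l2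
  · rw [K.tr2]; exact ha2
  · rw [K.tr1, K.tr2]
    intro p hp q hq e
    have := K.s2 q hq
    rw [← e, wc_mem hp] at this
    exact absurd this (by decide)

variable [Fintype D]

/-- numbers -/
def nS (M : CMap D C) (g h : D) : ℕ := (Finset.univ.filter (IsS M g h)).card

def nT (M : CMap D C) (g h : D) : ℕ := (Finset.univ.filter (IsT M g h)).card

/-- **bijection** -/
theorem card_eq (hgh : h ∉ Fa M g) : nS M g h = nT M g h := by
  unfold nS nT
  refine Finset.card_bij' (fun x _ => Frame2x395.sw M x (BB M g h) (M.iota (M.rho (M.rho g))))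
    (fun x _ => Frame2x395.sw M x (BB M g h) (M.iota (M.rho (M.rho g)))) ?_ ?_ ?_ ?_
  · intro x hx
    exact Finset.mem_filter.2 ⟨Finset.mem_univ _, IsS.toT hgh (Finset.mem_filter.1 hx).2⟩
  · intro x hx
    exact Finset.mem_filter.2 ⟨Finset.mem_univ _, IsT.toS hgh (Finset.mem_filter.1 hx).2⟩
  · intro x hx
    exact (Finset.mem_filter.1 hx).2.sw.invol
  · intro x hx
    exact ((Finset.mem_filter.1 hx).2.sw hgh).1.invol

theorem nT_rot : nT M (M.rho g) (M.rho (M.rho h)) = nT M g h := by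
  unfold nT
  congr 1
  ext y
  simp only [Finset.mem_filter, Finset.mem_univ, true_and]
  exact isT_rot

end two

end Crest.Agent.R143.Frame2x395
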