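import Crest.Agent.R143.Frame2_395

/-!
# Row 143 (S0194), part B without E3: the tight frame, part 3 (helper395, after helper493)

* `Gp`, `Rel` : gaps and the equivalence relation "same loop, same side, separated arcs", defined
  cell by cell (`Sc`), so that transitivity is easy; `rel_iff` : `Rel` = `IsS`
* `lab` : labels of the classes
-/

set_option autoImplicit false

noncomputable section

open scoped Classical

namespace Crest.Agent.R143.Frame3x395

open Crest.Agent.R143.Frame1x395 Crest.Agent.R143.Frame2x395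

variable {D C : Type} {M : CMap D C} {x y : D → ZMod 2}

/-- `g` is the unoccupied side of a face of degree two -/
def Gp (M : CMap D C) (x : D → ZMod 2) (g : D) : Prop := x g = 0 ∧ x (M.rho g) = 1

/-- state after the gap `g` (the gap is on the left) -/
def out (M : CMap D C) (g : D) : D := M.iota (M.rho (M.rho g))

theorem Gp.two (h : IsC M ∅ x) {g : D} (hg : Gp M x g) : x (M.rho (M.rho g)) = 1 := by
  have h1 := h.par g
  rw [if_neg (Set.notMem_empty g), hg.1, hg.2] at h1
  revert h1
  generalize x (M.rho (M.rho g)) = a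
  revert a; decide

theorem Gp.stp (h : IsC M ∅ x) {g : D} (hg : Gp M x g) : stp M x (M.rho g) = out M g := by
  unfold Frame1x395.stp out
  rw [if_pos (hg.two h)]

theorem Gp.out (h : IsC M ∅ x) {g : D} (hg : Gp M x g) : x (out M g) = 1 := by
  unfold Frame3x395.out
  rw [h.iot]; exact hg.two h

theorem out_inj {g h : D} (e : out M g = out M h) : g = h :=
  rho_inj M (rho_inj M (iota_inj M e))

theorem occ_it (h : IsC M ∅ x) {p : D} (hp : x p = 1) (n : ℕ) : x ((stp M x)^[n] p) = 1 := by
  induction n with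
  | zero => exact hp
  | succ n ih =>
    rw [Function.iterate_succ_apply']
    exact stp_occ h ih (Set.notMem_empty _)

/-- iterates are injective -/
theorem it_inj (h : IsC M ∅ x) {p q : D} (hp : x p = 1) (hq : x q = 1) (n : ℕ)
    (e : (stp M x)^[n] p = (stp M x)^[n] q) : p = q := by
  induction n with
  | zero => exact e
  | succ n ih =>
    rw [Function.iterate_succ_apply', Function.iterate_succ_apply'] at e
    exact ih (stp_inj h (occ_it h hp n) (Set.notMem_empty _) (occ_it h hq n)
      (Set.notMem_empty _) e)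

/-- the walk from `p` arrives at `q` and avoids the cell `c` on its left -/
def Av (M : CMap D C) (x : D → ZMod 2) (c : C) (p q : D) : Prop :=
  ∃ n, (stp M x)^[n] p = q ∧ ∀ k ≤ n, M.cell ((stp M x)^[k] p) ≠ c

theorem av_comp (h : IsC M ∅ x) {c : C} {p q g : D} (hg : Gp M x g) (h1 : Av M x c p (M.rho g))
    (h2 : Av M x c (out M g) q) : Av M x c p q := by
  obtain ⟨n, a1, a2⟩ := h1
  obtain ⟨m, b1, b2⟩ := h2
  have e : (stp M x)^[n + 1] p = out M g := by
    rw [Function.iterate_succ_apply', a1, hg.stp h]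
  have e2 : ∀ j, (stp M x)^[j + (n + 1)] p = (stp M x)^[j] (out M g) := by
    intro j
    rw [Function.iterate_add_apply, e]
  refine ⟨m + (n + 1), by rw [e2, b1], fun k hk => ?_⟩
  rcases le_or_gt k n with hl | hl
  · exact a2 k hl
  · have := e2 (k - (n + 1))
    rw [show k - (n + 1) + (n + 1) = k by omega] at this
    rw [this]
    exact b2 _ (by omega)

theorem av_fork (h : IsC M ∅ x) {c : C} {p g k : D} (hg : Gp M x g) (hk : Gp M x k)
    (h1 : Av M x c p (M.rho g)) (h2 : Av M x c p (M.rho k)) :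
    g = k ∨ Av M x c (out M g) (M.rho k) ∨ Av M x c (out M k) (M.rho g) := by
  obtain ⟨n, a1, a2⟩ := h1
  obtain ⟨m, b1, b2⟩ := h2
  have key : ∀ {g k : D} {n m : ℕ}, Gp M x g → (stp M x)^[n] p = M.rho g →
      (stp M x)^[m] p = M.rho k → (∀ k ≤ m, M.cell ((stp M x)^[k] p) ≠ c) → n < m →
      Av M x c (out M g) (M.rho k) := by
    intro g k n m hg a1 b1 b2 hl
    have e : (stp M x)^[n + 1] p = out M g := by
      rw [Function.iterate_succ_apply', a1, hg.stp h]
    have e2 : ∀ j, (stp M x)^[j + (n + 1)] p = (stp M x)^[j] (out M g) := by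
      intro j
      rw [Function.iterate_add_apply, e]
    refine ⟨m - (n + 1), ?_, fun k hk => ?_⟩
    · rw [← e2, show m - (n + 1) + (n + 1) = m by omega, b1]
    · rw [← e2]; exact b2 _ (by omega)
  rcases lt_trichotomy n m with hl | rfl | hl
  · exact Or.inr (Or.inl (key hg a1 b1 b2 hl))
  · left; exact rho_inj M (a1.symm.trans b1)
  · exact Or.inr (Or.inr (key hk b1 a1 a2 hl))

theorem av_join (h : IsC M ∅ x) {c : C} {q g k : D} (hg : Gp M x g) (hk : Gp M x k)
    (h1 : Av M x c (out M g) q) (h2 : Av M x c (out M k) q) :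
    g = k ∨ Av M x c (out M g) (M.rho k) ∨ Av M x c (out M k) (M.rho g) := by
  obtain ⟨n, a1, a2⟩ := h1
  obtain ⟨m, b1, b2⟩ := h2
  have key : ∀ {g k : D} {n m : ℕ}, Gp M x g → Gp M x k → (stp M x)^[n] (out M g) = q →
      (stp M x)^[m] (out M k) = q → (∀ j ≤ m, M.cell ((stp M x)^[j] (out M k)) ≠ c) → n < m →
      Av M x c (out M k) (M.rho g) := by
    intro g k n m hg hk a1 b1 b2 hl
    have e : out M g = (stp M x)^[m - n] (out M k) := by
      apply it_inj h (hg.out h) (occ_it h (hk.out h) _) n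
      rw [← Function.iterate_add_apply, show n + (m - n) = m by omega, a1, b1]
    have e2 : (stp M x)^[m - n - 1] (out M k) = M.rho g := by
      rw [← hg.stp h, show m - n = (m - n - 1) + 1 by omega, Function.iterate_succ_apply'] at e
      exact (stp_inj h hg.2 (Set.notMem_empty _) (occ_it h (hk.out h) _) (Set.notMem_empty _)
        e).symm
    exact ⟨_, e2, fun j hj => b2 j (by omega)⟩
  rcases lt_trichotomy n m with hl | rfl | hl
  · exact Or.inr (Or.inr (key hg hk a1 b1 b2 hl))
  · left
    exact out_inj (it_inj h (hg.out h) (hk.out h) n (a1.trans b1.symm))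
  · exact Or.inr (Or.inl (key hk hg b1 a1 a2 hl))

/-- the relation for one cell -/
def Sc (M : CMap D C) (x : D → ZMod 2) (c : C) (g h : D) : Prop :=
  g = h ∨ Av M x c (out M g) (M.rho h) ∨ Av M x c (out M h) (M.rho g)

theorem Sc.symm {c : C} {g h : D} (H : Sc M x c g h) : Sc M x c h g := by
  rcases H with rfl | H | H
  · exact Or.inl rfl
  · exact Or.inr (Or.inr H)
  · exact Or.inr (Or.inl H)

theorem Sc.trans (h : IsC M ∅ x) {c : C} {g k l : D} (hg : Gp M x g) (hk : Gp M x k)
    (hl : Gp M x l) (h1 : Sc M x c g k) (h2 : Sc M x c k l) : Sc M x c g l := by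
  rcases h1 with rfl | h1 | h1
  · exact h2
  · rcases h2 with rfl | h2 | h2
    · exact Or.inr (Or.inl h1)
    · exact Or.inr (Or.inl (av_comp h hk h1 h2))
    · exact av_join h hg hl h1 h2
  · rcases h2 with rfl | h2 | h2
    · exact Or.inr (Or.inr h1)
    · exact av_fork h hg hl h1 h2
    · exact Or.inr (Or.inr (av_comp h hk h2 h1))

/-- **the relation** -/
def Rel (M : CMap D C) (x : D → ZMod 2) (g h : D) : Prop := ∀ c, Sc M x c g h

/-- periodicity -/
theorem periodic [Finite D] (h : IsC M ∅ x) {p : D} (hp : x p = 1) :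
    ∃ N, 0 < N ∧ (stp M x)^[N] p = p := by
  obtain ⟨a, b, hab, e⟩ := Finite.exists_ne_map_eq_of_infinite (fun n : ℕ => (stp M x)^[n] p)
  have key : ∀ a b : ℕ, a < b → (stp M x)^[a] p = (stp M x)^[b] p →
      ∃ N, 0 < N ∧ (stp M x)^[N] p = p := by
    intro a b hl e
    refine ⟨b - a, by omega, ?_⟩
    apply it_inj h (occ_it h hp _) hp a
    rw [← Function.iterate_add_apply, show a + (b - a) = b by omega, ← e]
  rcases lt_or_gt_of_ne hab with hl | hl
  · exact key a b hl e
  · exact key b a hl e.symm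

theorem per_mul {p : D} {N : ℕ} (e : (stp M x)^[N] p = p) (j : ℕ) :
    (stp M x)^[j * N] p = p := by
  induction j with
  | zero => rw [zero_mul]; rfl
  | succ j ih => rw [Nat.succ_mul, Function.iterate_add_apply, e, ih]

/-- on the same loop -/
theorem come_back [Finite D] (h : IsC M ∅ x) {g k : D} (hg : Gp M x g) (hk : Gp M x k) {n : ℕ}
    (e : (stp M x)^[n] (out M g) = M.rho k) : ∃ m, (stp M x)^[m] (out M k) = M.rho g := by
  obtain ⟨N, hN, eN⟩ := periodic h hg.2
  have e2 := per_mul eN (n + 2)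
  have h3 : n + 2 ≤ (n + 2) * N := Nat.le_mul_of_pos_right _ hN
  refine ⟨(n + 2) * N - (n + 2), ?_⟩
  have e4 : (stp M x)^[n + 2] (M.rho g) = out M k := by
    rw [show n + 2 = (n + 1) + 1 by omega, Function.iterate_succ_apply, hg.stp h,
      Function.iterate_succ_apply', e, hk.stp h]
  rw [← e4, ← Function.iterate_add_apply, Nat.sub_add_cancel h3, e2]

/-- colours on the left of a loop -/
theorem it_col (h : IsC M ∅ x) {p0 : D} (h0 : x p0 = 1) {χ : C → ZMod 2}
    (hχ : ∀ d, x d = 0 → χ (M.cell d) = χ (M.cell (M.rho d))) (n : ℕ) :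
    χ (M.cell ((stp M x)^[n] p0)) = χ (M.cell p0) :=
  (tr_col h subset_rfl h0 hχ ((stp M x)^[n] p0)
    ⟨n, rfl, fun _ _ => Set.notMem_empty _⟩).1

theorem gp_fa (h : IsC M ∅ x) {g k : D} (hg : Gp M x g) (hk : Gp M x k) (hne : g ≠ k) :
    k ∉ Fa M g := by
  rintro (rfl | rfl | rfl)
  · exact hne rfl
  · have h1 := hk.1
    rw [hg.2] at h1
    exact absurd h1 (by decide)
  · have h1 := hk.1
    rw [hg.two h] at h1
    exact absurd h1 (by decide)

/-- **`Rel` for different gaps = separated arcs** -/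
theorem rel_iff [Finite D] (h : IsC M ∅ x) {g k : D} (hg : Gp M x g) (hk : Gp M x k)
    (hne : g ≠ k) : Rel M x g k ↔ IsS M g k x := by
  constructor
  · intro H
    have ex1 : (∃ n, (stp M x)^[n] (out M g) = M.rho k) ∧
        ∃ m, (stp M x)^[m] (out M k) = M.rho g := by
      rcases H (M.cell g) with h1 | ⟨n, h1, -⟩ | ⟨m, h1, -⟩
      · exact absurd h1 hne
      · exact ⟨⟨n, h1⟩, come_back h hg hk h1⟩
      · exact ⟨come_back h hk hg h1, ⟨m, h1⟩⟩
    obtain ⟨E1, E2⟩ := ex1
    set n := Nat.find E1 with hn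
    set m := Nat.find E2 with hm
    have en : (stp M x)^[n] (out M g) = M.rho k := Nat.find_spec E1
    have em : (stp M x)^[m] (out M k) = M.rho g := Nat.find_spec E2
    have mn : ∀ j, (stp M x)^[j] (out M g) = M.rho k → n ≤ j := fun j hj => Nat.find_min' E1 hj
    have mm : ∀ j, (stp M x)^[j] (out M k) = M.rho g → m ≤ j := fun j hj => Nat.find_min' E2 hj
    have dj : ∀ a ≤ n, ∀ b ≤ m,
        M.cell ((stp M x)^[a] (out M g)) ≠ M.cell ((stp M x)^[b] (out M k)) := by
      intro a ha b hb e
      rcases H (M.cell ((stp M x)^[a] (out M g))) with h1 | ⟨n', h1, h2⟩ | ⟨m', h1, h2⟩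
      · exact hne h1
      · exact h2 a (ha.trans (mn n' h1)) rfl
      · exact h2 b (hb.trans (mm m' h1)) e.symm
    obtain ⟨χ, hχ⟩ := M.ex x h.dead h.iot
      (fun d => by rw [h.par d, if_neg (Set.notMem_empty d)])
    have hχ0 : ∀ d, x d = 0 → χ (M.cell d) = χ (M.cell (M.rho d)) := by
      intro d hd
      rw [hχ d] at hd
      revert hd
      generalize χ (M.cell d) = a
      generalize χ (M.cell (M.rho d)) = b
      revert a b; decide
    have hχ1 : ∀ d, x d = 1 → χ (M.cell d) ≠ χ (M.cell (M.rho d)) := by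
      intro d hd
      rw [hχ d] at hd
      revert hd
      generalize χ (M.cell d) = a
      generalize χ (M.cell (M.rho d)) = b
      revert a b; decide
    -- no early visit of the two faces
    have key : ∀ {g k : D} {n m : ℕ}, Gp M x g → Gp M x k →
        (stp M x)^[n] (out M g) = M.rho k → (stp M x)^[m] (out M k) = M.rho g →
        (∀ j, (stp M x)^[j] (out M g) = M.rho k → n ≤ j) →
        (∀ a ≤ n, ∀ b ≤ m,
          M.cell ((stp M x)^[a] (out M g)) ≠ M.cell ((stp M x)^[b] (out M k))) →
        ∀ j < n, (stp M x)^[j] (out M g) ∉ BB M g k := by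
      intro g k n m hg hk en em mn dj j hj hB
      have c0 := it_col h (hg.out h) hχ0 j
      have cn := it_col h (hg.out h) hχ0 n
      have e1 : M.cell (out M g) = M.cell g := by
        unfold out
        rw [M.cell_iota _ (h.lv (hg.two h)), M.rho3]
      rw [en] at cn
      have xo := occ_it h (hg.out h) j
      rcases hB with (hB | hB | hB) | (hB | hB | hB)
      · rw [hB, hg.1] at xo; exact absurd xo (by decide)
      · exact dj j hj.le m le_rfl (by rw [hB, em])
      · rw [hB, e1] at c0
        have := hχ1 _ (hg.two h)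
        rw [M.rho3] at this
        exact this c0
      · rw [hB, hk.1] at xo; exact absurd xo (by decide)
      · have := mn j hB
        omega
      · rw [hB, ← cn] at c0
        exact hχ1 _ hk.2 c0.symm
    have nb1 := key hg hk en em mn dj
    have nb2 : ∀ j < m, (stp M x)^[j] (out M k) ∉ BB M g k := by
      rw [bb_symm]
      exact key hk hg em en mm fun a ha b hb e => dj b hb a ha e.symm
    refine ⟨h, hg.1, hg.2, hg.two h, hk.1, hk.2, hk.two h, ⟨n, en, nb1⟩, ⟨m, em, nb2⟩, ?_⟩
    rintro p ⟨a, rfl, ha⟩ q ⟨b, rfl, hb⟩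
    have ha' : a ≤ n := by
      by_contra hc
      push Not at hc
      apply ha n hc
      show (stp M x)^[n] (out M g) ∈ BB M g k
      rw [en]; exact memh1 M g k
    have hb' : b ≤ m := by
      by_contra hc
      push Not at hc
      apply hb m hc
      show (stp M x)^[m] (out M k) ∈ BB M g k
      rw [em]; exact memg1 M g k
    exact dj a ha' b hb'
  · intro H c
    right
    obtain ⟨n, en, hn⟩ := H.a1
    obtain ⟨m, em, hm⟩ := H.a2
    by_cases hc : ∀ j ≤ n, M.cell ((stp M x)^[j] (out M g)) ≠ c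
    · left
      exact ⟨n, en, hc⟩
    · right
      push Not at hc
      obtain ⟨a, ha, hac⟩ := hc
      refine ⟨m, em, fun b hb e => ?_⟩
      refine H.dj _ ⟨a, rfl, fun j hj => hn j (by omega)⟩ _ ⟨b, rfl, fun j hj => hm j (by omega)⟩ ?_
      exact hac.trans e.symm

/-- labels of the classes -/
def lab (M : CMap D C) (x : D → ZMod 2) (g : D) : D :=
  @Classical.epsilon D ⟨g⟩ fun h => Gp M x h ∧ Rel M x g h

theorem lab_iff (h : IsC M ∅ x) {g k : D} (hg : Gp M x g) (hk : Gp M x k) :
    lab M x g = lab M x k ↔ Rel M x g k := by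
  have s1 : ∀ {g : D}, Gp M x g → Gp M x (lab M x g) ∧ Rel M x g (lab M x g) := by
    intro g hg
    exact @Classical.epsilon_spec_aux D ⟨g⟩ (fun h => Gp M x h ∧ Rel M x g h)
      ⟨g, hg, fun _ => Or.inl rfl⟩
  constructor
  · intro e c
    have h1 := s1 hg
    have h2 := s1 hk
    rw [← e] at h2
    exact (h1.2 c).trans h hg h1.1 hk (h2.2 c).symm
  · intro H
    unfold lab
    congr 1
    funext l
    apply propext
    constructor
    · rintro ⟨h1, h2⟩
      exact ⟨h1, fun c => (H c).symm.trans h hk hg h1 (h2 c)⟩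
    · rintro ⟨h1, h2⟩
      exact ⟨h1, fun c => (H c).trans h hg hk h1 (h2 c)⟩

end Crest.Agent.R143.Frame3x395
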