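import Crest.Agent.R143.Frame3_395

/-!
# Row 143 (S0194), part B without E3: the tight frame, part 4 (helper395, after helper493)

* Gram identities for the vectors `V b` and Bessel's inequality
* `frame_abs` : `∑ ‖nT b0 b + w nT b0 (rho b) + w² nT b0 (rho² b)‖² ≤ (nE / 4)²`
-/

set_option autoImplicit false

noncomputable section

open scoped Classical

namespace Crest.Agent.R143.Frame4x395

open Crest.Agent.R143.Frame1x395 Crest.Agent.R143.Frame2x395 Crest.Agent.R143.Frame3x395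

/-! ### Bessel -/

section bessel

variable {I B : Type} [Fintype I]

/-- bilinear product -/
def ip (u v : I → ℂ) : ℂ := ∑ i, u i * v i

/-- hermitian square -/
def nn (u : I → ℂ) : ℝ := ∑ i, ‖u i‖ ^ 2

theorem ip_star (u : I → ℂ) : ip (fun i => (starRingEnd ℂ) (u i)) u = (nn u : ℂ) := by
  unfold ip nn
  push_cast
  refine Finset.sum_congr rfl fun i _ => ?_
  rw [mul_comm, Complex.mul_conj, Complex.normSq_eq_norm_sq]
  push_cast
  rfl

theorem cs (u v : I → ℂ) : ‖ip u v‖ ^ 2 ≤ nn u * nn v := by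
  have h1 : ‖ip u v‖ ≤ ∑ i, ‖u i‖ * ‖v i‖ := by
    refine (norm_sum_le _ _).trans (le_of_eq ?_)
    exact Finset.sum_congr rfl fun i _ => norm_mul _ _
  have h2 := Finset.sum_mul_sq_le_sq_mul_sq Finset.univ (fun i => ‖u i‖) (fun i => ‖v i‖)
  calc ‖ip u v‖ ^ 2 ≤ (∑ i, ‖u i‖ * ‖v i‖) ^ 2 := by
        exact pow_le_pow_left₀ (norm_nonneg _) h1 2
    _ ≤ _ := h2

/-- **Bessel's inequality** with a bilinear test vector -/
theorem bessel {F : Finset B} {V : B → I → ℂ} {U : I → ℂ} {K : ℝ}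
    (hoff : ∀ b ∈ F, ∀ b' ∈ F, b ≠ b' → ip (fun i => (starRingEnd ℂ) (V b i)) (V b') = 0)
    (hd : ∀ b ∈ F, nn (V b) ≤ K) (hU : nn U ≤ K) :
    ∑ b ∈ F, ‖ip U (V b)‖ ^ 2 ≤ K ^ 2 := by
  set S : B → ℂ := fun b => ip U (V b) with hS
  set T : I → ℂ := fun i => ∑ b ∈ F, (starRingEnd ℂ) (S b) * V b i with hT
  set A : ℝ := ∑ b ∈ F, ‖S b‖ ^ 2 with hA
  have hA0 : 0 ≤ A := Finset.sum_nonneg fun b _ => by positivity
  have hK0 : 0 ≤ K := le_trans (Finset.sum_nonneg fun i _ => by positivity) hU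
  have h1 : ip U T = (A : ℂ) := by
    unfold ip
    rw [hT, hA]
    push_cast
    calc ∑ i, U i * ∑ b ∈ F, (starRingEnd ℂ) (S b) * V b i
        = ∑ b ∈ F, ∑ i, (starRingEnd ℂ) (S b) * (U i * V b i) := by
          rw [Finset.sum_comm]
          refine Finset.sum_congr rfl fun i _ => ?_
          rw [Finset.mul_sum]
          exact Finset.sum_congr rfl fun b _ => by ring
      _ = ∑ b ∈ F, (starRingEnd ℂ) (S b) * S b := by
          refine Finset.sum_congr rfl fun b _ => ?_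
          rw [← Finset.mul_sum]
          rfl
      _ = _ := by
          refine Finset.sum_congr rfl fun b _ => ?_
          rw [mul_comm, Complex.mul_conj, Complex.normSq_eq_norm_sq]
          push_cast
          rfl
  have h2 : (nn T : ℂ) = ((∑ b ∈ F, ‖S b‖ ^ 2 * nn (V b) : ℝ) : ℂ) := by
    rw [← ip_star]
    unfold ip
    have e1 : ∀ i, (starRingEnd ℂ) (T i) * T i =
        ∑ b ∈ F, ∑ b' ∈ F, (S b * (starRingEnd ℂ) (S b')) *
          ((starRingEnd ℂ) (V b i) * V b' i) := by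
      intro i
      rw [hT]
      simp only [map_sum, map_mul, Complex.conj_conj]
      rw [Finset.sum_mul_sum]
      refine Finset.sum_congr rfl fun b _ => Finset.sum_congr rfl fun b' _ => by ring
    rw [Finset.sum_congr rfl fun i _ => e1 i, Finset.sum_comm]
    push_cast
    refine Finset.sum_congr rfl fun b hb => ?_
    rw [Finset.sum_comm]
    have e2 : ∀ b' ∈ F, ∑ i, (S b * (starRingEnd ℂ) (S b')) *
        ((starRingEnd ℂ) (V b i) * V b' i) =
        if b' = b then (‖S b‖ : ℂ) ^ 2 * (nn (V b) : ℂ) else 0 := by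
      intro b' hb'
      rw [← Finset.mul_sum]
      by_cases e : b' = b
      · rw [if_pos e, e]
        have := ip_star (V b)
        unfold ip at this
        rw [this, Complex.mul_conj, Complex.normSq_eq_norm_sq]
        push_cast
        rfl
      · rw [if_neg e]
        have := hoff b hb b' hb' (Ne.symm e)
        unfold ip at this
        rw [this, mul_zero]
    rw [Finset.sum_congr rfl e2, Finset.sum_ite_eq' F b]
    rw [if_pos hb]
  have h3 : nn T ≤ K * A := by
    have h4 : nn T = ∑ b ∈ F, ‖S b‖ ^ 2 * nn (V b) := by exact_mod_cast h2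
    rw [h4, hA, Finset.mul_sum]
    refine Finset.sum_le_sum fun b hb => ?_
    rw [mul_comm K]
    exact mul_le_mul_of_nonneg_left (hd b hb) (by positivity)
  have h5 := cs U T
  rw [h1, Complex.norm_real, Real.norm_eq_abs, sq_abs] at h5
  have h6 : A ^ 2 ≤ K ^ 2 * A := by
    calc A ^ 2 ≤ nn U * nn T := h5
      _ ≤ K * (K * A) := by
          apply mul_le_mul hU h3 (Finset.sum_nonneg fun i _ => by positivity) hK0
      _ = K ^ 2 * A := by ring
  rcases hA0.eq_or_lt with h0 | h0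
  · rw [← h0]; positivity
  · have : A * A ≤ K ^ 2 * A := by rw [← sq]; exact h6
    exact le_of_mul_le_mul_right this h0

end bessel

/-! ### Gram identities -/

variable {D C : Type} [Fintype D] {M : CMap D C}

/-- index type -/
abbrev Ix (D : Type) := (D → ZMod 2) × D

/-- indicator of the gap `g` with its label -/
def Ind (M : CMap D C) (g : D) (i : Ix D) : ℂ :=
  if IsC M ∅ i.1 ∧ Gp M i.1 g ∧ lab M i.1 g = i.2 then 1 else 0

/-- vector of a face -/
def V (M : CMap D C) (w : ℂ) (b : D) (i : Ix D) : ℂ :=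
  Ind M b i + w * Ind M (M.rho b) i + w ^ 2 * Ind M (M.rho (M.rho b)) i

/-- the configurations with the gaps `g`, `h` in the same class -/
def nP (M : CMap D C) (g h : D) : ℕ :=
  (Finset.univ.filter fun x => IsC M ∅ x ∧ Gp M x g ∧ Gp M x h ∧ lab M x g = lab M x h).card

theorem ip_ind (g h : D) : ip (Ind M g) (Ind M h) = (nP M g h : ℂ) := by
  unfold ip nP
  rw [Fintype.sum_prod_type]
  have e : ∀ x : D → ZMod 2, ∑ r : D, Ind M g (x, r) * Ind M h (x, r) =
      if IsC M ∅ x ∧ Gp M x g ∧ Gp M x h ∧ lab M x g = lab M x h then 1 else 0 := by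
    intro x
    unfold Ind
    by_cases hx : IsC M ∅ x ∧ Gp M x g ∧ Gp M x h ∧ lab M x g = lab M x h
    · rw [if_pos hx, Finset.sum_eq_single (lab M x g)]
      · rw [if_pos ⟨hx.1, hx.2.1, rfl⟩, if_pos ⟨hx.1, hx.2.2.1, hx.2.2.2.symm⟩, mul_one]
      · intro r _ hr
        rw [if_neg, zero_mul]
        rintro ⟨-, -, e⟩
        exact hr e.symm
      · intro hc
        exact absurd (Finset.mem_univ _) hc
    · rw [if_neg hx]
      refine Finset.sum_eq_zero fun r _ => ?_
      by_cases h1 : IsC M ∅ x ∧ Gp M x g ∧ lab M x g = r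
      · by_cases h2 : IsC M ∅ x ∧ Gp M x h ∧ lab M x h = r
        · exact absurd ⟨h1.1, h1.2.1, h2.2.1, h1.2.2.trans h2.2.2.symm⟩ hx
        · rw [if_neg h2, mul_zero]
      · rw [if_neg h1, zero_mul]
  rw [Finset.sum_congr rfl fun x _ => e x, Finset.sum_boole]

/-- different faces -/
theorem nP_eq {g h : D} (hgh : h ∉ Fa M g) : nP M g h = nT M g h := by
  rw [← card_eq hgh]
  unfold nP nS
  congr 1
  ext x
  simp only [Finset.mem_filter, Finset.mem_univ, true_and]
  have hne : g ≠ h := ne_of_fa hgh (fa0 M g) (fa0 M h)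
  constructor
  · rintro ⟨h1, h2, h3, h4⟩
    exact (rel_iff h1 h2 h3 hne).1 ((lab_iff h1 h2 h3).1 h4)
  · intro H
    have h2 : Gp M x g := ⟨H.g0, H.g1⟩
    have h3 : Gp M x h := ⟨H.h0, H.h1⟩
    exact ⟨H.c, h2, h3, (lab_iff H.c h2 h3).2 ((rel_iff H.c h2 h3 hne).2 H)⟩

/-- two sides of one face -/
theorem nP_face {g h : D} (hgh : h ∈ Fa M g) (hne : g ≠ h) : nP M g h = 0 := by
  unfold nP
  rw [Finset.card_eq_zero, Finset.filter_eq_empty_iff]
  rintro x - ⟨h1, h2, h3, -⟩
  exact gp_fa h1 h2 h3 hne hgh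

/-- number of configurations with the gap `g` -/
def nG (M : CMap D C) (g : D) : ℕ :=
  (Finset.univ.filter fun x => IsC M ∅ x ∧ Gp M x g).card

theorem nP_self (g : D) : nP M g g = nG M g := by
  unfold nP nG
  congr 1
  ext x
  simp

theorem ip_add_left {I : Type} [Fintype I] (u v w : I → ℂ) :
    ip (fun i => u i + v i) w = ip u w + ip v w := by
  unfold ip
  rw [← Finset.sum_add_distrib]
  exact Finset.sum_congr rfl fun i _ => by ring

theorem ip_add_right {I : Type} [Fintype I] (u v w : I → ℂ) :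
    ip w (fun i => u i + v i) = ip w u + ip w v := by
  unfold ip
  rw [← Finset.sum_add_distrib]
  exact Finset.sum_congr rfl fun i _ => by ring

theorem ip_mul_left {I : Type} [Fintype I] (a : ℂ) (u w : I → ℂ) :
    ip (fun i => a * u i) w = a * ip u w := by
  unfold ip
  rw [Finset.mul_sum]
  exact Finset.sum_congr rfl fun i _ => by ring

theorem ip_mul_right {I : Type} [Fintype I] (a : ℂ) (u w : I → ℂ) :
    ip w (fun i => a * u i) = a * ip w u := by
  unfold ip
  rw [Finset.mul_sum]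
  exact Finset.sum_congr rfl fun i _ => by ring

/-- general expansion -/
theorem ip_V (a b : ℂ) (g h : D) :
    ip (V M a g) (V M b h) =
      nP M g h + b * nP M g (M.rho h) + b ^ 2 * nP M g (M.rho (M.rho h)) +
      a * (nP M (M.rho g) h + b * nP M (M.rho g) (M.rho h) +
        b ^ 2 * nP M (M.rho g) (M.rho (M.rho h))) +
      a ^ 2 * (nP M (M.rho (M.rho g)) h + b * nP M (M.rho (M.rho g)) (M.rho h) +
        b ^ 2 * nP M (M.rho (M.rho g)) (M.rho (M.rho h))) := by
  have e : ∀ (c : ℂ) (k : D), V M c k = fun i => (Ind M k i + c * Ind M (M.rho k) i) +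
      c ^ 2 * Ind M (M.rho (M.rho k)) i := fun c k => rfl
  rw [e a g, ip_add_left, ip_add_left, ip_mul_left, ip_mul_left, e b h]
  simp only [ip_add_right, ip_mul_right, ip_ind]

theorem V_conj (w : ℂ) (b : D) (i : Ix D) :
    (starRingEnd ℂ) (V M w b i) = V M ((starRingEnd ℂ) w) b i := by
  have h : ∀ k, (starRingEnd ℂ) (Ind M k i) = Ind M k i := by
    intro k
    unfold Ind
    split_ifs <;> simp
  unfold V
  simp only [map_add, map_mul, map_pow, h]

section gram

variable {w : ℂ} {g h : D}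

/-- the nine numbers of thetas are three -/
theorem nT_three :
    nT M (M.rho g) h = nT M g (M.rho h) ∧ nT M (M.rho (M.rho g)) h = nT M g (M.rho (M.rho h)) ∧
    nT M (M.rho g) (M.rho h) = nT M g (M.rho (M.rho h)) ∧
    nT M (M.rho (M.rho g)) (M.rho h) = nT M g h ∧
    nT M (M.rho g) (M.rho (M.rho h)) = nT M g h ∧
    nT M (M.rho (M.rho g)) (M.rho (M.rho h)) = nT M g (M.rho h) := by
  have r : ∀ a b : D, nT M (M.rho a) (M.rho (M.rho b)) = nT M a b := fun a b => nT_rot
  have r' : ∀ a b : D, nT M (M.rho a) b = nT M a (M.rho b) := by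
    intro a b
    have := r a (M.rho b)
    rwa [M.rho3] at this
  refine ⟨r' _ _, ?_, r' _ _, ?_, r _ _, ?_⟩
  · rw [r', r']
  · rw [r', r', M.rho3]
  · rw [r, r']

theorem fa_h1 (hgh : h ∉ Fa M g) : M.rho h ∉ Fa M g := fun hc => hgh ((fa_inv M g h).1 hc)
theorem fa_g1 (hgh : h ∉ Fa M g) : h ∉ Fa M (M.rho g) := by rwa [fa_rot]

/-- **bilinear product** -/
theorem bil (w3 : w ^ 3 = 1) (hgh : h ∉ Fa M g) :
    ip (V M w g) (V M w h) =
      3 * (nT M g h + w * nT M g (M.rho h) + w ^ 2 * nT M g (M.rho (M.rho h))) := by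
  obtain ⟨e1, e2, e3, e4, e5, e6⟩ := nT_three (M := M) (g := g) (h := h)
  have a0 := hgh
  have a1 := fa_h1 a0
  have a2 := fa_h1 a1
  have b0 := fa_g1 a0
  have b1 := fa_g1 a1
  have b2 := fa_g1 a2
  have c0 := fa_g1 b0
  have c1 := fa_g1 b1
  have c2 := fa_g1 b2
  rw [ip_V, nP_eq a0, nP_eq a1, nP_eq a2, nP_eq b0, nP_eq b1, nP_eq b2, nP_eq c0, nP_eq c1,
    nP_eq c2, e1, e2, e3, e4, e5, e6]
  linear_combination (2 * (nT M g h : ℂ) + w * nT M g (M.rho h)) * w3

/-- **hermitian product of different faces** -/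
theorem off (w3 : w ^ 3 = 1) (w1 : 1 + w + w ^ 2 = 0) (wc : (starRingEnd ℂ) w = w ^ 2)
    (hgh : h ∉ Fa M g) : ip (fun i => (starRingEnd ℂ) (V M w g i)) (V M w h) = 0 := by
  obtain ⟨e1, e2, e3, e4, e5, e6⟩ := nT_three (M := M) (g := g) (h := h)
  have a0 := hgh
  have a1 := fa_h1 a0
  have a2 := fa_h1 a1
  have b0 := fa_g1 a0
  have b1 := fa_g1 a1
  have b2 := fa_g1 a2
  have c0 := fa_g1 b0
  have c1 := fa_g1 b1
  have c2 := fa_g1 b2
  have e : (fun i => (starRingEnd ℂ) (V M w g i)) = V M (w ^ 2) g := by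
    funext i
    rw [V_conj, wc]
  rw [e, ip_V, nP_eq a0, nP_eq a1, nP_eq a2, nP_eq b0, nP_eq b1, nP_eq b2, nP_eq c0, nP_eq c1,
    nP_eq c2, e1, e2, e3, e4, e5, e6]
  have w4 : w ^ 4 = w := by rw [show (4 : ℕ) = 3 + 1 by norm_num, pow_add, w3]; ring
  have w5 : w ^ 5 = w ^ 2 := by rw [show (5 : ℕ) = 3 + 2 by norm_num, pow_add, w3]; ring
  have w6 : w ^ 6 = 1 := by rw [show (6 : ℕ) = 3 * 2 by norm_num, pow_mul, w3]; ring
  ring_nf
  rw [w6, w5, w4, w3]
  linear_combination ((nT M g h : ℂ) + nT M g (M.rho h) + nT M g (M.rho (M.rho h))) * w1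

/-- **hermitian square** -/
theorem diag (w3 : w ^ 3 = 1) (wc : (starRingEnd ℂ) w = w ^ 2) :
    nn (V M w g) = ((nG M g + nG M (M.rho g) + nG M (M.rho (M.rho g)) : ℕ) : ℝ) := by
  have n1 := M.rho_ne g
  have n2 := rho2_ne M g
  have n3 : M.rho (M.rho g) ≠ M.rho g := M.rho_ne (M.rho g)
  have e : (fun i => (starRingEnd ℂ) (V M w g i)) = V M (w ^ 2) g := by
    funext i
    rw [V_conj, wc]
  have h1 : (nn (V M w g) : ℂ) = ((nG M g + nG M (M.rho g) + nG M (M.rho (M.rho g)) : ℕ) : ℂ) := by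
    rw [← ip_star, e, ip_V, nP_self, nP_self, nP_self,
      nP_face (fa1 M g) n1.symm, nP_face (fa2 M g) n2.symm,
      nP_face (g := M.rho g) (h := g) (by rw [fa_rot]; exact fa0 M g) n1,
      nP_face (g := M.rho g) (h := M.rho (M.rho g)) (by rw [fa_rot]; exact fa2 M g) n3.symm,
      nP_face (g := M.rho (M.rho g)) (h := g) (by rw [fa_rot, fa_rot]; exact fa0 M g) n2,
      nP_face (g := M.rho (M.rho g)) (h := M.rho g) (by rw [fa_rot, fa_rot]; exact fa1 M g) n3]
    push_cast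
    have w6 : w ^ 6 = 1 := by rw [show (6 : ℕ) = 3 * 2 by norm_num, pow_mul, w3]; ring
    linear_combination (nG M (M.rho g) : ℂ) * w3 + (nG M (M.rho (M.rho g)) : ℂ) * w6
  exact_mod_cast h1

end gram

/-! ### the numbers of configurations -/

/-- even configurations -/
def nE (M : CMap D C) : ℕ := (Finset.univ.filter (IsC M ∅)).card

/-- even configurations which vanish on the face of `g` -/
def nZ (M : CMap D C) (g : D) : ℕ :=
  (Finset.univ.filter fun x => IsC M ∅ x ∧ x g = 0 ∧ x (M.rho g) = 0 ∧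
    x (M.rho (M.rho g)) = 0).card

theorem isC_add {O O' : Set D} {x y : D → ZMod 2} (hx : IsC M O x) (hy : IsC M O' y) :
    IsC M (symmDiff O O') (fun d => x d + y d) := by
  refine ⟨fun d hd => by rw [hx.dead d hd, hy.dead d hd]; decide,
    fun d => by rw [hx.iot, hy.iot], fun d => ?_⟩
  have h1 := hx.par d
  have h2 := hy.par d
  have h3 : (if d ∈ symmDiff O O' then (1 : ZMod 2) else 0) =
      (if d ∈ O then 1 else 0) + (if d ∈ O' then 1 else 0) := by
    by_cases c1 : d ∈ O <;> by_cases c2 : d ∈ O' <;> simp [Set.mem_symmDiff, c1, c2]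
    decide
  rw [h3, ← h1, ← h2]
  ring

theorem isC_add' {O : Set D} {x y : D → ZMod 2} (hx : IsC M O x) (hy : IsC M O y) :
    IsC M ∅ (fun d => x d + y d) := by
  have := isC_add hx hy
  rwa [symmDiff_self] at this

/-- a set of configurations with the same values on a face -/
theorem coset_le {g : D} {O : Set D} (s : Finset (D → ZMod 2)) (hs : ∀ x ∈ s, IsC M O x)
    (he : ∀ x ∈ s, ∀ y ∈ s, x g = y g ∧ x (M.rho g) = y (M.rho g) ∧
      x (M.rho (M.rho g)) = y (M.rho (M.rho g))) : s.card ≤ nZ M g := by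
  rcases s.eq_empty_or_nonempty with rfl | ⟨x0, hx0⟩
  · simp
  · unfold nZ
    refine Finset.card_le_card_of_injOn (fun x d => x d + x0 d) ?_ ?_
    · intro x hx
      obtain ⟨h1, h2, h3⟩ := he x hx x0 hx0
      refine Finset.mem_coe.2 (Finset.mem_filter.2 ⟨Finset.mem_univ _, isC_add' (hs x hx) (hs x0 hx0),
        ?_, ?_, ?_⟩)
      · show x g + x0 g = 0
        rw [h1, z_self]
      · show x (M.rho g) + x0 (M.rho g) = 0
        rw [h2, z_self]
      · show x (M.rho (M.rho g)) + x0 (M.rho (M.rho g)) = 0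
        rw [h3, z_self]
    · intro x _ y _ hxy
      funext d
      have := congrFun hxy d
      exact add_right_cancel this

theorem nZ_rot (g : D) : nZ M (M.rho g) = nZ M g := by
  unfold nZ
  congr 1
  ext x
  simp only [Finset.mem_filter, Finset.mem_univ, true_and, M.rho3]
  tauto

theorem nG_le (g : D) : nG M g ≤ nZ M g := by
  refine coset_le (O := ∅) _ (fun x hx => (Finset.mem_filter.1 hx).2.1) ?_
  intro x hx y hy
  have hx' := (Finset.mem_filter.1 hx).2
  have hy' := (Finset.mem_filter.1 hy).2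
  exact ⟨hx'.2.1.trans hy'.2.1.symm, hx'.2.2.trans hy'.2.2.symm,
    (hx'.2.two hx'.1).trans (hy'.2.two hy'.1).symm⟩

/-- the four patterns of a face -/
theorem nE_eq (g : D) :
    nE M = nZ M g + (nG M g + nG M (M.rho g) + nG M (M.rho (M.rho g))) := by
  unfold nE nZ nG
  rw [← Finset.card_union_of_disjoint, ← Finset.card_union_of_disjoint,
    ← Finset.card_union_of_disjoint]
  · congr 1
    ext x
    simp only [Finset.mem_filter, Finset.mem_univ, true_and, Finset.mem_union]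
    constructor
    · intro h
      have h1 := h.par g
      rw [if_neg (Set.notMem_empty g)] at h1
      unfold Gp
      rw [M.rho3]
      have key : ∀ a b c : ZMod 2, a + b + c = 0 →
          (a = 0 ∧ b = 0 ∧ c = 0) ∨ ((a = 0 ∧ b = 1) ∨ (b = 0 ∧ c = 1)) ∨ (c = 0 ∧ a = 1) := by
        decide
      have := key _ _ _ h1
      tauto
    · tauto
  · rw [Finset.disjoint_left]
    intro x hx hx'
    obtain ⟨-, h1, h2, h3, h4⟩ := Finset.mem_filter.1 hx
    simp only [Finset.mem_filter, Finset.mem_univ, true_and, Finset.mem_union] at hx'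
    unfold Gp at hx'
    rw [M.rho3, h2, h3, h4] at hx'
    rcases hx' with (⟨-, -, h⟩ | ⟨-, -, h⟩) | ⟨-, -, h⟩ <;> exact absurd h (by decide)
  · rw [Finset.disjoint_left]
    intro x hx hx'
    obtain ⟨-, h0, h1, h2⟩ := Finset.mem_filter.1 hx'
    rw [M.rho3] at h2
    simp only [Finset.mem_filter, Finset.mem_univ, true_and, Finset.mem_union] at hx
    rcases hx with ⟨-, h⟩ | ⟨-, h⟩
    · rw [h.1] at h2; exact absurd h2 (by decide)
    · rw [h.2] at h1; exact absurd h1 (by decide)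
  · rw [Finset.disjoint_left]
    intro x hx hx'
    obtain ⟨-, -, h1, h2⟩ := Finset.mem_filter.1 hx
    obtain ⟨-, -, h3, h4⟩ := Finset.mem_filter.1 hx'
    rw [h2] at h3; exact absurd h3 (by decide)

theorem nG_sum (g : D) :
    ((nG M g + nG M (M.rho g) + nG M (M.rho (M.rho g)) : ℕ) : ℝ) ≤ 3 / 4 * nE M := by
  have h1 := nG_le (M := M) g
  have h2 := nG_le (M := M) (M.rho g)
  have h3 := nG_le (M := M) (M.rho (M.rho g))
  rw [nZ_rot] at h2 h3
  rw [nZ_rot] at h3
  have h4 := nE_eq (M := M) g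
  have h5 : 4 * (nG M g + nG M (M.rho g) + nG M (M.rho (M.rho g))) ≤ 3 * nE M := by omega
  have h6 : (4 : ℝ) * ((nG M g + nG M (M.rho g) + nG M (M.rho (M.rho g)) : ℕ) : ℝ) ≤ 3 * nE M := by
    exact_mod_cast h5
  linarith

theorem nE_le (g : D) : (nE M : ℝ) / 4 ≤ nZ M g := by
  have h1 := nG_le (M := M) g
  have h2 := nG_le (M := M) (M.rho g)
  have h3 := nG_le (M := M) (M.rho (M.rho g))
  rw [nZ_rot] at h2 h3
  rw [nZ_rot] at h3
  have h4 := nE_eq (M := M) g
  have h5 : nE M ≤ 4 * nZ M g := by omega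
  have h6 : (nE M : ℝ) ≤ 4 * nZ M g := by exact_mod_cast h5
  linarith

/-- **the tight frame, one row** -/
theorem frame_abs {w : ℂ} (w3 : w ^ 3 = 1) (w1 : 1 + w + w ^ 2 = 0)
    (wc : (starRingEnd ℂ) w = w ^ 2) {b0 : D} {F : Finset D} (h0 : ∀ b ∈ F, b ∉ Fa M b0)
    (hF : ∀ b ∈ F, ∀ b' ∈ F, b ≠ b' → b' ∉ Fa M b) :
    ∑ b ∈ F, ‖(nT M b0 b : ℂ) + w * nT M b0 (M.rho b) + w ^ 2 * nT M b0 (M.rho (M.rho b))‖ ^ 2 ≤
      ((nE M : ℝ) / 4) ^ 2 := by
  have h1 := bessel (F := F) (V := V M w) (U := V M w b0) (K := 3 / 4 * nE M)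
    (fun b hb b' hb' hne => off w3 w1 wc (hF b hb b' hb' hne))
    (fun b _ => by rw [diag w3 wc]; exact nG_sum b) (by rw [diag w3 wc]; exact nG_sum b0)
  have h2 : ∀ b ∈ F, ‖ip (V M w b0) (V M w b)‖ ^ 2 = 9 * ‖(nT M b0 b : ℂ) +
      w * nT M b0 (M.rho b) + w ^ 2 * nT M b0 (M.rho (M.rho b))‖ ^ 2 := by
    intro b hb
    rw [bil w3 (h0 b hb), norm_mul, mul_pow, Complex.norm_ofNat]
    norm_num
  rw [Finset.sum_congr rfl h2, ← Finset.mul_sum] at h1
  nlinarith

end Crest.Agent.R143.Frame4x395
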