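import Crest.Agent.R143.QuT_395
import Crest.Agent.R143.SiteM_829
import Crest.Agent.R143.SmallA_304
import Crest.Agent.R143.CorM_970

/-!
# Row 143 (S0194), RIG: field `fresh` at one environment (helper62)

395's `QuT.fresh_ts`, `fresh_ends` (mean over the colourings of the cells `Cs hS`) as means `av` over
the sets `t ⊆ S` of black sites, for both colourings of the cells in use:

* `av_chiS` : `av S.powerset (fun t => F (chiS hS h3 t)) = |2^Cs|⁻¹ • ∑ χ, F χ` (304's `chiS`), any `F`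
* `av_scol` : the same for 829's `scol` (hull white) and every function of `mt A i τ`, hull cells in
  the white giant (`Hl A j`)
* `cbF` : `cb` as a function of `mt A i τ`
* **`fresh_av`**, `fresh_av'` : `av (∑_{h ∈ cb t} zf S z h) = omz (-i) * TS S (st A) z / 3`
* `fresh3_av`, `fresh3_av'` : `av (3 * ..) = omz (-i) * TS S (st A) z`
* `ends_av`, `ends_av'` : `av (∑_{h ∈ cb t} (z h.2 - z h.1)) = Ey (i+1) - Ey i`
* `phase_w` : `omz (-i) = om² * omz (i+2)²` (`i + 2` = the white class)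
-/

set_option autoImplicit false

noncomputable section

open scoped Classical

namespace Crest.Agent.R143.FreshQx62

open Crest.Agent.R143.B0x346 Crest.Agent.R143.DelGx806
open Crest.Agent.R143.NetUx346 (Ey TS)
open Crest.Agent.R143.Frame1x395 Crest.Agent.R143.Frame2x395 Crest.Agent.R143.Frame3x395
  Crest.Agent.R143.Frame4x395 Crest.Agent.R143.Frame8x395 Crest.Agent.R143.Frame10x395
open Crest.Agent.R143.Coarsex166 Crest.Agent.R143.C2SBx395 Crest.Agent.R143.C2SCx395
  Crest.Agent.R143.C2SDx395 Crest.Agent.R143.QuFx778 Crest.Agent.R143.QuTx395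
open Crest.Agent.R143.FinCx811 (Cs rc0)
open Crest.Agent.R143.Resax778 (glue glue_on glue_off)
open Crest.Agent.R143.Freshx829 (Inn scol site_mean)
open Crest.Agent.R143.SmallAx304 (chiS sum_chiS card_Cs_le)
open Crest.Agent.R143.CorMx970 (av av_mulL)

variable {S : Finset ℂ} {hS : GP (S : Set ℂ)} {A : ZMod 3 → Set (Cs hS)} {i j : ZMod 3}
  {g : D0 S} {σ : Cs hS → ZMod 2}

/-! ### means over sets of sites -/

theorem card_col : (Fintype.card (Cs hS → ZMod 2) : ℝ) = 2 ^ Fintype.card (Cs hS) := by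
  rw [← Nat.card_eq_fintype_card, Nat.card_fun, Nat.card_eq_fintype_card,
    Nat.card_eq_fintype_card, ZMod.card]
  push_cast
  rfl

/-- **304's colouring: any function** -/
theorem av_chiS (h3 : 3 ≤ S.card) {E : Type*} [AddCommGroup E] [Module ℝ E]
    (F : (Cs hS → ZMod 2) → E) :
    av S.powerset (fun t => F (chiS hS h3 t)) =
      (Fintype.card (Cs hS → ZMod 2) : ℝ)⁻¹ • ∑ χ, F χ := by
  unfold CorMx970.av
  rw [sum_chiS, Finset.card_powerset, card_col, ← Nat.cast_smul_eq_nsmul ℝ, smul_smul]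
  congr 1
  have h := card_Cs_le hS h3
  have e : (2 : ℝ) ^ S.card = 2 ^ Fintype.card (Cs hS) * 2 ^ (S.card - Fintype.card (Cs hS)) := by
    rw [← pow_add, Nat.add_sub_cancel' h]
  push_cast
  rw [e, mul_inv, mul_assoc, inv_mul_cancel₀ (pow_ne_zero _ two_ne_zero), mul_one]

/-- **829's colouring: functions of the inner cells** -/
theorem av_scol {E : Type*} [AddCommGroup E] [Module ℝ E] (F : (Cs hS → ZMod 2) → E)
    (hF : ∀ τ τ' : Cs hS → ZMod 2, (∀ c, Inn hS c → τ c = τ' c) → F τ = F τ') :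
    av S.powerset (fun t => F (scol hS (t : Set ℂ))) =
      (Fintype.card (Cs hS → ZMod 2) : ℝ)⁻¹ • ∑ χ, F χ := by
  have h := site_mean (fi := inferInstance) hS (A := S) (Finset.Subset.refl S) F hF
  unfold CorMx970.av
  rw [Finset.card_powerset, card_col]
  rw [← Nat.cast_smul_eq_nsmul ℝ, ← Nat.cast_smul_eq_nsmul ℝ] at h
  push_cast at h ⊢
  have h1 : ((2 : ℝ) ^ Fintype.card (Cs hS)) ≠ 0 := pow_ne_zero _ two_ne_zero
  have h2 : ((2 : ℝ) ^ S.card) ≠ 0 := pow_ne_zero _ two_ne_zero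
  rw [inv_smul_eq_iff₀ h2, smul_comm, ← h, inv_smul_smul₀ h1]

/-! ### the block of the coarse map -/

theorem mt_congr_c {τ τ' : Cs hS → ZMod 2} (Hh : Hl A j)
    (h : ∀ c, Inn hS c → τ c = τ' c) : QuFx778.mt A i τ = QuFx778.mt A i τ' := by
  funext c
  by_cases hf : Free A c
  · rw [mt_free hf, mt_free hf]
    refine h c ?_
    by_contra hc
    obtain ⟨v, hv, e⟩ : ∃ v ∈ S, c.1 = Quot.mk (hullE S) v := by
      obtain ⟨d, hd⟩ := c.2
      refine ⟨d.1.1, (mem_delT.1 (Frame5x395.th_spec d.2)).1, ?_⟩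
      rw [← hd]
      rfl
    by_cases hh : OnHull S v
    · exact hf j (Hh c v hh e)
    · exact hc ⟨v, hv, e, hh⟩
  · unfold QuFx778.mt
    by_cases hw : c ∈ A (i + 2)
    · rw [if_pos hw, if_pos hw]
    · rw [if_neg hw, if_neg hw, if_neg hf, if_neg hf]

/-- a function of the coarse block does not see the hull cells -/
theorem cb_congr (Hh : Hl A j) {τ τ' : Cs hS → ZMod 2} (h : ∀ c, Inn hS c → τ c = τ' c) :
    cb (rc0 hS) A i g τ = cb (rc0 hS) A i g τ' := by
  unfold cb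
  rw [mt_congr_c Hh h]

/-! ### the field -/

section field

variable (h3 : 3 ≤ S.card) (H : QuFx778.Ex (rc0 hS) A i g σ) (Hh : Hl A (i + 2))
  (F : Far A (i + 2)) (z : ℂ → ℂ)

include H Hh F

theorem mean_cols :
    (Fintype.card (Cs hS → ZMod 2) : ℝ)⁻¹ • ∑ τ : Cs hS → ZMod 2,
      ∑ h ∈ cb (rc0 hS) A i g τ, zf S z h = omz (-i) * TS S (st A) z / 3 := by
  rw [fresh_ts H Hh F z, Complex.real_smul]
  have hc : ((Fintype.card (Cs hS → ZMod 2) : ℕ) : ℂ) ≠ 0 := by
    exact_mod_cast Fintype.card_ne_zero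
  push_cast
  rw [inv_mul_cancel_left₀ hc]

theorem mean_ends :
    (Fintype.card (Cs hS → ZMod 2) : ℝ)⁻¹ • ∑ τ : Cs hS → ZMod 2,
      ∑ h ∈ cb (rc0 hS) A i g τ, (z h.1.2 - z h.1.1) =
        Ey S (st A) z (i + 1) - Ey S (st A) z i := by
  rw [fresh_ends H Hh F z, Complex.real_smul]
  have hc : ((Fintype.card (Cs hS → ZMod 2) : ℕ) : ℂ) ≠ 0 := by
    exact_mod_cast Fintype.card_ne_zero
  push_cast
  rw [inv_mul_cancel_left₀ hc]

/-- **field `fresh`** (304's colouring) -/
theorem fresh_av :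
    av S.powerset (fun t => ∑ h ∈ cb (rc0 hS) A i g (chiS hS h3 t), zf S z h) =
      omz (-i) * TS S (st A) z / 3 :=
  (av_chiS h3 fun τ => ∑ h ∈ cb (rc0 hS) A i g τ, zf S z h).trans (mean_cols H Hh F z)

/-- **field `fresh`** (829's colouring) -/
theorem fresh_av' :
    av S.powerset (fun t => ∑ h ∈ cb (rc0 hS) A i g (scol hS (t : Set ℂ)), zf S z h) =
      omz (-i) * TS S (st A) z / 3 :=
  (av_scol (fun τ => ∑ h ∈ cb (rc0 hS) A i g τ, zf S z h) fun τ τ' h => by
    rw [cb_congr Hh h]).trans (mean_cols H Hh F z)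

/-- the field times `3` : the frozen total itself -/
theorem fresh3_av :
    av S.powerset (fun t => 3 * ∑ h ∈ cb (rc0 hS) A i g (chiS hS h3 t), zf S z h) =
      omz (-i) * TS S (st A) z := by
  rw [av_mulL, fresh_av h3 H Hh F z]
  ring

theorem fresh3_av' :
    av S.powerset (fun t => 3 * ∑ h ∈ cb (rc0 hS) A i g (scol hS (t : Set ℂ)), zf S z h) =
      omz (-i) * TS S (st A) z := by
  rw [av_mulL, fresh_av' H Hh F z]
  ring

/-- **mean displacement** (304's colouring) -/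
theorem ends_av :
    av S.powerset (fun t => ∑ h ∈ cb (rc0 hS) A i g (chiS hS h3 t), (z h.1.2 - z h.1.1)) =
      Ey S (st A) z (i + 1) - Ey S (st A) z i :=
  (av_chiS h3 fun τ => ∑ h ∈ cb (rc0 hS) A i g τ, (z h.1.2 - z h.1.1)).trans
    (mean_ends H Hh F z)

theorem ends_av' :
    av S.powerset (fun t => ∑ h ∈ cb (rc0 hS) A i g (scol hS (t : Set ℂ)),
      (z h.1.2 - z h.1.1)) = Ey S (st A) z (i + 1) - Ey S (st A) z i :=
  (av_scol (fun τ => ∑ h ∈ cb (rc0 hS) A i g τ, (z h.1.2 - z h.1.1)) fun τ τ' h => by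
    rw [cb_congr Hh h]).trans (mean_ends H Hh F z)

end field

/-- `i + 2` = the white class -/
theorem phase_w (i : ZMod 3) : omz (-i) = om ^ 2 * omz (i + 2) ^ 2 := by
  have h3 : om ^ 3 = 1 := DefsNx346.om3
  have h1 : i = 0 ∨ i = 1 ∨ i = 2 := by revert i; decide
  rcases h1 with rfl | rfl | rfl
  · show om ^ 0 = om ^ 2 * (om ^ 2) ^ 2
    linear_combination (-(om ^ 3) - 1) * h3
  · show om ^ 2 = om ^ 2 * (om ^ 0) ^ 2
    ring
  · show om ^ 1 = om ^ 2 * (om ^ 1) ^ 2
    linear_combination (-om) * h3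

end Crest.Agent.R143.FreshQx62
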