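import Crest.Agent.R143.Dbl2_609

/-!
# Row 143 (S0194), box R5, model half (helper829): means over the second colouring

* `int_avg` : two functions of the doubly coloured configuration in a bounded set whose averages
  over the two colourings of the points agree for almost every environment have the same mean
* `int_avg2` : the same if only the averages over the second colouring agree, for every first
  colouring
* `fresh` : `∫ f g Vγ = t ∫ f g T_K`, from the quenched identity (average over the second colouring,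
  for all points and first colourings with `g ≠ 0`)
* `int_nu`, `fresh_nu` : the same for `ν = P.withDensity (ofReal g)` (form of `PolyAx970.Cor`)
-/

set_option autoImplicit false
set_option linter.unusedSectionVars false

noncomputable section

open scoped Classical

namespace Crest.Agent.R143.Freshx829

open MeasureTheory Set Filter Topology
open Crest.ProbabilityR.Voronoi
open Crest.Agent.R143.PP0x831 Crest.Agent.R143.Poisx304 Crest.Agent.R143.Janx304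
open Crest.Agent.R143.Prodx609 Crest.Agent.R143.ColSumx304 Crest.Agent.R143.Lawx831
open Crest.Agent.R143.Dblx609 Crest.Agent.R143.Dbl2x609
open scoped ENNReal Nat

section mean

variable {E : Type*} [NormedAddCommGroup E] [NormedSpace ℝ E] [CompleteSpace E]

/-- the mean is the mean of the quenched average -/
theorem int_eq_qav1 {M : Type*} [MeasurableSpace M] {d : unitInterval → M} {ε : ℝ} {B : Set ℂ}
    {Φ : Set (ℂ × M) → E} (hi : Integrable (fun ω => Φ (mcf d ε ω ∩ ovM M B)) sampleLaw) :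
    ∫ ω, qavE d ε B Φ ω ∂sampleLaw = ∫ ω, Φ (mcf d ε ω ∩ ovM M B) ∂sampleLaw := by
  have hi' : Integrable (fun q : Pos × Col => Φ (mcf d ε (mk q.1 q.2) ∩ ovM M B))
      (posLaw.prod colLaw) := mp_mk.integrable_comp_of_integrable hi
  have h := int_eq_qavE (d := d) (ε := ε) (B := B) Φ (fun _ => (1 : ℝ)) (by simpa using hi)
    (by simpa using hi'.integral_prod_left.aestronglyMeasurable)
  simpa using h

/-- **equality of means** from equality of the averages over the two colourings -/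
theorem int_avg {ε : ℝ} (hε : 0 < ε) {B : Set ℂ} (hb : Bornology.IsBounded B)
    {Φ Ψ : Set (ℂ × (Bool × Bool)) → E}
    (iΦ : Integrable (fun ω => Φ (dcf ε ω ∩ ovM (Bool × Bool) B)) sampleLaw)
    (iΨ : Integrable (fun ω => Ψ (dcf ε ω ∩ ovM (Bool × Bool) B)) sampleLaw)
    (h : ∀ᵐ ω ∂sampleLaw, ∑ β ∈ (Ap ε B ω).powerset, ∑ β' ∈ (Ap ε B ω).powerset,
        Φ (paint2 (Ap ε B ω) β β') =
      ∑ β ∈ (Ap ε B ω).powerset, ∑ β' ∈ (Ap ε B ω).powerset, Ψ (paint2 (Ap ε B ω) β β')) :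
    ∫ ω, Φ (dcf ε ω ∩ ovM (Bool × Bool) B) ∂sampleLaw =
      ∫ ω, Ψ (dcf ε ω ∩ ovM (Bool × Bool) B) ∂sampleLaw := by
  have e1 := int_eq_qav1 (d := dd) (B := B) (Φ := Φ) iΦ
  have e2 := int_eq_qav1 (d := dd) (B := B) (Φ := Ψ) iΨ
  show ∫ ω, Φ (mcf dd ε ω ∩ ovM (Bool × Bool) B) ∂sampleLaw = _
  rw [← e1]
  show _ = ∫ ω, Ψ (mcf dd ε ω ∩ ovM (Bool × Bool) B) ∂sampleLaw
  rw [← e2]
  refine integral_congr_ae ?_
  filter_upwards [h, ae_injω hε] with ω h1 h2
  have hA := coe_Ap hε hb ω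
  rw [qavE_dd h2 hA, qavE_dd h2 hA, h1]

/-- the averages over the second colouring agree for every first colouring -/
theorem int_avg2 {ε : ℝ} (hε : 0 < ε) {B : Set ℂ} (hb : Bornology.IsBounded B)
    {Φ Ψ : Set (ℂ × (Bool × Bool)) → E}
    (iΦ : Integrable (fun ω => Φ (dcf ε ω ∩ ovM (Bool × Bool) B)) sampleLaw)
    (iΨ : Integrable (fun ω => Ψ (dcf ε ω ∩ ovM (Bool × Bool) B)) sampleLaw)
    (h : ∀ᵐ ω ∂sampleLaw, ∀ β ∈ (Ap ε B ω).powerset, ∑ β' ∈ (Ap ε B ω).powerset,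
        Φ (paint2 (Ap ε B ω) β β') = ∑ β' ∈ (Ap ε B ω).powerset, Ψ (paint2 (Ap ε B ω) β β')) :
    ∫ ω, Φ (dcf ε ω ∩ ovM (Bool × Bool) B) ∂sampleLaw =
      ∫ ω, Ψ (dcf ε ω ∩ ovM (Bool × Bool) B) ∂sampleLaw := by
  refine int_avg hε hb iΦ iΨ ?_
  filter_upwards [h] with ω h1
  exact Finset.sum_congr rfl h1

end mean

/-! ### the field `fresh` -/

/-- **inside fresh**: `f` is a function of the points, `g` and `TK` are functions of the points and
of the first colouring, `V` has the second-colouring average `t * TK` wherever `g ≠ 0` -/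
theorem fresh {ε : ℝ} (hε : 0 < ε) {B : Set ℂ} (hb : Bornology.IsBounded B)
    {f g V TK : Set (ℂ × (Bool × Bool)) → ℂ} {f0 : Finset ℂ → ℂ} {g0 T0 : Finset ℂ → Finset ℂ → ℂ}
    {t : ℂ} (hf : ∀ A β β', β ⊆ A → β' ⊆ A → f (paint2 A β β') = f0 A)
    (hg : ∀ A β β', β ⊆ A → β' ⊆ A → g (paint2 A β β') = g0 A β)
    (hT : ∀ A β β', β ⊆ A → β' ⊆ A → TK (paint2 A β β') = T0 A β)
    (iV : Integrable (fun ω => f (dcf ε ω ∩ ovM _ B) * (g (dcf ε ω ∩ ovM _ B) *
      V (dcf ε ω ∩ ovM _ B))) sampleLaw)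
    (iT : Integrable (fun ω => f (dcf ε ω ∩ ovM _ B) * (g (dcf ε ω ∩ ovM _ B) *
      TK (dcf ε ω ∩ ovM _ B))) sampleLaw)
    (h : ∀ᵐ ω ∂sampleLaw, ∀ β ⊆ Ap ε B ω, g0 (Ap ε B ω) β ≠ 0 →
      ∑ β' ∈ (Ap ε B ω).powerset, V (paint2 (Ap ε B ω) β β') =
        t * ((2 : ℂ) ^ (Ap ε B ω).card * T0 (Ap ε B ω) β)) :
    ∫ ω, f (dcf ε ω ∩ ovM _ B) * (g (dcf ε ω ∩ ovM _ B) * V (dcf ε ω ∩ ovM _ B)) ∂sampleLaw =
      t * ∫ ω, f (dcf ε ω ∩ ovM _ B) * (g (dcf ε ω ∩ ovM _ B) * TK (dcf ε ω ∩ ovM _ B))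
        ∂sampleLaw := by
  rw [← integral_const_mul]
  refine int_avg2 hε hb (Φ := fun X => f X * (g X * V X)) (Ψ := fun X => t * (f X * (g X * TK X)))
    iV (iT.const_mul t) ?_
  filter_upwards [h] with ω h1 β hβ
  have hβ' := Finset.mem_powerset.1 hβ
  set A := Ap ε B ω with hA
  have e1 : ∀ β' ∈ A.powerset, f (paint2 A β β') * (g (paint2 A β β') * V (paint2 A β β')) =
      f0 A * g0 A β * V (paint2 A β β') := by
    intro β' hβ2
    have h2 := Finset.mem_powerset.1 hβ2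
    rw [hf A β β' hβ' h2, hg A β β' hβ' h2]
    ring
  have e2 : ∀ β' ∈ A.powerset, t * (f (paint2 A β β') * (g (paint2 A β β') * TK (paint2 A β β'))) =
      t * (f0 A * (g0 A β * T0 A β)) := by
    intro β' hβ2
    have h2 := Finset.mem_powerset.1 hβ2
    rw [hf A β β' hβ' h2, hg A β β' hβ' h2, hT A β β' hβ' h2]
  rw [Finset.sum_congr rfl e1, Finset.sum_congr rfl e2, ← Finset.mul_sum, Finset.sum_const,
    Finset.card_powerset, nsmul_eq_mul]
  by_cases hg0 : g0 A β = 0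
  · rw [hg0]; ring
  · rw [h1 β hβ' hg0]
    push_cast
    ring

/-! ### the weighted measure -/

/-- integrals under the weighted measure -/
theorem int_nu {Ω : Type*} [MeasurableSpace Ω] {P : Measure Ω} {g : Ω → ℝ} (hg : Measurable g)
    (hg0 : ∀ ω, 0 ≤ g ω) (F : Ω → ℂ) :
    ∫ ω, F ω ∂(P.withDensity fun ω => ENNReal.ofReal (g ω)) = ∫ ω, (g ω : ℂ) * F ω ∂P := by
  have h1 : (fun ω => ENNReal.ofReal (g ω)) = fun ω => ((Real.toNNReal (g ω) : NNReal) : ℝ≥0∞) := by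
    funext ω; rfl
  rw [h1, integral_withDensity_eq_integral_smul (hg.real_toNNReal)]
  refine integral_congr_ae (Eventually.of_forall fun ω => ?_)
  show (Real.toNNReal (g ω) : NNReal) • F ω = _
  rw [NNReal.smul_def, Real.coe_toNNReal _ (hg0 ω), Complex.real_smul]

theorem integrable_nu {Ω : Type*} [MeasurableSpace Ω] {P : Measure Ω} {g : Ω → ℝ}
    (hg : Measurable g) (hg0 : ∀ ω, 0 ≤ g ω) {F : Ω → ℂ} :
    Integrable F (P.withDensity fun ω => ENNReal.ofReal (g ω)) ↔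
      Integrable (fun ω => (g ω : ℂ) * F ω) P := by
  have h1 : (fun ω => ENNReal.ofReal (g ω)) = fun ω => ((Real.toNNReal (g ω) : NNReal) : ℝ≥0∞) := by
    funext ω; rfl
  rw [h1, integrable_withDensity_iff_integrable_smul (hg.real_toNNReal)]
  refine integrable_congr (Eventually.of_forall fun ω => ?_)
  show (Real.toNNReal (g ω) : NNReal) • F ω = _
  rw [NNReal.smul_def, Real.coe_toNNReal _ (hg0 ω), Complex.real_smul]

/-- **inside fresh, form of `PolyAx970.Cor`** -/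
theorem fresh_nu {ε : ℝ} (hε : 0 < ε) {B : Set ℂ} (hb : Bornology.IsBounded B)
    {f V TK : Set (ℂ × (Bool × Bool)) → ℂ} {g : Set (ℂ × (Bool × Bool)) → ℝ}
    {f0 : Finset ℂ → ℂ} {g0 : Finset ℂ → Finset ℂ → ℝ} {T0 : Finset ℂ → Finset ℂ → ℂ}
    {t : ℂ} (hgm : Measurable fun ω => g (dcf ε ω ∩ ovM _ B)) (hgn : ∀ X, 0 ≤ g X)
    (hf : ∀ A β β', β ⊆ A → β' ⊆ A → f (paint2 A β β') = f0 A)
    (hg : ∀ A β β', β ⊆ A → β' ⊆ A → g (paint2 A β β') = g0 A β)
    (hT : ∀ A β β', β ⊆ A → β' ⊆ A → TK (paint2 A β β') = T0 A β)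
    (iV : Integrable (fun ω => f (dcf ε ω ∩ ovM _ B) * V (dcf ε ω ∩ ovM _ B))
      (sampleLaw.withDensity fun ω => ENNReal.ofReal (g (dcf ε ω ∩ ovM _ B))))
    (iT : Integrable (fun ω => f (dcf ε ω ∩ ovM _ B) * TK (dcf ε ω ∩ ovM _ B))
      (sampleLaw.withDensity fun ω => ENNReal.ofReal (g (dcf ε ω ∩ ovM _ B))))
    (h : ∀ᵐ ω ∂sampleLaw, ∀ β ⊆ Ap ε B ω, g0 (Ap ε B ω) β ≠ 0 →
      ∑ β' ∈ (Ap ε B ω).powerset, V (paint2 (Ap ε B ω) β β') =
        t * ((2 : ℂ) ^ (Ap ε B ω).card * T0 (Ap ε B ω) β)) :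
    ∫ ω, f (dcf ε ω ∩ ovM _ B) * V (dcf ε ω ∩ ovM _ B)
        ∂(sampleLaw.withDensity fun ω => ENNReal.ofReal (g (dcf ε ω ∩ ovM _ B))) =
      t * ∫ ω, f (dcf ε ω ∩ ovM _ B) * TK (dcf ε ω ∩ ovM _ B)
        ∂(sampleLaw.withDensity fun ω => ENNReal.ofReal (g (dcf ε ω ∩ ovM _ B))) := by
  rw [integrable_nu hgm fun ω => hgn _] at iV iT
  rw [int_nu hgm fun ω => hgn _, int_nu hgm fun ω => hgn _]
  have e1 : ∀ (W : Set (ℂ × (Bool × Bool)) → ℂ),
      (fun ω => (g (dcf ε ω ∩ ovM _ B) : ℂ) * (f (dcf ε ω ∩ ovM _ B) * W (dcf ε ω ∩ ovM _ B))) =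
      fun ω => f (dcf ε ω ∩ ovM _ B) * ((g (dcf ε ω ∩ ovM _ B) : ℂ) * W (dcf ε ω ∩ ovM _ B)) := by
    intro W
    funext ω
    ring
  rw [e1 V] at iV
  rw [e1 TK] at iT
  rw [e1 V, e1 TK]
  refine fresh hε hb (g := fun X => (g X : ℂ)) (g0 := fun A β => (g0 A β : ℂ)) hf ?_ hT iV iT ?_
  · intro A β β' h1 h2
    show ((g (paint2 A β β') : ℝ) : ℂ) = _
    rw [hg A β β' h1 h2]
  · filter_upwards [h] with ω h1 β hβ hg0
    exact h1 β hβ fun e => hg0 (by simp only [e, Complex.ofReal_zero])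

end Crest.Agent.R143.Freshx829
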