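import Mathlib
import Crest.Agent.R158.Cd9_83
import Crest.Agent.Lib.InjHolo
import Crest.Agent.R143.BC0_336

/-!
# Row 143 (S0194), BC5: identification of the limit on `D` (helper439)

`bc5 : BC5` : a bounded function on `D`, holomorphic or antiholomorphic, with the boundary lines of
the triangle `1, tau3, tau3 ^ 2` on the three open arcs tends to
`1 + crossingFormula x * (tau3 - 1)` at the boundary points over `x ∈ (0, 1)`.
-/

set_option autoImplicit false

noncomputable section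

namespace Crest.Agent.R143.IdentDx439

open Complex Set Filter Topology MeasureTheory
open Crest.ProbabilityR.Voronoi Crest.ProbabilityR.Percolation
open Crest.Agent.R158.Cd83
open Crest.Agent.R143.BC0x336
open scoped ComplexConjugate

theorem tau3_eq : tau3 = om := rfl

/-- Cayley transform -/
def cay (z : ℂ) : ℂ := (z - I) / (z + I)

/-- inverse Cayley transform -/
def icay (w : ℂ) : ℂ := I * (1 + w) / (1 - w)

theorem add_I_ne {z : ℂ} (hz : 0 ≤ z.im) : z + I ≠ 0 := by
  intro h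
  have := congrArg Complex.im h
  simp at this
  linarith

theorem icay_cay {z : ℂ} (hz : 0 ≤ z.im) : icay (cay z) = z := by
  have h1 := add_I_ne hz
  unfold icay cay
  have h2 : (1:ℂ) - (z - I) / (z + I) = 2 * I / (z + I) := by field_simp; ring
  have h3 : (1:ℂ) + (z - I) / (z + I) = 2 * z / (z + I) := by field_simp; ring
  rw [h2, h3]
  field_simp

theorem norm_cay {z : ℂ} (hz : 0 < z.im) : ‖cay z‖ < 1 := by
  unfold cay
  rw [norm_div, div_lt_one (norm_pos_iff.2 (add_I_ne hz.le))]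
  rw [← sq_lt_sq₀ (norm_nonneg _) (norm_nonneg _), ← Complex.normSq_eq_norm_sq,
    ← Complex.normSq_eq_norm_sq, Complex.normSq_apply, Complex.normSq_apply]
  simp
  nlinarith

theorem norm_cay_le {z : ℂ} (hz : 0 ≤ z.im) : ‖cay z‖ ≤ 1 := by
  unfold cay
  rw [norm_div, div_le_one (norm_pos_iff.2 (add_I_ne hz))]
  rw [← sq_le_sq₀ (norm_nonneg _) (norm_nonneg _), ← Complex.normSq_eq_norm_sq,
    ← Complex.normSq_eq_norm_sq, Complex.normSq_apply, Complex.normSq_apply]
  simp
  nlinarith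

theorem one_sub_ne {w : ℂ} (hw : ‖w‖ < 1) : (1:ℂ) - w ≠ 0 := by
  intro h
  have : w = 1 := (sub_eq_zero.1 h).symm
  rw [this] at hw
  simp at hw

theorem icay_im {w : ℂ} (hw : ‖w‖ < 1) : 0 < (icay w).im := by
  have h1 := one_sub_ne hw
  have h2 : (icay w).im = (1 - Complex.normSq w) / Complex.normSq (1 - w) := by
    unfold icay
    rw [Complex.div_im]
    have h3 : Complex.normSq (1 - w) ≠ 0 := (Complex.normSq_pos.2 h1).ne'
    field_simp
    simp [Complex.normSq_apply]
    ring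
  rw [h2]
  apply div_pos _ (Complex.normSq_pos.2 h1)
  rw [Complex.normSq_eq_norm_sq]
  have := norm_nonneg w
  nlinarith

theorem icay_diff : DifferentiableOn ℂ icay (Metric.ball 0 1) := by
  intro w hw
  have h1 : (1:ℂ) - w ≠ 0 := one_sub_ne (by simpa using hw)
  unfold icay
  exact ((((differentiableAt_const _).mul ((differentiableAt_const _).add differentiableAt_id)).div
    ((differentiableAt_const _).sub differentiableAt_id) h1)).differentiableWithinAt

theorem icay_contAt {w : ℂ} (hw : w ≠ 1) : ContinuousAt icay w := by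
  have h1 : (1:ℂ) - w ≠ 0 := sub_ne_zero.2 hw.symm
  unfold icay
  exact ((continuousAt_const.mul (continuousAt_const.add continuousAt_id)).div
    (continuousAt_const.sub continuousAt_id) h1)

/-- the point of the circle over the real point `tan u` -/
theorem icay_exp {u : ℝ} (hc : Real.cos u ≠ 0) :
    exp (((Real.pi + 2 * u : ℝ) : ℂ) * I) ≠ 1 ∧
      icay (exp (((Real.pi + 2 * u : ℝ) : ℂ) * I)) = ((Real.tan u : ℝ) : ℂ) := by
  have h0 : exp (((Real.pi + 2 * u : ℝ) : ℂ) * I) = - exp ((u : ℂ) * I) ^ 2 := by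
    have : (((Real.pi + 2 * u : ℝ) : ℂ) * I) = Real.pi * I + 2 * ((u : ℂ) * I) := by
      push_cast; ring
    rw [this, Complex.exp_add, Complex.exp_pi_mul_I, ← Complex.exp_nat_mul]
    push_cast
    ring
  have he : exp ((u : ℂ) * I) = (Real.cos u : ℂ) + (Real.sin u : ℂ) * I := by
    rw [Complex.exp_mul_I, Complex.ofReal_cos, Complex.ofReal_sin]
  have hcs : (Real.cos u : ℂ) ^ 2 + (Real.sin u : ℂ) ^ 2 = 1 := by
    have := Real.cos_sq_add_sin_sq u
    exact_mod_cast this
  have hI : I ^ 2 = -1 := Complex.I_sq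
  have hcc : (Real.cos u : ℂ) ≠ 0 := by exact_mod_cast hc
  have hen : exp ((u : ℂ) * I) ≠ 0 := Complex.exp_ne_zero _
  have hminus : (1:ℂ) - exp (((Real.pi + 2 * u : ℝ) : ℂ) * I) =
      2 * (Real.cos u : ℂ) * exp ((u : ℂ) * I) := by
    rw [h0, he]
    linear_combination (Real.sin u : ℂ) ^ 2 * hI - hcs
  have hplus : (1:ℂ) + exp (((Real.pi + 2 * u : ℝ) : ℂ) * I) =
      -2 * I * (Real.sin u : ℂ) * exp ((u : ℂ) * I) := by
    rw [h0, he]
    linear_combination (Real.sin u : ℂ) ^ 2 * hI - hcs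
  constructor
  · intro hcon
    rw [hcon, sub_self] at hminus
    exact (mul_ne_zero (mul_ne_zero two_ne_zero hcc) hen) hminus.symm
  · unfold icay
    rw [hminus, hplus, Real.tan_eq_sin_div_cos, Complex.ofReal_div,
      div_eq_div_iff (mul_ne_zero (mul_ne_zero two_ne_zero hcc) hen) hcc]
    linear_combination (-2 * (Real.sin u : ℂ) * exp ((u : ℂ) * I) * (Real.cos u : ℂ)) * hI

/-- continuity of the inverse of `φ` at the boundary, in the form of the radial condition. -/
theorem rad {D : Set ℂ} (hD : IsOpen D) (hDb : Bornology.IsBounded D) {φ ψ : ℂ → ℂ} {d : ℂ}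
    (hd : d ∈ frontier D) (hφD : φ '' D = {z : ℂ | 0 < z.im})
    (hψ : ∀ w : ℂ, 0 < w.im → ψ w ∈ D ∧ φ (ψ w) = w)
    (hφc : ContinuousOn φ (closure D \ {d}))
    (hφd : Tendsto (fun z => ‖φ z‖) (𝓝[D] d) atTop)
    {g : ℂ → ℂ} {A B : ℂ} {u : ℝ} (hc : Real.cos u ≠ 0)
    (hb : ∀ p ∈ frontier D, p ≠ d → φ p = ((Real.tan u : ℝ) : ℂ) →
      Tendsto (fun z => ((g z - A) / B).im) (𝓝[D] p) (𝓝 0)) :
    RB (fun w => g (ψ (icay w))) A B (Real.pi + 2 * u) := by
  obtain ⟨hne, hval⟩ := icay_exp hc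
  set e : ℂ := exp (((Real.pi + 2 * u : ℝ) : ℂ) * I) with he
  have hnD : d ∉ D := by
    rw [hD.frontier_eq] at hd
    exact hd.2
  have hcpt : IsCompact (closure D) := hDb.isCompact_closure
  have hlim : Tendsto (fun r : ℝ => icay ((r : ℂ) * e)) (𝓝[<] 1) (𝓝 ((Real.tan u : ℝ) : ℂ)) := by
    have h1 : Tendsto (fun r : ℝ => (r : ℂ) * e) (𝓝[<] 1) (𝓝 e) := by
      have : Continuous (fun r : ℝ => (r : ℂ) * e) := by fun_prop
      have h0 := this.tendsto 1
      simp only [Complex.ofReal_one, one_mul] at h0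
      exact h0.mono_left nhdsWithin_le_nhds
    have h2 := (icay_contAt hne).tendsto.comp h1
    rw [hval] at h2
    exact h2
  have hev : ∀ᶠ r : ℝ in 𝓝[<] 1, ψ (icay ((r : ℂ) * e)) ∈ D ∧
      φ (ψ (icay ((r : ℂ) * e))) = icay ((r : ℂ) * e) := by
    filter_upwards [ev_lt_one 0 zero_lt_one] with r hr
    apply hψ
    apply icay_im
    rw [he, norm_rexp hr.1.le]
    exact hr.2
  unfold RB
  rw [tendsto_iff_ultrafilter]
  intro U hU
  have hmapD : ((U.map (fun r : ℝ => ψ (icay ((r : ℂ) * e))) : Ultrafilter ℂ) : Filter ℂ) ≤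
      𝓟 (closure D) := by
    rw [le_principal_iff, Ultrafilter.coe_map, mem_map]
    exact hU (hev.mono (fun r hr => subset_closure hr.1))
  obtain ⟨p, hp, hpl⟩ := hcpt.ultrafilter_le_nhds _ hmapD
  rw [Ultrafilter.coe_map] at hpl
  have hz : Tendsto (fun r : ℝ => ψ (icay ((r : ℂ) * e))) (U : Filter ℝ) (𝓝[D] p) := by
    rw [tendsto_nhdsWithin_iff]
    exact ⟨hpl, hU (hev.mono (fun r hr => hr.1))⟩
  have hφz : Tendsto (fun r : ℝ => φ (ψ (icay ((r : ℂ) * e)))) (U : Filter ℝ)
      (𝓝 ((Real.tan u : ℝ) : ℂ)) := by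
    refine (hlim.mono_left hU).congr' ?_
    exact hU (hev.mono (fun r hr => hr.2.symm))
  have hpd : p ≠ d := by
    rintro rfl
    have h1 : Tendsto (fun r : ℝ => ‖φ (ψ (icay ((r : ℂ) * e)))‖) (U : Filter ℝ) atTop :=
      hφd.comp hz
    exact not_tendsto_atTop_of_tendsto_nhds hφz.norm h1
  have hφp : φ p = ((Real.tan u : ℝ) : ℂ) := by
    have h1 : Tendsto φ (𝓝[D] p) (𝓝 (φ p)) := by
      have h2 : Tendsto φ (𝓝[closure D \ {d}] p) (𝓝 (φ p)) := hφc p ⟨hp, hpd⟩
      refine h2.mono_left (nhdsWithin_mono _ ?_)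
      intro z hz
      exact ⟨subset_closure hz, fun h => hnD (h ▸ hz)⟩
    exact tendsto_nhds_unique (h1.comp hz) hφz
  have hpD : p ∉ D := by
    intro hcon
    have : φ p ∈ φ '' D := mem_image_of_mem _ hcon
    rw [hφD, hφp] at this
    simp at this
  have hpf : p ∈ frontier D := by
    rw [hD.frontier_eq]
    exact ⟨hp, hpD⟩
  exact (hb p hpf hpd hφp).comp hz

theorem marks : Marks Real.pi (3 * Real.pi / 2) (2 * Real.pi) := by
  have := Real.pi_pos
  refine ⟨?_, ?_, ?_⟩ <;> linarith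

theorem param (s : ℝ) : ∃ u : ℝ, s = Real.pi + 2 * u := ⟨(s - Real.pi) / 2, by ring⟩

theorem conj_om' : conj om = om ^ 2 := by
  have h3 : (Real.sqrt 3 : ℝ) ^ 2 = 3 := Real.sq_sqrt (by norm_num)
  rw [om_eq]
  apply Complex.ext
  · simp [pow_two]; nlinarith
  · simp [pow_two]; ring

theorem crossRatio_val (x : ℝ) :
    crossRatioAt (exp ((Real.pi : ℂ) * I)) (cay x) (exp (((3 * Real.pi / 2 : ℝ) : ℂ) * I))
      (exp (((2 * Real.pi : ℝ) : ℂ) * I)) = x := by
  have h1 : exp ((Real.pi : ℂ) * I) = -1 := Complex.exp_pi_mul_I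
  have h2 : exp (((2 * Real.pi : ℝ) : ℂ) * I) = 1 := by
    have := Complex.exp_two_pi_mul_I
    push_cast
    exact this
  have h3 : exp (((3 * Real.pi / 2 : ℝ) : ℂ) * I) = -I := by
    have : (((3 * Real.pi / 2 : ℝ) : ℂ) * I) = Real.pi * I + Real.pi / 2 * I := by
      push_cast; ring
    rw [this, Complex.exp_add, Complex.exp_pi_mul_I, Complex.exp_pi_div_two_mul_I]
    ring
  have h4 : (x : ℂ) + I ≠ 0 := add_I_ne (by simp)
  have h5 : (1:ℂ) + I ≠ 0 := by
    intro h; have := congrArg Complex.re h; simp at this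
  have h6 : (1:ℂ) - I ≠ 0 := by
    intro h; have := congrArg Complex.re h; simp at this
  unfold crossRatioAt
  rw [h1, h2, h3]
  unfold cay
  have e : ((((x:ℂ) - I) / (x + I) - -1) * (-I - 1)) / ((((x:ℂ) - I) / (x + I) - 1) * (-I - -1)) =
      x := by
    have e1 : (((x:ℂ) - I) / (x + I) - -1) = 2 * x / (x + I) := by field_simp; ring
    have e2 : (((x:ℂ) - I) / (x + I) - 1) = -2 * I / (x + I) := by field_simp; ring
    rw [e1, e2, show (-I - -1 : ℂ) = 1 - I by ring]
    have hI : I ≠ 0 := Complex.I_ne_zero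
    rw [div_mul_eq_mul_div, div_mul_eq_mul_div, div_div_div_cancel_right₀ h4]
    rw [div_eq_iff (mul_ne_zero (mul_ne_zero (by norm_num) hI) h6)]
    linear_combination (-2 * (x:ℂ)) * Complex.I_sq
  rw [e, Complex.ofReal_re]

theorem arcs {D : Set ℂ} {φ : ℂ → ℂ} {d : ℂ} {g : ℂ → ℂ} {A B : ℂ} {P : ℝ → Prop}
    (h : ∀ p ∈ frontier D, p ≠ d → (φ p).im = 0 → P (φ p).re →
      Tendsto (fun z => ((g z - A) / B).im) (𝓝[D] p) (𝓝 0)) {t : ℝ} (ht : P t) :
    ∀ p ∈ frontier D, p ≠ d → φ p = ((t : ℝ) : ℂ) →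
      Tendsto (fun z => ((g z - A) / B).im) (𝓝[D] p) (𝓝 0) := by
  intro p hp hpd hv
  apply h p hp hpd
  · rw [hv]; simp
  · rw [hv]; simpa using ht

/-- the radial conditions of the three arcs -/
theorem rads {D : Set ℂ} (hD : IsOpen D) (hDb : Bornology.IsBounded D) {φ ψ : ℂ → ℂ} {d : ℂ}
    (hd : d ∈ frontier D) (hφD : φ '' D = {z : ℂ | 0 < z.im})
    (hψ : ∀ w : ℂ, 0 < w.im → ψ w ∈ D ∧ φ (ψ w) = w)
    (hφc : ContinuousOn φ (closure D \ {d}))
    (hφd : Tendsto (fun z => ‖φ z‖) (𝓝[D] d) atTop)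
    {g : ℂ → ℂ} {A1 B1 A2 B2 A3 B3 : ℂ}
    (b1 : ∀ p ∈ frontier D, p ≠ d → (φ p).im = 0 → (0 < (φ p).re ∧ (φ p).re < 1) →
      Tendsto (fun z => ((g z - A1) / B1).im) (𝓝[D] p) (𝓝 0))
    (b2 : ∀ p ∈ frontier D, p ≠ d → (φ p).im = 0 → 1 < (φ p).re →
      Tendsto (fun z => ((g z - A2) / B2).im) (𝓝[D] p) (𝓝 0))
    (b3 : ∀ p ∈ frontier D, p ≠ d → (φ p).im = 0 → (φ p).re < 0 →
      Tendsto (fun z => ((g z - A3) / B3).im) (𝓝[D] p) (𝓝 0)) :
    (∀ s ∈ Ioo Real.pi (3 * Real.pi / 2), RB (fun w => g (ψ (icay w))) A1 B1 s) ∧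
    (∀ s ∈ Ioo (3 * Real.pi / 2) (2 * Real.pi), RB (fun w => g (ψ (icay w))) A2 B2 s) ∧
    (∀ s ∈ Ioo (2 * Real.pi) (Real.pi + 2 * Real.pi), RB (fun w => g (ψ (icay w))) A3 B3 s) := by
  have hpi := Real.pi_pos
  refine ⟨?_, ?_, ?_⟩
  · intro s hs
    obtain ⟨u, rfl⟩ := param s
    have hu0 : 0 < u := by linarith [hs.1]
    have hu1 : u < Real.pi / 4 := by linarith [hs.2]
    have hcu : 0 < Real.cos u := Real.cos_pos_of_mem_Ioo ⟨by linarith, by linarith⟩
    have ht0 : 0 < Real.tan u := Real.tan_pos_of_pos_of_lt_pi_div_two hu0 (by linarith)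
    have ht1 : Real.tan u < 1 := by
      rw [← Real.tan_pi_div_four]
      exact Real.tan_lt_tan_of_lt_of_lt_pi_div_two (by linarith) (by linarith) hu1
    exact rad hD hDb hd hφD hψ hφc hφd hcu.ne'
      (arcs (P := fun t => 0 < t ∧ t < 1) b1 ⟨ht0, ht1⟩)
  · intro s hs
    obtain ⟨u, rfl⟩ := param s
    have hu0 : Real.pi / 4 < u := by linarith [hs.1]
    have hu1 : u < Real.pi / 2 := by linarith [hs.2]
    have hcu : 0 < Real.cos u := Real.cos_pos_of_mem_Ioo ⟨by linarith, by linarith⟩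
    have ht1 : 1 < Real.tan u := by
      rw [← Real.tan_pi_div_four]
      exact Real.tan_lt_tan_of_lt_of_lt_pi_div_two (by linarith) (by linarith) hu0
    exact rad hD hDb hd hφD hψ hφc hφd hcu.ne' (arcs (P := fun t => 1 < t) b2 ht1)
  · intro s hs
    obtain ⟨u, rfl⟩ := param s
    have hu0 : Real.pi / 2 < u := by linarith [hs.1]
    have hu1 : u < Real.pi := by linarith [hs.2]
    have hcu : Real.cos u < 0 :=
      Real.cos_neg_of_pi_div_two_lt_of_lt hu0 (by linarith)
    have ht1 : Real.tan u < 0 := by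
      rw [← Real.tan_sub_pi u]
      exact Real.tan_neg_of_neg_of_pi_div_two_lt (by linarith) (by linarith)
    exact rad hD hDb hd hφD hψ hφc hφd hcu.ne (arcs (P := fun t => t < 0) b3 ht1)

theorem bc5 : BC5 := by
  classical
  intro D hD hDb hDc φ hφ hφi hφD d hd hφc hφd h hT hhol b hb hbd x hx0 hx1 hbx
  have hpi := Real.pi_pos
  have hom3 := om_cube
  set ψ : ℂ → ℂ := Function.invFunOn φ D with hψdef
  have hψl : ∀ z ∈ D, ψ (φ z) = z := fun z hz => hφi.leftInvOn_invFunOn hz
  have hψ : ∀ w : ℂ, 0 < w.im → ψ w ∈ D ∧ φ (ψ w) = w := by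
    intro w hw
    have hmem : w ∈ φ '' D := by rw [hφD]; exact hw
    obtain ⟨z, hz, rfl⟩ := hmem
    rw [hψl z hz]
    exact ⟨hz, rfl⟩
  have hψd : DifferentiableOn ℂ ψ {z : ℂ | 0 < z.im} := by
    have := Crest.Agent.Lib.differentiableOn_inverse_of_injOn (g := ψ) hD hφ hφi hψl
    rwa [hφD] at this
  have hcomp : DifferentiableOn ℂ (fun w => ψ (icay w)) (Metric.ball 0 1) :=
    hψd.comp icay_diff (fun w hw => icay_im (by simpa using hw))
  have hmaps : MapsTo (fun w => ψ (icay w)) (Metric.ball 0 1) D :=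
    fun w hw => (hψ _ (icay_im (by simpa using hw))).1
  obtain ⟨M, hM⟩ := hT.bd
  have hnD : d ∉ D := by
    rw [hD.frontier_eq] at hd
    exact hd.2
  rcases hhol with hol | hol
  · obtain ⟨r1, r2, r3⟩ := rads hD hDb hd hφD hψ hφc hφd (g := h)
      (fun p h1 h2 h3 h4 => hT.b1 p h1 h2 h3 h4.1 h4.2) hT.b2 hT.b3
    have hf := disc_match marks (f := fun w => h (ψ (icay w))) (hol.comp hcomp hmaps)
      (fun w hw => hM _ (hmaps hw)) r1
      (by intro s hs; have := r2 s hs; rwa [tau3_eq, show om ^ 2 - om = om * (om - 1) by ring] at this)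
      (by
        intro s hs
        have := r3 s hs
        rwa [tau3_eq, show (1:ℂ) - om ^ 2 = om ^ 2 * (om - 1) by linear_combination -hom3] at this)
    -- the value of `h`
    have hval : ∀ z ∈ D, tri Real.pi (3 * Real.pi / 2) (2 * Real.pi) (cay (φ z)) = h z := by
      intro z hz
      have him : 0 < (φ z).im := by
        have : φ z ∈ φ '' D := mem_image_of_mem _ hz
        rw [hφD] at this
        exact this
      have h1 := hf (cay (φ z)) (by simpa using norm_cay him)
      simp only [icay_cay him.le, hψl z hz] at h1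
      exact h1.symm
    obtain ⟨tc, -, t1, -⟩ := tri_main marks
    have hφb : Tendsto φ (𝓝[D] b) (𝓝 (x : ℂ)) := by
      have h1 : Tendsto φ (𝓝[closure D \ {d}] b) (𝓝 (φ b)) :=
        hφc b ⟨frontier_subset_closure hb, hbd⟩
      rw [hbx] at h1
      refine h1.mono_left (nhdsWithin_mono _ ?_)
      intro z hz
      exact ⟨subset_closure hz, fun hh => hnD (hh ▸ hz)⟩
    have hxI : (x : ℂ) + I ≠ 0 := add_I_ne (by simp)
    have hcayc : ContinuousAt cay (x : ℂ) := by
      unfold cay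
      exact (continuousAt_id.sub continuousAt_const).div (continuousAt_id.add continuousAt_const) hxI
    have hcb : Tendsto (fun z => cay (φ z)) (𝓝[D] b) (𝓝[Metric.closedBall 0 1] (cay x)) := by
      rw [tendsto_nhdsWithin_iff]
      refine ⟨hcayc.tendsto.comp hφb, ?_⟩
      filter_upwards [self_mem_nhdsWithin] with z hz
      have him : 0 < (φ z).im := by
        have : φ z ∈ φ '' D := mem_image_of_mem _ hz
        rw [hφD] at this
        exact this
      rw [mem_closedBall_zero_iff]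
      exact norm_cay_le him.le
    have hlim := (tc (cay x) (by rw [mem_closedBall_zero_iff]; exact norm_cay_le (by simp))).tendsto.comp hcb
    -- the parameter
    set u : ℝ := Real.arctan x with hu
    have hcu : 0 < Real.cos u := Real.cos_arctan_pos x
    have hex : exp (((Real.pi + 2 * u : ℝ) : ℂ) * I) = cay x := by
      obtain ⟨hne, hv⟩ := icay_exp hcu.ne'
      rw [hu, Real.tan_arctan] at hv
      rw [← hv]
      set w : ℂ := exp (((Real.pi + 2 * u : ℝ) : ℂ) * I) with hw
      have h1 : (1:ℂ) - w ≠ 0 := sub_ne_zero.2 hne.symm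
      unfold cay icay
      have e1 : I * (1 + w) / (1 - w) - I = 2 * I * w / (1 - w) := by field_simp; ring
      have e2 : I * (1 + w) / (1 - w) + I = 2 * I / (1 - w) := by field_simp; ring
      rw [e1, e2]
      field_simp
    have hs : Real.pi + 2 * u ∈ Icc Real.pi (3 * Real.pi / 2) := by
      have h1 : 0 ≤ u := by rw [hu]; exact Real.arctan_nonneg.2 hx0.le
      have h2 : u ≤ Real.pi / 4 := by
        rw [hu, ← Real.arctan_one]
        exact Real.arctan_strictMono.monotone hx1.le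
      constructor <;> linarith
    have ht1 := t1 _ hs
    rw [hex, crossRatio_val] at ht1
    rw [ht1] at hlim
    have hfin : (1 + (crossingFormula x : ℂ) * (tau3 - 1)) =
        1 + (om - 1) * ((cardyRatio x : ℝ) : ℂ) := by
      rw [tau3_eq]
      have : crossingFormula x = cardyRatio x := rfl
      rw [this]; ring
    rw [hfin]
    refine hlim.congr' ?_
    filter_upwards [self_mem_nhdsWithin] with z hz
    exact hval z hz
  · exfalso
    have cA1 : conj (om - 1) = om ^ 2 - 1 := by rw [map_sub, conj_om', map_one]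
    have cA3 : conj (om ^ 2) = om := by
      rw [map_pow, conj_om']; linear_combination om * hom3
    have cA2 : conj (om ^ 2 - om) = om - om ^ 2 := by
      rw [map_sub, cA3, conj_om']
    have cA4 : conj (1 - om ^ 2) = 1 - om := by
      rw [map_sub, cA3, map_one]
    have cj : ∀ (A B : ℂ) (p : ℂ), LB D h A B p →
        Tendsto (fun z => ((conj (h z) - conj A) / conj B).im) (𝓝[D] p) (𝓝 0) := by
      intro A B p hp
      have h1 : ∀ z, ((conj (h z) - conj A) / conj B).im = -((h z - A) / B).im := by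
        intro z
        have : (conj (h z) - conj A) / conj B = conj ((h z - A) / B) := by
          simp [map_div₀, map_sub]
        rw [this, Complex.conj_im]
      simp only [h1]
      have h2 : Tendsto (fun z => ((h z - A) / B).im) (𝓝[D] p) (𝓝 0) := hp
      simpa using h2.neg
    obtain ⟨r1, r2, r3⟩ := rads hD hDb hd hφD hψ hφc hφd (g := fun z => conj (h z))
      (A1 := 1) (B1 := om ^ 2 - 1) (A2 := om ^ 2) (B2 := om - om ^ 2) (A3 := om) (B3 := 1 - om)
      (fun p h1 h2 h3 h4 => by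
        have := cj _ _ p (hT.b1 p h1 h2 h3 h4.1 h4.2)
        rwa [map_one, tau3_eq, cA1] at this)
      (fun p h1 h2 h3 h4 => by
        have := cj _ _ p (hT.b2 p h1 h2 h3 h4)
        rwa [tau3_eq, conj_om', cA2] at this)
      (fun p h1 h2 h3 h4 => by
        have := cj _ _ p (hT.b3 p h1 h2 h3 h4)
        rwa [tau3_eq, cA3, cA4] at this)
    exact disc_mismatch marks (f := fun w => conj (h (ψ (icay w)))) (hol.comp hcomp hmaps)
      (M := M) (fun w hw => by rw [Complex.norm_conj]; exact hM _ (hmaps hw)) r1 r2 r3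

end Crest.Agent.R143.IdentDx439
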