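import Crest.Agent.R143.EndA_336
import Crest.Agent.R143.DbarMor_63
import Crest.Agent.R143.IdentD_439

/-!
# Row 143 (S0194): the front of S0194 (helper336)

* `exists_bdry` : every real number is a boundary value of `φ` at a frontier point `≠ d`
* `front194` : S0194 follows from two families of discrete observables with `EndH` (hypotheses of
  S0194 literal; the good boundary point `b` is provided, `b = d` in S0194 does not matter)
* `alb_of_bary`, `val_of_bary` : boundary conditions from barycentric coordinates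
-/

set_option autoImplicit false

noncomputable section

namespace Crest.Agent.R143.Frontx336

open Complex Set Filter Topology MeasureTheory
open Crest.ProbabilityR.Voronoi Crest.Agent.R143.BC0x336 Crest.Agent.R143.EndAx336

/-- every real number is a boundary value of `φ` at a frontier point `≠ d` -/
theorem exists_bdry {D : Set ℂ} (hD : IsOpen D) (hDb : Bornology.IsBounded D) {φ : ℂ → ℂ}
    (hφ : DifferentiableOn ℂ φ D) (hφD : φ '' D = {z : ℂ | 0 < z.im}) {d : ℂ}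
    (hφc : ContinuousOn φ (closure D \ {d}))
    (hφd : Tendsto (fun z => ‖φ z‖) (𝓝[D] d) atTop) (s : ℝ) :
    ∃ p ∈ frontier D, p ≠ d ∧ φ p = s := by
  have h1 : ∀ n : ℕ, ∃ z ∈ D, φ z = (s : ℂ) + (1 / ((n : ℝ) + 1) : ℝ) * I := by
    intro n
    have : (s : ℂ) + (1 / ((n : ℝ) + 1) : ℝ) * I ∈ φ '' D := by
      rw [hφD]
      show 0 < ((s : ℂ) + (1 / ((n : ℝ) + 1) : ℝ) * I).im
      have h0 : (0 : ℝ) < 1 / ((n : ℝ) + 1) := by positivity
      rw [Complex.add_im, Complex.ofReal_im, zero_add, Complex.im_ofReal_mul, Complex.I_im, mul_one]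
      exact h0
    obtain ⟨z, hz, hz2⟩ := this
    exact ⟨z, hz, hz2⟩
  choose z hzD hz using h1
  have hlim : Tendsto (fun n => φ (z n)) atTop (𝓝 (s : ℂ)) := by
    have h2 : Tendsto (fun n : ℕ => (1 / ((n : ℝ) + 1) : ℝ)) atTop (𝓝 0) :=
      tendsto_one_div_add_atTop_nhds_zero_nat
    have h3 : Tendsto (fun n : ℕ => (s : ℂ) + (1 / ((n : ℝ) + 1) : ℝ) * I) atTop
        (𝓝 ((s : ℂ) + ((0 : ℝ) : ℂ) * I)) := by
      refine tendsto_const_nhds.add (Tendsto.mul_const I ?_)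
      exact (Complex.continuous_ofReal.tendsto 0).comp h2
    rw [Complex.ofReal_zero, zero_mul, add_zero] at h3
    exact h3.congr fun n => (hz n).symm
  obtain ⟨p, hp, k, hk, hpk⟩ := hDb.isCompact_closure.tendsto_subseq
    (fun n => subset_closure (hzD n))
  have hlk : Tendsto (fun n => φ (z (k n))) atTop (𝓝 (s : ℂ)) := hlim.comp hk.tendsto_atTop
  have hpk' : Tendsto (fun n => z (k n)) atTop (𝓝[D] p) :=
    tendsto_nhdsWithin_iff.2 ⟨hpk, Eventually.of_forall fun n => hzD _⟩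
  have hpd : p ≠ d := by
    rintro rfl
    have h4 := hφd.comp hpk'
    exact not_tendsto_nhds_of_tendsto_atTop h4 ‖(s : ℂ)‖ hlk.norm
  have hpD : p ∉ D := by
    intro hpD
    have h4 : Tendsto (fun n => φ (z (k n))) atTop (𝓝 (φ p)) :=
      ((hφ.differentiableAt (hD.mem_nhds hpD)).continuousAt.tendsto).comp hpk
    have h5 := tendsto_nhds_unique h4 hlk
    have h6 : φ p ∈ φ '' D := ⟨p, hpD, rfl⟩
    rw [hφD, h5] at h6
    simp at h6
  refine ⟨p, ⟨hp, fun h => hpD (interior_subset h)⟩, hpd, ?_⟩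
  have h4 : Tendsto (fun n => z (k n)) atTop (𝓝[closure D \ {d}] p) := by
    rw [tendsto_nhdsWithin_iff]
    refine ⟨hpk, ?_⟩
    filter_upwards [hpk.eventually_ne hpd] with n hn
    exact ⟨subset_closure (hzD _), hn⟩
  exact tendsto_nhds_unique ((hφc p ⟨hp, hpd⟩).tendsto.comp h4) hlk

/-- **FRONT of S0194** -/
theorem front194
    (D : Set ℂ) (hD : IsOpen D) (hDb : Bornology.IsBounded D) (hDc : IsConnected D)
    (φ : ℂ → ℂ) (hφ : DifferentiableOn ℂ φ D) (hφi : Set.InjOn φ D)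
    (hφD : φ '' D = {z : ℂ | 0 < z.im}) (d : ℂ) (hd : d ∈ frontier D)
    (hφc : ContinuousOn φ (closure D \ {d}))
    (hφd : Filter.Tendsto (fun z => ‖φ z‖) (nhdsWithin d D) Filter.atTop)
    (x : ℝ) (hx0 : 0 < x) (hx1 : x < 1) {A₁ A₂ : Set ℂ} {l : Filter ℝ}
    (key : ∀ b ∈ frontier D, b ≠ d → φ b = x → ∃ (H g H' g' : ℝ → ℂ → ℂ) (c c' : ℝ → ℝ),
      EndH D φ d b l H g c ∧ EndH D φ d b l H' g' c' ∧
      (∀ η > 0, ∀ᶠ ε in l, c ε - η ≤ (sampleLaw (crossingEvent ε D A₁ A₂)).toReal) ∧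
      (∀ η > 0, ∀ᶠ ε in l, (sampleLaw (crossingEvent ε D A₁ A₂)).toReal ≤ c' ε + η)) :
    Filter.Tendsto (fun ε : ℝ => sampleLaw (crossingEvent ε D A₁ A₂)) l
      (nhds (ENNReal.ofReal (crossingFormula x))) := by
  obtain ⟨b, hb, hbd, hφb⟩ := exists_bdry hD hDb hφ hφD hφc hφd x
  obtain ⟨H, g, H', g', c, c', h, h', h1, h2⟩ := key b hb hbd hφb
  exact front DbarMorx63.bc3 hD
    (IdentDx439.bc5 D hD hDb hDc φ hφ hφi hφD d hd hφc hφd) hb hbd hx0 hx1 hφb h h' h1 h2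

/-! ### barycentric coordinates -/

variable {ι : Type} {D : Set ℂ} {l : Filter ι}

/-- the asymptotic line condition from barycentric coordinates `P u + Q v + R w` near a side `u v` -/
theorem alb_of_bary {P Q R : ι → ℂ → ℝ} {u v w p : ℂ} (huv : v - u ≠ 0)
    (h : ∀ η > 0, ∃ δ > 0, ∀ᶠ i in l, ∀ z ∈ D, dist z p < δ →
      |R i z| ≤ η ∧ |P i z + Q i z - 1| ≤ η) :
    ALB D l (fun i z => (P i z : ℂ) * u + (Q i z : ℂ) * v + (R i z : ℂ) * w) u (v - u) p := by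
  intro η hη
  set C := (‖u‖ + ‖w‖) / ‖v - u‖ with hC
  have hn : 0 < ‖v - u‖ := norm_pos_iff.2 huv
  have hC0 : 0 ≤ C := by positivity
  obtain ⟨δ, hδ, h1⟩ := h (η / (C + 1)) (by positivity)
  refine ⟨δ, hδ, ?_⟩
  filter_upwards [h1] with i hi z hz hzp
  obtain ⟨hR, hPQ⟩ := hi z hz hzp
  have e : ((P i z : ℂ) * u + (Q i z : ℂ) * v + (R i z : ℂ) * w - u) / (v - u) =
      (Q i z : ℂ) + (((P i z + Q i z - 1 : ℝ) : ℂ) * u + (R i z : ℂ) * w) / (v - u) := by
    field_simp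
    push_cast
    ring
  rw [e, Complex.add_im, Complex.ofReal_im, zero_add]
  refine (Complex.abs_im_le_norm _).trans ?_
  rw [norm_div]
  have e2 : ‖((P i z + Q i z - 1 : ℝ) : ℂ) * u + (R i z : ℂ) * w‖ ≤
      (η / (C + 1)) * (‖u‖ + ‖w‖) := by
    refine (norm_add_le _ _).trans ?_
    rw [norm_mul, norm_mul, Complex.norm_real, Complex.norm_real, Real.norm_eq_abs,
      Real.norm_eq_abs, mul_add]
    gcongr
  calc ‖((P i z + Q i z - 1 : ℝ) : ℂ) * u + (R i z : ℂ) * w‖ / ‖v - u‖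
      ≤ (η / (C + 1)) * (‖u‖ + ‖w‖) / ‖v - u‖ := by gcongr
    _ = η * (C / (C + 1)) := by rw [hC]; field_simp
    _ ≤ η * 1 := by
        gcongr
        rw [div_le_one (by linarith)]
        linarith
    _ = η := mul_one _

/-- the value near `b` from barycentric coordinates -/
theorem val_of_bary {P Q R : ι → ℂ → ℝ} {u v w b : ℂ} {c : ι → ℝ}
    (h : ∀ η > 0, ∃ δ > 0, ∀ᶠ i in l, ∀ z ∈ D, dist z b < δ →
      |R i z| ≤ η ∧ |P i z - (1 - c i)| ≤ η ∧ |Q i z - c i| ≤ η) :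
    ∀ η > 0, ∃ δ > 0, ∀ᶠ i in l, ∀ z ∈ D, dist z b < δ →
      dist ((P i z : ℂ) * u + (Q i z : ℂ) * v + (R i z : ℂ) * w) (u + (c i : ℂ) * (v - u)) ≤ η := by
  intro η hη
  set C := ‖u‖ + ‖v‖ + ‖w‖ with hC
  have hC0 : 0 ≤ C := by positivity
  obtain ⟨δ, hδ, h1⟩ := h (η / (C + 1)) (by positivity)
  refine ⟨δ, hδ, ?_⟩
  filter_upwards [h1] with i hi z hz hzp
  obtain ⟨hR, hP, hQ⟩ := hi z hz hzp
  have e : (P i z : ℂ) * u + (Q i z : ℂ) * v + (R i z : ℂ) * w - (u + (c i : ℂ) * (v - u)) =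
      ((P i z - (1 - c i) : ℝ) : ℂ) * u + ((Q i z - c i : ℝ) : ℂ) * v + (R i z : ℂ) * w := by
    push_cast
    ring
  rw [dist_eq_norm, e]
  calc ‖((P i z - (1 - c i) : ℝ) : ℂ) * u + ((Q i z - c i : ℝ) : ℂ) * v + (R i z : ℂ) * w‖
      ≤ ‖((P i z - (1 - c i) : ℝ) : ℂ) * u‖ + ‖((Q i z - c i : ℝ) : ℂ) * v‖ +
        ‖(R i z : ℂ) * w‖ := norm_add₃_le
    _ ≤ (η / (C + 1)) * ‖u‖ + (η / (C + 1)) * ‖v‖ + (η / (C + 1)) * ‖w‖ := by
        rw [norm_mul, norm_mul, norm_mul, Complex.norm_real, Complex.norm_real,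
          Complex.norm_real, Real.norm_eq_abs, Real.norm_eq_abs, Real.norm_eq_abs]
        gcongr
    _ = η * (C / (C + 1)) := by rw [hC]; field_simp
    _ ≤ η * 1 := by
        gcongr
        rw [div_le_one (by linarith)]
        linarith
    _ = η := mul_one _

end Crest.Agent.R143.Frontx336
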