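import Crest.Agent.R143.RigZd_609
import Crest.Agent.R143.BadG_204

/-!
# Row 143 (S0194), RIG: the mass of the corridor is bounded below at a fixed width (helper204)

* `g0_ge` : `cc ^ M * cb ^ M ≤ g0` from `cc ≤ c N ε`, `cb ≤ E wA` (653)
* `Low Z` : absolute lower bounds of the template for every width and all small meshes
* `gz` : `g0` as a function of `ε`; `lowN_gz` : it is bounded below for small `ε`
* `BadF B` : a family of bad events, negligible at every fixed `(e0, N)`; **`BadF.t3`** : the relative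
  probability is `T3`; `BadF.le`
-/

set_option autoImplicit false
set_option linter.style.haveILetI false

noncomputable section

open scoped Classical ENNReal

namespace Crest.Agent.R143.G0Lx204

open MeasureTheory Set Filter Topology
open Crest.ProbabilityR.Voronoi
open Crest.Agent.R143.PP0x831
open Crest.Agent.R143.PolyUx346 (Poly)
open Crest.Agent.R143.PolyEx854 (T3)
open Crest.Agent.R143.RigPx854
open Crest.Agent.R143.RigZdx609 Crest.Agent.R143.LimSx133 Crest.Agent.R143.BadGx204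
open Crest.Agent.R143.CorNx765

variable (Z : TData) {N : ℕ} {ε : ℝ} {u : Poly} {w : ZMod 3}

/-- **lower bound of the mass** -/
theorem g0_ge (hN : u.n + 4 ≤ N) (hε : 0 < ε) {cc cb : ℝ} (h0 : 0 ≤ cc) (h0' : 0 ≤ cb)
    (hc : ENNReal.ofReal cc ≤ Z.c N ε)
    (ha : ENNReal.ofReal cb ≤ ∫⁻ ω, (Z.D N ε).wA (cfg ε ω) ∂sampleLaw) :
    cc ^ (ly u N).M * cb ^ (ly u N).M ≤ g0 Z u w hN hε := by
  haveI := neM hN
  have h := LimSx133.pth_g0_ge (cpth (fp hN) (Z.std N hε) (ly u N).A (ly u N).e w)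
    (I := Finset.univ) (J := Finset.univ) (fun k _ => ⟨Finset.mem_univ _, Finset.mem_univ _⟩)
    h0 h0' hc ha
  rw [Finset.card_univ, ZMod.card] at h
  exact h

/-- **absolute lower bounds of the template** (653) -/
def Low (Z : TData) : Prop := ∃ cc cb : ℝ, 0 < cc ∧ 0 < cb ∧ ∀ N, ∀ᶠ ε : ℝ in 𝓝[>] 0,
  ENNReal.ofReal cc ≤ Z.c N ε ∧
    ENNReal.ofReal cb ≤ ∫⁻ ω, (Z.D N ε).wA (cfg ε ω) ∂sampleLaw

/-- `g0` as a function of the mesh -/
def gz (Z : TData) (u : Poly) (w : ZMod 3) (N : ℕ) (ε : ℝ) : ℝ :=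
  if h : u.n + 4 ≤ N ∧ 0 < ε then g0 Z u w h.1 h.2 else 1

theorem gz_eq (hN : u.n + 4 ≤ N) (hε : 0 < ε) : gz Z u w N ε = g0 Z u w hN hε :=
  dif_pos ⟨hN, hε⟩

variable {Z}

/-- **bounded below for small meshes** -/
theorem lowN_gz (hL : Low Z) (u : Poly) (w : ZMod 3) {N : ℕ} (hN : u.n + 4 ≤ N) :
    LowN (gz Z u w N) := by
  obtain ⟨cc, cb, h1, h2, h3⟩ := hL
  refine lowN_of h1 h2 (ly u N).M (ly u N).M ?_
  have f3 : ∀ᶠ ε : ℝ in 𝓝[>] 0, 0 < ε := eventually_mem_nhdsWithin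
  filter_upwards [h3 N, f3] with ε h4 hε
  rw [gz_eq Z hN hε]
  exact g0_ge Z hN hε h1.le h2.le h4.1 h4.2

/-- the mass is positive for small meshes -/
theorem gz_pos (hL : Low Z) (u : Poly) (w : ZMod 3) {N : ℕ} (hN : u.n + 4 ≤ N) :
    ∀ᶠ ε : ℝ in 𝓝[>] 0, 0 < gz Z u w N ε := (lowN_gz hL u w hN).pos

/-- a family of bad events, negligible at every fixed `(e0, N)` -/
def BadF (B : ℝ → ℕ → ℝ → Set Sample) : Prop :=
  ∀ᶠ e0 : ℝ in 𝓝[>] 0, ∀ᶠ N in atTop, Neg (B e0 N)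

theorem BadF.union {A B : ℝ → ℕ → ℝ → Set Sample} (hA : BadF A) (hB : BadF B) :
    BadF fun e0 N ε => A e0 N ε ∪ B e0 N ε := by
  filter_upwards [hA, hB] with e0 h1 h2
  filter_upwards [h1, h2] with N h3 h4
  exact h3.union h4

theorem BadF.of {B : ℕ → ℝ → Set Sample} (h : ∀ N, Neg (B N)) : BadF fun _ => B :=
  Eventually.of_forall fun _ => Eventually.of_forall h

/-- relative probability -/
def rh (Z : TData) (u : Poly) (w : ZMod 3) (B : ℝ → ℕ → ℝ → Set Sample) (e0 : ℝ) (N : ℕ)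
    (ε : ℝ) : ℝ := sampleLaw.real (BadGx204.msb (B e0 N) ε) / gz Z u w N ε

/-- **the relative probability is small** -/
theorem BadF.t3 {B : ℝ → ℕ → ℝ → Set Sample} (hB : BadF B) (hL : Low Z) (u : Poly)
    (w : ZMod 3) : T3 atTop (rh Z u w B) := by
  refine t3_ratio (B := fun e0 N => BadGx204.msb (B e0 N)) ?_ ?_
  · filter_upwards [hB] with e0 h1
    filter_upwards [h1] with N h2
    exact h2.msb
  · filter_upwards [eventually_ge_atTop (u.n + 4)] with N hN
    obtain ⟨a, ha, h⟩ := lowN_gz hL u w hN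
    exact ⟨a, ha, h⟩

/-- **the field `hbad`** -/
theorem bad_le (hL : Low Z) (u : Poly) (w : ZMod 3) (B : ℝ → ℕ → ℝ → Set Sample) (e0 : ℝ)
    {N : ℕ} (hN : u.n + 4 ≤ N) : ∀ᶠ ε : ℝ in 𝓝[>] 0, ∀ hε : 0 < ε,
      0 < g0 Z u w hN hε ∧ 0 ≤ rh Z u w B e0 N ε ∧
      sampleLaw.real (BadGx204.msb (B e0 N) ε) ≤ rh Z u w B e0 N ε * g0 Z u w hN hε := by
  filter_upwards [gz_pos hL u w hN] with ε h1 hε
  have h2 := h1
  rw [gz_eq Z hN hε] at h2
  refine ⟨h2, div_nonneg measureReal_nonneg h1.le, ?_⟩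
  unfold rh
  rw [gz_eq Z hN hε]
  exact ratio_le h2

/-! ### 133's environment with finitely many parameters -/

/-- all the environments of a finite list of parameters `(K1, c2, ρ0)` -/
def AllEnv (u : Poly) (L : List (ℝ × ℝ × ℝ)) (ε : ℝ) (ω : Sample) : Prop :=
  ∀ p ∈ L, CorEx133.CorEnv u ε √ε p.1 p.2.1 p.2.2 ω

/-- legal parameters -/
def LegL (L : List (ℝ × ℝ × ℝ)) : Prop := ∀ p ∈ L, 0 ≤ p.1 ∧ 0 < p.2.1 ∧ 0 < p.2.2

theorem neg_all (u : Poly) {L : List (ℝ × ℝ × ℝ)} (hL : LegL L) :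
    Neg fun ε => {ω | ¬ AllEnv u L ε ω} := by
  induction L with
  | nil =>
    refine Neg.empty.mono (Eventually.of_forall fun ε ω hω => ?_)
    exact absurd (fun p hp => absurd hp List.not_mem_nil) hω
  | cons p L ih =>
    have h1 := ih fun q hq => hL q (List.mem_cons_of_mem _ hq)
    obtain ⟨h2, h3, h4⟩ := hL p List.mem_cons_self
    refine ((Neg.cor u h2 h3 h4).union h1).mono (Eventually.of_forall fun ε ω hω => ?_)
    by_contra hc
    rw [mem_union, mem_ofPred_eq, mem_ofPred_eq, not_or, not_not, not_not] at hc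
    refine hω fun q hq => ?_
    rcases List.mem_cons.1 hq with rfl | hq
    · exact hc.1
    · exact hc.2 q hq

/-- **133's environments, parameters depending on `N`** -/
theorem badF_all (u : Poly) {L : ℕ → List (ℝ × ℝ × ℝ)} (hL : ∀ N, LegL (L N)) :
    BadF fun _ N ε => {ω | ¬ AllEnv u (L N) ε ω} := BadF.of fun N => neg_all u (hL N)

end Crest.Agent.R143.G0Lx204
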