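import Mathlib

/-!
# Row 143 (S0194), block G6/D4: topological half (helper408)

* `chain_of_cover` : a preconnected set covered by finitely many closed sets gives a chain of
  sets with consecutive ones meeting inside the set
* `cut` : in a compact set, two closed subsets not joined by a connected subset are separated
* `crosscut` : a compact connected set `K` whose part outside the open set `D` splits into two
  compact pieces touching the frontier of `D` only in `A₁`, `A₂` contains a connected subset of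
  `K ∩ closure D` meeting `A₁` and `A₂`
-/

set_option autoImplicit false

open Set Topology

namespace Crest.Agent.R143.G6Tx408

variable {X : Type*} [TopologicalSpace X]

/-- a preconnected set covered by finitely many closed sets: chains -/
theorem chain_of_cover {ι : Type*} {s : Set ι} (hs : s.Finite) {F : ι → Set X}
    (hF : ∀ i ∈ s, IsClosed (F i)) {C : Set X} (hC : IsPreconnected C)
    (hCs : C ⊆ ⋃ i ∈ s, F i) {i j : ι} (hi : i ∈ s) (hj : j ∈ s)
    (hxi : (C ∩ F i).Nonempty) (hyj : (C ∩ F j).Nonempty) :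
    Relation.ReflTransGen (fun a b => a ∈ s ∧ b ∈ s ∧ (F a ∩ F b ∩ C).Nonempty) i j := by
  by_contra hcon
  set r := fun a b => a ∈ s ∧ b ∈ s ∧ (F a ∩ F b ∩ C).Nonempty with hr
  set A : Set ι := {k ∈ s | Relation.ReflTransGen r i k} with hA
  set B : Set ι := {k ∈ s | ¬ Relation.ReflTransGen r i k} with hB
  have hAf : A.Finite := hs.subset fun k hk => hk.1
  have hBf : B.Finite := hs.subset fun k hk => hk.1
  have h1 : IsClosed (⋃ k ∈ A, F k) := hAf.isClosed_biUnion fun k hk => hF k hk.1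
  have h2 : IsClosed (⋃ k ∈ B, F k) := hBf.isClosed_biUnion fun k hk => hF k hk.1
  have h3 : C ⊆ (⋃ k ∈ A, F k) ∪ ⋃ k ∈ B, F k := by
    intro z hz
    obtain ⟨k, hk, hzk⟩ := mem_iUnion₂.1 (hCs hz)
    by_cases h : Relation.ReflTransGen r i k
    · exact Or.inl (mem_biUnion (x := k) ⟨hk, h⟩ hzk)
    · exact Or.inr (mem_biUnion (x := k) ⟨hk, h⟩ hzk)
  have h4 : (C ∩ ⋃ k ∈ A, F k).Nonempty := by
    obtain ⟨x, hx, hx2⟩ := hxi
    exact ⟨x, hx, mem_biUnion (x := i) ⟨hi, .refl⟩ hx2⟩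
  have h5 : (C ∩ ⋃ k ∈ B, F k).Nonempty := by
    obtain ⟨x, hx, hx2⟩ := hyj
    exact ⟨x, hx, mem_biUnion (x := j) ⟨hj, hcon⟩ hx2⟩
  obtain ⟨z, hz, hz1, hz2⟩ := isPreconnected_closed_iff.1 hC _ _ h1 h2 h3 h4 h5
  obtain ⟨k, hk, hzk⟩ := mem_iUnion₂.1 hz1
  obtain ⟨l, hl, hzl⟩ := mem_iUnion₂.1 hz2
  exact hl.2 (hk.2.tail ⟨hk.1, hl.1, z, ⟨hzk, hzl⟩, hz⟩)

/-- union of a chain of preconnected sets -/
theorem preconn_of_chain {ι : Type*} {F : ι → Set X} {s : Set ι}
    (hF : ∀ i ∈ s, IsPreconnected (F i)) {i : ι}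
    (h : ∀ j ∈ s, Relation.ReflTransGen (fun a b => b ∈ s ∧ (F a ∩ F b).Nonempty) i j)
    (hi : i ∈ s) : IsPreconnected (⋃ j ∈ s, F j) := by
  refine IsPreconnected.biUnion_of_reflTransGen hF fun a ha b hb => ?_
  -- from `a` back to `i`, then to `b`
  have hsymm : ∀ j, Relation.ReflTransGen (fun a b => b ∈ s ∧ (F a ∩ F b).Nonempty) i j →
      Relation.ReflTransGen (fun a b => (F a ∩ F b).Nonempty ∧ a ∈ s) i j := by
    intro j hj
    induction hj with
    | refl => exact .refl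
    | tail h1 h2 ih =>
      refine ih.tail ⟨h2.2, ?_⟩
      rcases Relation.ReflTransGen.cases_tail h1 with h3 | ⟨c, -, h3⟩
      · rw [h3]; exact hi
      · exact h3.1
  have hback : ∀ j, Relation.ReflTransGen (fun a b => b ∈ s ∧ (F a ∩ F b).Nonempty) i j →
      Relation.ReflTransGen (fun a b => (F a ∩ F b).Nonempty ∧ a ∈ s) j i := by
    intro j hj
    induction hj with
    | refl => exact .refl
    | tail h1 h2 ih =>
      refine Relation.ReflTransGen.head ⟨?_, h2.1⟩ ih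
      rw [inter_comm]; exact h2.2
  exact (hback a (h a ha)).trans (hsymm b (h b hb))

/-- **cut wire**: in a compact set `L`, closed subsets `P`, `Q` which are not joined by a connected
subset of `L` are separated by a partition of `L` into two compact sets -/
theorem cut [T2Space X] {L P Q : Set X} (hL : IsCompact L) (hP : IsClosed P) (hQ : IsClosed Q)
    (h : ∀ S ⊆ L, IsPreconnected S → (S ∩ P).Nonempty → ¬ (S ∩ Q).Nonempty) :
    ∃ W W' : Set X, IsCompact W ∧ IsCompact W' ∧ W ∪ W' = L ∧ Disjoint W W' ∧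
      L ∩ P ⊆ W ∧ L ∩ Q ⊆ W' := by
  have : CompactSpace L := isCompact_iff_compactSpace.1 hL
  set P' : Set L := Subtype.val ⁻¹' P with hP'
  set Q' : Set L := Subtype.val ⁻¹' Q with hQ'
  have hPc : IsCompact P' := (hP.preimage continuous_subtype_val).isCompact
  have hQc : IsCompact Q' := (hQ.preimage continuous_subtype_val).isCompact
  -- one point
  have h1 : ∀ p ∈ P', ∃ U : Set L, IsClopen U ∧ p ∈ U ∧ Disjoint U Q' := by
    intro p hp
    have hd : Disjoint (connectedComponent p) Q' := by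
      rw [Set.disjoint_left]
      intro q hq hqQ
      refine h (Subtype.val '' connectedComponent p) ?_ ?_ ?_ ?_
      · rintro _ ⟨a, -, rfl⟩; exact a.2
      · exact isPreconnected_connectedComponent.image _ continuous_subtype_val.continuousOn
      · exact ⟨p.1, ⟨p, mem_connectedComponent, rfl⟩, hp⟩
      · exact ⟨q.1, ⟨q, hq, rfl⟩, hqQ⟩
    rw [connectedComponent_eq_iInter_isClopen] at hd
    have hcl : ∀ i : { s : Set L // IsClopen s ∧ p ∈ s }, IsClosed (i.1) := fun i => i.2.1.1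
    have hne : (Q' ∩ ⋂ i : { s : Set L // IsClopen s ∧ p ∈ s }, i.1) = ∅ := by
      rw [inter_comm]; exact hd.inter_eq
    obtain ⟨u, hu⟩ := hQc.elim_finite_subfamily_closed _ hcl hne
    refine ⟨⋂ i ∈ u, (i : { s : Set L // IsClopen s ∧ p ∈ s }).1, ?_, ?_, ?_⟩
    · exact u.finite_toSet.isClopen_biInter fun i _ => i.2.1
    · exact mem_iInter₂.2 fun i _ => i.2.2
    · rw [disjoint_comm, Set.disjoint_iff_inter_eq_empty]; exact hu
  choose! U hU1 hU2 hU3 using h1
  obtain ⟨t, ht⟩ := hPc.elim_nhds_subcover' (fun p hp => U p) fun p hp =>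
    (hU1 p hp).2.mem_nhds (hU2 p hp)
  have hW : IsClopen (⋃ x ∈ t, U (x : L)) := t.finite_toSet.isClopen_biUnion fun x _ => hU1 x.1 x.2
  refine ⟨Subtype.val '' (⋃ x ∈ t, U (x : L)), Subtype.val '' (⋃ x ∈ t, U (x : L))ᶜ,
    hW.1.isCompact.image continuous_subtype_val, hW.compl.1.isCompact.image continuous_subtype_val,
    ?_, ?_, ?_, ?_⟩
  · rw [← image_union, union_compl_self, image_univ, Subtype.range_coe]
  · exact (disjoint_image_iff Subtype.val_injective).2 disjoint_compl_right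
  · rintro z ⟨hzL, hzP⟩
    exact ⟨⟨z, hzL⟩, ht hzP, rfl⟩
  · rintro z ⟨hzL, hzQ⟩
    refine ⟨⟨z, hzL⟩, ?_, rfl⟩
    intro hz
    obtain ⟨x, hx, hx2⟩ := mem_iUnion₂.1 hz
    exact Set.disjoint_left.1 (hU3 x.1 x.2) hx2 hzQ

/-- **crosscut**: a connected compact set `K` whose part outside of the open set `D` splits into two
compact pieces `U₁`, `U₂` contains a connected subset of `K ∩ closure D` meeting `U₁` and `U₂` (at
points of the frontier of `D`) -/
theorem crosscut [T2Space X] {K D U₁ U₂ : Set X} (hK : IsCompact K) (hKc : IsPreconnected K)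
    (hU₁ : IsCompact U₁) (hU₂ : IsCompact U₂) (hU : K \ D ⊆ U₁ ∪ U₂)
    (hd : Disjoint U₁ U₂) (h₁ : (K ∩ U₁).Nonempty) (h₂ : (K ∩ U₂).Nonempty) :
    ∃ S : Set X, IsConnected S ∧ S ⊆ K ∩ closure D ∧ (S ∩ U₁).Nonempty ∧ (S ∩ U₂).Nonempty := by
  by_contra hcon
  have hL : IsCompact (K ∩ closure D) := hK.inter_right isClosed_closure
  obtain ⟨W, W', hW, hW', hWW, hdis, hP, hQ⟩ := cut hL hU₁.isClosed hU₂.isClosed (by
    intro S hS hSc hS1 hS2
    exact hcon ⟨S, ⟨hS1.mono inter_subset_left, hSc⟩, hS, hS1, hS2⟩)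
  have hWL : W ⊆ K ∩ closure D := hWW ▸ subset_union_left
  have hWL' : W' ⊆ K ∩ closure D := hWW ▸ subset_union_right
  have c1 : IsClosed (W ∪ K ∩ U₁) := hW.isClosed.union (hK.isClosed.inter hU₁.isClosed)
  have c2 : IsClosed (W' ∪ K ∩ U₂) := hW'.isClosed.union (hK.isClosed.inter hU₂.isClosed)
  have hcov : K ⊆ (W ∪ K ∩ U₁) ∪ (W' ∪ K ∩ U₂) := by
    intro z hz
    by_cases hzD : z ∈ D
    · have : z ∈ W ∪ W' := by rw [hWW]; exact ⟨hz, subset_closure hzD⟩
      rcases this with h | h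
      · exact Or.inl (Or.inl h)
      · exact Or.inr (Or.inl h)
    · rcases hU ⟨hz, hzD⟩ with h | h
      · exact Or.inl (Or.inr ⟨hz, h⟩)
      · exact Or.inr (Or.inr ⟨hz, h⟩)
  obtain ⟨z, hz, hz1, hz2⟩ := isPreconnected_closed_iff.1 hKc _ _ c1 c2 hcov
    (by obtain ⟨z, hz, hz1⟩ := h₁; exact ⟨z, hz, Or.inr ⟨hz, hz1⟩⟩)
    (by obtain ⟨z, hz, hz1⟩ := h₂; exact ⟨z, hz, Or.inr ⟨hz, hz1⟩⟩)
  rcases hz1 with h | h <;> rcases hz2 with h' | h'
  · exact Set.disjoint_left.1 hdis h h'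
  · exact Set.disjoint_left.1 hdis h (hQ ⟨hWL h, h'.2⟩)
  · exact Set.disjoint_left.1 hdis (hP ⟨hWL' h', h.2⟩) h'
  · exact Set.disjoint_left.1 hd h.2 h'.2

end Crest.Agent.R143.G6Tx408
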