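import Crest.Agent.R143.RBm_838

/-!
# Row 143: `RBm` in scaled frames (helper838)

Frame `(z0, e)` with `e ≠ 0` arbitrary (`‖e‖` = unit of length, coordinates `X z0 e`, `Y z0 e`).

* `hc_scale`, `vc_scale` : change of the unit
* `rb_all` : horizontal and vertical crossings, black and white, of all rectangles with coordinates
  `≤ k`, sides `≥ 1 / k`, width `≤ 2 ρ / ‖e‖`, with probability `≥ p`, from one environment at the scale `ρ`
-/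

set_option autoImplicit false

noncomputable section

open scoped Classical

namespace Crest.Agent.R143.RbEx838

open Crest.Agent.R143.B0x346 Crest.Agent.R143.DelGx806 Crest.Agent.R143.DelRx806
open Crest.Agent.R143.ToolWx838 Crest.Agent.R143.Blkx838 Crest.Agent.R143.ToolW2x838
open Crest.Agent.R143.ToolW3x838 Crest.Agent.R143.Circ4x838 Crest.Agent.R143.Harx315
open Crest.Agent.R143.RB0x838 Crest.Agent.R143.CircPx838 Crest.Agent.R143.Gatex838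
open Crest.Agent.R143.CBx838 Crest.Agent.R143.Multix838 Crest.Agent.R143.RBpx838
open Crest.Agent.R143.RBmx838

variable {S V β : Finset ℂ} {z0 e : ℂ} {x0 x1 y0 y1 m : ℝ} {l : List ℂ}

theorem X_scale (z0 u s : ℂ) {r : ℝ} (_ : 0 < r) : X z0 (u * (r : ℂ)) s = X z0 u s / r := by
  unfold X
  rw [← div_div, Complex.div_ofReal_re]

theorem Y_scale (z0 u s : ℂ) {r : ℝ} (_ : 0 < r) : Y z0 (u * (r : ℂ)) s = Y z0 u s / r := by
  unfold Y
  rw [← div_div, Complex.div_ofReal_im]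

theorem hc_scale {u : ℂ} {r : ℝ} (hr : 0 < r)
    (h : HC S z0 u (x0 * r) (x1 * r) (y0 * r) (y1 * r) (m * r) β l) :
    HC S z0 (u * (r : ℂ)) x0 x1 y0 y1 m β l := by
  refine ⟨h.ne, h.adj, h.col, fun s hs => ?_, fun s hs => ?_, ?_, ?_⟩
  · rw [Y_scale z0 u s hr, lt_div_iff₀ hr, div_lt_iff₀ hr]
    exact h.strip s hs
  · rw [X_scale z0 u s hr, le_div_iff₀ hr, div_le_iff₀ hr]
    have := h.loc s hs
    constructor <;> nlinarith [this.1, this.2]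
  · rw [X_scale z0 u _ hr, div_le_iff₀ hr]
    exact h.left
  · rw [X_scale z0 u _ hr, le_div_iff₀ hr]
    exact h.right

theorem vc_scale {u : ℂ} {r : ℝ} (hr : 0 < r)
    (h : VC S z0 u (x0 * r) (x1 * r) (y0 * r) (y1 * r) (m * r) β l) :
    VC S z0 (u * (r : ℂ)) x0 x1 y0 y1 m β l := by
  refine ⟨h.ne, h.adj, h.col, fun s hs => ?_, fun s hs => ?_, ?_, ?_⟩
  · rw [X_scale z0 u s hr, lt_div_iff₀ hr, div_lt_iff₀ hr]
    exact h.strip s hs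
  · rw [Y_scale z0 u s hr, le_div_iff₀ hr, div_le_iff₀ hr]
    have := h.loc s hs
    constructor <;> nlinarith [this.1, this.2]
  · rw [Y_scale z0 u _ hr, div_le_iff₀ hr]
    exact h.left
  · rw [Y_scale z0 u _ hr, le_div_iff₀ hr]
    exact h.right

/-- shape of a rectangle in the frame of unit `‖e‖`, width `w` of the strip -/
structure Shp (k x0 x1 y0 y1 w m : ℝ) : Prop where
  bx0 : |x0| ≤ k
  bx1 : |x1| ≤ k
  by0 : |y0| ≤ k
  by1 : |y1| ≤ k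
  sx : 1 ≤ k * (x1 - x0)
  sy : 1 ≤ k * (y1 - y0)
  mg : w / 2 ≤ m

/-- **all rectangles at one scale**, black and white -/
theorem rb_all (hRB : RBm) : ∀ k : ℝ, 1 ≤ k → ∀ C4 : ℝ, 0 ≤ C4 →
    ∃ p c1 c2 K : ℝ, 0 < p ∧ p ≤ 1 ∧ 0 < c1 ∧ 0 < c2 ∧ c2 ≤ 1 ∧ 0 < K ∧
    ∀ (S : Finset ℂ) (z0 e : ℂ) (ρ d : ℝ), 0 < ‖e‖ → ‖e‖ ≤ ρ → ρ ≤ k * ‖e‖ →
      NvA S z0 (K * ρ) c2 ρ d C4 → d ≤ c1 * ρ →
      ∀ V : Finset ℂ, V ⊆ S → ∀ x0 x1 y0 y1 m : ℝ,
      (Shp k x0 x1 y0 y1 (y1 - y0) m → (y1 - y0) * ‖e‖ ≤ 2 * ρ →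
        (∀ s ∈ S, y0 < Y z0 e s → Y z0 e s < y1 → x0 - m ≤ X z0 e s → X z0 e s ≤ x1 + m → s ∈ V) →
        p ≤ pr V (fun β => ∃ l, HC S z0 e x0 x1 y0 y1 m β l) ∧
          p ≤ pr V (fun β => ∃ l, HC S z0 e x0 x1 y0 y1 m (V \ β) l)) ∧
      (Shp k x0 x1 y0 y1 (x1 - x0) m → (x1 - x0) * ‖e‖ ≤ 2 * ρ →
        (∀ s ∈ S, x0 < X z0 e s → X z0 e s < x1 → y0 - m ≤ Y z0 e s → Y z0 e s ≤ y1 + m → s ∈ V) →
        p ≤ pr V (fun β => ∃ l, VC S z0 e x0 x1 y0 y1 m β l) ∧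
          p ≤ pr V (fun β => ∃ l, VC S z0 e x0 x1 y0 y1 m (V \ β) l)) := by
  intro k hk C4 hC4
  obtain ⟨p1, a1, b1, K1, hp1, ha1, hb1, hb1', hK1, H1⟩ := rb_hcm hRB (k ^ 2) (by nlinarith) C4 hC4
  obtain ⟨p2, a2, b2, K2, hp2, ha2, hb2, hb2', hK2, H2⟩ := rb_vcm hRB (k ^ 2) (by nlinarith) C4 hC4
  refine ⟨min 1 (min p1 p2), min a1 a2, min b1 b2, K1 + K2, lt_min one_pos (lt_min hp1 hp2),
    min_le_left _ _, lt_min ha1 ha2, lt_min hb1 hb2, (min_le_left _ _).trans hb1',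
    by positivity, ?_⟩
  intro S z0 e ρ d he heρ hρe hN hd V hV x0 x1 y0 y1 m
  have hρ : 0 < ρ := lt_of_lt_of_le he heρ
  have hk0 : 0 < k := by linarith
  have hpp1 : min 1 (min p1 p2) ≤ p1 := (min_le_right _ _).trans (min_le_left _ _)
  have hpp2 : min 1 (min p1 p2) ≤ p2 := (min_le_right _ _).trans (min_le_right _ _)
  have hN1 : NvA S z0 (K1 * ρ) b1 ρ d C4 := by
    refine ⟨LDns.mono hN.dns (by nlinarith), ?_⟩
    have h1 : MeshA S z0 (K1 * ρ) (min b1 b2) ρ C4 :=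
      hN.mesh.shift (by rw [sub_self, norm_zero]; nlinarith)
    exact h1.sub (mul_le_mul_of_nonneg_right (min_le_left _ _) hρ.le) le_rfl
  have hN2 : NvA S z0 (K2 * ρ) b2 ρ d C4 := by
    refine ⟨LDns.mono hN.dns (by nlinarith), ?_⟩
    have h1 : MeshA S z0 (K2 * ρ) (min b1 b2) ρ C4 :=
      hN.mesh.shift (by rw [sub_self, norm_zero]; nlinarith)
    exact h1.sub (mul_le_mul_of_nonneg_right (min_le_right _ _) hρ.le) le_rfl
  have hd1 : d ≤ a1 * ρ := hd.trans (mul_le_mul_of_nonneg_right (min_le_left _ _) hρ.le)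
  have hd2 : d ≤ a2 * ρ := hd.trans (mul_le_mul_of_nonneg_right (min_le_right _ _) hρ.le)
  set u : ℂ := e / (‖e‖ : ℂ) with hu
  have he0 : (‖e‖ : ℂ) ≠ 0 := by exact_mod_cast he.ne'
  have hue : u * (‖e‖ : ℂ) = e := by rw [hu, div_mul_cancel₀ _ he0]
  have hun : ‖u‖ = 1 := by
    rw [hu, norm_div, Complex.norm_real, norm_norm, div_self he.ne']
  have hX : ∀ s, X z0 e s = X z0 u s / ‖e‖ := fun s => by rw [← X_scale z0 u s he, hue]
  have hY : ∀ s, Y z0 e s = Y z0 u s / ‖e‖ := fun s => by rw [← Y_scale z0 u s he, hue]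
  -- bounds
  have bd : ∀ x : ℝ, |x| ≤ k → |x * ‖e‖| ≤ k ^ 2 * ρ := by
    intro x hx
    rw [abs_mul, abs_of_pos he]
    have h1 : |x| * ‖e‖ ≤ k * ρ := mul_le_mul hx heρ he.le hk0.le
    nlinarith [mul_nonneg hk0.le hρ.le]
  have bs : ∀ x y : ℝ, 1 ≤ k * (y - x) → ρ ≤ k ^ 2 * (y * ‖e‖ - x * ‖e‖) := by
    intro x y hxy
    have h1 : k * ‖e‖ * 1 ≤ k * ‖e‖ * (k * (y - x)) :=
      mul_le_mul_of_nonneg_left hxy (mul_nonneg hk0.le he.le)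
    nlinarith
  constructor
  · intro hs hw hreg
    have h1 := H1 S z0 ρ d hρ hN1 hd1 u (x0 * ‖e‖) (x1 * ‖e‖) (y0 * ‖e‖) (y1 * ‖e‖) (m * ‖e‖) hun
      (bd _ hs.bx0) (bd _ hs.bx1) (bd _ hs.by0) (bd _ hs.by1) (bs _ _ hs.sx) (bs _ _ hs.sy)
      (by linarith [hw]) (by have := hs.mg; nlinarith) V hV
      (fun s hs' g1 g2 g3 g4 => hreg s hs' (by rw [hY, lt_div_iff₀ he]; exact g1)
        (by rw [hY, div_lt_iff₀ he]; exact g2) (by rw [hX, le_div_iff₀ he]; nlinarith)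
        (by rw [hX, div_le_iff₀ he]; nlinarith))
    have h2 : min 1 (min p1 p2) ≤ pr V (fun β => ∃ l, HC S z0 e x0 x1 y0 y1 m β l) := by
      refine hpp1.trans (h1.trans (pr_mono fun β _ ⟨l, hl⟩ => ⟨l, ?_⟩))
      have := hc_scale he hl
      rwa [hue] at this
    exact ⟨h2, by rw [pr_flip V (fun β => ∃ l, HC S z0 e x0 x1 y0 y1 m β l)]; exact h2⟩
  · intro hs hw hreg
    have h1 := H2 S z0 ρ d hρ hN2 hd2 u (x0 * ‖e‖) (x1 * ‖e‖) (y0 * ‖e‖) (y1 * ‖e‖) (m * ‖e‖) hun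
      (bd _ hs.bx0) (bd _ hs.bx1) (bd _ hs.by0) (bd _ hs.by1) (bs _ _ hs.sx) (bs _ _ hs.sy)
      (by linarith [hw]) (by have := hs.mg; nlinarith) V hV
      (fun s hs' g1 g2 g3 g4 => hreg s hs' (by rw [hX, lt_div_iff₀ he]; exact g1)
        (by rw [hX, div_lt_iff₀ he]; exact g2) (by rw [hY, le_div_iff₀ he]; nlinarith)
        (by rw [hY, div_le_iff₀ he]; nlinarith))
    have h2 : min 1 (min p1 p2) ≤ pr V (fun β => ∃ l, VC S z0 e x0 x1 y0 y1 m β l) := by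
      refine hpp2.trans (h1.trans (pr_mono fun β _ ⟨l, hl⟩ => ⟨l, ?_⟩))
      have := vc_scale he hl
      rwa [hue] at this
    exact ⟨h2, by rw [pr_flip V (fun β => ∃ l, VC S z0 e x0 x1 y0 y1 m β l)]; exact h2⟩

end Crest.Agent.R143.RbEx838
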