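import Crest.Agent.R143.Neck3_921
import Crest.Agent.R143.RbE_838
import Crest.Agent.R143.RBE_723

/-!
# Row 143, R1d (N): quenched numbers of the neck gate (helper838)

Unit `‖e‖`; numbers of helper921: gate window `(-1, 1)`, margin `1 / 20`, levels `-9 .. b1`, black strip
`(-8, -47/10)`, white strip `(2, 8)`, landing zones `(10, 101/10)`, `(-101/10, -10)`.

* `L0`, `GEn` : the numbers
* `env_en` : `LDns` gives the environment hypotheses `En`
* `nums` : one environment `NvA` at the scale `5 ‖e‖` gives `p ^ 9 ≤ pr V GEn` and `p ≤` probability of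
  the horizontal and vertical, black and white crossings of all rectangles of bounded shape
-/

set_option autoImplicit false

noncomputable section

open scoped Classical

namespace Crest.Agent.R143.GEprx838

open Crest.ProbabilityR.Voronoi (voronoiCell)
open Crest.Agent.R143.B0x346 Crest.Agent.R143.DelGx806 Crest.Agent.R143.DelRx806
open Crest.Agent.R143.ToolWx838 Crest.Agent.R143.Blkx838 Crest.Agent.R143.ToolW2x838
open Crest.Agent.R143.ToolW3x838 Crest.Agent.R143.Circ4x838 Crest.Agent.R143.Harx315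
open Crest.Agent.R143.RB0x838 Crest.Agent.R143.CircPx838 Crest.Agent.R143.Gatex838
open Crest.Agent.R143.RBmx838 Crest.Agent.R143.RbEx838 Crest.Agent.R143.Neckx921

variable {S V : Finset ℂ} {z0 e : ℂ} {d : ℝ}

/-- **numbers** (levels) -/
def L0 : Lc where
  a0 := -1
  a1 := 1
  t0 := -(92 / 10)
  b0 := -9
  p0 := -8
  l1 := -(49 / 10)
  cB := -4
  tb := by norm_num
  bp := by norm_num
  pl := by norm_num
  lB := by norm_num

theorem wl0 {b1 : ℝ} (hb : 9 ≤ b1) : Wl L0 (-13) 13 (-12) 12 (-(7 / 10)) (-(6 / 10)) (6 / 10)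
    (7 / 10) (-(1 / 20)) (1 / 20) 10 (101 / 10) (-(101 / 10)) (-10) (-(93 / 10)) (-(91 / 10)) (-5)
    (-(48 / 10)) (-(47 / 10)) (49 / 10) 5 2 8 b1 (1 / 20) := by
  constructor <;> first | linarith | norm_num [L0]

/-- **gate and extensions**, numbers; `b1` = upper level of the neck (`9 ≤ b1 ≤ 11`) -/
def GEn (S V : Finset ℂ) (z0 e : ℂ) (b1 : ℝ) (β : Finset ℂ) : Prop :=
  GE S V z0 e L0 (-12) 12 10 (101 / 10) (-(101 / 10)) (-10) (-(47 / 10)) (49 / 10) 5 2 8 b1 (1 / 20) 1 β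

theorem norm_le_XY (he : e ≠ 0) (z : ℂ) : ‖z - z0‖ ≤ ‖e‖ * (|X z0 e z| + |Y z0 e z|) := by
  have h : z - z0 = e * ((z - z0) / e) := by field_simp
  rw [h, norm_mul]
  refine mul_le_mul_of_nonneg_left ?_ (norm_nonneg e)
  exact Complex.norm_le_abs_re_add_abs_im _

theorem XY_diff (s z : ℂ) : |X z0 e s - X z0 e z| ≤ ‖s - z‖ / ‖e‖ ∧
    |Y z0 e s - Y z0 e z| ≤ ‖s - z‖ / ‖e‖ := by
  have h : (s - z0) / e - (z - z0) / e = (s - z) / e := by ring
  unfold X Y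
  rw [← Complex.sub_re, ← Complex.sub_im, h, ← norm_div]
  exact ⟨Complex.abs_re_le_norm _, Complex.abs_im_le_norm _⟩

/-- the environment hypotheses of the neck -/
theorem env_en (he : e ≠ 0) {R : ℝ} (hD : LDns S z0 R d) (hR : 25 * ‖e‖ ≤ R)
    (hd : d ≤ 1 / 20 * ‖e‖)
    (hV : ∀ s ∈ S, |X z0 e s| ≤ 14 → |Y z0 e s| ≤ 12 → s ∈ V) :
    En S V z0 e (-12) 12 (-(91 / 10)) (-(48 / 10)) (1 / 20) := by
  have he0 : 0 < ‖e‖ := norm_pos_iff.2 he
  refine ⟨hD.gp, ?_, ?_, ?_⟩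
  · have pt : ∀ t : ℝ, |t| ≤ 10 → ∃ s ∈ S, ‖s - (z0 + t * e)‖ < d := by
      intro t ht
      refine hD.hole _ ?_
      rw [add_sub_cancel_left, norm_mul, Complex.norm_real, Real.norm_eq_abs]
      nlinarith
    obtain ⟨s1, h1, k1⟩ := pt 0 (by norm_num)
    obtain ⟨s2, h2, k2⟩ := pt 5 (by norm_num)
    obtain ⟨s3, h3, k3⟩ := pt 10 (by norm_num)
    have ne : ∀ {a b : ℂ} {t t' : ℝ}, 5 ≤ |t - t'| → ‖a - (z0 + t * e)‖ < d →
        ‖b - (z0 + t' * e)‖ < d → a ≠ b := by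
      rintro a b t t' ht ha hb rfl
      have h4 : ‖((t - t' : ℝ) : ℂ) * e‖ ≤ ‖a - (z0 + t * e)‖ + ‖a - (z0 + t' * e)‖ := by
        have : ((t - t' : ℝ) : ℂ) * e = (a - (z0 + t' * e)) - (a - (z0 + t * e)) := by
          push_cast; ring
        rw [this]
        exact (norm_sub_le _ _).trans (by linarith)
      rw [norm_mul, Complex.norm_real, Real.norm_eq_abs] at h4
      nlinarith
    exact Finset.two_lt_card.2 ⟨s1, h1, s2, h2, s3, h3, ne (by norm_num) k1 k2,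
      ne (by norm_num) k1 k3, ne (by norm_num) k2 k3⟩
  · intro s hs h1 h2 h3 h4
    exact hV s hs (by rw [abs_le]; constructor <;> linarith) (by rw [abs_le]; constructor <;> linarith)
  · intro s hs z hz h1 h2 h3 h4
    obtain ⟨s', hs', hh⟩ := hD.hole z (by
      refine (norm_le_XY he z).trans (le_trans ?_ hR)
      have a1 : |X z0 e z| ≤ 12 := by rw [abs_le]; constructor <;> linarith
      have a2 : |Y z0 e z| ≤ 10 := by rw [abs_le]; constructor <;> linarith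
      nlinarith)
    have h5 : ‖s - z‖ ≤ d := by
      have h6 := hz s' hs'
      rw [norm_sub_rev s z]
      rw [norm_sub_rev s' z] at hh
      have : ‖z - s‖ ≤ ‖z - s'‖ := h6
      linarith
    have h6 : ‖s - z‖ / ‖e‖ ≤ 1 / 20 := by
      rw [div_le_iff₀ he0]; linarith
    have h7 := XY_diff (z0 := z0) (e := e) s z
    exact ⟨h7.1.trans h6, h7.2.trans h6⟩

theorem nva_sub {R R' ρ c c' C4 : ℝ} (h : NvA S z0 R c ρ d C4) (hR : R' ≤ R) (hρ : 0 ≤ ρ)
    (hc : c ≤ c') : NvA S z0 R' c' ρ d C4 :=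
  ⟨LDns.mono h.dns hR, (h.mesh.shift (by rw [sub_self, norm_zero]; linarith)).sub
    (mul_le_mul_of_nonneg_right hc hρ) le_rfl⟩

/-- all crossings of the rectangle `x0 < X < x1`, `y0 < Y < y1` with margin `m` and free sites `V` have
probability at least `p` -/
def AllX (S : Finset ℂ) (z0 e : ℂ) (p : ℝ) : Prop :=
  ∀ V : Finset ℂ, V ⊆ S → ∀ x0 x1 y0 y1 m : ℝ, |x0| ≤ 200 → |x1| ≤ 200 → |y0| ≤ 200 → |y1| ≤ 200 →
    x0 + 1 / 20 ≤ x1 → y0 + 1 / 20 ≤ y1 →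
    (y1 - y0 ≤ 10 → (y1 - y0) / 2 ≤ m →
      (∀ s ∈ S, y0 < Y z0 e s → Y z0 e s < y1 → x0 - m ≤ X z0 e s → X z0 e s ≤ x1 + m → s ∈ V) →
      p ≤ pr V (fun β => ∃ l, HC S z0 e x0 x1 y0 y1 m β l) ∧
        p ≤ pr V (fun β => ∃ l, HC S z0 e x0 x1 y0 y1 m (V \ β) l)) ∧
    (x1 - x0 ≤ 10 → (x1 - x0) / 2 ≤ m →
      (∀ s ∈ S, x0 < X z0 e s → X z0 e s < x1 → y0 - m ≤ Y z0 e s → Y z0 e s ≤ y1 + m → s ∈ V) →
      p ≤ pr V (fun β => ∃ l, VC S z0 e x0 x1 y0 y1 m β l) ∧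
        p ≤ pr V (fun β => ∃ l, VC S z0 e x0 x1 y0 y1 m (V \ β) l))

/-- the site set of the gate -/
def BoxIn (S V : Finset ℂ) (z0 e : ℂ) : Prop := ∀ s ∈ S, |X z0 e s| ≤ 14 → |Y z0 e s| ≤ 12 → s ∈ V

/-- probability of the gate from the crossings -/
theorem ge_of (he : e ≠ 0) {p b1 : ℝ} (hp : 0 ≤ p) (hb : 9 ≤ b1) (hb' : b1 ≤ 11)
    (hA : AllX S z0 e p)
    (hE : En S V z0 e (-12) 12 (-(91 / 10)) (-(48 / 10)) (1 / 20)) (hV : V ⊆ S)
    (hB : BoxIn S V z0 e) : p ^ 9 ≤ pr V (GEn S V z0 e b1) := by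
  have H : ∀ x0 x1 y0 y1 : ℝ, |x0| ≤ 13 → |x1| ≤ 13 → |y0| ≤ 19 / 2 → |y1| ≤ 11 →
      x0 + 1 / 20 ≤ x1 → y0 + 1 / 20 ≤ y1 → y1 - y0 ≤ 1 / 10 →
      p ≤ pr V (fun β => ∃ l, HC S z0 e x0 x1 y0 y1 (1 / 20) β l) := by
    intro x0 x1 y0 y1 a0 a1 b0 b1 hx hy hw
    rw [abs_le] at a0 a1 b0 b1
    refine ((hA V hV x0 x1 y0 y1 (1 / 20) ?_ ?_ ?_ ?_ hx hy).1 (by linarith) (by linarith) ?_).1
    all_goals first
      | (rw [abs_le]; constructor <;> linarith)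
      | (intro s hs g1 g2 g3 g4
         exact hB s hs (by rw [abs_le]; constructor <;> linarith)
          (by rw [abs_le]; constructor <;> linarith))
  have K : ∀ x0 x1 y0 y1 : ℝ, |x0| ≤ 13 → |x1| ≤ 13 → |y0| ≤ 19 / 2 → |y1| ≤ 11 →
      x0 + 1 / 20 ≤ x1 → y0 + 1 / 20 ≤ y1 → x1 - x0 ≤ 1 / 10 →
      p ≤ pr V (fun β => ∃ l, VC S z0 e x0 x1 y0 y1 (1 / 20) β l) := by
    intro x0 x1 y0 y1 a0 a1 b0 b1 hx hy hw
    rw [abs_le] at a0 a1 b0 b1
    refine ((hA V hV x0 x1 y0 y1 (1 / 20) ?_ ?_ ?_ ?_ hx hy).2 (by linarith) (by linarith) ?_).1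
    all_goals first
      | (rw [abs_le]; constructor <;> linarith)
      | (intro s hs g1 g2 g3 g4
         exact hB s hs (by rw [abs_le]; constructor <;> linarith)
          (by rw [abs_le]; constructor <;> linarith))
  have bd : ∀ {x b : ℝ}, -b ≤ x → x ≤ b → |x| ≤ b := fun h1 h2 => abs_le.2 ⟨h1, h2⟩
  refine neck_pr (wl0 hb) (by norm_num [L0]) (by norm_num) he hE hp ?_ ?_ ?_ ?_ ?_ ?_ ?_ ?_ ?_
  · exact H _ _ _ _ (bd (by norm_num) (by norm_num)) (bd (by norm_num) (by norm_num))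
      (bd (by norm_num) (by norm_num)) (bd (by norm_num [L0]) (by norm_num [L0])) (by norm_num)
      (by norm_num [L0]) (by norm_num [L0])
  · exact K _ _ _ _ (bd (by norm_num) (by norm_num)) (bd (by norm_num) (by norm_num))
      (bd (by norm_num) (by norm_num)) (bd (by norm_num [L0]) (by norm_num [L0])) (by norm_num)
      (by norm_num [L0]) (by norm_num [L0])
  · exact K _ _ _ _ (bd (by norm_num) (by norm_num)) (bd (by norm_num) (by norm_num))
      (bd (by norm_num) (by norm_num)) (bd (by norm_num [L0]) (by norm_num [L0])) (by norm_num)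
      (by norm_num [L0]) (by norm_num [L0])
  · exact K _ _ _ _ (bd (by norm_num) (by norm_num)) (bd (by norm_num) (by norm_num))
      (bd (by norm_num [L0]) (by norm_num [L0])) (bd (by norm_num) (by norm_num)) (by norm_num)
      (by norm_num [L0]) (by norm_num [L0])
  · exact K _ _ _ _ (bd (by norm_num) (by norm_num)) (bd (by norm_num) (by norm_num))
      (bd (by norm_num [L0]) (by norm_num [L0])) (bd (by norm_num) (by norm_num)) (by norm_num)
      (by norm_num [L0]) (by norm_num [L0])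
  · exact K _ _ _ _ (bd (by norm_num) (by norm_num)) (bd (by norm_num) (by norm_num))
      (bd (by norm_num) (by norm_num)) (bd (by linarith) hb') (by norm_num)
      (by linarith) (by norm_num)
  · exact H _ _ _ _ (bd (by norm_num) (by norm_num)) (bd (by norm_num) (by norm_num))
      (bd (by norm_num) (by norm_num)) (bd (by norm_num) (by norm_num)) (by norm_num)
      (by norm_num) (by norm_num)
  · exact K _ _ _ _ (bd (by norm_num) (by norm_num)) (bd (by norm_num) (by norm_num))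
      (bd (by norm_num) (by norm_num)) (bd (by norm_num) (by norm_num)) (by norm_num)
      (by norm_num) (by norm_num)
  · exact K _ _ _ _ (bd (by norm_num) (by norm_num)) (bd (by norm_num) (by norm_num))
      (bd (by norm_num) (by norm_num)) (bd (by norm_num) (by norm_num)) (by norm_num)
      (by norm_num) (by norm_num)

/-- **QUENCHED NUMBERS** -/
theorem nums : ∀ C4 : ℝ, 0 ≤ C4 → ∃ p c1 c2 K : ℝ, 0 < p ∧ p ≤ 1 ∧ 0 < c1 ∧ c1 ≤ 1 / 20 ∧
    0 < c2 ∧ c2 ≤ 1 ∧ 20 ≤ K ∧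
    ∀ (S : Finset ℂ) (z0 e : ℂ) (d : ℝ), e ≠ 0 → NvA S z0 (K * (5 * ‖e‖)) c2 (5 * ‖e‖) d C4 →
      d ≤ c1 * ‖e‖ → AllX S z0 e p ∧ ∀ V : Finset ℂ, V ⊆ S → BoxIn S V z0 e →
        En S V z0 e (-12) 12 (-(91 / 10)) (-(48 / 10)) (1 / 20) ∧
        ∀ b1 : ℝ, 9 ≤ b1 → b1 ≤ 11 → p ^ 9 ≤ pr V (GEn S V z0 e b1) := by
  intro C4 hC4
  obtain ⟨p, a1, b1, K1, hp, hp1, ha1, hb1, hb1', hK1, H⟩ :=
    rb_all RBEx723.rbm 200 (by norm_num) C4 hC4
  refine ⟨p, min a1 (1 / 20), b1, K1 + 20, hp, hp1, lt_min ha1 (by norm_num), min_le_right _ _,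
    hb1, hb1', by linarith, ?_⟩
  intro S z0 e d he hN hd
  have he0 : 0 < ‖e‖ := norm_pos_iff.2 he
  have hN' : NvA S z0 (K1 * (5 * ‖e‖)) b1 (5 * ‖e‖) d C4 :=
    nva_sub hN (by nlinarith) (by positivity) le_rfl
  have hd' : d ≤ a1 * (5 * ‖e‖) := by
    have h1 := hd.trans (mul_le_mul_of_nonneg_right (min_le_left a1 (1 / 20)) he0.le)
    nlinarith
  have hd2 : d ≤ 1 / 20 * ‖e‖ := hd.trans (mul_le_mul_of_nonneg_right (min_le_right _ _) he0.le)
  have hA : AllX S z0 e p := by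
    intro V hV x0 x1 y0 y1 m h1 h2 h3 h4 h5 h6
    have key := H S z0 e (5 * ‖e‖) d he0 (by linarith) (by linarith) hN' hd' V hV x0 x1 y0 y1 m
    refine ⟨fun h7 h8 h9 => key.1 ⟨h1, h2, h3, h4, by linarith, by linarith, h8⟩ ?_ h9,
      fun h7 h8 h9 => key.2 ⟨h1, h2, h3, h4, by linarith, by linarith, h8⟩ ?_ h9⟩
    · nlinarith
    · nlinarith
  refine ⟨hA, fun V hV hB => ?_⟩
  have hE : En S V z0 e (-12) 12 (-(91 / 10)) (-(48 / 10)) (1 / 20) :=
    env_en he hN.dns (by nlinarith) hd2 hB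
  exact ⟨hE, fun b1 h1 h2 => ge_of he hp.le h1 h2 hA hE hV hB⟩

end Crest.Agent.R143.GEprx838
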