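import Crest.Agent.R143.Tpl_978

/-!
# R143 (helper978): windows, `lintegral` forms (note 3745 (b): the law of `V_l` under `g P` depends only
on the types)

* `Win.lratio` : `E[g F] · mass = E[g] · E[w F]`, `F ≥ 0` local on the window
* `Win.lsame` : `F' ∘ mv g = F` gives `E[w' F'] = E[w F]`; `Win.mass_same`
* `Win.lboth` : `E[g] · E[g' F'] = E[g'] · E[g F]` (two pieces of two paths)
* `Win.transfer` : a bound `E[g F] ≤ K E[g]` at ONE place gives it at all places of the same types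

-/

set_option autoImplicit false

noncomputable section

namespace Crest.Agent.R143.Tplx978

open MeasureTheory Set ProbabilityTheory
open Crest.ProbabilityR.Voronoi
open Crest.Agent.R143.PP0x831 Crest.Agent.R143.Poisx304 Crest.Agent.R143.Janx304
open Crest.Agent.R143.IndLocx279 Crest.Agent.R143.PWx978
open scoped ENNReal

variable {ε : ℝ} {Ty : Type*} {T : Tpl ε Ty} {ι κ ι' κ' : Type*}

namespace Win

variable {n : ℕ} {τ : ℕ → Ty} {P : Pth T ι κ} {P' : Pth T ι' κ'}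

lemma hN_of [DecidableEq ι] {P : Pth T ι κ} {I : Finset ι} {J : Finset κ}
    (hN : ∀ k ∈ J, P.src k ∈ I ∧ P.tgt k ∈ I) : ∀ k ∈ J, P.net.N k ⊆ I := by
  intro k hk i hi
  have h1 : i ∈ ({P.src k, P.tgt k} : Finset ι) := hi
  rw [Finset.mem_insert, Finset.mem_singleton] at h1
  rcases h1 with rfl | rfl
  · exact (hN k hk).1
  · exact (hN k hk).2

/-- `E[g F] · mass = E[g] · E[w F]` -/
theorem lratio [DecidableEq ι] [DecidableEq κ] (W : Win P n τ) {I : Finset ι} {J : Finset κ}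
    (hI : W.I ⊆ I) (hJ : W.J ⊆ J) (hN : ∀ k ∈ J, P.src k ∈ I ∧ P.tgt k ∈ I) {F : Cf → ℝ≥0∞}
    (hF : LocalOn W.reg F) (hFm : FinMeas F) :
    (∫⁻ ω, P.net.gw I J (cfg ε ω) * F (cfg ε ω) ∂sampleLaw) * W.mass =
      (∫⁻ ω, P.net.gw I J (cfg ε ω) ∂sampleLaw) * ∫⁻ ω, W.w (cfg ε ω) * F (cfg ε ω) ∂sampleLaw :=
  P.net.ratio hI hJ (hN_of hN) W.hN hF hFm

/-- corresponding functions of congruent windows -/
theorem lsame [DecidableEq ι] [DecidableEq κ] [DecidableEq ι'] [DecidableEq κ'] (W : Win P n τ)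
    (W' : Win P' n τ) {F F' : Cf → ℝ≥0∞} (hF : LocalOn W.reg F) (hFm : FinMeas F)
    (hF' : LocalOn W'.reg F') (hFm' : FinMeas F')
    (h : ∀ S : Cf, S.Finite → F' (mv (W.g W').e S) = F S) :
    ∫⁻ ω, W'.w (cfg ε ω) * F' (cfg ε ω) ∂sampleLaw =
      ∫⁻ ω, W.w (cfg ε ω) * F (cfg ε ω) ∂sampleLaw := by
  have e1 := (W.cong W').lint (F' := F') (F := F)
    (by rw [W.image_I W', W.image_J W']; exact hF') hFm' hF hFm h
  rw [W.image_I W', W.image_J W'] at e1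
  exact e1

theorem mass_same [DecidableEq ι] [DecidableEq κ] [DecidableEq ι'] [DecidableEq κ']
    (W : Win P n τ) (W' : Win P' n τ) : W'.mass = W.mass := by
  rw [W.mass_eq, W'.mass_eq]

/-- `E[g] · E[g' F'] = E[g'] · E[g F]` -/
theorem lboth [DecidableEq ι] [DecidableEq κ] [DecidableEq ι'] [DecidableEq κ'] (W : Win P n τ)
    (W' : Win P' n τ) (hA : ∫⁻ ω, T.A (cfg ε ω) ∂sampleLaw ≠ 0) {I : Finset ι} {J : Finset κ}
    (hI : W.I ⊆ I) (hJ : W.J ⊆ J) (hN : ∀ k ∈ J, P.src k ∈ I ∧ P.tgt k ∈ I)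
    {I' : Finset ι'} {J' : Finset κ'}
    (hI' : W'.I ⊆ I') (hJ' : W'.J ⊆ J') (hN' : ∀ k ∈ J', P'.src k ∈ I' ∧ P'.tgt k ∈ I')
    {F F' : Cf → ℝ≥0∞} (hF : LocalOn W.reg F) (hFm : FinMeas F)
    (hF' : LocalOn W'.reg F') (hFm' : FinMeas F')
    (h : ∀ S : Cf, S.Finite → F' (mv (W.g W').e S) = F S) :
    (∫⁻ ω, P.net.gw I J (cfg ε ω) ∂sampleLaw) *
        ∫⁻ ω, P'.net.gw I' J' (cfg ε ω) * F' (cfg ε ω) ∂sampleLaw =
      (∫⁻ ω, P'.net.gw I' J' (cfg ε ω) ∂sampleLaw) *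
        ∫⁻ ω, P.net.gw I J (cfg ε ω) * F (cfg ε ω) ∂sampleLaw := by
  have e1 := W.lratio hI hJ hN hF hFm
  have e2 := W'.lratio hI' hJ' hN' hF' hFm'
  have e3 := W.lsame W' hF hFm hF' hFm' h
  have e4 := W.mass_same W'
  rw [e3, e4] at e2
  have h0 : W.mass ≠ 0 := by
    intro h
    have := W.mass_pos hA
    rw [h] at this
    simp at this
  have h1 : W.mass ≠ ∞ := ne_top_of_le_ne_top ENNReal.one_ne_top W.mass_le
  set a := ∫⁻ ω, P.net.gw I J (cfg ε ω) ∂sampleLaw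
  set a' := ∫⁻ ω, P'.net.gw I' J' (cfg ε ω) ∂sampleLaw
  set b := ∫⁻ ω, P.net.gw I J (cfg ε ω) * F (cfg ε ω) ∂sampleLaw
  set b' := ∫⁻ ω, P'.net.gw I' J' (cfg ε ω) * F' (cfg ε ω) ∂sampleLaw
  set q := ∫⁻ ω, W.w (cfg ε ω) * F (cfg ε ω) ∂sampleLaw
  have e5 : a * b' * W.mass = a' * b * W.mass := by
    calc a * b' * W.mass = a * (b' * W.mass) := by ring
      _ = a * (a' * q) := by rw [e2]
      _ = a' * (a * q) := by ring
      _ = a' * (b * W.mass) := by rw [e1]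
      _ = a' * b * W.mass := by ring
  exact (ENNReal.mul_left_inj h0 h1).1 e5

/-- the mass of a piece of a path -/
lemma piece_mass [DecidableEq ι] [DecidableEq κ] {P : Pth T ι κ} {I : Finset ι} {J : Finset κ}
    (hN : ∀ k ∈ J, P.src k ∈ I ∧ P.tgt k ∈ I) :
    ∫⁻ ω, P.net.gw I J (cfg ε ω) ∂sampleLaw =
      T.c ^ J.card * (∫⁻ ω, T.A (cfg ε ω) ∂sampleLaw) ^ I.card := by
  have h3 : ∀ i, ∫⁻ ω, P.net.a i (cfg ε ω) ∂sampleLaw = ∫⁻ ω, T.A (cfg ε ω) ∂sampleLaw := by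
    intro i
    exact iso ε T.eps T.Q T.Qm T.Qb (P.fr i).e.symm ((P.fr i).mp.symm (P.fr i).e)
      ((P.fr i).bdd' _ T.Qb) T.A T.Al T.Am
  rw [P.net.mass (hN_of hN), Finset.prod_congr rfl fun i _ => h3 i, Finset.prod_const]
  rfl

lemma A_le (T : Tpl ε Ty) : ∫⁻ ω, T.A (cfg ε ω) ∂sampleLaw ≤ 1 := by
  have : IsProbabilityMeasure sampleLaw := by unfold sampleLaw; infer_instance
  calc ∫⁻ ω, T.A (cfg ε ω) ∂sampleLaw ≤ ∫⁻ _, 1 ∂sampleLaw := lintegral_mono fun ω => T.A1 _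
    _ = 1 := by simp

lemma piece_ne_zero [DecidableEq ι] [DecidableEq κ] {P : Pth T ι κ} {I : Finset ι} {J : Finset κ}
    (hN : ∀ k ∈ J, P.src k ∈ I ∧ P.tgt k ∈ I)
    (hA : ∫⁻ ω, T.A (cfg ε ω) ∂sampleLaw ≠ 0) :
    ∫⁻ ω, P.net.gw I J (cfg ε ω) ∂sampleLaw ≠ 0 := by
  rw [piece_mass hN]
  exact mul_ne_zero (pow_ne_zero _ T.c0) (pow_ne_zero _ hA)

lemma piece_ne_top [DecidableEq ι] [DecidableEq κ] {P : Pth T ι κ} {I : Finset ι} {J : Finset κ}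
    (hN : ∀ k ∈ J, P.src k ∈ I ∧ P.tgt k ∈ I) :
    ∫⁻ ω, P.net.gw I J (cfg ε ω) ∂sampleLaw ≠ ∞ := by
  rw [piece_mass hN]
  exact ENNReal.mul_ne_top (ENNReal.pow_ne_top T.c1)
    (ENNReal.pow_ne_top (ne_top_of_le_ne_top ENNReal.one_ne_top (A_le T)))

/-- **ONE PLACE IS ENOUGH**: `E[g F] ≤ K E[g]` at one place gives `E[g' F'] ≤ K E[g']` at every place of
the same types -/
theorem transfer [DecidableEq ι] [DecidableEq κ] [DecidableEq ι'] [DecidableEq κ'] (W : Win P n τ)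
    (W' : Win P' n τ) (hA : ∫⁻ ω, T.A (cfg ε ω) ∂sampleLaw ≠ 0) {I : Finset ι} {J : Finset κ}
    (hI : W.I ⊆ I) (hJ : W.J ⊆ J) (hN : ∀ k ∈ J, P.src k ∈ I ∧ P.tgt k ∈ I)
    {I' : Finset ι'} {J' : Finset κ'}
    (hI' : W'.I ⊆ I') (hJ' : W'.J ⊆ J') (hN' : ∀ k ∈ J', P'.src k ∈ I' ∧ P'.tgt k ∈ I')
    {F F' : Cf → ℝ≥0∞} (hF : LocalOn W.reg F) (hFm : FinMeas F)
    (hF' : LocalOn W'.reg F') (hFm' : FinMeas F')
    (h : ∀ S : Cf, S.Finite → F' (mv (W.g W').e S) = F S) {K : ℝ≥0∞}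
    (hK : ∫⁻ ω, P.net.gw I J (cfg ε ω) * F (cfg ε ω) ∂sampleLaw ≤
      K * ∫⁻ ω, P.net.gw I J (cfg ε ω) ∂sampleLaw) :
    ∫⁻ ω, P'.net.gw I' J' (cfg ε ω) * F' (cfg ε ω) ∂sampleLaw ≤
      K * ∫⁻ ω, P'.net.gw I' J' (cfg ε ω) ∂sampleLaw := by
  have e1 := W.lboth W' hA hI hJ hN hI' hJ' hN' hF hFm hF' hFm' h
  have h0 := piece_ne_zero hN hA
  have h1 := piece_ne_top (P := P) hN
  have e2 : (∫⁻ ω, P.net.gw I J (cfg ε ω) ∂sampleLaw) *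
        ∫⁻ ω, P'.net.gw I' J' (cfg ε ω) * F' (cfg ε ω) ∂sampleLaw ≤
      (∫⁻ ω, P.net.gw I J (cfg ε ω) ∂sampleLaw) *
        (K * ∫⁻ ω, P'.net.gw I' J' (cfg ε ω) ∂sampleLaw) := by
    rw [e1]
    calc _ ≤ (∫⁻ ω, P'.net.gw I' J' (cfg ε ω) ∂sampleLaw) *
          (K * ∫⁻ ω, P.net.gw I J (cfg ε ω) ∂sampleLaw) := by gcongr
      _ = _ := by ring
  exact (ENNReal.mul_le_mul_iff_right h0 h1).1 e2

end Win

end Crest.Agent.R143.Tplx978
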