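import Crest.Agent.R143.GPos_348
import Crest.Agent.R143.TplI_204
import Crest.Agent.R143.PthG_765

/-!
# Row 143 (S0194), CORE-C, glue CorrI: from the weight of the fine path to necks and links (helper348)

204's template (`DT`, `DT.raw`) on 765's path (`pth`, 228's `FPath`).

* `gt P D a` : the gate `a`; `gt_succ`; `bx P D a` its box
* `ev_gate`, `ev_tile`, `ev_tile'` : factors `≠ 0` in the frame `a` = gate dart, tile event `TB` in the plane
* `sX_clr`, `bX_clr`, `ps_clr'`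
* `Ev S β p` : the darts `p a` are the selected necks of the gates, with the links of the tiles
* `ev_all` : **for almost every environment, all colourings**: positive weight of the whole path gives
  the gate darts and all tile events (cut configurations)
* `ev_full` : the same for the full configurations in a dense environment
* `evp_all` : the same as necks (921's `NeckD`) and links (`Lk`) of the finite sets `S`, `β`
-/

set_option autoImplicit false
set_option linter.all false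

noncomputable section

open scoped Classical

namespace Crest.Agent.R143.GPosFx348

open MeasureTheory Set ProbabilityTheory
open Crest.ProbabilityR.Voronoi
open Crest.Agent.R143.B0x346 Crest.Agent.R143.DelGx806 Crest.Agent.R143.Locx922
open Crest.Agent.R143.Neckx921 (Neck NeckD Tile Lk)
open Crest.Agent.R143.PP0x831 Crest.Agent.R143.Poisx304 Crest.Agent.R143.Janx304
open Crest.Agent.R143.Prodx609 Crest.Agent.R143.FinMx609 Crest.Agent.R143.FinM2x609
open Crest.Agent.R143.IndLocx279 Crest.Agent.R143.PWx978 Crest.Agent.R143.Tplx978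
open Crest.Agent.R143.WLocx713 Crest.Agent.R143.IndLoc3x279
open Crest.Agent.R143.CovBx126 (Mo)
open Crest.Agent.R143.TileRx228 Crest.Agent.R143.PthFx765 Crest.Agent.R143.TplIx204
open Crest.Agent.R143.GPosx348 (colour_all raw_all clr_finite gw_ne)
open scoped ENNReal

variable {M : ℕ} {W : ℤ → ℤ × ℤ}

/-! ### gates and tiles in the plane -/

/-- the gate `a` -/
def gt (P : FPath M W) (D : DT) (a : ℤ) : GPar := D.g.mv (frm P D.h a).e (ge W a)

/-- the box of the gate `a` -/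
def bx (D : DT) (W : ℤ → ℤ × ℤ) (a : ℤ) : Set ℂ := GB D.A' D.B' D.h W a

theorem gt_succ (P : FPath M W) (D : DT) (a : ℤ) :
    gt P D (a + 1) = (D.gn (tn W a)).mv (frm P D.h a).e (ge W a) := by
  unfold gt DT.gn GPar.mv
  have h1 : (frm P D.h (a + 1)).e D.g.z0 = (frm P D.h a).e ((nxt D.h (tn W a)).e D.g.z0) :=
    frm_succ P D.h a D.g.z0
  simp only [h1, PthFx765.ge_succ P a, mul_assoc]

theorem gt_dvd (P : FPath M W) (D : DT) {a b : ℤ} (h : (M : ℤ) ∣ b - a) :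
    gt P D b = gt P D a := by
  unfold gt
  rw [frm_dvd P h, ge_dvd P h]

theorem pre_Q (P : FPath M W) (D : DT) (a : ℤ) : (frm P D.h a).e.symm ⁻¹' D.Q = bx D W a := by
  ext s
  rw [mem_preimage]
  exact mem_WQ P a s

theorem pre_Qn (P : FPath M W) (D : DT) (a : ℤ) :
    (frm P D.h a).e.symm ⁻¹' D.Qn (tn W a) = bx D W (a + 1) := by
  ext s
  rw [mem_preimage]
  exact mem_WQ' P a s

theorem pre_WR (P : FPath M W) (D : DT) (a : ℤ) (A B : ℝ) :
    (frm P D.h a).e.symm ⁻¹' WR A B D.h (tn W a) = RR A B D.h W a := by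
  ext s
  rw [mem_preimage]
  exact mem_WR P a s

theorem pre_Z (P : FPath M W) (D : DT) (a : ℤ) (hA : 0 < D.A') (hB : D.B' ≤ D.h) :
    (frm P D.h a).e.symm ⁻¹' D.Z (tn W a) = RR D.A' D.B' D.h W a := by
  have h : D.Z (tn W a) = WR D.A' D.B' D.h (tn W a) := WR_eq hA hB (tn W a)
  rw [h, pre_WR]

/-- **gate** -/
theorem ev_gate (P : FPath M W) (D : DT) (a : ℤ) {X : Cf} (hX : X.Finite)
    (h : tr (frm P D.h a).e D.wA X ≠ 0) : ∃ p, LG (gt P D a) (bx D W a) X p := by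
  have h1 := ((D.trA_ne (mo_frm P D.h a) hX).1 h).1
  rw [pre_Q] at h1
  exact h1

/-- **tile**, cut configuration -/
theorem ev_tile (P : FPath M W) (D : DT) (a : ℤ) {t : Tn × Bool} (ht : t.1 = tn W a)
    (hA : 0 < D.A') (hB : D.B' ≤ D.h) {X : Cf} :
    tr (frm P D.h a).e (D.wE t) X ≠ 0 ↔
      TplIx204.TB t.2 (RR D.A D.B D.h W a) (LG (gt P D a) (bx D W a))
        (LG (gt P D (a + 1)) (bx D W (a + 1))) (X ∩ ovr (RR D.A' D.B' D.h W a)) := by
  rw [D.trE_ne (mo_frm P D.h a), ht, pre_Q, pre_Qn, pre_WR, pre_Z P D a hA hB, ← gt_succ]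
  rfl

/-- **tile**, dense configuration -/
theorem ev_tile' (P : FPath M W) (D : DT) (a : ℤ) {t : Tn × Bool} (ht : t.1 = tn W a)
    {X : Cf} (hX : X.Finite) {d : ℝ} (hd : 0 < d) (hA2 : D.A + 2 * d ≤ D.A')
    (hB2 : D.B + 2 * d ≤ D.B') (hH : Hol (ps X) (RR D.A D.B D.h W a) d) :
    tr (frm P D.h a).e (D.wE t) X ≠ 0 ↔
      TplIx204.TB t.2 (RR D.A D.B D.h W a) (LG (gt P D a) (bx D W a))
        (LG (gt P D (a + 1)) (bx D W (a + 1))) X := by
  have hH' : Hol (ps X) ((frm P D.h a).e.symm ⁻¹' WR D.A D.B D.h t.1) d := by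
    rw [ht, pre_WR]
    exact hH
  rw [D.trE_ne' (mo_frm P D.h a) hX hd hA2 hB2 hH', ht, pre_Q, pre_Qn, pre_WR, ← gt_succ]
  rfl

/-! ### the coloured set of a finite environment -/

theorem ps_clr' (S β : Finset ℂ) : ps (clr S β) = S := by
  ext z
  simp only [ps, clr, mem_image, mem_ofPred_eq, Finset.mem_coe]
  constructor
  · rintro ⟨p, ⟨h1, -⟩, rfl⟩
    exact h1
  · intro h
    by_cases hz : z ∈ β
    · exact ⟨(z, true), ⟨h, by simp [hz]⟩, rfl⟩
    · exact ⟨(z, false), ⟨h, by simp [hz]⟩, rfl⟩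

theorem sX_clr (S β : Finset ℂ) : sX (clr S β) = S := by
  apply Finset.coe_injective
  rw [coe_sX (clr_finite S β), ps_clr']

theorem bX_clr {S β : Finset ℂ} (h : β ⊆ S) : bX (clr S β) = β := by
  ext v
  rw [mem_bX (clr_finite S β), ps_clr']
  unfold cX
  constructor
  · rintro ⟨-, h2⟩
    split_ifs at h2 with h3
    · exact h3.2.1 rfl
    · simp at h2
  · intro hv
    refine ⟨h hv, ?_⟩
    have h3 : (v, true) ∈ clr S β := ⟨h hv, by simp [hv]⟩
    rw [if_pos h3]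

/-! ### the whole path -/

section path

variable {ε : ℝ} {hε : 0 < ε} {c : ℝ≥0∞} {c0 : c ≠ 0} {c1 : c ≤ 1} {D : DT}
  {ty : ZMod M → Tn × Bool}

/-- the template has the standard boxes -/
theorem std (hA : 0 < D.A') (hAB : D.A' ≤ D.B') (hh : D.A' + D.B' < D.h) :
    Std (D.raw ε hε c c0 c1).tpl D.A' D.B' D.h Prod.fst where
  Q := rfl
  D _ := rfl
  nx _ := rfl
  hA := hA
  hAB := hAB
  hh := hh

/-- **almost every environment, all colourings**: the events of the path -/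
theorem ev_all (P : FPath M W) (H : Std (D.raw ε hε c c0 c1).tpl D.A' D.B' D.h Prod.fst)
    (hty : Typ W Prod.fst ty) (hP : (D.raw ε hε c c0 c1).AePos)
    {I J : Finset (ZMod M)} (hN : ∀ k ∈ J, k ∈ I ∧ k + 1 ∈ I) {S : Sample → Finset ℂ}
    (hS : ∀ᵐ ω ∂sampleLaw, (S ω : Set ℂ) ⊆ points ε ω ∧
      points ε ω ∩ (pth P H ty hty).net.reg I J ⊆ S ω) :
    ∀ᵐ ω ∂sampleLaw, ∀ β ⊆ S ω, (pth P H ty hty).net.gw I J (clr (S ω) β) ≠ 0 →
      (∀ a : ℤ, (a : ZMod M) ∈ I → ∃ p, LG (gt P D a) (bx D W a) (clr (S ω) β) p) ∧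
        ∀ a : ℤ, (a : ZMod M) ∈ J → TplIx204.TB (ty a).2 (RR D.A D.B D.h W a)
          (LG (gt P D a) (bx D W a)) (LG (gt P D (a + 1)) (bx D W (a + 1)))
          (clr (S ω) β ∩ ovr (RR D.A' D.B' D.h W a)) := by
  filter_upwards [raw_all hP (pth P H ty hty) hN hS] with ω hω β hβ h0
  obtain ⟨h1, h2⟩ := hω β hβ h0
  refine ⟨fun a ha => ?_, fun a ha => ?_⟩
  · have h3 := h1 a ha
    rw [pth_fr] at h3
    exact ev_gate P D a (clr_finite _ _) h3
  · have h3 := h2 a ha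
    have h4 : (pth P H ty hty).fr ((pth P H ty hty).src (a : ZMod M)) = frm P D.h a :=
      pth_fr P H hty a
    rw [h4] at h3
    exact (ev_tile P D a (hty.eq P a) H.hA H.hB).1 h3

/-- **positive weight = necks and links**: `p` = darts of the gates, `S` sites, `β` black sites -/
structure Ev (P : FPath M W) (D : DT) (ty : ZMod M → Tn × Bool) (I J : Finset (ZMod M))
    (S β : Finset ℂ) (p : ℤ → ℂ × ℂ) : Prop where
  lg : ∀ a : ℤ, (a : ZMod M) ∈ I → LG (gt P D a) (bx D W a) (clr S β) (p a)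
  per : ∀ a b : ℤ, (M : ℤ) ∣ b - a → p b = p a
  neck : ∀ a : ℤ, (a : ZMod M) ∈ I → NeckD S (gt P D a).z0 (gt P D a).e D.g.a0 D.g.a1 D.g.b0
    D.g.b1 D.g.m S β (p a).1 (p a).2
  black : ∀ a : ℤ, (a : ZMod M) ∈ J → (ty a).2 = true →
    Lk S {s | s ∈ β ∧ s ∈ RR D.A D.B D.h W a} (p a).1 (p (a + 1)).1
  white : ∀ a : ℤ, (a : ZMod M) ∈ J →
    Lk S {s | (s ∈ S ∧ s ∉ β) ∧ s ∈ RR D.A D.B D.h W a} (p a).2 (p (a + 1)).2

/-- a dense environment: from `LG` and `TB` to necks and links -/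
theorem ev_of (P : FPath M W) {I J : Finset (ZMod M)} (hN : ∀ k ∈ J, k ∈ I ∧ k + 1 ∈ I)
    {S β : Finset ℂ} (hβ : β ⊆ S) {d : ℝ} (hd : 0 < d) (hA2 : D.A + 2 * d ≤ D.A')
    (hB2 : D.B + 2 * d ≤ D.B') (hA : 0 < D.A') (hB : D.B' ≤ D.h)
    (hw : ∀ w ∈ D.g.win, ∀ s, ‖s - w‖ < 2 * d → s ∈ D.Q)
    (hH : ∀ a : ℤ, (a : ZMod M) ∈ J → Hol (S : Set ℂ) (RR D.A D.B D.h W a) d)
    (hH' : ∀ a : ℤ, (a : ZMod M) ∈ I → Hol (S : Set ℂ) (gt P D a).win d)
    (h1 : ∀ a : ℤ, (a : ZMod M) ∈ I → ∃ p, LG (gt P D a) (bx D W a) (clr S β) p)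
    (h2 : ∀ a : ℤ, (a : ZMod M) ∈ J → TplIx204.TB (ty a).2 (RR D.A D.B D.h W a)
      (LG (gt P D a) (bx D W a)) (LG (gt P D (a + 1)) (bx D W (a + 1)))
      (clr S β ∩ ovr (RR D.A' D.B' D.h W a))) :
    ∃ p, Ev P D ty I J S β p := by
  set p : ℤ → ℂ × ℂ := fun a => if h : ∃ p, LG (gt P D a) (bx D W a) (clr S β) p
    then h.choose else 0 with hp
  have hpa : ∀ a : ℤ, (a : ZMod M) ∈ I → LG (gt P D a) (bx D W a) (clr S β) (p a) := by
    intro a ha
    have h := h1 a ha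
    simp only [hp]
    rw [dif_pos h]
    exact h.choose_spec
  have hfin := clr_finite S β
  have hX : ps (clr S β) = S := ps_clr' S β
  have tile : ∀ a : ℤ, (a : ZMod M) ∈ J →
      ((ty a).2 = true → Lk S {s | s ∈ β ∧ s ∈ RR D.A D.B D.h W a} (p a).1 (p (a + 1)).1) ∧
        Lk S {s | (s ∈ S ∧ s ∉ β) ∧ s ∈ RR D.A D.B D.h W a} (p a).2 (p (a + 1)).2 := by
    intro a ha
    have ha1 : ((a + 1 : ℤ) : ZMod M) ∈ I := by
      push_cast
      exact (hN _ ha).2
    -- the tile event of the full configuration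
    have h3 : TplIx204.TB (ty a).2 (RR D.A D.B D.h W a) (LG (gt P D a) (bx D W a))
        (LG (gt P D (a + 1)) (bx D W (a + 1))) (clr S β) := by
      refine (TplIx204.TB_cut hfin hd ?_ (fun w hw s hs => ?_) (fun q => ?_) (fun q => ?_)).1
        (h2 a ha)
      · rw [hX]
        exact hH a ha
      · rw [← pre_WR P D a] at hw ⊢
        refine WR_near (r := 2 * d) (tn W a) hA2 hB2 hw ?_
        rw [mo_symm_norm (mo_frm P D.h a)]
        exact hs.le
      · refine LG_cut (fun z hz => ?_) q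
        exact GB_sub P hA hB a hz
      · refine LG_cut (fun z hz => ?_) q
        exact GB_sub' P hA hB a hz
    obtain ⟨-, q, q', hq, hq', h4, h5⟩ := h3
    have e1 : q = p a := (hpa a (hN _ ha).1).uniq hq
    have e2 : q' = p (a + 1) := (hpa (a + 1) ha1).uniq hq'
    rw [e1, e2, sX_clr, bX_clr hβ] at h4
    rw [e1, e2, sX_clr, bX_clr hβ] at h5
    exact ⟨h4, h5⟩
  refine ⟨p, hpa, fun a b hab => ?_, fun a ha => ?_, fun a ha hb => (tile a ha).1 hb,
    fun a ha => (tile a ha).2⟩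
  · have e1 := gt_dvd P D hab
    have e2 : bx D W b = bx D W a := GB_dvd P hab
    simp only [hp, e1, e2]
  · have h3 := LG_neck (g := gt P D a) (Q := bx D W a) hfin hd (by rw [hX]; exact hH' a ha)
      (fun w hw' s hs => ?_) (hpa a ha)
    · rw [sX_clr, bX_clr hβ] at h3
      exact h3
    · rw [← pre_Q P D a, mem_preimage]
      have h4 : (frm P D.h a).e.symm w ∈ D.g.win := by
        have h5 := win_mv (mo_frm P D.h a) D.g ((frm P D.h a).e.symm w)
        have h6 : (frm P D.h a).e.toEquiv ((frm P D.h a).e.symm w) = w :=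
          (frm P D.h a).e.apply_symm_apply w
        rw [h6] at h5
        exact h5.1 hw'
      refine hw _ h4 _ ?_
      rw [mo_symm_norm (mo_frm P D.h a)]
      exact hs

/-- the tile event of the full configuration (dense environment) -/
theorem tb_full (P : FPath M W) {S β : Finset ℂ} {b : Bool} {d : ℝ} (hd : 0 < d)
    (hA2 : D.A + 2 * d ≤ D.A') (hB2 : D.B + 2 * d ≤ D.B') (hA : 0 < D.A') (hB : D.B' ≤ D.h)
    {a : ℤ} (hH : Hol (S : Set ℂ) (RR D.A D.B D.h W a) d) :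
    TplIx204.TB b (RR D.A D.B D.h W a) (LG (gt P D a) (bx D W a))
        (LG (gt P D (a + 1)) (bx D W (a + 1))) (clr S β ∩ ovr (RR D.A' D.B' D.h W a)) ↔
      TplIx204.TB b (RR D.A D.B D.h W a) (LG (gt P D a) (bx D W a))
        (LG (gt P D (a + 1)) (bx D W (a + 1))) (clr S β) := by
  refine TplIx204.TB_cut (clr_finite S β) hd ?_ (fun w hw s hs => ?_) (fun q => ?_) (fun q => ?_)
  · rw [ps_clr']
    exact hH
  · rw [← pre_WR P D a] at hw ⊢
    refine WR_near (r := 2 * d) (tn W a) hA2 hB2 hw ?_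
    rw [mo_symm_norm (mo_frm P D.h a)]
    exact hs.le
  · exact LG_cut (fun z hz => GB_sub P hA hB a hz) q
  · exact LG_cut (fun z hz => GB_sub' P hA hB a hz) q

/-- **LAW → EVENT** for the full configurations `clr (S ω) β` -/
theorem ev_full (P : FPath M W) (H : Std (D.raw ε hε c c0 c1).tpl D.A' D.B' D.h Prod.fst)
    (hty : Typ W Prod.fst ty) (hP : (D.raw ε hε c c0 c1).AePos)
    {I J : Finset (ZMod M)} (hN : ∀ k ∈ J, k ∈ I ∧ k + 1 ∈ I) {S : Sample → Finset ℂ}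
    (hS : ∀ᵐ ω ∂sampleLaw, (S ω : Set ℂ) ⊆ points ε ω ∧
      points ε ω ∩ (pth P H ty hty).net.reg I J ⊆ S ω) {d : ℝ} (hd : 0 < d)
    (hA2 : D.A + 2 * d ≤ D.A') (hB2 : D.B + 2 * d ≤ D.B') :
    ∀ᵐ ω ∂sampleLaw,
      (∀ a : ℤ, (a : ZMod M) ∈ J → Hol (S ω : Set ℂ) (RR D.A D.B D.h W a) d) →
      ∀ β ⊆ S ω, (pth P H ty hty).net.gw I J (clr (S ω) β) ≠ 0 →
        (∀ a : ℤ, (a : ZMod M) ∈ I → ∃ p, LG (gt P D a) (bx D W a) (clr (S ω) β) p) ∧
        ∀ a : ℤ, (a : ZMod M) ∈ J → TplIx204.TB (ty a).2 (RR D.A D.B D.h W a)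
          (LG (gt P D a) (bx D W a)) (LG (gt P D (a + 1)) (bx D W (a + 1)))
          (clr (S ω) β) := by
  filter_upwards [ev_all P H hty hP hN hS] with ω hω h1 β hβ h0
  obtain ⟨h3, h4⟩ := hω β hβ h0
  exact ⟨h3, fun a ha => (tb_full P hd hA2 hB2 H.hA H.hB (h1 a ha)).1 (h4 a ha)⟩

/-- **LAW → EVENT**: almost every environment, ALL colourings: positive weight gives necks and links -/
theorem evp_all (P : FPath M W) (H : Std (D.raw ε hε c c0 c1).tpl D.A' D.B' D.h Prod.fst)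
    (hty : Typ W Prod.fst ty) (hP : (D.raw ε hε c c0 c1).AePos)
    {I J : Finset (ZMod M)} (hN : ∀ k ∈ J, k ∈ I ∧ k + 1 ∈ I) {S : Sample → Finset ℂ}
    (hS : ∀ᵐ ω ∂sampleLaw, (S ω : Set ℂ) ⊆ points ε ω ∧
      points ε ω ∩ (pth P H ty hty).net.reg I J ⊆ S ω) {d : ℝ} (hd : 0 < d)
    (hA2 : D.A + 2 * d ≤ D.A') (hB2 : D.B + 2 * d ≤ D.B')
    (hw : ∀ w ∈ D.g.win, ∀ s, ‖s - w‖ < 2 * d → s ∈ D.Q) :
    ∀ᵐ ω ∂sampleLaw,
      (∀ a : ℤ, (a : ZMod M) ∈ J → Hol (S ω : Set ℂ) (RR D.A D.B D.h W a) d) →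
      (∀ a : ℤ, (a : ZMod M) ∈ I → Hol (S ω : Set ℂ) (gt P D a).win d) →
      ∀ β ⊆ S ω, (pth P H ty hty).net.gw I J (clr (S ω) β) ≠ 0 →
        ∃ p, Ev P D ty I J (S ω) β p := by
  filter_upwards [ev_all P H hty hP hN hS] with ω hω h1 h2 β hβ h0
  obtain ⟨h3, h4⟩ := hω β hβ h0
  exact ev_of P hN hβ hd hA2 hB2 H.hA H.hB hw h1 h2 h3 h4

end path

end Crest.Agent.R143.GPosFx348
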