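import Crest.Agent.R143.GPosC_348
import Crest.Agent.R143.RingN_765
import Crest.Agent.R143.ColX_829
import Crest.Agent.R143.Dbl2_609

/-!
# Row 143 (S0194), block H: the weight of a closed ring gives all its tile events (helper348)

765's closed net `rpth P Hs b` (`b = true`: full tiles, `b = false`: white tiles), weight `gO P Hs b`,
numbers `NumC D η`.

* `ring_ev` : **for almost every environment `S ω`, for ALL `β ⊆ S ω`**: dense environment and
  `gO P H b (clr (S ω) β) ≠ 0` give a dart at every gate and the tile event (full or white) of every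
  tile `a : ℤ`
* `law_ev` : the same for `S ω = Ap ε B ω` and the coloured sites `Xc hS h3 s` of the cells
-/

set_option autoImplicit false
set_option linter.all false

noncomputable section

open scoped Classical

namespace Crest.Agent.R143.GPosRx348

open MeasureTheory Set ProbabilityTheory
open Crest.ProbabilityR.Voronoi
open Crest.Agent.R143.B0x346 Crest.Agent.R143.Locx922
open Crest.Agent.R143.PP0x831 Crest.Agent.R143.Poisx304 Crest.Agent.R143.Janx304
open Crest.Agent.R143.IndLocx279 Crest.Agent.R143.PWx978 Crest.Agent.R143.Tplx978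
open Crest.Agent.R143.WLocx713 Crest.Agent.R143.IndLoc3x279
open Crest.Agent.R143.TileRx228 Crest.Agent.R143.PthFx765 Crest.Agent.R143.TplIx204
open Crest.Agent.R143.CorNx765 Crest.Agent.R143.RngNx765
open Crest.Agent.R143.GPosFx348 Crest.Agent.R143.GPosCx348
open Crest.Agent.R143.FinCx811 Crest.Agent.R143.ColXx829 Crest.Agent.R143.Dbl2x609
open Crest.Agent.R143.FinMx609
open Crest.Agent.R143.CorHx713 (gO gA QA)
open scoped ENNReal

variable {M : ℕ} {W : ℤ → ℤ × ℤ} {η : ℝ} {D : DT} {ε : ℝ} {hε : 0 < ε} {c : ℝ≥0∞} {c0 : c ≠ 0}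
  {c1 : c ≤ 1} [Fintype (ZMod M)]

/-- **LAW → EVENT for the closed ring**, both kinds of tiles, all colourings -/
theorem ring_ev (N : NumC D η) (P : FPath M W)
    (H : Std (D.raw ε hε c c0 c1).tpl D.A' D.B' D.h Prod.fst) (hP : (D.raw ε hε c c0 c1).AePos)
    (b : Bool) {S : Sample → Finset ℂ}
    (hS : ∀ᵐ ω ∂sampleLaw, (S ω : Set ℂ) ⊆ points ε ω ∧
      points ε ω ∩ Rall D.A' D.B' D.h W ⊆ S ω) {d : ℝ} (hd : 0 < d) (hd' : 2 * d ≤ η) :
    ∀ᵐ ω ∂sampleLaw,
      (∀ a : ℤ, Hol (S ω : Set ℂ) (RR (9 * η) (51 * η) (100 * η) W a) d) →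
      ∀ β ⊆ S ω, RngNx765.gO P H b (clr (S ω) β) ≠ 0 →
        (∀ a : ℤ, ∃ p, LG (gA η W a) (QA η W a) (clr (S ω) β) p) ∧
        ∀ a : ℤ, TplIx204.TB b (RR (9 * η) (51 * η) (100 * η) W a)
          (LG (gA η W a) (QA η W a)) (LG (gA η W (a + 1)) (QA η W (a + 1))) (clr (S ω) β) := by
  have h0 := N.pos
  have hS' : ∀ᵐ ω ∂sampleLaw, (S ω : Set ℂ) ⊆ points ε ω ∧
      points ε ω ∩ (pth P H (rty M W b) (rty_typ b)).net.reg Finset.univ Finset.univ ⊆
        S ω := by
    rw [reg_gen P H (rty_typ b)]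
    exact hS
  filter_upwards [ev_full P H (rty_typ b) hP (I := Finset.univ) (J := Finset.univ)
    (fun k _ => ⟨Finset.mem_univ _, Finset.mem_univ _⟩) hS' hd
    (by rw [N.A, N.A']; linarith) (by rw [N.B, N.B']; linarith)] with ω hω hH β hβ h1
  have h2 : ∀ a : ℤ, ((a : ℤ) : ZMod M) ∈ (Finset.univ : Finset (ZMod M)) →
      Hol (S ω : Set ℂ) (RR D.A D.B D.h W a) d := by
    intro a _
    rw [N.A, N.B, N.h]
    exact hH a
  obtain ⟨h3, h4⟩ := hω h2 β hβ h1
  refine ⟨fun a => ?_, fun a => ?_⟩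
  · have h5 := h3 a (Finset.mem_univ _)
    rw [gt_eq N, bx_eq N] at h5
    exact h5
  · have h5 := h4 a (Finset.mem_univ _)
    rw [gt_eq N, bx_eq N, gt_eq N, bx_eq N, N.A, N.B, N.h] at h5
    exact h5

/-- **the same for the coloured sites of the cells** -/
theorem law_ev (N : NumC D η) (P : FPath M W)
    (H : Std (D.raw ε hε c c0 c1).tpl D.A' D.B' D.h Prod.fst) (hP : (D.raw ε hε c c0 c1).AePos)
    (b : Bool) {B : Set ℂ} (hB : Bornology.IsBounded B)
    (hR : Rall (12 * η) (52 * η) (100 * η) W ⊆ B) {d : ℝ} (hd : 0 < d) (hd' : 2 * d ≤ η) :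
    ∀ᵐ ω ∂sampleLaw,
      (∀ a : ℤ, Hol (Ap ε B ω : Set ℂ) (RR (9 * η) (51 * η) (100 * η) W a) d) →
      ∀ (hS : GP (Ap ε B ω : Set ℂ)) (h3 : 3 ≤ (Ap ε B ω).card) (s : Cs hS → ZMod 2),
        RngNx765.gO P H b (Xc hS h3 s) ≠ 0 →
        (∀ a : ℤ, ∃ p, LG (gA η W a) (QA η W a) (Xc hS h3 s) p) ∧
        ∀ a : ℤ, TplIx204.TB b (RR (9 * η) (51 * η) (100 * η) W a)
          (LG (gA η W a) (QA η W a)) (LG (gA η W (a + 1)) (QA η W (a + 1))) (Xc hS h3 s) := by
  have h1 : ∀ᵐ ω ∂sampleLaw, (Ap ε B ω : Set ℂ) ⊆ points ε ω ∧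
      points ε ω ∩ Rall D.A' D.B' D.h W ⊆ Ap ε B ω := by
    refine Filter.Eventually.of_forall fun ω => ?_
    rw [coe_Ap hε hB, N.A', N.B', N.h]
    exact ⟨inter_subset_left, inter_subset_inter_right _ hR⟩
  filter_upwards [ring_ev N P H hP b h1 hd hd'] with ω hω hH hS h3 s hg
  exact hω hH (bs hS h3 s) bs_sub hg

end Crest.Agent.R143.GPosRx348
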