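import Crest.Agent.R143.Tpl3_978
import Crest.Agent.R143.WLoc11_713
import Crest.Agent.R143.IndLoc3_279

/-!
# Row 143 (S0194), CORE-C, glue CorrI: from the weight to the events (helper348)

`P : Pth T ι κ` a path of gates and tiles in the frames `P.fr i` (978), `u i` the rotation part of the
frame `i`, `r t` the rotation part of the next gate of the type `t`.

* `gw_ne` : `gw I J X ≠ 0` gives `a i X ≠ 0`, `e k X ≠ 0`
* `mo_aff`, `mo_trans`, `mo_uniq`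
* `gP g i` : the gate `g` in the frame `i`; `gP_tgt`, `pre_tgt` : the target gate in the frame of the source
* `ng_iff`, `lg_iff`, `tc_iff`, `zc_eq` : gate darts, tile events and charges in a frame
* `colour_all` : an almost sure local property of the configuration holds for almost every environment
  and ALL colourings of its sites
* `raw_all` : 978's `Raw` (forced events): for almost every environment and all colourings, positive weight
  gives `R.A ≠ 0`, `R.E t ≠ 0` in the frames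
* `gpos`, `gpos_all` : **LAW → EVENT**: gate darts `LG` and tile events `TC` (or any event `TT t` which is
  covariant) of the path
-/

set_option autoImplicit false

noncomputable section

namespace Crest.Agent.R143.GPosx348

open MeasureTheory Set ProbabilityTheory
open Crest.ProbabilityR.Voronoi
open Crest.Agent.R143.PP0x831 Crest.Agent.R143.Poisx304 Crest.Agent.R143.Janx304
open Crest.Agent.R143.IndLocx279 Crest.Agent.R143.PWx978 Crest.Agent.R143.Tplx978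
open Crest.Agent.R143.WLocx713 Crest.Agent.R143.IndLoc3x279
open Crest.Agent.R143.CovBx126 (Mo)
open scoped ENNReal

/-! ### the weight -/

section weight

variable {ε : ℝ} {ι κ : Type*} (M : PWx978.Net ε ι κ)

theorem fac_ne {k : κ} {X : Cf} (h : M.fac k X ≠ 0) : M.e k X ≠ 0 := by
  intro h0
  apply h
  unfold PWx978.Net.fac
  rw [h0, zero_mul]

/-- **positive weight gives positive factors** -/
theorem gw_ne {I : Finset ι} {J : Finset κ} {X : Cf} (h : M.gw I J X ≠ 0) :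
    (∀ i ∈ I, M.a i X ≠ 0) ∧ ∀ k ∈ J, M.e k X ≠ 0 := by
  unfold PWx978.Net.gw at h
  have h1 := left_ne_zero_of_mul h
  have h2 := right_ne_zero_of_mul h
  exact ⟨fun i hi => Finset.prod_ne_zero_iff.1 h1 i hi,
    fun k hk => fac_ne M (Finset.prod_ne_zero_iff.1 h2 k hk)⟩

theorem a_cut (i : ι) (X : Cf) : M.a i X = M.a i (X ∩ ovr (M.B i)) := M.al i X

theorem e_cut (k : κ) (X : Cf) :
    M.e k X = M.e k (X ∩ ovr ((⋃ i ∈ M.N k, M.B i) ∪ M.C k)) := M.el k X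

end weight

/-! ### frames as rigid motions -/

theorem mo_aff {v u : ℂ} (hu : ‖u‖ = 1) : Mo (Fr.aff v u hu).e.toEquiv u := by
  refine ⟨hu, fun z w => ?_⟩
  change (v + u * z) - (v + u * w) = u * (z - w)
  ring

theorem mo_trans {φ ψ : ℂ ≃ ℂ} {c c' : ℂ} (h : Mo φ c) (h' : Mo ψ c') :
    Mo (φ.trans ψ) (c' * c) := by
  refine ⟨by rw [norm_mul, h.ne, h'.ne, one_mul], fun z w => ?_⟩
  rw [Equiv.trans_apply, Equiv.trans_apply, h'.sub, h.sub, mul_assoc]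

theorem mo_uniq {φ ψ : ℂ ≃ ℂ} {c c' : ℂ} (h : Mo φ c) (h' : Mo ψ c') (e : ∀ z, φ z = ψ z) :
    c = c' := by
  have h1 := h.sub 1 0
  have h2 := h'.sub 1 0
  rw [e, e, h2] at h1
  simpa using h1.symm

theorem mv_eq (f : ℂ ≃ᵐ ℂ) (X : Cf) : mv f X = mvX f.toEquiv X := rfl

theorem mvX_mv (f : ℂ ≃ᵐ ℂ) (X : Cf) : mvX f.toEquiv (mv f.symm X) = X := mv_mv_symm f X

theorem mem_pre (f : ℂ ≃ᵐ ℂ) (Q : Set ℂ) (s : ℂ) : f.toEquiv s ∈ f.symm ⁻¹' Q ↔ s ∈ Q := by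
  rw [mem_preimage]
  change f.symm (f s) ∈ Q ↔ _
  rw [MeasurableEquiv.symm_apply_apply]

/-- restriction in a frame -/
theorem mvX_cut (f : ℂ ≃ᵐ ℂ) (Z : Set ℂ) (X : Cf) :
    mvX f.toEquiv (mv f.symm X ∩ ovr Z) = X ∩ ovr (f.symm ⁻¹' Z) := by
  rw [← mvX_inter (φ := f.toEquiv) (mem_pre f Z), mvX_mv]

/-- the moved darts -/
theorem mp_mp (f : ℂ ≃ᵐ ℂ) (p : ℂ × ℂ) : mp f.toEquiv (mp f.symm.toEquiv p) = p :=
  Prod.ext (f.apply_symm_apply _) (f.apply_symm_apply _)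

section one

variable {f : ℂ ≃ᵐ ℂ} {c : ℂ} {X : Cf}

theorem ng_iff (h : Mo f.toEquiv c) (g : GPar) (p : ℂ × ℂ) :
    NG (g.mv f.toEquiv c) X p ↔ NG g (mv f.symm X) (mp f.symm.toEquiv p) := by
  have h1 := NG_mv (X := mv f.symm X) h g (mp f.symm.toEquiv p)
  rw [mp_mp, mvX_mv] at h1
  exact h1

/-- **selected gate darts in a frame** -/
theorem lg_iff (h : Mo f.toEquiv c) (g : GPar) (Q : Set ℂ) (p : ℂ × ℂ) :
    LG (g.mv f.toEquiv c) (f.symm ⁻¹' Q) X p ↔ LG g Q (mv f.symm X) (mp f.symm.toEquiv p) := by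
  have h1 := LG_mv (X := mv f.symm X) h g (mem_pre f Q) (mp f.symm.toEquiv p)
  rw [mp_mp, mvX_mv] at h1
  exact h1

theorem lg_ex (h : Mo f.toEquiv c) (g : GPar) (Q : Set ℂ) :
    (∃ p, LG (g.mv f.toEquiv c) (f.symm ⁻¹' Q) X p) ↔ ∃ p, LG g Q (mv f.symm X) p := by
  constructor
  · rintro ⟨p, hp⟩
    exact ⟨_, (lg_iff h g Q p).1 hp⟩
  · rintro ⟨p, hp⟩
    refine ⟨mp f.toEquiv p, (lg_iff h g Q _).2 ?_⟩
    have h2 : mp f.symm.toEquiv (mp f.toEquiv p) = p := mp_mp f.symm p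
    rw [h2]
    exact hp

/-- **tile events in a frame**, seen in the region `Z` -/
theorem tc_iff (h : Mo f.toEquiv c) (g g' : GPar) (A Q Q' Z : Set ℂ) :
    TC (f.symm ⁻¹' A) (LG (g.mv f.toEquiv c) (f.symm ⁻¹' Q)) (LG (g'.mv f.toEquiv c) (f.symm ⁻¹' Q'))
        (X ∩ ovr (f.symm ⁻¹' Z)) ↔
      TC A (LG g Q) (LG g' Q') (mv f.symm X ∩ ovr Z) := by
  have h1 := TC_gate_mv (X := mv f.symm X ∩ ovr Z) h g g' (mem_pre f A) (mem_pre f Q)
    (mem_pre f Q')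
  rw [mvX_cut] at h1
  exact h1

/-- **charges in a frame** -/
theorem zc_eq (h : Mo f.toEquiv c) (g g' : GPar) (W Q Q' Z : Set ℂ) {F F' : ℂ × ℂ × ℂ → ℂ}
    {k : ℂ} (hF : ∀ t : ℂ × ℂ × ℂ, F' (f t.1, f t.2.1, f t.2.2) = k * F t) :
    zC F' (f.symm ⁻¹' W) (LG (g.mv f.toEquiv c) (f.symm ⁻¹' Q))
        (LG (g'.mv f.toEquiv c) (f.symm ⁻¹' Q')) (X ∩ ovr (f.symm ⁻¹' Z)) =
      k * zC F W (LG g Q) (LG g' Q') (mv f.symm X ∩ ovr Z) := by
  have h1 := zC_gate_mv (X := mv f.symm X ∩ ovr Z) h g g' (mem_pre f W) (mem_pre f Q)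
    (mem_pre f Q') (f := F) (f' := F') (k := k) hF
  rw [mvX_cut] at h1
  exact h1

end one

/-! ### paths -/

section path

variable {ε : ℝ} {Ty ι κ : Type*} {T : Tpl ε Ty}

/-- the gate `g` in the frame `i` -/
def gP (P : Pth T ι κ) (u : ι → ℂ) (g : GPar) (i : ι) : GPar := g.mv (P.fr i).e.toEquiv (u i)

variable {P : Pth T ι κ} {u : ι → ℂ} {r : Ty → ℂ}

theorem u_tgt (hu : ∀ i, Mo (P.fr i).e.toEquiv (u i)) (hr : ∀ t, Mo (T.nx t).e.toEquiv (r t))
    (k : κ) : u (P.tgt k) = u (P.src k) * r (P.ty k) :=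
  mo_uniq (hu (P.tgt k)) (mo_trans (hr (P.ty k)) (hu (P.src k))) fun z => P.step k z

/-- **the target gate in the frame of the source gate** -/
theorem gP_tgt (hu : ∀ i, Mo (P.fr i).e.toEquiv (u i)) (hr : ∀ t, Mo (T.nx t).e.toEquiv (r t))
    (g : GPar) (k : κ) : gP P u g (P.tgt k) =
      (g.mv (T.nx (P.ty k)).e.toEquiv (r (P.ty k))).mv (P.fr (P.src k)).e.toEquiv
        (u (P.src k)) := by
  unfold gP GPar.mv
  have h1 : (P.fr (P.tgt k)).e.toEquiv g.z0 =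
      (P.fr (P.src k)).e.toEquiv ((T.nx (P.ty k)).e.toEquiv g.z0) := P.step k g.z0
  rw [h1, u_tgt hu hr k, mul_assoc]

theorem pre_tgt (k : κ) (Q : Set ℂ) : (P.fr (P.tgt k)).e.symm ⁻¹' Q =
    (P.fr (P.src k)).e.symm ⁻¹' ((T.nx (P.ty k)).e.symm ⁻¹' Q) := by
  ext z
  simp only [mem_preimage]
  rw [P.step_symm k z]

/-- **gate** -/
theorem gate_ex (hu : ∀ i, Mo (P.fr i).e.toEquiv (u i)) (g : GPar) (Q : Set ℂ) (i : ι) {X : Cf} :
    (∃ p, LG (gP P u g i) ((P.fr i).e.symm ⁻¹' Q) X p) ↔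
      ∃ p, LG g Q (mv (P.fr i).e.symm X) p := lg_ex (hu i) g Q

/-- **tile** -/
theorem tile_iff (hu : ∀ i, Mo (P.fr i).e.toEquiv (u i))
    (hr : ∀ t, Mo (T.nx t).e.toEquiv (r t)) (g : GPar) (A Q Z : Set ℂ) (k : κ) {X : Cf} :
    TC ((P.fr (P.src k)).e.symm ⁻¹' A)
        (LG (gP P u g (P.src k)) ((P.fr (P.src k)).e.symm ⁻¹' Q))
        (LG (gP P u g (P.tgt k)) ((P.fr (P.tgt k)).e.symm ⁻¹' Q))
        (X ∩ ovr ((P.fr (P.src k)).e.symm ⁻¹' Z)) ↔
      TC A (LG g Q) (LG (g.mv (T.nx (P.ty k)).e.toEquiv (r (P.ty k)))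
        ((T.nx (P.ty k)).e.symm ⁻¹' Q)) (mv (P.fr (P.src k)).e.symm X ∩ ovr Z) := by
  rw [gP_tgt hu hr g k, pre_tgt k Q]
  exact tc_iff (hu (P.src k)) g _ A Q _ Z

/-- **charge** -/
theorem charge_eq (hu : ∀ i, Mo (P.fr i).e.toEquiv (u i))
    (hr : ∀ t, Mo (T.nx t).e.toEquiv (r t)) (g : GPar) (W Q Z : Set ℂ) (k : κ) {X : Cf}
    {F F' : ℂ × ℂ × ℂ → ℂ} {c : ℂ}
    (hF : ∀ t : ℂ × ℂ × ℂ, F' ((P.fr (P.src k)).e t.1, (P.fr (P.src k)).e t.2.1,
      (P.fr (P.src k)).e t.2.2) = c * F t) :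
    zC F' ((P.fr (P.src k)).e.symm ⁻¹' W)
        (LG (gP P u g (P.src k)) ((P.fr (P.src k)).e.symm ⁻¹' Q))
        (LG (gP P u g (P.tgt k)) ((P.fr (P.tgt k)).e.symm ⁻¹' Q))
        (X ∩ ovr ((P.fr (P.src k)).e.symm ⁻¹' Z)) =
      c * zC F W (LG g Q) (LG (g.mv (T.nx (P.ty k)).e.toEquiv (r (P.ty k)))
        ((T.nx (P.ty k)).e.symm ⁻¹' Q)) (mv (P.fr (P.src k)).e.symm X ∩ ovr Z) := by
  rw [gP_tgt hu hr g k, pre_tgt k Q]
  exact zc_eq (hu (P.src k)) g _ W Q _ Z hF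

/-- the region seen by a tile -/
theorem seen (P : Pth T ι κ) [DecidableEq ι] (k : κ) :
    (P.fr (P.src k)).e.symm ⁻¹' ((T.Q ∪ (T.nx (P.ty k)).e.symm ⁻¹' T.Q) ∪ T.D (P.ty k)) =
      (P.net.B (P.src k) ∪ P.net.B (P.tgt k)) ∪ P.net.C k := by
  rw [preimage_union, preimage_union, ← pre_tgt]
  rfl

/-- **positive weight, in the frames**: every property of the configuration which follows from
`T.A ≠ 0`, `T.E t ≠ 0` in the template holds in the frames of the path -/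
theorem gw_frames [DecidableEq ι] (P : Pth T ι κ) {I : Finset ι} {J : Finset κ} {X : Cf}
    (hX : X.Finite) (h : P.net.gw I J X ≠ 0) {PA : Cf → Prop} {PE : Ty → Cf → Prop}
    (hA : ∀ Y : Cf, Y.Finite → T.A Y ≠ 0 → PA Y)
    (hE : ∀ t, ∀ Y : Cf, Y.Finite → T.E t Y ≠ 0 → PE t Y) :
    (∀ i ∈ I, PA (mv (P.fr i).e.symm X)) ∧
      ∀ k ∈ J, PE (P.ty k) (mv (P.fr (P.src k)).e.symm X) := by
  obtain ⟨h1, h2⟩ := gw_ne P.net h
  exact ⟨fun i hi => hA _ (mv_finite _ hX) (h1 i hi), fun k hk => hE _ _ (mv_finite _ hX) (h2 k hk)⟩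

/-- **LAW → EVENT**: positive weight gives the gate darts and the tile events of the path -/
theorem gpos [DecidableEq ι] (hu : ∀ i, Mo (P.fr i).e.toEquiv (u i))
    (hr : ∀ t, Mo (T.nx t).e.toEquiv (r t)) {I : Finset ι} {J : Finset κ} {X : Cf}
    (hX : X.Finite) (h : P.net.gw I J X ≠ 0) {g : GPar} {Q : Set ℂ} {A Z : Ty → Set ℂ}
    {F : Ty → Prop}
    (hA : ∀ Y : Cf, Y.Finite → T.A Y ≠ 0 → ∃ p, LG g Q Y p)
    (hE : ∀ t, F t → ∀ Y : Cf, Y.Finite → T.E t Y ≠ 0 →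
      TC (A t) (LG g Q) (LG (g.mv (T.nx t).e.toEquiv (r t)) ((T.nx t).e.symm ⁻¹' Q))
        (Y ∩ ovr (Z t))) :
    (∀ i ∈ I, ∃ p, LG (gP P u g i) ((P.fr i).e.symm ⁻¹' Q) X p) ∧
      ∀ k ∈ J, F (P.ty k) → TC ((P.fr (P.src k)).e.symm ⁻¹' A (P.ty k))
        (LG (gP P u g (P.src k)) ((P.fr (P.src k)).e.symm ⁻¹' Q))
        (LG (gP P u g (P.tgt k)) ((P.fr (P.tgt k)).e.symm ⁻¹' Q))
        (X ∩ ovr ((P.fr (P.src k)).e.symm ⁻¹' Z (P.ty k))) := by
  obtain ⟨h1, h2⟩ := gw_ne P.net h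
  refine ⟨fun i hi => ?_, fun k hk hF => ?_⟩
  · rw [gate_ex hu]
    exact hA _ (mv_finite _ hX) (h1 i hi)
  · rw [tile_iff hu hr]
    exact hE _ hF _ (mv_finite _ hX) (h2 k hk)

end path

/-! ### all colourings of almost every environment -/

open Classical in
/-- **almost every environment, all colourings** -/
theorem colour_all {ε : ℝ} (hε : 0 < ε) {B : Set ℂ} (hB : MeasurableSet B)
    (hb : Bornology.IsBounded B) {p : Cf → Prop} (hp : LocalOn B p) (hpm : FinMeas p)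
    (h : ∀ᵐ ω ∂sampleLaw, p (cfg ε ω)) {S : Sample → Finset ℂ}
    (hS : ∀ᵐ ω ∂sampleLaw, (S ω : Set ℂ) ⊆ points ε ω ∧ points ε ω ∩ B ⊆ S ω) :
    ∀ᵐ ω ∂sampleLaw, ∀ β ⊆ S ω, p (clr (S ω) β) := by
  set F : Cf → ℝ≥0∞ := fun S => if p S then 0 else 1 with hF
  have hFl : LocalOn B F := by
    intro S
    have := hp S
    simp only [hF]
    rw [← this]
  have hFm : FinMeas F := by
    intro n
    exact Measurable.ite (measurableSet_setOfPred.2 (hpm n)) measurable_const measurable_const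
  have h1 := lint_cav hε hB hb hFl hFm hS
  have h2 : ∫⁻ ω, F (cfg ε ω) ∂sampleLaw = 0 := by
    rw [lintegral_eq_zero_iff (meas_fun hε hB hb hFl hFm)]
    filter_upwards [h] with ω hω
    simp [hF, hω]
  rw [h2] at h1
  have h3 : AEMeasurable (fun ω => cavE F (S ω)) sampleLaw := by
    have h4 := meas_fun hε hB hb (ps_local (fun P => cavE F (fs P)) B)
      (ps_meas (f := fun P => cavE F (fs P)) (fun n => cavE_meas (show FM F from hFm) n) hB)
    simp only [psn_cfg] at h4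
    refine ⟨_, h4, ?_⟩
    filter_upwards [hS] with ω hω
    have hfin : (points ε ω ∩ B).Finite := (Finset.finite_toSet (S ω)).subset hω.2
    have e : fs (points ε ω ∩ B) = hfin.toFinset := by unfold fs; rw [dif_pos hfin]
    rw [e]
    refine cavE_local hFl (fun x hx => ?_) fun x hx hxB => ?_
    · exact hω.2 (hfin.mem_toFinset.1 hx)
    · exact hfin.mem_toFinset.2 ⟨hω.1 hx, hxB⟩
  rw [lintegral_eq_zero_iff' h3] at h1
  filter_upwards [h1] with ω hω β hβ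
  have h5 : cavE F (S ω) = 0 := hω
  unfold cavE at h5
  rcases mul_eq_zero.1 h5 with h6 | h6
  · exact absurd h6 (pow_ne_zero _ (by simp))
  · have h7 := (Finset.sum_eq_zero_iff.1 h6) β (Finset.mem_powerset.2 hβ)
    by_contra h8
    simp only [hF, if_neg h8] at h7
    exact one_ne_zero h7

section raw

variable {ε : ℝ} {Ty ι κ : Type*} {R : Raw ε Ty}

/-- the property of 978's `ae_ne` -/
def Good (P : Pth R.tpl ι κ) [DecidableEq ι] (I : Finset ι) (J : Finset κ) (X : Cf) : Prop :=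
  P.net.gw I J X ≠ 0 → (∀ i ∈ I, tr (P.fr i).e R.A X ≠ 0) ∧
    ∀ k ∈ J, tr (P.fr (P.src k)).e (R.E (P.ty k)) X ≠ 0

variable [DecidableEq ι]

theorem hN' (P : Pth R.tpl ι κ) {I : Finset ι} {J : Finset κ}
    (hN : ∀ k ∈ J, P.src k ∈ I ∧ P.tgt k ∈ I) : ∀ k ∈ J, P.net.N k ⊆ I := by
  intro k hk i hi
  have h1 : i ∈ ({P.src k, P.tgt k} : Finset ι) := hi
  rw [Finset.mem_insert, Finset.mem_singleton] at h1
  rcases h1 with rfl | rfl
  · exact (hN k hk).1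
  · exact (hN k hk).2

/-- the raw tile event is local on the region of the tile and its gates -/
theorem raw_local (P : Pth R.tpl ι κ) {I : Finset ι} {J : Finset κ} {k : κ} (hk : k ∈ J)
    (h1 : P.src k ∈ I) (h2 : P.tgt k ∈ I) :
    LocalOn (P.net.reg I J) (tr (P.fr (P.src k)).e (R.E (P.ty k))) := by
  have h := tr_local (P.fr (P.src k)).e (R.El (P.ty k))
  refine LocalOn.mono ?_ h
  have h3 : (P.fr (P.src k)).e.symm ⁻¹' ((R.Q ∪ (R.nx (P.ty k)).e.symm ⁻¹' R.Q) ∪ R.D (P.ty k)) =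
      (P.net.B (P.src k) ∪ P.net.B (P.tgt k)) ∪ P.net.C k := by
    rw [preimage_union, preimage_union]
    have h4 := pre_tgt (P := P) k R.Q
    change (P.fr (P.tgt k)).e.symm ⁻¹' R.Q =
      (P.fr (P.src k)).e.symm ⁻¹' ((R.nx (P.ty k)).e.symm ⁻¹' R.Q) at h4
    rw [← h4]
    rfl
  rw [h3]
  refine union_subset (union_subset ?_ ?_) ?_
  · exact (subset_biUnion_of_mem (u := P.net.B) h1).trans subset_union_left
  · exact (subset_biUnion_of_mem (u := P.net.B) h2).trans subset_union_left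
  · exact (subset_biUnion_of_mem (u := P.net.C) hk).trans subset_union_right

theorem good_local (P : Pth R.tpl ι κ) {I : Finset ι} {J : Finset κ}
    (hN : ∀ k ∈ J, P.src k ∈ I ∧ P.tgt k ∈ I) : LocalOn (P.net.reg I J) (Good P I J) := by
  intro S
  have e1 : P.net.gw I J S = P.net.gw I J (S ∩ ovr (P.net.reg I J)) :=
    P.net.gw_local (hN' P hN) S
  have e2 : ∀ i ∈ I, tr (P.fr i).e R.A S = tr (P.fr i).e R.A (S ∩ ovr (P.net.reg I J)) := by
    intro i hi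
    exact LocalOn.mono ((subset_biUnion_of_mem (u := P.net.B) hi).trans subset_union_left)
      (tr_local (P.fr i).e R.Al) S
  have e3 : ∀ k ∈ J, tr (P.fr (P.src k)).e (R.E (P.ty k)) S =
      tr (P.fr (P.src k)).e (R.E (P.ty k)) (S ∩ ovr (P.net.reg I J)) := fun k hk =>
    raw_local P hk (hN k hk).1 (hN k hk).2 S
  change Good P I J S = Good P I J (S ∩ ovr (P.net.reg I J))
  unfold Good
  rw [← e1]
  apply propext
  refine imp_congr_right fun _ => and_congr ?_ ?_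
  · exact forall₂_congr fun i hi => by rw [e2 i hi]
  · exact forall₂_congr fun k hk => by rw [e3 k hk]

theorem good_fm (P : Pth R.tpl ι κ) (I : Finset ι) (J : Finset κ) : FinMeas (Good P I J) := by
  intro n
  refine measurableSet_setOfPred.1 ?_
  have m1 : MeasurableSet {z : Fin n → ℂ × Bool | P.net.gw I J (range z) ≠ 0} :=
    (P.net.gw_meas I J n) (measurableSet_singleton 0).compl
  have m2 : MeasurableSet {z : Fin n → ℂ × Bool | ∀ i ∈ I, tr (P.fr i).e R.A (range z) ≠ 0} := by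
    have : {z : Fin n → ℂ × Bool | ∀ i ∈ I, tr (P.fr i).e R.A (range z) ≠ 0} =
        ⋂ i ∈ I, {z | tr (P.fr i).e R.A (range z) ≠ 0} := by
      ext z; simp
    rw [this]
    exact Finset.measurableSet_biInter I fun i _ =>
      (tr_fm (P.fr i).e R.Am n) (measurableSet_singleton 0).compl
  have m3 : MeasurableSet {z : Fin n → ℂ × Bool |
      ∀ k ∈ J, tr (P.fr (P.src k)).e (R.E (P.ty k)) (range z) ≠ 0} := by
    have : {z : Fin n → ℂ × Bool | ∀ k ∈ J, tr (P.fr (P.src k)).e (R.E (P.ty k)) (range z) ≠ 0} =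
        ⋂ k ∈ J, {z | tr (P.fr (P.src k)).e (R.E (P.ty k)) (range z) ≠ 0} := by
      ext z; simp
    rw [this]
    exact Finset.measurableSet_biInter J fun k _ =>
      (tr_fm (P.fr (P.src k)).e (R.Em (P.ty k)) n) (measurableSet_singleton 0).compl
  have e : {z : Fin n → ℂ × Bool | Good P I J (range z)} =
      {z | P.net.gw I J (range z) ≠ 0}ᶜ ∪ ({z | ∀ i ∈ I, tr (P.fr i).e R.A (range z) ≠ 0} ∩
        {z | ∀ k ∈ J, tr (P.fr (P.src k)).e (R.E (P.ty k)) (range z) ≠ 0}) := by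
    ext z
    simp only [Good, mem_ofPred_eq, mem_union, mem_compl_iff, mem_inter_iff]
    tauto
  rw [e]
  exact m1.compl.union (m2.inter m3)

/-- **forced events, all colourings**: for almost every environment and ALL colourings `β` of its sites,
positive weight gives the raw gate and tile events in the frames of the path -/
theorem raw_all (h : R.AePos) (P : Pth R.tpl ι κ) {I : Finset ι} {J : Finset κ}
    (hN : ∀ k ∈ J, P.src k ∈ I ∧ P.tgt k ∈ I) {S : Sample → Finset ℂ}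
    (hS : ∀ᵐ ω ∂sampleLaw, (S ω : Set ℂ) ⊆ points ε ω ∧
      points ε ω ∩ P.net.reg I J ⊆ S ω) :
    ∀ᵐ ω ∂sampleLaw, ∀ β ⊆ S ω, P.net.gw I J (clr (S ω) β) ≠ 0 →
      (∀ i ∈ I, R.A (mv (P.fr i).e.symm (clr (S ω) β)) ≠ 0) ∧
        ∀ k ∈ J, R.E (P.ty k) (mv (P.fr (P.src k)).e.symm (clr (S ω) β)) ≠ 0 :=
  colour_all (p := Good P I J) R.eps (P.net.reg_meas I J) (P.net.reg_bdd I J)
    (good_local P hN) (good_fm P I J) (Raw.ae_ne h P hN) hS

theorem clr_finite (S β : Finset ℂ) : (clr S β).Finite := by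
  refine Set.Finite.subset ((S.finite_toSet).prod (Set.finite_univ (α := Bool))) ?_
  rintro ⟨z, b⟩ hz
  exact ⟨hz.1, mem_univ _⟩

/-- **LAW → EVENT, all colourings of almost every environment** -/
theorem gpos_all (h : R.AePos) (P : Pth R.tpl ι κ) {u : ι → ℂ} {r : Ty → ℂ}
    (hu : ∀ i, Mo (P.fr i).e.toEquiv (u i)) (hr : ∀ t, Mo (R.nx t).e.toEquiv (r t))
    {I : Finset ι} {J : Finset κ} (hN : ∀ k ∈ J, P.src k ∈ I ∧ P.tgt k ∈ I)
    {S : Sample → Finset ℂ} (hS : ∀ᵐ ω ∂sampleLaw, (S ω : Set ℂ) ⊆ points ε ω ∧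
      points ε ω ∩ P.net.reg I J ⊆ S ω) {g : GPar} {Q : Set ℂ} {A Z : Ty → Set ℂ}
    {F : Ty → Prop} (hA : ∀ Y : Cf, Y.Finite → R.A Y ≠ 0 → ∃ p, LG g Q Y p)
    (hE : ∀ t, F t → ∀ Y : Cf, Y.Finite → R.E t Y ≠ 0 →
      TC (A t) (LG g Q) (LG (g.mv (R.nx t).e.toEquiv (r t)) ((R.nx t).e.symm ⁻¹' Q))
        (Y ∩ ovr (Z t))) :
    ∀ᵐ ω ∂sampleLaw, ∀ β ⊆ S ω, P.net.gw I J (clr (S ω) β) ≠ 0 →
      (∀ i ∈ I, ∃ p, LG (gP P u g i) ((P.fr i).e.symm ⁻¹' Q) (clr (S ω) β) p) ∧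
        ∀ k ∈ J, F (P.ty k) → TC ((P.fr (P.src k)).e.symm ⁻¹' A (P.ty k))
          (LG (gP P u g (P.src k)) ((P.fr (P.src k)).e.symm ⁻¹' Q))
          (LG (gP P u g (P.tgt k)) ((P.fr (P.tgt k)).e.symm ⁻¹' Q))
          (clr (S ω) β ∩ ovr ((P.fr (P.src k)).e.symm ⁻¹' Z (P.ty k))) := by
  filter_upwards [raw_all h P hN hS] with ω hω β hβ h0
  obtain ⟨h1, h2⟩ := hω β hβ h0
  refine ⟨fun i hi => ?_, fun k hk hF => ?_⟩
  · rw [gate_ex hu]
    exact hA _ (mv_finite _ (clr_finite _ _)) (h1 i hi)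
  · rw [tile_iff (T := R.tpl) hu hr]
    exact hE _ hF _ (mv_finite _ (clr_finite _ _)) (h2 k hk)

end raw

end Crest.Agent.R143.GPosx348
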