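import Crest.Agent.R143.QuF_778
import Crest.Agent.R143.C2SD_395

/-!
# Row 143 (S0194), RIG, quenched half: 778's `Ex.fresh` with the frozen object `TS` (helper395)

`M = rc0 hS`, `H : QuFx778.Ex M A i g σ` (white giant `A (i + 2)`), hull cell in `A (i + 2)` (`Hl`),
every triangle with a hull vertex inside `A (i + 2)` (`Far`).

* **`fresh_ts`** : mean over the fresh colours of `Σ_{cb} (z a + ω z b + ω² z c)` is
  `omz (-i) * TS S (st A) z / 3`
* **`fresh_ends`** : mean of `Σ_{cb} (z old − z new)` is `Ey (i+1) − Ey i`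
* `cb_ends` : pointwise: `Σ_{cb} (z old − z new) = z (hv (i+1) Tᶜ) − z (hv i T)`, `T` = black free
  sites of `τ`
-/

set_option autoImplicit false

noncomputable section

open scoped Classical

namespace Crest.Agent.R143.QuTx395

open Crest.Agent.R143.B0x346 Crest.Agent.R143.DelGx806 Crest.Agent.R143.DelRx806
  Crest.Agent.R143.JColx54 Crest.Agent.R143.RE0x723
open Crest.Agent.R143.K33x877 (Clu fr)
open Crest.Agent.R143.NetUx346 (ff HitO hits exC Ey TS G3 Hex mem_ff mem_hits hv hv_eq sum_hits)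
open Crest.Agent.R143.Frame1x395 Crest.Agent.R143.Frame2x395 Crest.Agent.R143.Frame3x395
  Crest.Agent.R143.Frame4x395 Crest.Agent.R143.Frame8x395 Crest.Agent.R143.Frame9x395
  Crest.Agent.R143.Frame10x395
  Crest.Agent.R143.NonXx592 Crest.Agent.R143.Coarsex166 Crest.Agent.R143.Coarse2x166
  Crest.Agent.R143.C2Sx395 Crest.Agent.R143.C2SBx395 Crest.Agent.R143.C2SCx395
  Crest.Agent.R143.C2SDx395 Crest.Agent.R143.QuFx778
open Crest.Agent.R143.FinCx811 (Cs rc0 cell_mem)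
open Crest.Agent.R143.Frame5x395 (sd mem_sd th th_spec)

section gen

variable {D C : Type} [Fintype D] [Fintype C] {M : CMap D C} {A : ZMod 3 → Set C} {i k : ZMod 3}
  {g : D} {σ τ : C → ZMod 2}

theorem cb_gp (G : Gi M A) {h : D} (hh : h ∈ cb M A i g τ) : Gp M (cfg M (mt A i τ)) h := by
  rw [cb_eq G] at hh
  exact (mem_blk.1 (Finset.mem_of_mem_erase hh)).1

/-- pointwise end points, every closed map -/
theorem cb_yv (H : Ex M A i g σ) (z : C → ℂ) :
    ∑ h ∈ cb M A i g τ, (z (M.cell (M.rho h)) - z (M.cell h)) =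
      yv M A (i + 1) {c | τ c = 1}ᶜ z - yv M A i {c | τ c = 1} z := by
  obtain ⟨ψ, hψ⟩ := mt_lift (i := i) (τ := τ) H.gi
  have e0 : ∀ c, ψ (pz H.gi c) = mt A i τ c := fun c => congrFun hψ c
  have h1 := ends_sum (hπ := clsCon H.gi) (χ := ψ) H.root (cq H.gi) H.gi
    (by rw [e0]; exact mt_b H.gi H.root.r0 (z3a i).2.2)
    (by rw [e0]; exact mt_b H.gi H.root.r1 (z3a i).2.1) (by rw [e0]; exact mt_w H.root.r2) z
  have e1 : cfg (coarse M (pz H.gi) (clsCon H.gi)) ψ = cfg M (mt A i τ) := by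
    rw [cfg_coarse]
    congr 1
  rw [e1] at h1
  rw [cb_eq H.gi, h1]
  have c1 : ∀ c, Free A c → (c ∈ {c | ψ (pz H.gi c) = 1} ↔ c ∈ {c | τ c = 1}) := fun c hc => by
    show ψ (pz H.gi c) = 1 ↔ τ c = 1
    rw [e0, mt_free hc]
  have c2 : ∀ c, Free A c → (c ∈ ({c | ψ (pz H.gi c) = 1} : Set C)ᶜ ↔
      c ∈ ({c | τ c = 1} : Set C)ᶜ) := fun c hc => not_congr (c1 c hc)
  rw [yv_congr H.gi c1, yv_congr H.gi c2]

theorem sum_compl (z : C → ℂ) : ∑ τ : C → ZMod 2, yv M A k {c | τ c = 1}ᶜ z =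
    ∑ τ : C → ZMod 2, yv M A k {c | τ c = 1} z := by
  refine Fintype.sum_equiv (Equiv.addRight (fun _ : C => (1 : ZMod 2))) _ _ fun χ => ?_
  show yv M A k {c | χ c = 1}ᶜ z = yv M A k {c | χ c + 1 = 1} z
  congr 1
  ext c
  show ¬ χ c = 1 ↔ χ c + 1 = 1
  generalize χ c = p
  revert p; decide

/-- mean of the end points, every closed map -/
theorem fresh_yv (H : Ex M A i g σ) (z : C → ℂ) :
    ∑ τ : C → ZMod 2, ∑ h ∈ cb M A i g τ, (z (M.cell (M.rho h)) - z (M.cell h)) =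
      (Fintype.card (C → ZMod 2) : ℂ) * (Ez M A (i + 1) z - Ez M A i z) := by
  have h1 : ∀ k, ∑ τ : C → ZMod 2, yv M A k {c | τ c = 1} z =
      (Fintype.card (C → ZMod 2) : ℂ) * Ez M A k z := by
    intro k
    unfold Ez
    rw [mul_div_cancel₀]
    exact card_ne
  rw [mul_sub, ← h1, ← h1, ← sum_compl, ← Finset.sum_sub_distrib]
  exact Finset.sum_congr rfl fun τ _ => cb_yv H z

end gen

variable {S : Finset ℂ} {hS : GP (S : Set ℂ)} {A : ZMod 3 → Set (Cs hS)} {i j k : ZMod 3}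
  {g : D0 S} {σ τ : Cs hS → ZMod 2}

/-- the colours `mt` are pinned on the giants -/
theorem rc_mt (G : Gi (rc0 hS) A) : Rc A i (mt A i τ) :=
  ⟨fun _ hc => mt_b G hc (z3a i).2.2, fun _ hc => mt_b G hc (z3a i).2.1, fun _ hc => mt_w hc⟩

/-- gaps of the coarse block are off the hull -/
theorem cb_off (H : Ex (rc0 hS) A i g σ) (F : Far A (i + 2)) {h : D0 S}
    (hh : h ∈ cb (rc0 hS) A i g τ) :
    ¬ OnHull S h.1.1 ∧ ¬ OnHull S h.1.2 ∧ ¬ OnHull S (th S h.1) :=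
  gap_off F (rc_mt H.gi) (fun _ _ => rfl) (cb_gp H.gi hh)

/-- **(QF) the mean over the fresh colours is the frozen `TS`** -/
theorem fresh_ts (H : Ex (rc0 hS) A i g σ) (Hh : Hl A (i + 2)) (F : Far A (i + 2))
    (z : ℂ → ℂ) :
    ∑ τ : Cs hS → ZMod 2, ∑ h ∈ cb (rc0 hS) A i g τ, zf S z h =
      (Fintype.card (Cs hS → ZMod 2) : ℂ) * (omz (-i) * TS S (st A) z / 3) := by
  have h1 := H.fresh om_c om_s (zc hS z)
  rw [ez_ey H.gi Hh F H.root, ez_ey H.gi Hh F H.root, ez_ey H.gi Hh F H.root,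
    phase (Ey S (st A) z) i] at h1
  unfold TS
  rw [← h1]
  refine Finset.sum_congr rfl fun τ _ => Finset.sum_congr rfl fun h hh => ?_
  exact (zf_eq (cb_off H F hh)).symm

/-- black free sites of a set of black cells -/
def tf (A : ZMod 3 → Set (Cs hS)) (T' : Set (Cs hS)) : Finset ℂ :=
  (ff S (st A)).filter fun v => ∃ c : Cs hS, c.1 = Quot.mk (hullE S) v ∧ c ∈ T'

theorem tf_sub (T' : Set (Cs hS)) : tf A T' ⊆ ff S (st A) := Finset.filter_subset _ _

theorem cmp_tf (T' : Set (Cs hS)) : Cmp A (tf A T' : Set ℂ) T' := by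
  intro v hv c hc
  unfold tf
  rw [Finset.mem_coe, Finset.mem_filter]
  constructor
  · exact fun h => ⟨mem_ff.2 hv, c, hc, h⟩
  · rintro ⟨-, c', e, h⟩
    have : c = c' := Subtype.ext (hc.trans e.symm)
    rw [this]; exact h

/-- the hit of the closed map is the hit vertex `hv` -/
theorem yv_hv (G : Gi (rc0 hS) A) (Hh : Hl A j) (F : Far A j) (R : Root (rc0 hS) A i g)
    (T' : Set (Cs hS)) (z : ℂ → ℂ) :
    yv (rc0 hS) A k T' (zc hS z) = z (hv S (st A) k (tf A T' : Set ℂ)) := by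
  obtain ⟨d, hd⟩ := hit_ex G R k T'
  rw [yv_eq G hd, hv_eq (hex G Hh R) (tf_sub T')
    ((hitO_hit Hh (cmp_tf T') (th_spec d.2)).2 hd)]
  exact zc_eq (hit_off G F hd) rfl

/-- **pointwise end points of the coarse block** -/
theorem cb_ends (H : Ex (rc0 hS) A i g σ) (Hh : Hl A (i + 2)) (F : Far A (i + 2))
    (z : ℂ → ℂ) :
    ∑ h ∈ cb (rc0 hS) A i g τ, (z h.1.2 - z h.1.1) =
      z (hv S (st A) (i + 1) (tf A {c | τ c = 1}ᶜ : Set ℂ)) -
        z (hv S (st A) i (tf A {c | τ c = 1} : Set ℂ)) := by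
  rw [← yv_hv H.gi Hh F H.root {c | τ c = 1} z, ← yv_hv H.gi Hh F H.root {c | τ c = 1}ᶜ z,
    ← cb_yv H]
  refine Finset.sum_congr rfl fun h hh => ?_
  obtain ⟨o1, o2, -⟩ := cb_off H F hh
  rw [zc_eq o1 (c := (rc0 hS).cell h) rfl, zc_eq o2 (c := (rc0 hS).cell ((rc0 hS).rho h)) rfl]

/-- **mean displacement** -/
theorem fresh_ends (H : Ex (rc0 hS) A i g σ) (Hh : Hl A (i + 2)) (F : Far A (i + 2))
    (z : ℂ → ℂ) :
    ∑ τ : Cs hS → ZMod 2, ∑ h ∈ cb (rc0 hS) A i g τ, (z h.1.2 - z h.1.1) =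
      (Fintype.card (Cs hS → ZMod 2) : ℂ) * (Ey S (st A) z (i + 1) - Ey S (st A) z i) := by
  rw [← ez_ey H.gi Hh F H.root, ← ez_ey H.gi Hh F H.root, ← fresh_yv H]
  refine Finset.sum_congr rfl fun τ _ => Finset.sum_congr rfl fun h hh => ?_
  obtain ⟨o1, o2, -⟩ := cb_off H F hh
  rw [zc_eq o1 (c := (rc0 hS).cell h) rfl, zc_eq o2 (c := (rc0 hS).cell ((rc0 hS).rho h)) rfl]

end Crest.Agent.R143.QuTx395
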