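import Crest.Agent.R143.Dsc_877
import Crest.Agent.R143.Indep_583
import Crest.Agent.R143.XG_343
import Crest.Agent.R143.CircP_838

/-!
# Row 143 (S0194), block X: leaf GAPI (helper877)

* `Nx`, `leadsO_total`, `tip_uniq` : the walk outside `W` up to its tip
* `Ex` : explored sites; `lead_iff`, `ex_stop` : it is an exploration (any join, any start)
* `LE` : edges of the leg; `leg_disj` : two legs have no common edge; `le_even` : `J` without the
  edges of a leg is even at the triangles of the disc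
* `block` : a closed chain whose sites in the disc have the colour of the explored leg is not
  crossed by the other leg
* `pr_xor`, `pr_fresh` : probability of the circuits around the tip
* `gapi : RB → GAPI`
-/

set_option autoImplicit false

noncomputable section

open scoped Classical

namespace Crest.Agent.R143.GapIx877

open Crest.Agent.R143.B0x346 Crest.Agent.R143.DelGx806 Crest.Agent.R143.DelRx806
open Crest.Agent.R143.ToolWx838 Crest.Agent.R143.Blkx838 Crest.Agent.R143.Harx315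
open Crest.Agent.R143.RB0x838 Crest.Agent.R143.Planarx54 Crest.Agent.R143.CircPx838
open Crest.Agent.R143.X0Bx683 Crest.Agent.R143.X0Cx683 Crest.Agent.R143.Indepx583
open Crest.Agent.R143.JCardx872 Crest.Agent.R143.JWalkx872 Crest.Agent.R143.XGx343

/-! ### walks outside `W` -/

section walk

variable {G : Trg ℂ} {kl : Set (ℂ × ℂ)} {O : Set (ℂ × ℂ × ℂ)} {D : Set (ℂ × ℂ)}
  {J : Finset (ℂ × ℂ)} {W : Set ℂ}

/-- one step, the new position is outside `W` -/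
def Nx (G : Trg ℂ) (O : Set (ℂ × ℂ × ℂ)) (D : Set (ℂ × ℂ)) (J : Finset (ℂ × ℂ)) (W : Set ℂ)
    (p q : ℂ × ℂ) : Prop := Step G O D J p q ∧ OutP W q

theorem nx_uniq : Relator.RightUnique (Nx G O D J W) := fun _ _ _ h h' => step_det h.1 h'.1

theorem leadsO_iff {p q : ℂ × ℂ} :
    LeadsO G O D J W p q ↔ OutP W p ∧ Relation.ReflTransGen (Nx G O D J W) p q := Iff.rfl

/-- no step from the tip stays outside `W` -/
theorem tip_no {q q' : ℂ × ℂ} (h : ∃ c ∈ W, (q.1, q.2, c) ∈ G.T) : ¬ Nx G O D J W q q' := by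
  rintro ⟨⟨c, hc, -, -, h1⟩, h2⟩
  obtain ⟨c', hc', h3⟩ := h
  have := G.uniq hc h3
  subst this
  rcases h1 with ⟨-, rfl⟩ | ⟨-, -, rfl⟩
  · exact h2.1 hc'
  · exact h2.2 hc'

theorem nx_tip {q m : ℂ × ℂ} (h : ∃ c ∈ W, (q.1, q.2, c) ∈ G.T)
    (hl : Relation.ReflTransGen (Nx G O D J W) q m) : m = q := by
  rcases Relation.ReflTransGen.cases_head hl with h1 | ⟨q', hq, -⟩
  · exact h1.symm
  · exact absurd hq (tip_no h)

/-- every position leads to the tip -/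
theorem to_tip {p q m : ℂ × ℂ} (hq : LegTip G O D J W p q) (hm : LeadsO G O D J W p m) :
    Relation.ReflTransGen (Nx G O D J W) m q := by
  rcases Relation.ReflTransGen.total_of_right_unique nx_uniq hm.2 hq.1.2 with h | h
  · exact h
  · rw [nx_tip hq.2 h]

/-- the tip is unique -/
theorem tip_uniq {p q q' : ℂ × ℂ} (hq : LegTip G O D J W p q) (hq' : LegTip G O D J W p q') :
    q' = q := nx_tip hq.2 (to_tip hq' hq.1)

/-- explicit walk -/
theorem exists_wkO {p q : ℂ × ℂ} (h : LeadsO G O D J W p q) :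
    ∃ n w, Wk G O D J n w ∧ w 0 = p ∧ w n = q ∧ ∀ k, k ≤ n → LeadsO G O D J W p (w k) := by
  obtain ⟨h0, h⟩ := h
  induction h with
  | refl => exact ⟨0, fun _ => p, fun k hk => absurd hk (Nat.not_lt_zero _), rfl, rfl,
      fun k _ => ⟨h0, Relation.ReflTransGen.refl⟩⟩
  | @tail a b h1 h2 ih =>
    obtain ⟨n, w, hw, w0, wn, hl⟩ := ih
    refine ⟨n + 1, fun k => if k ≤ n then w k else b, fun k hk => ?_, ?_, ?_, ?_⟩
    · dsimp only
      rcases Nat.lt_or_ge k n with h | h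
      · rw [if_pos h.le, if_pos (by omega)]
        exact hw k h
      · have : k = n := by omega
        subst this
        rw [if_pos le_rfl, if_neg (by omega), wn]
        exact h2.1
    · dsimp only
      rw [if_pos (Nat.zero_le _)]
      exact w0
    · dsimp only
      rw [if_neg (by omega)]
    · intro k hk
      dsimp only
      split_ifs with h
      · exact hl k h
      · exact ⟨h0, h1.tail h2⟩

end walk

/-! ### explored sites -/

section explore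

variable {G : Trg ℂ} {kl : Set (ℂ × ℂ)} {O : Set (ℂ × ℂ × ℂ)} {D : Set (ℂ × ℂ)}
  {J : Finset (ℂ × ℂ)} {W : Set ℂ} {V : Finset ℂ} {p0 : ℂ × ℂ}

/-- explored sites -/
def Ex (G : Trg ℂ) (O : Set (ℂ × ℂ × ℂ)) (D : Set (ℂ × ℂ)) (W : Set ℂ) (V : Finset ℂ)
    (p0 : ℂ × ℂ) (J : Finset (ℂ × ℂ)) : Finset ℂ :=
  V.filter fun s => ∃ p, LeadsO G O D J W p0 p ∧ (s = p.1 ∨ s = p.2)

theorem mem_Ex {s : ℂ} : s ∈ Ex G O D W V p0 J ↔
    s ∈ V ∧ ∃ p, LeadsO G O D J W p0 p ∧ (s = p.1 ∨ s = p.2) := by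
  unfold Ex
  rw [Finset.mem_filter]

/-- the walk only depends on the colours of the explored sites -/
theorem lead_iff {β β' : Finset ℂ} (hβ : β ⊆ V) (hβ' : β' ⊆ V)
    (hJ : IsJoin G kl O D (X0Bx683.flip G J β)) (hp0 : p0 ∈ X0Bx683.flip G J β)
    (h : β ∩ Ex G O D W V p0 (X0Bx683.flip G J β) = β' ∩ Ex G O D W V p0 (X0Bx683.flip G J β))
    {p : ℂ × ℂ} : LeadsO G O D (X0Bx683.flip G J β) W p0 p ↔
      LeadsO G O D (X0Bx683.flip G J β') W p0 p := by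
  have known : ∀ {q : ℂ × ℂ} {s : ℂ}, LeadsO G O D (X0Bx683.flip G J β) W p0 q →
      (s = q.1 ∨ s = q.2) → (s ∈ β ↔ s ∈ β') := by
    intro q s hq hs
    by_cases hsV : s ∈ V
    · have hE : s ∈ Ex G O D W V p0 (X0Bx683.flip G J β) := mem_Ex.2 ⟨hsV, q, hq, hs⟩
      have h1 : s ∈ β ∩ Ex G O D W V p0 (X0Bx683.flip G J β) ↔
          s ∈ β' ∩ Ex G O D W V p0 (X0Bx683.flip G J β) := by rw [h]
      rw [Finset.mem_inter, Finset.mem_inter] at h1
      tauto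
    · exact ⟨fun h' => absurd (hβ h') hsV, fun h' => absurd (hβ' h') hsV⟩
  -- transfer of a step
  have trans : ∀ {q m : ℂ × ℂ}, LeadsO G O D (X0Bx683.flip G J β) W p0 q →
      Step G O D (X0Bx683.flip G J β) q m → OutP W m →
      Step G O D (X0Bx683.flip G J β') q m := by
    intro q m hq hst hm
    have hlm : LeadsO G O D (X0Bx683.flip G J β) W p0 m := ⟨hq.1, hq.2.tail ⟨hst, hm⟩⟩
    obtain ⟨c, hc, hcO, hD, h1⟩ := hst
    have k1 := known hq (s := q.1) (Or.inl rfl)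
    have k2 := known hq (s := q.2) (Or.inr rfl)
    have k3 : c ∈ β ↔ c ∈ β' := by
      rcases h1 with ⟨-, rfl⟩ | ⟨-, -, rfl⟩
      · exact known hlm (Or.inl rfl)
      · exact known hlm (Or.inr rfl)
    refine ⟨c, hc, hcO, hD, ?_⟩
    rcases h1 with ⟨h2, h3⟩ | ⟨h2, h3, h4⟩
    · exact Or.inl ⟨(flip_congr k2 k3).1 h2, h3⟩
    · exact Or.inr ⟨(flip_congr k3 k1).1 h2, fun h' => h3 ((flip_congr k2 k3).2 h'), h4⟩
  constructor
  · rintro ⟨h0, h1⟩
    refine ⟨h0, ?_⟩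
    induction h1 with
    | refl => exact Relation.ReflTransGen.refl
    | @tail a b h1 h2 ih => exact ih.tail ⟨trans ⟨h0, h1⟩ h2.1 h2.2, h2.2⟩
  · rintro ⟨h0, h1⟩
    refine ⟨h0, ?_⟩
    induction h1 with
    | refl => exact Relation.ReflTransGen.refl
    | @tail a b h1 h2 ih =>
      have ha : LeadsO G O D (X0Bx683.flip G J β) W p0 a := ⟨h0, ih⟩
      have haJ : a ∈ X0Bx683.flip G J β := by
        rcases leads_mem hJ hp0 (leadsO_leads ha) with h' | h'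
        · exact h'
        · exact absurd h' (step_pre h2.1)
      have haW : OutP W a := leadsO_out ha
      rcases step_prog hJ haJ with ⟨c, hc, hcO⟩ | ⟨m, hm⟩
      · obtain ⟨⟨c', hc', hcO', -, -⟩, -⟩ := h2
        have := G.uniq hc hc'
        subst this
        exact absurd hcO hcO'
      · have hmW : OutP W m := by
          obtain ⟨⟨c', hc', -, -, h3⟩, h4⟩ := h2
          obtain ⟨c, hc, -, -, h5⟩ := hm
          have := G.uniq hc hc'
          subst this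
          have hcW : c ∉ W := by
            rcases h3 with ⟨-, rfl⟩ | ⟨-, -, rfl⟩
            · exact h4.1
            · exact h4.2
          rcases h5 with ⟨-, rfl⟩ | ⟨-, -, rfl⟩
          · exact ⟨hcW, haW.2⟩
          · exact ⟨haW.1, hcW⟩
        have h6 := trans ha hm hmW
        have h7 := step_det h6 h2.1
        subst h7
        exact ih.tail ⟨hm, hmW⟩

theorem ex_eq {β β' : Finset ℂ} (hβ : β ⊆ V) (hβ' : β' ⊆ V)
    (hJ : IsJoin G kl O D (X0Bx683.flip G J β)) (hp0 : p0 ∈ X0Bx683.flip G J β)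
    (h : β ∩ Ex G O D W V p0 (X0Bx683.flip G J β) = β' ∩ Ex G O D W V p0 (X0Bx683.flip G J β)) :
    Ex G O D W V p0 (X0Bx683.flip G J β') = Ex G O D W V p0 (X0Bx683.flip G J β) := by
  ext s
  rw [mem_Ex, mem_Ex]
  have := fun p => lead_iff (p := p) hβ hβ' hJ hp0 h
  simp only [this]

theorem ex_stop (hJ : ∀ β, β ⊆ V → IsJoin G kl O D (X0Bx683.flip G J β))
    (hp0 : ∀ β, β ⊆ V → p0 ∈ X0Bx683.flip G J β) :
    IsStop V (fun β => Ex G O D W V p0 (X0Bx683.flip G J β)) :=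
  ⟨fun _ _ => Finset.filter_subset _ _,
    fun β _ hβ hβ' h => ex_eq hβ hβ' (hJ β hβ) (hp0 β hβ) h⟩

theorem legTip_iff {β β' : Finset ℂ} (hβ : β ⊆ V) (hβ' : β' ⊆ V)
    (hJ : IsJoin G kl O D (X0Bx683.flip G J β)) (hp0 : p0 ∈ X0Bx683.flip G J β)
    (h : β ∩ Ex G O D W V p0 (X0Bx683.flip G J β) = β' ∩ Ex G O D W V p0 (X0Bx683.flip G J β))
    {q : ℂ × ℂ} : LegTip G O D (X0Bx683.flip G J β) W p0 q ↔
      LegTip G O D (X0Bx683.flip G J β') W p0 q := by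
  unfold LegTip
  rw [lead_iff hβ hβ' hJ hp0 h]

theorem ex_decided (hJ : ∀ β, β ⊆ V → IsJoin G kl O D (X0Bx683.flip G J β))
    (hp0 : ∀ β, β ⊆ V → p0 ∈ X0Bx683.flip G J β) :
    Decided V (fun β => Ex G O D W V p0 (X0Bx683.flip G J β))
      (fun β => ∃ q, LegTip G O D (X0Bx683.flip G J β) W p0 q) := by
  intro β β' hβ hβ' h
  have := fun q => legTip_iff (q := q) hβ hβ' (hJ β hβ) (hp0 β hβ) h
  simp only [this]

end explore

/-! ### the legs of a face in a disc -/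

section legs

variable {S : Finset ℂ} {G : Trg ℂ} {kl : Set (ℂ × ℂ)} {D : Set (ℂ × ℂ)}
  {J : Finset (ℂ × ℂ)} {W : Set ℂ} {t : ℂ × ℂ × ℂ} {i j : ZMod 3}

/-- edges of the leg `i` -/
def LE (G : Trg ℂ) (D : Set (ℂ × ℂ)) (J : Finset (ℂ × ℂ)) (W : Set ℂ) (t : ℂ × ℂ × ℂ)
    (i : ZMod 3) : Set (ℂ × ℂ) :=
  {e | ∃ p, LeadsO G (rots t) D J W (st t i) p ∧ (e = p ∨ e = (p.2, p.1))}

theorem le_swap {e : ℂ × ℂ} (h : e ∈ LE G D J W t i) : (e.2, e.1) ∈ LE G D J W t i := by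
  obtain ⟨p, hp, h | h⟩ := h
  · exact ⟨p, hp, Or.inr (by rw [h])⟩
  · exact ⟨p, hp, Or.inl (by rw [h])⟩

/-- standing assumptions: the face `t` is outside `W`, its sides are occupied, no marks outside `W` -/
structure Fce (S : Finset ℂ) (G : Trg ℂ) (kl : Set (ℂ × ℂ)) (D : Set (ℂ × ℂ))
    (J : Finset (ℂ × ℂ)) (W : Set ℂ) (t : ℂ × ℂ × ℂ) : Prop where
  gp : GP (S : Set ℂ)
  tri : G.T = delT S
  join : IsJoin G kl (rots t) D J
  mem : t ∈ delT S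
  out : ∀ i, vt t i ∉ W
  occ : ∀ i, (vt t i, vt t (i + 1)) ∈ J
  nomark : ∀ x ∈ D, x.1 ∈ W ∧ x.2 ∈ W

variable (F : Fce S G kl D J W t)

include F

theorem Fce.sym {a b : ℂ} (ha : a ∉ W) : (a, b) ∈ J ↔ (b, a) ∈ J :=
  F.join.sym a b (fun h => ha (F.nomark _ h).1) (fun h => ha (F.nomark _ h).2)

theorem Fce.stOut (i : ZMod 3) : OutP W (st t i) := ⟨F.out (i + 1), F.out i⟩

theorem Fce.stMem (i : ZMod 3) : st t i ∈ J := (F.sym (F.out i)).1 (F.occ i)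

theorem Fce.posMem {p : ℂ × ℂ} (h : LeadsO G (rots t) D J W (st t i) p) : p ∈ J := by
  have h1 := leadsO_out h
  rcases leads_mem F.join (F.stMem i) (leadsO_leads h) with h' | h'
  · exact h'
  · exact absurd (F.nomark _ h').1 h1.2

theorem Fce.triO (i : ZMod 3) : (vt t i, vt t (i + 1), vt t (i + 2)) ∈ G.T ∧
    (vt t i, vt t (i + 1), vt t (i + 2)) ∈ rots t := by
  refine ⟨?_, rots_vt t i⟩
  rw [F.tri]
  exact vt_tri F.gp F.mem i

/-- the walker which faces `t` is at its end -/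
theorem Fce.term (i : ZMod 3) : Term G (rots t) D J (vt t i, vt t (i + 1)) :=
  Or.inr ⟨F.occ i, _, F.triO i⟩

theorem Fce.noTip (i : ZMod 3) : ¬ ∃ c ∈ W, (vt t i, vt t (i + 1), c) ∈ G.T := by
  rintro ⟨c, hc, h⟩
  have := G.uniq h (F.triO i).1
  subst this
  exact F.out (i + 2) hc

theorem Fce.st_inj (h : st t i = st t j) : i = j := by
  have h1 : vt t i = vt t j := (Prod.ext_iff.1 h).2
  by_contra hij
  have hn : ∀ i : ZMod 3, vt t i ≠ vt t (i + 1) := fun i => G.ne (F.triO i).1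
  have hn2 : ∀ i : ZMod 3, vt t (i + 2) ≠ vt t i := by
    intro i
    have := hn (i + 2)
    rwa [show i + 2 + 1 = i by
      have : (3 : ZMod 3) = 0 := rfl
      linear_combination this] at this
  have key : ∀ i j : ZMod 3, ¬ i = j → j = i + 1 ∨ j = i + 2 := by decide
  rcases key i j hij with rfl | rfl
  · exact hn i h1
  · exact hn2 i h1.symm

/-- reversed walk -/
theorem Fce.rev {p : ℂ × ℂ} (h : LeadsO G (rots t) D J W (st t i) p) :
    Relation.ReflTransGen (Nx G (rots t) D J W) (p.2, p.1) (vt t i, vt t (i + 1)) := by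
  obtain ⟨h0, h⟩ := h
  induction h with
  | refl => exact Relation.ReflTransGen.refl
  | @tail a b h1 h2 ih =>
    have ha : LeadsO G (rots t) D J W (st t i) a := ⟨h0, h1⟩
    have h3 := step_rev F.join (rotInv_rots t) (F.posMem ha) h2.1
    have h4 := leadsO_out ha
    exact Relation.ReflTransGen.head ⟨h3, h4.2, h4.1⟩ ih

/-- a position of the leg is not in front of `t` -/
theorem Fce.notFront {q : ℂ × ℂ} (hq : LegTip G (rots t) D J W (st t i) q) {k : ZMod 3} :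
    ¬ LeadsO G (rots t) D J W (st t i) (vt t k, vt t (k + 1)) := by
  intro h
  have h1 := to_tip hq h
  rcases Relation.ReflTransGen.cases_head h1 with h2 | ⟨m, hm, -⟩
  · rw [← h2] at hq
    exact F.noTip k hq.2
  · exact term_noStep (F.term k) hm.1

/-- **two legs have no common edge** -/
theorem Fce.disj {q' : ℂ × ℂ} (hij : i ≠ j)
    (hq' : LegTip G (rots t) D J W (st t j) q') {p : ℂ × ℂ}
    (hp : LeadsO G (rots t) D J W (st t j) p) : p ∉ LE G D J W t i := by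
  rintro ⟨m, hm, rfl | rfl⟩
  · -- same direction
    have h1 := F.rev hm
    have h2 := F.rev hp
    have tl : ∀ {a b : ℂ × ℂ}, Relation.ReflTransGen (Nx G (rots t) D J W) a b →
        Leads G (rots t) D J a b := by
      intro a b h
      induction h with
      | refl => exact Relation.ReflTransGen.refl
      | tail _ h2 ih => exact ih.tail h2.1
    have h3 := term_unique (F.term i) (F.term j) (tl h1) (tl h2)
    apply hij
    apply F.st_inj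
    unfold st
    rw [Prod.mk.injEq] at h3 ⊢
    exact ⟨h3.2, h3.1⟩
  · -- opposite direction
    have h1 := F.rev hm
    have h2 := to_tip hq' hp
    have key : (vt t i, vt t (i + 1)) = q' := by
      rcases Relation.ReflTransGen.total_of_right_unique nx_uniq h1 h2 with h | h
      · rcases Relation.ReflTransGen.cases_head h with h3 | ⟨x, hx, -⟩
        · exact h3
        · exact absurd hx.1 (term_noStep (F.term i))
      · exact nx_tip hq'.2 h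
    rw [← key] at hq'
    exact F.noTip i hq'.2

/-- an occupied side of a triangle of which one side is on the leg -/
theorem Fce.side {a b c : ℂ}
    (hT : (a, b, c) ∈ G.T) (hO : (a, b, c) ∉ rots t) (ha : a ∉ W) (hb : b ∉ W) (hc : c ∉ W)
    (h : (a, b) ∈ LE G D J W t i) :
    ((b, c) ∈ J → (b, c) ∈ LE G D J W t i) ∧ ((c, a) ∈ J → (c, a) ∈ LE G D J W t i) := by
  have hpar := F.join.par _ _ _ hT
  rw [if_neg hO] at hpar
  obtain ⟨p, hp, h | h⟩ := h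
  · -- the walker enters the triangle
    subst h
    have hpJ := F.posMem hp
    rcases step_prog F.join hpJ with ⟨c', hc', hcO⟩ | ⟨m, hm⟩
    · have := G.uniq hT hc'
      subst this
      exact absurd hcO hO
    · have hm0 := hm
      obtain ⟨c', hc', -, -, h1⟩ := hm
      have := G.uniq hT hc'
      subst this
      simp only [hpJ, if_true] at hpar
      rcases h1 with ⟨h2, rfl⟩ | ⟨h2, h3, rfl⟩
      · have hlm : LeadsO G (rots t) D J W (st t i) (c, b) := ⟨hp.1, hp.2.tail ⟨hm0, hc, hb⟩⟩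
        refine ⟨fun _ => ⟨_, hlm, Or.inr rfl⟩, fun h4 => ?_⟩
        simp only at h2
        rw [if_pos h2, if_pos h4] at hpar
        omega
      · have hlm : LeadsO G (rots t) D J W (st t i) (a, c) := ⟨hp.1, hp.2.tail ⟨hm0, ha, hc⟩⟩
        exact ⟨fun h4 => absurd h4 h3, fun _ => ⟨_, hlm, Or.inr rfl⟩⟩
  · -- the walker leaves the triangle
    obtain ⟨p1, p2⟩ := p
    rw [Prod.mk.injEq] at h
    obtain ⟨rfl, rfl⟩ := h
    have hpJ := F.posMem hp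
    rcases Relation.ReflTransGen.cases_tail hp.2 with h1 | ⟨m, hm, hs⟩
    · -- start
      exfalso
      unfold st at h1
      rw [Prod.mk.injEq] at h1
      have h2 := F.triO i
      rw [← h1.1, ← h1.2] at h2
      have := G.uniq hT h2.1
      rw [← this] at h2
      exact hO h2.2
    · have hlm : LeadsO G (rots t) D J W (st t i) m := ⟨hp.1, hm⟩
      have hmJ := F.posMem hlm
      obtain ⟨⟨x, hx, -, -, h1⟩, -⟩ := hs
      obtain ⟨m1, m2⟩ := m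
      have hab : (a, b) ∈ J := (F.sym ha).2 hpJ
      simp only [hab, if_true] at hpar
      rcases h1 with ⟨h2, h3⟩ | ⟨h2, h4, h3⟩
      · -- new position (x, m2) = (b, a)
        rw [Prod.mk.injEq] at h3
        obtain ⟨rfl, rfl⟩ := h3
        -- triangle (m1, a, b) = (a, b, m1)
        have h5 := G.uniq hT (G.rot hx)
        subst h5
        refine ⟨fun h6 => ?_, fun _ => ⟨_, hlm, Or.inl rfl⟩⟩
        rw [if_pos h6, if_pos hmJ] at hpar
        omega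
      · -- new position (m1, x) = (b, a)
        rw [Prod.mk.injEq] at h3
        obtain ⟨rfl, rfl⟩ := h3
        -- triangle (b, m2, a) = (a, b, m2)
        have h5 := G.uniq hT (G.rot (G.rot hx))
        subst h5
        refine ⟨fun _ => ⟨_, hlm, Or.inl rfl⟩, fun h6 => ?_⟩
        rw [if_pos h6, if_pos hmJ] at hpar
        omega

omit F in
theorem sum_le {x1 x2 x3 y1 y2 y3 : Prop} [Decidable x1] [Decidable x2] [Decidable x3] (hpar : ((if x1 then 1 else 0) + (if x2 then 1 else 0) +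
      (if x3 then 1 else 0) : ℕ) % 2 = 0) (h12 : y1 → x2 → y2) (h13 : y1 → x3 → y3)
    (h21 : y2 → x1 → y1) (h23 : y2 → x3 → y3) (h31 : y3 → x1 → y1) (h32 : y3 → x2 → y2) :
    ((if x1 ∧ ¬ y1 then 1 else 0) + (if x2 ∧ ¬ y2 then 1 else 0) +
      (if x3 ∧ ¬ y3 then 1 else 0) : ZMod 2) = 0 := by
  by_cases hx1 : x1 <;> by_cases hx2 : x2 <;> by_cases hx3 : x3 <;> by_cases hy1 : y1 <;>
    by_cases hy2 : y2 <;> by_cases hy3 : y3 <;> simp_all <;> rfl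

/-- **`J` without the leg is even** -/
theorem Fce.even {q : ℂ × ℂ} (hq : LegTip G (rots t) D J W (st t i) q) {a b c : ℂ}
    (hT : (a, b, c) ∈ G.T) (ha : a ∉ W) (hb : b ∉ W) (hc : c ∉ W) :
    ((if (a, b) ∈ J ∧ (a, b) ∉ LE G D J W t i then 1 else 0) +
      (if (b, c) ∈ J ∧ (b, c) ∉ LE G D J W t i then 1 else 0) +
      (if (c, a) ∈ J ∧ (c, a) ∉ LE G D J W t i then 1 else 0) : ZMod 2) = 0 := by
  by_cases hO : (a, b, c) ∈ rots t
  · -- the face itself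
    have side : ∀ k : ZMod 3, ((vt t k, vt t (k + 1)) ∈ LE G D J W t i ↔ k = i) := by
      intro k
      constructor
      · rintro ⟨p, hp, h | h⟩
        · exact absurd (h ▸ hp) (F.notFront hq)
        · have hp2 : p = st t k := by
            rw [Prod.mk.injEq] at h
            exact Prod.ext h.2.symm h.1.symm
          subst hp2
          rcases Relation.ReflTransGen.cases_tail hp.2 with h1 | ⟨m, -, hs⟩
          · exact F.st_inj h1
          · exact absurd hs.1 (side_pre (rotInv_rots t) (F.triO k).1 (F.triO k).2 m)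
      · rintro rfl
        exact ⟨st t k, ⟨F.stOut k, Relation.ReflTransGen.refl⟩, Or.inr rfl⟩
    obtain ⟨k, hk⟩ : ∃ k : ZMod 3, (a, b, c) = (vt t k, vt t (k + 1), vt t (k + 2)) := by
      unfold rots at hO
      simp only [Set.mem_insert_iff, Set.mem_singleton_iff] at hO
      rcases hO with h | h | h
      · exact ⟨0, h⟩
      · exact ⟨1, h⟩
      · exact ⟨2, h⟩
    simp only [Prod.mk.injEq] at hk
    obtain ⟨rfl, rfl, rfl⟩ := hk
    have e1 : k + 2 = k + 1 + 1 := by ring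
    have e2 : vt t k = vt t (k + 2 + 1) := by
      congr 1
      have : (3 : ZMod 3) = 0 := rfl
      linear_combination -this
    have s1 := side k
    have s2 := side (k + 1)
    have s3 := side (k + 2)
    have o1 := F.occ k
    have o2 := F.occ (k + 1)
    have o3 := F.occ (k + 2)
    rw [← e1] at s2 o2
    rw [← e2] at s3 o3
    simp only [o1, o2, o3, s1, s2, s3, true_and]
    clear s1 s2 s3 o1 o2 o3 e1 e2 side hT hO ha hb hc hq
    revert k i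
    decide
  · have hpar := F.join.par _ _ _ hT
    rw [if_neg hO] at hpar
    have hO2 : (b, c, a) ∉ rots t := fun h => hO (rotInv_rots t _ _ _ (rotInv_rots t _ _ _ h))
    have hO3 : (c, a, b) ∉ rots t := fun h => hO (rotInv_rots t _ _ _ h)
    have s1 := F.side (i := i) hT hO ha hb hc
    have s2 := F.side (i := i) (G.rot hT) hO2 hb hc ha
    have s3 := F.side (i := i) (G.rot (G.rot hT)) hO3 hc ha hb
    exact sum_le hpar (fun h => (s1 h).1) (fun h => (s1 h).2) (fun h => (s2 h).2)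
      (fun h => (s2 h).1) (fun h => (s3 h).1) (fun h => (s3 h).2)

/-- all sites of the leg have the same colour -/
theorem Fce.const {φ : ℂ → ZMod 2} (hφ : ∀ a b, a ∉ W → b ∉ W → JColx54.Adj S a b →
      (((a, b) ∈ J ∧ (a, b) ∉ LE G D J W t i) ↔ φ a ≠ φ b)) {p : ℂ × ℂ}
    (hp : LeadsO G (rots t) D J W (st t i) p) : φ p.1 = φ (vt t i) ∧ φ p.2 = φ (vt t i) := by
  have eq : ∀ {p : ℂ × ℂ}, LeadsO G (rots t) D J W (st t i) p → φ p.1 = φ p.2 := by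
    intro p hp
    have h1 := leadsO_out hp
    obtain ⟨c, hc⟩ := occ_tri F.join (F.posMem hp)
    rw [F.tri] at hc
    by_contra hcon
    have h2 := (hφ p.1 p.2 h1.1 h1.2 (Or.inl ⟨c, hc⟩)).2 hcon
    exact h2.2 ⟨p, hp, Or.inl rfl⟩
  obtain ⟨h0, h⟩ := hp
  induction h with
  | refl =>
    have h1 := eq (p := st t i) ⟨h0, Relation.ReflTransGen.refl⟩
    exact ⟨h1, rfl⟩
  | @tail a b h1 h2 ih =>
    have h3 := eq (p := b) ⟨h0, h1.tail h2⟩
    obtain ⟨⟨c, -, -, -, h4⟩, -⟩ := h2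
    rcases h4 with ⟨-, rfl⟩ | ⟨-, -, rfl⟩
    · exact ⟨h3.trans ih.2, ih.2⟩
    · exact ⟨ih.1, h3.symm.trans ih.1⟩

/-- **a closed chain whose sites (outside `W`) have the colour of the explored leg `i` is not crossed
by the leg `j`** -/
theorem Fce.block {φ : ℂ → ZMod 2} {κ : ZMod 2} (hij : i ≠ j)
    (hφ : ∀ a b, a ∉ W → b ∉ W → JColx54.Adj S a b →
      (a, b) ∈ J → (a, b) ∉ LE G D J W t i → φ a ≠ φ b)
    {q' : ℂ × ℂ} (hq' : LegTip G (rots t) D J W (st t j) q') {c : List ℂ} (hc : Loop S c)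
    (hcol : ∀ s ∈ c, s ∉ W → φ s = κ) : asum (mid (st t j)) c = asum (mid q') c := by
  by_contra hne
  obtain ⟨n, w, hw, w0, wn, hl⟩ := exists_wkO hq'.1
  rw [← w0, ← wn] at hne
  have h0 : ((w 0).2, (w 0).1) ∈ J := by
    rw [w0]
    exact F.occ j
  obtain ⟨k, hk, h1, -, -⟩ := exit_edge_occ F.gp F.tri hc hw h0 hne
  have h2 := hl k hk
  have h3 := leadsO_out h2
  have h4 := F.posMem h2
  obtain ⟨x, hx⟩ := occ_tri F.join h4
  rw [F.tri] at hx
  have hmem : (w k).1 ∈ c ∧ (w k).2 ∈ c := by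
    rcases h1 with h1 | h1
    · exact mem_of_prs h1
    · exact (mem_of_prs h1).symm
  have h5 := hφ (w k).1 (w k).2 h3.1 h3.2 (Or.inl ⟨x, hx⟩) h4 (F.disj hij hq' h2)
  exact h5 ((hcol _ hmem.1 h3.1).trans (hcol _ hmem.2 h3.2).symm)

end legs

/-! ### probability -/

section prob

theorem symmDiff_sub {F X β : Finset ℂ} (hX : X ⊆ F) (hβ : β ⊆ F) : symmDiff β X ⊆ F := by
  intro s hs
  rw [Finset.mem_symmDiff] at hs
  rcases hs with h | h
  · exact hβ h.1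
  · exact hX h.1

/-- gauge change -/
theorem pr_xor {F X : Finset ℂ} (hX : X ⊆ F) (A : Finset ℂ → Prop) :
    pr F (fun β => A (symmDiff β X)) = pr F A := by
  unfold pr
  congr 2
  unfold nb
  apply Finset.card_bij (fun β _ => symmDiff β X)
  · intro β hβ
    rw [mem_fil] at hβ ⊢
    exact ⟨symmDiff_sub hX hβ.1, hβ.2⟩
  · intro β _ β' _ h
    have := congrArg (fun x => symmDiff x X) h
    simpa using this
  · intro β hβ
    rw [mem_fil] at hβ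
    refine ⟨symmDiff β X, ?_, by simp⟩
    rw [mem_fil]
    refine ⟨symmDiff_sub hX hβ.1, ?_⟩
    simpa [symmDiff_assoc] using hβ.2

/-- **circuits of fresh black sites and other (explored, outside) sites around `q`** -/
theorem pr_fresh (hRB : RB) : ∃ C c1 K : ℝ, 0 < C ∧ 0 < c1 ∧ 0 < K ∧
    ∀ (S : Finset ℂ) (q : ℂ) (r d C4 : ℝ), 0 < r → 0 ≤ C4 → ∀ n : ℕ,
    (∀ k ∈ Finset.range n, LDns S q (K * (2 ^ k * r)) d) →
    (∀ k ∈ Finset.range n, Mesh S q (K * (2 ^ k * r)) (2 ^ k * r) C4) → d ≤ c1 * r →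
    ∀ F X : Finset ℂ, F ⊆ S → X ⊆ F →
    pr F (fun β => ∀ k ∈ Finset.range n,
      ¬ ∃ c, CircC S q (2 ^ k * r) (symmDiff β X ∪ (S \ F)) c) ≤
      (1 - Real.exp (-C * (1 + C4))) ^ n := by
  obtain ⟨C, c1, K, hC, hc1, hK, h⟩ := no_circ hRB
  refine ⟨C, c1, K, hC, hc1, hK, fun S q r d C4 hr hC4 n hD hM hd F X hF hX => ?_⟩
  have h1 := h S q r d C4 hr hC4 (Finset.range n) hD hM hd S subset_rfl
    (fun _ _ s hs _ _ => hs)
  rw [Finset.card_range] at h1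
  refine le_trans ?_ h1
  rw [pr_xor hX (fun β => ∀ k ∈ Finset.range n,
      ¬ ∃ c, CircC S q (2 ^ k * r) (β ∪ (S \ F)) c)]
  have hd : Dep S F (fun β => ∀ k ∈ Finset.range n,
      ¬ ∃ c, CircC S q (2 ^ k * r) ((β ∩ F) ∪ (S \ F)) c) := by
    intro β _
    simp only [Finset.inter_assoc, Finset.inter_self]
  have h2 := pr_dep hF hd
  have h3 : pr F (fun β => ∀ k ∈ Finset.range n,
      ¬ ∃ c, CircC S q (2 ^ k * r) ((β ∩ F) ∪ (S \ F)) c) =
      pr F (fun β => ∀ k ∈ Finset.range n,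
      ¬ ∃ c, CircC S q (2 ^ k * r) (β ∪ (S \ F)) c) := by
    apply pr_congr
    intro β hβ
    rw [Finset.inter_eq_left.2 hβ]
  rw [← h3, ← h2]
  apply pr_mono
  intro β hβ h4 k hk
  rintro ⟨c, hc⟩
  refine h4 k hk ⟨c, hc.mono ?_⟩
  intro s hs
  rw [Finset.mem_union, Finset.mem_inter, Finset.mem_sdiff]
  by_cases hsF : s ∈ F
  · exact Or.inl ⟨hs, hsF⟩
  · exact Or.inr ⟨hβ hs, hsF⟩

/-- small triangles -/
theorem tri_small {S : Finset ℂ} {z0 : ℂ} {R1 d : ℝ} (h : LDns S z0 R1 d) {a b c : ℂ}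
    (ht : (a, b, c) ∈ delT S) (ha : ‖a - z0‖ + d ≤ R1) :
    ‖b - a‖ < 2 * d ∧ ‖c - a‖ < 2 * d ∧ ‖c - b‖ < 2 * d := by
  obtain ⟨-, -, -, -, o, h1, h2, h3⟩ := mem_delT.1 ht
  have key : ‖a - o‖ < d := by
    by_contra hcon
    push Not at hcon
    have hd := h.dpos
    have h0 : 0 < ‖a - o‖ := lt_of_lt_of_le hd hcon
    set l : ℝ := d / ‖a - o‖ with hl
    have hl0 : 0 < l := div_pos hd h0
    have hl1 : l ≤ 1 := by rw [hl, div_le_one h0]; exact hcon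
    set z : ℂ := a + (l : ℂ) * (o - a) with hz
    have e1 : ‖z - a‖ = d := by
      have : z - a = (l : ℂ) * (o - a) := by rw [hz]; ring
      rw [this, norm_mul, Complex.norm_real, Real.norm_of_nonneg hl0.le, norm_sub_rev, hl,
        div_mul_cancel₀ _ h0.ne']
    have e2 : ‖z - o‖ = ‖a - o‖ - d := by
      have : z - o = ((1 - l : ℝ) : ℂ) * (a - o) := by rw [hz]; push_cast; ring
      rw [this, norm_mul, Complex.norm_real, Real.norm_of_nonneg (by linarith), hl]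
      field_simp
    obtain ⟨s, hs, hs2⟩ := h.hole z (by
      calc ‖z - z0‖ = ‖(z - a) + (a - z0)‖ := by congr 1; ring
        _ ≤ ‖z - a‖ + ‖a - z0‖ := norm_add_le _ _
        _ ≤ R1 := by linarith)
    have h4 := h3 s hs
    have h5 : ‖s - o‖ ≤ ‖s - z‖ + ‖z - o‖ := by
      calc ‖s - o‖ = ‖(s - z) + (z - o)‖ := by congr 1; ring
        _ ≤ _ := norm_add_le _ _
    linarith
  have tri : ∀ x y : ℂ, ‖x - o‖ < d → ‖y - o‖ < d → ‖x - y‖ < 2 * d := by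
    intro x y hx hy
    calc ‖x - y‖ = ‖(x - o) - (y - o)‖ := by congr 1; ring
      _ ≤ ‖x - o‖ + ‖y - o‖ := norm_sub_le _ _
      _ < 2 * d := by linarith
  exact ⟨tri _ _ (by rw [h1]; exact key) key, tri _ _ (by rw [h2]; exact key) key,
    tri _ _ (by rw [h2]; exact key) (by rw [h1]; exact key)⟩

/-- number of dyadic scales -/
theorem nlog {y : ℝ} (hy : 1 ≤ y) : (2 : ℝ) ^ Nat.log 2 ⌊y⌋₊ ≤ y ∧
    Real.log y - 1 ≤ (Nat.log 2 ⌊y⌋₊ : ℝ) := by
  have h1 : 1 ≤ ⌊y⌋₊ := Nat.le_floor (by simpa using hy)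
  constructor
  · have h2 : 2 ^ Nat.log 2 ⌊y⌋₊ ≤ ⌊y⌋₊ := Nat.pow_log_le_self 2 (by omega)
    calc (2 : ℝ) ^ Nat.log 2 ⌊y⌋₊ = ((2 ^ Nat.log 2 ⌊y⌋₊ : ℕ) : ℝ) := by push_cast; rfl
      _ ≤ (⌊y⌋₊ : ℝ) := by exact_mod_cast h2
      _ ≤ y := Nat.floor_le (by linarith)
  · have h2 : ⌊y⌋₊ < 2 ^ (Nat.log 2 ⌊y⌋₊ + 1) := Nat.lt_pow_succ_log_self (by norm_num) _
    have h3 : y < (2 : ℝ) ^ (Nat.log 2 ⌊y⌋₊ + 1) := by
      have h4 : (⌊y⌋₊ : ℝ) + 1 ≤ (2 : ℝ) ^ (Nat.log 2 ⌊y⌋₊ + 1) := by exact_mod_cast h2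
      linarith [Nat.lt_floor_add_one y]
    have h5 : Real.log y ≤ (Nat.log 2 ⌊y⌋₊ + 1 : ℕ) * Real.log 2 := by
      rw [← Real.log_pow]
      exact Real.log_le_log (by linarith) h3.le
    have h6 : Real.log 2 ≤ 1 := by linarith [Real.log_two_lt_d9]
    have h7 : (0 : ℝ) ≤ ((Nat.log 2 ⌊y⌋₊ + 1 : ℕ) : ℝ) := by positivity
    have h8 : ((Nat.log 2 ⌊y⌋₊ + 1 : ℕ) : ℝ) * Real.log 2 ≤ ((Nat.log 2 ⌊y⌋₊ + 1 : ℕ) : ℝ) := by
      nlinarith
    push_cast at h5 h8 ⊢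
    linarith

/-- numbers: the scales `2 ^ k δ ρ ≤ ρ / 32` -/
theorem scales {p : ℝ} (hp0 : 0 < p) (hp1 : p ≤ 1) {δ : ℝ} (hδ : 0 < δ) (hδ1 : δ ≤ 1) :
    ∃ n : ℕ, (∀ k, k < n → (2 : ℝ) ^ k * δ ≤ 1 / 32) ∧ (1 - p) ^ n ≤ 96 * δ ^ p := by
  by_cases hy : 1 ≤ 1 / (32 * δ)
  · obtain ⟨h1, h2⟩ := nlog hy
    refine ⟨Nat.log 2 ⌊1 / (32 * δ)⌋₊, fun k hk => ?_, ?_⟩
    · have h3 : (2 : ℝ) ^ k ≤ 2 ^ Nat.log 2 ⌊1 / (32 * δ)⌋₊ :=
        pow_le_pow_right₀ (by norm_num) hk.le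
      have h4 : (2 : ℝ) ^ k ≤ 1 / (32 * δ) := h3.trans h1
      rw [le_div_iff₀ (by positivity)] at h4
      linarith
    · set n := Nat.log 2 ⌊1 / (32 * δ)⌋₊
      have h3 : (1 - p) ^ n ≤ Real.exp (-p) ^ n :=
        pow_le_pow_left₀ (by linarith) (by linarith [Real.add_one_le_exp (-p)]) n
      refine h3.trans ?_
      rw [← Real.exp_nat_mul]
      have h4 : Real.log (1 / (32 * δ)) = - Real.log 32 - Real.log δ := by
        rw [one_div, Real.log_inv, Real.log_mul (by norm_num) hδ.ne']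
        ring
      rw [h4] at h2
      have h5 : (n : ℝ) * -p ≤ p * Real.log 32 + p * Real.log δ + p := by nlinarith
      have h6 : p * Real.log 32 + p ≤ Real.log 32 + 1 := by
        have : 0 ≤ Real.log 32 := Real.log_nonneg (by norm_num)
        nlinarith
      calc Real.exp ((n : ℝ) * -p) ≤ Real.exp ((Real.log 32 + 1) + p * Real.log δ) :=
            Real.exp_le_exp.2 (by linarith)
        _ = 32 * Real.exp 1 * δ ^ p := by
            rw [Real.exp_add, Real.exp_add, Real.exp_log (by norm_num),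
              Real.rpow_def_of_pos hδ, mul_comm p]
        _ ≤ 96 * δ ^ p := by
            have h7 := Real.exp_one_lt_d9
            have h8 : 0 ≤ δ ^ p := Real.rpow_nonneg hδ.le _
            nlinarith
  · refine ⟨0, fun k hk => absurd hk (Nat.not_lt_zero k), ?_⟩
    rw [pow_zero]
    push Not at hy
    rw [div_lt_one (by positivity)] at hy
    have h1 : (1 / 32 : ℝ) ≤ δ := by linarith
    have h2 : δ ≤ δ ^ p := by
      conv_lhs => rw [← Real.rpow_one δ]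
      exact Real.rpow_le_rpow_of_exponent_ge hδ hδ1 hp1
    linarith

end prob

/-! ### GAPI -/

section final

variable {S : Finset ℂ} {N : Net ℂ} {z0 : ℂ} {R R1 d b0 C4 : ℝ}

theorem mem_Ann {ρ1 ρ2 : ℝ} {s : ℂ} : s ∈ Ann S z0 ρ1 ρ2 ↔ s ∈ S ∧ ρ1 ≤ ‖s - z0‖ ∧ ‖s - z0‖ < ρ2 := by
  unfold Ann
  rw [Finset.mem_filter]

theorem notMem_W {ρ : ℝ} {a : ℂ} : a ∉ (Dsc z0 ρ)ᶜ ↔ ‖a - z0‖ < ρ := Set.notMem_compl_iff

/-- the standing assumptions hold for all colourings of the annulus -/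
theorem fce (hW : World S N z0 R R1 d b0 C4) {t : ℂ × ℂ × ℂ} (ht : t ∈ delT S) {ρ : ℝ}
    (hρ : ρ ≤ R) (hρ0 : 0 < ρ) (hv : ∀ i, ‖vt t i - z0‖ < ρ / 8) {J : Finset (ℂ × ℂ)}
    (hJ : J ∈ N.tj t) (hocc : ∀ i, (vt t i, vt t (i + 1)) ∈ J) {β : Finset ℂ}
    (hβ : β ⊆ Ann S z0 (ρ / 4) ρ) :
    Fce S N.toTrg N.kl N.exS (X0Bx683.flip N.toTrg J β) (Dsc z0 ρ)ᶜ t := by
  have hβR : ∀ s ∈ β, ‖s - z0‖ < R := fun s hs => lt_of_lt_of_le (mem_Ann.1 (hβ hs)).2.2 hρ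
  have hvb : ∀ i, vt t i ∉ β := fun i h => by
    have h1 := (mem_Ann.1 (hβ h)).2.1
    have h2 := hv i
    linarith
  refine ⟨hW.hnet.gp, hW.hnet.tri, isJoin_of_tj (flip_join hW hβR hJ), ht, fun i => ?_, fun i => ?_,
    ?_⟩
  · rw [notMem_W]
    linarith [hv i]
  · rw [mem_flip, mem_bd]
    refine Or.inl ⟨hocc i, fun h => h.2 ⟨fun h' => absurd h' (hvb _), fun h' => absurd h' (hvb _)⟩⟩
  · rintro x ⟨k, rfl⟩
    have h1 := ex_out hW k
    exact ⟨fun h => h1.1 (lt_of_lt_of_le h hρ), fun h => h1.2 (lt_of_lt_of_le h hρ)⟩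

/-- sites close to the tip of a leg are in the annulus or outside the disc -/
theorem near_tip (hW : World S N z0 R R1 d b0 C4) {ρ : ℝ} (hρ : ρ ≤ R) (hρ0 : 0 < ρ)
    (hd : 64 * d ≤ ρ) (hR1 : 2 * R ≤ R1) {O : Set (ℂ × ℂ × ℂ)} {D : Set (ℂ × ℂ)}
    {J : Finset (ℂ × ℂ)} {p q : ℂ × ℂ}
    (hq : LegTip N.toTrg O D J (Dsc z0 ρ)ᶜ p q) : ρ - ρ / 32 ≤ ‖mid q - z0‖ ∧
      ‖mid q - z0‖ ≤ ρ := by
  obtain ⟨h1, c, hc, hcT⟩ := hq
  have h2 := leadsO_out h1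
  have h3 := notMem_W.1 h2.1
  have h4 := notMem_W.1 h2.2
  have hcρ : ρ ≤ ‖c - z0‖ := not_lt.1 hc
  have hT : (q.1, q.2, c) ∈ delT S := by rw [← hW.hnet.tri]; exact hcT
  have hsm := tri_small hW.dns hT (by linarith)
  have e1 : mid q - z0 = ((q.1 - z0) + (q.2 - z0)) / 2 := by unfold mid; ring
  have e2 : c - z0 = (mid q - z0) + ((c - q.1) + (c - q.2)) / 2 := by unfold mid; ring
  constructor
  · have h5 : ‖((c - q.1) + (c - q.2)) / 2‖ ≤ 2 * d := by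
      rw [norm_div, Complex.norm_two]
      have := norm_add_le (c - q.1) (c - q.2)
      linarith
    have h6 := norm_add_le (mid q - z0) (((c - q.1) + (c - q.2)) / 2)
    rw [← e2] at h6
    linarith
  · rw [e1, norm_div, Complex.norm_two]
    have := norm_add_le (q.1 - z0) (q.2 - z0)
    linarith

theorem norm_tri' (a b c : ℂ) : ‖a - c‖ ≤ ‖a - b‖ + ‖b - c‖ := by
  calc ‖a - c‖ = ‖(a - b) + (b - c)‖ := by congr 1; ring
    _ ≤ _ := norm_add_le _ _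

/-- the colours of the disc: `J` without the leg -/
theorem colours (hW : World S N z0 R R1 d b0 C4) {t : ℂ × ℂ × ℂ} {ρ : ℝ} {i : ZMod 3}
    {H : Finset (ℂ × ℂ)} (Fγ : Fce S N.toTrg N.kl N.exS H (Dsc z0 ρ)ᶜ t) {q0 : ℂ × ℂ}
    (htip : LegTip N.toTrg (rots t) N.exS H (Dsc z0 ρ)ᶜ (st t i) q0) :
    ∃ φ : ℂ → ZMod 2, ∀ a b, a ∉ (Dsc z0 ρ)ᶜ → b ∉ (Dsc z0 ρ)ᶜ → JColx54.Adj S a b →
      (((a, b) ∈ H ∧ (a, b) ∉ LE N.toTrg N.exS H (Dsc z0 ρ)ᶜ t i) ↔ φ a ≠ φ b) := by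
  obtain ⟨φ, hφ⟩ := Dscx877.colour_disc hW.hnet.gp z0 ρ
    (K := {e | e ∈ H ∧ e ∉ LE N.toTrg N.exS H (Dsc z0 ρ)ᶜ t i})
    (by
      intro a b ha _ _
      have h1 := Fγ.sym (a := a) (b := b) (notMem_W.2 ha)
      change ((a, b) ∈ H ∧ (a, b) ∉ LE N.toTrg N.exS H (Dsc z0 ρ)ᶜ t i) ↔
        ((b, a) ∈ H ∧ (b, a) ∉ LE N.toTrg N.exS H (Dsc z0 ρ)ᶜ t i)
      rw [h1]
      constructor
      · rintro ⟨h2, h3⟩; exact ⟨h2, fun h4 => h3 (le_swap h4)⟩
      · rintro ⟨h2, h3⟩; exact ⟨h2, fun h4 => h3 (le_swap h4)⟩)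
    (by
      intro a b c ha hb hc hT
      have hT' : (a, b, c) ∈ N.toTrg.T := by
        have := hW.hnet.tri
        rw [this]; exact hT
      have h1 := Fγ.even htip hT' (notMem_W.2 ha) (notMem_W.2 hb) (notMem_W.2 hc)
      convert h1 using 4 <;> exact Iff.rfl)
  exact ⟨φ, fun a b ha hb hab => hφ a b (notMem_W.1 ha) (notMem_W.1 hb) hab⟩

/-- flip of fresh sites -/
theorem flip_union {G : Trg ℂ} {J : Finset (ℂ × ℂ)} {β γ : Finset ℂ}
    (hdis : ∀ s, s ∈ β → s ∉ γ) {a b : ℂ} (hE : (a, b) ∈ G.E) :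
    (a, b) ∈ X0Bx683.flip G J (β ∪ γ) ↔
      (((a, b) ∈ X0Bx683.flip G J γ ∧ (a ∈ β ↔ b ∈ β)) ∨
        ((a, b) ∉ X0Bx683.flip G J γ ∧ ¬ (a ∈ β ↔ b ∈ β))) := by
  rw [mem_flip, mem_flip, mem_bd, mem_bd, Finset.mem_union, Finset.mem_union]
  have d1 := hdis a
  have d2 := hdis b
  clear hdis
  generalize ((a, b) ∈ J) = pJ
  generalize ((a, b) ∈ G.E) = pE at hE ⊢
  generalize (a ∈ β) = pa at d1 ⊢
  generalize (b ∈ β) = pb at d2 ⊢
  generalize (a ∈ γ) = qa at d1 ⊢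
  generalize (b ∈ γ) = qb at d2 ⊢
  by_cases h1 : pa <;> by_cases h2 : pb <;> by_cases h3 : qa <;> by_cases h4 : qb <;>
    by_cases h5 : pJ <;> simp_all

/-- the colours after the flip of fresh sites -/
theorem col_flip {φ : ℂ → ZMod 2} {β : Finset ℂ} {a b : ℂ} {P : Prop}
    (hx : P ↔ φ a ≠ φ b)
    (h : (P ∧ (a ∈ β ↔ b ∈ β)) ∨ (¬ P ∧ ¬ (a ∈ β ↔ b ∈ β))) :
    (φ a + if a ∈ β then 1 else 0) ≠ φ b + if b ∈ β then 1 else 0 := by
  rcases h with ⟨h1, h2⟩ | ⟨h1, h2⟩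
  · have h3 := hx.1 h1
    simp only [h2]
    intro h4
    exact h3 (add_right_cancel h4)
  · have h3 : φ a = φ b := by
      by_contra hcon
      exact h1 (hx.2 hcon)
    rw [h3]
    intro h4
    have h5 := add_left_cancel h4
    by_cases ha' : a ∈ β <;> by_cases hb' : b ∈ β
    · exact h2 ⟨fun _ => hb', fun _ => ha'⟩
    · rw [if_pos ha', if_neg hb'] at h5; exact one_ne_zero h5
    · rw [if_neg ha', if_pos hb'] at h5; exact zero_ne_one h5
    · exact h2 ⟨fun h => absurd h ha', fun h => absurd h hb'⟩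

theorem z2 : ∀ x y : ZMod 2, x ≠ y → x + 1 = y := by decide

/-- **a circuit around the tip of leg `i` blocks leg `j`** -/
theorem no_circuit (hW : World S N z0 R R1 d b0 C4) {t : ℂ × ℂ × ℂ} {ρ : ℝ} (hρ0 : 0 < ρ)
    (hv : ∀ i, ‖vt t i - z0‖ < ρ / 8) {J : Finset (ℂ × ℂ)} {i j : ZMod 3} (hij : i ≠ j)
    {V β γ E X : Finset ℂ} (hV : ∀ s ∈ S, ρ / 4 ≤ ‖s - z0‖ → ‖s - z0‖ < ρ → s ∈ V)
    (hβ : β ⊆ V \ E) (hγ : γ ⊆ E)
    (Fγ : Fce S N.toTrg N.kl N.exS (X0Bx683.flip N.toTrg J γ) (Dsc z0 ρ)ᶜ t)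
    (F1 : Fce S N.toTrg N.kl N.exS (X0Bx683.flip N.toTrg J (β ∪ γ)) (Dsc z0 ρ)ᶜ t)
    (hlead : ∀ x, LeadsO N.toTrg (rots t) N.exS (X0Bx683.flip N.toTrg J γ) (Dsc z0 ρ)ᶜ (st t i) x ↔
      LeadsO N.toTrg (rots t) N.exS (X0Bx683.flip N.toTrg J (β ∪ γ)) (Dsc z0 ρ)ᶜ (st t i) x)
    (hE : ∀ s ∈ E, ∃ x, LeadsO N.toTrg (rots t) N.exS (X0Bx683.flip N.toTrg J γ) (Dsc z0 ρ)ᶜ
      (st t i) x ∧ (s = x.1 ∨ s = x.2))
    {φ : ℂ → ZMod 2} (hφ : ∀ a b, a ∉ (Dsc z0 ρ)ᶜ → b ∉ (Dsc z0 ρ)ᶜ → JColx54.Adj S a b →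
      (((a, b) ∈ X0Bx683.flip N.toTrg J γ ∧
        (a, b) ∉ LE N.toTrg N.exS (X0Bx683.flip N.toTrg J γ) (Dsc z0 ρ)ᶜ t i) ↔ φ a ≠ φ b))
    (hX : X = (V \ E).filter (fun s => φ s = φ (vt t i))) {q q' : ℂ × ℂ}
    (hq' : LegTip N.toTrg (rots t) N.exS (X0Bx683.flip N.toTrg J (β ∪ γ)) (Dsc z0 ρ)ᶜ
      (st t j) q') {r : ℝ} (hr : r ≤ ρ / 32) (hqr : ‖mid q - mid q'‖ ≤ r)
    (g1 : ρ - ρ / 32 ≤ ‖mid q - z0‖) {c : List ℂ}
    (hc : CircC S (mid q) r (symmDiff β X ∪ (S \ (V \ E))) c) : False := by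
  have hconst : ∀ {x : ℂ × ℂ},
      LeadsO N.toTrg (rots t) N.exS (X0Bx683.flip N.toTrg J γ) (Dsc z0 ρ)ᶜ (st t i) x →
      φ x.1 = φ (vt t i) ∧ φ x.2 = φ (vt t i) := fun hx => Fγ.const hφ hx
  set ψ : ℂ → ZMod 2 := fun s => φ s + if s ∈ β then 1 else 0 with hψ
  have hLE : ∀ e, e ∈ LE N.toTrg N.exS (X0Bx683.flip N.toTrg J (β ∪ γ)) (Dsc z0 ρ)ᶜ t i →
      e ∈ LE N.toTrg N.exS (X0Bx683.flip N.toTrg J γ) (Dsc z0 ρ)ᶜ t i := by
    rintro e ⟨x, hx, he⟩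
    exact ⟨x, (hlead x).2 hx, he⟩
  have hLE' : ∀ e, e ∈ LE N.toTrg N.exS (X0Bx683.flip N.toTrg J γ) (Dsc z0 ρ)ᶜ t i →
      e ∈ LE N.toTrg N.exS (X0Bx683.flip N.toTrg J (β ∪ γ)) (Dsc z0 ρ)ᶜ t i := by
    rintro e ⟨x, hx, he⟩
    exact ⟨x, (hlead x).1 hx, he⟩
  have hdis : ∀ s, s ∈ β → s ∉ γ := fun s hs hs' =>
    (Finset.mem_sdiff.1 (hβ hs)).2 (hγ hs')
  have hcol : ∀ a b, a ∉ (Dsc z0 ρ)ᶜ → b ∉ (Dsc z0 ρ)ᶜ → JColx54.Adj S a b →
      (a, b) ∈ X0Bx683.flip N.toTrg J (β ∪ γ) →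
      (a, b) ∉ LE N.toTrg N.exS (X0Bx683.flip N.toTrg J (β ∪ γ)) (Dsc z0 ρ)ᶜ t i →
      ψ a ≠ ψ b := by
    intro a b ha hb hab hab1 hab2
    have hE1 : (a, b) ∈ N.toTrg.E := by
      rw [mem_E_iff, hW.hnet.tri]
      exact hab
    have hab3 := fun h => hab2 (hLE' (a, b) h)
    have hx := hφ a b ha hb hab
    rw [flip_union hdis hE1] at hab1
    refine col_flip hx ?_
    rcases hab1 with ⟨h1, h2⟩ | ⟨h1, h2⟩
    · exact Or.inl ⟨⟨h1, hab3⟩, h2⟩
    · exact Or.inr ⟨fun h => h1 h.1, h2⟩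
  have hsite : ∀ s ∈ c, s ∉ (Dsc z0 ρ)ᶜ → ψ s = φ (vt t i) := by
    intro s hs hsW
    have hsρ := notMem_W.1 hsW
    have hs1 := hc.col s hs
    have hs2 := hc.up s hs
    have hsV : s ∈ S → s ∈ V := by
      intro hsS
      refine hV s hsS ?_ hsρ
      have h3 := norm_le_sup (s - mid q)
      have h4 := norm_tri' (mid q) s z0
      rw [norm_sub_rev (mid q) s] at h4
      linarith
    simp only [hψ]
    rw [Finset.mem_union, Finset.mem_symmDiff, Finset.mem_sdiff] at hs1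
    rcases hs1 with (⟨h1, h2⟩ | ⟨h1, h2⟩) | ⟨h1, h2⟩
    · have h3 : φ s ≠ φ (vt t i) := fun h => h2 (by
        rw [hX]
        exact Finset.mem_filter.2 ⟨hβ h1, h⟩)
      rw [if_pos h1]
      exact z2 _ _ h3
    · rw [if_neg h2, add_zero]
      rw [hX] at h1
      exact (Finset.mem_filter.1 h1).2
    · have h3 : s ∉ β := fun h => h2 (hβ h)
      rw [if_neg h3, add_zero]
      have h4 : s ∈ E := by
        by_contra h5
        exact h2 (Finset.mem_sdiff.2 ⟨hsV h1, h5⟩)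
      obtain ⟨x, hx, h5 | h5⟩ := hE s h4
      · rw [h5]; exact (hconst hx).1
      · rw [h5]; exact (hconst hx).2
  have hblock := F1.block (φ := ψ) hij hcol hq' hc.loop hsite
  have h1 : asum (mid q') c = 2 * Real.pi := by
    apply hc.wind
    refine (sup_le_norm _).trans ?_
    rw [norm_sub_rev]
    exact hqr
  have h2 : asum (mid (st t j)) c = 0 := by
    apply hc.out
    have h3 := norm_le_sup (mid (st t j) - mid q)
    have h4 : ‖mid (st t j) - z0‖ < ρ / 8 := by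
      have e1 : mid (st t j) - z0 = ((vt t (j + 1) - z0) + (vt t j - z0)) / 2 := by
        unfold mid st; ring
      rw [e1, norm_div, Complex.norm_two]
      have := norm_add_le (vt t (j + 1) - z0) (vt t j - z0)
      have := hv j
      have := hv (j + 1)
      linarith
    have h5 := norm_tri' (mid q) (mid (st t j)) z0
    rw [norm_sub_rev (mid q) (mid (st t j))] at h5
    linarith
  rw [h1, h2] at hblock
  have := Real.pi_pos
  linarith

/-- one pair of legs, given the leg `i` -/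
theorem cond_bound (hW : World S N z0 R R1 d b0 C4) {t : ℂ × ℂ × ℂ} (ht : t ∈ delT S) {ρ δ : ℝ}
    (hρ : ρ ≤ R) (hρ0 : 0 < ρ) (hd64 : 64 * d ≤ ρ) (hR1 : 2 * R ≤ R1) (hδρ : 0 < δ * ρ)
    (hv : ∀ i, ‖vt t i - z0‖ < ρ / 8) {J : Finset (ℂ × ℂ)} (hJ : J ∈ N.tj t)
    (hocc : ∀ i, (vt t i, vt t (i + 1)) ∈ J) {n : ℕ} {b : ℝ}
    (hn : ∀ k, k < n → 2 ^ k * (δ * ρ) ≤ ρ / 32)
    (hfr : ∀ q : ℂ, ‖q - z0‖ ≤ ρ → ∀ F X : Finset ℂ, F ⊆ S → X ⊆ F →
      pr F (fun β => ∀ k ∈ Finset.range n,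
        ¬ ∃ c, CircC S q (2 ^ k * (δ * ρ)) (symmDiff β X ∪ (S \ F)) c) ≤ b)
    {i j : ZMod 3} (hij : i ≠ j) {β0 : Finset ℂ} (hβ0 : β0 ⊆ Ann S z0 (ρ / 4) ρ)
    (hq0 : ∃ q, LegTip N.toTrg (rots t) N.exS (X0Bx683.flip N.toTrg J β0) (Dsc z0 ρ)ᶜ
      (st t i) q) :
    pr (Ann S z0 (ρ / 4) ρ \ Ex N.toTrg (rots t) N.exS (Dsc z0 ρ)ᶜ (Ann S z0 (ρ / 4) ρ) (st t i)
      (X0Bx683.flip N.toTrg J β0))
      (fun β => ∃ q q', LegTip N.toTrg (rots t) N.exS (X0Bx683.flip N.toTrg J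
        (β ∪ (β0 ∩ Ex N.toTrg (rots t) N.exS (Dsc z0 ρ)ᶜ (Ann S z0 (ρ / 4) ρ) (st t i)
          (X0Bx683.flip N.toTrg J β0)))) (Dsc z0 ρ)ᶜ (st t i) q ∧
        LegTip N.toTrg (rots t) N.exS (X0Bx683.flip N.toTrg J
        (β ∪ (β0 ∩ Ex N.toTrg (rots t) N.exS (Dsc z0 ρ)ᶜ (Ann S z0 (ρ / 4) ρ) (st t i)
          (X0Bx683.flip N.toTrg J β0)))) (Dsc z0 ρ)ᶜ (st t j) q' ∧
        ‖mid q - mid q'‖ < δ * ρ) ≤ b := by
  obtain ⟨q0, hq0⟩ := hq0
  have hVm : ∀ s ∈ S, ρ / 4 ≤ ‖s - z0‖ → ‖s - z0‖ < ρ → s ∈ Ann S z0 (ρ / 4) ρ :=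
    fun s h1 h2 h3 => mem_Ann.2 ⟨h1, h2, h3⟩
  have hF : ∀ β, β ⊆ Ann S z0 (ρ / 4) ρ →
      Fce S N.toTrg N.kl N.exS (X0Bx683.flip N.toTrg J β) (Dsc z0 ρ)ᶜ t :=
    fun β hβ => fce hW ht hρ hρ0 hv hJ hocc hβ
  have hVS : Ann S z0 (ρ / 4) ρ ⊆ S := Finset.filter_subset _ _
  generalize Ann S z0 (ρ / 4) ρ = V at *
  have hjn := (hF β0 hβ0).join
  have hst := (hF β0 hβ0).stMem i
  have hEm : ∀ s, s ∈ Ex N.toTrg (rots t) N.exS (Dsc z0 ρ)ᶜ V (st t i)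
      (X0Bx683.flip N.toTrg J β0) → ∃ x, LeadsO N.toTrg (rots t) N.exS
      (X0Bx683.flip N.toTrg J β0) (Dsc z0 ρ)ᶜ (st t i) x ∧ (s = x.1 ∨ s = x.2) :=
    fun s hs => (mem_Ex.1 hs).2
  have hEV : Ex N.toTrg (rots t) N.exS (Dsc z0 ρ)ᶜ V (st t i) (X0Bx683.flip N.toTrg J β0) ⊆ V :=
    Finset.filter_subset _ _
  have hli : ∀ β', β' ⊆ V → β0 ∩ Ex N.toTrg (rots t) N.exS (Dsc z0 ρ)ᶜ V (st t i)
      (X0Bx683.flip N.toTrg J β0) = β' ∩ Ex N.toTrg (rots t) N.exS (Dsc z0 ρ)ᶜ V (st t i)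
      (X0Bx683.flip N.toTrg J β0) → ∀ x,
      (LeadsO N.toTrg (rots t) N.exS (X0Bx683.flip N.toTrg J β0) (Dsc z0 ρ)ᶜ (st t i) x ↔
      LeadsO N.toTrg (rots t) N.exS (X0Bx683.flip N.toTrg J β') (Dsc z0 ρ)ᶜ (st t i) x) :=
    fun β' h1 h2 x => lead_iff hβ0 h1 hjn hst h2
  generalize Ex N.toTrg (rots t) N.exS (Dsc z0 ρ)ᶜ V (st t i) (X0Bx683.flip N.toTrg J β0) = E at *
  have hγV : β0 ∩ E ⊆ V := Finset.inter_subset_left.trans hβ0
  have hγE : β0 ∩ E ⊆ E := Finset.inter_subset_right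
  have hag : ∀ β, β ⊆ V \ E → β ∪ (β0 ∩ E) ⊆ V ∧ β0 ∩ E = (β ∪ (β0 ∩ E)) ∩ E := by
    intro β hβ
    refine ⟨Finset.union_subset (hβ.trans Finset.sdiff_subset) hγV, ?_⟩
    ext s
    rw [Finset.mem_inter, Finset.mem_inter, Finset.mem_union, Finset.mem_inter]
    constructor
    · rintro ⟨h1, h2⟩; exact ⟨Or.inr ⟨h1, h2⟩, h2⟩
    · rintro ⟨h1 | h1, h2⟩
      · exact absurd h2 (Finset.mem_sdiff.1 (hβ h1)).2
      · exact h1
  have hgg : β0 ∩ E = (β0 ∩ E) ∩ E := by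
    rw [Finset.inter_assoc, Finset.inter_self]
  have hleadγ := hli (β0 ∩ E) hγV hgg
  have hlead := fun β hβ => hli (β ∪ (β0 ∩ E)) (hag β hβ).1 (hag β hβ).2
  generalize β0 ∩ E = γ at *
  have Fγ := hF γ hγV
  have htipγ : LegTip N.toTrg (rots t) N.exS (X0Bx683.flip N.toTrg J γ) (Dsc z0 ρ)ᶜ (st t i) q0 :=
    ⟨(hleadγ q0).1 hq0.1, hq0.2⟩
  obtain ⟨φ, hφ⟩ := colours hW Fγ htipγ
  obtain ⟨g1, g2⟩ := near_tip hW hρ hρ0 hd64 hR1 hq0
  refine le_trans (pr_mono ?_) (hfr (mid q0) g2 (V \ E) ((V \ E).filter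
    (fun s => φ s = φ (vt t i))) (Finset.sdiff_subset.trans hVS) (Finset.filter_subset _ _))
  rintro β hβ ⟨q, q', hq, hq', hqq⟩ k hk ⟨c, hc⟩
  have htip : LegTip N.toTrg (rots t) N.exS (X0Bx683.flip N.toTrg J (β ∪ γ)) (Dsc z0 ρ)ᶜ
      (st t i) q0 := ⟨(hlead β hβ q0).1 hq0.1, hq0.2⟩
  have hqe := tip_uniq htip hq
  subst hqe
  have k1 := hn k (Finset.mem_range.1 hk)
  have k2 : (1 : ℝ) ≤ 2 ^ k := one_le_pow₀ (by norm_num)
  refine no_circuit hW hρ0 hv hij hVm hβ hγE Fγ (hF _ (hag β hβ).1)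
    (fun x => (hleadγ x).symm.trans (hlead β hβ x)) ?_ hφ rfl hq' k1 ?_ g1 hc
  · intro s hs
    obtain ⟨x, hx, h⟩ := hEm s hs
    exact ⟨x, (hleadγ x).1 hx, h⟩
  · nlinarith

/-- one pair of legs -/
theorem pair_bound (hW : World S N z0 R R1 d b0 C4) {t : ℂ × ℂ × ℂ} (ht : t ∈ delT S) {ρ δ : ℝ}
    (hρ : ρ ≤ R) (hρ0 : 0 < ρ) (hd64 : 64 * d ≤ ρ) (hR1 : 2 * R ≤ R1) (hδρ : 0 < δ * ρ)
    (hv : ∀ i, ‖vt t i - z0‖ < ρ / 8) {J : Finset (ℂ × ℂ)} (hJ : J ∈ N.tj t)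
    (hocc : ∀ i, (vt t i, vt t (i + 1)) ∈ J) {n : ℕ} {b : ℝ} (hb : 0 ≤ b)
    (hn : ∀ k, k < n → 2 ^ k * (δ * ρ) ≤ ρ / 32)
    (hfr : ∀ q : ℂ, ‖q - z0‖ ≤ ρ → ∀ F X : Finset ℂ, F ⊆ S → X ⊆ F →
      pr F (fun β => ∀ k ∈ Finset.range n,
        ¬ ∃ c, CircC S q (2 ^ k * (δ * ρ)) (symmDiff β X ∪ (S \ F)) c) ≤ b)
    {i j : ZMod 3} (hij : i ≠ j) : pr (Ann S z0 (ρ / 4) ρ) (fun β =>
      (∃ q, LegTip N.toTrg (rots t) N.exS (X0Bx683.flip N.toTrg J β) (Dsc z0 ρ)ᶜ (st t i) q) ∧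
      ∃ q q', LegTip N.toTrg (rots t) N.exS (X0Bx683.flip N.toTrg J β) (Dsc z0 ρ)ᶜ (st t i) q ∧
        LegTip N.toTrg (rots t) N.exS (X0Bx683.flip N.toTrg J β) (Dsc z0 ρ)ᶜ (st t j) q' ∧
        ‖mid q - mid q'‖ < δ * ρ) ≤ b := by
  have hF : ∀ β, β ⊆ Ann S z0 (ρ / 4) ρ →
      Fce S N.toTrg N.kl N.exS (X0Bx683.flip N.toTrg J β) (Dsc z0 ρ)ᶜ t :=
    fun β hβ => fce hW ht hρ hρ0 hv hJ hocc hβ
  have h1 := stop_le' (ex_stop (W := (Dsc z0 ρ)ᶜ) (fun β hβ => (hF β hβ).join)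
      (fun β hβ => (hF β hβ).stMem i))
    (ex_decided (W := (Dsc z0 ρ)ᶜ) (fun β hβ => (hF β hβ).join) (fun β hβ => (hF β hβ).stMem i))
    (B := fun β => ∃ q q',
      LegTip N.toTrg (rots t) N.exS (X0Bx683.flip N.toTrg J β) (Dsc z0 ρ)ᶜ (st t i) q ∧
      LegTip N.toTrg (rots t) N.exS (X0Bx683.flip N.toTrg J β) (Dsc z0 ρ)ᶜ (st t j) q' ∧
      ‖mid q - mid q'‖ < δ * ρ) (b := b)
    (fun β0 hβ0 hq0 => cond_bound hW ht hρ hρ0 hd64 hR1 hδρ hv hJ hocc hn hfr hij hβ0 hq0)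
  refine h1.trans ?_
  have h3 := pr_le_one (V := Ann S z0 (ρ / 4) ρ) (A := fun β =>
    ∃ q, LegTip N.toTrg (rots t) N.exS (X0Bx683.flip N.toTrg J β) (Dsc z0 ρ)ᶜ (st t i) q)
  nlinarith

/-- union over the pairs -/
theorem pairs_union {t : ℂ × ℂ × ℂ} {ρ δ : ℝ} {J : Finset (ℂ × ℂ)} {V : Finset ℂ} {b : ℝ}
    (hb : 0 ≤ b) (h : ∀ i j : ZMod 3, i ≠ j → pr V (fun β =>
      (∃ q, LegTip N.toTrg (rots t) N.exS (X0Bx683.flip N.toTrg J β) (Dsc z0 ρ)ᶜ (st t i) q) ∧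
      ∃ q q', LegTip N.toTrg (rots t) N.exS (X0Bx683.flip N.toTrg J β) (Dsc z0 ρ)ᶜ (st t i) q ∧
        LegTip N.toTrg (rots t) N.exS (X0Bx683.flip N.toTrg J β) (Dsc z0 ρ)ᶜ (st t j) q' ∧
        ‖mid q - mid q'‖ < δ * ρ) ≤ b) :
    pr V (fun β => HI N t z0 ρ (X0Bx683.flip N.toTrg J β) ∧
      ¬ GI N t z0 ρ δ (X0Bx683.flip N.toTrg J β)) ≤ 9 * b := by
  have h0 : pr V (fun β => HI N t z0 ρ (X0Bx683.flip N.toTrg J β) ∧
      ¬ GI N t z0 ρ δ (X0Bx683.flip N.toTrg J β)) ≤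
      pr V (fun β => ∃ x ∈ (Finset.univ : Finset (ZMod 3 × ZMod 3)), x.1 ≠ x.2 ∧
        (∃ q, LegTip N.toTrg (rots t) N.exS (X0Bx683.flip N.toTrg J β) (Dsc z0 ρ)ᶜ
          (st t x.1) q) ∧
        ∃ q q', LegTip N.toTrg (rots t) N.exS (X0Bx683.flip N.toTrg J β) (Dsc z0 ρ)ᶜ
          (st t x.1) q ∧
        LegTip N.toTrg (rots t) N.exS (X0Bx683.flip N.toTrg J β) (Dsc z0 ρ)ᶜ (st t x.2) q' ∧
        ‖mid q - mid q'‖ < δ * ρ) := by
    apply pr_mono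
    rintro β _ ⟨⟨h1, h2⟩, h3⟩
    choose q hq using h2
    have h4 : ¬ ∀ i j, i ≠ j → δ * ρ ≤ ‖mid (q i) - mid (q j)‖ := fun h =>
      h3 ⟨h1, q, hq, h⟩
    push Not at h4
    obtain ⟨i, j, hij, h5⟩ := h4
    exact ⟨(i, j), Finset.mem_univ _, hij, ⟨q i, hq i⟩, q i, q j, hq i, hq j, h5⟩
  refine (h0.trans (pr_exists_le _ _)).trans ?_
  have hcard : (Finset.univ : Finset (ZMod 3 × ZMod 3)).card = 9 := by
    rw [Finset.card_univ, Fintype.card_prod, ZMod.card]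
  have h6 := Finset.sum_le_card_nsmul (Finset.univ : Finset (ZMod 3 × ZMod 3))
    (fun x => pr V (fun β => x.1 ≠ x.2 ∧
        (∃ q, LegTip N.toTrg (rots t) N.exS (X0Bx683.flip N.toTrg J β) (Dsc z0 ρ)ᶜ
          (st t x.1) q) ∧
        ∃ q q', LegTip N.toTrg (rots t) N.exS (X0Bx683.flip N.toTrg J β) (Dsc z0 ρ)ᶜ
          (st t x.1) q ∧
        LegTip N.toTrg (rots t) N.exS (X0Bx683.flip N.toTrg J β) (Dsc z0 ρ)ᶜ (st t x.2) q' ∧
        ‖mid q - mid q'‖ < δ * ρ)) b ?_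
  · rw [hcard, nsmul_eq_mul] at h6
    exact_mod_cast h6
  · rintro ⟨i, j⟩ _
    by_cases hij : i = j
    · refine le_trans (le_of_eq ?_) hb
      rw [← pr_false V]
      apply pr_congr
      intro β _
      simp only [iff_false]
      exact fun hh => hh.1 hij
    · refine le_trans (pr_mono ?_) (h i j hij)
      intro β _ hh
      exact hh.2

/-- **GAPI** -/
theorem gapi (hRB : RB) : GAPI := by
  obtain ⟨C, c1, Kc, hC, hc1, hKc, hfr⟩ := pr_fresh hRB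
  intro C4 hC4
  have hp0 : 0 < Real.exp (-C * (1 + C4)) := Real.exp_pos _
  have hp1 : Real.exp (-C * (1 + C4)) ≤ 1 := Real.exp_le_one_iff.2 (by nlinarith)
  have hfr' := fun S q r d hr n hD hM hd F X => hfr S q r d C4 hr hC4.le n hD hM hd F X
  clear hfr
  generalize Real.exp (-C * (1 + C4)) = p at *
  have hc1' : 0 < 1 / c1 := by positivity
  refine ⟨p, 1 / c1 + Kc + 1000, hp0, by positivity, ?_⟩
  intro S N z0 R R1 d b0 hW hKR t ht ρ δ hρR hv hδ hδ1 hKb hKd J hJ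
  have hρ0 : 0 < ρ := by
    have h1 := hv 0
    have h2 := norm_nonneg (vt t 0 - z0)
    linarith
  have hρ : ρ ≤ R := by linarith
  have hR0 := hW.Rpos
  have hd0 := hW.dns.dpos
  have hδρ : 0 < δ * ρ := by positivity
  have hδρ1 : δ * ρ ≤ ρ := by nlinarith
  have e1 : (1 / c1 + Kc + 1000) * R = 1 / c1 * R + Kc * R + 1000 * R := by ring
  have e2 : (1 / c1 + Kc + 1000) * d = 1 / c1 * d + Kc * d + 1000 * d := by ring
  have e3 : (1 / c1 + Kc + 1000) * b0 = 1 / c1 * b0 + Kc * b0 + 1000 * b0 := by ring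
  have p1 : 0 ≤ 1 / c1 * R := by positivity
  have p2 : 0 ≤ Kc * R := by positivity
  have p3 : 0 ≤ 1 / c1 * d := by positivity
  have p4 : 0 ≤ Kc * d := by positivity
  have hR1 : 2 * R ≤ R1 := by linarith
  have hd64 : 64 * d ≤ ρ := by linarith
  have hdc : d ≤ c1 * (δ * ρ) := by
    have h1 : 1 / c1 * d ≤ δ * ρ := by linarith
    rw [one_div, inv_mul_le_iff₀ hc1] at h1
    exact h1
  have hb : b0 ≤ δ * ρ := by
    rcases le_or_gt b0 0 with h | h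
    · linarith
    · have q1 : 0 ≤ 1 / c1 * b0 := by positivity
      have q2 : 0 ≤ Kc * b0 := by positivity
      linarith
  obtain ⟨n, hn1, hn2⟩ := scales hp0 hp1 hδ hδ1
  have hδp : 0 ≤ δ ^ p := Real.rpow_nonneg hδ.le _
  have hn : ∀ k, k < n → 2 ^ k * (δ * ρ) ≤ ρ / 32 := by
    intro k hk
    have h1 := mul_le_mul_of_nonneg_right (hn1 k hk) hρ0.le
    linarith
  have hge : ∀ k, δ * ρ ≤ 2 ^ k * (δ * ρ) := by
    intro k
    have h2 : (1 : ℝ) ≤ 2 ^ k := one_le_pow₀ (by norm_num)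
    exact le_mul_of_one_le_left hδρ.le h2
  by_cases hocc : ∀ i, (vt t i, vt t (i + 1)) ∈ J
  · have hfin := pairs_union (N := N) (z0 := z0) (ρ := ρ) (δ := δ) (J := J) (t := t)
      (V := Ann S z0 (ρ / 4) ρ) (b := (1 - p) ^ n) (pow_nonneg (by linarith) n)
      (fun i j hij => pair_bound hW ht hρ hρ0 hd64 hR1 hδρ hv hJ hocc
        (pow_nonneg (by linarith) n) hn (fun q hq F X hF hX => by
          refine hfr' S q (δ * ρ) d hδρ n ?_ ?_ hdc F X hF hX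
          · intro k hk
            have k2 := hn k (Finset.mem_range.1 hk)
            refine LDns.shift hW.dns ?_
            have h2 : Kc * (2 ^ k * (δ * ρ)) ≤ Kc * R :=
              mul_le_mul_of_nonneg_left (by linarith) hKc.le
            linarith
          · intro k hk z hz
            have k2 := hn k (Finset.mem_range.1 hk)
            have h2 : Kc * (2 ^ k * (δ * ρ)) ≤ Kc * R :=
              mul_le_mul_of_nonneg_left (by linarith) hKc.le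
            have h4 := norm_tri' z q z0
            have k1 := hge k
            have h5 := hW.mesh z (by linarith) (2 ^ k * (δ * ρ)) (by linarith) (by linarith)
            exact h5 z (by rw [sub_self, norm_zero]; linarith)) hij)
    refine hfin.trans ?_
    have h1 : 0 ≤ 1 / c1 * δ ^ p := by positivity
    have h2 : 0 ≤ Kc * δ ^ p := by positivity
    have e4 : (1 / c1 + Kc + 1000) * δ ^ p = 1 / c1 * δ ^ p + Kc * δ ^ p + 1000 * δ ^ p := by ring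
    linarith
  · -- a side of `t` is not occupied
    have h0 : pr (Ann S z0 (ρ / 4) ρ) (fun β => HI N t z0 ρ (X0Bx683.flip N.toTrg J β) ∧
        ¬ GI N t z0 ρ δ (X0Bx683.flip N.toTrg J β)) = 0 := by
      rw [← pr_false (Ann S z0 (ρ / 4) ρ)]
      apply pr_congr
      intro β hβ
      simp only [iff_false]
      rintro ⟨h1, -⟩
      apply hocc
      intro i
      have h2 := h1.1 i
      rw [mem_flip, mem_bd] at h2
      have hvb : ∀ i, vt t i ∉ β := fun i h => by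
        have h1 := (mem_Ann.1 (hβ h)).2.1
        have h2 := hv i
        linarith
      rcases h2 with h2 | h2
      · exact h2.1
      · exact absurd ⟨fun h' => absurd h' (hvb _), fun h' => absurd h' (hvb _)⟩ h2.1.2
    rw [h0]
    positivity

end final

end Crest.Agent.R143.GapIx877
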