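import Crest.Agent.R143.Crs1_117
import Crest.Agent.R143.Sides_697
import Crest.Agent.R143.Ex_395

/-!
# Row 143 (S0194), leaf RB (box crossings), file 1 (helper54)

* `lk_at` : the triangles around a vertex are linked through the edges at this vertex
* `Box` : four hull marks `a = ex 0`, `b = f` (live, not a mark of the network), `c = ex 1`,
  `d = ex 2`; `A` = the sites joined to the arc `ab` by walls
* `cnt_le` : for every live edge `g` with an end in `A`: the number of joins whose leg from `g` ends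
  at `c` is at most the same number for `f`
* `near_one` : `|F g - 1| ≤ √3 p`, `p = #{leg from f ends at c} / #`
-/

set_option autoImplicit false
set_option linter.all false

noncomputable section

open scoped Classical

namespace Crest.Agent.R143.RB1x54

open Crest.Agent.R143.B0x346 Crest.Agent.R143.DelGx806 Crest.Agent.R143.DelRx806
  Crest.Agent.R143.JColx54 Crest.Agent.R143.JCol2x54 Crest.Agent.R143.JCardx872
  Crest.Agent.R143.JWalkx872 Crest.Agent.R143.Crsx117 Crest.Agent.R143.Ex0x922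

variable {S : Finset ℂ}

/-! ### the triangles around a vertex -/

/-- a property of the neighbours which is constant along `nxt` is constant -/
theorem star_conn (hS : GP (S : Set ℂ)) {G : Trg ℂ} (hG : G.T = delT S) {v : ℂ} {K : ℂ → Prop}
    (hK : ∀ u ∈ nbs S v, nxt S v u ∈ nbs S v → (K u ↔ K (nxt S v u))) {u u' : ℂ}
    (hu : u ∈ nbs S v) (hu' : u' ∈ nbs S v) (h : K u) : K u' := by
  by_cases hv : ∀ a, ¬ hullE S a v
  · obtain ⟨d, w, hR, h0, hall⟩ := ring_exists hS hu hv hG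
    have hm : ∀ i, (v, w i, w (i + 1)) ∈ delT S := fun i => by rw [← hG]; exact hR.mem i
    have hn : ∀ i, w i ∈ nbs S v := fun i => mem_nbs.2 ⟨_, hm i⟩
    have hx : ∀ i, nxt S v (w i) = w (i + 1) := fun i => nxt_eq hS (hm i)
    have hs : ∀ i, K (w i) ↔ K (w (i + 1)) := fun i => by
      have := hK (w i) (hn i) (by rw [hx]; exact hn _)
      rwa [hx] at this
    have hk : ∀ i : ℤ, K (w i) := by
      intro i
      induction i using Int.induction_on with
      | zero => rw [h0]; exact h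
      | succ i ih => exact (hs i).1 ih
      | pred i ih =>
        have := (hs (-(i : ℤ) - 1))
        rw [show -(i : ℤ) - 1 + 1 = -i by ring] at this
        exact this.2 ih
    obtain ⟨c, hc⟩ := mem_nbs.1 hu'
    obtain ⟨i, hi, -⟩ := hall u' c hc
    rw [← hi]; exact hk i
  · push Not at hv
    obtain ⟨z, hz⟩ := hv
    obtain ⟨x0, hx0⟩ := (hull_in_iff_out hS v).1 ⟨z, hz⟩
    -- the value at the last neighbour
    set KL : Prop := ∃ ul ∈ nbs S v, nxt S v ul ∉ nbs S v ∧ K ul with hKL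
    have hend : ∀ x ∈ nbs S v, nxt S v x ∉ nbs S v → hullE S (nxt S v x) v := by
      intro x hx hx'
      have h1 := nxt_spec hx
      have h2 := (g1 S hS).1 _ _ _ ((g1 S hS).1 _ _ _ h1)
      refine ⟨⟨_, h2⟩, fun c hc => hx' (mem_nbs.2 ⟨c, hc⟩)⟩
    have key : ∀ x ∈ nbs S v, (K x ↔ KL) := by
      by_contra hcon
      push Not at hcon
      set O := (nbs S v).filter fun x => ¬ (K x ↔ KL) with hO
      have hne : O.Nonempty := by
        obtain ⟨x, hx, h1⟩ := hcon
        refine ⟨x, Finset.mem_filter.2 ⟨hx, ?_⟩⟩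
        rcases h1 with h1 | h1
        · exact fun h2 => h1.2 (h2.1 h1.1)
        · exact fun h2 => h1.1 (h2.2 h1.2)
      have hnx : ∀ x ∈ O, nxt S v x ∈ O := by
        intro x hx
        rw [hO, Finset.mem_filter] at hx
        have h1 : nxt S v x ∈ nbs S v := by
          by_contra h1
          apply hx.2
          constructor
          · intro h2
            exact ⟨x, hx.1, h1, h2⟩
          · rintro ⟨ul, hul, h2, h3⟩
            have e := hull_end_unique hS (hend _ hul h2) (hend _ hx.1 h1)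
            rwa [← nxt_inj hS hul hx.1 e]
        rw [hO, Finset.mem_filter]
        refine ⟨h1, fun h2 => hx.2 ((hK x hx.1 h1).trans h2)⟩
      have hl : ∀ x ∈ O, 0 < cr (x - v) (nxt S v x - v) := by
        intro x hx
        have h1 := nxt_spec (Finset.mem_filter.1 hx).1
        exact (mem_delT.1 h1).2.2.2.1
      -- a direction outside of the hull
      set e : ℂ := -(Complex.I * (x0 - v)) with he
      have hxv : x0 ≠ v := (hullE.ne hx0).symm
      have he0 : e ≠ 0 := by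
        rw [he]
        exact neg_ne_zero.2 (mul_ne_zero Complex.I_ne_zero (sub_ne_zero.2 hxv))
      have hneg : cr (x0 - v) e < 0 := by
        have := dt_pos (e := x0 - v) (sub_ne_zero.2 hxv)
        unfold dt at this
        rw [he]
        unfold cr
        simp only [Complex.neg_re, Complex.neg_im, Complex.mul_re, Complex.mul_im, Complex.I_re,
          Complex.I_im]
        nlinarith
      obtain ⟨x, hx, h1, h2⟩ := sector hne (f := fun x => x - v) (nx := nxt S v) hnx hl he0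
      have h3 := hl x hx
      have hxm := Finset.mem_filter.1 hx
      have hym := Finset.mem_filter.1 (hnx x hx)
      have m1 : x ∈ S := by
        obtain ⟨c, hc⟩ := mem_nbs.1 hxm.1
        exact (mem_delT.1 hc).2.1
      have m2 : nxt S v x ∈ S := by
        obtain ⟨c, hc⟩ := mem_nbs.1 hym.1
        exact (mem_delT.1 hc).2.1
      have s1 := hull_side hx0 x m1
      have s2 := hull_side hx0 _ m2
      have id1 : cr (x - v) (nxt S v x - v) * cr (x0 - v) e =
          cr e (nxt S v x - v) * cr (x0 - v) (x - v) +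
            cr (x - v) e * cr (x0 - v) (nxt S v x - v) := by
        unfold cr; ring
      have p1 : 0 ≤ cr e (nxt S v x - v) * cr (x0 - v) (x - v) := mul_nonneg h2.le s1
      have p2 : 0 ≤ cr (x - v) e * cr (x0 - v) (nxt S v x - v) := mul_nonneg h1 s2
      have p3 := mul_neg_of_pos_of_neg h3 hneg
      linarith
    exact (key u' hu').2 ((key u hu).1 h)

/-- the triangles around a vertex are linked through the edges at this vertex -/
theorem lk_at (hS : GP (S : Set ℂ)) {N : Net ℂ} (hT : N.T = delT S) {v : ℂ}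
    (hl : ∀ u, (v, u) ∉ N.kl) {a b a' b' : ℂ} (h : (v, a, b) ∈ delT S)
    (h' : (v, a', b') ∈ delT S) : Lk N (v, a, b) (v, a', b') := by
  have ha : a ∈ nbs S v := mem_nbs.2 ⟨_, h⟩
  have ha' : a' ∈ nbs S v := mem_nbs.2 ⟨_, h'⟩
  have := star_conn hS (G := N.toTrg) hT (K := fun u => Lk N (v, a, b) (v, u, nxt S v u))
    (fun u hu hn => by
      have h1 := nxt_spec hu
      have h2 := nxt_spec hn
      have hadj : LAdj N (v, u, nxt S v u) (v, nxt S v u, nxt S v (nxt S v u)) :=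
        ⟨nxt S v u, v, u, nxt S v (nxt S v u), by rw [hT]; exact (g1 S hS).1 _ _ _ ((g1 S hS).1 _ _ _ h1),
          by rw [hT]; exact h2, by simp [rots], by simp [rots], fun h => hl _ (N.klsym _ _ h)⟩
      exact ⟨fun h => h.trans (Lk.of_adj hadj), fun h => h.trans (Lk.of_adj hadj).symm⟩)
    ha ha' (by rw [nxt_eq hS h]; exact Lk.refl _)
  rwa [nxt_eq hS h'] at this


/-! ### networks with a fourth hull edge -/

variable {N : Net ℂ} {n : ℕ} {w : ℤ → ℂ} {i0 i1 i2 i3 : ℤ}

/-- wall which is not the edge `f` -/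
def WallF (S : Finset ℂ) (N : Net ℂ) (f : ℂ × ℂ) (u v : ℂ) : Prop :=
  Adj S u v ∧ (u, v) ∉ N.exS ∧ (v, u) ∉ N.exS ∧ (u, v) ≠ f ∧ (v, u) ≠ f ∧
    ((u, v) ∈ N.kl ∨ hullE S u v ∨ hullE S v u)

theorem WallF.symm {f : ℂ × ℂ} {u v : ℂ} (h : WallF S N f u v) : WallF S N f v u :=
  ⟨h.1.symm, h.2.2.1, h.2.1, h.2.2.2.2.1, h.2.2.2.1, by
    rcases h.2.2.2.2.2 with h | h | h
    · exact Or.inl (N.klsym _ _ h)
    · exact Or.inr (Or.inr h)
    · exact Or.inr (Or.inl h)⟩

/-- the sites joined to `v0` by walls -/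
def cls (S : Finset ℂ) (N : Net ℂ) (f : ℂ × ℂ) (v0 : ℂ) : Set ℂ :=
  {v | Relation.ReflTransGen (WallF S N f) v0 v}

/-- a network with a fourth live hull edge `f = hm w i1` between the marks `0` and `1` -/
structure Box (S : Finset ℂ) (N : Net ℂ) (n : ℕ) (w : ℤ → ℂ) (i0 i1 i2 i3 : ℤ) : Prop where
  net : HNet S N
  m4 : M4 S n w i0 i1 i2 i3
  e0 : N.ex 0 = hm w i0
  e1 : N.ex 1 = hm w i2
  e2 : N.ex 2 = hm w i3
  live : hm w i1 ∉ N.kl
  out : ∀ k, i1 < k → k ≤ i0 + n → w k ∉ cls S N (hm w i1) (w i1)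

namespace Box

variable (B : Box S N n w i0 i1 i2 i3)

/-- the sites at the arc between the marks `0` and `f` -/
def A (_B : Box S N n w i0 i1 i2 i3) : Set ℂ := cls S N (hm w i1) (w i1)

theorem z3 (k : ZMod 3) : k = 0 ∨ k = 1 ∨ k = 2 := by revert k; decide

include B

theorem exS_iff {x : ℂ × ℂ} : x ∈ N.exS ↔ x = hm w i0 ∨ x = hm w i2 ∨ x = hm w i3 := by
  constructor
  · rintro ⟨k, rfl⟩
    rcases z3 k with rfl | rfl | rfl
    · exact Or.inl B.e0
    · exact Or.inr (Or.inl B.e1)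
    · exact Or.inr (Or.inr B.e2)
  · rintro (rfl | rfl | rfl)
    · exact ⟨0, B.e0⟩
    · exact ⟨1, B.e1⟩
    · exact ⟨2, B.e2⟩

theorem exS_union : N.exS ∪ {hm w i1} = D4 w i0 i1 i2 i3 := by
  ext x
  rw [Set.mem_union, B.exS_iff, Set.mem_singleton_iff]
  unfold D4
  simp only [Set.mem_insert_iff, Set.mem_singleton_iff]
  tauto

theorem f_exS : hm w i1 ∉ N.exS := by
  have h1 := B.m4.h01
  have h2 := B.m4.h12
  have h3 := B.m4.h23
  have h4 := B.m4.h30
  rw [B.exS_iff]
  rintro (h | h | h)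
  · exact hm_ne B.m4.cyc h1 (by linarith) h.symm
  · exact hm_ne B.m4.cyc h2 (by linarith) h
  · exact hm_ne B.m4.cyc (by linarith) (by linarith) h

theorem hullf : hullE S (w i1) (w (i1 + 1)) := B.m4.cyc.edge i1

theorem asym {a b : ℂ} (h : hullE S a b) : (b, a) ∉ N.exS ∧ (b, a) ≠ hm w i1 := by
  have h0 : ∀ i, (b, a) ≠ hm w i := by
    intro i h'
    have e1 : b = w i := congrArg Prod.fst h'
    have e2 : a = w (i + 1) := congrArg Prod.snd h'
    have h3 := B.m4.cyc.edge i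
    rw [← e1, ← e2] at h3
    obtain ⟨⟨c, hc⟩, -⟩ := h3
    exact h.2 c hc
  exact ⟨fun h' => by
    rcases B.exS_iff.1 h' with h' | h' | h'
    · exact h0 _ h'
    · exact h0 _ h'
    · exact h0 _ h', h0 _⟩

/-- a hull edge which is not a mark and not `f` is a wall -/
theorem wall_hull {a b : ℂ} (h : hullE S a b) (h1 : (a, b) ∉ D4 w i0 i1 i2 i3) :
    WallF S N (hm w i1) a b := by
  rw [← B.exS_union] at h1
  have h2 := B.asym h
  exact ⟨Or.inl h.1, fun h' => h1 (Or.inl h'), h2.1, fun h' => h1 (Or.inr h'), h2.2,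
    Or.inr (Or.inl h)⟩

theorem ex_kl {x : ℂ × ℂ} (h : x ∈ N.exS) : x ∉ N.kl := by
  obtain ⟨k, rfl⟩ := h
  exact B.net.live k

/-- a killed edge is a wall -/
theorem wall_kill {a b : ℂ} (h : Adj S a b) (h1 : (a, b) ∈ N.kl) : WallF S N (hm w i1) a b :=
  ⟨h, fun h' => B.ex_kl h' h1, fun h' => B.ex_kl h' (N.klsym _ _ h1),
    fun h' => B.live (h' ▸ h1), fun h' => B.live (h' ▸ N.klsym _ _ h1), Or.inl h1⟩

theorem wall_iff {u v : ℂ} (h : WallF S N (hm w i1) u v) : u ∈ B.A ↔ v ∈ B.A :=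
  ⟨fun h' => Relation.ReflTransGen.tail h' h, fun h' => Relation.ReflTransGen.tail h' h.symm⟩

theorem mem_A1 : w i1 ∈ B.A := Relation.ReflTransGen.refl

/-- the arc `(i0, i1]` is in `A` -/
theorem arc_A {k : ℤ} (h1 : i0 < k) (h2 : k ≤ i1) : w k ∈ B.A := by
  have q1 := B.m4.h01
  have q2 := B.m4.h12
  have q3 := B.m4.h23
  have q4 := B.m4.h30
  obtain ⟨m, hm'⟩ := Int.le.dest h2
  induction m generalizing k with
  | zero =>
    have : k = i1 := by push_cast at hm'; linarith
    rw [this]; exact B.mem_A1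
  | succ m ih =>
    have hk : k < i1 := by push_cast at hm'; linarith [Nat.cast_nonneg (α := ℤ) m]
    have h3 := ih (k := k + 1) (by linarith) (by linarith) (by push_cast at hm' ⊢; linarith)
    have h4 : WallF S N (hm w i1) (w k) (w (k + 1)) :=
      B.wall_hull (B.m4.cyc.edge k) (B.m4.not_mem (by linarith) (by linarith) (by linarith)
        (by linarith) (by linarith) (by linarith))
    exact (B.wall_iff h4).2 h3

/-- the kill set with all the edges off `A` -/
def netA : Net ℂ where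
  toTrg := N.toTrg
  kl := {p | p.1 ∉ B.A ∧ p.2 ∉ B.A}
  klsym := fun a b h => ⟨h.2, h.1⟩
  ex := N.ex

/-- all the triangles with a vertex in `A` are linked through edges which meet `A` -/
theorem lk_A {v a b c : ℂ} (hv : v ∈ B.A) (h : (v, a, b) ∈ delT S)
    (hf : (w i1, w (i1 + 1), c) ∈ delT S) : Lk B.netA (v, a, b) (w i1, w (i1 + 1), c) := by
  have hS := B.net.gp
  have hT : B.netA.T = delT S := B.net.tri
  have hl : ∀ v ∈ B.A, ∀ u, (v, u) ∉ B.netA.kl := fun v hv u h => h.1 hv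
  have hv' : Relation.ReflTransGen (WallF S N (hm w i1)) (w i1) v := hv
  induction hv' generalizing a b with
  | refl => exact lk_at hS hT (hl _ B.mem_A1) h hf
  | @tail x y hx hxy ih =>
    have hxA : x ∈ B.A := hx
    rcases hxy.1 with ⟨e, he⟩ | ⟨e, he⟩
    · -- `(x, y, e)`
      have h1 := ih hxA he
      have h2 : (y, e, x) ∈ delT S := delT_rot hS he
      have h3 := lk_at hS hT (hl _ hv) h h2
      exact (h3.trans (Lk.of_rots (rots_symm (by simp [rots])))).trans h1
    · -- `(y, x, e)`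
      have h2 : (x, e, y) ∈ delT S := delT_rot hS he
      have h1 := ih hxA h2
      have h3 := lk_at hS hT (hl _ hv) h he
      exact (h3.trans (Lk.of_rots (by simp [rots]))).trans h1

/-- **the dual path** from the triangle `t` to the triangle of `f` through edges which meet `A` -/
theorem exists_K {a b c : ℂ} (ht : (a, b, c) ∈ delT S) (hA : a ∈ B.A ∨ b ∈ B.A) {e : ℂ}
    (hf : (w i1, w (i1 + 1), e) ∈ delT S) :
    ∃ K, IsJoin N.toTrg {p | p.1 ∉ B.A ∧ p.2 ∉ B.A}
      (symmDiff (rots (a, b, c)) (rots (w i1, w (i1 + 1), e))) ∅ K := by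
  have hS := B.net.gp
  have h : Lk B.netA (a, b, c) (w i1, w (i1 + 1), e) := by
    rcases hA with hA | hA
    · exact B.lk_A hA ht hf
    · exact (Lk.of_rots (by simp [rots])).trans (B.lk_A hA (delT_rot hS ht) hf)
  exact Exx395.chain_isJoin h

/-- the killed edges off `A` -/
def klx : Set (ℂ × ℂ) := {p | p ∈ N.kl ∧ p.1 ∉ B.A ∧ p.2 ∉ B.A}

theorem klx_symm (a b : ℂ) (h : (a, b) ∈ B.klx) : (b, a) ∈ B.klx :=
  ⟨N.klsym _ _ h.1, h.2.2, h.2.1⟩

theorem D4_hull {a b : ℂ} (h : (a, b) ∈ D4 w i0 i1 i2 i3) : hullE S a b := B.m4.hull h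

end Box

theorem isJoin_mono {V : Type} {G : Trg V} {kl kl' : Set (V × V)} {O : Set (V × V × V)}
    {D : Set (V × V)} {J : Finset (V × V)} (h : IsJoin G kl O D J) (hk : kl' ⊆ kl) :
    IsJoin G kl' O D J :=
  ⟨h.sub, h.sym, h.mark, h.bdr, fun a b h1 => h.kill a b (hk h1), h.par⟩

/-- the setting: the live edge `{a, b}` with an end in `A`, the dual path `K` -/
structure Edg (B : Box S N n w i0 i1 i2 i3) (a b c e : ℂ) (K : Finset (ℂ × ℂ)) : Prop where
  tri : (a, b, c) ∈ delT S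
  mem : a ∈ B.A ∨ b ∈ B.A
  kl : (a, b) ∉ N.kl
  m1 : (a, b) ∉ N.exS
  m2 : (b, a) ∉ N.exS
  trf : (w i1, w (i1 + 1), e) ∈ delT S
  path : IsJoin N.toTrg {p | p.1 ∉ B.A ∧ p.2 ∉ B.A}
      (symmDiff (rots (a, b, c)) (rots (w i1, w (i1 + 1), e))) ∅ K

namespace Edg

variable {B : Box S N n w i0 i1 i2 i3} {a b c e : ℂ} {K : Finset (ℂ × ℂ)}

/-- the join with the four hull marks -/
def hat (_E : Edg B a b c e K) (J : Finset (ℂ × ℂ)) : Finset (ℂ × ℂ) :=
  symmDiff {(w i1, w (i1 + 1))} (symmDiff K J)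

variable (E : Edg B a b c e K)

include E

theorem hat_isJoin {J : Finset (ℂ × ℂ)} (hJ : J ∈ N.tj (a, b, c)) :
    IsJoin N.toTrg B.klx ∅ (D4 w i0 i1 i2 i3) (E.hat J) := by
  have hT := B.net.tri
  have hJ := mem_joins.1 hJ
  have h1 := isJoin_mono (kl' := B.klx) hJ fun x hx => hx.1
  have h2 := isJoin_mono (kl' := B.klx) E.path fun x hx => hx.2
  have h3 := xor_isJoin h2 (D := N.exS) (fun x hx => by
    obtain ⟨k, rfl⟩ := hx
    exact (E.path.bdr _ _ (by rw [hT]; exact (B.net.hex k).2) (by simp)).1) h1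
  rw [symmDiff_symmDiff_cancel_left] at h3
  have h4 := Exx395.add_mark (G := N.toTrg) (kl := B.klx) (D := N.exS)
    (by rw [hT]; exact E.trf) (by rw [hT]; exact B.hullf.2) B.f_exS h3
  rw [symmDiff_self] at h4
  rw [← B.exS_union]
  exact h4

theorem f_mem {u v : ℂ} (h : (u, v) = (w i1, w (i1 + 1))) : u ∈ B.A := by
  rw [Prod.mk.injEq] at h
  rw [h.1]; exact B.mem_A1

/-- off `A` nothing changes -/
theorem hat_off {J : Finset (ℂ × ℂ)} {u v : ℂ} (hu : u ∉ B.A) (hv : v ∉ B.A) :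
    (u, v) ∈ E.hat J ↔ (u, v) ∈ J := by
  have h1 : (u, v) ∉ K := (E.path.kill u v ⟨hu, hv⟩ (by simp) (by simp)).1
  have h2 : (u, v) ≠ (w i1, w (i1 + 1)) := fun h => hu (E.f_mem h)
  unfold hat
  simp only [Finset.mem_symmDiff, Finset.mem_singleton]
  tauto

/-- at the walls the join does not matter -/
theorem hat_wall {J : Finset (ℂ × ℂ)} (hJ : J ∈ N.tj (a, b, c)) {u v : ℂ}
    (h : WallF S N (hm w i1) u v) :
    ((u, v) ∈ E.hat J ↔ (u, v) ∈ symmDiff {(w i1, w (i1 + 1))} K) := by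
  have hT := B.net.tri
  have hJ := mem_joins.1 hJ
  have h1 : (u, v) ∉ J := by
    rcases h.2.2.2.2.2 with h3 | h3 | h3
    · exact (hJ.kill u v h3 h.2.1 h.2.2.1).1
    · exact (hJ.bdr u v (by rw [hT]; exact h3.2) h.2.1).1
    · exact (hJ.bdr v u (by rw [hT]; exact h3.2) h.2.2.1).2
  unfold hat
  simp only [Finset.mem_symmDiff, Finset.mem_singleton]
  tauto

/-- the colouring -/
theorem exists_chi {J : Finset (ℂ × ℂ)} (hJ : J ∈ N.tj (a, b, c)) :
    ∃ χ : ℂ → Bool, Bd S (E.hat J) χ ∧ χ (w i3) = false := by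
  obtain ⟨χ, hχ⟩ := join_col B.net.gp B.net.tri B.m4.hullM (E.hat_isJoin hJ)
  rcases hv : χ (w i3) with _ | _
  · exact ⟨χ, hχ, hv⟩
  · refine ⟨fun s => !χ s, fun a b hab => ?_, by simp [hv]⟩
    rw [← hχ a b hab]
    dsimp only
    generalize χ a = p, χ b = q
    revert p q
    decide

/-- the colouring of the join -/
def chi {J : Finset (ℂ × ℂ)} (hJ : J ∈ N.tj (a, b, c)) : ℂ → Bool := (E.exists_chi hJ).choose

theorem chi_bd {J : Finset (ℂ × ℂ)} (hJ : J ∈ N.tj (a, b, c)) : Bd S (E.hat J) (E.chi hJ) :=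
  (E.exists_chi hJ).choose_spec.1

theorem chi_3 {J : Finset (ℂ × ℂ)} (hJ : J ∈ N.tj (a, b, c)) : E.chi hJ (w i3) = false :=
  (E.exists_chi hJ).choose_spec.2

theorem chi_col {J : Finset (ℂ × ℂ)} (hJ : J ∈ N.tj (a, b, c)) :
    IsCol S B.klx (D4 w i0 i1 i2 i3) (E.chi hJ) :=
  isCol_of_join B.net.tri (fun _ _ => B.D4_hull) (E.hat_isJoin hJ) (E.chi_bd hJ)

/-- the new colouring: constant on `A` -/
def sig {J : Finset (ℂ × ℂ)} (hJ : J ∈ N.tj (a, b, c)) (v : ℂ) : Bool :=
  if v ∈ B.A then false else E.chi hJ v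

theorem sig_A {J : Finset (ℂ × ℂ)} (hJ : J ∈ N.tj (a, b, c)) {v : ℂ} (h : v ∈ B.A) :
    E.sig hJ v = false := by unfold sig; rw [if_pos h]

theorem sig_off {J : Finset (ℂ × ℂ)} (hJ : J ∈ N.tj (a, b, c)) {v : ℂ} (h : v ∉ B.A) :
    E.sig hJ v = E.chi hJ v := by unfold sig; rw [if_neg h]

theorem sig_3 {J : Finset (ℂ × ℂ)} (hJ : J ∈ N.tj (a, b, c)) : E.sig hJ (w i3) = false := by
  unfold sig
  split_ifs
  · rfl
  · exact E.chi_3 hJ

theorem sig_col {J : Finset (ℂ × ℂ)} (hJ : J ∈ N.tj (a, b, c)) :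
    IsCol S N.kl (D4 w i0 i1 i2 i3) (E.sig hJ) := by
  have hc := E.chi_col hJ
  have q0 := B.m4.h01
  have q1 := B.m4.h12
  have q2 := B.m4.h23
  have q3 := B.m4.h30
  have hcols := B.m4.cols hc
  have h3 := E.chi_3 hJ
  have o2 : w i2 ∉ B.A := B.out _ q1 (by linarith)
  have o2' : w (i2 + 1) ∉ B.A := B.out _ (by linarith) (by linarith)
  have o3 : w i3 ∉ B.A := B.out _ (by linarith) (by linarith)
  have o3' : w (i3 + 1) ∉ B.A := B.out _ (by linarith) (by linarith)
  have o1' : w (i1 + 1) ∉ B.A := B.out _ (by linarith) (by linarith)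
  have o0 : w i0 ∉ B.A := by
    have := B.out (i0 + n) (by linarith) le_rfl
    rwa [B.m4.cyc.per] at this
  have i0' : w (i0 + 1) ∈ B.A := B.arc_A (by linarith) (by linarith)
  have i1' : w i1 ∈ B.A := B.mem_A1
  obtain ⟨c0, c1, c2, c3, c4, c5, c6⟩ := hcols
  refine ⟨?_, ?_, ?_⟩
  · intro x y h1 h2 h4 h5
    have hW := B.wall_iff (B.wall_kill h1 h2)
    by_cases hx : x ∈ B.A
    · rw [E.sig_A hJ hx, E.sig_A hJ (hW.1 hx)]
    · have hy : y ∉ B.A := fun h => hx (hW.2 h)
      rw [E.sig_off hJ hx, E.sig_off hJ hy]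
      exact hc.kill x y h1 ⟨h2, hx, hy⟩ h4 h5
  · intro x y h1 h2
    have hW := B.wall_iff (B.wall_hull h1 h2)
    by_cases hx : x ∈ B.A
    · rw [E.sig_A hJ hx, E.sig_A hJ (hW.1 hx)]
    · have hy : y ∉ B.A := fun h => hx (hW.2 h)
      rw [E.sig_off hJ hx, E.sig_off hJ hy]
      exact hc.hull x y h1 h2
  · intro x y h
    rcases h with h | h | h | h <;>
      (have e1 := congrArg Prod.fst h; have e2 := congrArg Prod.snd h
       simp only [hm] at e1 e2; rw [e1, e2])
    · rw [E.sig_off hJ o0, E.sig_A hJ i0', c6]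
      intro h
      apply c4
      rw [h, ← c5, h3]
    · rw [E.sig_off hJ o1', E.sig_A hJ i1', c1]
      intro h
      apply c4
      rw [← h, ← c5, h3]
    · rw [E.sig_off hJ o2, E.sig_off hJ o2']
      exact hc.mark _ _ M4.m2
    · rw [E.sig_off hJ o3, E.sig_off hJ o3']
      exact hc.mark _ _ M4.m3

/-- the image join -/
def img {J : Finset (ℂ × ℂ)} (hJ : J ∈ N.tj (a, b, c)) : Finset (ℂ × ℂ) :=
  colJ N.toTrg (D4 w i0 i1 i2 i3) (E.sig hJ)

theorem img_mem {J : Finset (ℂ × ℂ)} (hJ : J ∈ N.tj (a, b, c)) :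
    E.img hJ ∈ N.hj (w i1) (w (i1 + 1)) := by
  unfold Net.hj
  rw [mem_joins]
  have h := colJ_isJoin B.net.gp B.net.tri (fun _ _ => B.D4_hull) N.klsym (E.sig_col hJ)
  rw [← B.exS_union] at h
  unfold img
  rw [← B.exS_union]
  exact h

/-- **injectivity** -/
theorem img_inj {J J' : Finset (ℂ × ℂ)} (hJ : J ∈ N.tj (a, b, c)) (hJ' : J' ∈ N.tj (a, b, c))
    (h : E.img hJ = E.img hJ') : J = J' := by
  have hS := B.net.gp
  have hT := B.net.tri
  have hD : ∀ x y, (x, y) ∈ D4 w i0 i1 i2 i3 → hullE S x y := fun _ _ => B.D4_hull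
  have hb : Bd S (E.img hJ) (E.sig hJ) := bd_colJ hT hD
  have hb' : Bd S (E.img hJ') (E.sig hJ') := bd_colJ hT hD
  have h3S : 3 ≤ S.card := Sidesx697.card3 B.net
  have h3m : w i3 ∈ S := (hullE.mem (B.m4.cyc.edge i3)).1
  have e1 : ∀ s ∈ S, E.sig hJ s = E.sig hJ' s := by
    rcases col_unique hS h3S (σ := E.sig hJ) (τ := E.sig hJ') (fun x y hxy => by
      rw [hb x y hxy, hb' x y hxy, h]) with h1 | h1
    · exact h1
    · exfalso
      have := h1 _ h3m
      rw [E.sig_3 hJ, E.sig_3 hJ'] at this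
      simp at this
  -- the two colourings agree off `A`
  have e2 : ∀ s ∈ S, s ∉ B.A → E.chi hJ s = E.chi hJ' s := by
    intro s hs hA
    have := e1 s hs
    rwa [E.sig_off hJ hA, E.sig_off hJ' hA] at this
  have k1 : ∀ {J : Finset (ℂ × ℂ)} (hJ : J ∈ N.tj (a, b, c)), E.chi hJ (w i1) = false := by
    intro J hJ
    have := (B.m4.cols (E.chi_col hJ)).2.2.2.2.2.1
    rw [← this]; exact E.chi_3 hJ
  have e3 : ∀ s, s ∈ B.A → E.chi hJ s = E.chi hJ' s := by
    intro s hs
    have hs' : Relation.ReflTransGen (WallF S N (hm w i1)) (w i1) s := hs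
    induction hs' with
    | refl => rw [k1 hJ, k1 hJ']
    | @tail x y hx hxy ih =>
      have ih := ih hx
      have a1 := E.chi_bd hJ x y hxy.1
      have a2 := E.chi_bd hJ' x y hxy.1
      rw [E.hat_wall hJ hxy, E.hat_wall hJ hxy.symm, ← E.hat_wall hJ' hxy,
        ← E.hat_wall hJ' hxy.symm, ← a2, ih] at a1
      revert a1
      generalize E.chi hJ' x = p, E.chi hJ y = q, E.chi hJ' y = r
      revert p q r
      decide
  have e4 : ∀ s ∈ S, E.chi hJ s = E.chi hJ' s := by
    intro s hs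
    by_cases hA : s ∈ B.A
    · exact e3 s hA
    · exact e2 s hs hA
  have e5 : E.hat J = E.hat J' := by
    rw [eq_colJ hT B.m4.hullM (E.hat_isJoin hJ) (E.chi_bd hJ),
      eq_colJ hT B.m4.hullM (E.hat_isJoin hJ') (E.chi_bd hJ')]
    exact colJ_congr hT e4
  unfold hat at e5
  have e6 := symmDiff_right_injective _ (symmDiff_right_injective _ e5)
  exact e6

/-- a hull mark is not `{a, b}` -/
theorem ne_ex {k : ZMod 3} : N.ex k ≠ (a, b) ∧ N.ex k ≠ (b, a) :=
  ⟨fun h => E.m1 ⟨k, h⟩, fun h => E.m2 ⟨k, h⟩⟩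

/-- **crossing**: `J` is a join with a half edge `g = (a, b)` or `(b, a)` whose leg ends at the mark
`1`; `J'` is the join with the odd triangle -/
theorem cross {J J' : Finset (ℂ × ℂ)} (hJ' : J' ∈ N.tj (a, b, c)) {g : ℂ × ℂ}
    (hg : g = (a, b) ∨ g = (b, a)) (hJ : IsJoin N.toTrg N.kl ∅ (N.exS ∪ {g}) J)
    (hJJ : ∀ x, x ≠ (a, b) → (x ∈ J ↔ x ∈ J'))
    (hend : Ends N.toTrg ∅ (N.exS ∪ {g}) J g (N.ex 1)) :
    Ends N.toTrg ∅ (N.exS ∪ {(w i1, w (i1 + 1))}) (E.img hJ') (w i1, w (i1 + 1)) (N.ex 1) := by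
  have hS := B.net.gp
  have hT := B.net.tri
  have q0 := B.m4.h01
  have q1 := B.m4.h12
  have q2 := B.m4.h23
  have q3 := B.m4.h30
  have hsig := E.sig_col hJ'
  have hfe : (w i1, w (i1 + 1)) = hm w i1 := rfl
  rw [hfe, B.exS_union, B.e1]
  rcases cross_ends hS (G := N.toTrg) hT N.klsym B.m4 hsig with h | h
  · exact h
  exfalso
  -- the chain from `w i2` to `w i0`
  have hch := (cross_iff hS (G := N.toTrg) hT N.klsym B.m4 hsig).2.1 h
  have hcols := B.m4.cols hsig
  have hs2 : E.sig hJ' (w i2) ≠ false := by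
    intro h0
    apply hcols.2.2.2.2.1
    rw [h0, E.sig_A hJ' B.mem_A1]
  -- the join without the leg
  have hgD : g ∈ N.exS ∪ {g} := Or.inr rfl
  have hxD : ∀ j, N.ex j ∈ N.exS ∪ {g} := fun j => Or.inl ⟨j, rfl⟩
  have hge : ∀ k, N.ex k ≠ g := by
    intro k
    rcases hg with rfl | rfl
    · exact E.ne_ex.1
    · exact E.ne_ex.2
  have hJ0 := Sidesx697.leg_removed hJ hgD (hxD 1) hend
  set J0 := Sidesx697.off N.toTrg (N.exS ∪ {g}) J g with hJ0d
  have hsub : ∀ x ∈ J0, x ∈ J := fun x hx => (Sidesx697.mem_off.1 hx).1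
  have hM := J1x872.good_of_hnet B.net
  have hD0 : ∀ x y, (x, y) ∈ (N.exS ∪ {g}) \ {g, N.ex 1} ↔ ((x, y) = N.ex 0 ∨ (x, y) = N.ex 2) := by
    intro x y
    simp only [Set.mem_sdiff, Set.mem_union, Set.mem_insert_iff, Set.mem_singleton_iff, not_or]
    constructor
    · rintro ⟨⟨k, hk⟩ | h1, h2, h3⟩
      · rcases Box.z3 k with rfl | rfl | rfl
        · exact Or.inl hk.symm
        · exact absurd hk.symm h3
        · exact Or.inr hk.symm
      · exact absurd h1 h2
    · rintro (h1 | h1)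
      · rw [h1]
        exact ⟨Or.inl ⟨0, rfl⟩, hge 0, fun h' => absurd (hM.inj h') (by decide)⟩
      · rw [h1]
        exact ⟨Or.inl ⟨2, rfl⟩, hge 2, fun h' => absurd (hM.inj h') (by decide)⟩
  have hHM : HullM S ((N.exS ∪ {g}) \ {g, N.ex 1}) := by
    intro x y hxy
    rcases (hD0 x y).1 hxy with h1 | h1
    · have := (B.net.hex 0).2
      rw [← h1] at this
      exact this
    · have := (B.net.hex 2).2
      rw [← h1] at this
      exact this
  obtain ⟨τ, hτ⟩ := join_col hS hT hHM hJ0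
  have hτc := isCol_of_join hT (fun x y hxy => by
    rcases (hD0 x y).1 hxy with h1 | h1
    · have := B.net.hex 0
      rw [← h1] at this
      exact this
    · have := B.net.hex 2
      rw [← h1] at this
      exact this) hJ0 hτ
  -- the chain does not change the colour
  have key : ∀ v, Chn S (E.sig hJ') (w i2) v → τ v = τ (w i2) ∧ v ∉ B.A := by
    intro v hv
    have o2 : w i2 ∉ B.A := B.out _ q1 (by linarith)
    have hv' : Relation.ReflTransGen (fun x y => Adj S x y ∧ E.sig hJ' x = E.sig hJ' y) (w i2) v := hv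
    induction hv' with
    | refl => exact ⟨rfl, o2⟩
    | @tail x y hx hxy ih =>
      obtain ⟨ih1, ih2⟩ := ih hx
      have hxc : E.sig hJ' x ≠ false := by
        rw [← Chn.col hx]; exact hs2
      have hyA : y ∉ B.A := by
        intro hy
        apply hxc
        rw [hxy.2]; exact E.sig_A hJ' hy
      refine ⟨?_, hyA⟩
      rw [← ih1]
      have h1 : E.chi hJ' x = E.chi hJ' y := by
        rw [← E.sig_off hJ' ih2, ← E.sig_off hJ' hyA]; exact hxy.2
      have h2 : ¬ ((x, y) ∈ J' ∨ (y, x) ∈ J') := by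
        intro h3
        apply (E.chi_bd hJ' x y hxy.1).2 _ h1
        rw [E.hat_off ih2 hyA, E.hat_off hyA ih2]
        exact h3
      have hab : ∀ u v, u ∉ B.A → v ∉ B.A → (u, v) ≠ (a, b) := by
        intro u v hu hv h3
        rw [Prod.mk.injEq] at h3
        rcases E.mem with h4 | h4
        · exact hu (h3.1 ▸ h4)
        · exact hv (h3.2 ▸ h4)
      by_contra hne
      rcases (hτ x y hxy.1).1 (fun h => hne h.symm) with h3 | h3
      · exact h2 (Or.inl ((hJJ _ (hab _ _ ih2 hyA)).1 (hsub _ h3)))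
      · exact h2 (Or.inr ((hJJ _ (hab _ _ hyA ih2)).1 (hsub _ h3)))
  have k0 := (key _ hch).1
  -- the hull
  have hull1 : ∀ k, i2 ≤ k → k < i3 → τ (w k) = τ (w (k + 1)) := by
    intro k h1 h2
    refine hτc.hull _ _ (B.m4.cyc.edge k) ?_
    rw [hD0]
    rintro (h3 | h3)
    · rw [B.e0] at h3
      exact hm_ne B.m4.cyc (i := i0) (j := k) (by linarith) (by linarith) h3.symm
    · rw [B.e2] at h3
      exact hm_ne B.m4.cyc (i := k) (j := i3) h2 (by linarith) h3
  have hull2 : ∀ k, i3 + 1 ≤ k → k < i0 + n → τ (w k) = τ (w (k + 1)) := by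
    intro k h1 h2
    refine hτc.hull _ _ (B.m4.cyc.edge k) ?_
    rw [hD0]
    rintro (h3 | h3)
    · rw [B.e0] at h3
      exact hm_ne B.m4.cyc (i := i0) (j := k) (by linarith) (by linarith) h3.symm
    · rw [B.e2] at h3
      exact hm_ne B.m4.cyc (i := i3) (j := k) (by linarith) (by linarith) h3.symm
  have a1 : τ (w i2) = τ (w i3) := w_const q2.le hull1
  have a2 : τ (w (i3 + 1)) = τ (w (i0 + n)) := w_const (by linarith) hull2
  rw [B.m4.cyc.per] at a2
  have a3 : τ (w i3) ≠ τ (w (i3 + 1)) := by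
    apply hτc.mark
    rw [hD0]
    right
    rw [B.e2]; rfl
  apply a3
  rw [a2, k0, a1]

/-- the predicate on the joins with an odd triangle -/
def Good1 (_E : Edg B a b c e K) (J : Finset (ℂ × ℂ)) : Prop :=
  ((a, b) ∉ J ∧ Ends N.toTrg ∅ (N.exS ∪ {(a, b)}) (insert (a, b) J) (a, b) (N.ex 1)) ∨
  ((a, b) ∈ J ∧ Ends N.toTrg ∅ (N.exS ∪ {(b, a)}) (J.erase (a, b)) (b, a) (N.ex 1))

theorem card_good : N.cnt a b 1 + N.cnt b a 1 = ((N.tj (a, b, c)).filter E.Good1).card := by
  have ht : (a, b, c) ∈ N.T := by rw [B.net.tri]; exact E.tri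
  have hk' : (b, a) ∉ N.kl := fun h => E.kl (N.klsym _ _ h)
  have h1 := card_half_left (G := N.toTrg) (kl := N.kl) (D := N.exS) ht E.kl hk' E.m1 E.m2
    (fun J => Ends N.toTrg ∅ (N.exS ∪ {(a, b)}) J (a, b) (N.ex 1))
    (fun J => Ends N.toTrg ∅ (N.exS ∪ {(a, b)}) (insert (a, b) J) (a, b) (N.ex 1))
    (fun _ _ _ => Iff.rfl)
  have h2 := card_half_right (G := N.toTrg) (kl := N.kl) (D := N.exS) ht E.kl hk' E.m1 E.m2
    (fun J => Ends N.toTrg ∅ (N.exS ∪ {(b, a)}) J (b, a) (N.ex 1))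
    (fun J => Ends N.toTrg ∅ (N.exS ∪ {(b, a)}) (J.erase (a, b)) (b, a) (N.ex 1))
    (fun _ _ _ => Iff.rfl)
  unfold Net.cnt Net.hj Net.tj
  rw [h1, h2, ← Finset.card_union_of_disjoint]
  · congr 1
    ext J
    unfold Good1
    simp only [Finset.mem_union, Finset.mem_filter]
    tauto
  · rw [Finset.disjoint_filter]
    intro J _ h3 h4
    exact h3.1 h4.1

/-- **number of joins with a leg from `{a, b}` to the mark `1`** -/
theorem cnt_le : N.cnt a b 1 + N.cnt b a 1 ≤ N.cnt (w i1) (w (i1 + 1)) 1 := by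
  have ht : (a, b, c) ∈ N.T := by rw [B.net.tri]; exact E.tri
  rw [E.card_good]
  unfold Net.cnt
  refine Finset.card_le_card_of_injOn
    (fun J => if h : J ∈ N.tj (a, b, c) then E.img h else ∅) ?_ ?_
  · intro J hJ
    rw [Finset.mem_coe, Finset.mem_filter] at hJ
    dsimp only
    rw [dif_pos hJ.1, Finset.mem_coe, Finset.mem_filter]
    refine ⟨E.img_mem hJ.1, ?_⟩
    rcases hJ.2 with ⟨h1, h2⟩ | ⟨h1, h2⟩
    · refine E.cross hJ.1 (Or.inl rfl) (insert_isJoin ht E.m1 E.m2 (mem_joins.1 hJ.1) h1) ?_ h2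
      intro x hx
      rw [Finset.mem_insert]
      tauto
    · refine E.cross hJ.1 (Or.inr rfl) (erase_isJoin' ht E.m1 E.m2 (mem_joins.1 hJ.1) h1) ?_ h2
      intro x hx
      rw [Finset.mem_erase]
      tauto
  · intro J hJ J' hJ' h
    rw [Finset.mem_coe, Finset.mem_filter] at hJ hJ'
    dsimp only at h
    rw [dif_pos hJ.1, dif_pos hJ'.1] at h
    exact E.img_inj hJ.1 hJ'.1 h

/-- the normalisations are the same -/
theorem card_eq (hne : (N.tj (a, b, c)).Nonempty) :
    (N.hj a b).card + (N.hj b a).card = (N.hj (w i1) (w (i1 + 1))).card := by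
  have hT := B.net.tri
  have ht : (a, b, c) ∈ N.T := by rw [hT]; exact E.tri
  have hk' : (b, a) ∉ N.kl := fun h => E.kl (N.klsym _ _ h)
  have h1 := card_half (G := N.toTrg) (kl := N.kl) (D := N.exS) ht E.kl hk' E.m1 E.m2
  have h2 : (N.tj (a, b, c)).card = (joins N.toTrg N.kl ∅ ∅).card := by
    unfold Net.tj at hne ⊢
    refine card_joins_bdry (fun x y hxy e he => ?_) hne
    obtain ⟨k, hk⟩ := hxy
    have := (B.net.hex k).2
    rw [hk] at this
    rw [hT] at he
    exact this e he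
  have h3 : (N.hj (w i1) (w (i1 + 1))).card = (joins N.toTrg N.kl ∅ ∅).card := by
    have hne' : (N.hj (w i1) (w (i1 + 1))).Nonempty := by
      obtain ⟨J, hJ⟩ := hne
      exact ⟨_, E.img_mem hJ⟩
    unfold Net.hj at hne' ⊢
    refine card_joins_bdry (fun x y hxy e he => ?_) hne'
    have hxy' : (x, y) ∈ D4 w i0 i1 i2 i3 := by
      rw [← B.exS_union]; exact hxy
    rw [hT] at he
    exact (B.D4_hull hxy').2 e he
  unfold Net.hj Net.tj at *
  rw [h1, h2, h3]

end Edg

namespace Box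

/-- the crossing probability -/
def p (N : Net ℂ) (w : ℤ → ℂ) (i1 : ℤ) : ℝ :=
  (N.cnt (w i1) (w (i1 + 1)) 1 : ℝ) / ((N.hj (w i1) (w (i1 + 1))).card : ℝ)

/-- **monotonicity for free** -/
theorem pe_le (B : Box S N n w i0 i1 i2 i3) {a b c : ℂ} (ht : (a, b, c) ∈ delT S)
    (hA : a ∈ B.A ∨ b ∈ B.A) (hk : (a, b) ∉ N.kl) (h1 : (a, b) ∉ N.exS) (h2 : (b, a) ∉ N.exS)
    (hne : (N.tj (a, b, c)).Nonempty) : Sidesx697.Net.pe N a b 1 ≤ p N w i1 := by
  obtain ⟨e, he⟩ := B.hullf.1
  obtain ⟨K, hK⟩ := B.exists_K ht hA he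
  have E : Edg B a b c e K := ⟨ht, hA, hk, h1, h2, he, hK⟩
  have h3 := E.cnt_le
  have h4 := E.card_eq hne
  unfold Sidesx697.Net.pe p
  rw [h4]
  gcongr

/-- the arc from the mark `0` to the mark `1` is the side `0` -/
theorem side0 (B : Box S N n w i0 i1 i2 i3) {v : ℂ} (hv : v ∈ B.A) : Sidesx697.Side N 0 v := by
  have hT := B.net.tri
  have q0 := B.m4.h01
  have q1 := B.m4.h12
  have q2 := B.m4.h23
  have q3 := B.m4.h30
  have hW : ∀ x y, WallF S N (hm w i1) x y → Sidesx697.Wall N x y := by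
    intro x y h
    refine ⟨(mem_E hT).2 h.1, h.2.1, h.2.2.1, ?_⟩
    rcases h.2.2.2.2.2 with h3 | h3 | h3
    · exact Or.inl h3
    · exact Or.inr (Or.inl (by rw [hT]; exact h3.2))
    · exact Or.inr (Or.inr (by rw [hT]; exact h3.2))
  have h1 : ∀ v, v ∈ B.A → Relation.ReflTransGen (Sidesx697.Wall N) (w i1) v := by
    intro v hv
    have hv' : Relation.ReflTransGen (WallF S N (hm w i1)) (w i1) v := hv
    exact Relation.ReflTransGen.mono hW _ _ hv'
  have h2 : Relation.ReflTransGen (Sidesx697.Wall N) (w (i0 + 1)) (w i1) := by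
    have h3 := h1 _ (B.arc_A (k := i0 + 1) (by linarith) (by linarith))
    clear hv h1
    have hsymm : ∀ x y, Sidesx697.Wall N x y → Sidesx697.Wall N y x := by
      rintro x y ⟨g1, g2, g3, g4⟩
      refine ⟨?_, g3, g2, ?_⟩
      · rw [mem_E hT] at g1 ⊢
        exact g1.symm
      · rcases g4 with g4 | g4 | g4
        · exact Or.inl (N.klsym _ _ g4)
        · exact Or.inr (Or.inr g4)
        · exact Or.inr (Or.inl g4)
    have hrev : ∀ x, Relation.ReflTransGen (Sidesx697.Wall N) (w i1) x →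
        Relation.ReflTransGen (Sidesx697.Wall N) x (w i1) := by
      intro x hx
      induction hx with
      | refl => exact Relation.ReflTransGen.refl
      | tail _ h4 ih => exact Relation.ReflTransGen.head (hsymm _ _ h4) ih
    exact hrev _ h3
  unfold Sidesx697.Side
  rw [B.e0]
  exact h2.trans (h1 v hv)

theorem norm_om_sub_one : ‖om - 1‖ = Real.sqrt 3 := by
  have h1 : ‖om - 1‖ ^ 2 = 3 := by
    rw [← Complex.normSq_eq_norm_sq, Complex.normSq_apply]
    have h1 := Oscx63.om_re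
    have h2 : om.re * om.re + om.im * om.im = 1 := by
      rw [← Complex.normSq_apply, Complex.normSq_eq_norm_sq, Oscx63.norm_om]
      norm_num
    simp only [Complex.sub_re, Complex.sub_im, Complex.one_re, Complex.one_im]
    rw [h1] at h2 ⊢
    linarith
  rw [← h1, Real.sqrt_sq (norm_nonneg _)]

theorem omz_zero : omz 0 = 1 := by
  unfold omz
  simp

theorem omz_one : omz 1 = om := by
  unfold omz
  rw [show (1 : ZMod 3).val = 1 from rfl, pow_one]

/-- **values near the arc between the marks `0` and `f`** -/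
theorem near_one (B : Box S N n w i0 i1 i2 i3) {a b c : ℂ} (ht : (a, b, c) ∈ delT S)
    (hA : a ∈ B.A ∨ b ∈ B.A) (hk : (a, b) ∉ N.kl) (hne : (N.tj (a, b, c)).Nonempty) :
    ‖N.F a b - 1‖ ≤ Real.sqrt 3 * p N w i1 := by
  have hp : 0 ≤ p N w i1 := by unfold p; positivity
  have hM := J1x872.good_of_hnet B.net
  have q0 := B.m4.h01
  have q1 := B.m4.h12
  have q2 := B.m4.h23
  have q3 := B.m4.h30
  have nA : ∀ k, i1 < k → k ≤ i0 + n → w k ∉ B.A := B.out
  -- marks
  have hmark : ∀ k : ZMod 3, (N.ex k).1 ∈ B.A ∨ (N.ex k).2 ∈ B.A → k = 0 := by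
    intro k hk
    rcases z3 k with rfl | rfl | rfl
    · rfl
    · rw [B.e1] at hk
      rcases hk with hk | hk
      · exact absurd hk (nA _ (by linarith) (by linarith))
      · exact absurd hk (nA _ (by linarith) (by linarith))
    · rw [B.e2] at hk
      rcases hk with hk | hk
      · exact absurd hk (nA _ (by linarith) (by linarith))
      · exact absurd hk (nA _ (by linarith) (by linarith))
  by_cases hex : ∃ k, N.ex k = (a, b) ∨ N.ex k = (b, a)
  · have hF : N.F a b = omz hex.choose := by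
      unfold Net.F
      rw [dif_pos hex]
    have hc : hex.choose = 0 := by
      apply hmark
      rcases hex.choose_spec with h | h
      · rw [h]; exact hA
      · rw [h]; exact hA.symm
    rw [hF, hc, omz_zero, sub_self, norm_zero]
    positivity
  · push Not at hex
    have h1 : (a, b) ∉ N.exS := by rintro ⟨k, hk'⟩; exact (hex k).1 hk'
    have h2 : (b, a) ∉ N.exS := by rintro ⟨k, hk'⟩; exact (hex k).2 hk'
    have hpe := B.pe_le ht hA hk h1 h2 hne
    have hT := B.net.tri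
    have ht' : (a, b, c) ∈ N.T := by rw [hT]; exact ht
    have hk' : (b, a) ∉ N.kl := fun h => hk (N.klsym _ _ h)
    have hcard := card_half (G := N.toTrg) (kl := N.kl) (D := N.exS) ht' hk hk' h1 h2
    have hpos : 0 < (N.tj (a, b, c)).card := Finset.card_pos.2 hne
    have hne' : (N.hj a b).Nonempty ∨ (N.hj b a).Nonempty := by
      by_contra hcon
      push Not at hcon
      unfold Net.tj at hpos
      unfold Net.hj at hcon
      rw [← hcard, hcon.1, hcon.2] at hpos
      simp at hpos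
    have hside : Sidesx697.Side N 0 a ∨ Sidesx697.Side N 0 b := by
      rcases hA with h | h
      · exact Or.inl (B.side0 h)
      · exact Or.inr (B.side0 h)
    obtain ⟨p0, p1, pF⟩ := Sidesx697.F_side B.net h1 h2 (i := 0) hside hne'
    rw [zero_add] at p0 p1 pF
    rw [pF, omz_zero, omz_one]
    have e1 : ((1 - Sidesx697.Net.pe N a b 1 : ℝ) : ℂ) * 1 + (Sidesx697.Net.pe N a b 1 : ℂ) * om - 1 =
        (Sidesx697.Net.pe N a b 1 : ℂ) * (om - 1) := by
      push_cast
      ring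
    rw [e1, norm_mul, norm_om_sub_one, Complex.norm_real, Real.norm_of_nonneg p0, mul_comm]
    exact mul_le_mul_of_nonneg_left hpe (Real.sqrt_nonneg _)

end Box

end Crest.Agent.R143.RB1x54
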