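import Crest.Agent.R143.XLeg_126
import Crest.Agent.R143.X0C_683
import Crest.Agent.R143.CircP_838
import Crest.Agent.R143.RB1_54
import Crest.Agent.R143.Ex_395
import Crest.Agent.R143.J8_872

/-!
# Row 143 (S0194), block X, leaf GAPO, file 1 (helper54)

* `legs_disj` : two explored legs are disjoint
* `fl_self`, `fl_zero` : the crossing number of a leg mod 2 is the indicator of its edges
* `closer_nb`, `lk_disc` : triangles with a corner in a disc are linked through edges with an end in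
  the disc
* `col_out` : colouring of all sites for the join minus an explored outer leg
* `pr_ext` : adding explored sites to a decreasing event
-/

set_option autoImplicit false
set_option linter.all false

noncomputable section

open scoped Classical

namespace Crest.Agent.R143.GapOx54

open Crest.Agent.R143.B0x346 Crest.Agent.R143.B0Dx346 Crest.Agent.R143.DelGx806
  Crest.Agent.R143.DelRx806 Crest.Agent.R143.ToolWx838 Crest.Agent.R143.Blkx838
  Crest.Agent.R143.Planarx54 Crest.Agent.R143.XGx343 Crest.Agent.R143.X0Bx683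
  Crest.Agent.R143.JCardx872 Crest.Agent.R143.JWalkx872 Crest.Agent.R143.JCol2x54
  Crest.Agent.R143.XLegx126 Crest.Agent.R143.Harx315
open Crest.Agent.R143.JColx54 (Adj adj_tri adj_tri' adj_tri'' delT_rot)

variable {S : Finset ℂ} {G : Trg ℂ} {kl : Set (ℂ × ℂ)} {O : Set (ℂ × ℂ × ℂ)} {D : Set (ℂ × ℂ)}
  {J : Finset (ℂ × ℂ)} {W : Set ℂ} {ι : Type} {st0 : ι → ℂ × ℂ}

/-! ### disjoint legs -/

/-- **two explored legs are disjoint** -/
theorem legs_disj (hJ : IsJoin G kl O D J) (hO : RotInv O) (hs : Starts G O D J st0)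
    (hst : ∀ i c, ((st0 i).2, (st0 i).1, c) ∈ G.T → c ∉ W) {i j : ι} (hij : i ≠ j)
    {q x : ℂ × ℂ} (hq : LegTip G O D J W (st0 i) q) (h1 : Leads G O D J (st0 i) x)
    (h2 : Leads G O D J x q) :
    ¬ LeadsO G O D J W (st0 j) x ∧ ¬ LeadsO G O D J W (st0 j) x.swap := by
  refine ⟨fun hj => hij (Starts.eq hJ hO hs h1 (LeadsO.leads hj)), fun hj => ?_⟩
  rcases Relation.ReflTransGen.cases_head h2 with h3 | ⟨y, hy, hy'⟩
  · rw [h3] at hj
    exact tip_not_seen (hst j) hq.2 rfl hj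
  · have hxJ : x ∈ J := leads_step_mem hJ (hs.occ i) h1 hy
    have h4 : Leads G O D J q.swap x.swap := leads_rev hJ hO hxJ h2
    have hqJ : q.swap ∈ J := by
      rcases Relation.ReflTransGen.cases_tail h2 with h5 | ⟨z, hz, hz'⟩
      · exfalso
        have h7 := Relation.TransGen.head' hy hy'
        rw [h5] at h7
        exact no_cycle hJ hO (hs.occ i) (hs.term i) h1 h7
      · exact step_exit hz'
    rcases back_cmp hJ hO (hs.occ j) hqJ (LeadsO.leads hj) h4 with h5 | h5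
    · exact tip_not_seen (hst j) hq.2 rfl
        (leadsO_of hJ hO (hs.occ j) (hs.term j) hj h5 h4).1
    · have h6 := leads_start hJ hO (hs.term j) hqJ h5
      exact tip_not_seen (G := G) (O := O) (D := D) (J := J) (hst j) hq.2 h6.symm
        ⟨hj.1, Relation.ReflTransGen.refl⟩

/-! ### the crossing number of a leg -/

theorem wk_trans {n : ℕ} {p : ℕ → ℂ × ℂ} (hW : Wk G O D J n p) {k k' : ℕ} (h : k < k')
    (hk : k' ≤ n) : Relation.TransGen (Step G O D J) (p k) (p k') := by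
  induction k' with
  | zero => omega
  | succ m ih =>
    rcases Nat.lt_or_ge k m with h1 | h1
    · exact (ih h1 (by omega)).tail (hW m (by omega))
    · have : k = m := by omega
      subst this
      exact Relation.TransGen.single (hW k (by omega))

theorem wk_inj (hJ : IsJoin G kl O D J) (hO : RotInv O) {n : ℕ} {p : ℕ → ℂ × ℂ}
    (hW : Wk G O D J n p) (h0 : p 0 ∈ J) (ht : Term G O D J (p 0).swap) {k k' : ℕ} (hk : k ≤ n)
    (hk' : k' ≤ n) (h : p k = p k') : k = k' := by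
  have key : ∀ k k', k < k' → k' ≤ n → p k = p k' → False := by
    intro k k' h1 h2 h3
    have h4 := wk_trans hW h1 h2
    rw [← h3] at h4
    exact no_cycle hJ hO h0 ht (hW.leads k (by omega)) h4
  rcases lt_trichotomy k k' with h1 | h1 | h1
  · exact absurd h (key k k' h1 hk')
  · exact h1
  · exact absurd h.symm (key k' k h1 hk)

theorem wk_noswap (hJ : IsJoin G kl O D J) (hO : RotInv O) {n : ℕ} {p : ℕ → ℂ × ℂ}
    (hW : Wk G O D J n p) (h0 : p 0 ∈ J) {k k' : ℕ} (hk : k ≤ n)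
    (hk' : k' ≤ n) : p k' ≠ (p k).swap := by
  have key : ∀ k k', k ≤ k' → k' ≤ n → p k' ≠ (p k).swap := by
    intro k k' h1 h2 h3
    have h4 : Leads G O D J (p k) (p k') := by
      have hW' : Wk G O D J (n - k) (fun m => p (k + m)) := fun m hm => hW (k + m) (by omega)
      have := hW'.leads (k' - k) (by omega)
      rwa [show k + 0 = k by omega, show k + (k' - k) = k' by omega] at this
    rw [h3] at h4
    rcases Relation.ReflTransGen.cases_head h4 with h5 | ⟨y, hy, -⟩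
    · have hne : (p k).1 = (p k).2 := congrArg Prod.fst h5
      rcases Nat.eq_zero_or_pos k with h6 | h6
      · subst h6
        exact occ_ne hJ h0 hne
      · have h7 := hW (k - 1) (by omega)
        rw [show k - 1 + 1 = k by omega] at h7
        exact occ_ne hJ (step_exit h7) hne.symm
    · have h6 : p k ∈ J := leads_step_mem hJ h0 (hW.leads k (by omega)) hy
      exact not_leads_swap hJ hO h6 h4
  rcases le_total k k' with h1 | h1
  · exact key k k' h1 hk'
  · intro h
    exact key k' k h1 hk (by rw [h, Prod.swap_swap])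

/-- the edges of the leg are crossed once -/
theorem fl_self (hJ : IsJoin G kl O D J) (hO : RotInv O) {n : ℕ} {p : ℕ → ℂ × ℂ}
    (hW : Wk G O D J n p) (h0 : p 0 ∈ J) (ht : Term G O D J (p 0).swap) {k : ℕ} (hk : k ≤ n) :
    Fl n p (p k).1 (p k).2 = -1 := by
  unfold Fl
  have h1 : vis n p ((p k).2, (p k).1) = 0 :=
    vis_eq_zero fun k' hk' => wk_noswap hJ hO hW h0 hk hk'
  have h2 : vis n p ((p k).1, (p k).2) = 1 := by
    unfold vis
    rw [Finset.sum_eq_single k]
    · rw [if_pos rfl]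
    · intro k' hk' hne
      rw [Finset.mem_range] at hk'
      rw [if_neg]
      intro h
      exact hne (wk_inj hJ hO hW h0 ht (by omega) hk h)
    · intro h
      exact absurd (Finset.mem_range.2 (by omega)) h
  rw [h1, h2]
  norm_num

/-- the other edges are not crossed -/
theorem fl_zero {n : ℕ} {p : ℕ → ℂ × ℂ} {a b : ℂ}
    (h1 : ∀ k, k ≤ n → p k ≠ (a, b)) (h2 : ∀ k, k ≤ n → p k ≠ (b, a)) : Fl n p a b = 0 := by
  unfold Fl
  rw [vis_eq_zero h2, vis_eq_zero h1]
  rfl

/-! ### linked triangles of a disc -/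

/-- a site which is not a closest site to `z0` has a neighbour closer to `z0` -/
theorem closer_nb (hS : GP (S : Set ℂ)) (h3 : 3 ≤ S.card) {v z0 : ℂ} (hv : v ∈ S)
    (hs : ∃ s ∈ S, ‖s - z0‖ < ‖v - z0‖) : ∃ u, Adj S v u ∧ ‖u - z0‖ < ‖v - z0‖ := by
  set e : ℂ := z0 - v with he
  have hid : ∀ s : ℂ, ‖s - z0‖ ^ 2 = dt (s - v) (s - v) - 2 * dt (s - v) e + ‖v - z0‖ ^ 2 := by
    intro s
    rw [Complex.sq_norm, Complex.sq_norm, Complex.normSq_apply, Complex.normSq_apply, he]
    unfold dt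
    simp only [Complex.sub_re, Complex.sub_im]
    ring
  have hself : ∀ w : ℂ, 0 ≤ dt w w := by
    intro w; unfold dt; nlinarith [sq_nonneg w.re, sq_nonneg w.im]
  have hcl : ∀ s : ℂ, ‖s - z0‖ < ‖v - z0‖ ↔ dt (s - v) (s - v) < 2 * dt (s - v) e := by
    intro s
    rw [← sq_lt_sq₀ (norm_nonneg _) (norm_nonneg _), hid]
    constructor <;> intro h <;> linarith
  have hne : (S.filter fun s => 0 < dt (s - v) e).Nonempty := by
    obtain ⟨s, hs, h⟩ := hs
    rw [hcl] at h
    exact ⟨s, Finset.mem_filter.2 ⟨hs, by have := hself (s - v); linarith⟩⟩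
  obtain ⟨u, hu, hmin⟩ := Finset.exists_min_image _
    (fun s => dt (s - v) (s - v) / dt (s - v) e) hne
  rw [Finset.mem_filter] at hu
  obtain ⟨huS, hu⟩ := hu
  have huv : v ≠ u := by
    rintro rfl
    unfold dt at hu
    simp at hu
  set t : ℝ := dt (u - v) (u - v) / dt (u - v) e / 2 with ht
  have ht0 : 0 ≤ t := by
    have : 0 ≤ dt (u - v) (u - v) := hself _
    positivity
  have hpw : ∀ s : ℂ, pw (v + t * e) v s = dt (s - v) (s - v) - 2 * t * dt (s - v) e := by
    intro s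
    unfold pw dt
    simp only [Complex.add_re, Complex.mul_re, Complex.ofReal_re, Complex.ofReal_im,
      Complex.add_im, Complex.mul_im, Complex.sub_re, Complex.sub_im]
    ring
  have h2t : 2 * t = dt (u - v) (u - v) / dt (u - v) e := by rw [ht]; ring
  have hz : (v + t * e) ∈ vedge (S : Set ℂ) v u := by
    rw [mem_vedge hv]
    refine ⟨?_, fun s hs => ?_⟩
    · rw [hpw, h2t]
      field_simp
      ring
    · rw [hpw]
      rcases le_or_gt (dt (s - v) e) 0 with h0 | h0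
      · have h1 : 0 ≤ dt (s - v) (s - v) := hself _
        have h2 : 2 * t * dt (s - v) e ≤ 0 := mul_nonpos_of_nonneg_of_nonpos (by linarith) h0
        linarith
      · have h1 := hmin s (Finset.mem_filter.2 ⟨hs, h0⟩)
        rw [← h2t, le_div_iff₀ h0] at h1
        linarith
  refine ⟨u, vedge_del hS h3 hv huS huv hz, ?_⟩
  rw [hcl]
  obtain ⟨s, hs, h⟩ := hs
  rw [hcl] at h
  have h0 : 0 < dt (s - v) e := by have := hself (s - v); linarith
  have h1 := hmin s (Finset.mem_filter.2 ⟨hs, h0⟩)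
  have h4 : dt (s - v) (s - v) / dt (s - v) e < 2 := by
    rw [div_lt_iff₀ h0]; exact h
  have h5 : dt (u - v) (u - v) / dt (u - v) e < 2 := lt_of_le_of_lt h1 h4
  rwa [div_lt_iff₀ hu] at h5

/-- the network with the same triangles in which only the edges with an end in the disc are live -/
def inN (N : Net ℂ) (z0 : ℂ) (ρ : ℝ) : Net ℂ where
  toTrg := N.toTrg
  kl := {e | ρ ≤ ‖e.1 - z0‖ ∧ ρ ≤ ‖e.2 - z0‖}
  klsym := fun _ _ h => ⟨h.2, h.1⟩
  ex := N.ex

theorem inN_live {N : Net ℂ} {z0 : ℂ} {ρ : ℝ} {v : ℂ} (h : ‖v - z0‖ < ρ) (u : ℂ) :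
    (v, u) ∉ (inN N z0 ρ).kl := fun h' => absurd h'.1 (not_le.2 h)

theorem lk_corner (hS : GP (S : Set ℂ)) {t : ℂ × ℂ × ℂ} (ht : t ∈ delT S)
    {v : ℂ} (hv : v = t.1 ∨ v = t.2.1 ∨ v = t.2.2) : ∃ a b, (v, a, b) ∈ delT S ∧
      (v, a, b) ∈ B0x346.rots t := by
  obtain ⟨x, y, z⟩ := t
  rcases hv with h | h | h
  · exact ⟨y, z, by rw [h]; exact ht, Or.inl (by rw [h])⟩
  · exact ⟨z, x, by rw [h]; exact delT_rot hS ht, Or.inr (Or.inl (by rw [h]))⟩
  · exact ⟨x, y, by rw [h]; exact delT_rot hS (delT_rot hS ht), Or.inr (Or.inr (by rw [h]; rfl))⟩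

theorem lk_two {N : Net ℂ} (hS : GP (S : Set ℂ)) (hT : N.T = delT S) {z0 : ℂ} {ρ : ℝ} {v u : ℂ}
    (hv : ‖v - z0‖ < ρ) (hu : ‖u - z0‖ < ρ) (hvu : Adj S v u) {a b a' b' : ℂ}
    (h : (v, a, b) ∈ delT S) (h' : (u, a', b') ∈ delT S) :
    Ex0x922.Lk (inN N z0 ρ) (v, a, b) (u, a', b') := by
  have hT' : (inN N z0 ρ).T = delT S := hT
  rcases hvu with ⟨c, hc⟩ | ⟨c, hc⟩
  · have h1 := RB1x54.lk_at hS hT' (inN_live hv) h hc
    have h2 := RB1x54.lk_at hS hT' (inN_live hu) (delT_rot hS hc) h'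
    exact (h1.trans (Ex0x922.Lk.of_rots (t' := (u, c, v)) (Or.inr (Or.inl rfl)))).trans h2
  · have h1 := RB1x54.lk_at hS hT' (inN_live hv) h (delT_rot hS hc)
    have h2 := RB1x54.lk_at hS hT' (inN_live hu) hc h'
    exact (h1.trans (Ex0x922.Lk.of_rots (t' := (u, v, c)) (Or.inr (Or.inr rfl)))).trans h2

/-- all triangles with a corner in the disc are linked -/
theorem lk_disc {N : Net ℂ} (hS : GP (S : Set ℂ)) (h3 : 3 ≤ S.card) (hT : N.T = delT S) {z0 : ℂ}
    {ρ : ℝ} :
    ∀ (n : ℕ) (v : ℂ), v ∈ S → (S.filter fun s => ‖s - z0‖ < ‖v - z0‖).card ≤ n → ‖v - z0‖ < ρ →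
    ∀ v' : ℂ, v' ∈ S → (∀ s ∈ S, ‖v' - z0‖ ≤ ‖s - z0‖) → ∀ a b a' b', (v, a, b) ∈ delT S →
      (v', a', b') ∈ delT S → Ex0x922.Lk (inN N z0 ρ) (v, a, b) (v', a', b') := by
  have hT' : (inN N z0 ρ).T = delT S := hT
  intro n
  induction n with
  | zero =>
    intro v hv hn hvρ v' hv' hmin a b a' b' h h'
    have hno : ∀ s ∈ S, ‖v - z0‖ ≤ ‖s - z0‖ := by
      intro s hs
      by_contra hcon
      push Not at hcon
      have : s ∈ S.filter fun s => ‖s - z0‖ < ‖v - z0‖ := Finset.mem_filter.2 ⟨hs, hcon⟩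
      rw [Nat.le_zero, Finset.card_eq_zero] at hn
      rw [hn] at this
      exact absurd this (Finset.notMem_empty _)
    have hvρ' : ‖v' - z0‖ < ρ := (hmin v hv).trans_lt hvρ
    by_cases hvv : v = v'
    · subst hvv
      exact RB1x54.lk_at hS hT' (inN_live hvρ) h h'
    · have heq : ‖v' - z0‖ = ‖v - z0‖ := le_antisymm (hmin v hv) (hno v' hv')
      have hz : z0 ∈ vedge (S : Set ℂ) v v' := by
        rw [mem_vedge hv]
        have hpw : ∀ s : ℂ, pw z0 v s = ‖s - z0‖ ^ 2 - ‖v - z0‖ ^ 2 := by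
          intro s
          unfold pw
          rw [Complex.sq_norm, Complex.sq_norm, Complex.normSq_apply, Complex.normSq_apply]
          simp only [Complex.sub_re, Complex.sub_im]
          ring
        refine ⟨?_, fun s hs => ?_⟩
        · rw [hpw, heq]; ring
        · rw [hpw]
          have := hno s hs
          have h0 := norm_nonneg (v - z0)
          nlinarith
      exact lk_two hS hT hvρ hvρ' (vedge_del hS h3 hv hv' hvv hz) h h'
  | succ n ih =>
    intro v hv hn hvρ v' hv' hmin a b a' b' h h'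
    by_cases hex : ∃ s ∈ S, ‖s - z0‖ < ‖v - z0‖
    · obtain ⟨u, hvu, hu⟩ := closer_nb hS h3 hv hex
      have huS := hvu.mem.2
      have hlt : (S.filter fun s => ‖s - z0‖ < ‖u - z0‖).card <
          (S.filter fun s => ‖s - z0‖ < ‖v - z0‖).card := by
        apply Finset.card_lt_card
        rw [Finset.ssubset_iff_of_subset]
        · exact ⟨u, Finset.mem_filter.2 ⟨huS, hu⟩, fun h => lt_irrefl _ (Finset.mem_filter.1 h).2⟩
        · intro s hs
          rw [Finset.mem_filter] at hs ⊢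
          exact ⟨hs.1, hs.2.trans hu⟩
      have : ∃ a1 b1, (u, a1, b1) ∈ delT S := by
        rcases hvu with ⟨c, hc⟩ | ⟨c, hc⟩
        · exact ⟨_, _, delT_rot hS hc⟩
        · exact ⟨_, _, hc⟩
      obtain ⟨a1, b1, h1⟩ := this
      exact (lk_two hS hT hvρ (hu.trans hvρ) hvu h h1).trans
        (ih u huS (by omega) (hu.trans hvρ) v' hv' hmin _ _ _ _ h1 h')
    · push Not at hex
      refine ih v hv ?_ hvρ v' hv' hmin _ _ _ _ h h'
      have : (S.filter fun s => ‖s - z0‖ < ‖v - z0‖) = ∅ := by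
        rw [Finset.filter_eq_empty_iff]
        intro s hs
        exact not_lt.2 (hex s hs)
      rw [this]
      simp

theorem exists_tri (hS : GP (S : Set ℂ)) (h3 : 3 ≤ S.card) {v : ℂ} (hv : v ∈ S) :
    ∃ a b, (v, a, b) ∈ delT S := by
  obtain ⟨s, hs, hne⟩ : ∃ s ∈ S, s ≠ v := by
    by_contra hcon
    push Not at hcon
    have : S ⊆ {v} := fun s hs => Finset.mem_singleton.2 (hcon s hs)
    have := Finset.card_le_card this
    simp at this
    omega
  obtain ⟨u, hu, -⟩ := JColx54.lower_nb hS h3 (e := s - v) hv ⟨s, hs, dt_pos (sub_ne_zero.2 hne)⟩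
  rcases hu with ⟨c, hc⟩ | ⟨c, hc⟩
  · exact ⟨_, _, hc⟩
  · exact ⟨_, _, delT_rot hS hc⟩

/-- **reference join inside the disc**: two triangles with a corner in the disc -/
theorem exists_P {N : Net ℂ} (hS : GP (S : Set ℂ)) (h3 : 3 ≤ S.card) (hT : N.T = delT S) {z0 : ℂ}
    {ρ : ℝ} {s t : ℂ × ℂ × ℂ} (hs : s ∈ delT S) (ht : t ∈ delT S) {v v' : ℂ}
    (hv : v = s.1 ∨ v = s.2.1 ∨ v = s.2.2) (hv' : v' = t.1 ∨ v' = t.2.1 ∨ v' = t.2.2)
    (h : ‖v - z0‖ < ρ) (h' : ‖v' - z0‖ < ρ) :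
    ∃ P : Finset (ℂ × ℂ), IsJoin N.toTrg {e | ρ ≤ ‖e.1 - z0‖ ∧ ρ ≤ ‖e.2 - z0‖}
      (symmDiff (B0x346.rots s) (B0x346.rots t)) ∅ P := by
  obtain ⟨a, b, h1, h2⟩ := lk_corner hS hs hv
  obtain ⟨a', b', h1', h2'⟩ := lk_corner hS ht hv'
  obtain ⟨v0, hv0, hmin⟩ := Finset.exists_min_image S (fun s => ‖s - z0‖) ⟨v, (mem_delT.1 h1).1⟩
  obtain ⟨a0, b0, h0⟩ := exists_tri hS h3 hv0
  have k1 := lk_disc (N := N) hS h3 hT _ v (mem_delT.1 h1).1 le_rfl h v0 hv0 hmin a b a0 b0 h1 h0
  have k2 := lk_disc (N := N) hS h3 hT _ v' (mem_delT.1 h1').1 le_rfl h' v0 hv0 hmin a' b' a0 b0 h1'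
    h0
  have k3 : Ex0x922.Lk (inN N z0 ρ) s t :=
    ((Ex0x922.Lk.of_rots h2).trans (k1.trans k2.symm)).trans
      (Ex0x922.Lk.of_rots (Ex0x922.rots_symm h2'))
  obtain ⟨K, hK⟩ := Exx395.chain_isJoin k3
  exact ⟨K, hK⟩

/-! ### the colouring -/

/-- occupied edge, as an element of `ZMod 2` -/
def oc (J : Finset (ℂ × ℂ)) (a b : ℂ) : ZMod 2 := if (a, b) ∈ J ∨ (b, a) ∈ J then 1 else 0

theorem oc_comm (J : Finset (ℂ × ℂ)) (a b : ℂ) : oc J b a = oc J a b := by
  unfold oc
  simp only [or_comm]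

theorem z2_neg (x : ZMod 2) : -x = x := by revert x; decide

theorem oc_tri (hS : GP (S : Set ℂ)) (hG : G.T = delT S) (hD : HullM S D)
    (hJ : IsJoin G kl O D J) {a b c : ℂ} (h : (a, b, c) ∈ delT S) :
    oc J a b + oc J b c + oc J c a = if (a, b, c) ∈ O then 1 else 0 := by
  have h1 := occ_iff hG hD hJ h
  have h2 := occ_iff hG hD hJ (delT_rot hS h)
  have h3 := occ_iff hG hD hJ (delT_rot hS (delT_rot hS h))
  have hp := hJ.par a b c (by rw [hG]; exact h)
  unfold oc
  simp only [h1, h2, h3]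
  by_cases x0 : (a, b, c) ∈ O <;> by_cases x1 : (a, b) ∈ J <;> by_cases x2 : (b, c) ∈ J <;>
    by_cases x3 : (c, a) ∈ J <;>
    simp only [x0, x1, x2, x3, if_true, if_false] at hp ⊢ <;> first | decide | omega

/-- **colouring of all sites**: join minus an explored outer leg, plus the reference join -/
theorem col_out {N : Net ℂ} (H : HNet S N) {s0 : ℂ × ℂ × ℂ} {J : Finset (ℂ × ℂ)}
    (hJ : IsJoin N.toTrg kl (B0x346.rots s0) N.exS J) {i : ZMod 3} {n : ℕ} {p : ℕ → ℂ × ℂ}
    {O' : Set (ℂ × ℂ × ℂ)} {D' : Set (ℂ × ℂ)}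
    (hW : Wk N.toTrg O' D' J n p) (h0 : p 0 = N.ex i) {c : ℂ}
    (hc : ((p n).1, (p n).2, c) ∈ delT S) {klP : Set (ℂ × ℂ)} {P : Finset (ℂ × ℂ)}
    (hP : IsJoin N.toTrg klP (symmDiff (B0x346.rots s0) (B0x346.rots ((p n).1, (p n).2, c))) ∅ P) :
    ∃ g : ℂ → ZMod 2, ∀ a b, Adj S a b → g b - g a = oc J a b + (Fl n p a b : ZMod 2) + oc P a b := by
  have hS := H.gp
  obtain ⟨g, hg⟩ := JColx54.exact hS (A := ZMod 2)
    (f := fun a b => oc J a b + (Fl n p a b : ZMod 2) + oc P a b)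
    (by
      intro a b _
      simp only [z2_neg]
      rw [oc_comm J a b, oc_comm P a b, Fl_anti]
      push_cast
      rw [z2_neg])
    (by
      intro x y z h
      have hG' : (x, y, z) ∈ N.toTrg.T := by rw [H.tri]; exact h
      have h1 := oc_tri hS H.tri (J8x872.exS_hull H) hJ h
      have h2 := oc_tri hS H.tri (fun a b h => absurd h (by simp)) hP h
      have h3 := Fl_tri hW hG'
      have e0 : ¬ OnS x y z ((p 0).2, (p 0).1) := by
        rw [h0]
        intro h4
        have hh := (H.hex i).2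
        rcases h4 with h4 | h4 | h4
        · obtain ⟨e1, e2⟩ := Prod.mk.inj h4
          exact hh z (by rw [e1, e2]; exact h)
        · obtain ⟨e1, e2⟩ := Prod.mk.inj h4
          exact hh x (by rw [e1, e2]; exact delT_rot hS h)
        · obtain ⟨e1, e2⟩ := Prod.mk.inj h4
          exact hh y (by rw [e1, e2]; exact delT_rot hS (delT_rot hS h))
      have e1 : OnS x y z (p n) ↔ (x, y, z) ∈ B0x346.rots ((p n).1, (p n).2, c) := by
        have hc' : ((p n).1, (p n).2, c) ∈ N.toTrg.T := by rw [H.tri]; exact hc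
        have := onS_iff hG' hc'
        rw [show ((p n).1, (p n).2) = p n from rfl] at this
        rw [this]
        exact ⟨Ex0x922.rots_symm, Ex0x922.rots_symm⟩
      rw [if_neg e0, zero_sub] at h3
      have h4 : ((Fl n p x y : ZMod 2) + (Fl n p y z : ZMod 2) + (Fl n p z x : ZMod 2)) =
          if (x, y, z) ∈ B0x346.rots ((p n).1, (p n).2, c) then 1 else 0 := by
        have h6 : ((Fl n p x y + Fl n p y z + Fl n p z x : ℤ) : ZMod 2) =
            ((-(if OnS x y z (p n) then 1 else 0 : ℤ) : ℤ) : ZMod 2) := by rw [h3]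
        push_cast at h6
        rw [h6, z2_neg]
        simp only [e1]
      have h5 : (oc J x y + (Fl n p x y : ZMod 2) + oc P x y) +
          (oc J y z + (Fl n p y z : ZMod 2) + oc P y z) +
          (oc J z x + (Fl n p z x : ZMod 2) + oc P z x) =
          (oc J x y + oc J y z + oc J z x) +
          ((Fl n p x y : ZMod 2) + (Fl n p y z : ZMod 2) + (Fl n p z x : ZMod 2)) +
          (oc P x y + oc P y z + oc P z x) := by ring
      rw [h5, h1, h2, h4]
      simp only [Set.mem_symmDiff]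
      by_cases x1 : (x, y, z) ∈ B0x346.rots s0 <;>
        by_cases x2 : (x, y, z) ∈ B0x346.rots ((p n).1, (p n).2, c) <;>
        simp [x1, x2] <;> decide)
  exact ⟨g, fun a b hab => (hg a b hab).symm⟩

end Crest.Agent.R143.GapOx54
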