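import Crest.Agent.R143.GapO1_54
import Crest.Agent.R143.GapI_877
import Crest.Agent.R143.XF_903

/-!
# Row 143 (S0194), block X, leaf GAPO, file 2 (helper54)

* `near_out` : the outer tip is near the circle
* `no_circuit_out` : a circuit around the tip of the outer leg `i` blocks the leg `j`
* `gapo : RB → GAPO`
-/

set_option autoImplicit false
set_option linter.all false

noncomputable section

open scoped Classical

namespace Crest.Agent.R143.GapOx54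

open Crest.Agent.R143.B0x346 Crest.Agent.R143.B0Dx346 Crest.Agent.R143.DelGx806
  Crest.Agent.R143.DelRx806 Crest.Agent.R143.ToolWx838 Crest.Agent.R143.Blkx838
  Crest.Agent.R143.Planarx54 Crest.Agent.R143.XGx343 Crest.Agent.R143.X0Bx683
  Crest.Agent.R143.X0Cx683 Crest.Agent.R143.RB0x838 Crest.Agent.R143.CircPx838
  Crest.Agent.R143.JCardx872 Crest.Agent.R143.JWalkx872 Crest.Agent.R143.JCol2x54
  Crest.Agent.R143.Harx315 Crest.Agent.R143.Indepx583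
open Crest.Agent.R143.JColx54 (Adj adj_tri adj_tri' adj_tri'' delT_rot)
open Crest.Agent.R143.GapIx877 (Nx tip_no nx_tip to_tip tip_uniq exists_wkO Ex mem_Ex lead_iff
  ex_stop ex_decided pr_fresh tri_small scales norm_tri' flip_union z2)

variable {S : Finset ℂ} {N : Net ℂ} {z0 : ℂ} {R R1 d b0 C4 : ℝ}

/-- the outer tip is near the circle -/
theorem near_out (hW : World S N z0 R R1 d b0 C4) {ρ : ℝ} (hρ : ρ ≤ R) (hρ0 : 0 < ρ)
    (hd : 64 * d ≤ ρ) (hR1 : 2 * R ≤ R1) {O : Set (ℂ × ℂ × ℂ)} {D : Set (ℂ × ℂ)}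
    {J : Finset (ℂ × ℂ)} {p q : ℂ × ℂ}
    (hq : LegTip N.toTrg O D J (Dsc z0 ρ) p q) : ‖mid q - z0‖ ≤ ρ + ρ / 32 := by
  obtain ⟨h1, c, hc, hcT⟩ := hq
  have hcρ : ‖c - z0‖ < ρ := hc
  have hT : (q.1, q.2, c) ∈ delT S := by rw [← hW.hnet.tri]; exact hcT
  have hT' := delT_rot hW.hnet.gp (delT_rot hW.hnet.gp hT)
  have hsm := tri_small hW.dns hT' (by linarith)
  have e2 : mid q - z0 = (c - z0) + ((q.1 - c) + (q.2 - c)) / 2 := by unfold mid; ring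
  have h5 : ‖((q.1 - c) + (q.2 - c)) / 2‖ ≤ 2 * d := by
    rw [norm_div, Complex.norm_two]
    have := norm_add_le (q.1 - c) (q.2 - c)
    linarith
  have h6 := norm_add_le (c - z0) (((q.1 - c) + (q.2 - c)) / 2)
  rw [← e2] at h6
  linarith

/-- occupied edges after the flip of fresh sites -/
theorem oc_flip {G : Trg ℂ} {kl : Set (ℂ × ℂ)} {O : Set (ℂ × ℂ × ℂ)} {D : Set (ℂ × ℂ)}
    {J : Finset (ℂ × ℂ)} {β γ : Finset ℂ} (hG : G.T = delT S)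
    (hJ : IsJoin G kl O D (X0Bx683.flip G J γ)) (hdis : ∀ s, s ∈ β → s ∉ γ)
    (hD : ∀ x ∈ D, x.1 ∉ β ∧ x.2 ∉ β) {a b : ℂ} (hab : Adj S a b) :
    oc (X0Bx683.flip G J (β ∪ γ)) a b = oc (X0Bx683.flip G J γ) a b +
      ((if b ∈ β then 1 else 0) - (if a ∈ β then 1 else 0)) := by
  have hE : (a, b) ∈ G.E := by rw [mem_E hG]; exact hab
  have hE' : (b, a) ∈ G.E := by rw [mem_E hG]; exact hab.symm
  have h1 := flip_union (J := J) hdis hE
  have h2 := flip_union (J := J) hdis hE'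
  have h3 : ¬ (a ∈ β ↔ b ∈ β) → ((a, b) ∈ X0Bx683.flip G J γ ↔ (b, a) ∈ X0Bx683.flip G J γ) := by
    intro h
    refine hJ.sym a b (fun h' => ?_) (fun h' => ?_)
    · exact h ⟨fun h'' => absurd h'' (hD _ h').1, fun h'' => absurd h'' (hD _ h').2⟩
    · exact h ⟨fun h'' => absurd h'' (hD _ h').2, fun h'' => absurd h'' (hD _ h').1⟩
  unfold oc
  by_cases ha : a ∈ β <;> by_cases hb : b ∈ β <;>
    by_cases x1 : (a, b) ∈ X0Bx683.flip G J γ <;> by_cases x2 : (b, a) ∈ X0Bx683.flip G J γ <;>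
    simp only [ha, hb, x1, x2, h1, h2, iff_true, iff_false, true_iff, false_iff, not_true, not_false_iff,
      true_and, and_true, false_and, and_false, true_or, or_true, false_or, or_false, if_true, if_false]
      at h3 ⊢ <;> first | decide | tauto

/-! ### one explored outer leg -/

/-- data of an explored outer leg: walk `p` with `n` steps from the mark `i` to the tip -/
structure Leg (S : Finset ℂ) (N : Net ℂ) (s0 : ℂ × ℂ × ℂ) (z0 : ℂ) (ρ : ℝ) (J : Finset (ℂ × ℂ))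
    (i : ZMod 3) (n : ℕ) (p : ℕ → ℂ × ℂ) : Prop where
  wk : Wk N.toTrg (rots s0) N.exS J n p
  start : p 0 = N.ex i
  out : ∀ k, k ≤ n → LeadsO N.toTrg (rots s0) N.exS J (Dsc z0 ρ) (N.ex i) (p k)
  tip : ∃ c ∈ Dsc z0 ρ, ((p n).1, (p n).2, c) ∈ N.toTrg.T

variable {s0 : ℂ × ℂ × ℂ} {ρ : ℝ} {J : Finset (ℂ × ℂ)} {i j : ZMod 3} {n : ℕ} {p : ℕ → ℂ × ℂ}

theorem Leg.all (h : Leg S N s0 z0 ρ J i n p) {x : ℂ × ℂ}
    (hx : LeadsO N.toTrg (rots s0) N.exS J (Dsc z0 ρ) (N.ex i) x) : ∃ k, k ≤ n ∧ p k = x := by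
  obtain ⟨-, hx⟩ := hx
  induction hx with
  | refl => exact ⟨0, Nat.zero_le _, h.start⟩
  | tail h1 h2 ih =>
    rename_i y z
    obtain ⟨k, hk, rfl⟩ := ih
    rcases Nat.lt_or_ge k n with h3 | h3
    · exact ⟨k + 1, h3, step_det (h.wk k h3) h2.1⟩
    · have : k = n := by omega
      subst this
      exact absurd h2 (tip_no h.tip)

/-- the sites of the leg have one colour -/
theorem Leg.const (hH : HNet S N) (h : Leg S N s0 z0 ρ J i n p)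
    (hJ : IsJoin N.toTrg N.kl (rots s0) N.exS J) {P : Finset (ℂ × ℂ)} {O' : Set (ℂ × ℂ × ℂ)}
    (hP : IsJoin N.toTrg {e | ρ ≤ ‖e.1 - z0‖ ∧ ρ ≤ ‖e.2 - z0‖} O' ∅ P) {g : ℂ → ZMod 2}
    (hg : ∀ a b, Adj S a b → g b - g a = oc J a b + (Fl n p a b : ZMod 2) + oc P a b) :
    ∀ k, k ≤ n → g (p k).1 = g (p 0).1 ∧ g (p k).2 = g (p 0).1 := by
  have h0J : p 0 ∈ J := by rw [h.start]; exact (hJ.mark _ _ ⟨i, rfl⟩).1
  have hterm : Term N.toTrg (rots s0) N.exS J (p 0).swap := by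
    rw [h.start]
    exact Or.inl ⟨i, rfl⟩
  have same : ∀ k, k ≤ n → g (p k).1 = g (p k).2 := by
    intro k hk
    have hout := leadsO_out (h.out k hk)
    have hocc : (p k) ∈ J ∨ ((p k).2, (p k).1) ∈ J := by
      rcases k with _ | k
      · exact Or.inl h0J
      · exact Or.inr (step_exit (h.wk k (by omega)))
    have hadj : Adj S (p k).1 (p k).2 := by
      rcases hocc with h1 | h1
      · obtain ⟨c, hc⟩ := occ_tri hJ h1
        rw [hH.tri] at hc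
        exact Or.inl ⟨c, hc⟩
      · obtain ⟨c, hc⟩ := occ_tri hJ h1
        rw [hH.tri] at hc
        exact Or.inr ⟨c, hc⟩
    have h1 := hg _ _ hadj
    have h2 : oc J (p k).1 (p k).2 = 1 := by
      unfold oc
      rw [if_pos]
      exact hocc
    have h3 : oc P (p k).1 (p k).2 = 0 := by
      unfold oc
      rw [if_neg]
      have hk1 := hP.kill (p k).1 (p k).2 ⟨not_lt.1 hout.1, not_lt.1 hout.2⟩ (by simp) (by simp)
      exact fun h => h.elim hk1.1 hk1.2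
    have h4 := fl_self hJ (rotInv_rots s0) h.wk h0J hterm hk
    rw [h2, h3, h4] at h1
    push_cast at h1
    have h5 : (1 : ZMod 2) + -1 + 0 = 0 := by decide
    rw [h5] at h1
    exact (sub_eq_zero.1 h1).symm
  intro k
  induction k with
  | zero => intro _; exact ⟨rfl, (same 0 (Nat.zero_le _)).symm⟩
  | succ k ih =>
    intro hk
    obtain ⟨h1, h2⟩ := ih (by omega)
    have h3 := same (k + 1) hk
    obtain ⟨c, -, -, -, h4⟩ := h.wk k (by omega)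
    rcases h4 with ⟨-, h5⟩ | ⟨-, -, h5⟩
    · have h6 : (p (k + 1)).2 = (p k).2 := by rw [h5]
      rw [h6] at h3 ⊢
      exact ⟨h3.trans h2, h2⟩
    · have h6 : (p (k + 1)).1 = (p k).1 := by rw [h5]
      rw [h6] at h3 ⊢
      exact ⟨h1, h3.symm.trans h1⟩

/-- **a circuit around the tip of leg `i` blocks leg `j`** -/
theorem no_circuit_out (hW : World S N z0 R R1 d b0 C4) (hρ : 4 * ρ ≤ R) (hρ0 : 0 < ρ)
    (hR1 : 2 * R ≤ R1) (hd64 : 64 * d ≤ ρ)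
    (hij : i ≠ j) {V β γ E X : Finset ℂ} (hV : ∀ s ∈ S, ‖s - z0‖ < 4 * ρ → s ∈ V)
    (hVR : ∀ s ∈ V, ‖s - z0‖ < R)
    (hβ : β ⊆ V \ E) (hγ : γ ⊆ E)
    (hJγ : IsJoin N.toTrg N.kl (rots s0) N.exS (X0Bx683.flip N.toTrg J γ))
    (hJ1 : IsJoin N.toTrg N.kl (rots s0) N.exS (X0Bx683.flip N.toTrg J (β ∪ γ)))
    (hL : Leg S N s0 z0 ρ (X0Bx683.flip N.toTrg J γ) i n p)
    (hlead : ∀ x, LeadsO N.toTrg (rots s0) N.exS (X0Bx683.flip N.toTrg J γ) (Dsc z0 ρ) (N.ex i) x ↔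
      LeadsO N.toTrg (rots s0) N.exS (X0Bx683.flip N.toTrg J (β ∪ γ)) (Dsc z0 ρ) (N.ex i) x)
    (hE : ∀ s ∈ E, ∃ x, LeadsO N.toTrg (rots s0) N.exS (X0Bx683.flip N.toTrg J γ) (Dsc z0 ρ)
      (N.ex i) x ∧ (s = x.1 ∨ s = x.2))
    {P : Finset (ℂ × ℂ)} {O' : Set (ℂ × ℂ × ℂ)}
    (hP : IsJoin N.toTrg {e | ρ ≤ ‖e.1 - z0‖ ∧ ρ ≤ ‖e.2 - z0‖} O' ∅ P) {g : ℂ → ZMod 2}
    (hg : ∀ a b, Adj S a b → g b - g a =
      oc (X0Bx683.flip N.toTrg J γ) a b + (Fl n p a b : ZMod 2) + oc P a b)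
    (hX : X = (V \ E).filter (fun s => g s = g (p 0).1)) {q' : ℂ × ℂ}
    (hq' : LegTip N.toTrg (rots s0) N.exS (X0Bx683.flip N.toTrg J (β ∪ γ)) (Dsc z0 ρ)
      (N.ex j) q') {r : ℝ} (hr0 : 0 < r) (hr : r ≤ ρ / 32) (hqr : ‖mid (p n) - mid q'‖ ≤ r)
    (g1 : ‖mid (p n) - z0‖ ≤ ρ + ρ / 32) {c : List ℂ}
    (hc : CircC S (mid (p n)) r (symmDiff β X ∪ (S \ (V \ E))) c) : False := by
  have hH := hW.hnet
  have hcol := hL.const hH hJγ hP hg
  have hconst : ∀ {x : ℂ × ℂ},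
      LeadsO N.toTrg (rots s0) N.exS (X0Bx683.flip N.toTrg J γ) (Dsc z0 ρ) (N.ex i) x →
      g x.1 = g (p 0).1 ∧ g x.2 = g (p 0).1 := by
    intro x hx
    obtain ⟨k, hk, rfl⟩ := hL.all hx
    exact hcol k hk
  set ψ : ℂ → ZMod 2 := fun s => g s + if s ∈ β then 1 else 0 with hψ
  have hdis : ∀ s, s ∈ β → s ∉ γ := fun s hs hs' =>
    (Finset.mem_sdiff.1 (hβ hs)).2 (hγ hs')
  have hβR : ∀ s ∈ β, ‖s - z0‖ < R := fun s hs => hVR s (Finset.mem_sdiff.1 (hβ hs)).1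
  have hDβ : ∀ x ∈ N.exS, x.1 ∉ β ∧ x.2 ∉ β := by
    rintro x ⟨k, rfl⟩
    have h1 := ex_out hW k
    exact ⟨fun h => h1.1 (hβR _ h), fun h => h1.2 (hβR _ h)⟩
  have hnear : ∀ s ∈ c, ‖s - z0‖ < 4 * ρ := by
    intro s hs
    have hs2 := hc.up s hs
    have h3 := norm_le_sup (s - mid (p n))
    have h4 := norm_tri' s (mid (p n)) z0
    linarith
  have hsite : ∀ s ∈ c, s ∈ S → ψ s = g (p 0).1 := by
    intro s hs hsS
    have hs1 := hc.col s hs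
    have hsV : s ∈ V := hV s hsS (hnear s hs)
    simp only [hψ]
    rw [Finset.mem_union, Finset.mem_symmDiff, Finset.mem_sdiff] at hs1
    rcases hs1 with (⟨h1, h2⟩ | ⟨h1, h2⟩) | ⟨h1, h2⟩
    · have h3 : g s ≠ g (p 0).1 := fun h => h2 (by
        rw [hX]
        exact Finset.mem_filter.2 ⟨hβ h1, h⟩)
      rw [if_pos h1]
      exact z2 _ _ h3
    · rw [if_neg h2, add_zero]
      rw [hX] at h1
      exact (Finset.mem_filter.1 h1).2
    · have h3 : s ∉ β := fun h => h2 (hβ h)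
      rw [if_neg h3, add_zero]
      have h4 : s ∈ E := by
        by_contra h5
        exact h2 (Finset.mem_sdiff.2 ⟨hsV, h5⟩)
      obtain ⟨x, hx, h5 | h5⟩ := hE s h4
      · rw [h5]; exact (hconst hx).1
      · rw [h5]; exact (hconst hx).2
  -- the leg `j`
  obtain ⟨m, w, hw, w0, wm, hl⟩ := exists_wkO hq'.1
  have hmp : ∀ k, (N.ex k).1 ∉ c ∧ (N.ex k).2 ∉ c := by
    intro k
    have h1 := ex_out hW k
    exact ⟨fun h => h1.1 (lt_of_lt_of_le (hnear _ h) hρ), fun h => h1.2 (lt_of_lt_of_le (hnear _ h) hρ)⟩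
  have h1 : asum (mid q') c = 2 * Real.pi := by
    apply hc.wind
    refine (sup_le_norm _).trans ?_
    rw [norm_sub_rev]
    exact hqr
  have h2 : asum (mid (N.ex j)) c = 0 := by
    apply hc.out
    have h3 := norm_le_sup (mid (N.ex j) - mid (p n))
    have hR0 := hW.Rpos
    have h4 := XFx903.mark_far hH hW.dns (ρ := R) (by linarith) j
    have h5 := norm_tri' (mid (N.ex j)) (mid (p n)) z0
    linarith
  have hne : asum (mid (w 0)) c ≠ asum (mid (w m)) c := by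
    rw [w0, wm, h1, h2]
    have := Real.pi_pos
    intro h
    linarith
  obtain ⟨k, hk, htouch, -⟩ := exit_edge hH.gp hH.tri hc.loop hw hne
  have hmem : (w k).1 ∈ c ∧ (w k).2 ∈ c := by
    rcases htouch with h1 | h1
    · exact mem_of_prs h1
    · exact (mem_of_prs h1).symm
  have hk0 : k ≠ 0 := by
    rintro rfl
    rw [w0] at hmem
    exact (hmp j).1 hmem.1
  obtain ⟨k, rfl⟩ := Nat.exists_eq_succ_of_ne_zero hk0
  have hocc : ((w (k + 1)).2, (w (k + 1)).1) ∈ X0Bx683.flip N.toTrg J (β ∪ γ) :=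
    step_exit (hw k (by omega))
  have hadj : Adj S (w (k + 1)).1 (w (k + 1)).2 := by
    obtain ⟨c', hc'⟩ := occ_tri hJ1 hocc
    rw [hH.tri] at hc'
    exact Or.inr ⟨c', hc'⟩
  have hwl := hl (k + 1) hk
  have hout := leadsO_out hwl
  have hoc1 : oc (X0Bx683.flip N.toTrg J (β ∪ γ)) (w (k + 1)).1 (w (k + 1)).2 = 1 := by
    unfold oc
    rw [if_pos (Or.inr hocc)]
  have hocP : oc P (w (k + 1)).1 (w (k + 1)).2 = 0 := by
    unfold oc
    rw [if_neg]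
    have hk1 := hP.kill (w (k + 1)).1 (w (k + 1)).2 ⟨not_lt.1 hout.1, not_lt.1 hout.2⟩ (by simp)
      (by simp)
    exact fun h => h.elim hk1.1 hk1.2
  have htip1 : LegTip N.toTrg (rots s0) N.exS (X0Bx683.flip N.toTrg J (β ∪ γ)) (Dsc z0 ρ)
      (N.ex i) (p n) := ⟨(hlead _).1 (hL.out n le_rfl), hL.tip⟩
  have hst := XLegx126.starts_mark hH hJ1
  have hback : ∀ i c, ((N.ex i).2, (N.ex i).1, c) ∈ N.toTrg.T → c ∉ Dsc z0 ρ := fun i c h =>
    absurd h (XLegx126.mark_back hH i c)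
  have hfl : Fl n p (w (k + 1)).1 (w (k + 1)).2 = 0 := by
    have key : ∀ l, l ≤ n → p l ≠ w (k + 1) ∧ p l ≠ (w (k + 1)).swap := by
      intro l hl'
      have e1 := (hlead _).1 (hL.out l hl')
      have e2 := to_tip htip1 e1
      have e3 : Leads N.toTrg (rots s0) N.exS (X0Bx683.flip N.toTrg J (β ∪ γ)) (p l) (p n) := by
        have : ∀ x y, Relation.ReflTransGen (Nx N.toTrg (rots s0) N.exS
            (X0Bx683.flip N.toTrg J (β ∪ γ)) (Dsc z0 ρ)) x y →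
            Leads N.toTrg (rots s0) N.exS (X0Bx683.flip N.toTrg J (β ∪ γ)) x y := by
          intro x y h
          induction h with
          | refl => exact Relation.ReflTransGen.refl
          | tail _ h2 ih => exact ih.tail h2.1
        exact this _ _ e2
      obtain ⟨d1, d2⟩ := legs_disj hJ1 (rotInv_rots s0) hst hback hij htip1
        (XLegx126.LeadsO.leads e1) e3
      refine ⟨fun h => d1 (by rw [h]; exact hwl), fun h => d2 ?_⟩
      rw [h, Prod.swap_swap]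
      exact hwl
    exact fl_zero (fun l hl' => (key l hl').1) (fun l hl' => (key l hl').2)
  have hgg := hg _ _ hadj
  have hfl2 := oc_flip (J := J) (β := β) (γ := γ) hH.tri hJγ hdis hDβ hadj
  rw [hoc1] at hfl2
  rw [hfl, hocP] at hgg
  have c1 := hsite _ hmem.1 hadj.mem.1
  have c2 := hsite _ hmem.2 hadj.mem.2
  simp only [hψ] at c1 c2
  have h0 : (g (w (k + 1)).2 + if (w (k + 1)).2 ∈ β then 1 else 0) -
      (g (w (k + 1)).1 + if (w (k + 1)).1 ∈ β then 1 else 0) = 1 := by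
    push_cast at hgg
    linear_combination hgg - hfl2
  rw [c1, c2, sub_self] at h0
  exact absurd h0 (by decide)

theorem mem_Fs {ρ : ℝ} {s : ℂ} : s ∈ Fs S z0 ρ ↔ s ∈ S ∧ ‖s - z0‖ < ρ := by
  unfold Fs
  rw [Finset.mem_filter]

/-- all flips of the disc are joins -/
theorem join_all (hW : World S N z0 R R1 d b0 C4) (hρ : 4 * ρ ≤ R) (hJ : J ∈ N.tj s0) {β : Finset ℂ}
    (hβ : β ⊆ Fs S z0 (4 * ρ)) :
    IsJoin N.toTrg N.kl (rots s0) N.exS (X0Bx683.flip N.toTrg J β) :=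
  isJoin_of_tj (flip_join hW (fun s hs => lt_of_lt_of_le (mem_Fs.1 (hβ hs)).2 hρ) hJ)

/-- one pair of legs, given the leg `i` -/
theorem cond_out (hW : World S N z0 R R1 d b0 C4) (hs0 : s0 ∈ delT S) {δ : ℝ}
    (hρ : 4 * ρ ≤ R) (hρ0 : 0 < ρ) (hd64 : 64 * d ≤ ρ) (hR1 : 2 * R ≤ R1) (hδρ : 0 < δ * ρ)
    (hv : ∀ i, ‖vt s0 i - z0‖ < ρ / 4) (hJ : J ∈ N.tj s0) {n : ℕ} {b : ℝ}
    (hn : ∀ k, k < n → 2 ^ k * (δ * ρ) ≤ ρ / 32)
    (hfr : ∀ q : ℂ, ‖q - z0‖ ≤ ρ + ρ / 32 → ∀ F X : Finset ℂ, F ⊆ S → X ⊆ F →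
      pr F (fun β => ∀ k ∈ Finset.range n,
        ¬ ∃ c, CircC S q (2 ^ k * (δ * ρ)) (symmDiff β X ∪ (S \ F)) c) ≤ b)
    (hij : i ≠ j) {β0 : Finset ℂ} (hβ0 : β0 ⊆ Fs S z0 (4 * ρ))
    (hq0 : ∃ q, LegTip N.toTrg (rots s0) N.exS (X0Bx683.flip N.toTrg J β0) (Dsc z0 ρ)
      (N.ex i) q) :
    pr (Fs S z0 (4 * ρ) \ Ex N.toTrg (rots s0) N.exS (Dsc z0 ρ) (Fs S z0 (4 * ρ)) (N.ex i)
      (X0Bx683.flip N.toTrg J β0))
      (fun β => ∃ q q', LegTip N.toTrg (rots s0) N.exS (X0Bx683.flip N.toTrg J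
        (β ∪ (β0 ∩ Ex N.toTrg (rots s0) N.exS (Dsc z0 ρ) (Fs S z0 (4 * ρ)) (N.ex i)
          (X0Bx683.flip N.toTrg J β0)))) (Dsc z0 ρ) (N.ex i) q ∧
        LegTip N.toTrg (rots s0) N.exS (X0Bx683.flip N.toTrg J
        (β ∪ (β0 ∩ Ex N.toTrg (rots s0) N.exS (Dsc z0 ρ) (Fs S z0 (4 * ρ)) (N.ex i)
          (X0Bx683.flip N.toTrg J β0)))) (Dsc z0 ρ) (N.ex j) q' ∧
        ‖mid q - mid q'‖ < δ * ρ) ≤ b := by
  obtain ⟨q0, hq0⟩ := hq0
  have hH := hW.hnet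
  have hVm : ∀ s ∈ S, ‖s - z0‖ < 4 * ρ → s ∈ Fs S z0 (4 * ρ) :=
    fun s h1 h2 => mem_Fs.2 ⟨h1, h2⟩
  have hVR : ∀ s ∈ Fs S z0 (4 * ρ), ‖s - z0‖ < R := fun s hs =>
    lt_of_lt_of_le (mem_Fs.1 hs).2 hρ
  have hF : ∀ β, β ⊆ Fs S z0 (4 * ρ) →
      IsJoin N.toTrg N.kl (rots s0) N.exS (X0Bx683.flip N.toTrg J β) :=
    fun β hβ => join_all hW hρ hJ hβ
  have hVS : Fs S z0 (4 * ρ) ⊆ S := Finset.filter_subset _ _
  generalize Fs S z0 (4 * ρ) = V at *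
  have hjn := hF β0 hβ0
  have hst : N.ex i ∈ X0Bx683.flip N.toTrg J β0 := (hjn.mark _ _ ⟨i, rfl⟩).1
  have hEm : ∀ s, s ∈ Ex N.toTrg (rots s0) N.exS (Dsc z0 ρ) V (N.ex i)
      (X0Bx683.flip N.toTrg J β0) → ∃ x, LeadsO N.toTrg (rots s0) N.exS
      (X0Bx683.flip N.toTrg J β0) (Dsc z0 ρ) (N.ex i) x ∧ (s = x.1 ∨ s = x.2) :=
    fun s hs => (mem_Ex.1 hs).2
  have hli : ∀ β', β' ⊆ V → β0 ∩ Ex N.toTrg (rots s0) N.exS (Dsc z0 ρ) V (N.ex i)
      (X0Bx683.flip N.toTrg J β0) = β' ∩ Ex N.toTrg (rots s0) N.exS (Dsc z0 ρ) V (N.ex i)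
      (X0Bx683.flip N.toTrg J β0) → ∀ x,
      (LeadsO N.toTrg (rots s0) N.exS (X0Bx683.flip N.toTrg J β0) (Dsc z0 ρ) (N.ex i) x ↔
      LeadsO N.toTrg (rots s0) N.exS (X0Bx683.flip N.toTrg J β') (Dsc z0 ρ) (N.ex i) x) :=
    fun β' h1 h2 x => lead_iff hβ0 h1 hjn hst h2
  generalize Ex N.toTrg (rots s0) N.exS (Dsc z0 ρ) V (N.ex i) (X0Bx683.flip N.toTrg J β0) = E at *
  have hγV : β0 ∩ E ⊆ V := Finset.inter_subset_left.trans hβ0
  have hγE : β0 ∩ E ⊆ E := Finset.inter_subset_right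
  have hag : ∀ β, β ⊆ V \ E → β ∪ (β0 ∩ E) ⊆ V ∧ β0 ∩ E = (β ∪ (β0 ∩ E)) ∩ E := by
    intro β hβ
    refine ⟨Finset.union_subset (hβ.trans Finset.sdiff_subset) hγV, ?_⟩
    ext s
    rw [Finset.mem_inter, Finset.mem_inter, Finset.mem_union, Finset.mem_inter]
    constructor
    · rintro ⟨h1, h2⟩; exact ⟨Or.inr ⟨h1, h2⟩, h2⟩
    · rintro ⟨h1 | h1, h2⟩
      · exact absurd h2 (Finset.mem_sdiff.1 (hβ h1)).2
      · exact h1
  have hgg : β0 ∩ E = (β0 ∩ E) ∩ E := by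
    rw [Finset.inter_assoc, Finset.inter_self]
  have hleadγ := hli (β0 ∩ E) hγV hgg
  have hlead := fun β hβ => hli (β ∪ (β0 ∩ E)) (hag β hβ).1 (hag β hβ).2
  generalize β0 ∩ E = γ at *
  have Fγ := hF γ hγV
  have htipγ : LegTip N.toTrg (rots s0) N.exS (X0Bx683.flip N.toTrg J γ) (Dsc z0 ρ) (N.ex i) q0 :=
    ⟨(hleadγ q0).1 hq0.1, hq0.2⟩
  obtain ⟨m, p, hwk, hp0, hpm, hpl⟩ := exists_wkO htipγ.1
  have hL : Leg S N s0 z0 ρ (X0Bx683.flip N.toTrg J γ) i m p :=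
    ⟨hwk, hp0, hpl, by rw [hpm]; exact hq0.2⟩
  obtain ⟨c, hcW, hcT⟩ := hL.tip
  have hcT' : ((p m).1, (p m).2, c) ∈ delT S := by
    have := hH.tri
    rw [← this]; exact hcT
  obtain ⟨P, hP⟩ := exists_P (N := N) hH.gp (HNet.card hH) hH.tri (z0 := z0) (ρ := ρ) hs0 hcT'
    (v := s0.1) (v' := c) (Or.inl rfl) (Or.inr (Or.inr rfl)) (by
      have := hv 0
      change ‖s0.1 - z0‖ < ρ / 4 at this
      linarith) hcW
  obtain ⟨g, hg⟩ := col_out hH Fγ hwk hp0 hcT' hP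
  have g2 := near_out hW (by linarith) hρ0 hd64 hR1 hq0
  refine le_trans (pr_mono ?_) (hfr (mid q0) g2 (V \ E) ((V \ E).filter
    (fun s => g s = g (p 0).1)) (Finset.sdiff_subset.trans hVS) (Finset.filter_subset _ _))
  rintro β hβ ⟨q, q', hq, hq', hqq⟩ k hk ⟨c', hc'⟩
  have htip : LegTip N.toTrg (rots s0) N.exS (X0Bx683.flip N.toTrg J (β ∪ γ)) (Dsc z0 ρ)
      (N.ex i) q0 := ⟨(hlead β hβ q0).1 hq0.1, hq0.2⟩
  have hqe := tip_uniq htip hq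
  subst hqe
  have k1 := hn k (Finset.mem_range.1 hk)
  have k2 : (1 : ℝ) ≤ 2 ^ k := one_le_pow₀ (by norm_num)
  rw [← hpm] at hqq g2 hc'
  refine no_circuit_out hW hρ hρ0 hR1 hd64 hij hVm hVR hβ hγE Fγ (hF _ (hag β hβ).1) hL
    (fun x => (hleadγ x).symm.trans (hlead β hβ x)) ?_ hP hg rfl hq' (by positivity) k1 ?_ g2 hc'
  · intro s hs
    obtain ⟨x, hx, h⟩ := hEm s hs
    exact ⟨x, (hleadγ x).1 hx, h⟩
  · nlinarith

/-- one pair of legs -/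
theorem pair_out (hW : World S N z0 R R1 d b0 C4) (hs0 : s0 ∈ delT S) {δ : ℝ}
    (hρ : 4 * ρ ≤ R) (hρ0 : 0 < ρ) (hd64 : 64 * d ≤ ρ) (hR1 : 2 * R ≤ R1) (hδρ : 0 < δ * ρ)
    (hv : ∀ i, ‖vt s0 i - z0‖ < ρ / 4) (hJ : J ∈ N.tj s0) {n : ℕ} {b : ℝ} (hb : 0 ≤ b)
    (hn : ∀ k, k < n → 2 ^ k * (δ * ρ) ≤ ρ / 32)
    (hfr : ∀ q : ℂ, ‖q - z0‖ ≤ ρ + ρ / 32 → ∀ F X : Finset ℂ, F ⊆ S → X ⊆ F →
      pr F (fun β => ∀ k ∈ Finset.range n,
        ¬ ∃ c, CircC S q (2 ^ k * (δ * ρ)) (symmDiff β X ∪ (S \ F)) c) ≤ b)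
    (hij : i ≠ j) : pr (Fs S z0 (4 * ρ)) (fun β =>
      (∃ q, LegTip N.toTrg (rots s0) N.exS (X0Bx683.flip N.toTrg J β) (Dsc z0 ρ) (N.ex i) q) ∧
      ∃ q q', LegTip N.toTrg (rots s0) N.exS (X0Bx683.flip N.toTrg J β) (Dsc z0 ρ) (N.ex i) q ∧
        LegTip N.toTrg (rots s0) N.exS (X0Bx683.flip N.toTrg J β) (Dsc z0 ρ) (N.ex j) q' ∧
        ‖mid q - mid q'‖ < δ * ρ) ≤ b := by
  have hF : ∀ β, β ⊆ Fs S z0 (4 * ρ) →
      IsJoin N.toTrg N.kl (rots s0) N.exS (X0Bx683.flip N.toTrg J β) :=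
    fun β hβ => join_all hW hρ hJ hβ
  have h1 := stop_le' (ex_stop (W := Dsc z0 ρ) (fun β hβ => hF β hβ)
      (fun β hβ => ((hF β hβ).mark _ _ ⟨i, rfl⟩).1))
    (ex_decided (W := Dsc z0 ρ) (fun β hβ => hF β hβ)
      (fun β hβ => ((hF β hβ).mark _ _ ⟨i, rfl⟩).1))
    (B := fun β => ∃ q q',
      LegTip N.toTrg (rots s0) N.exS (X0Bx683.flip N.toTrg J β) (Dsc z0 ρ) (N.ex i) q ∧
      LegTip N.toTrg (rots s0) N.exS (X0Bx683.flip N.toTrg J β) (Dsc z0 ρ) (N.ex j) q' ∧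
      ‖mid q - mid q'‖ < δ * ρ) (b := b)
    (fun β0 hβ0 hq0 => cond_out hW hs0 hρ hρ0 hd64 hR1 hδρ hv hJ hn hfr hij hβ0 hq0)
  refine h1.trans ?_
  have h3 := pr_le_one (V := Fs S z0 (4 * ρ)) (A := fun β =>
    ∃ q, LegTip N.toTrg (rots s0) N.exS (X0Bx683.flip N.toTrg J β) (Dsc z0 ρ) (N.ex i) q)
  nlinarith

/-- union over the pairs -/
theorem pairs_out {δ : ℝ} {V : Finset ℂ} {b : ℝ}
    (hb : 0 ≤ b) (h : ∀ i j : ZMod 3, i ≠ j → pr V (fun β =>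
      (∃ q, LegTip N.toTrg (rots s0) N.exS (X0Bx683.flip N.toTrg J β) (Dsc z0 ρ) (N.ex i) q) ∧
      ∃ q q', LegTip N.toTrg (rots s0) N.exS (X0Bx683.flip N.toTrg J β) (Dsc z0 ρ) (N.ex i) q ∧
        LegTip N.toTrg (rots s0) N.exS (X0Bx683.flip N.toTrg J β) (Dsc z0 ρ) (N.ex j) q' ∧
        ‖mid q - mid q'‖ < δ * ρ) ≤ b) :
    pr V (fun β => HO N s0 z0 ρ (X0Bx683.flip N.toTrg J β) ∧
      ¬ GO N s0 z0 ρ δ (X0Bx683.flip N.toTrg J β)) ≤ 9 * b := by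
  have h0 : pr V (fun β => HO N s0 z0 ρ (X0Bx683.flip N.toTrg J β) ∧
      ¬ GO N s0 z0 ρ δ (X0Bx683.flip N.toTrg J β)) ≤
      pr V (fun β => ∃ x ∈ (Finset.univ : Finset (ZMod 3 × ZMod 3)), x.1 ≠ x.2 ∧
        (∃ q, LegTip N.toTrg (rots s0) N.exS (X0Bx683.flip N.toTrg J β) (Dsc z0 ρ)
          (N.ex x.1) q) ∧
        ∃ q q', LegTip N.toTrg (rots s0) N.exS (X0Bx683.flip N.toTrg J β) (Dsc z0 ρ)
          (N.ex x.1) q ∧
        LegTip N.toTrg (rots s0) N.exS (X0Bx683.flip N.toTrg J β) (Dsc z0 ρ) (N.ex x.2) q' ∧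
        ‖mid q - mid q'‖ < δ * ρ) := by
    apply pr_mono
    rintro β _ ⟨h2, h3⟩
    choose q hq using h2
    have h4 : ¬ ∀ i j, i ≠ j → δ * ρ ≤ ‖mid (q i) - mid (q j)‖ := fun h =>
      h3 ⟨q, hq, h⟩
    push Not at h4
    obtain ⟨i, j, hij, h5⟩ := h4
    exact ⟨(i, j), Finset.mem_univ _, hij, ⟨q i, hq i⟩, q i, q j, hq i, hq j, h5⟩
  refine (h0.trans (pr_exists_le _ _)).trans ?_
  have hcard : (Finset.univ : Finset (ZMod 3 × ZMod 3)).card = 9 := by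
    rw [Finset.card_univ, Fintype.card_prod, ZMod.card]
  have h6 := Finset.sum_le_card_nsmul (Finset.univ : Finset (ZMod 3 × ZMod 3))
    (fun x => pr V (fun β => x.1 ≠ x.2 ∧
        (∃ q, LegTip N.toTrg (rots s0) N.exS (X0Bx683.flip N.toTrg J β) (Dsc z0 ρ)
          (N.ex x.1) q) ∧
        ∃ q q', LegTip N.toTrg (rots s0) N.exS (X0Bx683.flip N.toTrg J β) (Dsc z0 ρ)
          (N.ex x.1) q ∧
        LegTip N.toTrg (rots s0) N.exS (X0Bx683.flip N.toTrg J β) (Dsc z0 ρ) (N.ex x.2) q' ∧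
        ‖mid q - mid q'‖ < δ * ρ)) b ?_
  · rw [hcard, nsmul_eq_mul] at h6
    exact_mod_cast h6
  · rintro ⟨i, j⟩ _
    by_cases hij : i = j
    · refine le_trans (le_of_eq ?_) hb
      rw [← pr_false V]
      apply pr_congr
      intro β _
      simp only [iff_false]
      exact fun hh => hh.1 hij
    · refine le_trans (pr_mono ?_) (h i j hij)
      intro β _ hh
      exact hh.2

/-- **GAPO** -/
theorem gapo (hRB : RB) : GAPO := by
  obtain ⟨C, c1, Kc, hC, hc1, hKc, hfr⟩ := pr_fresh hRB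
  intro C4 hC4
  have hp0 : 0 < Real.exp (-C * (1 + C4)) := Real.exp_pos _
  have hp1 : Real.exp (-C * (1 + C4)) ≤ 1 := Real.exp_le_one_iff.2 (by nlinarith)
  have hfr' := fun S q r d hr n hD hM hd F X => hfr S q r d C4 hr hC4.le n hD hM hd F X
  clear hfr
  generalize Real.exp (-C * (1 + C4)) = p at *
  have hc1' : 0 < 1 / c1 := by positivity
  refine ⟨p, 1 / c1 + Kc + 1000, hp0, by positivity, ?_⟩
  intro S N z0 R R1 d b0 hW hKR t ht ρ δ hρR hv hδ hδ1 hKb hKd J hJ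
  have hρ0 : 0 < ρ := by
    have h1 := hv 0
    have h2 := norm_nonneg (vt t 0 - z0)
    linarith
  have hρ : ρ ≤ R := by linarith
  have hR0 := hW.Rpos
  have hd0 := hW.dns.dpos
  have hδρ : 0 < δ * ρ := by positivity
  have hδρ1 : δ * ρ ≤ ρ := by nlinarith
  have e1 : (1 / c1 + Kc + 1000) * R = 1 / c1 * R + Kc * R + 1000 * R := by ring
  have e2 : (1 / c1 + Kc + 1000) * d = 1 / c1 * d + Kc * d + 1000 * d := by ring
  have e3 : (1 / c1 + Kc + 1000) * b0 = 1 / c1 * b0 + Kc * b0 + 1000 * b0 := by ring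
  have p1 : 0 ≤ 1 / c1 * R := by positivity
  have p2 : 0 ≤ Kc * R := by positivity
  have p3 : 0 ≤ 1 / c1 * d := by positivity
  have p4 : 0 ≤ Kc * d := by positivity
  have hR1 : 2 * R ≤ R1 := by linarith
  have hd64 : 64 * d ≤ ρ := by linarith
  have hdc : d ≤ c1 * (δ * ρ) := by
    have h1 : 1 / c1 * d ≤ δ * ρ := by linarith
    rw [one_div, inv_mul_le_iff₀ hc1] at h1
    exact h1
  have hb : b0 ≤ δ * ρ := by
    rcases le_or_gt b0 0 with h | h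
    · linarith
    · have q1 : 0 ≤ 1 / c1 * b0 := by positivity
      have q2 : 0 ≤ Kc * b0 := by positivity
      linarith
  obtain ⟨n, hn1, hn2⟩ := scales hp0 hp1 hδ hδ1
  have hδp : 0 ≤ δ ^ p := Real.rpow_nonneg hδ.le _
  have hn : ∀ k, k < n → 2 ^ k * (δ * ρ) ≤ ρ / 32 := by
    intro k hk
    have h1 := mul_le_mul_of_nonneg_right (hn1 k hk) hρ0.le
    linarith
  have hge : ∀ k, δ * ρ ≤ 2 ^ k * (δ * ρ) := by
    intro k
    have h2 : (1 : ℝ) ≤ 2 ^ k := one_le_pow₀ (by norm_num)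
    exact le_mul_of_one_le_left hδρ.le h2
  have hfin := pairs_out (N := N) (z0 := z0) (ρ := ρ) (δ := δ) (J := J) (s0 := t)
      (V := Fs S z0 (4 * ρ)) (b := (1 - p) ^ n) (pow_nonneg (by linarith) n)
      (fun i j hij => pair_out hW ht hρR hρ0 hd64 hR1 hδρ hv hJ
        (pow_nonneg (by linarith) n) hn (fun q hq F X hF hX => by
          refine hfr' S q (δ * ρ) d hδρ n ?_ ?_ hdc F X hF hX
          · intro k hk
            have k2 := hn k (Finset.mem_range.1 hk)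
            refine LDns.shift hW.dns ?_
            have h2 : Kc * (2 ^ k * (δ * ρ)) ≤ Kc * R :=
              mul_le_mul_of_nonneg_left (by linarith) hKc.le
            linarith
          · intro k hk z hz
            have k2 := hn k (Finset.mem_range.1 hk)
            have h2 : Kc * (2 ^ k * (δ * ρ)) ≤ Kc * R :=
              mul_le_mul_of_nonneg_left (by linarith) hKc.le
            have h4 := norm_tri' z q z0
            have k1 := hge k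
            have h5 := hW.mesh z (by linarith) (2 ^ k * (δ * ρ)) (by linarith) (by linarith)
            exact h5 z (by rw [sub_self, norm_zero]; linarith)) hij)
  refine hfin.trans ?_
  have h1 : 0 ≤ 1 / c1 * δ ^ p := by positivity
  have h2 : 0 ≤ Kc * δ ^ p := by positivity
  have e4 : (1 / c1 + Kc + 1000) * δ ^ p = 1 / c1 * δ ^ p + Kc * δ ^ p + 1000 * δ ^ p := by ring
  linarith

end Crest.Agent.R143.GapOx54
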