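import Crest.Agent.R143.GateA_838

/-!
# Row 143, block X, leaf V+ (one gate), part B (helper838)

`Gate` : a horizontal chain with exactly one change of colour between two vertical chains, black on the
left, white on the right; `gate_pr` : probability `≥ p ^ 5`
-/

set_option autoImplicit false

noncomputable section

open scoped Classical

namespace Crest.Agent.R143.Gatex838

open Crest.Agent.R143.B0x346 Crest.Agent.R143.DelGx806 Crest.Agent.R143.DelRx806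
open Crest.Agent.R143.ToolWx838 Crest.Agent.R143.Blkx838 Crest.Agent.R143.ToolW2x838
open Crest.Agent.R143.ToolW3x838 Crest.Agent.R143.Circ4x838 Crest.Agent.R143.Harx315
open Crest.Agent.R143.RB0x838 Crest.Agent.R143.CircPx838

variable {S V : Finset ℂ} {z0 e : ℂ}

/-- one gate: vertical black chain `L` in the window `(x0, x1)`, vertical white chain `R` in the window
`(x3, x4)`, black chain `χ1` from `L`, white chain `χ2` to `R`, joined by one edge -/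
structure Gate (S : Finset ℂ) (z0 e : ℂ) (x0 x1 x3 x4 y0 y1 Y0 Y1 m : ℝ) (V β : Finset ℂ)
    (L R χ1 χ2 : List ℂ) : Prop where
  left : VC S z0 e x0 x1 Y0 Y1 m β L
  right : VC S z0 e x3 x4 Y0 Y1 m (V \ β) R
  n1 : χ1 ≠ []
  n2 : χ2 ≠ []
  d1 : ∀ p ∈ prs χ1, DE S p.1 p.2
  d2 : ∀ p ∈ prs χ2, DE S p.1 p.2
  c1 : ∀ s ∈ χ1, s ∈ β
  c2 : ∀ s ∈ χ2, s ∈ V ∧ s ∉ β
  b1 : ∀ s ∈ χ1, (x0 < X z0 e s ∧ X z0 e s < x3) ∧ y0 < Y z0 e s ∧ Y z0 e s < y1
  b2 : ∀ s ∈ χ2, (x1 < X z0 e s ∧ X z0 e s ≤ x4 + m) ∧ y0 < Y z0 e s ∧ Y z0 e s < y1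
  h1 : χ1.head n1 ∈ L
  h2 : χ2.getLast n2 ∈ R
  gate : DE S (χ1.getLast n1) (χ2.head n2)

variable {R : ℂ → ℂ → Prop} {A B U β β' : Finset ℂ}

theorem cl_of_chain {l : List ℂ} (hl : l ≠ []) (hh : Cl R A U β (l.head hl)) (hc : l.IsChain R)
    (h : ∀ s ∈ l, s ∈ A ∨ (s ∈ U ∧ s ∈ β)) : ∀ s ∈ l, Cl R A U β s := by
  induction l with
  | nil => exact absurd rfl hl
  | cons a l ih =>
    intro s hs
    rcases List.mem_cons.1 hs with rfl | hs
    · exact hh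
    · cases l with
      | nil => simp at hs
      | cons b l =>
        have hab : R a b := by
          rw [List.isChain_cons_cons] at hc
          exact hc.1
        have hc' : (b :: l).IsChain R := by
          rw [List.isChain_cons_cons] at hc
          exact hc.2
        have hb : Cl R A U β b := by
          rcases h b (by simp) with h1 | h1
          · exact Cl.seed h1
          · exact Cl.step hh hab h1.1 h1.2
        exact ih (by simp) hb hc' (fun s hs => h s (List.mem_cons_of_mem _ hs)) s hs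

/-- a Delaunay chain of allowed black sites with one member in the cluster is in the cluster -/
theorem cl_of_mem {l : List ℂ} (hc : ∀ p ∈ prs l, DE S p.1 p.2)
    (h : ∀ s ∈ l, s ∈ A ∨ (s ∈ U ∧ s ∈ β)) {t : ℂ} (ht : t ∈ l) (hcl : Cl (DE S) A U β t) :
    ∀ s ∈ l, Cl (DE S) A U β s := by
  intro s hs
  obtain ⟨m, hm⟩ := sub_chain ht hs
  have hne := hm.ne
  have hhead : m.head hne = t := by
    have := hm.head
    rw [List.head?_eq_some_head hne] at this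
    exact Option.some.inj this
  have hlast : s ∈ m := List.mem_of_getLast? hm.last
  refine cl_of_chain hne (by rw [hhead]; exact hcl) ?_ (fun u hu => h u (hm.mem u hu)) s hlast
  rw [isChain_iff_prs]
  intro p hp
  rcases hm.prs p hp with h1 | h1
  · exact hc p h1
  · exact (hc _ h1).symm

theorem Cl.mem (h : Cl R A U β e) : e ∈ A ∨ (e ∈ U ∧ e ∈ β) := by
  cases h with
  | seed h => exact Or.inl h
  | step _ _ h1 h2 => exact Or.inr ⟨h1, h2⟩

/-- numerical conditions on the windows -/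
structure Wn (x0 x1 x2 x3 x4 y0 y1 u0 u1 Y0 Y1 m : ℝ) : Prop where
  x01 : x0 < x1
  x12 : x1 < x2
  x23 : x2 + m < x3
  x34 : x3 < x4
  m0 : 0 < m
  y0u : y0 < u0 - m
  uy1 : u1 + m < y1
  u01 : u0 < u1
  Y0 : Y0 ≤ y0
  Y1 : y1 ≤ Y1

/-- seeds -/
def As (V : Finset ℂ) (z0 e : ℂ) (x0 y0 y1 m : ℝ) : Finset ℂ :=
  V.filter fun s => x0 - m ≤ X z0 e s ∧ X z0 e s ≤ x0 ∧ y0 < Y z0 e s ∧ Y z0 e s < y1

/-- allowed sites -/
def Us (V : Finset ℂ) (z0 e : ℂ) (x0 x3 y0 y1 : ℝ) : Finset ℂ :=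
  V.filter fun s => x0 < X z0 e s ∧ X z0 e s < x3 ∧ y0 < Y z0 e s ∧ Y z0 e s < y1

/-- left window -/
def Bs (V : Finset ℂ) (z0 e : ℂ) (x0 x1 Y0 Y1 m : ℝ) : Finset ℂ :=
  V.filter fun s => x0 < X z0 e s ∧ X z0 e s ≤ x1 ∧ Y0 - m ≤ Y z0 e s ∧ Y z0 e s ≤ Y1 + m

variable {x0 x1 x2 x3 x4 y0 y1 u0 u1 Y0 Y1 m : ℝ}

theorem mem_As {s : ℂ} : s ∈ As V z0 e x0 y0 y1 m ↔ s ∈ V ∧ x0 - m ≤ X z0 e s ∧ X z0 e s ≤ x0 ∧
    y0 < Y z0 e s ∧ Y z0 e s < y1 := by unfold As; simp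

theorem mem_Us {s : ℂ} : s ∈ Us V z0 e x0 x3 y0 y1 ↔ s ∈ V ∧ x0 < X z0 e s ∧ X z0 e s < x3 ∧
    y0 < Y z0 e s ∧ Y z0 e s < y1 := by unfold Us; simp

theorem mem_Bs {s : ℂ} : s ∈ Bs V z0 e x0 x1 Y0 Y1 m ↔ s ∈ V ∧ x0 < X z0 e s ∧ X z0 e s ≤ x1 ∧
    Y0 - m ≤ Y z0 e s ∧ Y z0 e s ≤ Y1 + m := by unfold Bs; simp

/-- explored set of the gate construction -/
def Jg (S V : Finset ℂ) (z0 e : ℂ) (x0 x1 x3 y0 y1 Y0 Y1 m : ℝ) : Finset ℂ → Finset ℂ :=
  JC (DE S) (As V z0 e x0 y0 y1 m) (Bs V z0 e x0 x1 Y0 Y1 m) (Us V z0 e x0 x3 y0 y1) V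

theorem jg_stop : IsStop V (Jg S V z0 e x0 x1 x3 y0 y1 Y0 Y1 m) :=
  jc_stop (Finset.filter_subset _ _)

/-- the explored set is on the left of `x3` -/
theorem jg_lt (w : Wn x0 x1 x2 x3 x4 y0 y1 u0 u1 Y0 Y1 m) {s : ℂ}
    (hs : s ∈ Jg S V z0 e x0 x1 x3 y0 y1 Y0 Y1 m β) : X z0 e s < x3 := by
  unfold Jg at hs
  rw [mem_JC] at hs
  have h1 := w.x01
  have h2 := w.x12
  have h3 := w.x23
  have h4 := w.m0
  rcases hs.2 with h | h | ⟨h, -⟩
  · rw [mem_Bs] at h; linarith [h.2.2.1]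
  · rcases h.mem with h | ⟨h, -⟩
    · rw [mem_As] at h; linarith [h.2.2.1]
    · rw [mem_Us] at h; exact h.2.2.1
  · rw [mem_Us] at h; exact h.2.2.1

/-- the event on the left: three black crossings -/
def E1 (S : Finset ℂ) (z0 e : ℂ) (x0 x1 x2 u0 u1 Y0 Y1 m : ℝ) (β : Finset ℂ) : Prop :=
  (∃ h, HC S z0 e x0 x2 u0 u1 m β h) ∧ (∃ l, VC S z0 e x0 x1 Y0 Y1 m β l) ∧
    ∃ l, VC S z0 e x1 x2 u0 u1 m β l

/-- the sites of the horizontal chain and of the second vertical chain are in the cluster -/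
theorem e1_cl (w : Wn x0 x1 x2 x3 x4 y0 y1 u0 u1 Y0 Y1 m) (hS : GP (S : Set ℂ)) (he : e ≠ 0)
    (hβ : β ⊆ V) {h l : List ℂ} (h1 : HC S z0 e x0 x2 u0 u1 m β h)
    (h2 : VC S z0 e x1 x2 u0 u1 m β l) :
    (∀ s ∈ h, Cl (DE S) (As V z0 e x0 y0 y1 m) (Us V z0 e x0 x3 y0 y1) β s) ∧
    ∀ s ∈ l, Cl (DE S) (As V z0 e x0 y0 y1 m) (Us V z0 e x0 x3 y0 y1) β s := by
  have w01 := w.x01
  have w12 := w.x12
  have w23 := w.x23
  have wm := w.m0
  have wy0 := w.y0u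
  have wy1 := w.uy1
  have k1 : ∀ s ∈ h, s ∈ As V z0 e x0 y0 y1 m ∨ (s ∈ Us V z0 e x0 x3 y0 y1 ∧ s ∈ β) := by
    intro s hs
    have a1 := h1.strip s hs
    have a2 := h1.loc s hs
    rcases le_or_gt (X z0 e s) x0 with hx | hx
    · exact Or.inl (mem_As.2 ⟨hβ (h1.col s hs), a2.1, hx, by linarith, by linarith⟩)
    · exact Or.inr ⟨mem_Us.2 ⟨hβ (h1.col s hs), hx, by linarith, by linarith, by linarith⟩,
        h1.col s hs⟩
  have k2 : ∀ s ∈ h, Cl (DE S) (As V z0 e x0 y0 y1 m) (Us V z0 e x0 x3 y0 y1) β s := by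
    refine cl_of_chain h1.ne ?_ ((isChain_iff_prs _).2 h1.adj) k1
    rcases k1 _ (List.head_mem h1.ne) with h | ⟨h, -⟩
    · exact Cl.seed h
    · exact absurd (mem_Us.1 h).2.1 (not_lt.2 h1.left)
  refine ⟨k2, ?_⟩
  obtain ⟨t, ht1, ht2⟩ := h1.meet hS he h2 w01.le le_rfl le_rfl le_rfl
  refine cl_of_mem h2.adj (fun s hs => Or.inr ⟨mem_Us.2 ⟨hβ (h2.col s hs), ?_, ?_, ?_, ?_⟩,
    h2.col s hs⟩) ht2 (k2 t ht1)
  · linarith [(h2.strip s hs).1]
  · linarith [(h2.strip s hs).2]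
  · linarith [(h2.loc s hs).1]
  · linarith [(h2.loc s hs).2]

/-- **deterministic core**: left event for `β0`, fresh white crossings for `β'`, colours `β` equal to
`β0` on the explored set and to `β'` outside -/
theorem gate_det (w : Wn x0 x1 x2 x3 x4 y0 y1 u0 u1 Y0 Y1 m) (hS : GP (S : Set ℂ)) (he : e ≠ 0)
    {β0 β' β : Finset ℂ} (hβ0 : β0 ⊆ V) (hE : E1 S z0 e x0 x1 x2 u0 u1 Y0 Y1 m β0)
    (h1 : ∀ s ∈ Jg S V z0 e x0 x1 x3 y0 y1 Y0 Y1 m β0, (s ∈ β ↔ s ∈ β0))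
    (h2 : ∀ s ∈ V, s ∉ Jg S V z0 e x0 x1 x3 y0 y1 Y0 Y1 m β0 → (s ∈ β ↔ s ∈ β'))
    {l R : List ℂ} (hl : HC S z0 e x1 x4 u0 u1 m (V \ β') l)
    (hR : VC S z0 e x3 x4 Y0 Y1 m (V \ β') R) :
    ∃ L χ1 χ2, Gate S z0 e x0 x1 x3 x4 y0 y1 Y0 Y1 m V β L R χ1 χ2 := by
  obtain ⟨⟨h, hh⟩, ⟨L, hL⟩, L', hL'⟩ := hE
  obtain ⟨-, hcl⟩ := e1_cl w hS he hβ0 hh hL'
  have w01 := w.x01
  have w12 := w.x12
  have w23 := w.x23
  have w34 := w.x34
  have wm := w.m0
  have wy0 := w.y0u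
  have wy1 := w.uy1
  have wY0 := w.Y0
  have wY1 := w.Y1
  have wu := w.u01
  set J := Jg S V z0 e x0 x1 x3 y0 y1 Y0 Y1 m β0 with hJ
  have clJ : ∀ s, Cl (DE S) (As V z0 e x0 y0 y1 m) (Us V z0 e x0 x3 y0 y1) β0 s → s ∈ J := by
    intro s hs
    rw [hJ]
    unfold Jg
    rw [mem_JC]
    refine ⟨?_, Or.inr (Or.inl hs)⟩
    rcases hs.mem with h | ⟨h, -⟩
    · exact (mem_As.1 h).1
    · exact (mem_Us.1 h).1
  have hmL : ∀ s ∈ L, s ∈ J := by
    intro s hs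
    rw [hJ]
    unfold Jg
    rw [mem_JC]
    have hV := hβ0 (hL.col s hs)
    refine ⟨hV, Or.inl (mem_Bs.2 ⟨hV, (hL.strip s hs).1, (hL.strip s hs).2.le, (hL.loc s hs).1,
      (hL.loc s hs).2⟩)⟩
  have hLc : VC S z0 e x0 x1 Y0 Y1 m β L := ⟨hL.ne, hL.adj, fun s hs =>
    (h1 s (hmL s hs)).2 (hL.col s hs), hL.strip, hL.loc, hL.left, hL.right⟩
  have hRJ : ∀ s ∈ R, s ∉ J := fun s hs hsJ => by
    have := jg_lt w hsJ
    linarith [(hR.strip s hs).1]
  have hwh : ∀ s ∈ V \ β', s ∉ J → s ∈ V \ β := by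
    intro s hs hsJ
    rw [Finset.mem_sdiff] at hs ⊢
    exact ⟨hs.1, fun hc => hs.2 ((h2 s hs.1 hsJ).1 hc)⟩
  have hRc : VC S z0 e x3 x4 Y0 Y1 m (V \ β) R := ⟨hR.ne, hR.adj, fun s hs =>
    hwh s (hR.col s hs) (hRJ s hs), hR.strip, hR.loc, hR.left, hR.right⟩
  obtain ⟨p, hp1, hp2⟩ := hl.meet hS he hL' le_rfl (by linarith) le_rfl le_rfl
  obtain ⟨q, hq1, hq2⟩ := hl.meet hS he hR (by linarith) le_rfl (by linarith) (by linarith)
  have hpJ := clJ p (hcl p hp2)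
  have hqJ := hRJ q hq2
  obtain ⟨n, hn⟩ := sub_chain hp1 hq1
  have hne := hn.ne
  have hnh : n.head hne = p := by
    have := hn.head
    rw [List.head?_eq_some_head hne] at this
    exact Option.some.inj this
  have hnl : n.getLast hne = q := by
    have := hn.last
    rw [List.getLast?_eq_some_getLast hne] at this
    exact Option.some.inj this
  have hnd : ∀ r ∈ prs n, DE S r.1 r.2 := by
    intro r hr
    rcases hn.prs r hr with h | h
    · exact hl.adj r h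
    · exact (hl.adj _ h).symm
  obtain ⟨n1, y, y', n2, hsp, hy, hno⟩ := last_split (P := fun s => s ∈ J) hne (by rw [hnh]; exact hpJ)
    (by rw [hnl]; exact hqJ)
  -- the tail
  have htl : ∀ s ∈ y :: y' :: n2, s ∈ l := by
    intro s hs
    refine hn.mem s ?_
    rw [hsp]
    exact List.mem_append_right _ hs
  have htd : ∀ r ∈ prs (y :: y' :: n2), DE S r.1 r.2 := by
    intro r hr
    refine hnd r ?_
    rw [hsp, prs_append, List.mem_append]
    exact Or.inr hr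
  have hlastq : (y :: y' :: n2).getLast (by simp) = q := by
    rw [← hnl]
    simp only [hsp]
    rw [List.getLast_append_of_ne_nil]
  have hXy : x1 < X z0 e y := by
    by_contra hcon
    push Not at hcon
    obtain ⟨t, ht1, ht2⟩ := cross_e hS he (P := y :: y' :: n2) (Q := L') (by simp) hL'.ne htd hL'.adj
      (x0 := x1) (x1 := x2) (y0 := u0) (y1 := u1) (fun a ha => hl.strip a (htl a ha))
      hL'.strip hcon (by
        rw [hlastq]
        linarith [(hR.strip q hq2).1]) hL'.left hL'.right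
    have htJ := clJ t (hcl t ht2)
    rcases List.mem_cons.1 ht1 with h | h
    · rw [h] at ht2
      linarith [(hL'.strip y ht2).1]
    · exact hno t h htJ
  -- white part
  have hX1 : ∀ s ∈ y' :: n2, x1 < X z0 e s := by
    intro s hs
    by_contra hcon
    push Not at hcon
    have hsl := htl s (List.mem_cons_of_mem _ hs)
    have hV := (Finset.mem_sdiff.1 (hl.col s hsl)).1
    have a1 := hl.strip s hsl
    have a2 := hl.loc s hsl
    apply hno s hs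
    change s ∈ J
    rw [hJ]
    unfold Jg
    rw [mem_JC]
    refine ⟨hV, ?_⟩
    rcases le_or_gt (X z0 e s) x0 with hx | hx
    · exact Or.inr (Or.inl (Cl.seed (mem_As.2 ⟨hV, by linarith, hx, by linarith, by linarith⟩)))
    · exact Or.inl (mem_Bs.2 ⟨hV, hx, hcon, by linarith, by linarith⟩)
  have hW : ∀ s ∈ y' :: n2, s ∈ V ∧ s ∉ β := by
    intro s hs
    have := hwh s (hl.col s (htl s (List.mem_cons_of_mem _ hs))) (hno s hs)
    rw [Finset.mem_sdiff] at this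
    exact this
  have hb2 : ∀ s ∈ y :: y' :: n2, (x1 < X z0 e s ∧ X z0 e s ≤ x4 + m) ∧ y0 < Y z0 e s ∧
      Y z0 e s < y1 := by
    intro s hs
    have a1 := hl.strip s (htl s hs)
    have a2 := hl.loc s (htl s hs)
    refine ⟨⟨?_, a2.2⟩, by linarith, by linarith⟩
    rcases List.mem_cons.1 hs with h | h
    · rw [h]; exact hXy
    · exact hX1 s h
  -- black part: from a seed to a site of the cluster with first coordinate beyond `x1`
  have black : ∀ c : List ℂ, ∀ hc : c ≠ [], X z0 e (c.head hc) ≤ x0 → x1 ≤ X z0 e (c.getLast hc) →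
      (∀ r ∈ prs c, DE S r.1 r.2) → (∀ s ∈ c, y0 < Y z0 e s ∧ Y z0 e s < y1) →
      ∃ g ∈ L, g ∈ c.tail := by
    intro c hc c1 c2 c3 c4
    obtain ⟨g, hg1, hg2⟩ := cross_e hS he hc hL.ne c3 hL.adj (x0 := x0) (x1 := x1) (y0 := y0)
      (y1 := y1) c4 hL.strip c1 c2 (hL.left.trans wY0) (wY1.trans hL.right)
    refine ⟨g, hg2, ?_⟩
    cases c with
    | nil => exact absurd rfl hc
    | cons a c =>
      rcases List.mem_cons.1 hg1 with h | h
      · exfalso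
        have := (hL.strip g hg2).1
        rw [h] at this
        simp only [List.head_cons] at c1
        linarith
      · exact h
  have hyV : y ∈ V := (Finset.mem_sdiff.1 (hl.col y (htl y (by simp)))).1
  have hyJ : y ∈ As V z0 e x0 y0 y1 m ∨ y ∈ Bs V z0 e x0 x1 Y0 Y1 m ∨
      Cl (DE S) (As V z0 e x0 y0 y1 m) (Us V z0 e x0 x3 y0 y1) β0 y ∨
      (y ∈ Us V z0 e x0 x3 y0 y1 ∧ ∃ x, Cl (DE S) (As V z0 e x0 y0 y1 m)
        (Us V z0 e x0 x3 y0 y1) β0 x ∧ DE S x y) := by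
    have hy' : y ∈ J := hy
    rw [hJ] at hy'
    unfold Jg at hy'
    rw [mem_JC] at hy'
    exact Or.inr hy'.2
  -- assembling
  have fin : ∀ (c : List ℂ) (g x : ℂ) (χ : List ℂ) (nχ : χ ≠ []), (∀ r ∈ prs c, DE S r.1 r.2) →
      (∀ s ∈ c, s ∈ J ∧ s ∈ Us V z0 e x0 x3 y0 y1 ∧ s ∈ β0) → g ∈ c → g ∈ L → x ∈ c →
      (∀ r ∈ prs χ, DE S r.1 r.2) → (∀ s ∈ χ, s ∈ V ∧ s ∉ β) →
      (∀ s ∈ χ, (x1 < X z0 e s ∧ X z0 e s ≤ x4 + m) ∧ y0 < Y z0 e s ∧ Y z0 e s < y1) →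
      χ.getLast nχ ∈ R → DE S x (χ.head nχ) →
      ∃ L χ1 χ2, Gate S z0 e x0 x1 x3 x4 y0 y1 Y0 Y1 m V β L R χ1 χ2 := by
    intro c g x χ nχ k1 k2 k3 k4 k5 k6 k7 k8 k9 k10
    obtain ⟨χ1, hχ⟩ := sub_chain k3 k5
    have hχn := hχ.ne
    have e1 : χ1.head hχn = g := by
      have := hχ.head
      rw [List.head?_eq_some_head hχn] at this
      exact Option.some.inj this
    have e2 : χ1.getLast hχn = x := by
      have := hχ.last
      rw [List.getLast?_eq_some_getLast hχn] at this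
      exact Option.some.inj this
    refine ⟨L, χ1, χ, hLc, hRc, hχn, nχ, ?_, k6, ?_, k7, ?_, k8, by rw [e1]; exact k4, k9,
      by rw [e2]; exact k10⟩
    · intro r hr
      rcases hχ.prs r hr with h | h
      · exact k1 r h
      · exact (k1 _ h).symm
    · intro s hs
      have := k2 s (hχ.mem s hs)
      exact (h1 s this.1).2 this.2.2
    · intro s hs
      have := mem_Us.1 (k2 s (hχ.mem s hs)).2.1
      exact ⟨⟨this.2.1, this.2.2.1⟩, this.2.2.2⟩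
  have chainCl : ∀ a : ℂ, ∀ c : List ℂ, a ∈ As V z0 e x0 y0 y1 m → (a :: c).IsChain (DE S) →
      (∀ s ∈ c, s ∈ Us V z0 e x0 x3 y0 y1 ∧ s ∈ β0) →
      ∀ s ∈ c, s ∈ J ∧ s ∈ Us V z0 e x0 x3 y0 y1 ∧ s ∈ β0 := by
    intro a c ha hc hcs s hs
    refine ⟨clJ s ?_, hcs s hs⟩
    refine cl_of_chain (l := a :: c) (by simp) (Cl.seed ha) hc ?_ s (List.mem_cons_of_mem _ hs)
    intro t ht
    rcases List.mem_cons.1 ht with h | h
    · exact Or.inl (h ▸ ha)
    · exact Or.inr (hcs t h)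
  have tail_dE : ∀ a : ℂ, ∀ c : List ℂ, (∀ r ∈ prs (a :: c), DE S r.1 r.2) →
      ∀ r ∈ prs c, DE S r.1 r.2 := by
    intro a c h r hr
    cases c with
    | nil => simp at hr
    | cons b c => exact h r (by rw [prs]; exact List.mem_cons_of_mem _ hr)
  have yA : ∀ a ∈ As V z0 e x0 y0 y1 m, y0 < Y z0 e a ∧ Y z0 e a < y1 := fun a ha =>
    (mem_As.1 ha).2.2.2
  by_cases hyc : Cl (DE S) (As V z0 e x0 y0 y1 m) (Us V z0 e x0 x3 y0 y1) β0 y
  · obtain ⟨a, c, ha, hc, hlast, hcs⟩ := hyc.chain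
    have hcd := (isChain_iff_prs _).1 hc
    obtain ⟨g, hgL, hgc⟩ := black (a :: c) (by simp) (mem_As.1 ha).2.2.1 (by rw [hlast]; exact hXy.le) hcd
      (by
        intro s hs
        rcases List.mem_cons.1 hs with h | h
        · rw [h]; exact yA a ha
        · exact (mem_Us.1 (hcs s h).1).2.2.2)
    simp only [List.tail_cons] at hgc
    have hcn : c ≠ [] := by rintro rfl; simp at hgc
    have hyc' : y ∈ c := by
      rw [List.getLast_cons hcn] at hlast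
      rw [← hlast]
      exact List.getLast_mem hcn
    refine fin c g y (y' :: n2) (by simp) (tail_dE a c hcd) (chainCl a c ha hc hcs) hgc hgL hyc'
      (tail_dE y _ htd) hW (fun s hs => hb2 s (List.mem_cons_of_mem _ hs)) ?_ (htd (y, y') (by simp [prs]))
    rw [← List.getLast_cons (a := y) (by simp), hlastq]
    exact hq2
  · rcases hyJ with h | h | h | ⟨hyU, x, hx, hxy⟩
    · exfalso; linarith [(mem_As.1 h).2.2.1]
    · exfalso; linarith [(mem_Bs.1 h).2.2.1]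
    · exact absurd h hyc
    have hy0 : y ∉ β0 := fun hc => hyc (Cl.step hx hxy hyU hc)
    have hyβ : y ∉ β := fun hc => hy0 ((h1 y hy).1 hc)
    obtain ⟨a, c, ha, hc, hlast, hcs⟩ := hx.chain
    have hcd := (isChain_iff_prs _).1 hc
    have hcd' : ∀ r ∈ prs ((a :: c) ++ [y]), DE S r.1 r.2 := by
      rw [← isChain_iff_prs, List.isChain_append]
      refine ⟨hc, by simp, ?_⟩
      intro u hu v hv
      simp only [List.head?_cons, Option.mem_def, Option.some.injEq] at hv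
      subst hv
      rw [List.getLast?_eq_some_getLast (by simp)] at hu
      simp only [Option.mem_def, Option.some.injEq] at hu
      rw [← hu, hlast]
      exact hxy
    obtain ⟨g, hgL, hgc⟩ := black ((a :: c) ++ [y]) (by simp) (mem_As.1 ha).2.2.1
      (by rw [List.getLast_append_of_ne_nil _ (by simp)]; simpa using hXy.le) hcd'
      (by
        intro s hs
        rcases List.mem_append.1 hs with hs | hs
        · rcases List.mem_cons.1 hs with h | h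
          · rw [h]; exact yA a ha
          · exact (mem_Us.1 (hcs s h).1).2.2.2
        · rw [List.mem_singleton] at hs
          rw [hs]
          exact (mem_Us.1 hyU).2.2.2)
    have hgc' : g ∈ c := by
      rw [List.cons_append, List.tail_cons, List.mem_append] at hgc
      rcases hgc with h | h
      · exact h
      · rw [List.mem_singleton] at h
        exfalso
        have := (hL.strip g hgL).2
        rw [h] at this
        linarith
    have hcn : c ≠ [] := by rintro rfl; simp at hgc'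
    have hxc : x ∈ c := by
      rw [List.getLast_cons hcn] at hlast
      rw [← hlast]
      exact List.getLast_mem hcn
    refine fin c g x (y :: y' :: n2) (by simp) (tail_dE a c hcd) (chainCl a c ha hc hcs) hgc' hgL hxc
      htd ?_ hb2 (by rw [hlastq]; exact hq2) hxy
    intro s hs
    rcases List.mem_cons.1 hs with h | h
    · rw [h]; exact ⟨hyV, hyβ⟩
    · exact hW s h

/-- the left event is decided by the exploration -/
theorem e1_dec (w : Wn x0 x1 x2 x3 x4 y0 y1 u0 u1 Y0 Y1 m) (hS : GP (S : Set ℂ)) (he : e ≠ 0) :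
    Decided V (Jg S V z0 e x0 x1 x3 y0 y1 Y0 Y1 m) (E1 S z0 e x0 x1 x2 u0 u1 Y0 Y1 m) := by
  have key : ∀ β β', β ⊆ V → β' ⊆ V →
      β ∩ Jg S V z0 e x0 x1 x3 y0 y1 Y0 Y1 m β = β' ∩ Jg S V z0 e x0 x1 x3 y0 y1 Y0 Y1 m β →
      E1 S z0 e x0 x1 x2 u0 u1 Y0 Y1 m β → E1 S z0 e x0 x1 x2 u0 u1 Y0 Y1 m β' := by
    intro β β' hβ hβ' heq hE
    obtain ⟨⟨h, hh⟩, ⟨L, hL⟩, L', hL'⟩ := hE
    obtain ⟨c1, c2⟩ := e1_cl w hS he hβ hh hL'
    have clJ : ∀ s, Cl (DE S) (As V z0 e x0 y0 y1 m) (Us V z0 e x0 x3 y0 y1) β s →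
        s ∈ Jg S V z0 e x0 x1 x3 y0 y1 Y0 Y1 m β := by
      intro s hs
      unfold Jg
      rw [mem_JC]
      refine ⟨?_, Or.inr (Or.inl hs)⟩
      rcases hs.mem with h | ⟨h, -⟩
      · exact (mem_As.1 h).1
      · exact (mem_Us.1 h).1
    have tr : ∀ s, s ∈ Jg S V z0 e x0 x1 x3 y0 y1 Y0 Y1 m β → s ∈ β → s ∈ β' := by
      intro s hs hsβ
      have : s ∈ β ∩ Jg S V z0 e x0 x1 x3 y0 y1 Y0 Y1 m β := Finset.mem_inter.2 ⟨hsβ, hs⟩
      rw [heq] at this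
      exact (Finset.mem_inter.1 this).1
    refine ⟨⟨h, hh.ne, hh.adj, fun s hs => tr s (clJ s (c1 s hs)) (hh.col s hs), hh.strip, hh.loc,
      hh.left, hh.right⟩, ⟨L, hL.ne, hL.adj, fun s hs => tr s ?_ (hL.col s hs), hL.strip, hL.loc,
      hL.left, hL.right⟩, L', hL'.ne, hL'.adj, fun s hs => tr s (clJ s (c2 s hs)) (hL'.col s hs),
      hL'.strip, hL'.loc, hL'.left, hL'.right⟩
    unfold Jg
    rw [mem_JC]
    have hV := hβ (hL.col s hs)
    exact ⟨hV, Or.inl (mem_Bs.2 ⟨hV, (hL.strip s hs).1, (hL.strip s hs).2.le, (hL.loc s hs).1,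
      (hL.loc s hs).2⟩)⟩
  intro β β' hβ hβ' h
  have hJ := jg_stop.stop β β' hβ hβ' h
  exact ⟨key β β' hβ hβ' h, key β' β hβ' hβ (by rw [hJ]; exact h.symm)⟩

/-- **one gate with probability at least `p ^ 5`** -/
theorem gate_pr (w : Wn x0 x1 x2 x3 x4 y0 y1 u0 u1 Y0 Y1 m) (hS : GP (S : Set ℂ)) (he : e ≠ 0)
    {p : ℝ} (hp : 0 ≤ p) (h1 : p ≤ pr V (fun β => ∃ l, HC S z0 e x0 x2 u0 u1 m β l))
    (h2 : p ≤ pr V (fun β => ∃ l, VC S z0 e x0 x1 Y0 Y1 m β l))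
    (h3 : p ≤ pr V (fun β => ∃ l, VC S z0 e x1 x2 u0 u1 m β l))
    (h4 : p ≤ pr V (fun β => ∃ l, HC S z0 e x1 x4 u0 u1 m β l))
    (h5 : p ≤ pr V (fun β => ∃ l, VC S z0 e x3 x4 Y0 Y1 m β l)) :
    p ^ 5 ≤ pr V (fun β => ∃ L R χ1 χ2, Gate S z0 e x0 x1 x3 x4 y0 y1 Y0 Y1 m V β L R χ1 χ2) := by
  have a1 : p ^ 3 ≤ pr V (E1 S z0 e x0 x1 x2 u0 u1 Y0 Y1 m) := by
    have b1 := harris_up (V := V) (up_vc V S z0 e x0 x1 Y0 Y1 m) (up_vc V S z0 e x1 x2 u0 u1 m)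
    have b2 := harris_up (V := V) (up_hc V S z0 e x0 x2 u0 u1 m)
      ((up_vc V S z0 e x0 x1 Y0 Y1 m).and (up_vc V S z0 e x1 x2 u0 u1 m))
    have b3 : p * p ≤ pr V (fun β => (∃ l, VC S z0 e x0 x1 Y0 Y1 m β l) ∧
        ∃ l, VC S z0 e x1 x2 u0 u1 m β l) := (mul_le_mul h2 h3 hp pr_nonneg).trans b1
    calc p ^ 3 = p * (p * p) := by ring
      _ ≤ _ := mul_le_mul h1 b3 (mul_nonneg hp hp) pr_nonneg
      _ ≤ _ := b2
  set WW : Finset ℂ → Prop := fun β => (∃ l, HC S z0 e x1 x4 u0 u1 m (V \ β) l) ∧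
    ∃ l, VC S z0 e x3 x4 Y0 Y1 m (V \ β) l with hWW
  have a2 : p ^ 2 ≤ pr V WW := by
    have b1 := harris_up (V := V) (up_hc V S z0 e x1 x4 u0 u1 m) (up_vc V S z0 e x3 x4 Y0 Y1 m)
    have b2 : pr V WW = pr V (fun β => (∃ l, HC S z0 e x1 x4 u0 u1 m β l) ∧
        ∃ l, VC S z0 e x3 x4 Y0 Y1 m β l) :=
      pr_flip V (fun β => (∃ l, HC S z0 e x1 x4 u0 u1 m β l) ∧ ∃ l, VC S z0 e x3 x4 Y0 Y1 m β l)
    rw [b2]
    calc p ^ 2 = p * p := by ring
      _ ≤ _ := mul_le_mul h4 h5 hp pr_nonneg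
      _ ≤ _ := b1
  have hG := stop_ge' (V := V) (J := Jg S V z0 e x0 x1 x3 y0 y1 Y0 Y1 m) jg_stop (e1_dec w hS he)
    (B := fun β => ∃ L R χ1 χ2, Gate S z0 e x0 x1 x3 x4 y0 y1 Y0 Y1 m V β L R χ1 χ2) (b := p ^ 2) ?_
  · calc p ^ 5 = p ^ 2 * p ^ 3 := by ring
      _ ≤ p ^ 2 * pr V (E1 S z0 e x0 x1 x2 u0 u1 Y0 Y1 m) := mul_le_mul_of_nonneg_left a1 (by positivity)
      _ ≤ _ := hG
      _ ≤ _ := pr_mono fun β _ h => h.2
  · intro β0 hβ0 hE
    set J := Jg S V z0 e x0 x1 x3 y0 y1 Y0 Y1 m β0 with hJ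
    have hJV : J ⊆ V := jg_stop.sub β0 hβ0
    refine a2.trans ?_
    rw [pr_sum hJV (A := WW)]
    have hle : ∀ γ ∈ J.powerset, pr (V \ J) (fun β => WW (β ∪ γ)) ≤
        pr (V \ J) (fun β => ∃ L R χ1 χ2, Gate S z0 e x0 x1 x3 x4 y0 y1 Y0 Y1 m V
          (β ∪ (β0 ∩ J)) L R χ1 χ2) := by
      intro γ hγ
      rw [Finset.mem_powerset] at hγ
      refine pr_mono fun β hβ hw => ?_
      obtain ⟨⟨l, hl⟩, R, hR⟩ := hw
      have q1 : ∀ s ∈ Jg S V z0 e x0 x1 x3 y0 y1 Y0 Y1 m β0, (s ∈ β ∪ (β0 ∩ J) ↔ s ∈ β0) := by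
        intro s hs
        rw [← hJ] at hs
        rw [Finset.mem_union, Finset.mem_inter]
        constructor
        · rintro (h | h)
          · exact absurd hs (Finset.mem_sdiff.1 (hβ h)).2
          · exact h.1
        · intro h
          exact Or.inr ⟨h, hs⟩
      have q2 : ∀ s ∈ V, s ∉ Jg S V z0 e x0 x1 x3 y0 y1 Y0 Y1 m β0 →
          (s ∈ β ∪ (β0 ∩ J) ↔ s ∈ β ∪ γ) := by
        intro s hsV hs
        rw [← hJ] at hs
        rw [Finset.mem_union, Finset.mem_union, Finset.mem_inter]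
        constructor
        · rintro (h | h)
          · exact Or.inl h
          · exact absurd h.2 hs
        · rintro (h | h)
          · exact Or.inl h
          · exact absurd (hγ h) hs
      obtain ⟨L, χ1, χ2, hg⟩ := gate_det w hS he hβ0 hE q1 q2 hl hR
      exact ⟨L, R, χ1, χ2, hg⟩
    have hsum := Finset.sum_le_sum hle
    rw [Finset.sum_const, Finset.card_powerset, nsmul_eq_mul] at hsum
    rw [div_le_iff₀ (by positivity)]
    refine hsum.trans (le_of_eq ?_)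
    push_cast
    ring

end Crest.Agent.R143.Gatex838
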