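import Crest.Agent.R143.HEP_571
import Crest.Agent.R143.LayU_416
import Crest.Agent.R143.R10P_923

/-!
# Row 143, R10: GATE LINK (helper571, second hand of helper845; statement of helper969, helper923)

`gate_link` : near every point of a half edge of `u` there is the foot of a gate of the fine path of
helper416's layout which may be used (`Use` of helper923), with the label of the half edge.
-/

set_option autoImplicit false

noncomputable section

open scoped Classical

namespace Crest.Agent.R143.GateLx571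

open Set
open Crest.Agent.R158.Sp896
open Crest.Agent.R143.PolyUx346
open Crest.Agent.R143.ArcPx571
open Crest.Agent.R143.HEx571
open Crest.Agent.R143.HEPx571
open Crest.Agent.R143.UKCx969 (Mk)
open Crest.Agent.R143.TileRx228 (cz gz ge cen)
open Crest.Agent.R143.Layx416 (g Lay)
open Crest.Agent.R143.LayUx416 (LayU)
open Crest.Agent.R143.R10Px923 (Use)

variable {u : Poly} {m M : ℕ} {p W : ℤ → ℤ × ℤ} {A e : ℤ → ℤ}

/-- position of the fine path over the coarse edge `k` -/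
theorem pos (H : LayU u m M p W A e) (k : ℤ) : ∃ t0 : ℤ, -1 ≤ t0 ∧ t0 ≤ 1 ∧
    ∀ b, A k ≤ b → b ≤ A (k + 1) →
      W b = (m : ℤ) • p k + Finex422.ro (p (k + 1) - p k) + (t0 + (b - A k)) • (p (k + 1) - p k) := by
  have F := H.fine
  have hA := F.Alt k (k + 1) (by omega)
  obtain ⟨t0, h1, h2, h3⟩ := F.exact k (A k) le_rfl hA.le
  refine ⟨t0, h1, ?_, ?_⟩
  · have hv := F.vert k
    have hst := F.cl.step k
    rw [h3] at hv
    simp only [Prod.fst_add, Prod.snd_add, Prod.smul_fst, Prod.smul_snd, smul_eq_mul,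
      Finex422.ro, Prod.fst_sub, Prod.snd_sub] at hv
    obtain ⟨hv1, hv2⟩ := hv
    rw [abs_le] at hv1 hv2
    rcases hst with ⟨e1, e2⟩ | ⟨e1, e2⟩ | ⟨e1, e2⟩ | ⟨e1, e2⟩ <;> rw [e1, e2] at hv1 hv2 <;>
      ring_nf at hv1 hv2 <;> omega
  · intro b hb hb'
    rw [F.seg k b hb hb', h3]
    module

/-- the direction and the foot of a gate over the coarse edge `k` -/
theorem gate_pos (H : LayU u m M p W A e) {h : ℝ} (hh : (m : ℝ) * h = u.s) (k : ℤ) :
    ∃ t0 : ℤ, -1 ≤ t0 ∧ t0 ≤ 1 ∧ ∀ b, A k + 1 ≤ b → b ≤ A (k + 1) →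
      ge W b = cz (p (k + 1) - p k) ∧
      gz h W b - h * (Complex.I * ge W b) =
        pt u.s (p k) + ((h * (t0 + (b - A k) - 1 / 2) : ℝ) : ℂ) * cz (p (k + 1) - p k) := by
  obtain ⟨t0, h1, h2, h3⟩ := pos H k
  refine ⟨t0, h1, h2, fun b hb hb' => ?_⟩
  have e1 := h3 b (by omega) hb'
  have e2 := h3 (b - 1) (by omega) (by omega)
  have e3 : W b - W (b - 1) = p (k + 1) - p k := by
    rw [e1, e2]
    module
  refine ⟨by unfold ge; rw [e3], ?_⟩
  unfold gz ge
  rw [e3, e1, e2]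
  have h2c : ((2 : ℝ) : ℂ) = 2 := by norm_num
  rw [← h2c]
  apply Complex.ext
  · simp only [Complex.sub_re, Complex.add_re, Complex.mul_re, Complex.ofReal_re,
      Complex.ofReal_im, Complex.div_ofReal_re, Complex.div_ofReal_im, Complex.I_re, Complex.I_im,
      Complex.mul_im, cz, pt, Prod.fst_add, Prod.snd_add, Prod.smul_fst, Prod.smul_snd,
      smul_eq_mul, Finex422.ro, Prod.fst_sub, Prod.snd_sub, Complex.add_im]
    push_cast
    rw [← hh]
    ring
  · simp only [Complex.sub_im, Complex.add_im, Complex.mul_re, Complex.ofReal_re,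
      Complex.ofReal_im, Complex.div_ofReal_re, Complex.div_ofReal_im, Complex.I_re, Complex.I_im,
      Complex.mul_im, cz, pt, Prod.fst_add, Prod.snd_add, Prod.smul_fst, Prod.smul_snd,
      smul_eq_mul, Finex422.ro, Prod.fst_sub, Prod.snd_sub, Complex.add_re]
    push_cast
    rw [← hh]
    ring

/-- nearest integer in an interval -/
theorem near_int {lo hi : ℤ} (h : lo ≤ hi) (x : ℝ) : ∃ r : ℤ, lo ≤ r ∧ r ≤ hi ∧
    (|(r : ℝ) - x| ≤ 1 / 2 ∨ (r = lo ∧ x ≤ lo) ∨ (r = hi ∧ (hi : ℝ) ≤ x)) := by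
  have hr := abs_sub_round x
  rw [abs_le] at hr
  by_cases c1 : round x < lo
  · refine ⟨lo, le_rfl, h, Or.inr (Or.inl ⟨rfl, ?_⟩)⟩
    have : ((round x : ℤ) : ℝ) + 1 ≤ lo := by exact_mod_cast c1
    linarith [hr.2]
  · push Not at c1
    by_cases c2 : hi < round x
    · refine ⟨hi, h, le_rfl, Or.inr (Or.inr ⟨rfl, ?_⟩)⟩
      have : (hi : ℝ) + 1 ≤ ((round x : ℤ) : ℝ) := by exact_mod_cast c2
      linarith [hr.1]
    · push Not at c2
      refine ⟨round x, c1, c2, Or.inl ?_⟩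
      rw [abs_le]
      constructor <;> linarith [hr.1, hr.2]

/-- `Use` for a gate in the right half of its coarse edge -/
theorem use_of (H : LayU u m M p W A e) (a : J u) {k r : ℤ} (hk : k = -((a.1 / 2 : ℕ) : ℤ) - 1)
    (h6 : 6 ≤ r) (h6' : r + 6 ≤ A (k + 1) - A k)
    (hev : a.1 % 2 = 0 → (A (k + 1) - A k) / 2 + 6 ≤ r)
    (hodd : a.1 % 2 = 1 → r + 6 ≤ (A (k + 1) - A k) / 2) :
    Use A e (A k + r) k (3 - ((hl u a : ℕ) : ℤ)) := by
  obtain ⟨g1, g2⟩ := hl_iff.1 (rfl : hl u a = hl u a)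
  obtain ⟨b1, b2⟩ := H.e_base (hl u a)
  have hlt := H.lay.elt (3 - ((hl u a : ℕ) : ℤ))
  set i : ℕ := a.1 / 2 with hi
  set j : ℤ := 3 - ((hl u a : ℕ) : ℤ) with hj
  have mono := H.lay.Amono.monotone
  refine ⟨⟨by omega, by omega⟩, ?_, ?_⟩
  · -- lower mark gate
    by_cases c : k = e j
    · have hev' := hev (by omega)
      unfold Layx416.g
      rw [← c]
      omega
    · have h1 : e j + 1 ≤ k := by omega
      have h2 := mono h1
      have h3 := (H.lay.g_mem j).2.2.2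
      omega
  · by_cases c : k = e (j + 1)
    · have hodd' := hodd (by omega)
      unfold Layx416.g
      rw [← c]
      omega
    · have h1 : k + 1 ≤ e (j + 1) := by omega
      have h2 := mono h1
      have h3 := (H.lay.g_mem (j + 1)).2.2.1
      omega

/-- **GATE LINK** -/
theorem gate_link (H : LayU u m M p W A e) {h : ℝ} (hh : (m : ℝ) * h = u.s) (hm : 30 ≤ m)
    (a : J u) {t : ℝ} (h0 : 0 ≤ t) (h1 : t ≤ u.s / 2) :
    ∃ (b k j : ℤ) (t' : ℝ), Use A e b k j ∧
      gz h W b - h * (Complex.I * ge W b) = hM u a + (t' : ℂ) * hw u a ∧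
      Complex.I * ge W b = hnu u a ∧ lz u a = -(j : ZMod 3) ∧ |t' - t| ≤ 10 * h ∧
      3 * h ≤ t' ∧ t' ≤ u.s / 2 - 3 * h := by
  have hpos := H.h_pos hh
  set i : ℕ := a.1 / 2 with hi
  set k : ℤ := -((i : ℕ) : ℤ) - 1 with hk
  obtain ⟨t0, t1, t2, hg⟩ := gate_pos H hh k
  obtain ⟨q1, q2⟩ := H.pv' i
  have hlen := H.fine.Alen k
  have hdir : cz (p (k + 1) - p k) = -dr u i := by
    rw [hk, q1, q2]
    apply Complex.ext <;> simp [cz, dr, drv]
  have hpt : pt u.s (p k) = u.mid i + ((u.s / 2 : ℝ) : ℂ) * dr u i := by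
    rw [hk, q1, ← ep_one, mid_eq]
    have := ep_mid (s := u.s) (v := u.v) i (1 / 2)
    rw [show (1 / 2 + 1 / 2 : ℝ) = 1 by norm_num] at this
    rw [this]
    unfold dr
    push_cast
    ring
  have hlab : lz u a = -((3 - ((hl u a : ℕ) : ℤ) : ℤ) : ZMod 3) := by
    unfold lz
    push_cast
    have : (3 : ZMod 3) = 0 := by decide
    rw [this]
    ring
  set Ln : ℤ := A (k + 1) - A k with hLn
  have hL1 : (m : ℝ) - 2 ≤ Ln := by
    have := hlen.1
    exact_mod_cast this
  have hL2 : (Ln : ℝ) ≤ m + 2 := by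
    have := hlen.2
    exact_mod_cast this
  have hq : 2 * (Ln / 2) ≤ Ln ∧ Ln ≤ 2 * (Ln / 2) + 1 := by omega
  have hq1 : 2 * ((Ln / 2 : ℤ) : ℝ) ≤ Ln := by exact_mod_cast hq.1
  have hq2 : (Ln : ℝ) ≤ 2 * ((Ln / 2 : ℤ) : ℝ) + 1 := by exact_mod_cast hq.2
  have hmZ : (30 : ℤ) ≤ m := by exact_mod_cast hm
  have ht0 : (-1 : ℝ) ≤ t0 := by exact_mod_cast t1
  have ht1 : (t0 : ℝ) ≤ 1 := by exact_mod_cast t2
  have hs : u.s / 2 = h * (m / 2) := by rw [← hh]; ring
  have hth0 : 0 ≤ t / h := by positivity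
  have hth1 : t / h ≤ m / 2 := by
    rw [div_le_iff₀ hpos]
    rw [hs] at h1
    linarith
  have hth : t = h * (t / h) := by field_simp
  rcases Nat.mod_two_eq_zero_or_one a.1 with ha | ha
  · -- even
    obtain ⟨r, r1, r2, r3⟩ := near_int (lo := Ln / 2 + 6) (hi := Ln - 6) (by omega)
      (t / h + m / 2 + 1 / 2 - t0)
    have r1' : ((Ln / 2 : ℤ) : ℝ) + 6 ≤ r := by exact_mod_cast r1
    have r2' : (r : ℝ) ≤ Ln - 6 := by exact_mod_cast r2
    obtain ⟨f1, f2⟩ := hg (A k + r) (by omega) (by omega)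
    refine ⟨A k + r, k, 3 - ((hl u a : ℕ) : ℤ), h * (t0 + r - 1 / 2 - m / 2),
      use_of H a hk (by omega) (by omega) (fun _ => by omega) (fun h' => by omega), ?_, ?_, hlab,
      ?_, ?_, ?_⟩
    · rw [f2, hpt, hdir]
      unfold hM hw
      rw [if_pos ha, ← hi]
      have e : A k + r - A k = r := by ring
      have e' : (((A k + r : ℤ) : ℝ) - ((A k : ℤ) : ℝ)) = r := by push_cast; ring
      rw [e', hs]
      push_cast
      ring
    · rw [f1, hdir]
      unfold hnu
      rw [← hi]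
      ring
    · have e : h * (t0 + r - 1 / 2 - m / 2) - t = h * (r - (t / h + m / 2 + 1 / 2 - t0)) := by
        rw [mul_sub h (r : ℝ), mul_sub h (t / h + m / 2 + 1 / 2), mul_add, mul_add, ← hth]
        ring
      rw [e, abs_mul, abs_of_pos hpos, mul_comm (10 : ℝ) h]
      refine mul_le_mul_of_nonneg_left ?_ hpos.le
      rcases r3 with r3 | ⟨r3, r4⟩ | ⟨r3, r4⟩
      · linarith
      · have r3' : (r : ℝ) = ((Ln / 2 : ℤ) : ℝ) + 6 := by exact_mod_cast r3
        push_cast at r4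
        rw [abs_le]
        constructor <;> linarith
      · have r3' : (r : ℝ) = Ln - 6 := by exact_mod_cast r3
        push_cast at r4
        rw [abs_le]
        constructor <;> linarith
    · have : 3 ≤ (t0 : ℝ) + r - 1 / 2 - m / 2 := by linarith
      nlinarith
    · rw [hs]
      have : (t0 : ℝ) + r - 1 / 2 - m / 2 ≤ m / 2 - 3 := by linarith
      nlinarith
  · -- odd
    obtain ⟨r, r1, r2, r3⟩ := near_int (lo := 6) (hi := Ln / 2 - 6) (by omega)
      (m / 2 - t0 + 1 / 2 - t / h)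
    have r1' : (6 : ℝ) ≤ r := by exact_mod_cast r1
    have r2' : (r : ℝ) ≤ ((Ln / 2 : ℤ) : ℝ) - 6 := by exact_mod_cast r2
    obtain ⟨f1, f2⟩ := hg (A k + r) (by omega) (by omega)
    refine ⟨A k + r, k, 3 - ((hl u a : ℕ) : ℤ), h * (m / 2 - t0 - r + 1 / 2),
      use_of H a hk (by omega) (by omega) (fun h' => by omega) (fun _ => by omega), ?_, ?_, hlab,
      ?_, ?_, ?_⟩
    · rw [f2, hpt, hdir]
      unfold hM hw
      rw [if_neg (by omega), ← hi]
      have e' : (((A k + r : ℤ) : ℝ) - ((A k : ℤ) : ℝ)) = r := by push_cast; ring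
      rw [e', hs]
      push_cast
      ring
    · rw [f1, hdir]
      unfold hnu
      rw [← hi]
      ring
    · have e : h * (m / 2 - t0 - r + 1 / 2) - t = -(h * (r - (m / 2 - t0 + 1 / 2 - t / h))) := by
        rw [mul_sub h (r : ℝ), mul_sub h (m / 2 - t0 + 1 / 2), ← hth]
        ring
      rw [e, abs_neg, abs_mul, abs_of_pos hpos, mul_comm (10 : ℝ) h]
      refine mul_le_mul_of_nonneg_left ?_ hpos.le
      rcases r3 with r3 | ⟨r3, r4⟩ | ⟨r3, r4⟩
      · linarith
      · have r3' : (r : ℝ) = 6 := by exact_mod_cast r3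
        push_cast at r4
        rw [abs_le]
        constructor <;> linarith
      · have r3' : (r : ℝ) = ((Ln / 2 : ℤ) : ℝ) - 6 := by exact_mod_cast r3
        push_cast at r4
        rw [abs_le]
        constructor <;> linarith
    · have : 3 ≤ (m : ℝ) / 2 - t0 - r + 1 / 2 := by linarith
      nlinarith
    · rw [hs]
      have : (m : ℝ) / 2 - t0 - r + 1 / 2 ≤ m / 2 - 3 := by linarith
      nlinarith

end Crest.Agent.R143.GateLx571
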