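import Crest.Agent.R143.Law_872
import Crest.Agent.R143.CB_838

/-!
# Row 143, leaf D3F (helper749): gauge + law + scales

* `XCh S V p r1 r2 J l` : `l` is a chain of sites of `V` without edges of `J`, from the disc of radius
  `r1` around `p` to the complement of the disc of radius `r2`
* `Gauge S V J` : on the edges inside `V` the join `J` is the boundary of a set of sites
* `gauge_of_ref` : one gauge (for one join) gives a gauge for all joins with the same marks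
* `gauge_law` : number of joins with such a chain `≤ 2 · pr V (Arm) · #joins`
* `arm_multi` : `pr V (Arm) ≤ (1 - exp (- C (1 + C4))) ^ m`, `m` dyadic scales
* `x_law` : both together
-/

set_option autoImplicit false

noncomputable section

open scoped Classical

namespace Crest.Agent.R143.GauAx749

open Crest.Agent.R143.B0x346 Crest.Agent.R143.DelGx806 Crest.Agent.R143.DelRx806
open Crest.Agent.R143.JColx54 Crest.Agent.R143.JCol2x54
open Crest.Agent.R143.ToolWx838 Crest.Agent.R143.Blkx838 Crest.Agent.R143.ToolW2x838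
open Crest.Agent.R143.ToolW3x838 Crest.Agent.R143.Circ4x838 Crest.Agent.R143.Harx315
open Crest.Agent.R143.RB0x838 Crest.Agent.R143.CircPx838 Crest.Agent.R143.Gatex838
open Crest.Agent.R143.CBx838 Crest.Agent.R143.J8x872

local notation "flp" => Crest.Agent.R143.X0Bx683.flip
local notation "bdy" => Crest.Agent.R143.X0Bx683.bd

variable {S : Finset ℂ} {G : Trg ℂ} {kl : Set (ℂ × ℂ)} {O : Set (ℂ × ℂ × ℂ)}
  {D : Set (ℂ × ℂ)} {J J' : Finset (ℂ × ℂ)} {V β β' : Finset ℂ} {p : ℂ} {r1 r2 : ℝ}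

/-- a chain of sites of `V` without edges of `J` across an annulus -/
structure XCh (S V : Finset ℂ) (p : ℂ) (r1 r2 : ℝ) (J : Finset (ℂ × ℂ)) (l : List ℂ) : Prop where
  ne : l ≠ []
  adj : ∀ q ∈ prs l, DE S q.1 q.2
  mem : ∀ s ∈ l, s ∈ V
  free : JFree J l
  left : ‖l.head ne - p‖ ≤ r1
  right : r2 ≤ ‖l.getLast ne - p‖

/-- on the edges inside `V` the join is the boundary of a set of sites -/
def Gauge (S V : Finset ℂ) (J : Finset (ℂ × ℂ)) : Prop :=
  ∃ φ : Finset ℂ, ∀ a ∈ V, ∀ b ∈ V, Adj S a b →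
    (((a, b) ∈ J ∨ (b, a) ∈ J) ↔ ¬ (a ∈ φ ↔ b ∈ φ))

/-- `JFree` chain = monochromatic chain -/
theorem mono_of_free {φ : Finset ℂ} (hφ : ∀ a ∈ V, ∀ b ∈ V, Adj S a b →
    (((a, b) ∈ J ∨ (b, a) ∈ J) ↔ ¬ (a ∈ φ ↔ b ∈ φ))) {l : List ℂ} (h : XCh S V p r1 r2 J l) :
    (∀ s ∈ l, s ∈ φ) ∨ ∀ s ∈ l, s ∉ φ := by
  obtain ⟨ne, adj, mem, free, -, -⟩ := h
  have key : ∀ l : List ℂ, (∀ q ∈ prs l, DE S q.1 q.2) → (∀ s ∈ l, s ∈ V) → JFree J l →
      (∀ s ∈ l, s ∈ φ) ∨ ∀ s ∈ l, s ∉ φ := by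
    intro l
    induction l with
    | nil => intro _ _ _; left; simp
    | cons a l ih =>
      cases l with
      | nil =>
        intro _ _ _
        by_cases ha : a ∈ φ
        · left; simpa using ha
        · right; simpa using ha
      | cons b l =>
        intro h1 h2 h3
        have h1' : ∀ q ∈ prs (b :: l), DE S q.1 q.2 := fun q hq => h1 q (by
          rw [prs_cons]; exact List.mem_cons_of_mem _ hq)
        have h2' : ∀ s ∈ b :: l, s ∈ V := fun s hs => h2 s (List.mem_cons_of_mem _ hs)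
        have h3' : JFree J (b :: l) := fun q hq => h3 q (by
          rw [prs_cons]; exact List.mem_cons_of_mem _ hq)
        have hab : DE S a b := h1 (a, b) (by rw [prs_cons]; exact List.mem_cons_self)
        have hf := h3 (a, b) (by rw [prs_cons]; exact List.mem_cons_self)
        have ha : a ∈ V := h2 a List.mem_cons_self
        have hb : b ∈ V := h2 b (List.mem_cons_of_mem _ List.mem_cons_self)
        have e := hφ a ha b hb hab
        have e' : (a ∈ φ ↔ b ∈ φ) := by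
          by_contra hc
          rcases e.2 hc with h | h
          · exact hf.1 h
          · exact hf.2 h
        rcases ih h1' h2' h3' with h | h
        · left
          intro s hs
          rcases List.mem_cons.1 hs with rfl | hs
          · exact e'.2 (h b List.mem_cons_self)
          · exact h s hs
        · right
          intro s hs
          rcases List.mem_cons.1 hs with rfl | hs
          · exact fun h' => h b List.mem_cons_self (e'.1 h')
          · exact h s hs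
  exact key l adj mem free

/-- a flip in the gauge -/
theorem gauge_flip (hG : G.T = delT S) {φ : Finset ℂ} (hφ : ∀ a ∈ V, ∀ b ∈ V, Adj S a b →
    (((a, b) ∈ J ∨ (b, a) ∈ J) ↔ ¬ (a ∈ φ ↔ b ∈ φ)))
    (hD : ∀ x ∈ D, x ∉ bdy G β) (hJ : IsJoin G kl O D J) :
    ∀ a ∈ V, ∀ b ∈ V, Adj S a b →
      (((a, b) ∈ flp G J β ∨ (b, a) ∈ flp G J β) ↔ ¬ (a ∈ symmDiff φ β ↔ b ∈ symmDiff φ β)) := by
  intro a ha b hb hab
  rw [occ_flip hG hD hJ hab, hφ a ha b hb hab, Finset.mem_symmDiff, Finset.mem_symmDiff]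
  tauto

private theorem prop1 {A1 A2 B1 B2 C1 C2 E1 E2 F1 F2 : Prop}
    (h2 : (B1 ∨ B2) ↔ ¬ (E1 ↔ E2))
    (h3 : ¬ (F1 ↔ F2) ↔ ((B1 ∧ ¬C1 ∨ C1 ∧ ¬B1) ∨ (B2 ∧ ¬C2 ∨ C2 ∧ ¬B2)))
    (h5 : (B1 ↔ C1) ∨ (¬A1 ∧ ¬A2)) (h6 : (B2 ↔ C2) ∨ (¬A1 ∧ ¬A2))
    (h7 : ¬A1 ∧ ¬A2 → (B1 ↔ B2) ∧ (C1 ↔ C2)) :
    (C1 ∨ C2) ↔ ¬ ((E1 ∧ ¬F1 ∨ F1 ∧ ¬E1) ↔ (E2 ∧ ¬F2 ∨ F2 ∧ ¬E2)) := by
  have key : ((C1 ∨ C2) ↔ ((B1 ∨ B2) ↔ (F1 ↔ F2))) := by
    rcases h5 with h5 | h5
    · rcases h6 with h6 | h6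
      · clear h2 h7
        have e : F1 ↔ F2 := by
          by_contra hc
          rcases h3.1 hc with (h | h) | (h | h)
          · exact h.2 (h5.1 h.1)
          · exact h.2 (h5.2 h.1)
          · exact h.2 (h6.1 h.1)
          · exact h.2 (h6.2 h.1)
        simp only [h5, h6, e, iff_true]
      · obtain ⟨h8, h9⟩ := h7 h6
        have h10 : B2 ↔ C2 := h8.symm.trans (h5.trans h9)
        have e : F1 ↔ F2 := by
          by_contra hc
          rcases h3.1 hc with (h | h) | (h | h)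
          · exact h.2 (h5.1 h.1)
          · exact h.2 (h5.2 h.1)
          · exact h.2 (h10.1 h.1)
          · exact h.2 (h10.2 h.1)
        simp only [h5, h10, e, iff_true]
    · obtain ⟨h8, h9⟩ := h7 h5
      simp only [← h8, ← h9, or_self] at h3 ⊢
      by_cases b : B1 <;> by_cases c : C1 <;> by_cases f : F1 <;> by_cases f' : F2 <;>
        simp [b, c, f, f'] at h3 ⊢
  rw [key, h2]
  clear key h2 h3 h5 h6 h7
  by_cases e : E1 <;> by_cases e' : E2 <;> by_cases f : F1 <;> by_cases f' : F2 <;>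
    simp [e, e', f, f']

/-- reference gauge -/
theorem gauge_of_ref (hS : GP (S : Set ℂ)) (hG : G.T = delT S)
    (hJ : IsJoin G kl O D J) (hJ' : IsJoin G kl O D J') (hg : Gauge S V J) : Gauge S V J' := by
  obtain ⟨φ, hφ⟩ := hg
  have h1 := (JCardx872.xor_same hJ hJ').1
  rw [symmDiff_self] at h1
  obtain ⟨σ, hσ⟩ := join_col hS hG (D := ∅) (fun a b h => absurd h (Set.notMem_empty _)) h1
  refine ⟨symmDiff φ (S.filter fun s => σ s = true), fun a ha b hb hab => ?_⟩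
  have h2 := hφ a ha b hb hab
  have h3 := hσ a b hab
  have hm := hab.mem
  rw [Finset.mem_symmDiff, Finset.mem_symmDiff, Finset.mem_filter, Finset.mem_filter]
  simp only [hm.1, hm.2, true_and]
  rw [Finset.mem_symmDiff, Finset.mem_symmDiff] at h3
  have h4 : (σ a ≠ σ b) ↔ ¬ ((σ a = true) ↔ (σ b = true)) := by
    generalize σ a = u, σ b = v
    revert u v
    decide
  rw [h4] at h3
  -- membership of the marks is the same in both joins
  have h5 : ((a, b) ∈ J ↔ (a, b) ∈ J') ∨ ((a, b) ∉ D ∧ (b, a) ∉ D) := by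
    by_cases hd : (a, b) ∈ D
    · left; exact ⟨fun _ => (hJ'.mark _ _ hd).1, fun _ => (hJ.mark _ _ hd).1⟩
    · by_cases hd' : (b, a) ∈ D
      · left
        exact ⟨fun h => absurd h (hJ.mark _ _ hd').2, fun h => absurd h (hJ'.mark _ _ hd').2⟩
      · right; exact ⟨hd, hd'⟩
  have h6 : ((b, a) ∈ J ↔ (b, a) ∈ J') ∨ ((a, b) ∉ D ∧ (b, a) ∉ D) := by
    by_cases hd : (a, b) ∈ D
    · left
      exact ⟨fun h => absurd h (hJ.mark _ _ hd).2, fun h => absurd h (hJ'.mark _ _ hd).2⟩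
    · by_cases hd' : (b, a) ∈ D
      · left; exact ⟨fun _ => (hJ'.mark _ _ hd').1, fun _ => (hJ.mark _ _ hd').1⟩
      · right; exact ⟨hd, hd'⟩
  have h7 : ((a, b) ∉ D ∧ (b, a) ∉ D) → (((a, b) ∈ J ↔ (b, a) ∈ J) ∧ ((a, b) ∈ J' ↔ (b, a) ∈ J')) :=
    fun h => ⟨hJ.sym a b h.1 h.2, hJ'.sym a b h.1 h.2⟩
  exact prop1 h2 h3 h5 h6 h7

/-- a `J`-free chain of `V` after the flip is an arm of the flipped colour or of the other one -/
theorem law_one (hS : GP (S : Set ℂ)) (hG : G.T = delT S) (hVS : V ⊆ S)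
    (hD : ∀ β, β ⊆ V → ∀ x ∈ D, x ∉ bdy G β) (hJ : IsJoin G kl O D J) (hg : Gauge S V J) :
    pr V (fun β => ∃ l, XCh S V p r1 r2 (flp G J β) l) ≤
      2 * pr V (fun β => ∃ l, Arm S p r1 r2 β l) := by
  obtain ⟨φ, hφ⟩ := hg
  have h0 : φ ∩ V ⊆ V := Finset.inter_subset_right
  have h1 : pr V (fun β => ∃ l, XCh S V p r1 r2 (flp G J β) l) ≤
      pr V (fun β => (∃ l, Arm S p r1 r2 (symmDiff β (φ ∩ V)) l) ∨
        ∃ l, Arm S p r1 r2 (V \ symmDiff β (φ ∩ V)) l) := by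
    refine pr_mono fun β hβ ⟨l, hl⟩ => ?_
    rcases mono_of_free (gauge_flip hG hφ (hD β hβ) hJ) hl with h | h
    · left
      refine ⟨l, hl.ne, hl.adj, fun s hs => ?_, hl.left, hl.right⟩
      have h2 := h s hs
      have h3 := hl.mem s hs
      rw [Finset.mem_symmDiff] at h2 ⊢
      rw [Finset.mem_inter]
      tauto
    · right
      refine ⟨l, hl.ne, hl.adj, fun s hs => ?_, hl.left, hl.right⟩
      have h2 := h s hs
      have h3 := hl.mem s hs
      rw [Finset.mem_symmDiff] at h2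
      rw [Finset.mem_sdiff, Finset.mem_symmDiff, Finset.mem_inter]
      tauto
  refine h1.trans ?_
  have h2 : ∀ P : Finset ℂ → Prop, pr V (fun β => P (symmDiff β (φ ∩ V))) = pr V P := by
    intro P
    rw [← XW1x315.ex_ind, ← XW1x315.ex_ind]
    exact XW1x315.ex_symm h0 fun β => if P β then (1 : ℝ) else 0
  rw [h2 fun β => (∃ l, Arm S p r1 r2 β l) ∨ ∃ l, Arm S p r1 r2 (V \ β) l]
  refine pr_or_le.trans ?_
  rw [pr_flip V (fun β => ∃ l, Arm S p r1 r2 β l)]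
  linarith

/-- **gauge law** -/
theorem gauge_law (hS : GP (S : Set ℂ)) (hG : G.T = delT S) (hVS : V ⊆ S) (hV : FreeS S kl V)
    (hD : ∀ β, β ⊆ V → ∀ x ∈ D, x ∉ bdy G β) (hg : ∀ J ∈ joins G kl O D, Gauge S V J) :
    (((joins G kl O D).filter fun J => ∃ l, XCh S V p r1 r2 J l).card : ℝ) ≤
      2 * pr V (fun β => ∃ l, Arm S p r1 r2 β l) * ((joins G kl O D).card : ℝ) := by
  rw [card_joins hS hG hV hD]
  refine (Finset.sum_le_sum fun J hJ =>
    law_one hS hG hVS hD (JCardx872.mem_joins.1 hJ) (hg J hJ)).trans ?_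
  rw [Finset.sum_const, nsmul_eq_mul, mul_comm]

/-- **gauge law, one reference join** -/
theorem gauge_law' (hS : GP (S : Set ℂ)) (hG : G.T = delT S) (hVS : V ⊆ S) (hV : FreeS S kl V)
    (hD : ∀ β, β ⊆ V → ∀ x ∈ D, x ∉ bdy G β) {J0 : Finset (ℂ × ℂ)} (hJ0 : IsJoin G kl O D J0)
    (hg : Gauge S V J0) :
    (((joins G kl O D).filter fun J => ∃ l, XCh S V p r1 r2 J l).card : ℝ) ≤
      2 * pr V (fun β => ∃ l, Arm S p r1 r2 β l) * ((joins G kl O D).card : ℝ) :=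
  gauge_law hS hG hVS hV hD fun _ hJ => gauge_of_ref hS hG hJ0 (JCardx872.mem_joins.1 hJ) hg

/-! ### scales -/

/-- **many scales**: `m` dyadic annuli between `s` and `R` -/
theorem arm_multi (hRB : RB) : ∃ C c1 K : ℝ, 0 < C ∧ 0 < c1 ∧ 0 < K ∧
    ∀ (S : Finset ℂ) (z0 : ℂ) (s R d C4 : ℝ) (m : ℕ), 0 < s → 4 * 2 ^ m * s ≤ R → 0 ≤ C4 →
    LDns S z0 (K * R) d → (∀ r, s ≤ r → r ≤ R → Mesh S z0 (K * r) r C4) → d ≤ c1 * s →
    ∀ V : Finset ℂ, V ⊆ S →
    pr V (fun β => ∃ l, Arm S z0 s R β l) ≤ (1 - Real.exp (-C * (1 + C4))) ^ m := by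
  obtain ⟨C, c1, K, hC, hc1, hK, h⟩ := no_circ_white hRB
  refine ⟨C, c1, K, hC, hc1, hK, fun S z0 s R d C4 m hs hsR hC4 hD hM hd V hV => ?_⟩
  refine (pr_le_of_sub hV fun β β' h1 ⟨l, hl⟩ => ⟨l, hl.ne, hl.adj, fun s hs => h1 (hl.col s hs),
    hl.left, hl.right⟩).trans ?_
  have hms : 0 < (2 : ℝ) ^ m * s := by positivity
  have hsR' : 4 * (2 ^ m * s) ≤ R := by rw [← mul_assoc]; exact hsR
  have hpow : ∀ j ∈ Finset.range m, (2 : ℝ) ^ j * s ≤ 2 ^ m * s ∧ s ≤ 2 ^ j * s := by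
    intro j hj
    rw [Finset.mem_range] at hj
    constructor
    · exact mul_le_mul_of_nonneg_right (pow_le_pow_right₀ (by norm_num) hj.le) hs.le
    · exact le_mul_of_one_le_left hs.le (one_le_pow₀ (by norm_num))
  have h1 := h S z0 s d C4 hs hC4 (Finset.range m)
    (fun j hj => LDns.mono hD (by
      have := (hpow j hj).1
      have h2 : (2 : ℝ) ^ j * s ≤ R := by linarith
      exact mul_le_mul_of_nonneg_left h2 hK.le))
    (fun j hj => hM _ (hpow j hj).2 (by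
      have := (hpow j hj).1
      linarith)) hd S subset_rfl (fun j _ s hs _ _ => hs)
  rw [Finset.card_range] at h1
  refine le_trans (pr_mono fun β _ ⟨l, hl⟩ j hj ⟨c, hc⟩ => ?_) h1
  rw [Finset.mem_range] at hj
  have hj2 := hpow j (Finset.mem_range.2 hj)
  have hr : 0 < 2 ^ j * s := by positivity
  refine arm_blocked (z0 := z0) (r := 2 ^ j * s) hD.gp hr (β := β) (γ := S \ β)
    Finset.disjoint_sdiff (l := l) (c := c) ?_ hc
  refine ⟨hl.ne, hl.adj, hl.col, hl.left.trans hj2.2, le_trans ?_ hl.right⟩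
  linarith [hj2.1]

/-- **gauge law + scales** -/
theorem x_law (hRB : RB) : ∃ C c1 K : ℝ, 0 < C ∧ 0 < c1 ∧ 0 < K ∧
    ∀ (S : Finset ℂ) (G : Trg ℂ) (kl : Set (ℂ × ℂ)) (O : Set (ℂ × ℂ × ℂ)) (D : Set (ℂ × ℂ))
      (V : Finset ℂ) (J0 : Finset (ℂ × ℂ)), GP (S : Set ℂ) → G.T = delT S → V ⊆ S → FreeS S kl V →
    (∀ β, β ⊆ V → ∀ x ∈ D, x ∉ bdy G β) → IsJoin G kl O D J0 → Gauge S V J0 →
    ∀ (z0 : ℂ) (s R d C4 : ℝ) (m : ℕ), 0 < s → 4 * 2 ^ m * s ≤ R → 0 ≤ C4 →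
    LDns S z0 (K * R) d → (∀ r, s ≤ r → r ≤ R → Mesh S z0 (K * r) r C4) → d ≤ c1 * s →
    (((joins G kl O D).filter fun J => ∃ l, XCh S V z0 s R J l).card : ℝ) ≤
      2 * (1 - Real.exp (-C * (1 + C4))) ^ m * ((joins G kl O D).card : ℝ) := by
  obtain ⟨C, c1, K, hC, hc1, hK, h⟩ := arm_multi hRB
  refine ⟨C, c1, K, hC, hc1, hK, ?_⟩
  intro S G kl O D V J0 hS hG hVS hV hD hJ0 hg z0 s R d C4 m hs hsR hC4 hL hM hd
  have h1 := h S z0 s R d C4 m hs hsR hC4 hL hM hd V hVS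
  refine (gauge_law' hS hG hVS hV hD hJ0 hg).trans ?_
  have h2 : (0 : ℝ) ≤ (joins G kl O D).card := Nat.cast_nonneg _
  have h3 := mul_le_mul_of_nonneg_left h1 (zero_le_two (α := ℝ))
  exact mul_le_mul_of_nonneg_right h3 h2

end Crest.Agent.R143.GauAx749
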