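import Crest.Agent.R143.GauA_749
import Crest.Agent.R143.Ex_395

/-!
# Row 143, leaf D3F, second part (helper749): the reference gauge

* `killV G V` : network with the edges inside `V` killed
* `fan_in`, `fan_hull` : the triangles at a site `v ∉ V` are linked, or linked to a hull edge at `v`
* `Out S V a b` : connection by Delaunay edges between sites which are not in `V`
* `esc` : a triangle with a vertex connected outside `V` to a hull site is linked to a hull edge
* `gauge_of_conn` : gauge for the joins with marks on the hull and at the inner edge `(a, b)`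
* `gauge_of_tri` : gauge for the joins with the odd triangle `t`
* `gauge_hull` : gauge for the joins with marks on the hull
-/

set_option autoImplicit false

noncomputable section

open scoped Classical

namespace Crest.Agent.R143.GauBx749

open Crest.Agent.R143.B0x346 Crest.Agent.R143.DelGx806 Crest.Agent.R143.DelRx806
open Crest.Agent.R143.JColx54 Crest.Agent.R143.JCol2x54
open Crest.Agent.R143.Exx395 Crest.Agent.R143.GauAx749
open Crest.Agent.R143.Ex0x922 (LAdj Lk ExM)

variable {S : Finset ℂ} {G : Trg ℂ} {kl : Set (ℂ × ℂ)} {O : Set (ℂ × ℂ × ℂ)}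
  {D : Set (ℂ × ℂ)} {J J' : Finset (ℂ × ℂ)} {V : Finset ℂ}

/-- the edges inside `V` are killed -/
def killV (G : Trg ℂ) (V : Finset ℂ) : Net ℂ where
  T := G.T
  rot := G.rot
  uniq := G.uniq
  ne := G.ne
  kl := {p | p.1 ∈ V ∧ p.2 ∈ V}
  klsym := fun _ _ h => ⟨h.2, h.1⟩
  ex := fun _ => (0, 0)

/-- the triangles at a site which is not on the hull -/
theorem fan_in (hS : GP (S : Set ℂ)) (hG : G.T = delT S) {v : ℂ} (hvV : v ∉ V)
    (hv : ∀ a, ¬ hullE S a v) {a b a' b' : ℂ} (h : (v, a, b) ∈ delT S) (h' : (v, a', b') ∈ delT S) :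
    Lk (killV G V) (v, a, b) (v, a', b') := by
  obtain ⟨d, u, hR, -, hall⟩ := ring_exists hS (mem_nbs.2 ⟨b, h⟩) hv (G := (killV G V).toTrg) hG
  obtain ⟨i, hi, -⟩ := hall a b h
  obtain ⟨j, hj, -⟩ := hall a' b' h'
  exact lk_star (N := killV G V) hR (fun i hk => hvV hk.1) (by change _ ∈ G.T; rw [hG]; exact h)
    (by change _ ∈ G.T; rw [hG]; exact h') ⟨i, hi⟩ ⟨j, hj⟩

/-- the triangles at a hull site are linked to the incoming hull edge -/
theorem fan_hull (hS : GP (S : Set ℂ)) (hG : G.T = delT S) {v : ℂ} (hvV : v ∉ V)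
    (hv : ∃ a, hullE S a v) {a b : ℂ} (h : (v, a, b) ∈ delT S) :
    ∃ x y, hullE S x v ∧ (x, v, y) ∈ delT S ∧ Lk (killV G V) (v, a, b) (x, v, y) := by
  by_contra hcon
  push Not at hcon
  obtain ⟨w, hw⟩ := hv
  set Q : Finset ℂ := (nbs S v).filter fun x => Lk (killV G V) (v, a, b) (v, x, nxt S v x) with hQ
  have hmem : ∀ x, x ∈ Q ↔ x ∈ nbs S v ∧ Lk (killV G V) (v, a, b) (v, x, nxt S v x) := fun x => by
    rw [hQ, Finset.mem_filter]
  have rot := (g1 S hS).1
  have hT : ∀ x y z : ℂ, (x, y, z) ∈ delT S → (x, y, z) ∈ (killV G V).T := fun x y z h => by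
    change _ ∈ G.T; rw [hG]; exact h
  have hstep : ∀ x ∈ Q, nxt S v x ∈ Q := by
    intro x hx
    obtain ⟨h1, h2⟩ := (hmem x).1 hx
    have h3 := nxt_spec h1
    by_cases h4 : nxt S v x ∈ nbs S v
    · refine (hmem _).2 ⟨h4, h2.trans (Ex0x922.Lk.of_adj
        ⟨nxt S v x, v, x, nxt S v (nxt S v x), ?_, ?_, ?_, Ex0x922.mem_rots_self _, ?_⟩)⟩
      · exact hT _ _ _ (rot _ _ _ (rot _ _ _ h3))
      · exact hT _ _ _ (nxt_spec h4)
      · simp [rots]
      · exact fun hk => hvV hk.2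
    · have h5 := rot _ _ _ (rot _ _ _ h3)
      rw [mem_nbs] at h4
      push Not at h4
      refine absurd (h2.trans (Ex0x922.Lk.of_rots (t' := (nxt S v x, v, x)) ?_))
        (hcon (nxt S v x) x ⟨⟨x, h5⟩, h4⟩ h5)
      simp [rots]
  have hne : Q.Nonempty := ⟨a, (hmem a).2 ⟨mem_nbs.2 ⟨b, h⟩, by
    rw [nxt_eq hS h]; exact Ex0x922.Lk.refl _⟩⟩
  have hwv : w ≠ v := hullE.ne hw
  set e : ℂ := -Complex.I * (v - w) with he
  have he0 : e ≠ 0 := mul_ne_zero (neg_ne_zero.2 Complex.I_ne_zero) (sub_ne_zero.2 hwv.symm)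
  obtain ⟨x, hx, h3, h4⟩ := sector hne (f := fun u => u - v) (nx := nxt S v) hstep
    (fun x hx => (mem_delT.1 (nxt_spec ((hmem x).1 hx).1)).2.2.2.1) he0
  have hx1 := nxt_spec ((hmem x).1 hx).1
  obtain ⟨-, hxS, hx'S, hpos, -⟩ := mem_delT.1 hx1
  set x' := nxt S v x with hx'
  have k1 := hull_side hw x hxS
  have k2 := hull_side hw x' hx'S
  have k0 : cr (v - w) e < 0 := by
    have h5 : 0 < (v.re - w.re) ^ 2 + (v.im - w.im) ^ 2 := nsq_pos hwv
    rw [he]
    unfold cr
    simp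
    nlinarith
  have key : cr (v - w) e * cr (x - v) (x' - v) =
      cr e (x' - v) * cr (v - w) (x - w) + cr (x - v) e * cr (v - w) (x' - w) := by
    unfold cr
    simp
    ring
  have k5 := mul_nonneg h4.le k1
  have k6 := mul_nonneg h3 k2
  nlinarith [mul_pos (neg_pos.2 k0) hpos]

/-- connection by Delaunay edges between sites which are not in `V` -/
def Out (S V : Finset ℂ) (a b : ℂ) : Prop :=
  Relation.ReflTransGen (fun u w => Adj S u w ∧ u ∉ V ∧ w ∉ V) a b

/-- a triangle with a vertex connected outside `V` to a hull site is linked to a hull edge -/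
theorem esc (hS : GP (S : Set ℂ)) (hG : G.T = delT S) {v h : ℂ} (hv : v ∉ V)
    (hh : ∃ x, hullE S x h) (hc : Out S V v h) :
    ∀ a b, (v, a, b) ∈ delT S → ∃ x y z, hullE S x y ∧ y ∉ V ∧ (x, y, z) ∈ delT S ∧
      Lk (killV G V) (v, a, b) (x, y, z) := by
  have rot := (g1 S hS).1
  induction hc using Relation.ReflTransGen.head_induction_on with
  | refl =>
    intro a b hab
    obtain ⟨x, y, h1, h2, h3⟩ := fan_hull (G := G) hS hG hv hh hab
    exact ⟨x, h, y, h1, hv, h2, h3⟩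
  | @head v c hvc _ ih =>
    obtain ⟨hadj, -, hcV⟩ := hvc
    have ih' := ih hcV
    intro a b hab
    by_cases hhv : ∃ x, hullE S x v
    · obtain ⟨x, y, h1, h2, h3⟩ := fan_hull (G := G) hS hG hv hhv hab
      exact ⟨x, v, y, h1, hv, h2, h3⟩
    · push Not at hhv
      rcases hadj with ⟨u, hu⟩ | ⟨u, hu⟩
      · -- (v, c, u)
        obtain ⟨x, y, z, h1, h2, h3, h4⟩ := ih' u v (rot _ _ _ hu)
        refine ⟨x, y, z, h1, h2, h3, (fan_in (G := G) hS hG hv hhv hab hu).trans
          ((Ex0x922.Lk.of_rots ?_).trans h4)⟩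
        simp [rots]
      · -- (c, v, u)
        obtain ⟨x, y, z, h1, h2, h3, h4⟩ := ih' v u hu
        refine ⟨x, y, z, h1, h2, h3, (fan_in (G := G) hS hG hv hhv hab (rot _ _ _ hu)).trans
          ((Ex0x922.Lk.of_rots ?_).trans h4)⟩
        simp [rots]

/-- vertices of a triangle -/
theorem esc' (hS : GP (S : Set ℂ)) (hG : G.T = delT S) {v h : ℂ} (hv : v ∉ V)
    (hh : ∃ x, hullE S x h) (hc : Out S V v h) {t : ℂ × ℂ × ℂ} (ht : t ∈ delT S)
    (hvt : v = t.1 ∨ v = t.2.1 ∨ v = t.2.2) :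
    ∃ x y z, hullE S x y ∧ y ∉ V ∧ (x, y, z) ∈ delT S ∧ Lk (killV G V) t (x, y, z) := by
  have rot := (g1 S hS).1
  obtain ⟨a, b, c⟩ := t
  rcases hvt with h1 | h1 | h1
  · obtain rfl : v = a := h1
    exact esc (G := G) hS hG hv hh hc _ _ ht
  · obtain rfl : v = b := h1
    obtain ⟨x, y, z, h2, h3, h4, h5⟩ := esc (G := G) hS hG hv hh hc _ _ (rot _ _ _ ht)
    exact ⟨x, y, z, h2, h3, h4, (Ex0x922.Lk.of_rots (by simp [rots])).trans h5⟩
  · obtain rfl : v = c := h1
    obtain ⟨x, y, z, h2, h3, h4, h5⟩ := esc (G := G) hS hG hv hh hc _ _ (rot _ _ _ (rot _ _ _ ht))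
    exact ⟨x, y, z, h2, h3, h4, (Ex0x922.Lk.of_rots (by simp [rots])).trans h5⟩

/-! ### the cochains -/

/-- indicator in `ZMod 2` -/
def ch (P : Prop) : ZMod 2 := if P then 1 else 0

theorem ch_congr {P Q : Prop} (h : P ↔ Q) : ch P = ch Q := by rw [propext h]

theorem ch_add (a b c m : Prop) [Decidable a] [Decidable b] [Decidable c] [Decidable m]
    (h : ((if a then 1 else 0) + (if b then 1 else 0) + (if c then 1 else 0) : ℕ) % 2 =
      if m then 1 else 0) : ch a + ch b + ch c = ch m := by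
  unfold ch
  by_cases h1 : a <;> by_cases h2 : b <;> by_cases h3 : c <;> by_cases h4 : m <;>
    simp only [h1, h2, h3, h4, if_true, if_false] at h ⊢ <;> first | decide | omega

/-- a symmetric cochain with zero sum on the triangles is a boundary -/
theorem bdry_of_closed (hS : GP (S : Set ℂ)) {f : ℂ → ℂ → ZMod 2}
    (hs : ∀ a b, Adj S a b → f a b = f b a)
    (hc : ∀ a b c, (a, b, c) ∈ delT S → f a b + f b c + f c a = 0) :
    ∃ φ : Finset ℂ, φ ⊆ S ∧ ∀ a b, Adj S a b → (f a b = 1 ↔ ¬ (a ∈ φ ↔ b ∈ φ)) := by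
  have h2 : ∀ z : ZMod 2, -z = z := by decide
  obtain ⟨σ, hσ⟩ := exact hS (A := ZMod 2) (f := f) (fun a b hab => by rw [h2, hs a b hab]) hc
  refine ⟨S.filter fun s => σ s = 1, Finset.filter_subset _ _, fun a b hab => ?_⟩
  rw [Finset.mem_filter, Finset.mem_filter, hσ a b hab]
  simp only [hab.mem.1, hab.mem.2, true_and]
  generalize σ a = u, σ b = w
  revert u w
  decide

/-- the general gauge theorem: the symmetrised join `J` has the odd triangles `rots t`
(as an undirected cochain), `t` is linked outside `V` to a hull edge -/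
theorem gauge_core (hS : GP (S : Set ℂ)) (hG : G.T = delT S) {t : ℂ × ℂ × ℂ}
    (hp : ∀ a b c, (a, b, c) ∈ delT S →
      ch ((a, b) ∈ J ∨ (b, a) ∈ J) + ch ((b, c) ∈ J ∨ (c, b) ∈ J) + ch ((c, a) ∈ J ∨ (a, c) ∈ J) =
        ch ((a, b, c) ∈ rots t))
    (he : ∃ x y z, hullE S x y ∧ y ∉ V ∧ (x, y, z) ∈ delT S ∧ Lk (killV G V) t (x, y, z)) :
    Gauge S V J := by
  obtain ⟨x, y, z, hxy, hyV, hxyz, hlk⟩ := he
  obtain ⟨K, hK⟩ := chain_isJoin hlk
  have hKs : ∀ a b, (a, b) ∈ K ↔ (b, a) ∈ K := fun a b => hK.sym a b (by simp) (by simp)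
  have hT : ∀ {a b c : ℂ}, (a, b, c) ∈ delT S → (a, b, c) ∈ G.T := fun h => by rw [hG]; exact h
  set f : ℂ → ℂ → ZMod 2 := fun a b => ch ((a, b) ∈ J ∨ (b, a) ∈ J) + ch ((a, b) ∈ K) +
    ch ((a, b) = (x, y) ∨ (b, a) = (x, y)) with hf
  obtain ⟨φ, -, hφ⟩ := bdry_of_closed hS (f := f)
    (fun a b _ => by
      simp only [hf]
      rw [ch_congr (or_comm : ((a, b) ∈ J ∨ (b, a) ∈ J) ↔ _), ch_congr (hKs a b),
        ch_congr (or_comm : ((a, b) = (x, y) ∨ (b, a) = (x, y)) ↔ _)])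
    (fun a b c habc => by
      have e1 := hp a b c habc
      have e2 : ch ((a, b) ∈ K) + ch ((b, c) ∈ K) + ch ((c, a) ∈ K) =
          ch ((a, b, c) ∈ symmDiff (rots t) (rots (x, y, z))) :=
        ch_add _ _ _ _ (hK.par a b c (hT habc))
      have e3 : ch ((a, b) = (x, y) ∨ (b, a) = (x, y)) + ch ((b, c) = (x, y) ∨ (c, b) = (x, y)) +
          ch ((c, a) = (x, y) ∨ (a, c) = (x, y)) = ch ((a, b, c) ∈ rots (x, y, z)) := by
        have h1 := par_single (G := G) (hT hxyz) (hT habc)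
        simp only [Finset.mem_singleton] at h1
        have rot := (g1 S hS).1
        have n1 : (b, a) ≠ (x, y) := by
          intro h
          obtain ⟨rfl, rfl⟩ := Prod.mk.inj h
          exact hxy.2 c habc
        have n2 : (c, b) ≠ (x, y) := by
          intro h
          obtain ⟨rfl, rfl⟩ := Prod.mk.inj h
          exact hxy.2 a (rot _ _ _ habc)
        have n3 : (a, c) ≠ (x, y) := by
          intro h
          obtain ⟨rfl, rfl⟩ := Prod.mk.inj h
          exact hxy.2 b (rot _ _ _ (rot _ _ _ habc))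
        rw [ch_congr (or_iff_left n1), ch_congr (or_iff_left n2), ch_congr (or_iff_left n3)]
        exact ch_add _ _ _ _ h1
      have e4 : ch ((a, b, c) ∈ symmDiff (rots t) (rots (x, y, z))) =
          ch ((a, b, c) ∈ rots t) + ch ((a, b, c) ∈ rots (x, y, z)) := by
        unfold ch
        by_cases g1 : (a, b, c) ∈ rots t <;> by_cases g2 : (a, b, c) ∈ rots (x, y, z) <;>
          simp only [Set.mem_symmDiff, g1, g2, if_true, if_false, not_true, not_false_iff,
            and_true, and_false, or_false, false_or, or_self] <;> decide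
      simp only [hf]
      have e5 : ∀ p1 p2 p3 q1 q2 q3 r1 r2 r3 : ZMod 2,
          p1 + q1 + r1 + (p2 + q2 + r2) + (p3 + q3 + r3) =
          (p1 + p2 + p3) + (q1 + q2 + q3) + (r1 + r2 + r3) := by intros; ring
      rw [e5, e1, e2, e3, e4]
      generalize ch ((a, b, c) ∈ rots t) = u
      generalize ch ((a, b, c) ∈ rots (x, y, z)) = w
      revert u w
      decide)
  refine ⟨φ, fun a ha b hb hab => ?_⟩
  rw [← hφ a b hab]
  have k1 : (a, b) ∉ K := (hK.kill a b (show (a, b) ∈ (killV G V).kl from ⟨ha, hb⟩)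
    (by simp) (by simp)).1
  have k2 : ¬ ((a, b) = (x, y) ∨ (b, a) = (x, y)) := by
    rintro (h | h)
    · obtain ⟨rfl, rfl⟩ := Prod.mk.inj h
      exact hyV hb
    · obtain ⟨rfl, rfl⟩ := Prod.mk.inj h
      exact hyV ha
  simp only [hf, ch, k1, k2, if_false, add_zero]
  by_cases h : (a, b) ∈ J ∨ (b, a) ∈ J
  · simp only [h, if_true]
  · simp only [h, if_false]
    decide

/-- **gauge of the joins with marks `Dh` on the hull and the mark `(a, b)` at an inner edge** -/
theorem gauge_of_conn (hS : GP (S : Set ℂ)) (hG : G.T = delT S) {Dh : Set (ℂ × ℂ)}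
    (hDh : ∀ x y, (x, y) ∈ Dh → hullE S x y) {a b c : ℂ} (ht : (b, a, c) ∈ delT S)
    (hJ : IsJoin G kl ∅ (Dh ∪ {(a, b)}) J) {v h : ℂ} (hv : v ∉ V)
    (hh : ∃ x, hullE S x h) (hc : Out S V v h) (hvt : v = b ∨ v = a ∨ v = c) : Gauge S V J := by
  refine gauge_core (G := G) (t := (b, a, c)) hS hG ?_ (esc' (G := G) hS hG hv hh hc ht hvt)
  intro u w s huws
  have rot := (g1 S hS).1
  have hT : ∀ {a b c : ℂ}, (a, b, c) ∈ delT S → (a, b, c) ∈ G.T := fun h => by rw [hG]; exact h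
  have hm := hJ.mark a b (Or.inr rfl)
  -- the symmetrised join on a side of a triangle
  have hside : ∀ x y z, (x, y, z) ∈ delT S →
      ch ((x, y) ∈ J ∨ (y, x) ∈ J) = ch ((x, y) ∈ J) + ch ((x, y) = (b, a)) := by
    intro x y z hxyz
    by_cases h1 : (x, y) = (b, a)
    · obtain ⟨rfl, rfl⟩ := Prod.mk.inj h1
      have h2 : (x, y) ∉ J := hm.2
      have h3 : (y, x) ∈ J := hm.1
      simp only [ch, h2, h3, or_true, if_true, if_false, zero_add]
    · by_cases h4 : (x, y) ∈ Dh ∪ {(a, b)}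
      · have h2 := (hJ.mark x y h4).1
        simp only [ch, h1, h2, true_or, if_true, if_false, add_zero]
      · have h5 : (y, x) ∉ Dh ∪ {(a, b)} := by
          rintro (h | h)
          · exact (hDh _ _ h).2 z hxyz
          · obtain ⟨rfl, rfl⟩ := Prod.mk.inj (Set.mem_singleton_iff.1 h)
            exact h1 rfl
        have h6 := hJ.sym x y h4 h5
        rw [ch_congr (show ((x, y) ∈ J ∨ (y, x) ∈ J) ↔ (x, y) ∈ J by tauto)]
        simp only [ch, h1, if_false, add_zero]
  rw [hside u w s huws, hside w s u (rot _ _ _ huws), hside s u w (rot _ _ _ (rot _ _ _ huws))]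
  have e1 : ch ((u, w) ∈ J) + ch ((w, s) ∈ J) + ch ((s, u) ∈ J) = ch False := by
    have h1 := hJ.par u w s (hT huws)
    simp only [Set.mem_empty_iff_false, if_false] at h1
    refine ch_add _ _ _ _ ?_
    rw [if_neg not_false]
    exact h1
  have e2 : ch ((u, w) = (b, a)) + ch ((w, s) = (b, a)) + ch ((s, u) = (b, a)) =
      ch ((u, w, s) ∈ rots (b, a, c)) := by
    have h1 := par_single (G := G) (hT ht) (hT huws)
    simp only [Finset.mem_singleton] at h1
    exact ch_add _ _ _ _ h1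
  have e3 : ch False = 0 := by simp [ch]
  have e5 : ∀ p1 p2 p3 q1 q2 q3 : ZMod 2,
      p1 + q1 + (p2 + q2) + (p3 + q3) = (p1 + p2 + p3) + (q1 + q2 + q3) := by intros; ring
  rw [e5, e1, e2, e3, zero_add]

/-- **gauge of the joins with the odd triangle `t`** -/
theorem gauge_of_tri (hS : GP (S : Set ℂ)) (hG : G.T = delT S)
    (hD : ∀ x y, (x, y) ∈ D → hullE S x y) {t : ℂ × ℂ × ℂ} (ht : t ∈ delT S)
    (hJ : IsJoin G kl (rots t) D J) {v h : ℂ} (hv : v ∉ V)
    (hh : ∃ x, hullE S x h) (hc : Out S V v h) (hvt : v = t.1 ∨ v = t.2.1 ∨ v = t.2.2) :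
    Gauge S V J := by
  refine gauge_core (G := G) hS hG ?_ (esc' (G := G) hS hG hv hh hc ht hvt)
  intro u w s huws
  have rot := (g1 S hS).1
  have hT : ∀ {a b c : ℂ}, (a, b, c) ∈ delT S → (a, b, c) ∈ G.T := fun h => by rw [hG]; exact h
  have hside : ∀ x y z, (x, y, z) ∈ delT S → (((x, y) ∈ J ∨ (y, x) ∈ J) ↔ (x, y) ∈ J) :=
    fun x y z hxyz => occ_iff hG (fun p q h => (hD p q h).2) hJ hxyz
  rw [ch_congr (hside u w s huws), ch_congr (hside w s u (rot _ _ _ huws)),
    ch_congr (hside s u w (rot _ _ _ (rot _ _ _ huws)))]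
  exact ch_add _ _ _ _ (hJ.par u w s (hT huws))

/-- **gauge of the joins with marks on the hull** -/
theorem gauge_hull (hS : GP (S : Set ℂ)) (hG : G.T = delT S)
    (hD : ∀ x y, (x, y) ∈ D → hullE S x y) (hJ : IsJoin G kl ∅ D J) : Gauge S V J := by
  obtain ⟨σ, hσ⟩ := join_col hS hG (fun p q h => (hD p q h).2) hJ
  refine ⟨S.filter fun s => σ s = true, fun a _ b _ hab => ?_⟩
  rw [← hσ a b hab, Finset.mem_filter, Finset.mem_filter]
  simp only [hab.mem.1, hab.mem.2, true_and]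
  generalize σ a = u, σ b = w
  revert u w
  decide

end Crest.Agent.R143.GauBx749
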