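import Crest.Agent.R143.GauB_749

/-!
# Row 143, leaf D3F, third part (helper749): scales from one-scale bounds, whatever the RSW statement

* `arm_scales` : if a circuit exists in the annuli `2 ^ j s`, `j < m`, with probability at least `q`
  each, then an arm from `s` to `R ≥ 4 · 2 ^ m s` has probability at most `(1 - q) ^ m`
* `x_scales` : the number of joins with a `J`-free chain of `V` is at most `2 (1 - q) ^ m #joins`
-/

set_option autoImplicit false

noncomputable section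

open scoped Classical

namespace Crest.Agent.R143.GauCx749

open Crest.Agent.R143.B0x346 Crest.Agent.R143.DelGx806 Crest.Agent.R143.DelRx806
open Crest.Agent.R143.JColx54 Crest.Agent.R143.JCol2x54
open Crest.Agent.R143.ToolWx838 Crest.Agent.R143.Blkx838 Crest.Agent.R143.ToolW2x838
open Crest.Agent.R143.ToolW3x838 Crest.Agent.R143.Circ4x838 Crest.Agent.R143.Harx315
open Crest.Agent.R143.RB0x838 Crest.Agent.R143.CircPx838 Crest.Agent.R143.Gatex838
open Crest.Agent.R143.CBx838 Crest.Agent.R143.J8x872 Crest.Agent.R143.GauAx749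

local notation "bdy" => Crest.Agent.R143.X0Bx683.bd

variable {S : Finset ℂ} {G : Trg ℂ} {kl : Set (ℂ × ℂ)} {O : Set (ℂ × ℂ × ℂ)}
  {D : Set (ℂ × ℂ)} {V : Finset ℂ} {z0 : ℂ}

/-- circuits in disjoint annuli are independent -/
theorem no_circ_scales {s q : ℝ} (hs : 0 < s) {m : ℕ}
    (h : ∀ j < m, q ≤ pr S (fun β => ∃ c, CircC S z0 (2 ^ j * s) β c)) :
    pr S (fun β => ∀ j ∈ Finset.range m, ¬ ∃ c, CircC S z0 (2 ^ j * s) (S \ β) c) ≤ (1 - q) ^ m := by
  have h0 := pr_flip S (fun β => ∀ j ∈ Finset.range m, ¬ ∃ c, CircC S z0 (2 ^ j * s) β c)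
  rw [h0]
  have hdisj : ∀ i ∈ Finset.range m, ∀ j ∈ Finset.range m, i ≠ j →
      Disjoint (ann S z0 (2 ^ i * s)) (ann S z0 (2 ^ j * s)) := by
    have key : ∀ i j : ℕ, i < j → Disjoint (ann S z0 (2 ^ i * s)) (ann S z0 (2 ^ j * s)) := by
      intro i j hij
      rw [Finset.disjoint_left]
      intro x h1 h2
      rw [mem_ann] at h1 h2
      have h3 : (2 : ℝ) ^ (i + 1) ≤ 2 ^ j := pow_le_pow_right₀ (by norm_num) hij
      rw [pow_succ] at h3
      nlinarith [h1.2.2, h2.2.1, mul_le_mul_of_nonneg_right h3 hs.le]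
    intro i _ j _ hij
    rcases lt_or_gt_of_ne hij with h | h
    · exact key i j h
    · exact (key j i h).symm
  rw [pr_indep_prod (V := S) (Finset.range m) (A := fun j β => ¬ ∃ c, CircC S z0 (2 ^ j * s) β c)
    (W := fun j => ann S z0 (2 ^ j * s)) hdisj
    (fun j _ => (dep_circ fun s hs h1 h2 => mem_ann.2 ⟨hs, h1, h2⟩).not)]
  have h1 : ∀ j ∈ Finset.range m, pr S (fun β => ¬ ∃ c, CircC S z0 (2 ^ j * s) β c) ≤ 1 - q := by
    intro j hj
    rw [pr_not]
    have := h j (Finset.mem_range.1 hj)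
    linarith
  refine (Finset.prod_le_prod (fun j _ => pr_nonneg) h1).trans ?_
  rw [Finset.prod_const, Finset.card_range]

/-- **arms across many scales** -/
theorem arm_scales (hS : GP (S : Set ℂ)) {s R q : ℝ} (hs : 0 < s) {m : ℕ} (hR : 4 * 2 ^ m * s ≤ R)
    (h : ∀ j < m, q ≤ pr S (fun β => ∃ c, CircC S z0 (2 ^ j * s) β c)) (hV : V ⊆ S) :
    pr V (fun β => ∃ l, Arm S z0 s R β l) ≤ (1 - q) ^ m := by
  refine (pr_le_of_sub hV fun β β' h1 ⟨l, hl⟩ => ⟨l, hl.ne, hl.adj, fun s hs => h1 (hl.col s hs),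
    hl.left, hl.right⟩).trans ?_
  refine le_trans (pr_mono fun β _ ⟨l, hl⟩ j hj ⟨c, hc⟩ => ?_) (no_circ_scales hs h)
  rw [Finset.mem_range] at hj
  have hms : 0 < (2 : ℝ) ^ m * s := by positivity
  have hR' : 4 * (2 ^ m * s) ≤ R := by rw [← mul_assoc]; exact hR
  have h1 : (2 : ℝ) ^ j * s ≤ 2 ^ m * s :=
    mul_le_mul_of_nonneg_right (pow_le_pow_right₀ (by norm_num) hj.le) hs.le
  have h2 : s ≤ 2 ^ j * s := le_mul_of_one_le_left hs.le (one_le_pow₀ (by norm_num))
  have hr : 0 < 2 ^ j * s := by positivity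
  refine arm_blocked (z0 := z0) (r := 2 ^ j * s) hS hr (β := β) (γ := S \ β)
    Finset.disjoint_sdiff (l := l) (c := c) ?_ hc
  refine ⟨hl.ne, hl.adj, hl.col, hl.left.trans h2, le_trans ?_ hl.right⟩
  linarith

/-- **gauge law + scales** -/
theorem x_scales (hS : GP (S : Set ℂ)) (hG : G.T = delT S) (hVS : V ⊆ S) (hV : FreeS S kl V)
    (hD : ∀ β, β ⊆ V → ∀ x ∈ D, x ∉ bdy G β) (hg : ∀ J ∈ joins G kl O D, Gauge S V J)
    {s R q : ℝ} (hs : 0 < s) {m : ℕ} (hR : 4 * 2 ^ m * s ≤ R)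
    (h : ∀ j < m, q ≤ pr S (fun β => ∃ c, CircC S z0 (2 ^ j * s) β c)) :
    (((joins G kl O D).filter fun J => ∃ l, XCh S V z0 s R J l).card : ℝ) ≤
      2 * (1 - q) ^ m * ((joins G kl O D).card : ℝ) := by
  refine (gauge_law hS hG hVS hV hD hg).trans ?_
  exact mul_le_mul_of_nonneg_right
    (mul_le_mul_of_nonneg_left (arm_scales hS hs hR h hVS) zero_le_two) (Nat.cast_nonneg _)

end Crest.Agent.R143.GauCx749
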