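import Crest.Agent.R143.Gauge1_950

/-!
# Row 143 (S0194), block X, GAUGE part 2 (helper950): the explored edges

* `Xp` : states of the explored legs; `exf` : indicator of the explored edges
* `ex_ds` : sum over the sides of a triangle which is not odd = indicator of the tip triangles;
  `ex_out`, `ex_inn` : outer and inner legs, all triangles
* `blk_of` : a colouring which is constant on the unexplored differences is constant along the legs
-/

set_option autoImplicit false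

noncomputable section

open scoped Classical

namespace Crest.Agent.R143.Gax950

open Crest.Agent.R143.B0x346 Crest.Agent.R143.DelGx806 Crest.Agent.R143.DelRx806
open Crest.Agent.R143.JColx54 Crest.Agent.R143.JCol2x54 Crest.Agent.R143.Planarx54
open Crest.Agent.R143.X0Bx683 Crest.Agent.R143.JCardx872 Crest.Agent.R143.JWalkx872
open Crest.Agent.R143.Circx63 Crest.Agent.R143.XLegx126

variable {S : Finset ℂ} {G : Trg ℂ} {kl : Set (ℂ × ℂ)} {O : Set (ℂ × ℂ × ℂ)} {D : Set (ℂ × ℂ)}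
  {J : Finset (ℂ × ℂ)} {W : Set ℂ} {st0 q : ZMod 3 → ℂ × ℂ} {c : ZMod 3 → ℂ}

/-- states of the explored legs -/
def Xp (G : Trg ℂ) (O : Set (ℂ × ℂ × ℂ)) (D : Set (ℂ × ℂ)) (J : Finset (ℂ × ℂ)) (W : Set ℂ)
    (st0 : ZMod 3 → ℂ × ℂ) (x : ℂ × ℂ) : Prop := ∃ i, LeadsO G O D J W (st0 i) x

/-- explored edges -/
def exf (G : Trg ℂ) (O : Set (ℂ × ℂ × ℂ)) (D : Set (ℂ × ℂ)) (J : Finset (ℂ × ℂ)) (W : Set ℂ)
    (st0 : ZMod 3 → ℂ × ℂ) (a b : ℂ) : ZMod 2 :=
  if Xp G O D J W st0 (a, b) ∨ Xp G O D J W st0 (b, a) then 1 else 0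

theorem exf_symm (a b : ℂ) : exf G O D J W st0 b a = exf G O D J W st0 a b := by
  unfold exf
  simp only [or_comm]

theorem exf_one {a b : ℂ} : exf G O D J W st0 a b = 1 ↔
    (Xp G O D J W st0 (a, b) ∨ Xp G O D J W st0 (b, a)) := by
  unfold exf
  split_ifs with h
  · exact ⟨fun _ => h, fun _ => rfl⟩
  · exact ⟨fun h' => absurd h' zero_ne_one, fun h' => absurd h' h⟩

theorem Xp.out {x : ℂ × ℂ} (h : Xp G O D J W st0 x) : OutP W x := by
  obtain ⟨i, h⟩ := h
  exact LeadsO.out_right h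

theorem exf_W {a b : ℂ} (h : a ∈ W ∨ b ∈ W) : exf G O D J W st0 a b = 0 := by
  rcases z2 (exf G O D J W st0 a b) with h0 | h0
  · exact h0
  · rcases exf_one.1 h0 with h1 | h1
    · have := h1.out
      rcases h with h | h
      · exact absurd h this.1
      · exact absurd h this.2
    · have := h1.out
      rcases h with h | h
      · exact absurd h this.2
      · exact absurd h this.1

/-- a state which enters a triangle is occupied -/
theorem Xp.mem (hD : HullM S D) (hJ : IsJoin G kl O D J)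
    (hs : Starts G O D J st0) {a b z : ℂ} (h : Xp G O D J W st0 (a, b))
    (ht : (a, b, z) ∈ delT S) : (a, b) ∈ J := by
  obtain ⟨i, h⟩ := h
  rcases LeadsO.tail_cases h with h | ⟨r, hr, hr'⟩
  · rw [h]; exact hs.occ i
  · have h1 := step_exit hr'
    have h2 := step_notMark hJ hr'
    have h3 : (b, a) ∉ D := fun h => hD b a h z ht
    exact (hJ.sym a b h2 h3).2 h1

/-- before a state: the triangle behind it -/
theorem Xp.pre (hG : G.T = delT S) (hD : HullM S D)
    (hs : Starts G O D J st0) {a b z : ℂ} (h : Xp G O D J W st0 (b, a))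
    (ht : (a, b, z) ∈ delT S) (hO : (a, b, z) ∉ O) :
    (a, b) ∈ J ∧ (Xp G O D J W st0 (b, z) ∨ Xp G O D J W st0 (z, a)) := by
  have ht' : (a, b, z) ∈ G.T := by rw [hG]; exact ht
  obtain ⟨i, h⟩ := h
  rcases LeadsO.tail_cases h with h | ⟨r, hr, hr'⟩
  · exfalso
    rcases hs.term i with h1 | ⟨-, c', h1, h2⟩
    · rw [← h] at h1
      exact hD _ _ h1 z ht
    · rw [← h] at h1 h2
      have := G.uniq ht' h1
      subst this
      exact hO h2
  · refine ⟨step_exit hr', ?_⟩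
    obtain ⟨m, hm, -, -, h1⟩ := hr'
    obtain ⟨r1, r2⟩ := r
    rcases h1 with ⟨-, h1⟩ | ⟨-, -, h1⟩
    · -- (b, a) = (m, r2)
      rw [Prod.mk.injEq] at h1
      obtain ⟨rfl, rfl⟩ := h1
      -- hm : (r1, a, b)
      have h2 : z = r1 := G.uniq ht' (G.rot hm)
      subst h2
      exact Or.inr ⟨i, hr⟩
    · rw [Prod.mk.injEq] at h1
      obtain ⟨rfl, rfl⟩ := h1
      -- hm : (b, r2, a)
      have h2 : z = r2 := G.uniq ht' (G.rot (G.rot hm))
      subst h2
      exact Or.inl ⟨i, hr⟩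

/-- after a state: the triangle in front of it -/
theorem Xp.nxt (hG : G.T = delT S) (hD : HullM S D) (hJ : IsJoin G kl O D J)
    (hs : Starts G O D J st0) {a b z : ℂ} (h : Xp G O D J W st0 (a, b))
    (ht : (a, b, z) ∈ delT S) (hO : (a, b, z) ∉ O) (hz : z ∉ W) :
    Xp G O D J W st0 (z, b) ∨ Xp G O D J W st0 (a, z) := by
  have ht' : (a, b, z) ∈ G.T := by rw [hG]; exact ht
  have hmem := Xp.mem hD hJ hs h ht
  have hout := h.out
  have hp := hJ.par a b z ht'
  rw [if_pos hmem, if_neg hO] at hp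
  have hnD : (b, a) ∉ D := fun h => hD b a h z ht
  obtain ⟨i, h0, h⟩ := h
  by_cases h1 : (b, z) ∈ J
  · refine Or.inl ⟨i, h0, h.tail ⟨⟨z, ht', hO, hnD, Or.inl ⟨h1, rfl⟩⟩, ⟨hz, hout.2⟩⟩⟩
  · have h2 : (z, a) ∈ J := by
      by_contra h2
      rw [if_neg h1, if_neg h2] at hp
      omega
    refine Or.inr ⟨i, h0, h.tail ⟨⟨z, ht', hO, hnD, Or.inr ⟨h2, h1, rfl⟩⟩, ⟨hout.1, hz⟩⟩⟩

/-- an explored side is occupied -/
theorem exf_mem (hG : G.T = delT S) (hD : HullM S D) (hJ : IsJoin G kl O D J)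
    (hs : Starts G O D J st0) {a b z : ℂ} (ht : (a, b, z) ∈ delT S) (hO : (a, b, z) ∉ O)
    (h : exf G O D J W st0 a b = 1) : (a, b) ∈ J := by
  rcases exf_one.1 h with h | h
  · exact h.mem hD hJ hs ht
  · exact (h.pre hG hD hs ht hO).1

/-- an explored side of a triangle without vertices in `W`: another side is explored -/
theorem exf_other (hG : G.T = delT S) (hD : HullM S D) (hJ : IsJoin G kl O D J)
    (hs : Starts G O D J st0) {a b z : ℂ} (ht : (a, b, z) ∈ delT S) (hO : (a, b, z) ∉ O)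
    (hz : z ∉ W) (h : exf G O D J W st0 a b = 1) :
    exf G O D J W st0 b z = 1 ∨ exf G O D J W st0 z a = 1 := by
  rw [exf_one, exf_one]
  rcases exf_one.1 h with h | h
  · rcases h.nxt hG hD hJ hs ht hO hz with h | h
    · exact Or.inl (Or.inr h)
    · exact Or.inr (Or.inr h)
  · rcases (h.pre hG hD hs ht hO).2 with h | h
    · exact Or.inl (Or.inl h)
    · exact Or.inr (Or.inl h)

theorem z2_aux (u v w : ZMod 2) (o0 : u = 1 → v = 1 ∨ w = 1) (o1 : v = 1 → w = 1 ∨ u = 1)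
    (o2 : w = 1 → u = 1 ∨ v = 1) (h : ¬ u = 1 ∨ ¬ v = 1 ∨ ¬ w = 1) : u + v + w = 0 := by
  rcases z2 u with rfl | rfl <;> rcases z2 v with rfl | rfl <;> rcases z2 w with rfl | rfl <;>
    first
      | decide
      | (exfalso; simp at o0 o1 o2 h)

theorem ex_ds_out (hS : GP (S : Set ℂ)) (hG : G.T = delT S) (hD : HullM S D)
    (hRO : RotInv O) (hJ : IsJoin G kl O D J)
    (hs : Starts G O D J st0) {a b z : ℂ} (ht : (a, b, z) ∈ delT S) (hO : (a, b, z) ∉ O)
    (ha : a ∉ W) (hb : b ∉ W) (hz : z ∉ W) : ds (exf G O D J W st0) a b z = 0 := by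
  have ht' : (a, b, z) ∈ G.T := by rw [hG]; exact ht
  have hO1 : (b, z, a) ∉ O := fun h => hO (hRO _ _ _ (hRO _ _ _ h))
  have hO2 : (z, a, b) ∉ O := fun h => hO (hRO _ _ _ h)
  have t1 := delT_rot hS ht
  have t2 := delT_rot hS t1
  have m0 := exf_mem (W := W) hG hD hJ hs ht hO
  have m1 := exf_mem (W := W) hG hD hJ hs t1 hO1
  have m2 := exf_mem (W := W) hG hD hJ hs t2 hO2
  have o0 := exf_other hG hD hJ hs ht hO hz
  have o1 := exf_other hG hD hJ hs t1 hO1 ha
  have o2 := exf_other hG hD hJ hs t2 hO2 hb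
  have hp := hJ.par a b z ht'
  rw [if_neg hO] at hp
  unfold ds
  refine z2_aux _ _ _ o0 o1 o2 ?_
  by_cases x1 : (a, b) ∈ J
  · by_cases x2 : (b, z) ∈ J
    · by_cases x3 : (z, a) ∈ J
      · rw [if_pos x1, if_pos x2, if_pos x3] at hp
        omega
      · exact Or.inr (Or.inr fun h => x3 (m2 h))
    · exact Or.inr (Or.inl fun h => x2 (m1 h))
  · exact Or.inl fun h => x1 (m0 h)

/-- the tip of a leg is unique -/
theorem tip_unique {s x y : ℂ × ℂ} (hx : LeadsO G O D J W s x) (hy : LeadsO G O D J W s y)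
    {z z' : ℂ} (hz : (x.1, x.2, z) ∈ G.T) (hzW : z ∈ W) (hz' : (y.1, y.2, z') ∈ G.T)
    (hzW' : z' ∈ W) : x = y := by
  have U : Relator.RightUnique (fun p q => Step G O D J p q ∧ OutP W q) :=
    fun _ _ _ h1 h2 => step_det h1.1 h2.1
  have key : ∀ {x y : ℂ × ℂ} {z : ℂ}, (x.1, x.2, z) ∈ G.T → z ∈ W →
      Relation.ReflTransGen (fun p q => Step G O D J p q ∧ OutP W q) x y → x = y := by
    intro x y z hz hzW h
    rcases Relation.ReflTransGen.cases_head h with h | ⟨r, hr, -⟩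
    · exact h
    · exfalso
      obtain ⟨⟨m, hm, -, -, h1⟩, hr⟩ := hr
      have h2 := G.uniq hz hm
      subst h2
      rcases h1 with ⟨-, h1⟩ | ⟨-, -, h1⟩
      · rw [h1] at hr
        exact hr.1 hzW
      · rw [h1] at hr
        exact hr.2 hzW
  rcases Relation.ReflTransGen.total_of_right_unique U hx.2 hy.2 with h | h
  · exact key hz hzW h
  · exact (key hz' hzW' h).symm

/-- a triangle with apex in `W` -/
theorem ex_ds_tip (hG : G.T = delT S) (hD : HullM S D)
    (hs : Starts G O D J st0)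
    (hq : ∀ i, LeadsO G O D J W (st0 i) (q i))
    (hc : ∀ i, ((q i).1, (q i).2, c i) ∈ G.T ∧ c i ∈ W)
    {a b z : ℂ} (ht : (a, b, z) ∈ delT S) (hO : (a, b, z) ∉ O) (hz : z ∈ W) :
    ds (exf G O D J W st0) a b z =
      if ∃ i, (a, b, z) ∈ rots ((q i).1, (q i).2, c i) then 1 else 0 := by
  have ht' : (a, b, z) ∈ G.T := by rw [hG]; exact ht
  have hiff : (∃ i, (a, b, z) ∈ rots ((q i).1, (q i).2, c i)) ↔ Xp G O D J W st0 (a, b) := by
    constructor
    · rintro ⟨i, hi⟩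
      have ho := LeadsO.out_right (hq i)
      rcases rots_cases hi with h | h | h
      · simp only [Prod.mk.injEq] at h
        obtain ⟨rfl, rfl, -⟩ := h
        exact ⟨i, hq i⟩
      · simp only [Prod.mk.injEq] at h
        obtain ⟨-, -, rfl⟩ := h
        exact absurd hz ho.1
      · simp only [Prod.mk.injEq] at h
        obtain ⟨-, -, rfl⟩ := h
        exact absurd hz ho.2
    · rintro ⟨i, hi⟩
      have h1 := tip_unique hi (hq i) ht' hz (hc i).1 (hc i).2
      refine ⟨i, ?_⟩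
      rw [← h1]
      have h2 := (hc i).1
      rw [← h1] at h2
      have h3 := G.uniq ht' h2
      rw [h3]
      exact mem_rots_self _
  have e1 : exf G O D J W st0 b z = 0 := exf_W (Or.inr hz)
  have e2 : exf G O D J W st0 z a = 0 := exf_W (Or.inl hz)
  unfold ds
  rw [e1, e2, add_zero, add_zero]
  unfold exf
  have h3 : (Xp G O D J W st0 (a, b) ∨ Xp G O D J W st0 (b, a)) ↔ Xp G O D J W st0 (a, b) := by
    refine ⟨fun h => ?_, Or.inl⟩
    rcases h with h | h
    · exact h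
    · exfalso
      rcases (h.pre hG hD hs ht hO).2 with h | h
      · exact h.out.2 hz
      · exact h.out.1 hz
  simp only [h3, hiff]

theorem ds_rot (g : ℂ → ℂ → ZMod 2) (a b z : ℂ) : ds g a b z = ds g b z a := by
  unfold ds; ring

/-- **sum over the sides of a triangle which is not odd** -/
theorem ex_ds (hS : GP (S : Set ℂ)) (hG : G.T = delT S) (hD : HullM S D)
    (hRO : RotInv O) (hJ : IsJoin G kl O D J)
    (hs : Starts G O D J st0)
    (hq : ∀ i, LeadsO G O D J W (st0 i) (q i))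
    (hc : ∀ i, ((q i).1, (q i).2, c i) ∈ G.T ∧ c i ∈ W)
    {a b z : ℂ} (ht : (a, b, z) ∈ delT S) (hO : (a, b, z) ∉ O) :
    ds (exf G O D J W st0) a b z =
      if ∃ i, (a, b, z) ∈ rots ((q i).1, (q i).2, c i) then 1 else 0 := by
  have hO1 : (b, z, a) ∉ O := fun h => hO (hRO _ _ _ (hRO _ _ _ h))
  have hO2 : (z, a, b) ∉ O := fun h => hO (hRO _ _ _ h)
  have t1 := delT_rot hS ht
  have t2 := delT_rot hS t1
  by_cases hz : z ∈ W
  · exact ex_ds_tip hG hD hs hq hc ht hO hz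
  by_cases ha : a ∈ W
  · have h := ex_ds_tip hG hD hs hq hc t1 hO1 ha
    rw [ds_rot, h]
    simp only [XFx903.rots_mem_rot (a := a) (b := b) (c := z)]
  by_cases hb : b ∈ W
  · have h := ex_ds_tip hG hD hs hq hc t2 hO2 hb
    rw [ds_rot, ds_rot, h]
    simp only [XFx903.rots_mem_rot (a := a) (b := b) (c := z),
      XFx903.rots_mem_rot (a := b) (b := z) (c := a)]
  rw [ex_ds_out hS hG hD hRO hJ hs ht hO ha hb hz, if_neg]
  rintro ⟨i, hi⟩
  have h1 := (hc i).2
  rcases rots_cases hi with h | h | h <;> simp only [Prod.mk.injEq] at h <;>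
    obtain ⟨h2, h3, h4⟩ := h
  · rw [← h4] at h1; exact hz h1
  · rw [← h3] at h1; exact hb h1
  · rw [← h2] at h1; exact ha h1

/-- at most one tip triangle -/
theorem sum_tip (hRO : RotInv O) (hJ : IsJoin G kl O D J) (hs : Starts G O D J st0)
    (hq : ∀ i, LeadsO G O D J W (st0 i) (q i))
    (hc : ∀ i, ((q i).1, (q i).2, c i) ∈ G.T ∧ c i ∈ W) (T : ℂ × ℂ × ℂ) :
    ∑ i : ZMod 3, it ((q i).1, (q i).2, c i) T =
      if ∃ i, T ∈ rots ((q i).1, (q i).2, c i) then 1 else 0 := by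
  have huniq : ∀ i j, T ∈ rots ((q i).1, (q i).2, c i) → T ∈ rots ((q j).1, (q j).2, c j) →
      i = j := by
    intro i j hi hj
    have h1 : ((q j).1, (q j).2, c j) ∈ rots ((q i).1, (q i).2, c i) := by
      rw [← rots_eq hi]; exact rots_symm hj
    have hoi := LeadsO.out_right (hq i)
    have hoj := LeadsO.out_right (hq j)
    have h2 : q i = q j := by
      rcases rots_cases h1 with h | h | h <;> simp only [Prod.mk.injEq] at h
      · exact Prod.ext h.1.symm h.2.1.symm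
      · exact absurd (h.2.2 ▸ (hc j).2) hoi.1
      · exact absurd (h.2.2 ▸ (hc j).2) hoi.2
    have h3 := LeadsO.leads (hq i)
    have h4 := LeadsO.leads (hq j)
    rw [h2] at h3
    exact Starts.eq hJ hRO hs h3 h4
  split_ifs with h
  · obtain ⟨i0, hi0⟩ := h
    rw [Finset.sum_eq_single i0]
    · exact if_pos hi0
    · intro j _ hj
      exact if_neg fun h => hj (huniq j i0 h hi0)
    · intro h
      exact absurd (Finset.mem_univ _) h
  · refine Finset.sum_eq_zero fun i _ => if_neg fun h' => h ⟨i, h'⟩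

/-- **outer legs**: the odd triangle is inside `W` -/
theorem ex_out (hS : GP (S : Set ℂ)) (hG : G.T = delT S) (hD : HullM S D)
    (hRO : RotInv O) (hJ : IsJoin G kl O D J)
    (hs : Starts G O D J st0)
    (hq : ∀ i, LeadsO G O D J W (st0 i) (q i))
    (hc : ∀ i, ((q i).1, (q i).2, c i) ∈ G.T ∧ c i ∈ W)
    (hOW : ∀ a b z, (a, b, z) ∈ O → a ∈ W ∧ b ∈ W ∧ z ∈ W)
    {a b z : ℂ} (ht : (a, b, z) ∈ delT S) :
    ds (exf G O D J W st0) a b z = ∑ i : ZMod 3, it ((q i).1, (q i).2, c i) (a, b, z) := by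
  rw [sum_tip hRO hJ hs hq hc]
  by_cases hO : (a, b, z) ∈ O
  · obtain ⟨ha, hb, hz⟩ := hOW a b z hO
    have e0 : exf G O D J W st0 a b = 0 := exf_W (Or.inl ha)
    have e1 : exf G O D J W st0 b z = 0 := exf_W (Or.inl hb)
    have e2 : exf G O D J W st0 z a = 0 := exf_W (Or.inl hz)
    unfold ds
    rw [e0, e1, e2, if_neg]
    · rfl
    · rintro ⟨i, hi⟩
      have ho := LeadsO.out_right (hq i)
      rcases rots_cases hi with h | h | h <;> simp only [Prod.mk.injEq] at h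
      · exact ho.1 (h.1 ▸ ha)
      · exact ho.2 (h.1 ▸ ha)
      · exact ho.1 (h.2.1 ▸ hb)
  · exact ex_ds hS hG hD hRO hJ hs hq hc ht hO

/-- **inner legs**: the sides of the odd triangle are the starts -/
theorem ex_inn (hS : GP (S : Set ℂ)) (hG : G.T = delT S) (hD : HullM S D) {t : ℂ × ℂ × ℂ}
    (hJ : IsJoin G kl (rots t) D J)
    (hs : Starts G (rots t) D J (st t))
    (hq : ∀ i, LeadsO G (rots t) D J W (st t i) (q i))
    (hc : ∀ i, ((q i).1, (q i).2, c i) ∈ G.T ∧ c i ∈ W)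
    {a b z : ℂ} (ht : (a, b, z) ∈ delT S) :
    ds (exf G (rots t) D J W (st t)) a b z =
      ∑ i : ZMod 3, it ((q i).1, (q i).2, c i) (a, b, z) + it t (a, b, z) := by
  rw [sum_tip (rotInv_rots t) hJ hs hq hc]
  by_cases hO : (a, b, z) ∈ rots t
  · have hX : ∀ i, Xp G (rots t) D J W (st t) (st t i) := fun i =>
      ⟨i, (hq i).1, Relation.ReflTransGen.refl⟩
    have hv : ∀ i, vt t i ∉ W := fun i => ((hq i).1).2
    have h3 : ∀ i, exf G (rots t) D J W (st t) (vt t i) (vt t (i + 1)) = 1 := fun i =>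
      exf_one.2 (Or.inr (hX i))
    have e0 : exf G (rots t) D J W (st t) t.1 t.2.1 = 1 := h3 0
    have e1 : exf G (rots t) D J W (st t) t.2.1 t.2.2 = 1 := h3 1
    have e2 : exf G (rots t) D J W (st t) t.2.2 t.1 = 1 := h3 2
    have v0 : t.1 ∉ W := hv 0
    have v1 : t.2.1 ∉ W := hv 1
    have v2 : t.2.2 ∉ W := hv 2
    have hn : ¬ ∃ i, (a, b, z) ∈ rots ((q i).1, (q i).2, c i) := by
      rintro ⟨i, hi⟩
      have h1 : ((q i).1, (q i).2, c i) ∈ rots t := by
        rw [← rots_eq hO]; exact rots_symm hi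
      have h2 := (hc i).2
      obtain ⟨t1, t2, t3⟩ := t
      rcases rots_cases h1 with h | h | h <;> simp only [Prod.mk.injEq] at h
      · exact v2 (h.2.2 ▸ h2)
      · exact v0 (h.2.2 ▸ h2)
      · exact v1 (h.2.2 ▸ h2)
    rw [if_neg hn, zero_add]
    have h4 : it t (a, b, z) = 1 := if_pos hO
    rw [h4]
    unfold ds
    obtain ⟨t1, t2, t3⟩ := t
    simp only at e0 e1 e2
    rcases rots_cases hO with h | h | h <;> simp only [Prod.mk.injEq] at h <;>
      obtain ⟨rfl, rfl, rfl⟩ := h <;> rw [e0, e1, e2] <;> decide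
  · rw [ex_ds hS hG hD (rotInv_rots t) hJ hs hq hc ht hO]
    have h4 : it t (a, b, z) = 0 := if_neg hO
    rw [h4, add_zero]

/-! ### colours along the legs -/

/-- the colours of a step are equal if the two edges are not differences -/
theorem col_step (hS : GP (S : Set ℂ)) (hG : G.T = delT S) {φ : ℂ → ZMod 2}
    {p r : ℂ × ℂ} (h : Step G O D J p r) (hp : φ p.1 = φ p.2)
    (hr : Adj S r.1 r.2 → φ r.1 = φ r.2) : φ r.1 = φ p.1 ∧ φ r.2 = φ p.1 := by
  obtain ⟨m, hm, -, -, h1⟩ := h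
  rw [hG] at hm
  rcases h1 with ⟨-, h1⟩ | ⟨-, -, h1⟩
  · rw [h1] at hr ⊢
    have h2 := hr (adj_tri' hS hm).symm
    simp only at h2 ⊢
    exact ⟨by rw [h2, hp], hp.symm⟩
  · rw [h1] at hr ⊢
    have h2 := hr (adj_tri'' hS hm).symm
    simp only at h2 ⊢
    exact ⟨trivial, h2.symm⟩

/-- **the colour is constant along a leg** -/
theorem blk_of (hS : GP (S : Set ℂ)) (hG : G.T = delT S) {φ : ℂ → ZMod 2} {s : ℂ × ℂ}
    {v : ZMod 2} (h0 : φ s.1 = v ∧ φ s.2 = v)
    (hφ : ∀ x, LeadsO G O D J W s x → Adj S x.1 x.2 → φ x.1 = φ x.2) {x : ℂ × ℂ}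
    (h : LeadsO G O D J W s x) : φ x.1 = v ∧ φ x.2 = v := by
  obtain ⟨hs, h⟩ := h
  induction h with
  | refl => exact h0
  | @tail y z h1 h2 ih =>
    have h3 := col_step hS hG h2.1 (ih.1.trans ih.2.symm)
      (hφ z ⟨hs, h1.tail h2⟩)
    exact ⟨h3.1.trans ih.1, h3.2.trans ih.1⟩

/-- a state of an explored leg is a Delaunay edge -/
theorem leadsO_adj (hS : GP (S : Set ℂ)) (hG : G.T = delT S) {s : ℂ × ℂ}
    (h0 : Adj S s.1 s.2) {x : ℂ × ℂ} (h : LeadsO G O D J W s x) : Adj S x.1 x.2 := by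
  rcases LeadsO.tail_cases h with h | ⟨r, -, m, hm, -, -, h1⟩
  · rw [h]; exact h0
  · rw [hG] at hm
    rcases h1 with ⟨-, h1⟩ | ⟨-, -, h1⟩
    · rw [h1]; exact (adj_tri' hS hm).symm
    · rw [h1]; exact (adj_tri'' hS hm).symm

end Crest.Agent.R143.Gax950
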