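import Crest.Agent.R143.X0B_683
import Crest.Agent.R143.GateA_838
import Crest.Agent.R143.XG_343

/-!
# Row 143 (S0194), block X: tubes and gauges for GLUE-O / GLUE-I (definitions, helper697)

* unit `q = Rj R j / 1600`; `ed k` : first axis of the box `k` (right, top, left side); `port z0 y k` =
  point of the axis `X = 0` of the box `k` at the height `y`
* `Tube W z0 h n l th` : polyline `l 0, .., l n` (apex of the tip triangle .. port) with the lifted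
  angles `th`, steps `≤ h / 2`, inside `W`; around every `l k` there will be a circuit in the annulus
  `h < |z - l k|_∞ < 2 h`
* `TubesO`, `TUBESO` : three outer tubes from the radius `400 q` to the ports at the height `205 q`
* `TubesI`, `TUBESI` : three inner tubes from the radius `25 q` to the ports at the height `95 q`
* `AxE` : edges which cross an axis; `GaugeO`, `GAUGEO` : reference join, equal to `J` on the explored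
  outer legs, edges in the tubes, on the axes (`80 q .. 204 q`) and in the disc of radius `80 q`
* `GaugeI`, `GAUGEI` : the same for the legs of a face
-/

set_option autoImplicit false

noncomputable section

open scoped Classical

namespace Crest.Agent.R143.XDx697

open Crest.Agent.R143.B0x346 Crest.Agent.R143.DelGx806 Crest.Agent.R143.DelRx806
open Crest.Agent.R143.ToolWx838 Crest.Agent.R143.Blkx838 Crest.Agent.R143.Harx315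
open Crest.Agent.R143.RB0x838 Crest.Agent.R143.Planarx54 Crest.Agent.R143.X0Bx683
open Crest.Agent.R143.CircPx838 Crest.Agent.R143.Gatex838

/-- first axis of the box `k`: `k = 0` right side, `1` top, `2` left -/
def ed (k : ZMod 3) : ℂ := -Complex.I * Complex.I ^ k.val

/-- point of the axis of the box `k` at the height `y` -/
def port (z0 : ℂ) (y : ℝ) (k : ZMod 3) : ℂ := z0 + (y : ℂ) * Complex.I ^ k.val

/-- polyline of centres with lifted angles -/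
structure Tube (W : Set ℂ) (z0 : ℂ) (h : ℝ) (n : ℕ) (l : ℕ → ℂ) (th : ℕ → ℝ) : Prop where
  npos : 1 ≤ n
  step : ∀ k < n, ‖l (k + 1) - l k‖ ≤ h / 2
  fst : Metric.closedBall (l 1) ‖l 1 - l 0‖ ⊆ W
  dep : ∀ k, 1 ≤ k → k < n → Metric.closedBall (l (k + 1)) (‖l (k + 1) - l k‖ + h / 8) ⊆ W
  lift : ∀ k ≤ n, l k - z0 = ((‖l k - z0‖ : ℝ) : ℂ) * Complex.exp ((th k : ℂ) * Complex.I)
  cons : ∀ k ≤ n, ∀ k' ≤ n, ∀ z : ℂ, sup (z - l k) ≤ 2 * h → sup (z - l k') ≤ 2 * h →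
    th k + ToolWx838.ang z0 (l k) z = th k' + ToolWx838.ang z0 (l k') z

/-- three tubes: `c i` = starting points, `pi` = order of the ports -/
structure Tubes (W : Set ℂ) (z0 : ℂ) (h : ℝ) (M : ℕ) (c : ZMod 3 → ℂ) (pt : ZMod 3 → ℂ)
    (pi : Equiv.Perm (ZMod 3)) (n : ZMod 3 → ℕ) (l : ZMod 3 → ℕ → ℂ) (th : ZMod 3 → ℕ → ℝ) :
    Prop where
  tube : ∀ i, Tube W z0 h (n i) (l i) (th i)
  len : ∀ i, n i ≤ M
  start : ∀ i, l i 0 = c i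
  stop : ∀ i, l i (n i) = pt (pi i)
  far : ∀ i j, i ≠ j → ∀ k ≤ n i, ∀ k' ≤ n j, 8 * h ≤ sup (l i k - l j k')

/-- outer tubes -/
structure TubesO (z0 : ℂ) (q h : ℝ) (M : ℕ) (c : ZMod 3 → ℂ)
    (pi : Equiv.Perm (ZMod 3)) (n : ZMod 3 → ℕ) (l : ZMod 3 → ℕ → ℂ) (th : ZMod 3 → ℕ → ℝ) :
    Prop extends Tubes (Dsc z0 (400 * q)) z0 h M c (port z0 (205 * q)) pi n l th where
  reg : ∀ i, ∀ k ≤ n i, 223 * q ≤ ‖l i k - z0‖ ∨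
    (X z0 (ed (pi i)) (l i k) = 0 ∧ 205 * q ≤ Y z0 (ed (pi i)) (l i k) ∧ th i k = th i (n i))

/-- **TUBESO** (routing of the outer tubes) -/
def TUBESO : Prop := ∀ η : ℝ, 0 < η → ∃ (κ : ℝ) (M : ℕ), 0 < κ ∧ κ ≤ 1 / 100 ∧
  ∀ (z0 : ℂ) (q : ℝ) (c : ZMod 3 → ℂ), 0 < q →
    (∀ i, (400 - κ) * q ≤ ‖c i - z0‖ ∧ ‖c i - z0‖ < 400 * q) →
    (∀ i j, i ≠ j → η * q ≤ ‖c i - c j‖) →
    ∃ (pi : Equiv.Perm (ZMod 3)) (n : ZMod 3 → ℕ) (l : ZMod 3 → ℕ → ℂ) (th : ZMod 3 → ℕ → ℝ),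
      TubesO z0 q (κ * q) M c pi n l th

/-- inner tubes -/
structure TubesI (z0 : ℂ) (q h : ℝ) (M : ℕ) (c : ZMod 3 → ℂ)
    (pi : Equiv.Perm (ZMod 3)) (n : ZMod 3 → ℕ) (l : ZMod 3 → ℕ → ℂ) (th : ZMod 3 → ℕ → ℝ) :
    Prop extends Tubes (Dsc z0 (25 * q))ᶜ z0 h M c (port z0 (95 * q)) pi n l th where
  reg : ∀ i, ∀ k ≤ n i, ‖l i k - z0‖ ≤ 77 * q ∨
    (X z0 (ed (pi i)) (l i k) = 0 ∧ 0 ≤ Y z0 (ed (pi i)) (l i k) ∧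
      Y z0 (ed (pi i)) (l i k) ≤ 95 * q ∧ th i k = th i (n i))

/-- **TUBESI** (routing of the inner tubes) -/
def TUBESI : Prop := ∀ η : ℝ, 0 < η → ∃ (κ : ℝ) (M : ℕ), 0 < κ ∧ κ ≤ 1 / 100 ∧
  ∀ (z0 : ℂ) (q : ℝ) (c : ZMod 3 → ℂ), 0 < q →
    (∀ i, 25 * q ≤ ‖c i - z0‖ ∧ ‖c i - z0‖ ≤ (25 + κ) * q) →
    (∀ i j, i ≠ j → η * q ≤ ‖c i - c j‖) →
    ∃ (pi : Equiv.Perm (ZMod 3)) (n : ZMod 3 → ℕ) (l : ZMod 3 → ℕ → ℂ) (th : ZMod 3 → ℕ → ℝ),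
      TubesI z0 q (κ * q) M c pi n l th

/-- the edge crosses one of the three axes -/
def AxE (z0 : ℂ) (p : ℂ × ℂ) : Prop := ∃ k : ZMod 3, 0 < Y z0 (ed k) (mid p) ∧
  ¬ (0 ≤ X z0 (ed k) p.1 ↔ 0 ≤ X z0 (ed k) p.2)

/-- both ends of the edge are between the radii `a` and `b` -/
def Bet (z0 : ℂ) (a b : ℝ) (p : ℂ × ℂ) : Prop :=
  (a ≤ ‖p.1 - z0‖ ∧ ‖p.1 - z0‖ < b) ∧ (a ≤ ‖p.2 - z0‖ ∧ ‖p.2 - z0‖ < b)

/-- the edge is used by one of the explored legs -/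
def Expl (G : Trg ℂ) (O : Set (ℂ × ℂ × ℂ)) (D : Set (ℂ × ℂ)) (J : Finset (ℂ × ℂ)) (W : Set ℂ)
    (st0 : ZMod 3 → ℂ × ℂ) (p : ℂ × ℂ) : Prop :=
  ∃ i x, LeadsO G O D J W (st0 i) x ∧ (p = x ∨ p = x.swap)

/-- outer gauge `G0` of the join `J` (odd triangle `s0`, explored: legs from the marks up to
`B(z0, 400 q)`), with the colouring `σ0` (explored sites black) -/
structure GaugeO (N : Net ℂ) (s0 : ℂ × ℂ × ℂ) (z0 : ℂ) (q h : ℝ) (J : Finset (ℂ × ℂ))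
    (n : ZMod 3 → ℕ) (l : ZMod 3 → ℕ → ℂ) (G0 : Finset (ℂ × ℂ)) (σ0 : Finset ℂ) : Prop where
  join : G0 ∈ N.tj s0
  eq : J = flip N.toTrg G0 σ0
  blk : ∀ i p, LeadsO N.toTrg (rots s0) N.exS J (Dsc z0 (400 * q)) (N.ex i) p → p.1 ∈ σ0 ∧ p.2 ∈ σ0
  edge : ∀ p ∈ G0, Expl N.toTrg (rots s0) N.exS J (Dsc z0 (400 * q)) N.ex p ∨
    (∃ i, ∃ k ≤ n i, sup (mid p - l i k) ≤ 3 / 4 * h) ∨
    (‖mid p - z0‖ < 205 * q ∧ (AxE z0 p ∨ ‖mid p - z0‖ < 81 * q))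
  axis : ∀ p ∈ N.E, Bet z0 (80 * q) (204 * q) p → (p ∈ G0 ↔ AxE z0 p)

/-- **GAUGEO** -/
def GAUGEO : Prop := ∃ K : ℝ, 0 < K ∧
  ∀ (S : Finset ℂ) (N : Net ℂ) (z0 : ℂ) (R R1 d b0 C4 : ℝ), World S N z0 R R1 d b0 C4 →
  ∀ (s0 : ℂ × ℂ × ℂ), s0 ∈ delT S → ∀ (q h : ℝ), (∀ i, ‖vt s0 i - z0‖ ≤ 70 * q) →
    0 < h → h ≤ q / 100 → K * d ≤ h → 1600 * q ≤ R →
  ∀ J ∈ N.tj s0, ∀ (tip : ZMod 3 → ℂ × ℂ) (c : ZMod 3 → ℂ),
    (∀ i, LeadsO N.toTrg (rots s0) N.exS J (Dsc z0 (400 * q)) (N.ex i) (tip i)) →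
    (∀ i, ((tip i).1, (tip i).2, c i) ∈ N.T ∧ c i ∈ Dsc z0 (400 * q)) →
  ∀ (M : ℕ) (pi : Equiv.Perm (ZMod 3)) (n : ZMod 3 → ℕ) (l : ZMod 3 → ℕ → ℂ)
    (th : ZMod 3 → ℕ → ℝ), TubesO z0 q h M c pi n l th →
    ∃ G0 σ0, GaugeO N s0 z0 q h J n l G0 σ0

/-- inner gauge `G0` of the join `J` (odd triangle `t`, explored: legs of `t` up to the distance
`25 q`), with the colouring `σ0` (explored sites black) -/
structure GaugeI (N : Net ℂ) (t : ℂ × ℂ × ℂ) (z0 : ℂ) (q h : ℝ) (J : Finset (ℂ × ℂ))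
    (n : ZMod 3 → ℕ) (l : ZMod 3 → ℕ → ℂ) (G0 : Finset (ℂ × ℂ)) (σ0 : Finset ℂ) : Prop where
  join : G0 ∈ N.tj t
  eq : J = flip N.toTrg G0 σ0
  blk : ∀ i p, LeadsO N.toTrg (rots t) N.exS J (Dsc z0 (25 * q))ᶜ (st t i) p → p.1 ∈ σ0 ∧ p.2 ∈ σ0
  edge : ∀ p ∈ G0, Expl N.toTrg (rots t) N.exS J (Dsc z0 (25 * q))ᶜ (st t) p ∨
    (∃ i, ∃ k ≤ n i, sup (mid p - l i k) ≤ 3 / 4 * h) ∨
    (95 * q < ‖mid p - z0‖ ∧ (AxE z0 p ∨ 219 * q < ‖mid p - z0‖))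
  axis : ∀ p ∈ N.E, Bet z0 (96 * q) (220 * q) p → (p ∈ G0 ↔ AxE z0 p)

/-- **GAUGEI** -/
def GAUGEI : Prop := ∃ K : ℝ, 0 < K ∧
  ∀ (S : Finset ℂ) (N : Net ℂ) (z0 : ℂ) (R R1 d b0 C4 : ℝ), World S N z0 R R1 d b0 C4 →
  ∀ (t : ℂ × ℂ × ℂ), t ∈ delT S → ∀ (q h : ℝ), (∀ i, ‖vt t i - z0‖ < 25 * q) →
    0 < h → h ≤ q / 100 → K * d ≤ h → 1600 * q ≤ R →
  ∀ J ∈ N.tj t, (∀ i, (vt t i, vt t (i + 1)) ∈ J) → ∀ (tip : ZMod 3 → ℂ × ℂ) (c : ZMod 3 → ℂ),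
    (∀ i, LeadsO N.toTrg (rots t) N.exS J (Dsc z0 (25 * q))ᶜ (st t i) (tip i)) →
    (∀ i, ((tip i).1, (tip i).2, c i) ∈ N.T ∧ c i ∉ Dsc z0 (25 * q)) →
  ∀ (M : ℕ) (pi : Equiv.Perm (ZMod 3)) (n : ZMod 3 → ℕ) (l : ZMod 3 → ℕ → ℂ)
    (th : ZMod 3 → ℕ → ℝ), TubesI z0 q h M c pi n l th →
    ∃ G0 σ0, GaugeI N t z0 q h J n l G0 σ0

end Crest.Agent.R143.XDx697
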