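import Crest.Agent.R143.Gauge2_950
import Crest.Agent.R143.XD_697

/-!
# Row 143 (S0194), block X, GAUGE part 3 (helper950): half lines

* `pnt z0 e c y` : point with the coordinates `c, y`
* `exists_line` : a line `X = c`, `c < 0` small, without sites between `X = c` and `X = 0`
* `exists_gen` : a height such that the point is not on a Delaunay edge
* `Gen` : generic point; `Hx` : edges crossing the half line above the point
* `H_ds` : sum over the sides = indicator of the triangle which contains the point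
* `H_seg` : the difference of two half lines consists of edges through the segment
-/

set_option autoImplicit false

noncomputable section

open scoped Classical

namespace Crest.Agent.R143.Gax950

open Crest.Agent.R143.B0x346 Crest.Agent.R143.DelGx806 Crest.Agent.R143.DelRx806
open Crest.Agent.R143.JColx54 Crest.Agent.R143.JCol2x54 Crest.Agent.R143.Planarx54
open Crest.Agent.R143.Planar2x54 Crest.Agent.R143.ToolWx838
open Crest.Agent.R143.X0Bx683 Crest.Agent.R143.JCardx872 Crest.Agent.R143.JWalkx872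
open Crest.Agent.R143.Circx63 Crest.Agent.R143.XLegx126 Crest.Agent.R143.Gatex838
open Crest.Agent.R143.RB0x838

variable {S : Finset ℂ} {z0 e : ℂ} {c y : ℝ}

/-- indicator of a proposition mod 2 -/
def zi (P : Prop) : ZMod 2 := if P then 1 else 0

theorem zi_one {P : Prop} : zi P = 1 ↔ P := by
  unfold zi
  split_ifs with h
  · exact ⟨fun _ => h, fun _ => rfl⟩
  · exact ⟨fun h' => absurd h' zero_ne_one, fun h' => absurd h' h⟩

theorem zi_ne {P : Prop} : zi P ≠ 0 ↔ P := by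
  have h1 := zi_one (P := P)
  rcases z2 (zi P) with h | h
  · rw [h] at h1 ⊢
    simp only [ne_eq, not_true_eq_false, false_iff]
    exact fun hp => zero_ne_one (h1.2 hp)
  · rw [h] at h1 ⊢
    exact ⟨fun _ => h1.1 rfl, fun _ => one_ne_zero⟩

theorem zi_true {P : Prop} (h : P) : zi P = 1 := zi_one.2 h

theorem zi_false {P : Prop} (h : ¬ P) : zi P = 0 := if_neg h

theorem zi_congr {P Q : Prop} (h : P ↔ Q) : zi P = zi Q := by
  unfold zi
  simp only [h]

/-! ### the sign lemma -/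

theorem key1 {α β γ A B C : ℝ} (hα : α < 0) (hβ : 0 < β) (hγ : 0 < γ) (hΔ : 0 < A + B + C)
    (h0 : B * α + C * β + A * γ = 0) (hA : A ≠ 0) (hC : C ≠ 0) :
    zi (A < 0) + zi (0 < C) = zi (0 < A ∧ 0 < B ∧ 0 < C) := by
  rcases lt_or_gt_of_ne hA with a | a
  · rw [zi_true a, zi_false (P := 0 < A ∧ _) (fun h => by linarith [h.1])]
    rcases lt_or_gt_of_ne hC with c | c
    · exfalso
      have h1 : C * β < 0 := mul_neg_of_neg_of_pos c hβ
      have h2 : A * γ < 0 := mul_neg_of_neg_of_pos a hγ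
      have h3 : 0 < B * α := by linarith
      have h4 : B < 0 := by
        by_contra hB
        push Not at hB
        have := mul_nonpos_of_nonneg_of_nonpos hB hα.le
        linarith
      linarith
    · rw [zi_true c]; decide
  · rw [zi_false (P := A < 0) (by linarith), zero_add]
    rcases lt_or_gt_of_ne hC with c | c
    · rw [zi_false (P := 0 < C) (by linarith), zi_false (fun h => by linarith [h.2.2])]
    · have h1 : 0 < C * β := mul_pos c hβ
      have h2 : 0 < A * γ := mul_pos a hγ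
      have h3 : B * α < 0 := by linarith
      have h4 : 0 < B := by
        by_contra hB
        push Not at hB
        have := mul_nonneg_of_nonpos_of_nonpos hB hα.le
        linarith
      rw [zi_true c, zi_true ⟨a, h4, c⟩]

theorem zi_flip {A : ℝ} (hA : A ≠ 0) : zi (A < 0) = 1 + zi (0 < A) := by
  rcases lt_or_gt_of_ne hA with a | a
  · rw [zi_true a, zi_false (P := 0 < A) (by linarith), add_zero]
  · rw [zi_false (P := A < 0) (by linarith), zi_true a]; decide

/-- crossing indicator of the side with the signed distances `α`, `β` and the orientation `A` -/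
def cri (α β A : ℝ) : ZMod 2 := zi ((α < 0 ∧ 0 < β ∧ A < 0) ∨ (β < 0 ∧ 0 < α ∧ 0 < A))

theorem cri_same {α β A : ℝ} (h : (α < 0 ∧ β < 0) ∨ (0 < α ∧ 0 < β)) : cri α β A = 0 := by
  refine zi_false ?_
  rintro (⟨h1, h2, -⟩ | ⟨h1, h2, -⟩) <;> rcases h with ⟨h3, h4⟩ | ⟨h3, h4⟩ <;> linarith

theorem cri_lr {α β A : ℝ} (h1 : α < 0) (h2 : 0 < β) : cri α β A = zi (A < 0) := by
  refine zi_congr ⟨?_, fun h => Or.inl ⟨h1, h2, h⟩⟩
  rintro (⟨-, -, h⟩ | ⟨h, -, -⟩)
  · exact h
  · linarith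

theorem cri_rl {α β A : ℝ} (h1 : 0 < α) (h2 : β < 0) : cri α β A = zi (0 < A) := by
  refine zi_congr ⟨?_, fun h => Or.inr ⟨h2, h1, h⟩⟩
  rintro (⟨h, -, -⟩ | ⟨-, -, h⟩)
  · linarith
  · exact h

theorem key2 {α β γ A B C : ℝ} (hα : 0 < α) (hβ : β < 0) (hγ : γ < 0) (hΔ : 0 < A + B + C)
    (h0 : B * α + C * β + A * γ = 0) (hA : A ≠ 0) (hC : C ≠ 0) :
    zi (0 < A) + zi (C < 0) = zi (0 < A ∧ 0 < B ∧ 0 < C) := by
  have h := key1 (α := -α) (β := -β) (γ := -γ) (by linarith) (by linarith) (by linarith) hΔ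
    (by linarith) hA hC
  rw [← h, zi_flip hA, zi_flip hC]
  generalize zi (0 < A) = u
  generalize zi (0 < C) = v
  ring

theorem cri_sum {α β γ A B C : ℝ} (hα : α ≠ 0) (hβ : β ≠ 0) (hγ : γ ≠ 0) (hΔ : 0 < A + B + C)
    (h0 : B * α + C * β + A * γ = 0) (gA : α * β < 0 → A ≠ 0) (gB : β * γ < 0 → B ≠ 0)
    (gC : γ * α < 0 → C ≠ 0) :
    cri α β A + cri β γ B + cri γ α C = zi (0 < A ∧ 0 < B ∧ 0 < C) := by
  have perm1 : zi (0 < B ∧ 0 < C ∧ 0 < A) = zi (0 < A ∧ 0 < B ∧ 0 < C) :=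
    zi_congr ⟨fun h => ⟨h.2.2, h.1, h.2.1⟩, fun h => ⟨h.2.1, h.2.2, h.1⟩⟩
  have perm2 : zi (0 < C ∧ 0 < A ∧ 0 < B) = zi (0 < A ∧ 0 < B ∧ 0 < C) :=
    zi_congr ⟨fun h => ⟨h.2.1, h.2.2, h.1⟩, fun h => ⟨h.2.2, h.1, h.2.1⟩⟩
  rcases lt_or_gt_of_ne hα with a | a <;> rcases lt_or_gt_of_ne hβ with b | b <;>
    rcases lt_or_gt_of_ne hγ with g | g
  · -- all left
    rw [cri_same (Or.inl ⟨a, b⟩), cri_same (Or.inl ⟨b, g⟩), cri_same (Or.inl ⟨g, a⟩)]
    rw [zi_false]
    · decide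
    · rintro ⟨h1, h2, h3⟩
      nlinarith [mul_neg_of_pos_of_neg h2 a, mul_neg_of_pos_of_neg h3 b, mul_neg_of_pos_of_neg h1 g]
  · -- γ right alone
    rw [cri_same (Or.inl ⟨a, b⟩), cri_lr b g, cri_rl g a, zero_add, ← perm2, add_comm]
    exact key2 g a b (by linarith) (by linarith) (gC (mul_neg_of_pos_of_neg g a))
      (gB (mul_neg_of_neg_of_pos b g))
  · -- β right alone
    rw [cri_lr a b, cri_rl b g, cri_same (Or.inl ⟨g, a⟩), add_zero, ← perm1, add_comm]
    exact key2 b g a (by linarith) (by linarith) (gB (mul_neg_of_pos_of_neg b g))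
      (gA (mul_neg_of_neg_of_pos a b))
  · -- α left alone
    rw [cri_lr a b, cri_same (Or.inr ⟨b, g⟩), cri_rl g a, add_zero]
    exact key1 a b g hΔ h0 (gA (mul_neg_of_neg_of_pos a b)) (gC (mul_neg_of_pos_of_neg g a))
  · -- α right alone
    rw [cri_rl a b, cri_same (Or.inl ⟨b, g⟩), cri_lr g a, add_zero]
    exact key2 a b g hΔ h0 (gA (mul_neg_of_pos_of_neg a b)) (gC (mul_neg_of_neg_of_pos g a))
  · -- β left alone
    rw [cri_rl a b, cri_lr b g, cri_same (Or.inr ⟨g, a⟩), add_zero, ← perm1, add_comm]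
    exact key1 b g a (by linarith) (by linarith) (gB (mul_neg_of_neg_of_pos b g))
      (gA (mul_neg_of_pos_of_neg a b))
  · -- γ left alone
    rw [cri_same (Or.inr ⟨a, b⟩), cri_rl b g, cri_lr g a, zero_add, ← perm2, add_comm]
    exact key1 g a b (by linarith) (by linarith) (gC (mul_neg_of_neg_of_pos g a))
      (gB (mul_neg_of_pos_of_neg b g))
  · -- all right
    rw [cri_same (Or.inr ⟨a, b⟩), cri_same (Or.inr ⟨b, g⟩), cri_same (Or.inr ⟨g, a⟩)]
    rw [zi_false]
    · decide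
    · rintro ⟨h1, h2, h3⟩
      nlinarith [mul_pos h2 a, mul_pos h3 b, mul_pos h1 g]

/-! ### coordinates -/

/-- the point with the coordinates `c`, `y` -/
def pnt (z0 e : ℂ) (c y : ℝ) : ℂ := z0 + e * (⟨c, y⟩ : ℂ)

theorem X_pnt (he : e ≠ 0) : X z0 e (pnt z0 e c y) = c := by
  unfold X pnt
  rw [add_sub_cancel_left, mul_div_cancel_left₀ _ he]

theorem Y_pnt (he : e ≠ 0) : Y z0 e (pnt z0 e c y) = y := by
  unfold Y pnt
  rw [add_sub_cancel_left, mul_div_cancel_left₀ _ he]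

/-- `X` is affine -/
theorem X_affine (z0 e : ℂ) : ∃ p q r : ℝ, ∀ s : ℂ, X z0 e s = p + q * s.re + r * s.im := by
  refine ⟨-(z0 / e).re, (1 / e).re, -(1 / e).im, fun s => ?_⟩
  unfold X
  have : (s - z0) / e = s * (1 / e) - z0 / e := by ring
  rw [this, Complex.sub_re, Complex.mul_re]
  ring

theorem Y_affine (z0 e : ℂ) : ∃ p q r : ℝ, ∀ s : ℂ, Y z0 e s = p + q * s.re + r * s.im := by
  refine ⟨-(z0 / e).im, (1 / e).im, (1 / e).re, fun s => ?_⟩
  unfold Y
  have : (s - z0) / e = s * (1 / e) - z0 / e := by ring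
  rw [this, Complex.sub_im, Complex.mul_im]
  ring

/-- the cross product in coordinates -/
theorem cr_coord (he : ‖e‖ = 1) (a b x : ℂ) :
    cr (b - a) (x - a) = (X z0 e b - X z0 e a) * (Y z0 e x - Y z0 e a) -
      (Y z0 e b - Y z0 e a) * (X z0 e x - X z0 e a) := by
  have h1 : e.re * e.re + e.im * e.im = 1 := by
    have := Complex.normSq_apply e
    rw [Complex.normSq_eq_norm_sq, he] at this
    linarith
  have he0 : e ≠ 0 := by
    intro h
    rw [h, norm_zero] at he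
    exact zero_ne_one he
  have h2 : ∀ s : ℂ, s = z0 + e * (⟨X z0 e s, Y z0 e s⟩ : ℂ) := by
    intro s
    have : (⟨X z0 e s, Y z0 e s⟩ : ℂ) = (s - z0) / e := rfl
    rw [this, mul_div_cancel₀ _ he0]
    ring
  have ha := h2 a
  have hb := h2 b
  have hx := h2 x
  generalize X z0 e a = a1 at *
  generalize Y z0 e a = a2 at *
  generalize X z0 e b = b1 at *
  generalize Y z0 e b = b2 at *
  generalize X z0 e x = x1 at *
  generalize Y z0 e x = x2 at *
  rw [ha, hb, hx]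
  unfold cr
  simp only [Complex.add_re, Complex.add_im, Complex.sub_re, Complex.sub_im, Complex.mul_re,
    Complex.mul_im]
  linear_combination ((b1 - a1) * (x2 - a2) - (b2 - a2) * (x1 - a1)) * h1

/-- **a vertical line next to the axis** -/
theorem exists_line (S : Finset ℂ) (z0 e : ℂ) {δ : ℝ} (hδ : 0 < δ) :
    ∃ c : ℝ, c < 0 ∧ -δ < c ∧ ∀ s ∈ S, X z0 e s ≠ c ∧ (c < X z0 e s ↔ 0 ≤ X z0 e s) := by
  set F : Finset ℝ := ((S.image (X z0 e)).filter (· < 0)) ∪ {-δ} with hF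
  have hne : F.Nonempty := ⟨-δ, by rw [hF]; simp⟩
  have hneg : ∀ x ∈ F, x < 0 := by
    intro x hx
    rw [hF, Finset.mem_union, Finset.mem_filter, Finset.mem_singleton] at hx
    rcases hx with hx | hx
    · exact hx.2
    · rw [hx]; linarith
  have hm := F.max'_mem hne
  have hm0 := hneg _ hm
  have hmδ : -δ ≤ F.max' hne := F.le_max' _ (by rw [hF]; simp)
  refine ⟨F.max' hne / 2, by linarith, by linarith, fun s hs => ?_⟩
  have key : X z0 e s < 0 → X z0 e s ≤ F.max' hne := fun h => F.le_max' _ (by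
    rw [hF, Finset.mem_union, Finset.mem_filter]
    exact Or.inl ⟨Finset.mem_image_of_mem _ hs, h⟩)
  refine ⟨fun h => ?_, fun h => ?_, fun h => by linarith⟩
  · have := key (by rw [h]; linarith)
    linarith
  · by_contra hcon
    push Not at hcon
    have := key hcon
    linarith

/-- generic point of the line `X = c` -/
structure Gen (S : Finset ℂ) (z0 e : ℂ) (c : ℝ) (x : ℂ) : Prop where
  he : ‖e‖ = 1
  hX : X z0 e x = c
  ne : ∀ s ∈ S, X z0 e s ≠ c
  cr : ∀ a ∈ S, ∀ b ∈ S, X z0 e a < c → c < X z0 e b → B0x346.cr (b - a) (x - a) ≠ 0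

theorem exists_gen (he : ‖e‖ = 1) (hne : ∀ s ∈ S, X z0 e s ≠ c) {y1 y2 : ℝ} (hy : y1 < y2) :
    ∃ y, y1 < y ∧ y < y2 ∧ Gen S z0 e c (pnt z0 e c y) := by
  have he0 : e ≠ 0 := by
    intro h
    rw [h, norm_zero] at he
    exact zero_ne_one he
  set B : Finset ℝ := (S ×ˢ S).image fun p => Y z0 e p.1 + (Y z0 e p.2 - Y z0 e p.1) *
    (c - X z0 e p.1) / (X z0 e p.2 - X z0 e p.1) with hB
  obtain ⟨y, hy1, hy2⟩ := Set.Infinite.exists_notMem_finset (Set.Ioo_infinite hy) B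
  refine ⟨y, hy1.1, hy1.2, he, X_pnt he0, hne, fun a ha b hb h1 h2 h3 => hy2 ?_⟩
  rw [hB, Finset.mem_image]
  refine ⟨(a, b), Finset.mem_product.2 ⟨ha, hb⟩, ?_⟩
  rw [cr_coord (z0 := z0) he, X_pnt he0, Y_pnt he0] at h3
  have h4 : X z0 e b - X z0 e a ≠ 0 := by
    intro h; linarith
  simp only
  field_simp
  linarith

/-- the edge crosses the half line above the point -/
def Hx (z0 e : ℂ) (c : ℝ) (x : ℂ) (a b : ℂ) : ZMod 2 :=
  cri (X z0 e a - c) (X z0 e b - c) (B0x346.cr (b - a) (x - a))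

theorem cr_anti (a b x : ℂ) : cr (a - b) (x - b) = - cr (b - a) (x - a) := by
  unfold cr
  simp only [Complex.sub_re, Complex.sub_im]
  ring

theorem Hx_symm (x a b : ℂ) : Hx z0 e c x b a = Hx z0 e c x a b := by
  unfold Hx
  rw [cr_anti]
  refine zi_congr ?_
  rw [neg_pos, neg_lt_zero]
  tauto

/-- **sum over the sides** -/
theorem H_ds {x : ℂ} (hg : Gen S z0 e c x) {a b z : ℂ} (h : (a, b, z) ∈ delT S) :
    ds (Hx z0 e c x) a b z = zi (InO' x (a, b, z)) := by
  obtain ⟨o, ht⟩ := mem_delT_iff.1 h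
  obtain ⟨p, q, r, hp⟩ := X_affine z0 e
  have e0 := bary a b z x 1 0 0
  have e1 := bary a b z x p q r
  rw [← hp, ← hp, ← hp, ← hp, hg.hX] at e1
  simp only [zero_mul, add_zero, mul_one] at e0
  have hpos := ht.pos
  have hna := hg.ne a ht.ma
  have hnb := hg.ne b ht.mb
  have hnz := hg.ne z ht.mc
  have gen : ∀ a' ∈ S, ∀ b' ∈ S, (X z0 e a' - c) * (X z0 e b' - c) < 0 →
      cr (b' - a') (x - a') ≠ 0 := by
    intro a' ha b' hb hh
    rcases mul_neg_iff.1 hh with ⟨h1, h2⟩ | ⟨h1, h2⟩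
    · have := hg.cr b' hb a' ha (by linarith) (by linarith)
      rw [cr_anti] at this
      exact fun h => this (by rw [h, neg_zero])
    · exact hg.cr a' ha b' hb (by linarith) (by linarith)
  unfold ds Hx
  rw [cri_sum (sub_ne_zero.2 hna) (sub_ne_zero.2 hnb) (sub_ne_zero.2 hnz) (by linarith) ?_
    (gen a ht.ma b ht.mb) (gen b ht.mb z ht.mc) (gen z ht.mc a ht.ma)]
  · rfl
  · linear_combination -e1 + c * e0

theorem seg_affine {a b : ℂ} {f : ℂ → ℝ} (hf : ∃ p q r : ℝ, ∀ s : ℂ, f s = p + q * s.re + r * s.im)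
    (t : ℝ) : f (a + (t : ℂ) * (b - a)) = f a + t * (f b - f a) := by
  obtain ⟨p, q, r, h⟩ := hf
  rw [h, h, h]
  simp only [Complex.add_re, Complex.add_im, Complex.mul_re, Complex.mul_im, Complex.ofReal_re,
    Complex.ofReal_im, Complex.sub_re, Complex.sub_im]
  ring

/-- the edge which crosses the line: the crossing point -/
theorem exists_cross (he : ‖e‖ = 1) {a b : ℂ} (ha : X z0 e a < c) (hb : c < X z0 e b) :
    ∃ y : ℝ, pnt z0 e c y ∈ segment ℝ a b ∧
      ∀ x, X z0 e x = c → (cr (b - a) (x - a) < 0 ↔ Y z0 e x < y) := by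
  have he0 : e ≠ 0 := by
    intro h
    rw [h, norm_zero] at he
    exact zero_ne_one he
  set t : ℝ := (c - X z0 e a) / (X z0 e b - X z0 e a) with ht
  have hd : 0 < X z0 e b - X z0 e a := by linarith
  have ht0 : 0 ≤ t := div_nonneg (by linarith) hd.le
  have ht1 : t ≤ 1 := by rw [ht, div_le_one hd]; linarith
  have htd : t * (X z0 e b - X z0 e a) = c - X z0 e a := by
    rw [ht]; field_simp
  refine ⟨Y z0 e a + t * (Y z0 e b - Y z0 e a), ?_, fun x hx => ?_⟩
  · rw [segment_eq_image']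
    refine ⟨t, ⟨ht0, ht1⟩, ?_⟩
    have h1 := seg_affine (a := a) (b := b) (X_affine z0 e) t
    have h2 := seg_affine (a := a) (b := b) (Y_affine z0 e) t
    rw [htd] at h1
    have h3 : X z0 e (a + (t : ℂ) * (b - a)) = c := by rw [h1]; ring
    rw [← h2]
    set w := a + (t : ℂ) * (b - a) with hw
    have h4 : (a + t • (b - a) : ℂ) = w := by rw [hw, Complex.real_smul]
    simp only [h4]
    unfold pnt
    have h5 : (⟨c, Y z0 e w⟩ : ℂ) = (w - z0) / e := by
      apply Complex.ext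
      · rw [← h3]; rfl
      · rfl
    rw [h5, mul_div_cancel₀ _ he0]
    ring
  · rw [cr_coord (z0 := z0) he, hx]
    have h6 : (X z0 e b - X z0 e a) * (Y z0 e x - Y z0 e a) -
        (Y z0 e b - Y z0 e a) * (c - X z0 e a) =
        (X z0 e b - X z0 e a) * (Y z0 e x - (Y z0 e a + t * (Y z0 e b - Y z0 e a))) := by
      rw [← htd]; ring
    rw [h6]
    constructor
    · intro h
      by_contra hcon
      push Not at hcon
      have := mul_nonneg hd.le (sub_nonneg.2 hcon)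
      linarith
    · intro h
      exact mul_neg_of_pos_of_neg hd (by linarith)

/-- crossing height, both orientations -/
theorem exists_cross' (he : ‖e‖ = 1) (hne : ∀ s ∈ S, X z0 e s ≠ c) {a b : ℂ} (ha : a ∈ S)
    (hb : b ∈ S) (h : ¬ (c < X z0 e a ↔ c < X z0 e b)) :
    ∃ y : ℝ, pnt z0 e c y ∈ segment ℝ a b ∧
      ∀ x, X z0 e x = c → (Hx z0 e c x a b = 1 ↔ Y z0 e x < y) := by
  have hh : (X z0 e a < c ∧ c < X z0 e b) ∨ (X z0 e b < c ∧ c < X z0 e a) := by
    have h1 := hne a ha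
    have h2 := hne b hb
    rcases lt_or_gt_of_ne h1 with h3 | h3 <;> rcases lt_or_gt_of_ne h2 with h4 | h4
    · exact absurd ⟨fun h => by linarith, fun h => by linarith⟩ h
    · exact Or.inl ⟨h3, h4⟩
    · exact Or.inr ⟨h4, h3⟩
    · exact absurd ⟨fun _ => h4, fun _ => h3⟩ h
  rcases hh with ⟨h1, h2⟩ | ⟨h1, h2⟩
  · obtain ⟨y, hy, hy'⟩ := exists_cross (z0 := z0) he h1 h2
    refine ⟨y, hy, fun x hx => ?_⟩
    unfold Hx
    rw [cri_lr (by linarith) (by linarith), zi_one]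
    exact hy' x hx
  · obtain ⟨y, hy, hy'⟩ := exists_cross (z0 := z0) he h1 h2
    refine ⟨y, by rw [segment_symm]; exact hy, fun x hx => ?_⟩
    rw [← Hx_symm]
    unfold Hx
    rw [cri_lr (by linarith) (by linarith), zi_one]
    exact hy' x hx

/-- an edge which does not cross the line -/
theorem Hx_zero {x a b : ℂ} (hne : ∀ s ∈ S, X z0 e s ≠ c) (ha : a ∈ S) (hb : b ∈ S)
    (h : c < X z0 e a ↔ c < X z0 e b) : Hx z0 e c x a b = 0 := by
  unfold Hx
  have h1 := hne a ha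
  have h2 := hne b hb
  refine cri_same ?_
  rcases lt_or_gt_of_ne h1 with h3 | h3 <;> rcases lt_or_gt_of_ne h2 with h4 | h4
  · exact Or.inl ⟨by linarith, by linarith⟩
  · exact absurd (h.2 h4) (by linarith)
  · exact absurd (h.1 h3) (by linarith)
  · exact Or.inr ⟨by linarith, by linarith⟩

/-! ### triangles which contain the point -/

/-- the triangle which contains `x` -/
theorem it_of_in (hS : GP (S : Set ℂ)) {t : ℂ × ℂ × ℂ} (ht : t ∈ delT S) {x : ℂ} (hx : InO' x t)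
    {T : ℂ × ℂ × ℂ} (hT : T ∈ delT S) : zi (InO' x T) = it t T := by
  unfold it
  refine zi_congr ⟨fun h => ?_, fun h => ?_⟩
  · obtain ⟨a, b, z⟩ := t
    obtain ⟨a', b', z'⟩ := T
    obtain ⟨o, h1⟩ := mem_delT_iff.1 ht
    obtain ⟨o', h2⟩ := mem_delT_iff.1 hT
    exact disj hS h1 h2 hx (InO.inT h)
  · obtain ⟨a, b, z⟩ := t
    obtain ⟨h1, h2, h3⟩ := hx
    rcases rots_cases h with rfl | rfl | rfl
    · exact ⟨h1, h2, h3⟩
    · exact ⟨h2, h3, h1⟩
    · exact ⟨h3, h1, h2⟩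

/-- a generic point of a closed triangle is inside -/
theorem inO_of_gen {x : ℂ} (hg : Gen S z0 e c x) {t : ℂ × ℂ × ℂ} (ht : t ∈ delT S)
    (hx : InT x t.1 t.2.1 t.2.2) : InO' x t := by
  obtain ⟨a, b, z⟩ := t
  obtain ⟨o, h⟩ := mem_delT_iff.1 ht
  obtain ⟨p, q, r, hp⟩ := X_affine z0 e
  simp only at hx
  -- one side
  have key : ∀ {a b z : ℂ}, Tri S a b z o → InT x a b z → 0 < cr (b - a) (x - a) := by
    intro a b z h hx
    obtain ⟨h1, h2, h3⟩ := hx
    have e0 := bary a b z x 1 0 0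
    have e1 := bary a b z x p q r
    rw [← hp, ← hp, ← hp, ← hp, hg.hX] at e1
    simp only [zero_mul, add_zero, mul_one] at e0
    have hpos := h.pos
    refine lt_of_le_of_ne h1 fun h0 => ?_
    rw [← h0] at e0 e1
    have hna := hg.ne a h.ma
    have hnb := hg.ne b h.mb
    have e2 : cr (z - b) (x - b) * (X z0 e a - c) + cr (a - z) (x - z) * (X z0 e b - c) = 0 := by
      linear_combination -e1 + c * e0
    have aux : ∀ {B C u v : ℝ}, 0 ≤ B → 0 ≤ C → 0 < B + C → 0 < u → 0 < v → B * u + C * v ≠ 0 := by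
      intro B C u v hB hC hBC hu hv
      have h1 := mul_nonneg hB hu.le
      have h2 := mul_nonneg hC hv.le
      intro h
      have h3 : B * u = 0 := by linarith
      have h4 : C * v = 0 := by linarith
      rcases mul_eq_zero.1 h3 with h5 | h5
      · rcases mul_eq_zero.1 h4 with h6 | h6
        · linarith
        · linarith
      · linarith
    rcases lt_or_gt_of_ne hna with g1 | g1 <;> rcases lt_or_gt_of_ne hnb with g2 | g2
    · exact aux h2 h3 (by linarith) (sub_pos.2 g1) (sub_pos.2 g2) (by linear_combination -e2)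
    · exact hg.cr a h.ma b h.mb g1 g2 h0.symm
    · have := hg.cr b h.mb a h.ma g2 g1
      rw [cr_anti, ← h0, neg_zero] at this
      exact this rfl
    · exact aux h2 h3 (by linarith) (sub_pos.2 g1) (sub_pos.2 g2) e2
  refine ⟨key h hx, key h.rot ⟨hx.2.1, hx.2.2, hx.1⟩, key h.rot.rot ⟨hx.2.2, hx.1, hx.2.1⟩⟩

/-! ### short edges -/

variable {R1 d ρ : ℝ}

theorem adj_seg (hD : LDns S z0 R1 d) (hρ : ρ + d ≤ R1) {a b p : ℂ} (h : Adj S a b)
    (hp : p ∈ segment ℝ a b) (hn : ‖p - z0‖ ≤ ρ) : ‖a - p‖ < 2 * d ∧ ‖b - p‖ < 2 * d := by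
  have hH := XFx903.hol_ldns hD hρ
  have hw : p ∈ Metric.closedBall z0 ρ := by
    rw [Metric.mem_closedBall, dist_eq_norm]; exact hn
  rcases h with ⟨z, h⟩ | ⟨z, h⟩
  · have hpos := B1gx991.tri_pos h
    obtain ⟨o, -, -, -, -, -, h1, h2, -⟩ := Locx922.del_small hD.dpos hH hw
      (Locx922.InT.inD hpos (B1gx991.side_inT hpos hp)) (mem_delT.1 h)
    exact ⟨h1, h2⟩
  · have hpos := B1gx991.tri_pos h
    rw [segment_symm] at hp
    obtain ⟨o, -, -, -, -, -, h1, h2, -⟩ := Locx922.del_small hD.dpos hH hw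
      (Locx922.InT.inD hpos (B1gx991.side_inT hpos hp)) (mem_delT.1 h)
    exact ⟨h2, h1⟩

theorem adj_len (hD : LDns S z0 R1 d) (hρ : ρ + d ≤ R1) {a b : ℂ} (h : Adj S a b)
    (hn : ‖a - z0‖ ≤ ρ) : ‖b - a‖ < 2 * d :=
  (adj_seg hD hρ h (left_mem_segment _ _ _) hn).2

/-- the triangle of a generic point -/
theorem exists_in (hD : LDns S z0 R1 d) (hρ : ρ + d ≤ R1) {x : ℂ} (hg : Gen S z0 e c x)
    (hn : ‖x - z0‖ ≤ ρ) : ∃ t ∈ delT S, InO' x t ∧ (∀ v, Vtx v t → ‖v - x‖ < 2 * d) := by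
  have hH := XFx903.hol_ldns hD hρ
  have hw : x ∈ Metric.closedBall z0 ρ := by
    rw [Metric.mem_closedBall, dist_eq_norm]; exact hn
  obtain ⟨a, b, z, h1, h2⟩ := Locx922.exists_tri_W hD.gp hD.dpos hH hw
  have hpos := B1gx991.tri_pos h1
  obtain ⟨o, -, -, -, -, -, g1, g2, g3⟩ := Locx922.del_small hD.dpos hH hw
    (Locx922.InT.inD hpos h2) (mem_delT.1 h1)
  refine ⟨_, h1, inO_of_gen hg h1 h2, ?_⟩
  rintro v (rfl | rfl | rfl)
  · exact g1
  · exact g2
  · exact g3

/-- a reference path of `XF_903` as a mod 2 function -/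
theorem path_fun {R r0 r : ℝ} {N : Net ℂ} (hN : N.T = delT S) (hD : LDns S z0 R1 d)
    (hlive : ∀ a b : ℂ, ‖a - z0‖ < R → (a, b) ∉ N.kl) (h : r0 + 2 * d ≤ r)
    (hr : r ≤ R) (hR1 : R ≤ R1) {s t : ℂ × ℂ × ℂ} (hs : s ∈ delT S) (ht : t ∈ delT S)
    (hs0 : XFx903.Cor z0 r0 s) (ht0 : XFx903.Cor z0 r0 t) :
    ∃ g : ℂ → ℂ → ZMod 2, (∀ a b, g b a = g a b) ∧
      (∀ a b, g a b ≠ 0 → ‖a - z0‖ < r ∧ ‖b - z0‖ < r) ∧
      ∀ a b z, (a, b, z) ∈ delT S → ds g a b z = it s (a, b, z) + it t (a, b, z) := by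
  obtain ⟨gam, h1, h2⟩ := XFx903.exists_gam hN hD hlive h hr hR1 hs ht hs0 ht0
  have hA : ∀ t ∈ XFx903.Af S z0 r, XFx903.Cor z0 r t := fun t ht => (Finset.mem_filter.1 ht).2
  have hj := h2 (trg S hD.gp) ∅ (fun t ht => (Finset.mem_filter.1 ht).1) (fun _ _ _ _ => by simp)
  refine ⟨oc gam, fun a b => oc_symm _ _ _, fun a b h => ?_, fun a b z h => ?_⟩
  · rw [oc_ne] at h
    rcases h with h | h
    · obtain ⟨u, hu, he⟩ := h1 _ h
      exact XFx903.sd_near hA hu he
    · obtain ⟨u, hu, he⟩ := h1 _ h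
      exact (XFx903.sd_near hA hu he).symm
  · rw [oc_ds hD.gp (G := trg S hD.gp) rfl (D := ∅) (fun a b h => absurd h (by simp)) hj h,
      it_symmDiff]

end Crest.Agent.R143.Gax950
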