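import Crest.Agent.R143.Gauge4_950

/-!
# Row 143 (S0194), block X, GAUGE part 5 (helper950): the outer gauge

* `gaugeO` : GAUGEO of `XD_697`
-/

set_option autoImplicit false

noncomputable section

open scoped Classical

namespace Crest.Agent.R143.Gax950

open Crest.Agent.R143.B0x346 Crest.Agent.R143.DelGx806 Crest.Agent.R143.DelRx806
open Crest.Agent.R143.JColx54 Crest.Agent.R143.JCol2x54 Crest.Agent.R143.Planarx54
open Crest.Agent.R143.Planar2x54 Crest.Agent.R143.ToolWx838
open Crest.Agent.R143.X0Bx683 Crest.Agent.R143.JCardx872 Crest.Agent.R143.JWalkx872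
open Crest.Agent.R143.Circx63 Crest.Agent.R143.XLegx126 Crest.Agent.R143.Gatex838
open Crest.Agent.R143.RB0x838 Crest.Agent.R143.CircPx838 Crest.Agent.R143.XDx697

variable {S : Finset ℂ} {z0 e : ℂ} {c y R1 d ρ : ℝ} {W : Set ℂ} {h : ℝ} {n : ℕ} {l : ℕ → ℂ}
  {th : ℕ → ℝ}

/-- the edges of the axis function -/
theorem ax_far (hD : LDns S z0 R1 d) (he : ‖e‖ = 1) (hc : |c| ≤ d)
    (hne : ∀ s ∈ S, X z0 e s ≠ c ∧ (c < X z0 e s ↔ 0 ≤ X z0 e s)) {y y' : ℝ} (hy : y < y')
    (h0 : 2 * d ≤ y) (hR : y' + 3 * d ≤ R1) {a b : ℂ} (hab : Adj S a b)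
    (h : ax z0 e c y y' a b ≠ 0) : ¬ (0 ≤ X z0 e a ↔ 0 ≤ X z0 e b) ∧ 0 < Y z0 e (mid (a, b)) ∧
      ‖a - z0‖ < y' + 3 * d ∧ ‖b - z0‖ < y' + 3 * d ∧ ‖mid (a, b) - z0‖ < y' + 3 * d := by
  have hdp := hD.dpos
  have he0 : e ≠ 0 := by
    intro h
    rw [h, norm_zero] at he
    exact zero_ne_one he
  obtain ⟨h1, y0, h2, h3, h4⟩ := ax_ne he hne hy hab.mem.1 hab.mem.2 h
  have h5 := norm_pnt (z0 := z0) he c y0
  rw [abs_of_nonneg (a := y0) (by linarith)] at h5
  obtain ⟨h6, h7⟩ := adj_seg (ρ := y' + d) hD (by linarith) hab h4 (by linarith)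
  have h8 := tr a (pnt z0 e c y0) z0
  have h9 := tr b (pnt z0 e c y0) z0
  have hm : ‖mid (a, b) - pnt z0 e c y0‖ < 2 * d := by
    have : mid (a, b) - pnt z0 e c y0 = ((a - pnt z0 e c y0) + (b - pnt z0 e c y0)) / 2 := by
      unfold mid; simp only; ring
    rw [this, norm_div, Complex.norm_ofNat]
    have := norm_add_le (a - pnt z0 e c y0) (b - pnt z0 e c y0)
    linarith
  have h10 := tr (mid (a, b)) (pnt z0 e c y0) z0
  have h11 := abs_Y (z0 := z0) he (mid (a, b)) (pnt z0 e c y0)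
  rw [Y_pnt he0, abs_le] at h11
  exact ⟨h1, by linarith, by linarith, by linarith, by linarith⟩

/-- short edges between two radii which cross the axis -/
theorem ax_near (he : ‖e‖ = 1)
    (hne : ∀ s ∈ S, X z0 e s ≠ c ∧ (c < X z0 e s ↔ 0 ≤ X z0 e s)) {y y' q q' : ℝ}
    {a b : ℂ} (hab : Adj S a b) (hl : ‖b - a‖ ≤ 2 * d) (ha : q ≤ ‖a - z0‖) (ha' : ‖a - z0‖ ≤ q')
    (h1 : y + 8 * d ≤ q) (h2 : q' + 4 * d ≤ y') (h3 : 8 * d ≤ q) (hd : 0 < d)
    (hsg : ¬ (0 ≤ X z0 e a ↔ 0 ≤ X z0 e b)) (hm : 0 < Y z0 e (mid (a, b))) :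
    ax z0 e c y y' a b ≠ 0 := by
  have he0 : e ≠ 0 := by
    intro h
    rw [h, norm_zero] at he
    exact zero_ne_one he
  refine ax_one he hne hab.mem.1 hab.mem.2 hsg fun y0 hy0 => ?_
  have g1 := X_small he hsg
  have g2 := norm_XY (z0 := z0) he a
  have g3 := abs_Y (z0 := z0) he (mid (a, b)) a
  have g4 : ‖mid (a, b) - a‖ ≤ d := by
    have := mid_sub a b a
    rw [sub_self, norm_zero] at this
    linarith
  have g5 := Y_le_norm (z0 := z0) he a
  have g6 := abs_Y (z0 := z0) he (pnt z0 e c y0) a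
  rw [Y_pnt he0] at g6
  have g7 : ‖pnt z0 e c y0 - a‖ ≤ ‖b - a‖ := by
    rw [segment_eq_image'] at hy0
    obtain ⟨t, ht, h4⟩ := hy0
    simp only at h4
    rw [← h4, add_sub_cancel_left, norm_smul, Real.norm_eq_abs, abs_of_nonneg ht.1]
    exact mul_le_of_le_one_left (norm_nonneg _) ht.2
  rw [abs_le] at g3 g6
  have g8 := le_abs_self (Y z0 e a)
  have g9 : 0 < Y z0 e a := by
    by_contra hcon
    push Not at hcon
    rw [abs_of_nonpos hcon] at g2
    linarith
  rw [abs_of_pos g9] at g2 g5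
  constructor <;> linarith

/-- at most one of three propositions -/
theorem sum_zi {P : ZMod 3 → Prop} (h : ∀ i j, P i → P j → i = j) :
    ∑ i : ZMod 3, zi (P i) = zi (∃ i, P i) := by
  by_cases hP : ∃ i, P i
  · obtain ⟨i0, hi0⟩ := hP
    rw [zi_true (P := ∃ i, P i) ⟨i0, hi0⟩, Finset.sum_eq_single i0]
    · exact zi_true hi0
    · intro j _ hj
      exact zi_false fun h' => hj (h j i0 h' hi0)
    · intro h
      exact absurd (Finset.mem_univ _) h
  · rw [zi_false hP]
    exact Finset.sum_eq_zero fun i _ => zi_false fun h' => hP ⟨i, h'⟩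

theorem three_nsmul (u : ZMod 2) : ∑ _i : ZMod 3, u = u := by
  rw [Finset.sum_const, Finset.card_univ, ZMod.card]
  rcases z2 u with rfl | rfl <;> decide

/-- an explored state is occupied in one of the two directions -/
theorem Xp.occ {G : Trg ℂ} {O : Set (ℂ × ℂ × ℂ)} {D : Set (ℂ × ℂ)} {J : Finset (ℂ × ℂ)}
    {st0 : ZMod 3 → ℂ × ℂ} (hs : Starts G O D J st0) {a b : ℂ} (h : Xp G O D J W st0 (a, b)) :
    (a, b) ∈ J ∨ (b, a) ∈ J := by
  obtain ⟨i, h⟩ := h
  rcases LeadsO.tail_cases h with h | ⟨r, -, hr'⟩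
  · rw [h]; exact Or.inl (hs.occ i)
  · exact Or.inr (step_exit hr')

theorem exf_occ {G : Trg ℂ} {O : Set (ℂ × ℂ × ℂ)} {D : Set (ℂ × ℂ)} {J : Finset (ℂ × ℂ)}
    {st0 : ZMod 3 → ℂ × ℂ} (hs : Starts G O D J st0) {a b : ℂ} (h : exf G O D J W st0 a b ≠ 0) :
    (a, b) ∈ J ∨ (b, a) ∈ J := by
  have h1 := (z2 (exf G O D J W st0 a b)).resolve_left h
  rcases exf_one.1 h1 with h1 | h1
  · exact h1.occ hs
  · exact (h1.occ hs).symm

theorem zne {u : ZMod 2} (h : ¬ u ≠ 0) : u = 0 := not_not.1 h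

/-- **GAUGEO** -/
theorem gaugeO : GAUGEO := by
  refine ⟨400, by norm_num, ?_⟩
  intro S N z0 R R1 d b0 C4 Wd s0 hs0 q h hv hh hhq hKd hqR J hJ tip c htip hc M pi n l th T
  have hD := Wd.dns
  have hdp := hD.dpos
  have hS := hD.gp
  have H := Wd.hnet
  have hRR := Wd.RR1
  have hq : 0 < q := by linarith
  have hJ' : IsJoin N.toTrg N.kl (rots s0) N.exS J := JCardx872.mem_joins.1 hJ
  have hM : HullM S N.exS := J8x872.exS_hull H
  have hst := starts_mark H hJ'
  have hG : N.T = delT S := H.tri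
  have vv0 : ‖s0.1 - z0‖ ≤ 70 * q := hv 0
  have vv1 : ‖s0.2.1 - z0‖ ≤ 70 * q := hv 1
  have vv2 : ‖s0.2.2 - z0‖ ≤ 70 * q := hv 2
  -- the data of the three tubes
  have hdata : ∀ i : ZMod 3, ∃ (ci y y' : ℝ) (Z P : ℂ × ℂ × ℂ) (tu pa : ℂ → ℂ → ZMod 2),
      |ci| ≤ d ∧ (∀ s ∈ S, X z0 (ed (pi i)) s ≠ ci ∧
        (ci < X z0 (ed (pi i)) s ↔ 0 ≤ X z0 (ed (pi i)) s)) ∧
      (74 * q < y ∧ y < 75 * q) ∧ (205 * q - h / 30 < y' ∧ y' < 205 * q - h / 40) ∧
      (∀ a b z, (a, b, z) ∈ delT S → ds (ax z0 (ed (pi i)) ci y y') a b z =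
        it Z (a, b, z) + it P (a, b, z)) ∧
      (∀ a b, tu b a = tu a b) ∧ (∀ a b, tu a b ≠ 0 → Adj S a b ∧
        (a ∈ Bt S (Dsc z0 (400 * q)) h (n i) (l i) ∨ b ∈ Bt S (Dsc z0 (400 * q)) h (n i) (l i))) ∧
      (∀ a b z, (a, b, z) ∈ delT S → ds tu a b z =
        it ((tip i).1, (tip i).2, c i) (a, b, z) + it P (a, b, z)) ∧
      (∀ a b, pa b a = pa a b) ∧ (∀ a b, pa a b ≠ 0 → ‖a - z0‖ < 79 * q ∧ ‖b - z0‖ < 79 * q) ∧
      (∀ a b z, (a, b, z) ∈ delT S → ds pa a b z = it Z (a, b, z) + it s0 (a, b, z)) := by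
    intro i
    obtain ⟨ci, hc1, hc2, hc3⟩ := exists_line S z0 (ed (pi i)) hdp
    have hcd : |ci| ≤ d := by rw [abs_le]; constructor <;> linarith
    obtain ⟨y, hy1, hy2, Z, hZ, hZv, hZd⟩ := ray_exists hD (norm_ed (pi i)) hcd
      (fun s hs => (hc3 s hs).1) (y1 := 74 * q) (y2 := 75 * q) (by linarith) (by linarith)
      (by linarith)
    obtain ⟨y', hy1', hy2', P, hP, hPv, hPd⟩ := ray_exists hD (norm_ed (pi i)) hcd
      (fun s hs => (hc3 s hs).1) (y1 := 205 * q - h / 30) (y2 := 205 * q - h / 40) (by linarith)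
      (by linarith) (by linarith)
    have hFt : ((tip i).1, (tip i).2, c i) ∈ delT S := by rw [← hG]; exact (hc i).1
    -- the tube
    have hst0 := T.start i
    have hlW : ∀ k ≤ n i, ‖l i k - z0‖ ≤ 400 * q := by
      intro k hk
      rcases Nat.eq_zero_or_pos k with h0 | h0
      · subst h0
        rw [hst0]
        exact le_of_lt (hc i).2
      · rcases Nat.lt_or_ge 1 k with h1 | h1
        · have h2 := (T.tube i).dep (k - 1) (by omega) (by omega)
          have h3 : k - 1 + 1 = k := by omega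
          rw [h3] at h2
          exact le_of_lt (h2 (Metric.mem_closedBall_self (by positivity)))
        · have h2 : k = 1 := by omega
          subst h2
          exact le_of_lt ((T.tube i).fst (Metric.mem_closedBall_self (norm_nonneg _)))
    have hport : l i (n i) = pnt z0 (ed (pi i)) 0 (205 * q) := by
      rw [T.stop i, port_eq]
    have hpn : ‖l i (n i) - z0‖ ≤ 205 * q := by
      rw [hport]
      have := norm_pnt (z0 := z0) (norm_ed (pi i)) 0 (205 * q)
      rw [abs_zero, abs_of_pos (a := 205 * q) (by linarith)] at this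
      linarith
    obtain ⟨v, hv1⟩ : ∃ v, Vtx v P := ⟨P.1, Or.inl rfl⟩
    have hvn : ‖v - l i (n i)‖ ≤ h / 24 := by
      have h1 := hPv v hv1
      have h2 := pnt_sub (z0 := z0) (norm_ed (pi i)) ci y' 0 (205 * q)
      have h3 := tr v (pnt z0 (ed (pi i)) ci y') (l i (n i))
      rw [hport] at h3 ⊢
      rw [sub_zero, abs_of_neg (a := y' - 205 * q) (by linarith)] at h2
      linarith
    have hcn := tube_cn (ρ := 400 * q) (z0 := z0) hD (T.tube i) (by linarith) (by linarith) hlW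
      (fun s hs => by
        have := tr s (l i (n i)) z0
        change ‖s - z0‖ < 400 * q
        linarith) (by
          rw [hst0]
          exact (adj_tri'' hS hFt).mem.1) (by rw [hst0]; exact (hc i).2) hFt hP
      (by rw [hst0]; exact Or.inr (Or.inr rfl)) hv1 hvn
    obtain ⟨tu, ht1, ht2, ht3⟩ := hcn
    -- the path
    have hcor : ∀ {t : ℂ × ℂ × ℂ} {r : ℝ}, (∀ v, Vtx v t → ‖v - z0‖ < r) → XFx903.Cor z0 r t :=
      fun h => ⟨h _ (Or.inl rfl), h _ (Or.inr (Or.inl rfl)), h _ (Or.inr (Or.inr rfl))⟩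
    obtain ⟨pa, hp1, hp2, hp3⟩ := path_fun (r0 := 76 * q) (r := 79 * q) hG hD Wd.live
      (by linarith) (by linarith) hRR hZ hs0
      (hcor fun v hv => by
        have h1 := hZv v hv
        have h2 := norm_pnt (z0 := z0) (norm_ed (pi i)) ci y
        have h3 := tr v (pnt z0 (ed (pi i)) ci y) z0
        rw [abs_of_pos (a := y) (by linarith)] at h2
        linarith)
      ⟨by linarith, by linarith, by linarith⟩
    refine ⟨ci, y, y', Z, P, tu, pa, hcd, hc3, ⟨hy1, hy2⟩, ⟨hy1', hy2'⟩, ?_, ht1, ht2, ht3, hp1,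
      hp2, hp3⟩
    intro a b z hz
    have e1 := hZd a b z hz
    have e2 := hPd a b z hz
    unfold ds at e1 e2 ⊢
    unfold ax
    rw [← e1, ← e2]
    ring
  choose ci y y' Z P tu pa hcd hc3 hy hy' hax ht1 ht2 ht3 hp1 hp2 hp3 using hdata
  set W : Set ℂ := Dsc z0 (400 * q) with hW
  set ex := exf N.toTrg (rots s0) N.exS J W N.ex with hex
  set A : ZMod 3 → ℂ → ℂ → ZMod 2 := fun i => ax z0 (ed (pi i)) (ci i) (y i) (y' i) with hA
  set g : ℂ → ℂ → ZMod 2 := fun a b => ex a b + ∑ i, (tu i a b + A i a b + pa i a b) with hg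
  have hAx : ∀ i a b, Adj S a b → A i a b ≠ 0 →
      ¬ (0 ≤ X z0 (ed (pi i)) a ↔ 0 ≤ X z0 (ed (pi i)) b) ∧ 0 < Y z0 (ed (pi i)) (mid (a, b)) ∧
      ‖a - z0‖ < 206 * q ∧ ‖b - z0‖ < 206 * q ∧ ‖mid (a, b) - z0‖ < 205 * q := by
    intro i a b hab h1
    obtain ⟨g1, g2, g3, g4, g5⟩ := ax_far hD (norm_ed (pi i)) (hcd i) (hc3 i)
      (by linarith [(hy i).2, (hy' i).1]) (by linarith [(hy i).1])
      (by linarith [(hy' i).2]) hab h1
    exact ⟨g1, g2, by linarith [(hy' i).2], by linarith [(hy' i).2], by linarith [(hy' i).2]⟩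
  have hBt : ∀ i s, s ∈ Bt S W h (n i) (l i) → s ∈ W := fun i s hs => hs.2.1
  -- the values are zero far away
  have hout : ∀ a b, Adj S a b → a ∉ W → b ∉ W → g a b = ex a b := by
    intro a b hab ha hb
    have ha' : 400 * q ≤ ‖a - z0‖ := not_lt.1 ha
    rw [hg]
    simp only
    rw [Finset.sum_eq_zero, add_zero]
    intro i _
    have z1 : tu i a b = 0 := zne fun hz => by
      rcases (ht2 i a b hz).2 with h1 | h1
      · exact ha (hBt i a h1)
      · exact hb (hBt i b h1)
    have z2 : A i a b = 0 := zne fun hz => by linarith [(hAx i a b hab hz).2.2.1]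
    have z3 : pa i a b = 0 := zne fun hz => by linarith [(hp2 i a b hz).1]
    rw [z1, z2, z3]; decide
  -- a nonzero value
  have hcases : ∀ a b, Adj S a b → g a b ≠ 0 → ex a b ≠ 0 ∨ ∃ i, (tu i a b ≠ 0 ∨ A i a b ≠ 0 ∨
      pa i a b ≠ 0) := by
    intro a b _ hne
    by_contra hcon
    push Not at hcon
    apply hne
    rw [hg]
    simp only
    rw [hcon.1, Finset.sum_eq_zero, add_zero]
    intro i _
    obtain ⟨h1, h2, h3⟩ := hcon.2 i
    rw [h1, h2, h3]; decide
  -- the ends of the edges of the three functions are in the disc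
  have hdisc : ∀ i a b, Adj S a b → (tu i a b ≠ 0 ∨ A i a b ≠ 0 ∨ pa i a b ≠ 0) →
      ‖a - z0‖ < R ∨ ‖b - z0‖ < R := by
    intro i a b hab h1
    rcases h1 with h1 | h1 | h1
    · rcases (ht2 i a b h1).2 with h2 | h2
      · left
        have : ‖a - z0‖ < 400 * q := hBt i a h2
        linarith
      · right
        have : ‖b - z0‖ < 400 * q := hBt i b h2
        linarith
    · left
      linarith [(hAx i a b hab h1).2.2.1]
    · left
      linarith [(hp2 i a b h1).1]
  have hnh : ∀ a b, hullE S a b → ¬ (‖a - z0‖ < R ∨ ‖b - z0‖ < R) := by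
    rintro a b h1 (h2 | h2)
    · exact (Wd.inner a b h2).1 h1
    · exact (Wd.inner b a h2).2 h1
  have hnk : ∀ a b, (a, b) ∈ N.kl → ¬ (‖a - z0‖ < R ∨ ‖b - z0‖ < R) := by
    rintro a b h1 (h2 | h2)
    · exact Wd.live a b h2 h1
    · exact Wd.live b a h2 (N.klsym a b h1)
  have hexh : ∀ k, hullE S (N.ex k).1 (N.ex k).2 := H.hex
  have hexS : ∀ a b, (a, b) ∈ N.exS → hullE S a b := by
    rintro a b ⟨k, hk⟩
    have := hexh k
    rw [hk] at this
    exact this
  have hgz : ∀ a b, Adj S a b → ¬ (‖a - z0‖ < R ∨ ‖b - z0‖ < R) → g a b = ex a b := by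
    intro a b hab hn
    rw [hg]
    simp only
    rw [Finset.sum_eq_zero, add_zero]
    intro i _
    have z0 : ¬ (tu i a b ≠ 0 ∨ A i a b ≠ 0 ∨ pa i a b ≠ 0) := fun h1 => hn (hdisc i a b hab h1)
    push Not at z0
    rw [z0.1, z0.2.1, z0.2.2]; decide
  have hadjh : ∀ {a b}, hullE S a b → Adj S a b := fun h => Or.inl h.1
  -- the odd triangle is in `W`
  have hOW : ∀ a b z, (a, b, z) ∈ rots s0 → a ∈ W ∧ b ∈ W ∧ z ∈ W := by
    intro a b z hz
    have w0 : s0.1 ∈ W := by change ‖s0.1 - z0‖ < 400 * q; linarith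
    have w1 : s0.2.1 ∈ W := by change ‖s0.2.1 - z0‖ < 400 * q; linarith
    have w2 : s0.2.2 ∈ W := by change ‖s0.2.2 - z0‖ < 400 * q; linarith
    obtain ⟨p1, p2, p3⟩ := s0
    rcases rots_cases hz with h1 | h1 | h1 <;> simp only [Prod.mk.injEq] at h1 <;>
      obtain ⟨rfl, rfl, rfl⟩ := h1
    · exact ⟨w0, w1, w2⟩
    · exact ⟨w1, w2, w0⟩
    · exact ⟨w2, w0, w1⟩
  -- the join
  obtain ⟨G0, hG0, hoc⟩ := join_of (G := N.toTrg) (kl := N.kl) (O := rots s0) (D := N.exS) (g := g)
    hG hexS (fun a b hab => by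
      rw [hg]
      simp only
      rw [hex, exf_symm]
      congr 1
      refine Finset.sum_congr rfl fun i _ => ?_
      rw [ht1, hp1, hA]
      simp only
      rw [ax_symm])
    (fun a b hab => by
      have h1 := hexS a b hab
      rw [hgz a b (hadjh h1) (hnh a b h1), hex, exf_one]
      obtain ⟨k, hk⟩ := hab
      refine Or.inl ⟨k, ?_⟩
      rw [← hk]
      exact ⟨(htip k).1, Relation.ReflTransGen.refl⟩)
    (fun a b h1 h2 => by
      rw [hgz a b (hadjh h1) (hnh a b h1)]
      refine zne fun hz => ?_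
      have h3 := hJ'.bdr a b (by rw [hG]; exact h1.2) h2
      rcases exf_occ hst hz with h4 | h4
      · exact h3.1 h4
      · exact h3.2 h4)
    (fun a b hab hk h1 h2 => by
      rw [hgz a b hab (hnk a b hk)]
      refine zne fun hz => ?_
      have h3 := hJ'.kill a b hk h1 h2
      rcases exf_occ hst hz with h4 | h4
      · exact h3.1 h4
      · exact h3.2 h4)
    (fun a b z hz => by
      have e0 : ds g a b z = ds ex a b z + ∑ i, (ds (tu i) a b z + ds (A i) a b z +
          ds (pa i) a b z) := by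
        rw [hg]
        unfold ds
        simp only [Finset.sum_add_distrib]
        ring
      have e1 := ex_out hS hG hM (rotInv_rots s0) hJ' hst htip hc hOW hz
      rw [e0, hex, e1, ← Finset.sum_add_distrib]
      have e2 : ∀ i : ZMod 3, it ((tip i).1, (tip i).2, c i) (a, b, z) +
          (ds (tu i) a b z + ds (A i) a b z + ds (pa i) a b z) = it s0 (a, b, z) := by
        intro i
        rw [ht3 i a b z hz, hax i a b z hz, hp3 i a b z hz]
        generalize it ((tip i).1, (tip i).2, c i) (a, b, z) = u1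
        generalize it (P i) (a, b, z) = u2
        generalize it (Z i) (a, b, z) = u3
        generalize it s0 (a, b, z) = u4
        revert u1 u2 u3 u4; decide
      rw [Finset.sum_congr rfl fun i _ => e2 i, three_nsmul]
      rfl) hS
  have hG0m : G0 ∈ N.tj s0 := JCardx872.mem_joins.2 hG0
  -- the colouring
  obtain ⟨φ, hφ⟩ := exists_col hS hG hM hJ' hG0
  have hsame : ∀ a b, Adj S a b → oc J a b = oc G0 a b → φ a = φ b := by
    intro a b hab h1
    have h2 := hφ a b hab
    rw [h1, z2_self] at h2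
    exact (sub_eq_zero.1 h2.symm).symm
  have h3 : 3 ≤ S.card := HNet.card H
  have hhull : ∀ a b, hullE S a b → φ a = φ b := by
    intro a b h1
    refine hsame a b (hadjh h1) ?_
    by_cases h2 : (a, b) ∈ N.exS
    · rw [oc_one.2 (Or.inl (hJ'.mark a b h2).1), oc_one.2 (Or.inl (hG0.mark a b h2).1)]
    · have h3 := hJ'.bdr a b (by rw [hG]; exact h1.2) h2
      have h4 := hG0.bdr a b (by rw [hG]; exact h1.2) h2
      have e1 : oc J a b = 0 := zne fun h => by
        rcases oc_ne.1 h with h | h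
        · exact h3.1 h
        · exact h3.2 h
      have e2 : oc G0 a b = 0 := zne fun h => by
        rcases oc_ne.1 h with h | h
        · exact h4.1 h
        · exact h4.2 h
      rw [e1, e2]
  have hleg : ∀ i x, LeadsO N.toTrg (rots s0) N.exS J W (N.ex i) x → Adj S x.1 x.2 →
      φ x.1 = φ x.2 := by
    intro i x hx hadj
    refine hsame _ _ hadj ?_
    have h1 : Xp N.toTrg (rots s0) N.exS J W N.ex (x.1, x.2) := ⟨i, hx⟩
    rw [oc_one.2 (h1.occ hst), hoc _ _ hadj, hout _ _ hadj h1.out.1 h1.out.2]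
    exact (exf_one.2 (Or.inl h1)).symm
  refine ⟨G0, S.filter fun s => φ s = φ (N.ex 0).1, hG0m,
    flip_of hG hM hJ' hG0 hφ _, ?_, ?_, ?_⟩
  · -- the explored sites
    intro i p hp
    have hadj : Adj S p.1 p.2 := leadsO_adj hS hG (s := N.ex i) (hadjh (hexh i)) hp
    have h0 : φ (N.ex i).1 = φ (N.ex 0).1 := hull_const hS h3 hhull (hexh i) (hexh 0)
    have h1 := blk_of hS hG (φ := φ) (s := N.ex i) (v := φ (N.ex 0).1)
      ⟨h0, by rw [← hhull _ _ (hexh i)]; exact h0⟩ (hleg i) hp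
    rw [Finset.mem_filter, Finset.mem_filter]
    exact ⟨⟨hadj.mem.1, h1.1⟩, ⟨hadj.mem.2, h1.2⟩⟩
  · -- the edges
    rintro ⟨a, b⟩ hp
    have hadj : Adj S a b := (mem_E hG).1 (hG0.sub hp)
    have hne : g a b ≠ 0 := by
      rw [← hoc a b hadj, oc_ne]
      exact Or.inl hp
    rcases hcases a b hadj hne with h1 | ⟨i, h1 | h1 | h1⟩
    · left
      have h2 := (z2 (ex a b)).resolve_left h1
      rcases exf_one.1 h2 with ⟨i, h3⟩ | ⟨i, h3⟩
      · exact ⟨i, _, h3, Or.inl rfl⟩
      · exact ⟨i, _, h3, Or.inr rfl⟩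
    · right; left
      refine ⟨i, bt_mid (ρ := 400 * q) hD (by linarith) (by linarith) ?_ hadj (ht2 i a b h1).2⟩
      intro k hk
      rcases Nat.eq_zero_or_pos k with h0 | h0
      · subst h0
        rw [T.start i]
        exact le_of_lt (hc i).2
      · rcases T.reg i k hk with h2 | ⟨h2, -⟩
        · by_contra hcon
          push Not at hcon
          rcases Nat.lt_or_ge 1 k with h4 | h4
          · have h5 := (T.tube i).dep (k - 1) (by omega) (by omega)
            have h6 : k - 1 + 1 = k := by omega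
            rw [h6] at h5
            have : ‖l i k - z0‖ < 400 * q := h5 (Metric.mem_closedBall_self (by positivity))
            linarith
          · have h5 : k = 1 := by omega
            subst h5
            have : ‖l i 1 - z0‖ < 400 * q :=
              (T.tube i).fst (Metric.mem_closedBall_self (norm_nonneg _))
            linarith
        · by_contra hcon
          push Not at hcon
          rcases Nat.lt_or_ge 1 k with h4 | h4
          · have h5 := (T.tube i).dep (k - 1) (by omega) (by omega)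
            have h6 : k - 1 + 1 = k := by omega
            rw [h6] at h5
            have : ‖l i k - z0‖ < 400 * q := h5 (Metric.mem_closedBall_self (by positivity))
            linarith
          · have h5 : k = 1 := by omega
            subst h5
            have : ‖l i 1 - z0‖ < 400 * q :=
              (T.tube i).fst (Metric.mem_closedBall_self (norm_nonneg _))
            linarith
    · right; right
      obtain ⟨g1, g2, -, -, g3⟩ := hAx i a b hadj h1
      exact ⟨g3, Or.inl ⟨pi i, g2, g1⟩⟩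
    · right; right
      obtain ⟨g1, g2⟩ := hp2 i a b h1
      have g3 : ‖mid (a, b) - z0‖ < 81 * q := by
        have h2 := adj_len (ρ := 400 * q) hD (by linarith) hadj (by linarith)
        have h4 := mid_sub a b z0
        linarith
      exact ⟨by linarith, Or.inr g3⟩
  · -- the axes
    rintro ⟨a, b⟩ hE ⟨⟨ha, ha'⟩, hb, hb'⟩
    simp only at ha ha' hb hb'
    have hadj : Adj S a b := (mem_E hG).1 hE
    have hlen := adj_len (ρ := 400 * q) hD (by linarith) hadj (by linarith)
    have hnD : (a, b) ∉ N.exS := fun h => hnh a b (hexS a b h) (Or.inl (by linarith))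
    have hnD' : (b, a) ∉ N.exS := fun h => hnh b a (hexS b a h) (Or.inr (by linarith))
    have h1 : (a, b) ∈ G0 ↔ oc G0 a b = 1 := by
      rw [oc_one]
      have := hG0.sym a b hnD hnD'
      tauto
    rw [h1, hoc a b hadj]
    have e1 : ex a b = 0 := exf_W (Or.inl (by change ‖a - z0‖ < 400 * q; linarith))
    have e2 : ∀ i, tu i a b = 0 := by
      intro i
      refine zne fun hz => ?_
      have key : ∀ s, s ∈ Bt S W h (n i) (l i) → ‖s - z0‖ < 204 * q → False := by
        rintro s ⟨-, -, k, hk, hs⟩ hsq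
        have h2 : 205 * q ≤ ‖l i k - z0‖ := by
          rcases T.reg i k hk with h2 | ⟨h2, h3⟩
          · linarith
          · have := Y_le_norm (z0 := z0) (norm_ed (pi i)) (l i k)
            have := le_abs_self (Y z0 (ed (pi i)) (l i k))
            linarith
        have h3 := tr (l i k) s z0
        rw [ns (l i k) s] at h3
        linarith
      rcases (ht2 i a b hz).2 with h2 | h2
      · exact key a h2 ha'
      · exact key b h2 hb'
    have e3 : ∀ i, pa i a b = 0 := fun i => zne fun hz => by linarith [(hp2 i a b hz).1]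
    have e4 : ∀ i, A i a b = zi (0 < Y z0 (ed (pi i)) (mid (a, b)) ∧
        ¬ (0 ≤ X z0 (ed (pi i)) a ↔ 0 ≤ X z0 (ed (pi i)) b)) := by
      intro i
      by_cases h2 : 0 < Y z0 (ed (pi i)) (mid (a, b)) ∧
        ¬ (0 ≤ X z0 (ed (pi i)) a ↔ 0 ≤ X z0 (ed (pi i)) b)
      · rw [zi_true h2]
        refine (z2 _).resolve_left ?_
        exact ax_near (norm_ed (pi i)) (hc3 i) hadj hlen.le ha ha'.le
          (by linarith [(hy i).2]) (by linarith [(hy' i).1]) (by linarith) hdp h2.2 h2.1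
      · rw [zi_false h2]
        refine zne fun hz => h2 ?_
        obtain ⟨g1, g2, -⟩ := hAx i a b hadj hz
        exact ⟨g2, g1⟩
    have e5 : g a b = zi (∃ i, 0 < Y z0 (ed (pi i)) (mid (a, b)) ∧
        ¬ (0 ≤ X z0 (ed (pi i)) a ↔ 0 ≤ X z0 (ed (pi i)) b)) := by
      rw [hg]
      simp only
      rw [e1, zero_add, ← sum_zi]
      · refine Finset.sum_congr rfl fun i _ => ?_
        rw [e2, e3, e4, zero_add, add_zero]
      · intro i j hi hj
        exact pi.injective (ax_excl (d := d) (q := 80 * q) hlen.le (by linarith) (by linarith) ha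
          hi.1 hi.2 hj.1 hj.2)
    rw [e5, zi_one]
    unfold AxE
    constructor
    · rintro ⟨i, hi⟩
      exact ⟨pi i, hi⟩
    · rintro ⟨k, hk⟩
      refine ⟨pi.symm k, ?_⟩
      rw [Equiv.apply_symm_apply]
      exact hk

end Crest.Agent.R143.Gax950
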