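import Crest.Agent.R143.Gauge5_950

/-!
# Row 143 (S0194), block X, GAUGE part 6 (helper950): the inner gauge

* `gaugeI` : GAUGEI of `XD_697`
-/

set_option autoImplicit false

noncomputable section

open scoped Classical

namespace Crest.Agent.R143.Gax950

open Crest.Agent.R143.B0x346 Crest.Agent.R143.DelGx806 Crest.Agent.R143.DelRx806
open Crest.Agent.R143.JColx54 Crest.Agent.R143.JCol2x54 Crest.Agent.R143.Planarx54
open Crest.Agent.R143.Planar2x54 Crest.Agent.R143.ToolWx838
open Crest.Agent.R143.X0Bx683 Crest.Agent.R143.JCardx872 Crest.Agent.R143.JWalkx872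
open Crest.Agent.R143.Circx63 Crest.Agent.R143.XLegx126 Crest.Agent.R143.Gatex838
open Crest.Agent.R143.RB0x838 Crest.Agent.R143.CircPx838 Crest.Agent.R143.XDx697

variable {S : Finset ℂ} {z0 e : ℂ} {c y R1 d ρ : ℝ} {W : Set ℂ} {h : ℝ} {n : ℕ} {l : ℕ → ℂ}
  {th : ℕ → ℝ}

/-- a nonzero value: the edge crosses the half line -/
theorem hx_ne (he : ‖e‖ = 1) (hne : ∀ s ∈ S, X z0 e s ≠ c ∧ (c < X z0 e s ↔ 0 ≤ X z0 e s))
    {y : ℝ} {a b : ℂ} (ha : a ∈ S) (hb : b ∈ S) (h : Hx z0 e c (pnt z0 e c y) a b ≠ 0) :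
    ¬ (0 ≤ X z0 e a ↔ 0 ≤ X z0 e b) ∧ ∃ y0, y < y0 ∧ pnt z0 e c y0 ∈ segment ℝ a b := by
  have he0 : e ≠ 0 := by
    intro h
    rw [h, norm_zero] at he
    exact zero_ne_one he
  have hne' : ∀ s ∈ S, X z0 e s ≠ c := fun s hs => (hne s hs).1
  have hsg : ¬ (0 ≤ X z0 e a ↔ 0 ≤ X z0 e b) := by
    intro hs
    rw [← (hne a ha).2, ← (hne b hb).2] at hs
    exact h (Hx_zero hne' ha hb hs)
  refine ⟨hsg, ?_⟩
  rw [← (hne a ha).2, ← (hne b hb).2] at hsg
  obtain ⟨y0, hy0, hx⟩ := exists_cross' he hne' ha hb hsg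
  have h1 := hx (pnt z0 e c y) (X_pnt he0)
  rw [Y_pnt he0] at h1
  exact ⟨y0, h1.1 ((z2 _).resolve_left h), hy0⟩

/-- an edge which crosses the half line -/
theorem hx_one (he : ‖e‖ = 1) (hne : ∀ s ∈ S, X z0 e s ≠ c ∧ (c < X z0 e s ↔ 0 ≤ X z0 e s))
    {y : ℝ} {a b : ℂ} (ha : a ∈ S) (hb : b ∈ S)
    (hsg : ¬ (0 ≤ X z0 e a ↔ 0 ≤ X z0 e b))
    (h : ∀ y0, pnt z0 e c y0 ∈ segment ℝ a b → y < y0) : Hx z0 e c (pnt z0 e c y) a b = 1 := by
  have he0 : e ≠ 0 := by
    intro h
    rw [h, norm_zero] at he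
    exact zero_ne_one he
  have hne' : ∀ s ∈ S, X z0 e s ≠ c := fun s hs => (hne s hs).1
  rw [← (hne a ha).2, ← (hne b hb).2] at hsg
  obtain ⟨y0, hy0, hx⟩ := exists_cross' he hne' ha hb hsg
  have h1 := hx (pnt z0 e c y) (X_pnt he0)
  rw [Y_pnt he0] at h1
  exact h1.2 (h y0 hy0)

theorem seg_dist {a b p : ℂ} (h : p ∈ segment ℝ a b) : ‖p - a‖ ≤ ‖b - a‖ := by
  rw [segment_eq_image'] at h
  obtain ⟨t, ht, h4⟩ := h
  simp only at h4
  rw [← h4, add_sub_cancel_left, norm_smul, Real.norm_eq_abs, abs_of_nonneg ht.1]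
  exact mul_le_of_le_one_left (norm_nonneg _) ht.2

/-- the crossing height of a short edge -/
theorem height (he : ‖e‖ = 1) {a b : ℂ} {y0 : ℝ} (hl : ‖b - a‖ ≤ 2 * d)
    (hy0 : pnt z0 e c y0 ∈ segment ℝ a b) : |Y z0 e (mid (a, b)) - y0| ≤ 3 * d ∧
      |y0 - Y z0 e a| ≤ 2 * d := by
  have he0 : e ≠ 0 := by
    intro h
    rw [h, norm_zero] at he
    exact zero_ne_one he
  have g6 := abs_Y (z0 := z0) he (pnt z0 e c y0) a
  rw [Y_pnt he0] at g6
  have g7 := seg_dist hy0
  have g3 := abs_Y (z0 := z0) he (mid (a, b)) a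
  have g4 : ‖mid (a, b) - a‖ ≤ d := by
    have := mid_sub a b a
    rw [sub_self, norm_zero] at this
    linarith
  rw [abs_le] at g6 g3
  refine ⟨abs_le.2 ⟨by linarith, by linarith⟩, abs_le.2 ⟨by linarith, by linarith⟩⟩

theorem z2_eq {u v : ZMod 2} (h : u + v = 0) : u = v := by
  revert h; revert u v; decide

/-- **GAUGEI** -/
theorem gaugeI : GAUGEI := by
  refine ⟨400, by norm_num, ?_⟩
  intro S N z0 R R1 d b0 C4 Wd t ht0 q h hv hh hhq hKd hqR J hJ hocc tip c htip hc M pi n l th T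
  have hD := Wd.dns
  have hdp := hD.dpos
  have hS := hD.gp
  have H := Wd.hnet
  have hRR := Wd.RR1
  have hq : 0 < q := by linarith
  have hJ' : IsJoin N.toTrg N.kl (rots t) N.exS J := JCardx872.mem_joins.1 hJ
  have hM : HullM S N.exS := J8x872.exS_hull H
  have hG : N.T = delT S := H.tri
  have hnh : ∀ a b, hullE S a b → ¬ (‖a - z0‖ < R ∨ ‖b - z0‖ < R) := by
    rintro a b h1 (h2 | h2)
    · exact (Wd.inner a b h2).1 h1
    · exact (Wd.inner b a h2).2 h1
  have hexS : ∀ a b, (a, b) ∈ N.exS → hullE S a b := by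
    rintro a b ⟨k, hk⟩
    have := H.hex k
    rw [hk] at this
    exact this
  have hst := starts_side hS hG hM ht0 hJ' hocc (fun i h1 => hnh _ _ (hexS _ _ h1)
    (Or.inl (by linarith [hv i])))
  -- the data of the three tubes
  have hdata : ∀ i : ZMod 3, ∃ (ci y' : ℝ) (P : ℂ × ℂ × ℂ) (tu : ℂ → ℂ → ZMod 2),
      |ci| ≤ d ∧ (∀ s ∈ S, X z0 (ed (pi i)) s ≠ ci ∧
        (ci < X z0 (ed (pi i)) s ↔ 0 ≤ X z0 (ed (pi i)) s)) ∧
      (95 * q + h / 40 < y' ∧ y' < 95 * q + h / 30) ∧
      (∀ a b z, (a, b, z) ∈ delT S → ds (Hx z0 (ed (pi i)) ci (pnt z0 (ed (pi i)) ci y')) a b z =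
        it P (a, b, z)) ∧
      (∀ a b, tu b a = tu a b) ∧ (∀ a b, tu a b ≠ 0 → Adj S a b ∧
        (a ∈ Bt S (Dsc z0 (25 * q))ᶜ h (n i) (l i) ∨ b ∈ Bt S (Dsc z0 (25 * q))ᶜ h (n i) (l i))) ∧
      (∀ a b z, (a, b, z) ∈ delT S → ds tu a b z =
        it ((tip i).1, (tip i).2, c i) (a, b, z) + it P (a, b, z)) := by
    intro i
    obtain ⟨ci, hc1, hc2, hc3⟩ := exists_line S z0 (ed (pi i)) hdp
    have hcd : |ci| ≤ d := by rw [abs_le]; constructor <;> linarith
    obtain ⟨y', hy1', hy2', P, hP, hPv, hPd⟩ := ray_exists hD (norm_ed (pi i)) hcd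
      (fun s hs => (hc3 s hs).1) (y1 := 95 * q + h / 40) (y2 := 95 * q + h / 30) (by linarith)
      (by linarith) (by linarith)
    have hFt : ((tip i).1, (tip i).2, c i) ∈ delT S := by rw [← hG]; exact (hc i).1
    have hst0 := T.start i
    have hlW : ∀ k ≤ n i, ‖l i k - z0‖ ≤ 95 * q := by
      intro k hk
      rcases T.reg i k hk with h2 | ⟨h2, h3, h4⟩
      · linarith
      · have := norm_XY (z0 := z0) (norm_ed (pi i)) (l i k)
        rw [h2, abs_zero, abs_of_nonneg h3] at this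
        linarith
    have hport : l i (n i) = pnt z0 (ed (pi i)) 0 (95 * q) := by
      rw [T.stop i, port_eq]
    have he0 : ed (pi i) ≠ 0 := by
      intro h
      have := norm_ed (pi i)
      rw [h, norm_zero] at this
      exact zero_ne_one this
    have hpn : 95 * q ≤ ‖l i (n i) - z0‖ := by
      have := Y_le_norm (z0 := z0) (norm_ed (pi i)) (l i (n i))
      rw [hport, Y_pnt he0, abs_of_pos (a := 95 * q) (by linarith)] at this
      rw [hport]
      exact this
    obtain ⟨v, hv1⟩ : ∃ v, Vtx v P := ⟨P.1, Or.inl rfl⟩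
    have hvn : ‖v - l i (n i)‖ ≤ h / 24 := by
      have h1 := hPv v hv1
      have h2 := pnt_sub (z0 := z0) (norm_ed (pi i)) ci y' 0 (95 * q)
      have h3 := tr v (pnt z0 (ed (pi i)) ci y') (l i (n i))
      rw [hport] at h3 ⊢
      rw [sub_zero, abs_of_pos (a := y' - 95 * q) (by linarith)] at h2
      linarith
    have hcn := tube_cn (ρ := 95 * q) (z0 := z0) hD (T.tube i) (by linarith) (by linarith) hlW
      (fun s hs => by
        have := tr (l i (n i)) s z0
        rw [ns (l i (n i)) s] at this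
        change ¬ ‖s - z0‖ < 25 * q
        linarith) (by
          rw [hst0]
          exact (adj_tri'' hS hFt).mem.1) (by rw [hst0]; exact (hc i).2) hFt hP
      (by rw [hst0]; exact Or.inr (Or.inr rfl)) hv1 hvn
    obtain ⟨tu, ht1, ht2, ht3⟩ := hcn
    exact ⟨ci, y', P, tu, hcd, hc3, ⟨hy1', hy2'⟩, hPd, ht1, ht2, ht3⟩
  choose ci y' P tu hcd hc3 hy' hax ht1 ht2 ht3 using hdata
  set W : Set ℂ := (Dsc z0 (25 * q))ᶜ with hW
  have hinW : ∀ s, s ∈ W ↔ 25 * q ≤ ‖s - z0‖ := fun s => by
    rw [hW]; exact not_lt (a := ‖s - z0‖) (b := 25 * q)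
  set ex := exf N.toTrg (rots t) N.exS J W (st t) with hex
  set A : ZMod 3 → ℂ → ℂ → ZMod 2 := fun i =>
    Hx z0 (ed (pi i)) (ci i) (pnt z0 (ed (pi i)) (ci i) (y' i)) with hA
  set g : ℂ → ℂ → ZMod 2 := fun a b => ex a b + ∑ i, (tu i a b + A i a b) with hg
  -- the values of the rays at short edges
  have hAx : ∀ i a b, Adj S a b → ‖a - z0‖ < 221 * q → A i a b ≠ 0 →
      ¬ (0 ≤ X z0 (ed (pi i)) a ↔ 0 ≤ X z0 (ed (pi i)) b) ∧ 95 * q < Y z0 (ed (pi i)) (mid (a, b)) := by
    intro i a b hab ha h1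
    obtain ⟨g1, y0, g2, g3⟩ := hx_ne (norm_ed (pi i)) (hc3 i) hab.mem.1 hab.mem.2 h1
    have hlen := adj_len (ρ := 221 * q) hD (by linarith) hab ha.le
    obtain ⟨g4, -⟩ := height (norm_ed (pi i)) hlen.le g3
    rw [abs_le] at g4
    exact ⟨g1, by linarith [(hy' i).1]⟩
  -- the values inside the disc of radius `25 q`
  have hins : ∀ a b, Adj S a b → a ∉ W → b ∉ W → g a b = ex a b := by
    intro a b hab ha hb
    rw [hinW] at ha hb
    push Not at ha hb
    rw [hg]
    simp only
    rw [Finset.sum_eq_zero, add_zero]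
    intro i _
    have z1 : tu i a b = 0 := zne fun hz => by
      rcases (ht2 i a b hz).2 with h1 | h1
      · have := (hinW a).1 h1.2.1
        linarith
      · have := (hinW b).1 h1.2.1
        linarith
    have z2 : A i a b = 0 := zne fun hz => by
      have h2 := (hAx i a b hab (by linarith) hz).2
      have h3 := Y_le_norm (z0 := z0) (norm_ed (pi i)) (mid (a, b))
      have h4 := le_abs_self (Y z0 (ed (pi i)) (mid (a, b)))
      have h5 := mid_sub a b z0
      have h6 := tr b z0 a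
      rw [ns z0 a] at h6
      linarith
    rw [z1, z2, add_zero]
  have hcases : ∀ a b, g a b ≠ 0 → ex a b ≠ 0 ∨ ∃ i, (tu i a b ≠ 0 ∨ A i a b ≠ 0) := by
    intro a b hne
    by_contra hcon
    push Not at hcon
    apply hne
    rw [hg]
    simp only
    rw [hcon.1, Finset.sum_eq_zero, add_zero]
    intro i _
    obtain ⟨h1, h2⟩ := hcon.2 i
    rw [h1, h2, add_zero]
  -- the colouring
  obtain ⟨φ, hφ⟩ := exact hS (A := ZMod 2) (f := fun a b => oc J a b + g a b)
    (fun a b hab => by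
      have e1 : g b a = g a b := by
        rw [hg]
        simp only
        rw [hex, exf_symm]
        congr 1
        refine Finset.sum_congr rfl fun i _ => ?_
        rw [ht1, hA]
        simp only
        rw [Hx_symm]
      rw [e1, oc_symm]
      generalize oc J a b + g a b = u
      revert u; decide)
    (fun a b z hz => by
      have e0 : oc J a b + g a b + (oc J b z + g b z) + (oc J z a + g z a) =
          ds (oc J) a b z + (ds ex a b z + ∑ i, (ds (tu i) a b z + ds (A i) a b z)) := by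
        rw [hg]
        unfold ds
        simp only [Finset.sum_add_distrib]
        ring
      have e1 := ex_inn hS hG hM hJ' hst htip hc hz
      have e3 : ds (oc J) a b z = it t (a, b, z) := by
        rw [oc_ds hS hG hM hJ' hz]
        rfl
      rw [e0, e3, hex, e1]
      have e2 : ∀ i : ZMod 3, ds (tu i) a b z + ds (A i) a b z =
          it ((tip i).1, (tip i).2, c i) (a, b, z) := by
        intro i
        rw [ht3 i a b z hz, hax i a b z hz]
        generalize it ((tip i).1, (tip i).2, c i) (a, b, z) = u1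
        generalize it (P i) (a, b, z) = u2
        revert u1 u2; decide
      rw [Finset.sum_congr rfl fun i _ => e2 i]
      generalize ∑ i : ZMod 3, it ((tip i).1, (tip i).2, c i) (a, b, z) = u1
      generalize it t (a, b, z) = u2
      revert u1 u2; decide)
  -- the sites
  set σ : Finset ℂ := (Fs S z0 (221 * q)).filter fun s => φ s = φ (vt t 0) with hσ
  have hfree : J8x872.FreeS S N.kl σ :=
    (J8x872.free_world Wd (ρ := 221 * q) (by linarith)).mono (Finset.filter_subset _ _)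
  have hmark := J8x872.bd_mark' H hfree
  have hG0m : X0Bx683.flip N.toTrg J σ ∈ N.tj t := (J8x872.flip_mem H hfree).2 hJ
  have hG0 := JCardx872.mem_joins.1 hG0m
  have hmemσ : ∀ s, s ∈ σ ↔ s ∈ S ∧ ‖s - z0‖ < 221 * q ∧ φ s = φ (vt t 0) := by
    intro s
    rw [hσ, Finset.mem_filter]
    unfold Fs
    rw [Finset.mem_filter]
    tauto
  have hoc : ∀ a b, Adj S a b → ‖a - z0‖ < 221 * q → ‖b - z0‖ < 221 * q →
      oc (X0Bx683.flip N.toTrg J σ) a b = g a b := by
    intro a b hab ha hb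
    have h1 := hφ a b hab
    have h2 := J8x872.occ_flip (β := σ) hG (hmark σ subset_rfl) hJ' hab
    have h3 : (a ∈ σ ↔ b ∈ σ) ↔ φ a = φ b := by
      rw [hmemσ, hmemσ]
      simp only [hab.mem.1, hab.mem.2, ha, hb, true_and]
      generalize φ a = x
      generalize φ b = y
      generalize φ (vt t 0) = w
      revert x y w; decide
    rw [h3, ← oc_one, ← oc_one] at h2
    revert h1 h2
    generalize oc (X0Bx683.flip N.toTrg J σ) a b = u1
    generalize oc J a b = u2
    generalize g a b = u3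
    generalize φ a = u4
    generalize φ b = u5
    intro h1 h2
    by_cases h4 : u4 = u5
    · rw [h4, sub_self] at h1
      have h5 : u2 = u3 := z2_eq h1
      subst h5
      have h6 : u1 = 1 ↔ u2 = 1 := by tauto
      rcases z2 u1 with rfl | rfl <;> rcases z2 u2 with rfl | rfl
      · rfl
      · exact absurd (h6.2 rfl) zero_ne_one
      · exact absurd (h6.1 rfl) zero_ne_one
      · rfl
    · have h6 : u1 = 1 ↔ ¬ u2 = 1 := by tauto
      have h7 : u2 + u3 = 1 := by
        rw [h1]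
        have h8 : u5 - u4 ≠ 0 := fun h9 => h4 (sub_eq_zero.1 h9).symm
        exact (z2 _).resolve_left h8
      rcases z2 u1 with rfl | rfl <;> rcases z2 u2 with rfl | rfl
      · exact absurd (h6.2 zero_ne_one) zero_ne_one
      · revert h7; generalize u3 = u; revert u; decide
      · revert h7; generalize u3 = u; revert u; decide
      · exact absurd rfl (h6.1 rfl)
  have hsame : ∀ a b, Adj S a b → a ∉ W → b ∉ W → oc J a b = 1 → ex a b = 1 → φ a = φ b := by
    intro a b hab ha hb h1 h2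
    have h3 := hφ a b hab
    rw [hins a b hab ha hb, h1, h2] at h3
    have h4 : φ b - φ a = 0 := by rw [← h3]; decide
    exact (sub_eq_zero.1 h4).symm
  have hvW : ∀ i, vt t i ∉ W := fun i => by
    rw [hinW]; push Not; exact hv i
  have hstX : ∀ i, Xp N.toTrg (rots t) N.exS J W (st t) (st t i) := fun i =>
    ⟨i, ⟨hvW (i + 1), hvW i⟩, Relation.ReflTransGen.refl⟩
  have hside : ∀ i, φ (vt t (i + 1)) = φ (vt t i) := by
    intro i
    have hadj : Adj S (vt t i) (vt t (i + 1)) := by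
      have := vt_tri hS ht0 i
      exact adj_tri this
    exact (hsame _ _ hadj (hvW _) (hvW _) (oc_one.2 (Or.inl (hocc i)))
      (exf_one.2 (Or.inr (hstX i)))).symm
  have hvall : ∀ i, φ (vt t i) = φ (vt t 0) := by
    have z3 : ∀ i : ZMod 3, i = 0 ∨ i = 1 ∨ i = 2 := by decide
    have h1 : φ (vt t 1) = φ (vt t 0) := hside 0
    have h2 : φ (vt t 2) = φ (vt t 1) := hside 1
    intro i
    rcases z3 i with rfl | rfl | rfl
    · rfl
    · exact h1
    · exact h2.trans h1
  have hleg : ∀ i x, LeadsO N.toTrg (rots t) N.exS J W (st t i) x → Adj S x.1 x.2 →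
      φ x.1 = φ x.2 := by
    intro i x hx hadj
    have h1 : Xp N.toTrg (rots t) N.exS J W (st t) (x.1, x.2) := ⟨i, hx⟩
    exact hsame _ _ hadj h1.out.1 h1.out.2 (oc_one.2 (h1.occ hst)) (exf_one.2 (Or.inl h1))
  refine ⟨X0Bx683.flip N.toTrg J σ, σ, hG0m, J8x872.flip_self.symm, ?_, ?_, ?_⟩
  · -- the explored sites
    intro i p hp
    have hadj0 : Adj S (st t i).1 (st t i).2 := (adj_tri (vt_tri hS ht0 i)).symm
    have hadj : Adj S p.1 p.2 := leadsO_adj hS hG (s := st t i) hadj0 hp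
    have h1 := blk_of hS hG (φ := φ) (s := st t i) (v := φ (vt t 0))
      ⟨hvall (i + 1), hvall i⟩ (hleg i) hp
    have ho := LeadsO.out_right hp
    have o1 : ‖p.1 - z0‖ < 25 * q := by
      have := ho.1
      rw [hinW] at this
      exact not_le.1 this
    have o2 : ‖p.2 - z0‖ < 25 * q := by
      have := ho.2
      rw [hinW] at this
      exact not_le.1 this
    rw [hmemσ, hmemσ]
    exact ⟨⟨hadj.mem.1, by linarith, h1.1⟩, ⟨hadj.mem.2, by linarith, h1.2⟩⟩
  · -- the edges
    rintro ⟨a, b⟩ hp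
    have hadj : Adj S a b := (mem_E hG).1 (hG0.sub hp)
    by_cases hd1 : ‖a - z0‖ < 221 * q ∧ ‖b - z0‖ < 221 * q
    · have hne : g a b ≠ 0 := by
        rw [← hoc a b hadj hd1.1 hd1.2, oc_ne]
        exact Or.inl hp
      rcases hcases a b hne with h1 | ⟨i, h1 | h1⟩
      · left
        have h2 := (z2 (ex a b)).resolve_left h1
        rcases exf_one.1 h2 with ⟨i, h3⟩ | ⟨i, h3⟩
        · exact ⟨i, _, h3, Or.inl rfl⟩
        · exact ⟨i, _, h3, Or.inr rfl⟩
      · right; left
        refine ⟨i, bt_mid (ρ := 95 * q) hD (by linarith) (by linarith) ?_ hadj (ht2 i a b h1).2⟩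
        intro k hk
        rcases T.reg i k hk with h2 | ⟨h2, h3, h4⟩
        · linarith
        · have := norm_XY (z0 := z0) (norm_ed (pi i)) (l i k)
          rw [h2, abs_zero, abs_of_nonneg h3] at this
          linarith
      · right; right
        obtain ⟨g1, g2⟩ := hAx i a b hadj hd1.1 h1
        have h3 := Y_le_norm (z0 := z0) (norm_ed (pi i)) (mid (a, b))
        have h4 := le_abs_self (Y z0 (ed (pi i)) (mid (a, b)))
        exact ⟨by linarith, Or.inl ⟨pi i, by linarith, g1⟩⟩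
    · right; right
      have hm : 219 * q < ‖mid (a, b) - z0‖ := by
        by_contra hcon
        push Not at hcon
        have hms : mid (a, b) ∈ segment ℝ a b := by
          rw [segment_eq_image']
          refine ⟨1 / 2, ⟨by norm_num, by norm_num⟩, ?_⟩
          unfold mid
          simp only [Complex.real_smul]
          push_cast
          ring
        obtain ⟨g1, g2⟩ := adj_seg (ρ := 219 * q) hD (by linarith) hadj hms hcon
        have g3 := tr a (mid (a, b)) z0
        have g4 := tr b (mid (a, b)) z0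
        exact hd1 ⟨by linarith, by linarith⟩
      exact ⟨by linarith, Or.inr hm⟩
  · -- the axes
    rintro ⟨a, b⟩ hE ⟨⟨ha, ha'⟩, hb, hb'⟩
    simp only at ha ha' hb hb'
    have hadj : Adj S a b := (mem_E hG).1 hE
    have hlen := adj_len (ρ := 221 * q) hD (by linarith) hadj (by linarith)
    have hnD : (a, b) ∉ N.exS := fun h => hnh a b (hexS a b h) (Or.inl (by linarith))
    have hnD' : (b, a) ∉ N.exS := fun h => hnh b a (hexS b a h) (Or.inr (by linarith))
    have h1 : (a, b) ∈ X0Bx683.flip N.toTrg J σ ↔ oc (X0Bx683.flip N.toTrg J σ) a b = 1 := by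
      rw [oc_one]
      have := hG0.sym a b hnD hnD'
      tauto
    rw [h1, hoc a b hadj (by linarith) (by linarith)]
    have e1 : ex a b = 0 := exf_W (Or.inl ((hinW a).2 (by linarith)))
    have e2 : ∀ i, tu i a b = 0 := by
      intro i
      refine zne fun hz => ?_
      have key : ∀ s, s ∈ Bt S W h (n i) (l i) → 96 * q ≤ ‖s - z0‖ → False := by
        rintro s ⟨-, -, k, hk, hs⟩ hsq
        have h2 : ‖l i k - z0‖ ≤ 95 * q := by
          rcases T.reg i k hk with h2 | ⟨h2, h3, h4⟩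
          · linarith
          · have := norm_XY (z0 := z0) (norm_ed (pi i)) (l i k)
            rw [h2, abs_zero, abs_of_nonneg h3] at this
            linarith
        have h3 := tr s (l i k) z0
        linarith
      rcases (ht2 i a b hz).2 with h2 | h2
      · exact key a h2 ha
      · exact key b h2 hb
    have e4 : ∀ i, A i a b = zi (0 < Y z0 (ed (pi i)) (mid (a, b)) ∧
        ¬ (0 ≤ X z0 (ed (pi i)) a ↔ 0 ≤ X z0 (ed (pi i)) b)) := by
      intro i
      by_cases h2 : 0 < Y z0 (ed (pi i)) (mid (a, b)) ∧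
        ¬ (0 ≤ X z0 (ed (pi i)) a ↔ 0 ≤ X z0 (ed (pi i)) b)
      · rw [zi_true h2]
        refine hx_one (norm_ed (pi i)) (hc3 i) hadj.mem.1 hadj.mem.2 h2.2 fun y0 hy0 => ?_
        obtain ⟨g1, g2⟩ := height (norm_ed (pi i)) hlen.le hy0
        have g3 := X_small (norm_ed (pi i)) h2.2
        have g4 := norm_XY (z0 := z0) (norm_ed (pi i)) a
        rw [abs_le] at g1 g2
        have g9 : 0 < Y z0 (ed (pi i)) a := by
          by_contra hcon
          push Not at hcon
          rw [abs_of_nonpos hcon] at g4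
          linarith [h2.1]
        rw [abs_of_pos g9] at g4
        linarith [(hy' i).2]
      · rw [zi_false h2]
        refine zne fun hz => h2 ?_
        obtain ⟨g1, g2⟩ := hAx i a b hadj (by linarith) hz
        exact ⟨by linarith, g1⟩
    have e5 : g a b = zi (∃ i, 0 < Y z0 (ed (pi i)) (mid (a, b)) ∧
        ¬ (0 ≤ X z0 (ed (pi i)) a ↔ 0 ≤ X z0 (ed (pi i)) b)) := by
      rw [hg]
      simp only
      rw [e1, zero_add, ← sum_zi]
      · refine Finset.sum_congr rfl fun i _ => ?_
        rw [e2, e4, zero_add]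
      · intro i j hi hj
        exact pi.injective (ax_excl (d := d) (q := 96 * q) hlen.le (by linarith) (by linarith) ha
          hi.1 hi.2 hj.1 hj.2)
    rw [e5, zi_one]
    unfold AxE
    constructor
    · rintro ⟨i, hi⟩
      exact ⟨pi i, hi⟩
    · rintro ⟨k, hk⟩
      refine ⟨pi.symm k, ?_⟩
      rw [Equiv.apply_symm_apply]
      exact hk

end Crest.Agent.R143.Gax950
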