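import Crest.Agent.R143.Neck3_571

/-!
# Row 143: the necklace theorem for SPATIAL sums of charges (helper126)

The tube charge `Z τ` (gaps of the arc between two gate states) is only defined up to a gauge
`b (g') - b (g)`, so the frame does not bound its second moment.  The frame bounds *spatial* sums:
let `Pp τ z` be the part of `Z τ z` in the zone of the first gate, `Pm τ z` the part in the zone of
the second gate (in the coordinates of the second gate).  Inputs: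

* `K1` bounds the second moment of the core `Z τ - Pp τ - rot τ * Pm τ`,
* `K1` bounds the second moment of the zone sum `Pm τ' + Pp τ` for the pairs `(τ', τ)` of
  neighbouring tubes of the octagon,
* the conclusion of `necklace`.

Outputs (`bounds`) : the slope `α`, `U g + Pp τ` and `U g' - Pm τ` are `O(K1 + ρ)` in `L²`.
-/

set_option autoImplicit false
set_option linter.unusedSectionVars false

noncomputable section

namespace Crest.Agent.R143.Gaugex126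

open MeasureTheory ProbabilityTheory Set Complex
open Crest.Agent.R143.Neckx571 Crest.Agent.R143.Neck2x571 Crest.Agent.R143.Neck3x571
open scoped ENNReal NNReal

variable {Γ Ξ : Type*} [MeasurableSpace Γ] [MeasurableSpace Ξ]

/-- distance of a constant to the average -/
theorem avg_const {A : Type*} [MeasurableSpace A] (κ : Measure A) [IsFiniteMeasure κ]
    (S : Set A) {f : A → ℂ} (hf : AEStronglyMeasurable f (κ.restrict S)) (a : ℂ) :
    κ S * ‖a - ⨍ v in S, f v ∂κ‖ₑ ^ 2 ≤ ∫⁻ v in S, ‖a - f v‖ₑ ^ 2 ∂κ := by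
  by_cases hS : κ S = 0
  · rw [hS, zero_mul]; exact zero_le
  by_cases hI : ∫⁻ v in S, ‖a - f v‖ₑ ^ 2 ∂κ = ∞
  · rw [hI]; exact le_top
  have hm : AEStronglyMeasurable (fun v => a - f v) (κ.restrict S) :=
    aestronglyMeasurable_const.sub hf
  have h2 : MemLp (fun v => a - f v) 2 (κ.restrict S) := by
    refine ⟨hm, lt_top_iff_ne_top.2 fun h => hI ?_⟩
    rw [← eLpNorm_two_sq (κ.restrict S) (fun v => a - f v), h]
    simp
  have h1 : Integrable (fun v => a - f v) (κ.restrict S) := h2.integrable one_le_two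
  have hfi : Integrable f (κ.restrict S) := by
    refine ((integrable_const a).sub h1).congr (Filter.Eventually.of_forall fun v => ?_)
    simp
  have hne : NeZero (κ.restrict S) := ⟨by rwa [Ne, Measure.restrict_eq_zero]⟩
  have e : ⨍ v in S, (a - f v) ∂κ = a - ⨍ v in S, f v ∂κ := by
    have h3 : ⨍ v in S, (a - f v) ∂κ = (⨍ _v in S, a ∂κ) - ⨍ v in S, f v ∂κ := by
      rw [average, average, average]
      exact integral_sub ((integrable_const a).smul_measure (by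
        simp [hS])) (hfi.smul_measure (by
        simp [hS]))
    rw [h3, average_const]
  have h := setAverage_sq_le κ S hm
  rwa [e] at h

/-! ### sections of the tube event -/

/-- tubes starting at the gate `g` -/
def secX (G : Set Γ) (E : Set (Γ × Γ × Ξ)) (g : Γ) : Set (Γ × Ξ) := {w | (g, w) ∈ GE G E}

/-- tubes ending at the gate `g` -/
def secY (G : Set Γ) (E : Set (Γ × Γ × Ξ)) (g : Γ) : Set (Γ × Ξ) := {v | (v.1, g, v.2) ∈ GE G E}

/-- reordering -/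
def rot3 : (Γ × (Γ × Ξ)) → (Γ × Γ × Ξ) := fun p => (p.2.1, p.1, p.2.2)

theorem rot3_meas : Measurable (rot3 : Γ × (Γ × Ξ) → Γ × Γ × Ξ) :=
  (measurable_fst.comp measurable_snd).prodMk (measurable_fst.prodMk
    (measurable_snd.comp measurable_snd))

section

variable (μ : Measure Γ) [IsProbabilityMeasure μ] (ν : Measure Ξ) [IsProbabilityMeasure ν]
  {G : Set Γ} {E : Set (Γ × Γ × Ξ)}

theorem mp_rot3 : MeasurePreserving (rot3 : Γ × (Γ × Ξ) → Γ × Γ × Ξ) (μ.prod (μ.prod ν))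
    (μ.prod (μ.prod ν)) := by
  have h1 := (measurePreserving_prodAssoc μ μ ν).symm
  have h2 : MeasurePreserving (Prod.map Prod.swap id : (Γ × Γ) × Ξ → (Γ × Γ) × Ξ)
      ((μ.prod μ).prod ν) ((μ.prod μ).prod ν) :=
    (Measure.measurePreserving_swap (μ := μ) (ν := μ)).prod (MeasurePreserving.id ν)
  have h3 := measurePreserving_prodAssoc μ μ ν
  exact h3.comp (h2.comp h1)

theorem secX_meas (hG : MeasurableSet G) (hE : MeasurableSet E) (g : Γ) :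
    MeasurableSet (secX G E g) :=
  measurable_prodMk_left (GE_meas hG hE)

theorem secY_meas (hG : MeasurableSet G) (hE : MeasurableSet E) (g : Γ) :
    MeasurableSet (secY G E g) :=
  (rot3_meas.comp measurable_prodMk_left : Measurable fun v : Γ × Ξ => rot3 (g, v))
    (GE_meas hG hE)

theorem secX_mem {g : Γ} {w : Γ × Ξ} (h : w ∈ secX G E g) : g ∈ G := h.1

theorem secY_mem {g : Γ} {w : Γ × Ξ} (h : w ∈ secY G E g) : g ∈ G := h.2.1

theorem int_X (hG : MeasurableSet G) (hE : MeasurableSet E) {F : Γ × Γ × Ξ → ℝ≥0∞}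
    (hF : Measurable F) : ∫⁻ z in GE G E, F z ∂(μ.prod (μ.prod ν)) =
      ∫⁻ g, ∫⁻ w in secX G E g, F (g, w) ∂(μ.prod ν) ∂μ := by
  have hGE := GE_meas hG hE
  rw [← lintegral_indicator hGE, lintegral_prod _ (hF.indicator hGE).aemeasurable]
  refine lintegral_congr fun g => ?_
  rw [← lintegral_indicator (secX_meas hG hE g)]
  refine lintegral_congr fun w => ?_
  by_cases h : (g, w) ∈ GE G E
  · rw [indicator_of_mem h, indicator_of_mem (show w ∈ secX G E g from h)]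
  · rw [indicator_of_notMem h, indicator_of_notMem (show w ∉ secX G E g from h)]

theorem int_Y (hG : MeasurableSet G) (hE : MeasurableSet E) {F : Γ × Γ × Ξ → ℝ≥0∞}
    (hF : Measurable F) : ∫⁻ z in GE G E, F z ∂(μ.prod (μ.prod ν)) =
      ∫⁻ g, ∫⁻ v in secY G E g, F (v.1, g, v.2) ∂(μ.prod ν) ∂μ := by
  have hGE := GE_meas hG hE
  have h0 : ∫⁻ z in GE G E, F z ∂(μ.prod (μ.prod ν)) =
      ∫⁻ p, (GE G E).indicator F (rot3 p) ∂(μ.prod (μ.prod ν)) := by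
    rw [← lintegral_indicator hGE, (mp_rot3 μ ν).lintegral_comp (hF.indicator hGE)]
  rw [h0, lintegral_prod (fun p => (GE G E).indicator F (rot3 p))
    ((hF.indicator hGE).comp rot3_meas).aemeasurable]
  refine lintegral_congr fun g => ?_
  rw [← lintegral_indicator (secY_meas hG hE g)]
  refine lintegral_congr fun w => ?_
  show (GE G E).indicator F (w.1, g, w.2) = _
  by_cases h : (w.1, g, w.2) ∈ GE G E
  · rw [indicator_of_mem h, indicator_of_mem (show w ∈ secY G E g from h)]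
  · rw [indicator_of_notMem h, indicator_of_notMem (show w ∉ secY G E g from h)]

theorem massX (hG : MeasurableSet G) (hE : MeasurableSet E) {c : ℝ≥0∞}
    (hc : ∀ g ∈ G, ∀ g' ∈ G, c ≤ ν {x | (g, g', x) ∈ E}) {g : Γ} (hg : g ∈ G) :
    c * μ G ≤ (μ.prod ν) (secX G E g) := by
  rw [Measure.prod_apply (secX_meas hG hE g)]
  calc c * μ G = ∫⁻ _g' in G, c ∂μ := by rw [setLIntegral_const]
    _ ≤ ∫⁻ g' in G, ν (Prod.mk g' ⁻¹' secX G E g) ∂μ := by
        refine setLIntegral_mono' hG fun g' hg' => (hc g hg g' hg').trans (measure_mono ?_)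
        exact fun x hx => ⟨hg, hg', hx⟩
    _ ≤ ∫⁻ g', ν (Prod.mk g' ⁻¹' secX G E g) ∂μ := setLIntegral_le_lintegral _ _

theorem massY (hG : MeasurableSet G) (hE : MeasurableSet E) {c : ℝ≥0∞}
    (hc : ∀ g ∈ G, ∀ g' ∈ G, c ≤ ν {x | (g, g', x) ∈ E}) {g : Γ} (hg : g ∈ G) :
    c * μ G ≤ (μ.prod ν) (secY G E g) := by
  rw [Measure.prod_apply (secY_meas hG hE g)]
  calc c * μ G = ∫⁻ _g' in G, c ∂μ := by rw [setLIntegral_const]
    _ ≤ ∫⁻ g' in G, ν (Prod.mk g' ⁻¹' secY G E g) ∂μ := by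
        refine setLIntegral_mono' hG fun g' hg' => (hc g' hg' g hg).trans (measure_mono ?_)
        exact fun x hx => ⟨hg', hg, hx⟩
    _ ≤ ∫⁻ g', ν (Prod.mk g' ⁻¹' secY G E g) ∂μ := setLIntegral_le_lintegral _ _

end

/-! ### two neighbouring tubes -/

section

variable (μ : Measure Γ) [IsProbabilityMeasure μ] (ν ν' : Measure Ξ) [IsProbabilityMeasure ν]
  [IsProbabilityMeasure ν'] {G : Set Γ} {E E' : Set (Γ × Γ × Ξ)} {X Y : Γ × Γ × Ξ → ℂ}

/-- second moment of `X - Y` for two neighbouring tubes, `Y` of the first one, `X` of the second -/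
def PP (G : Set Γ) (E' E : Set (Γ × Γ × Ξ)) (X Y : Γ × Γ × Ξ → ℂ) : ℝ≥0∞ :=
  ∫⁻ g, ∫⁻ v in secY G E' g, ∫⁻ w in secX G E g, ‖X (g, w) - Y (v.1, g, v.2)‖ₑ ^ 2
    ∂(μ.prod ν) ∂(μ.prod ν') ∂μ

/-- distance of `X` to a function of the first gate -/
def IX (G : Set Γ) (E : Set (Γ × Γ × Ξ)) (X : Γ × Γ × Ξ → ℂ) (h : Γ → ℂ) : ℝ≥0∞ :=
  ∫⁻ z in GE G E, ‖X z - h z.1‖ₑ ^ 2 ∂(μ.prod (μ.prod ν))

/-- distance of `Y` to a function of the second gate -/
def IY (G : Set Γ) (E : Set (Γ × Γ × Ξ)) (Y : Γ × Γ × Ξ → ℂ) (h : Γ → ℂ) : ℝ≥0∞ :=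
  ∫⁻ z in GE G E, ‖Y z - h z.2.1‖ₑ ^ 2 ∂(μ.prod (μ.prod ν))

theorem pp_eq (hG : MeasurableSet G) (hE' : MeasurableSet E') (hE : MeasurableSet E)
    (hX : Measurable X) (hY : Measurable Y) :
    ∫⁻ z in GE G E', ∫⁻ w in secX G E z.2.1, ‖X (z.2.1, w) - Y z‖ₑ ^ 2
      ∂(μ.prod ν) ∂(μ.prod (μ.prod ν')) = PP μ ν ν' G E' E X Y := by
  have hm : Measurable fun z : Γ × Γ × Ξ => ∫⁻ w in secX G E z.2.1, ‖X (z.2.1, w) - Y z‖ₑ ^ 2
      ∂(μ.prod ν) := by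
    have e : (fun z : Γ × Γ × Ξ => ∫⁻ w in secX G E z.2.1, ‖X (z.2.1, w) - Y z‖ₑ ^ 2
        ∂(μ.prod ν)) = fun z => ∫⁻ w, (((fun q : (Γ × Γ × Ξ) × (Γ × Ξ) => (q.1.2.1, q.2)) ⁻¹'
          GE G E).indicator (fun q => ‖X (q.1.2.1, q.2) - Y q.1‖ₑ ^ 2)) (z, w) ∂(μ.prod ν) := by
      funext z
      rw [← lintegral_indicator (secX_meas hG hE z.2.1)]
      rfl
    rw [e]
    refine Measurable.lintegral_prod_right' ?_
    have m1 : Measurable fun q : (Γ × Γ × Ξ) × (Γ × Ξ) => (q.1.2.1, q.2) :=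
      ((measurable_fst.comp measurable_snd).comp measurable_fst).prodMk measurable_snd
    exact (((hX.comp m1).sub (hY.comp measurable_fst)).enorm.pow_const 2).indicator
      (m1 (GE_meas hG hE))
  rw [int_Y μ ν' hG hE' hm]
  rfl

theorem m_ix {h : Γ → ℂ} (hX : Measurable X) (hh : Measurable h) :
    Measurable fun z : Γ × Γ × Ξ => ‖X z - h z.1‖ₑ ^ 2 :=
  (hX.sub (hh.comp measurable_fst)).enorm.pow_const 2

theorem m_iy {h : Γ → ℂ} (hY : Measurable Y) (hh : Measurable h) :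
    Measurable fun z : Γ × Γ × Ξ => ‖Y z - h z.2.1‖ₑ ^ 2 :=
  (hY.sub (hh.comp (measurable_fst.comp measurable_snd))).enorm.pow_const 2

theorem swap_pp (hX : Measurable X) (hY : Measurable Y) :
    ∫⁻ g, ∫⁻ w in secX G E g, ∫⁻ v in secY G E' g, ‖X (g, w) - Y (v.1, g, v.2)‖ₑ ^ 2
      ∂(μ.prod ν') ∂(μ.prod ν) ∂μ = PP μ ν ν' G E' E X Y := by
  refine lintegral_congr fun g => ?_
  refine lintegral_lintegral_swap ?_
  have m1 : Measurable fun q : (Γ × Ξ) × (Γ × Ξ) => (g, q.1) :=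
    measurable_const.prodMk measurable_fst
  have m2 : Measurable fun q : (Γ × Ξ) × (Γ × Ξ) => (q.2.1, g, q.2.2) :=
    (measurable_fst.comp measurable_snd).prodMk (measurable_const.prodMk
      (measurable_snd.comp measurable_snd))
  exact (((hX.comp m1).sub (hY.comp m2)).enorm.pow_const 2).aemeasurable

/-- average of `Y` over the tubes ending at `g` -/
def hav (G : Set Γ) (E' : Set (Γ × Γ × Ξ)) (Y : Γ × Γ × Ξ → ℂ) (g : Γ) : ℂ :=
  ⨍ v in secY G E' g, Y (v.1, g, v.2) ∂(μ.prod ν')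

theorem hav_meas (hG : MeasurableSet G) (hE' : MeasurableSet E') (hY : Measurable Y) :
    Measurable (hav μ ν' G E' Y) := by
  have m0 : MeasurableSet ((rot3 : Γ × (Γ × Ξ) → Γ × Γ × Ξ) ⁻¹' GE G E') :=
    rot3_meas (GE_meas hG hE')
  have e : hav μ ν' G E' Y = fun g => ((μ.prod ν').real (secY G E' g))⁻¹ •
      ∫ v, ((rot3 : Γ × (Γ × Ξ) → Γ × Γ × Ξ) ⁻¹' GE G E').indicator (fun q => Y (rot3 q)) (g, v)
        ∂(μ.prod ν') := by
    funext g
    unfold hav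
    rw [setAverage_eq]
    congr 1
    rw [← integral_indicator (secY_meas hG hE' g)]
    rfl
  rw [e]
  have m1 : Measurable fun g => ((μ.prod ν').real (secY G E' g))⁻¹ := by
    have : Measurable fun g => (μ.prod ν') (secY G E' g) :=
      measurable_measure_prodMk_left m0
    exact this.ennreal_toReal.inv
  have m2 : Measurable fun g => ∫ v, ((rot3 : Γ × (Γ × Ξ) → Γ × Γ × Ξ) ⁻¹' GE G E').indicator
      (fun q => Y (rot3 q)) (g, v) ∂(μ.prod ν') :=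
    (StronglyMeasurable.integral_prod_right (f := fun g v =>
      ((rot3 : Γ × (Γ × Ξ) → Γ × Γ × Ξ) ⁻¹' GE G E').indicator (fun q => Y (rot3 q)) (g, v))
      (((hY.comp rot3_meas).indicator m0).stronglyMeasurable)).measurable
  exact m1.smul m2

theorem ix_le (hG : MeasurableSet G) (hE' : MeasurableSet E') (hE : MeasurableSet E)
    (hX : Measurable X) (hY : Measurable Y) {c : ℝ≥0∞} (hct : c ≠ ∞)
    (hc' : ∀ g ∈ G, ∀ g' ∈ G, c ≤ ν' {x | (g, g', x) ∈ E'}) :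
    c * μ G * IX μ ν G E X (hav μ ν' G E' Y) ≤ PP μ ν ν' G E' E X Y := by
  have hh := hav_meas μ ν' hG hE' hY
  have hcq : c * μ G ≠ ∞ := ENNReal.mul_ne_top hct (measure_ne_top μ G)
  unfold IX
  rw [int_X μ ν hG hE (m_ix hX hh),
    ← lintegral_const_mul' _ _ hcq, ← swap_pp μ ν ν' (G := G) (E := E) (E' := E') hX hY]
  refine lintegral_mono fun g => ?_
  rw [← lintegral_const_mul' _ _ hcq]
  refine setLIntegral_mono' (secX_meas hG hE g) fun w hw => ?_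
  have h1 := avg_const (μ.prod ν') (secY G E' g) (f := fun v => Y (v.1, g, v.2))
    ((hY.comp (rot3_meas.comp measurable_prodMk_left :
      Measurable fun v : Γ × Ξ => rot3 (g, v))).aestronglyMeasurable) (X (g, w))
  refine le_trans ?_ h1
  exact mul_le_mul_left (massY μ ν' hG hE' hc' (secX_mem hw)) _

theorem iy_le (hG : MeasurableSet G) (hE' : MeasurableSet E') (hE : MeasurableSet E)
    (hX : Measurable X) (hY : Measurable Y) {h : Γ → ℂ} (hh : Measurable h) {c : ℝ≥0∞}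
    (hct : c ≠ ∞) (hc : ∀ g ∈ G, ∀ g' ∈ G, c ≤ ν {x | (g, g', x) ∈ E}) :
    c * μ G * IY μ ν' G E' Y h ≤ 2 * PP μ ν ν' G E' E X Y + 2 * IX μ ν G E X h := by
  have hcq : c * μ G ≠ ∞ := ENNReal.mul_ne_top hct (measure_ne_top μ G)
  have two : (2 : ℝ≥0∞) ≠ ∞ := by norm_num
  unfold IY IX PP
  rw [int_Y μ ν' hG hE' (m_iy hY hh),
    int_X μ ν hG hE (m_ix hX hh),
    ← lintegral_const_mul' _ _ hcq, ← lintegral_const_mul' _ _ two,
    ← lintegral_const_mul' _ _ two]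
  have m1 : ∀ g, Measurable fun w : Γ × Ξ => ‖X (g, w) - h g‖ₑ ^ 2 := fun g =>
    ((hX.comp measurable_prodMk_left).sub_const _).enorm.pow_const 2
  have m2 : ∀ g (v : Γ × Ξ), Measurable fun w : Γ × Ξ => ‖X (g, w) - Y (v.1, g, v.2)‖ₑ ^ 2 :=
    fun g v => ((hX.comp measurable_prodMk_left).sub_const _).enorm.pow_const 2
  have m3 : ∀ g, Measurable fun v : Γ × Ξ => ∫⁻ w in secX G E g,
      ‖X (g, w) - Y (v.1, g, v.2)‖ₑ ^ 2 ∂(μ.prod ν) := by
    intro g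
    refine Measurable.lintegral_prod_right' (f := fun q : (Γ × Ξ) × (Γ × Ξ) =>
      ‖X (g, q.2) - Y (q.1.1, g, q.1.2)‖ₑ ^ 2) ?_
    have m4 : Measurable fun q : (Γ × Ξ) × (Γ × Ξ) => (g, q.2) :=
      measurable_const.prodMk measurable_snd
    have m5 : Measurable fun q : (Γ × Ξ) × (Γ × Ξ) => (q.1.1, g, q.1.2) :=
      (measurable_fst.comp measurable_fst).prodMk (measurable_const.prodMk
        (measurable_snd.comp measurable_fst))
    exact ((hX.comp m4).sub (hY.comp m5)).enorm.pow_const 2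
  have m6 : Measurable fun g => 2 * ∫⁻ w in secX G E g, ‖X (g, w) - h g‖ₑ ^ 2 ∂(μ.prod ν) := by
    refine Measurable.const_mul ?_ 2
    have e : (fun g => ∫⁻ w in secX G E g, ‖X (g, w) - h g‖ₑ ^ 2 ∂(μ.prod ν)) = fun g =>
        ∫⁻ w, (GE G E).indicator (fun z => ‖X z - h z.1‖ₑ ^ 2) (g, w) ∂(μ.prod ν) := by
      funext g
      rw [← lintegral_indicator (secX_meas hG hE g)]
      rfl
    rw [e]
    exact Measurable.lintegral_prod_right' (((hX.sub (hh.comp measurable_fst)).enorm.pow_const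
      2).indicator (GE_meas hG hE))
  rw [← lintegral_add_right _ m6]
  refine lintegral_mono fun g => ?_
  rw [← lintegral_const_mul' _ _ hcq, ← lintegral_const_mul' _ _ two]
  calc ∫⁻ v in secY G E' g, c * μ G * ‖Y (v.1, g, v.2) - h g‖ₑ ^ 2 ∂(μ.prod ν')
      ≤ ∫⁻ v in secY G E' g, (2 * ∫⁻ w in secX G E g, ‖X (g, w) - Y (v.1, g, v.2)‖ₑ ^ 2
          ∂(μ.prod ν)) + 2 * ∫⁻ w in secX G E g, ‖X (g, w) - h g‖ₑ ^ 2 ∂(μ.prod ν)
          ∂(μ.prod ν') := by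
        refine setLIntegral_mono' (secY_meas hG hE' g) fun v hv => ?_
        calc c * μ G * ‖Y (v.1, g, v.2) - h g‖ₑ ^ 2
            ≤ (μ.prod ν) (secX G E g) * ‖Y (v.1, g, v.2) - h g‖ₑ ^ 2 :=
              mul_le_mul_left (massX μ ν hG hE hc (secY_mem hv)) _
          _ = ∫⁻ _w in secX G E g, ‖Y (v.1, g, v.2) - h g‖ₑ ^ 2 ∂(μ.prod ν) := by
              rw [setLIntegral_const, mul_comm]
          _ ≤ ∫⁻ w in secX G E g, (2 * ‖X (g, w) - Y (v.1, g, v.2)‖ₑ ^ 2 +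
                2 * ‖X (g, w) - h g‖ₑ ^ 2) ∂(μ.prod ν) := by
              refine lintegral_mono fun w => ?_
              have := enorm_sub_sq_le (Y (v.1, g, v.2)) (X (g, w)) (h g)
              rwa [enorm_sub_rev (Y (v.1, g, v.2)) (X (g, w))] at this
          _ = _ := by
              rw [lintegral_add_left ((m2 g v).const_mul 2), lintegral_const_mul' _ _ two,
                lintegral_const_mul' _ _ two]
    _ ≤ _ := by
        rw [lintegral_add_right _ measurable_const, setLIntegral_const,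
          lintegral_const_mul' _ _ two]
        refine add_le_add le_rfl ?_
        calc 2 * (∫⁻ w in secX G E g, ‖X (g, w) - h g‖ₑ ^ 2 ∂(μ.prod ν)) *
              (μ.prod ν') (secY G E' g)
            ≤ 2 * (∫⁻ w in secX G E g, ‖X (g, w) - h g‖ₑ ^ 2 ∂(μ.prod ν)) * 1 :=
              mul_le_mul' le_rfl prob_le_one
          _ = _ := mul_one _

theorem ix_le' (hG : MeasurableSet G) (hE' : MeasurableSet E') (hE : MeasurableSet E)
    (hX : Measurable X) (hY : Measurable Y) {h : Γ → ℂ} (hh : Measurable h) {c : ℝ≥0∞}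
    (hct : c ≠ ∞) (hc' : ∀ g ∈ G, ∀ g' ∈ G, c ≤ ν' {x | (g, g', x) ∈ E'}) :
    c * μ G * IX μ ν G E X h ≤ 2 * PP μ ν ν' G E' E X Y + 2 * IY μ ν' G E' Y h := by
  have hcq : c * μ G ≠ ∞ := ENNReal.mul_ne_top hct (measure_ne_top μ G)
  have two : (2 : ℝ≥0∞) ≠ ∞ := by norm_num
  rw [← swap_pp μ ν ν' (G := G) (E := E) (E' := E') hX hY]
  unfold IY IX
  rw [int_Y μ ν' hG hE' (m_iy hY hh),
    int_X μ ν hG hE (m_ix hX hh),
    ← lintegral_const_mul' _ _ hcq, ← lintegral_const_mul' _ _ two,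
    ← lintegral_const_mul' _ _ two]
  have m2 : ∀ g (w : Γ × Ξ), Measurable fun v : Γ × Ξ => ‖X (g, w) - Y (v.1, g, v.2)‖ₑ ^ 2 :=
    fun g w => ((hY.comp (rot3_meas.comp measurable_prodMk_left :
      Measurable fun v : Γ × Ξ => rot3 (g, v))).const_sub _).enorm.pow_const 2
  have m6 : Measurable fun g => 2 * ∫⁻ v in secY G E' g, ‖Y (v.1, g, v.2) - h g‖ₑ ^ 2
      ∂(μ.prod ν') := by
    refine Measurable.const_mul ?_ 2
    have e : (fun g => ∫⁻ v in secY G E' g, ‖Y (v.1, g, v.2) - h g‖ₑ ^ 2 ∂(μ.prod ν')) =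
        fun g => ∫⁻ v, ((rot3 : Γ × (Γ × Ξ) → Γ × Γ × Ξ) ⁻¹' GE G E').indicator
          (fun q => ‖Y (rot3 q) - h q.1‖ₑ ^ 2) (g, v) ∂(μ.prod ν') := by
      funext g
      rw [← lintegral_indicator (secY_meas hG hE' g)]
      rfl
    rw [e]
    exact Measurable.lintegral_prod_right' ((((hY.comp rot3_meas).sub
      (hh.comp measurable_fst)).enorm.pow_const 2).indicator (rot3_meas (GE_meas hG hE')))
  rw [← lintegral_add_right _ m6]
  refine lintegral_mono fun g => ?_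
  rw [← lintegral_const_mul' _ _ hcq, ← lintegral_const_mul' _ _ two]
  calc ∫⁻ w in secX G E g, c * μ G * ‖X (g, w) - h g‖ₑ ^ 2 ∂(μ.prod ν)
      ≤ ∫⁻ w in secX G E g, (2 * ∫⁻ v in secY G E' g, ‖X (g, w) - Y (v.1, g, v.2)‖ₑ ^ 2
          ∂(μ.prod ν')) + 2 * ∫⁻ v in secY G E' g, ‖Y (v.1, g, v.2) - h g‖ₑ ^ 2 ∂(μ.prod ν')
          ∂(μ.prod ν) := by
        refine setLIntegral_mono' (secX_meas hG hE g) fun w hw => ?_
        calc c * μ G * ‖X (g, w) - h g‖ₑ ^ 2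
            ≤ (μ.prod ν') (secY G E' g) * ‖X (g, w) - h g‖ₑ ^ 2 :=
              mul_le_mul_left (massY μ ν' hG hE' hc' (secX_mem hw)) _
          _ = ∫⁻ _v in secY G E' g, ‖X (g, w) - h g‖ₑ ^ 2 ∂(μ.prod ν') := by
              rw [setLIntegral_const, mul_comm]
          _ ≤ ∫⁻ v in secY G E' g, (2 * ‖X (g, w) - Y (v.1, g, v.2)‖ₑ ^ 2 +
                2 * ‖Y (v.1, g, v.2) - h g‖ₑ ^ 2) ∂(μ.prod ν') := by
              refine lintegral_mono fun v => ?_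
              exact enorm_sub_sq_le (X (g, w)) (Y (v.1, g, v.2)) (h g)
          _ = _ := by
              rw [lintegral_add_left ((m2 g w).const_mul 2), lintegral_const_mul' _ _ two,
                lintegral_const_mul' _ _ two]
    _ ≤ _ := by
        rw [lintegral_add_right _ measurable_const, setLIntegral_const,
          lintegral_const_mul' _ _ two]
        refine add_le_add le_rfl ?_
        calc 2 * (∫⁻ v in secY G E' g, ‖Y (v.1, g, v.2) - h g‖ₑ ^ 2 ∂(μ.prod ν')) *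
              (μ.prod ν) (secX G E g)
            ≤ 2 * (∫⁻ v in secY G E' g, ‖Y (v.1, g, v.2) - h g‖ₑ ^ 2 ∂(μ.prod ν')) * 1 :=
              mul_le_mul' le_rfl prob_le_one
          _ = _ := mul_one _

end

/-! ### elementary inequalities -/

theorem sq4 (x y z w : ℂ) : ‖x + y + z + w‖ₑ ^ 2 ≤
    4 * ‖x‖ₑ ^ 2 + 4 * ‖y‖ₑ ^ 2 + 4 * ‖z‖ₑ ^ 2 + 4 * ‖w‖ₑ ^ 2 := by
  have h1 := enorm_add_sq_le (x + y) (z + w)
  have h2 := enorm_add_sq_le x y
  have h3 := enorm_add_sq_le z w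
  rw [← add_assoc] at h1
  calc ‖x + y + z + w‖ₑ ^ 2 ≤ 2 * ‖x + y‖ₑ ^ 2 + 2 * ‖z + w‖ₑ ^ 2 := h1
    _ ≤ 2 * (2 * ‖x‖ₑ ^ 2 + 2 * ‖y‖ₑ ^ 2) + 2 * (2 * ‖z‖ₑ ^ 2 + 2 * ‖w‖ₑ ^ 2) := by gcongr
    _ = _ := by ring

theorem sq3 (x y z : ℂ) : ‖x + y + z‖ₑ ^ 2 ≤ 4 * ‖x‖ₑ ^ 2 + 4 * ‖y‖ₑ ^ 2 + 4 * ‖z‖ₑ ^ 2 := by
  have h := sq4 x y z 0
  simpa using h

theorem enorm_rot (τ : Turn) : ‖τ.rot‖ₑ = 1 := by
  have h : ‖τ.rot‖ = 1 := by cases τ <;> simp [Turn.rot]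
  rw [← ofReal_norm, h, ENNReal.ofReal_one]

theorem enorm_I1 : ‖(I - 1 : ℂ)‖ₑ ^ 2 = 2 := by
  have h : ‖(I - 1 : ℂ)‖ ^ 2 = 2 := by
    rw [← Complex.normSq_eq_norm_sq]
    simp [Complex.normSq_apply]
    norm_num
  rw [← ofReal_norm, ← ENNReal.ofReal_pow (norm_nonneg _), h]
  norm_num

theorem enorm_dispL : ‖((1 + I) / 2 : ℂ)‖ₑ ^ 2 ≤ 1 := by
  have h : ‖((1 + I) / 2 : ℂ)‖ ^ 2 ≤ 1 := by
    rw [← Complex.normSq_eq_norm_sq]
    simp only [Complex.normSq_apply]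
    norm_num
  rw [← ofReal_norm, ← ENNReal.ofReal_pow (norm_nonneg _)]
  exact ENNReal.ofReal_le_one.2 h

/-! ### the bounds -/

section

variable (μ : Measure Γ) [IsProbabilityMeasure μ] {G : Set Γ}

theorem int_h1 (ν : Measure Ξ) [IsProbabilityMeasure ν] {E : Set (Γ × Γ × Ξ)}
    (hG : MeasurableSet G) {h : Γ → ℂ} (hh : Measurable h) :
    ∫⁻ z in GE G E, ‖h z.1‖ₑ ^ 2 ∂(μ.prod (μ.prod ν)) ≤ ∫⁻ g in G, ‖h g‖ₑ ^ 2 ∂μ := by
  calc ∫⁻ z in GE G E, ‖h z.1‖ₑ ^ 2 ∂(μ.prod (μ.prod ν))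
      ≤ ∫⁻ z in (Prod.fst ⁻¹' G : Set (Γ × Γ × Ξ)), ‖h z.1‖ₑ ^ 2 ∂(μ.prod (μ.prod ν)) :=
        lintegral_mono_set fun z hz => hz.1
    _ = ∫⁻ g in G, ‖h g‖ₑ ^ 2 ∂μ := by
        have := (measurePreserving_fst (μ := μ) (ν := μ.prod ν)).setLIntegral_comp_preimage hG
          (hh.enorm.pow_const 2)
        simpa using this

theorem int_h2 (ν : Measure Ξ) [IsProbabilityMeasure ν] {E : Set (Γ × Γ × Ξ)}
    (hG : MeasurableSet G) {h : Γ → ℂ} (hh : Measurable h) :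
    ∫⁻ z in GE G E, ‖h z.2.1‖ₑ ^ 2 ∂(μ.prod (μ.prod ν)) ≤ ∫⁻ g in G, ‖h g‖ₑ ^ 2 ∂μ := by
  have mp : MeasurePreserving (fun z : Γ × Γ × Ξ => z.2.1) (μ.prod (μ.prod ν)) μ :=
    (measurePreserving_fst (μ := μ) (ν := ν)).comp (measurePreserving_snd (μ := μ)
      (ν := μ.prod ν))
  calc ∫⁻ z in GE G E, ‖h z.2.1‖ₑ ^ 2 ∂(μ.prod (μ.prod ν))
      ≤ ∫⁻ z in ((fun z : Γ × Γ × Ξ => z.2.1) ⁻¹' G), ‖h z.2.1‖ₑ ^ 2 ∂(μ.prod (μ.prod ν)) :=
        lintegral_mono_set fun z hz => hz.2.1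
    _ = ∫⁻ g in G, ‖h g‖ₑ ^ 2 ∂μ := by
        have := mp.setLIntegral_comp_preimage hG (hh.enorm.pow_const 2)
        simpa using this

/-- second moment of the model charge -/
def LL (G : Set Γ) (α : ℂ) (h : Γ → ℂ) (τ : Turn) : ℝ≥0∞ :=
  ∫⁻ p in G ×ˢ G, ‖lin α h τ p‖ₑ ^ 2 ∂(μ.prod μ)

theorem ll_le (ν : Measure Ξ) [IsProbabilityMeasure ν] {E : Set (Γ × Γ × Ξ)}
    (hG : MeasurableSet G) (hE : MeasurableSet E) {c : ℝ≥0∞} (hct : c ≠ ∞)
    (hc : ∀ g ∈ G, ∀ g' ∈ G, c ≤ ν {x | (g, g', x) ∈ E}) (α : ℂ) {h : Γ → ℂ}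
    (hh : Measurable h) (τ : Turn) :
    c * LL μ G α h τ ≤ ∫⁻ z in GE G E, ‖lin α h τ (z.1, z.2.1)‖ₑ ^ 2 ∂(μ.prod (μ.prod ν)) := by
  have hm : Measurable fun z : Γ × Γ × Ξ => ‖lin α h τ (z.1, z.2.1)‖ₑ ^ 2 :=
    ((lin_meas α hh τ).comp (measurable_fst.prodMk
      (measurable_fst.comp measurable_snd))).enorm.pow_const 2
  unfold LL
  rw [lintegral_E μ ν (GE_meas hG hE) hm, ← lintegral_const_mul' _ _ hct]
  refine le_trans (setLIntegral_mono' (hG.prod hG) (g := fun p => ∫⁻ x in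
    {x | (p.1, p.2, x) ∈ GE G E}, ‖lin α h τ (p.1, p.2)‖ₑ ^ 2 ∂ν) fun p hp => ?_)
    (setLIntegral_le_lintegral _ _)
  rw [setLIntegral_const, mul_comm]
  refine mul_le_mul' le_rfl ((hc p.1 hp.1 p.2 hp.2).trans (measure_mono fun x hx => ?_))
  exact ⟨hp.1, hp.2, hx⟩

theorem ll_S (hG : MeasurableSet G) (α : ℂ) {h : Γ → ℂ} (hh : Measurable h) :
    μ G ^ 2 * ‖α‖ₑ ^ 2 ≤ LL μ G α h .S ∧
      ∫⁻ p in G ×ˢ G, ‖h p.2 - h p.1‖ₑ ^ 2 ∂(μ.prod μ) ≤ 4 * LL μ G α h .S := by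
  have hGG := hG.prod hG
  have m1 : Measurable fun p : Γ × Γ => ‖α + (h p.2 - h p.1)‖ₑ ^ 2 :=
    (((hh.comp measurable_snd).sub (hh.comp measurable_fst)).const_add α).enorm.pow_const 2
  have m2 : Measurable fun p : Γ × Γ => ‖α - (h p.2 - h p.1)‖ₑ ^ 2 :=
    (((hh.comp measurable_snd).sub (hh.comp measurable_fst)).const_sub α).enorm.pow_const 2
  have e1 : LL μ G α h .S = ∫⁻ p in G ×ˢ G, ‖α + (h p.2 - h p.1)‖ₑ ^ 2 ∂(μ.prod μ) := by
    unfold LL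
    refine lintegral_congr fun p => ?_
    simp only [lin, Turn.disp, Turn.rot]
    congr 2
    ring
  have e2 : LL μ G α h .S = ∫⁻ p in G ×ˢ G, ‖α - (h p.2 - h p.1)‖ₑ ^ 2 ∂(μ.prod μ) := by
    have h1 := (Measure.measurePreserving_swap (μ := μ) (ν := μ)).setLIntegral_comp_preimage hGG m1
    rw [e1, ← h1]
    have e3 : (Prod.swap ⁻¹' (G ×ˢ G) : Set (Γ × Γ)) = G ×ˢ G := by
      ext p
      simp
    rw [e3]
    refine lintegral_congr fun p => ?_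
    simp only [Prod.fst_swap, Prod.snd_swap]
    congr 2
    ring
  have vol : (μ.prod μ) (G ×ˢ G) = μ G ^ 2 := by rw [Measure.prod_prod]; ring
  have hA : μ G ^ 2 * ‖α‖ₑ ^ 2 ≤ LL μ G α h .S := by
    have h4 : (4 : ℝ≥0∞) * (μ G ^ 2 * ‖α‖ₑ ^ 2) ≤ 4 * LL μ G α h .S := by
      calc (4 : ℝ≥0∞) * (μ G ^ 2 * ‖α‖ₑ ^ 2) = ∫⁻ _p in G ×ˢ G, 4 * ‖α‖ₑ ^ 2 ∂(μ.prod μ) := by
            rw [setLIntegral_const, vol]; ring
        _ ≤ ∫⁻ p in G ×ˢ G, (2 * ‖α + (h p.2 - h p.1)‖ₑ ^ 2 + 2 * ‖α - (h p.2 - h p.1)‖ₑ ^ 2)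
              ∂(μ.prod μ) := by
            refine lintegral_mono fun p => ?_
            have h5 := enorm_add_sq_le (α + (h p.2 - h p.1)) (α - (h p.2 - h p.1))
            refine le_trans (le_of_eq ?_) h5
            rw [show α + (h p.2 - h p.1) + (α - (h p.2 - h p.1)) = 2 * α by ring, enorm_mul,
              mul_pow]
            congr 1
            rw [← ofReal_norm, Complex.norm_two, ← ENNReal.ofReal_pow (by norm_num)]
            norm_num
        _ = 4 * LL μ G α h .S := by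
            rw [lintegral_add_left (m1.const_mul 2), lintegral_const_mul' _ _ (by norm_num),
              lintegral_const_mul' _ _ (by norm_num), ← e1, ← e2]
            ring
    exact (ENNReal.mul_le_mul_iff_right (by norm_num) (by norm_num)).1 h4
  refine ⟨hA, ?_⟩
  calc ∫⁻ p in G ×ˢ G, ‖h p.2 - h p.1‖ₑ ^ 2 ∂(μ.prod μ)
      ≤ ∫⁻ p in G ×ˢ G, (2 * ‖α + (h p.2 - h p.1)‖ₑ ^ 2 + 2 * ‖α‖ₑ ^ 2) ∂(μ.prod μ) := by
        refine lintegral_mono fun p => ?_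
        have h5 := enorm_add_sq_le (α + (h p.2 - h p.1)) (-α)
        rw [show α + (h p.2 - h p.1) + -α = h p.2 - h p.1 by ring, enorm_neg] at h5
        exact h5
    _ = 2 * LL μ G α h .S + 2 * (μ G ^ 2 * ‖α‖ₑ ^ 2) := by
        rw [lintegral_add_left (m1.const_mul 2), lintegral_const_mul' _ _ (by norm_num), ← e1,
          setLIntegral_const, vol]
        ring
    _ ≤ 2 * LL μ G α h .S + 2 * LL μ G α h .S := by gcongr
    _ = 4 * LL μ G α h .S := by ring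

theorem ll_L (hG : MeasurableSet G) (α : ℂ) {h : Γ → ℂ} (hh : Measurable h) :
    μ G * ∫⁻ g in G, ‖h g‖ₑ ^ 2 ∂μ ≤ 4 * LL μ G α h .L + 20 * LL μ G α h .S := by
  have hGG := hG.prod hG
  obtain ⟨hA, hD⟩ := ll_S μ hG α hh
  have vol : (μ.prod μ) (G ×ˢ G) = μ G ^ 2 := by rw [Measure.prod_prod]; ring
  have m0 : Measurable fun p : Γ × Γ => ‖lin α h .L p‖ₑ ^ 2 :=
    (lin_meas α hh .L).enorm.pow_const 2
  have m1 : Measurable fun p : Γ × Γ => ‖h p.2 - h p.1‖ₑ ^ 2 :=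
    ((hh.comp measurable_snd).sub (hh.comp measurable_fst)).enorm.pow_const 2
  have e : 2 * (μ G * ∫⁻ g in G, ‖h g‖ₑ ^ 2 ∂μ) =
      ∫⁻ p in G ×ˢ G, ‖(I - 1) * h p.1‖ₑ ^ 2 ∂(μ.prod μ) := by
    have h1 : ∫⁻ p in G ×ˢ G, ‖(I - 1) * h p.1‖ₑ ^ 2 ∂(μ.prod μ) =
        ∫⁻ p in G ×ˢ G, 2 * ‖h p.1‖ₑ ^ 2 ∂(μ.prod μ) := by
      refine lintegral_congr fun p => ?_
      rw [enorm_mul, mul_pow, enorm_I1]
    rw [h1, lintegral_const_mul' _ _ (by norm_num)]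
    congr 1
    rw [← Measure.prod_restrict,
      lintegral_prod (fun p : Γ × Γ => ‖h p.1‖ₑ ^ 2)
        ((hh.comp measurable_fst).enorm.pow_const 2).aemeasurable]
    simp only [lintegral_const, Measure.restrict_apply_univ]
    rw [lintegral_mul_const _ (hh.enorm.pow_const 2), mul_comm]
  have key : 2 * (μ G * ∫⁻ g in G, ‖h g‖ₑ ^ 2 ∂μ) ≤
      4 * LL μ G α h .L + 4 * (μ G ^ 2 * ‖α‖ₑ ^ 2) + 4 * (4 * LL μ G α h .S) := by
    rw [e]
    calc ∫⁻ p in G ×ˢ G, ‖(I - 1) * h p.1‖ₑ ^ 2 ∂(μ.prod μ)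
        ≤ ∫⁻ p in G ×ˢ G, (4 * ‖lin α h .L p‖ₑ ^ 2 + 4 * ‖α‖ₑ ^ 2 + 4 * ‖h p.2 - h p.1‖ₑ ^ 2)
            ∂(μ.prod μ) := by
          refine lintegral_mono fun p => ?_
          have h2 := sq3 (lin α h .L p) (-(α * ((1 + I) / 2))) (-(I * (h p.2 - h p.1)))
          have h3 : lin α h .L p + -(α * ((1 + I) / 2)) + -(I * (h p.2 - h p.1)) =
              (I - 1) * h p.1 := by
            simp only [lin, Turn.disp, Turn.rot]
            ring
          have h4 : ‖(I : ℂ)‖ₑ ^ 2 = 1 := by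
            have := enorm_rot .L
            simp only [Turn.rot] at this
            rw [this, one_pow]
          rw [h3, enorm_neg, enorm_neg, enorm_mul I, mul_pow ‖I‖ₑ, h4, one_mul,
            enorm_mul α, mul_pow ‖α‖ₑ] at h2
          refine h2.trans ?_
          gcongr
          calc ‖α‖ₑ ^ 2 * ‖((1 + I) / 2 : ℂ)‖ₑ ^ 2 ≤ ‖α‖ₑ ^ 2 * 1 := by
                gcongr
                exact enorm_dispL
            _ = _ := mul_one _
      _ = 4 * LL μ G α h .L + 4 * (μ G ^ 2 * ‖α‖ₑ ^ 2) +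
            4 * ∫⁻ p in G ×ˢ G, ‖h p.2 - h p.1‖ₑ ^ 2 ∂(μ.prod μ) := by
          rw [lintegral_add_right _ (m1.const_mul 4), lintegral_add_right _ measurable_const,
            lintegral_const_mul' _ _ (by norm_num), lintegral_const_mul' _ _ (by norm_num),
            setLIntegral_const, vol]
          unfold LL
          rw [mul_comm (‖α‖ₑ ^ 2) (μ G ^ 2), lintegral_const_mul' _ _ (by norm_num)]
      _ ≤ _ := by gcongr
  calc μ G * ∫⁻ g in G, ‖h g‖ₑ ^ 2 ∂μ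
      ≤ 2 * (μ G * ∫⁻ g in G, ‖h g‖ₑ ^ 2 ∂μ) := by
        rw [two_mul]
        exact le_self_add
    _ ≤ 4 * LL μ G α h .L + 4 * (μ G ^ 2 * ‖α‖ₑ ^ 2) + 4 * (4 * LL μ G α h .S) := key
    _ ≤ 4 * LL μ G α h .L + 4 * LL μ G α h .S + 4 * (4 * LL μ G α h .S) := by gcongr
    _ = _ := by ring

end

/-! ### the theorem -/

/-- neighbouring types in the octagon -/
def oct2 : List (Turn × Turn) := [(.S, .L), (.L, .L), (.L, .R), (.R, .L), (.L, .S)]

section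

variable (μ : Measure Γ) [IsProbabilityMeasure μ] (ν : Turn → Measure Ξ)
  [∀ τ, IsProbabilityMeasure (ν τ)] {G : Set Γ} {E : Turn → Set (Γ × Γ × Ξ)}
  {Z Pp Pm : Turn → Γ × Γ × Ξ → ℂ}

/-- **spatial bounds.**  `α`, `U g + Pp τ` and `U g' - Pm τ` are `O (K + ρ)` in `L²`; `K` bounds the
second moments of the spatial cores and of the spatial zone sums, `ρ` the error of the necklace
theorem. -/
theorem bounds (hG : MeasurableSet G) (hE : ∀ τ, MeasurableSet (E τ))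
    (hZ : ∀ τ, Measurable (Z τ)) (hPp : ∀ τ, Measurable (Pp τ)) (hPm : ∀ τ, Measurable (Pm τ))
    {c : ℝ≥0∞} (hc1 : c ≤ 1) (hc : ∀ τ, ∀ g ∈ G, ∀ g' ∈ G, c ≤ ν τ {x | (g, g', x) ∈ E τ})
    (α : ℂ) {U : Γ → ℂ} (hU : Measurable U) {K ρ : ℝ≥0∞}
    (hN : ∀ τ, ∫⁻ z in GE G (E τ), ‖Z τ z - lin α U τ (z.1, z.2.1)‖ₑ ^ 2
      ∂(μ.prod (μ.prod (ν τ))) ≤ ρ)
    (hC : ∀ τ, ∫⁻ z in GE G (E τ), ‖Z τ z - Pp τ z - τ.rot * Pm τ z‖ₑ ^ 2
      ∂(μ.prod (μ.prod (ν τ))) ≤ K)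
    (hP : ∀ p ∈ oct2, ∫⁻ z in GE G (E p.1), ∫⁻ w in {w | (z.2.1, w) ∈ GE G (E p.2)},
      ‖Pm p.1 z + Pp p.2 (z.2.1, w)‖ₑ ^ 2 ∂(μ.prod (ν p.2)) ∂(μ.prod (μ.prod (ν p.1))) ≤ K) :
    (c * μ G) ^ 3 * (c * (μ G ^ 2 * ‖α‖ₑ ^ 2)) ≤ 64 * (K + ρ) ∧
    (∀ τ, (c * μ G) ^ 4 * ∫⁻ z in GE G (E τ), ‖U z.1 + Pp τ z‖ₑ ^ 2 ∂(μ.prod (μ.prod (ν τ))) ≤
      4000 * (K + ρ)) ∧
    ∀ τ, (c * μ G) ^ 4 * ∫⁻ z in GE G (E τ), ‖U z.2.1 - Pm τ z‖ₑ ^ 2 ∂(μ.prod (μ.prod (ν τ))) ≤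
      4000 * (K + ρ) := by
  have hct : c ≠ ∞ := ne_top_of_le_ne_top ENNReal.one_ne_top hc1
  set a := c * μ G with ha
  set κ := K + ρ with hκ
  have ha1 : a ≤ 1 := by
    calc a ≤ 1 * 1 := mul_le_mul' hc1 prob_le_one
      _ = 1 := one_mul 1
  have hKκ : K ≤ κ := le_self_add
  have hρκ : ρ ≤ κ := le_add_self
  set X : Turn → Γ × Γ × Ξ → ℂ := fun τ z => U z.1 + Pp τ z with hX
  set Y : Turn → Γ × Γ × Ξ → ℂ := fun τ z => U z.2.1 - Pm τ z with hY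
  have mX : ∀ τ, Measurable (X τ) := fun τ => (hU.comp measurable_fst).add (hPp τ)
  have mY : ∀ τ, Measurable (Y τ) := fun τ =>
    (hU.comp (measurable_fst.comp measurable_snd)).sub (hPm τ)
  have hPP : ∀ p ∈ oct2, PP μ (ν p.2) (ν p.1) G (E p.1) (E p.2) (X p.2) (Y p.1) ≤ κ := by
    intro p hp
    rw [← pp_eq μ (ν p.2) (ν p.1) hG (hE _) (hE _) (mX _) (mY _)]
    refine le_trans (le_of_eq ?_) ((hP p hp).trans hKκ)
    refine lintegral_congr fun z => ?_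
    refine lintegral_congr fun w => ?_
    congr 2
    simp only [hX, hY]
    ring
  set h := hav μ (ν .L) G (E .L) (Y .L) with hh0
  have hh : Measurable h := hav_meas μ (ν .L) hG (hE _) (mY _)
  -- distances to the common function
  have i1 : a * IX μ (ν .L) G (E .L) (X .L) h ≤ κ :=
    (ix_le μ (ν .L) (ν .L) hG (hE _) (hE _) (mX _) (mY _) hct (hc .L)).trans
      (hPP (.L, .L) (by simp [oct2]))
  have i2 : ∀ τ, a ^ 2 * IY μ (ν τ) G (E τ) (Y τ) h ≤ 4 * κ := by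
    intro τ
    have hp : (τ, Turn.L) ∈ oct2 := by cases τ <;> simp [oct2]
    have h1 := iy_le μ (ν .L) (ν τ) hG (hE τ) (hE .L) (mX .L) (mY τ) hh hct (hc .L)
    calc a ^ 2 * IY μ (ν τ) G (E τ) (Y τ) h = a * (a * IY μ (ν τ) G (E τ) (Y τ) h) := by ring
      _ ≤ a * (2 * PP μ (ν .L) (ν τ) G (E τ) (E .L) (X .L) (Y τ) +
            2 * IX μ (ν .L) G (E .L) (X .L) h) := by gcongr
      _ = 2 * (a * PP μ (ν .L) (ν τ) G (E τ) (E .L) (X .L) (Y τ)) +
            2 * (a * IX μ (ν .L) G (E .L) (X .L) h) := by ring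
      _ ≤ 2 * (1 * κ) + 2 * κ := by
          gcongr
          exact hPP _ hp
      _ = 4 * κ := by ring
  have i3 : ∀ τ, a ^ 3 * IX μ (ν τ) G (E τ) (X τ) h ≤ 10 * κ := by
    intro τ
    have hp : (Turn.L, τ) ∈ oct2 := by cases τ <;> simp [oct2]
    have h1 := ix_le' μ (ν τ) (ν .L) hG (hE .L) (hE τ) (mX τ) (mY .L) hh hct (hc .L)
    calc a ^ 3 * IX μ (ν τ) G (E τ) (X τ) h = a ^ 2 * (a * IX μ (ν τ) G (E τ) (X τ) h) := by ring
      _ ≤ a ^ 2 * (2 * PP μ (ν τ) (ν .L) G (E .L) (E τ) (X τ) (Y .L) +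
            2 * IY μ (ν .L) G (E .L) (Y .L) h) := by gcongr
      _ = 2 * (a ^ 2 * PP μ (ν τ) (ν .L) G (E .L) (E τ) (X τ) (Y .L)) +
            2 * (a ^ 2 * IY μ (ν .L) G (E .L) (Y .L) h) := by ring
      _ ≤ 2 * (1 * κ) + 2 * (4 * κ) :=
          add_le_add (mul_le_mul' le_rfl (mul_le_mul' (pow_le_one' ha1 2) (hPP _ hp)))
            (mul_le_mul' le_rfl (i2 .L))
      _ = 10 * κ := by ring
  -- the model charge of `h`
  have i4 : ∀ τ, a ^ 3 * (c * LL μ G α h τ) ≤ 64 * κ := by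
    intro τ
    have h1 := ll_le μ (ν τ) hG (hE τ) hct (hc τ) α hh τ
    have mC : Measurable fun z => ‖Z τ z - Pp τ z - τ.rot * Pm τ z‖ₑ ^ 2 :=
      (((hZ τ).sub (hPp τ)).sub ((hPm τ).const_mul _)).enorm.pow_const 2
    have mN : Measurable fun z : Γ × Γ × Ξ => ‖Z τ z - lin α U τ (z.1, z.2.1)‖ₑ ^ 2 :=
      ((hZ τ).sub ((lin_meas α hU τ).comp (measurable_fst.prodMk
        (measurable_fst.comp measurable_snd)))).enorm.pow_const 2
    have mIY : Measurable fun z : Γ × Γ × Ξ => ‖Y τ z - h z.2.1‖ₑ ^ 2 := m_iy (mY τ) hh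
    have mIX : Measurable fun z : Γ × Γ × Ξ => ‖X τ z - h z.1‖ₑ ^ 2 := m_ix (mX τ) hh
    have h2 : ∫⁻ z in GE G (E τ), ‖lin α h τ (z.1, z.2.1)‖ₑ ^ 2 ∂(μ.prod (μ.prod (ν τ))) ≤
        4 * κ + 4 * κ + 4 * IY μ (ν τ) G (E τ) (Y τ) h + 4 * IX μ (ν τ) G (E τ) (X τ) h := by
      calc ∫⁻ z in GE G (E τ), ‖lin α h τ (z.1, z.2.1)‖ₑ ^ 2 ∂(μ.prod (μ.prod (ν τ)))
          ≤ ∫⁻ z in GE G (E τ), (4 * ‖Z τ z - Pp τ z - τ.rot * Pm τ z‖ₑ ^ 2 +
              4 * ‖Z τ z - lin α U τ (z.1, z.2.1)‖ₑ ^ 2 + 4 * ‖Y τ z - h z.2.1‖ₑ ^ 2 +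
              4 * ‖X τ z - h z.1‖ₑ ^ 2) ∂(μ.prod (μ.prod (ν τ))) := by
            refine lintegral_mono fun z => ?_
            have h3 := sq4 (Z τ z - Pp τ z - τ.rot * Pm τ z)
              (-(Z τ z - lin α U τ (z.1, z.2.1))) (-(τ.rot * (Y τ z - h z.2.1)))
              (X τ z - h z.1)
            have h4 : Z τ z - Pp τ z - τ.rot * Pm τ z + -(Z τ z - lin α U τ (z.1, z.2.1)) +
                -(τ.rot * (Y τ z - h z.2.1)) + (X τ z - h z.1) =
                lin α h τ (z.1, z.2.1) := by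
              simp only [lin, hX, hY]
              ring
            rw [h4, enorm_neg, enorm_neg, enorm_mul τ.rot, enorm_rot, one_mul] at h3
            exact h3
        _ = 4 * (∫⁻ z in GE G (E τ), ‖Z τ z - Pp τ z - τ.rot * Pm τ z‖ₑ ^ 2
              ∂(μ.prod (μ.prod (ν τ)))) +
            4 * (∫⁻ z in GE G (E τ), ‖Z τ z - lin α U τ (z.1, z.2.1)‖ₑ ^ 2
              ∂(μ.prod (μ.prod (ν τ)))) + 4 * IY μ (ν τ) G (E τ) (Y τ) h +
            4 * IX μ (ν τ) G (E τ) (X τ) h := by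
            rw [lintegral_add_right _ (mIX.const_mul 4), lintegral_add_right _ (mIY.const_mul 4),
              lintegral_add_right _ (mN.const_mul 4), lintegral_const_mul' _ _ (by norm_num),
              lintegral_const_mul' _ _ (by norm_num), lintegral_const_mul' _ _ (by norm_num),
              lintegral_const_mul' _ _ (by norm_num)]
            rfl
        _ ≤ 4 * κ + 4 * κ + 4 * IY μ (ν τ) G (E τ) (Y τ) h +
            4 * IX μ (ν τ) G (E τ) (X τ) h := by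
            gcongr
            · exact (hC τ).trans hKκ
            · exact (hN τ).trans hρκ
    calc a ^ 3 * (c * LL μ G α h τ)
        ≤ a ^ 3 * (4 * κ + 4 * κ + 4 * IY μ (ν τ) G (E τ) (Y τ) h +
            4 * IX μ (ν τ) G (E τ) (X τ) h) := by
          gcongr
          exact h1.trans h2
      _ = a ^ 3 * (8 * κ) + 4 * (a * (a ^ 2 * IY μ (ν τ) G (E τ) (Y τ) h)) +
            4 * (a ^ 3 * IX μ (ν τ) G (E τ) (X τ) h) := by ring
      _ ≤ 1 * (8 * κ) + 4 * (1 * (4 * κ)) + 4 * (10 * κ) :=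
          add_le_add (add_le_add (mul_le_mul' (pow_le_one' ha1 3) le_rfl)
            (mul_le_mul' le_rfl (mul_le_mul' ha1 (i2 τ)))) (mul_le_mul' le_rfl (i3 τ))
      _ = 64 * κ := by ring
  obtain ⟨jA, -⟩ := ll_S μ hG α hh
  have jL := ll_L μ hG α hh
  have i5 : a ^ 4 * ∫⁻ g in G, ‖h g‖ₑ ^ 2 ∂μ ≤ 1536 * κ := by
    calc a ^ 4 * ∫⁻ g in G, ‖h g‖ₑ ^ 2 ∂μ
        = a ^ 3 * (c * (μ G * ∫⁻ g in G, ‖h g‖ₑ ^ 2 ∂μ)) := by rw [ha]; ring
      _ ≤ a ^ 3 * (c * (4 * LL μ G α h .L + 20 * LL μ G α h .S)) := by gcongr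
      _ = 4 * (a ^ 3 * (c * LL μ G α h .L)) + 20 * (a ^ 3 * (c * LL μ G α h .S)) := by ring
      _ ≤ 4 * (64 * κ) + 20 * (64 * κ) :=
          add_le_add (mul_le_mul' le_rfl (i4 .L)) (mul_le_mul' le_rfl (i4 .S))
      _ = 1536 * κ := by ring
  refine ⟨?_, fun τ => ?_, fun τ => ?_⟩
  · exact (mul_le_mul' le_rfl (mul_le_mul' le_rfl jA)).trans (i4 .S)
  · have mIX : Measurable fun z : Γ × Γ × Ξ => ‖X τ z - h z.1‖ₑ ^ 2 := m_ix (mX τ) hh
    calc a ^ 4 * ∫⁻ z in GE G (E τ), ‖U z.1 + Pp τ z‖ₑ ^ 2 ∂(μ.prod (μ.prod (ν τ)))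
        ≤ a ^ 4 * (2 * IX μ (ν τ) G (E τ) (X τ) h + 2 * ∫⁻ g in G, ‖h g‖ₑ ^ 2 ∂μ) := by
          refine mul_le_mul' le_rfl ?_
          calc ∫⁻ z in GE G (E τ), ‖U z.1 + Pp τ z‖ₑ ^ 2 ∂(μ.prod (μ.prod (ν τ)))
              ≤ ∫⁻ z in GE G (E τ), (2 * ‖X τ z - h z.1‖ₑ ^ 2 + 2 * ‖h z.1‖ₑ ^ 2)
                  ∂(μ.prod (μ.prod (ν τ))) := by
                refine lintegral_mono fun z => ?_
                have := enorm_add_sq_le (X τ z - h z.1) (h z.1)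
                rwa [sub_add_cancel] at this
            _ = 2 * IX μ (ν τ) G (E τ) (X τ) h +
                  2 * ∫⁻ z in GE G (E τ), ‖h z.1‖ₑ ^ 2 ∂(μ.prod (μ.prod (ν τ))) := by
                rw [lintegral_add_left (mIX.const_mul 2), lintegral_const_mul' _ _ (by norm_num),
                  lintegral_const_mul' _ _ (by norm_num)]
                rfl
            _ ≤ _ := add_le_add le_rfl (mul_le_mul' le_rfl (int_h1 μ (ν τ) hG hh))
      _ = 2 * (a * (a ^ 3 * IX μ (ν τ) G (E τ) (X τ) h)) +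
            2 * (a ^ 4 * ∫⁻ g in G, ‖h g‖ₑ ^ 2 ∂μ) := by ring
      _ ≤ 2 * (1 * (10 * κ)) + 2 * (1536 * κ) :=
          add_le_add (mul_le_mul' le_rfl (mul_le_mul' ha1 (i3 τ))) (mul_le_mul' le_rfl i5)
      _ = 3092 * κ := by ring
      _ ≤ 4000 * κ := by gcongr; norm_num
  · have mIY : Measurable fun z : Γ × Γ × Ξ => ‖Y τ z - h z.2.1‖ₑ ^ 2 := m_iy (mY τ) hh
    calc a ^ 4 * ∫⁻ z in GE G (E τ), ‖U z.2.1 - Pm τ z‖ₑ ^ 2 ∂(μ.prod (μ.prod (ν τ)))
        ≤ a ^ 4 * (2 * IY μ (ν τ) G (E τ) (Y τ) h + 2 * ∫⁻ g in G, ‖h g‖ₑ ^ 2 ∂μ) := by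
          refine mul_le_mul' le_rfl ?_
          calc ∫⁻ z in GE G (E τ), ‖U z.2.1 - Pm τ z‖ₑ ^ 2 ∂(μ.prod (μ.prod (ν τ)))
              ≤ ∫⁻ z in GE G (E τ), (2 * ‖Y τ z - h z.2.1‖ₑ ^ 2 + 2 * ‖h z.2.1‖ₑ ^ 2)
                  ∂(μ.prod (μ.prod (ν τ))) := by
                refine lintegral_mono fun z => ?_
                have := enorm_add_sq_le (Y τ z - h z.2.1) (h z.2.1)
                rwa [sub_add_cancel] at this
            _ = 2 * IY μ (ν τ) G (E τ) (Y τ) h +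
                  2 * ∫⁻ z in GE G (E τ), ‖h z.2.1‖ₑ ^ 2 ∂(μ.prod (μ.prod (ν τ))) := by
                rw [lintegral_add_left (mIY.const_mul 2), lintegral_const_mul' _ _ (by norm_num),
                  lintegral_const_mul' _ _ (by norm_num)]
                rfl
            _ ≤ _ := add_le_add le_rfl (mul_le_mul' le_rfl (int_h2 μ (ν τ) hG hh))
      _ = 2 * (a ^ 2 * (a ^ 2 * IY μ (ν τ) G (E τ) (Y τ) h)) +
            2 * (a ^ 4 * ∫⁻ g in G, ‖h g‖ₑ ^ 2 ∂μ) := by ring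
      _ ≤ 2 * (1 * (4 * κ)) + 2 * (1536 * κ) :=
          add_le_add (mul_le_mul' le_rfl (mul_le_mul' (pow_le_one' ha1 2) (i2 τ)))
            (mul_le_mul' le_rfl i5)
      _ = 3080 * κ := by ring
      _ ≤ 4000 * κ := by gcongr; norm_num

end

end Crest.Agent.R143.Gaugex126
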