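import Crest.Agent.R143.Neck1_921

/-!
# Row 143, CORE-C, block V4 (c): deterministic gluing of the tile events (helper73)

Coordinates `X z0 e`, `Y z0 e`, crossings `HC`, `VC` of GateA_838, neck gates of Neck1_921.
* `last_mark` : last marked site of a list
* `Neck.meetw` : a white horizontal crossing above the neck meets the upper arm
* `black_right`, `white_right`, `black_left`, `white_left` : the sites of a landing chain (vertical
  crossing of the landing zone) are linked to `y` (to the upper arm) on the right side of the window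
* `midS`, `midL`, `midR` : the landing chains of two gates are linked by thin crossings (straight
  tile, left turn, right turn)
* `tile_of` : the tile event
-/

set_option autoImplicit false

noncomputable section

open scoped Classical

namespace Crest.Agent.R143.TileGx73

open Crest.Agent.R143.B0x346 Crest.Agent.R143.DelGx806 Crest.Agent.R143.DelRx806
open Crest.Agent.R143.ToolWx838 Crest.Agent.R143.Blkx838 Crest.Agent.R143.ToolW2x838
open Crest.Agent.R143.ToolW3x838 Crest.Agent.R143.Circ4x838 Crest.Agent.R143.Harx315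
open Crest.Agent.R143.RB0x838 Crest.Agent.R143.CircPx838 Crest.Agent.R143.Gatex838
open Crest.Agent.R143.Neckx921

variable {S V β : Finset ℂ} {z0 e : ℂ} {a0 a1 b0 b1 l0 l1 r0 r1 p0 p1 q0 q1 m m' mN : ℝ}

/-! ### lists -/

theorem prs_suffix {P Q : List ℂ} (h : Q <:+ P) : ∀ p ∈ prs Q, p ∈ prs P := by
  obtain ⟨L, rfl⟩ := h
  intro p hp
  cases Q with
  | nil => simp at hp
  | cons a Q =>
    rw [prs_append]
    exact List.mem_append_right _ hp

theorem prs_rev {P : List ℂ} (h : ∀ p ∈ prs P, DE S p.1 p.2) : ∀ p ∈ prs P.reverse, DE S p.1 p.2 := by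
  intro p hp
  rw [prs_reverse, List.mem_reverse, List.mem_map] at hp
  obtain ⟨q, hq, rfl⟩ := hp
  exact (h q hq).symm

/-- last marked site: after it no marked site and no site of `A` -/
theorem last_mark {M A : ℂ → Prop} (P : List ℂ) (hex : ∃ s ∈ P, M s)
    (hsuf : ∀ s Q, (s :: Q) <:+ P → A s → ∃ t ∈ s :: Q, M t) :
    ∃ t Q, (t :: Q) <:+ P ∧ M t ∧ ∀ u ∈ Q, ¬ M u ∧ ¬ A u := by
  induction P with
  | nil => obtain ⟨s, hs, -⟩ := hex; simp at hs
  | cons a P ih =>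
    by_cases h1 : ∃ s ∈ P, M s
    · obtain ⟨t, Q, h2, h3, h4⟩ := ih h1 fun s Q h5 h6 => hsuf s Q (h5.trans (List.suffix_cons a P)) h6
      exact ⟨t, Q, h2.trans (List.suffix_cons a P), h3, h4⟩
    · have h1' : ∀ s ∈ P, ¬ M s := fun s hs h => h1 ⟨s, hs, h⟩
      have ha : M a := by
        obtain ⟨s, hs, hM⟩ := hex
        rcases List.mem_cons.1 hs with rfl | hs
        · exact hM
        · exact absurd hM (h1' s hs)
      refine ⟨a, P, List.suffix_rfl, ha, fun u hu => ⟨h1' u hu, fun hA => ?_⟩⟩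
      obtain ⟨L, Q, rfl⟩ := List.append_of_mem hu
      obtain ⟨t, ht, hM⟩ := hsuf u Q ((List.suffix_append L (u :: Q)).trans (List.suffix_cons a _)) hA
      exact h1' t (List.mem_append_right _ ht) hM

theorem suffix_last {P Q : List ℂ} {t : ℂ} (h : (t :: Q) <:+ P) (hP : P ≠ []) :
    (t :: Q).getLast (by simp) = P.getLast hP := by
  obtain ⟨L, rfl⟩ := h
  rw [List.getLast_append_of_ne_nil _ (by simp)]

/-! ### the neck and white crossings -/

/-- a white horizontal crossing above the neck meets the upper arm -/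
theorem meetw {up dn : List ℂ} {y : ℂ} (h : Neck S z0 e a0 a1 b0 b1 mN V β up y dn)
    (hS : GP (S : Set ℂ)) (he : e ≠ 0) (hy : Y z0 e y ≤ q0) (hq : q1 ≤ b1)
    {P : List ℂ} (hP : P ≠ []) (dP : ∀ p ∈ prs P, DE S p.1 p.2) (cP : ∀ s ∈ P, s ∉ β)
    (hPy : ∀ s ∈ P, q0 < Y z0 e s ∧ Y z0 e s < q1)
    (h0 : X z0 e (P.head hP) ≤ a0) (h1 : a1 ≤ X z0 e (P.getLast hP)) : ∃ s ∈ P, s ∈ up := by
  set Q : List ℂ := (up ++ [y]).reverse with hQ
  have hQn : Q ≠ [] := by rw [hQ]; simp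
  have dQ : ∀ p ∈ prs Q, DE S p.1 p.2 := by
    refine prs_rev fun p hp => h.adj p ?_
    rw [prs_append]
    exact List.mem_append_left _ hp
  have hmem : ∀ s, s ∈ Q ↔ s ∈ up ∨ s = y := by
    intro s
    rw [hQ, List.mem_reverse, List.mem_append, List.mem_singleton]
  obtain ⟨s, hs1, hs2⟩ := cross_e hS he hP hQn dP dQ hPy
    (fun a ha => (h.win a (by
      rcases (hmem a).1 ha with h2 | h2
      · exact List.mem_append_left _ h2
      · rw [h2]; simp)).1) h0 h1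
    (by
      have : Q.head hQn = y := by simp [hQ]
      rw [this]; exact hy)
    (by
      have : Q.getLast hQn = up.head h.nu := by
        simp only [hQ]
        rw [List.getLast_reverse, List.head_append_of_ne_nil h.nu]
      rw [this]
      exact hq.trans h.top)
  rcases (hmem s).1 hs2 with h2 | h2
  · exact ⟨s, hs1, h2⟩
  · exact absurd (by rw [h2]; exact h.cy.2) (cP s hs1)

/-! ### extension of a gate to the right -/

/-- **black landing, right** : every site of the landing chain `Q` is linked to the neck `y` -/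
theorem black_right {up dn : List ℂ} {y : ℂ} (hN : Neck S z0 e a0 a1 b0 b1 mN V β up y dn)
    (hS : GP (S : Set ℂ)) (he : e ≠ 0) {P Q : List ℂ} (h : HC S z0 e a0 l1 p0 p1 m β P)
    (v : VC S z0 e l0 l1 p0 p1 m' β Q) (hp0 : b0 ≤ p0) (hp1 : p1 ≤ b1) (h1 : a1 ≤ l0)
    (h01 : a1 ≤ l1) {R : Set ℂ}
    (hR : ∀ s ∈ β, a0 < X z0 e s → X z0 e s ≤ l1 + m → p0 < Y z0 e s → Y z0 e s < p1 → s ∈ R)
    (hR' : ∀ s ∈ Q, s ∈ R) {t : ℂ} (ht : t ∈ Q) : Lk S {s | s ∈ β ∧ s ∈ R} y t := by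
  have hstrip : ∀ s ∈ P, b0 < Y z0 e s ∧ Y z0 e s < b1 := fun s hs =>
    ⟨by linarith [(h.strip s hs).1], by linarith [(h.strip s hs).2]⟩
  obtain ⟨t0, T, hT, rfl, hTT⟩ := last_mark (M := fun s => s = y) (A := fun s => X z0 e s ≤ a0) P
    ⟨y, hN.meet hS he h.ne h.adj h.col hstrip h.left (h01.trans h.right), rfl⟩
    (fun s T hT hs => ⟨y, hN.meet hS he (by simp) (fun p hp => h.adj p (prs_suffix hT p hp))
      (fun u hu => h.col u (hT.subset hu)) (fun u hu => hstrip u (hT.subset hu))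
      (by simpa using hs) (by rw [suffix_last hT h.ne]; exact h01.trans h.right), rfl⟩)
  have hwin := hN.win t0 (by simp)
  have hX : ∀ s ∈ t0 :: T, a0 < X z0 e s := by
    intro s hs
    rcases List.mem_cons.1 hs with rfl | hs
    · exact hwin.1.1
    · exact not_le.1 (hTT s hs).2
  obtain ⟨s, hs1, hs2⟩ := cross_e hS he (P := t0 :: T) (Q := Q) (by simp) v.ne
    (fun p hp => h.adj p (prs_suffix hT p hp)) v.adj (fun u hu => h.strip u (hT.subset hu)) v.strip
    (by simpa using (hwin.1.2.le.trans h1)) (by rw [suffix_last hT h.ne]; exact h.right) v.left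
    v.right
  have k1 : Lk S {s | s ∈ β ∧ s ∈ R} t0 s := by
    refine lk_list (fun p hp => h.adj p (prs_suffix hT p hp)) (fun u hu => ?_)
      (by simp) hs1
    have hu' := hT.subset hu
    exact ⟨h.col u hu', hR u (h.col u hu') (hX u hu) (h.loc u hu').2 (h.strip u hu').1
      (h.strip u hu').2⟩
  exact k1.trans (lk_list (A := {s | s ∈ β ∧ s ∈ R}) v.adj (fun u hu => ⟨v.col u hu, hR' u hu⟩)
    hs2 ht)

/-- **white landing, right** : every site of the landing chain `Q` is linked to every site of the upper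
arm -/
theorem white_right {up dn : List ℂ} {y : ℂ} (hN : Neck S z0 e a0 a1 b0 b1 mN V β up y dn)
    (hS : GP (S : Set ℂ)) (he : e ≠ 0) {P Q : List ℂ} (h : HC S z0 e a0 l1 q0 q1 m (V \ β) P)
    (v : VC S z0 e l0 l1 q0 q1 m' (V \ β) Q) (hy : Y z0 e y ≤ q0) (hq1 : q1 ≤ b1) (h1 : a1 ≤ l0)
    (h01 : a1 ≤ l1) {R : Set ℂ}
    (hR : ∀ s ∈ V, a0 < X z0 e s → X z0 e s ≤ l1 + m → q0 < Y z0 e s → Y z0 e s < q1 → s ∈ R)
    (hR0 : ∀ s ∈ V, a0 < X z0 e s → X z0 e s < a1 → b0 - mN ≤ Y z0 e s → Y z0 e s ≤ b1 + mN → s ∈ R)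
    (hR' : ∀ s ∈ Q, s ∈ R) {x : ℂ} (hx : x ∈ up) {t : ℂ} (ht : t ∈ Q) :
    Lk S {s | (s ∈ V ∧ s ∉ β) ∧ s ∈ R} x t := by
  have hcol : ∀ s ∈ P, s ∈ V ∧ s ∉ β := fun s hs => Finset.mem_sdiff.1 (h.col s hs)
  obtain ⟨t0, T, hT, ht0, hTT⟩ := last_mark (M := fun s => s ∈ up) (A := fun s => X z0 e s ≤ a0) P
    (meetw hN hS he hy hq1 h.ne h.adj (fun s hs => (hcol s hs).2) h.strip h.left
      (h01.trans h.right))
    (fun s T hT hs => meetw hN hS he hy hq1 (by simp) (fun p hp => h.adj p (prs_suffix hT p hp))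
      (fun u hu => (hcol u (hT.subset hu)).2) (fun u hu => h.strip u (hT.subset hu))
      (by simpa using hs) (by rw [suffix_last hT h.ne]; exact h01.trans h.right))
  have hwin := hN.win t0 (List.mem_append_left _ ht0)
  have hX : ∀ s ∈ t0 :: T, a0 < X z0 e s := by
    intro s hs
    rcases List.mem_cons.1 hs with rfl | hs
    · exact hwin.1.1
    · exact not_le.1 (hTT s hs).2
  obtain ⟨s, hs1, hs2⟩ := cross_e hS he (P := t0 :: T) (Q := Q) (by simp) v.ne
    (fun p hp => h.adj p (prs_suffix hT p hp)) v.adj (fun u hu => h.strip u (hT.subset hu)) v.strip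
    (by simpa using (hwin.1.2.le.trans h1)) (by rw [suffix_last hT h.ne]; exact h.right) v.left
    v.right
  have k0 : Lk S {s | (s ∈ V ∧ s ∉ β) ∧ s ∈ R} x t0 := by
    refine lk_list (fun p hp => hN.adj p ?_) (fun u hu => ?_) hx ht0
    · rw [prs_append]
      refine List.mem_append_left _ ?_
      have h3 : prs (up ++ [y]) = prs (up ++ y :: []) := rfl
      clear * - hp
      induction up with
      | nil => simp at hp
      | cons a up ih =>
        cases up with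
        | nil => simp at hp
        | cons b up =>
          rw [prs_cons, List.mem_cons] at hp
          simp only [List.cons_append, prs_cons, List.mem_cons] at ih ⊢
          rcases hp with rfl | hp
          · exact Or.inl rfl
          · exact Or.inr (ih hp)
    · have hw := hN.win u (List.mem_append_left _ hu)
      exact ⟨hN.cu u hu, hR0 u (hN.cu u hu).1 hw.1.1 hw.1.2 hw.2.1 hw.2.2⟩
  have k1 : Lk S {s | (s ∈ V ∧ s ∉ β) ∧ s ∈ R} t0 s := by
    refine lk_list (fun p hp => h.adj p (prs_suffix hT p hp)) (fun u hu => ?_)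
      (by simp) hs1
    have hu' := hT.subset hu
    exact ⟨hcol u hu', hR u (hcol u hu').1 (hX u hu) (h.loc u hu').2 (h.strip u hu').1
      (h.strip u hu').2⟩
  exact (k0.trans k1).trans (lk_list (A := {s | (s ∈ V ∧ s ∉ β) ∧ s ∈ R}) v.adj
    (fun u hu => ⟨Finset.mem_sdiff.1 (v.col u hu), hR' u hu⟩) hs2 ht)

/-! ### extension of a gate to the left -/

theorem suffix_rev_head {P T : List ℂ} {t : ℂ} (h : (t :: T) <:+ P.reverse) (hP : P ≠ []) :
    (t :: T).reverse.head (by simp) = P.head hP := by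
  rw [List.head_reverse, suffix_last h (by simpa using hP), List.getLast_reverse]

/-- **black landing, left** -/
theorem black_left {up dn : List ℂ} {y : ℂ} (hN : Neck S z0 e a0 a1 b0 b1 mN V β up y dn)
    (hS : GP (S : Set ℂ)) (he : e ≠ 0) {P Q : List ℂ} (h : HC S z0 e r0 a1 p0 p1 m β P)
    (v : VC S z0 e r0 r1 p0 p1 m' β Q) (hp0 : b0 ≤ p0) (hp1 : p1 ≤ b1) (h1 : r1 ≤ a0)
    (h01 : r0 ≤ a0) {R : Set ℂ}
    (hR : ∀ s ∈ β, X z0 e s < a1 → r0 - m ≤ X z0 e s → p0 < Y z0 e s → Y z0 e s < p1 → s ∈ R)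
    (hR' : ∀ s ∈ Q, s ∈ R) {t : ℂ} (ht : t ∈ Q) : Lk S {s | s ∈ β ∧ s ∈ R} y t := by
  have hstrip : ∀ s ∈ P, b0 < Y z0 e s ∧ Y z0 e s < b1 := fun s hs =>
    ⟨by linarith [(h.strip s hs).1], by linarith [(h.strip s hs).2]⟩
  have hPr : P.reverse ≠ [] := by simpa using h.ne
  obtain ⟨t0, T, hT, rfl, hTT⟩ := last_mark (M := fun s => s = y) (A := fun s => a1 ≤ X z0 e s)
    P.reverse
    ⟨y, List.mem_reverse.2 (hN.meet hS he h.ne h.adj h.col hstrip (h.left.trans h01) h.right), rfl⟩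
    (fun s T hT hs => ⟨y, List.mem_reverse.1 (hN.meet hS he (P := (s :: T).reverse) (by simp)
      (prs_rev fun p hp => prs_rev h.adj p (prs_suffix hT p hp))
      (fun u hu => h.col u (List.mem_reverse.1 (hT.subset (List.mem_reverse.1 hu))))
      (fun u hu => hstrip u (List.mem_reverse.1 (hT.subset (List.mem_reverse.1 hu))))
      (by rw [suffix_rev_head hT h.ne]; exact h.left.trans h01) (by simpa using hs)), rfl⟩)
  have hwin := hN.win t0 (by simp)
  have hX : ∀ s ∈ t0 :: T, X z0 e s < a1 := by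
    intro s hs
    rcases List.mem_cons.1 hs with rfl | hs
    · exact hwin.1.2
    · exact not_le.1 (hTT s hs).2
  have dT : ∀ p ∈ prs (t0 :: T), DE S p.1 p.2 := fun p hp => prs_rev h.adj p (prs_suffix hT p hp)
  have mT : ∀ u ∈ t0 :: T, u ∈ P := fun u hu => List.mem_reverse.1 (hT.subset hu)
  obtain ⟨s, hs1, hs2⟩ := cross_e hS he (P := (t0 :: T).reverse) (Q := Q) (by simp) v.ne
    (prs_rev dT) v.adj (fun u hu => h.strip u (mT u (List.mem_reverse.1 hu))) v.strip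
    (by rw [suffix_rev_head hT h.ne]; exact h.left) (by simpa using (h1.trans hwin.1.1.le)) v.left
    v.right
  rw [List.mem_reverse] at hs1
  have k1 : Lk S {s | s ∈ β ∧ s ∈ R} t0 s := by
    refine lk_list dT (fun u hu => ?_) (by simp) hs1
    have hu' := mT u hu
    exact ⟨h.col u hu', hR u (h.col u hu') (hX u hu) (h.loc u hu').1 (h.strip u hu').1
      (h.strip u hu').2⟩
  exact k1.trans (lk_list (A := {s | s ∈ β ∧ s ∈ R}) v.adj (fun u hu => ⟨v.col u hu, hR' u hu⟩)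
    hs2 ht)

/-- links inside the upper arm -/
theorem up_link {up dn : List ℂ} {y : ℂ} (hN : Neck S z0 e a0 a1 b0 b1 mN V β up y dn) {R : Set ℂ}
    (hR0 : ∀ s ∈ V, a0 < X z0 e s → X z0 e s < a1 → b0 - mN ≤ Y z0 e s → Y z0 e s ≤ b1 + mN → s ∈ R)
    {x t0 : ℂ} (hx : x ∈ up) (ht0 : t0 ∈ up) : Lk S {s | (s ∈ V ∧ s ∉ β) ∧ s ∈ R} x t0 := by
  refine lk_list (fun p hp => hN.adj p ?_) (fun u hu => ?_) hx ht0
  · rw [prs_append]
    refine List.mem_append_left _ ?_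
    clear * - hp
    induction up with
    | nil => simp at hp
    | cons a up ih =>
      cases up with
      | nil => simp at hp
      | cons b up =>
        rw [prs_cons, List.mem_cons] at hp
        simp only [List.cons_append, prs_cons, List.mem_cons] at ih ⊢
        rcases hp with rfl | hp
        · exact Or.inl rfl
        · exact Or.inr (ih hp)
  · have hw := hN.win u (List.mem_append_left _ hu)
    exact ⟨hN.cu u hu, hR0 u (hN.cu u hu).1 hw.1.1 hw.1.2 hw.2.1 hw.2.2⟩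

/-- **white landing, left** -/
theorem white_left {up dn : List ℂ} {y : ℂ} (hN : Neck S z0 e a0 a1 b0 b1 mN V β up y dn)
    (hS : GP (S : Set ℂ)) (he : e ≠ 0) {P Q : List ℂ} (h : HC S z0 e r0 a1 q0 q1 m (V \ β) P)
    (v : VC S z0 e r0 r1 q0 q1 m' (V \ β) Q) (hy : Y z0 e y ≤ q0) (hq1 : q1 ≤ b1) (h1 : r1 ≤ a0)
    (h01 : r0 ≤ a0) {R : Set ℂ}
    (hR : ∀ s ∈ V, X z0 e s < a1 → r0 - m ≤ X z0 e s → q0 < Y z0 e s → Y z0 e s < q1 → s ∈ R)
    (hR0 : ∀ s ∈ V, a0 < X z0 e s → X z0 e s < a1 → b0 - mN ≤ Y z0 e s → Y z0 e s ≤ b1 + mN → s ∈ R)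
    (hR' : ∀ s ∈ Q, s ∈ R) {x : ℂ} (hx : x ∈ up) {t : ℂ} (ht : t ∈ Q) :
    Lk S {s | (s ∈ V ∧ s ∉ β) ∧ s ∈ R} x t := by
  have hcol : ∀ s ∈ P, s ∈ V ∧ s ∉ β := fun s hs => Finset.mem_sdiff.1 (h.col s hs)
  have hex : ∃ s ∈ P.reverse, s ∈ up := by
    obtain ⟨s, h2, h3⟩ := meetw hN hS he hy hq1 h.ne h.adj (fun s hs => (hcol s hs).2) h.strip
      (h.left.trans h01) h.right
    exact ⟨s, List.mem_reverse.2 h2, h3⟩
  obtain ⟨t0, T, hT, ht0, hTT⟩ := last_mark (M := fun s => s ∈ up) (A := fun s => a1 ≤ X z0 e s)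
    P.reverse hex
    (fun s T hT hs => by
      obtain ⟨u, h2, h3⟩ := meetw hN hS he hy hq1 (P := (s :: T).reverse) (by simp)
        (prs_rev fun p hp => prs_rev h.adj p (prs_suffix hT p hp))
        (fun u hu => (hcol u (List.mem_reverse.1 (hT.subset (List.mem_reverse.1 hu)))).2)
        (fun u hu => h.strip u (List.mem_reverse.1 (hT.subset (List.mem_reverse.1 hu))))
        (by rw [suffix_rev_head hT h.ne]; exact h.left.trans h01) (by simpa using hs)
      exact ⟨u, List.mem_reverse.1 h2, h3⟩)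
  have hwin := hN.win t0 (List.mem_append_left _ ht0)
  have hX : ∀ s ∈ t0 :: T, X z0 e s < a1 := by
    intro s hs
    rcases List.mem_cons.1 hs with rfl | hs
    · exact hwin.1.2
    · exact not_le.1 (hTT s hs).2
  have dT : ∀ p ∈ prs (t0 :: T), DE S p.1 p.2 := fun p hp => prs_rev h.adj p (prs_suffix hT p hp)
  have mT : ∀ u ∈ t0 :: T, u ∈ P := fun u hu => List.mem_reverse.1 (hT.subset hu)
  obtain ⟨s, hs1, hs2⟩ := cross_e hS he (P := (t0 :: T).reverse) (Q := Q) (by simp) v.ne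
    (prs_rev dT) v.adj (fun u hu => h.strip u (mT u (List.mem_reverse.1 hu))) v.strip
    (by rw [suffix_rev_head hT h.ne]; exact h.left) (by simpa using (h1.trans hwin.1.1.le)) v.left
    v.right
  rw [List.mem_reverse] at hs1
  have k0 : Lk S {s | (s ∈ V ∧ s ∉ β) ∧ s ∈ R} x t0 := up_link hN hR0 hx ht0
  have k1 : Lk S {s | (s ∈ V ∧ s ∉ β) ∧ s ∈ R} t0 s := by
    refine lk_list dT (fun u hu => ?_) (by simp) hs1
    have hu' := mT u hu
    exact ⟨hcol u hu', hR u (hcol u hu').1 (hX u hu) (h.loc u hu').1 (h.strip u hu').1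
      (h.strip u hu').2⟩
  exact (k0.trans k1).trans (lk_list (A := {s | (s ∈ V ∧ s ∉ β) ∧ s ∈ R}) v.adj
    (fun u hu => ⟨Finset.mem_sdiff.1 (v.col u hu), hR' u hu⟩) hs2 ht)

/-! ### frames -/

theorem X_shift (he : e ≠ 0) (c s : ℂ) : X (z0 + e * c) e s = X z0 e s - c.re := by
  unfold X
  have h : (s - (z0 + e * c)) / e = (s - z0) / e - c := by field_simp; ring
  rw [h, Complex.sub_re]

theorem Y_shift (he : e ≠ 0) (c s : ℂ) : Y (z0 + e * c) e s = Y z0 e s - c.im := by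
  unfold Y
  have h : (s - (z0 + e * c)) / e = (s - z0) / e - c := by field_simp; ring
  rw [h, Complex.sub_im]

theorem X_left (he : e ≠ 0) (c s : ℂ) : X (z0 + e * c) (e * Complex.I) s = Y z0 e s - c.im := by
  rw [X_turn, Y_shift he]

theorem Y_left (he : e ≠ 0) (c s : ℂ) : Y (z0 + e * c) (e * Complex.I) s = c.re - X z0 e s := by
  rw [Y_turn, X_shift he]; ring

theorem X_turn' (z e s : ℂ) : X z (e * -Complex.I) s = -Y z e s := by
  unfold X Y
  rw [mul_neg, div_neg, Complex.neg_re, ← div_div, div_I]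
  simp

theorem Y_turn' (z e s : ℂ) : Y z (e * -Complex.I) s = X z e s := by
  unfold X Y
  rw [mul_neg, div_neg, Complex.neg_im, ← div_div, div_I]
  simp

theorem X_right (he : e ≠ 0) (c s : ℂ) : X (z0 + e * c) (e * -Complex.I) s = c.im - Y z0 e s := by
  rw [X_turn', Y_shift he]; ring

theorem Y_right (he : e ≠ 0) (c s : ℂ) : Y (z0 + e * c) (e * -Complex.I) s = X z0 e s - c.re := by
  rw [Y_turn', X_shift he]

/-- rectangle in the frame `(z0, e)` -/
def Rc (z0 e : ℂ) (x0 x1 y0 y1 : ℝ) : Set ℂ :=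
  {s | (x0 < X z0 e s ∧ X z0 e s < x1) ∧ y0 < Y z0 e s ∧ Y z0 e s < y1}

/-! ### the middle of a tile -/

variable {A : Finset ℂ} {R : Set ℂ} {s0 s1 s0' s1' u1 w0 : ℝ}

/-- **straight tile** : the landing chains are linked -/
theorem midS (hS : GP (S : Set ℂ)) (he : e ≠ 0) {T : ℝ} {Q Q' M : List ℂ}
    (v : VC S z0 e l0 l1 p0 p1 m A Q) (v' : VC S (z0 + e * (T : ℂ)) e r0 r1 p0 p1 m A Q')
    (hM : HC S z0 e l0 (T + r1) s0 s1 m' A M) (h0 : p0 ≤ s0) (h1 : s1 ≤ p1) (h2 : l1 ≤ T + r1)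
    (h3 : l0 ≤ T + r0) (hR : ∀ s ∈ M, s ∈ R) :
    ∃ t ∈ Q, ∃ t' ∈ Q', Lk S {s | s ∈ A ∧ s ∈ R} t t' := by
  obtain ⟨t, ht, ht'⟩ := hM.meet hS he v le_rfl h2 h0 h1
  have v2 : VC S z0 e (T + r0) (T + r1) p0 p1 m A Q' := by
    refine ⟨v'.ne, v'.adj, v'.col, fun s hs => ?_, fun s hs => ?_, ?_, ?_⟩
    · have := v'.strip s hs
      rw [X_shift he, Complex.ofReal_re] at this
      constructor <;> linarith [this.1, this.2]
    · have := v'.loc s hs
      rw [Y_shift he, Complex.ofReal_im, sub_zero] at this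
      exact this
    · have := v'.left
      rw [Y_shift he, Complex.ofReal_im, sub_zero] at this
      exact this
    · have := v'.right
      rw [Y_shift he, Complex.ofReal_im, sub_zero] at this
      exact this
  obtain ⟨u, hu, hu'⟩ := hM.meet hS he v2 h3 le_rfl h0 h1
  exact ⟨t, ht', u, hu',
    lk_list (A := {s | s ∈ A ∧ s ∈ R}) hM.adj (fun s hs => ⟨hM.col s hs, hR s hs⟩) ht hu⟩

/-- **left turn** : second frame `(z0 + e c, e I)` -/
theorem midL (hS : GP (S : Set ℂ)) (he : e ≠ 0) {c : ℂ} {Q Q' M M' : List ℂ}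
    (v : VC S z0 e l0 l1 p0 p1 m A Q)
    (v' : VC S (z0 + e * c) (e * Complex.I) r0 r1 p0 p1 m A Q')
    (hM : HC S z0 e l0 u1 s0 s1 m' A M)
    (hM' : HC S (z0 + e * c) (e * Complex.I) w0 r1 s0' s1' m' A M')
    (h0 : p0 ≤ s0) (h1 : s1 ≤ p1) (h2 : l1 ≤ u1) (h0' : p0 ≤ s0') (h1' : s1' ≤ p1) (h3 : w0 ≤ r0)
    (k0 : l0 ≤ c.re - s1') (k1 : c.re - s0' ≤ u1) (k2 : w0 + c.im ≤ s0) (k3 : s1 ≤ r1 + c.im)
    (hR : ∀ s ∈ M, s ∈ R) (hR' : ∀ s ∈ M', s ∈ R) :
    ∃ t ∈ Q, ∃ t' ∈ Q', Lk S {s | s ∈ A ∧ s ∈ R} t t' := by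
  obtain ⟨t, ht, ht'⟩ := hM.meet hS he v le_rfl h2 h0 h1
  obtain ⟨u, hu, hu'⟩ := hM'.meet hS (mul_ne_zero he Complex.I_ne_zero) v' h3 le_rfl h0' h1'
  obtain ⟨w, hw, hw'⟩ := cross_e hS he (P := M) (Q := M') hM.ne hM'.ne hM.adj hM'.adj hM.strip
    (x0 := c.re - s1') (x1 := c.re - s0')
    (fun s hs => by
      have := hM'.strip s hs
      rw [Y_left he] at this
      constructor <;> linarith [this.1, this.2])
    (hM.left.trans k0) (k1.trans hM.right)
    (by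
      have := hM'.left
      rw [X_left he] at this
      linarith)
    (by
      have := hM'.right
      rw [X_left he] at this
      linarith)
  exact ⟨t, ht', u, hu',
    (lk_list (A := {s | s ∈ A ∧ s ∈ R}) hM.adj (fun s hs => ⟨hM.col s hs, hR s hs⟩) ht hw).trans
    (lk_list (A := {s | s ∈ A ∧ s ∈ R}) hM'.adj (fun s hs => ⟨hM'.col s hs, hR' s hs⟩) hw' hu)⟩

/-- **right turn** : second frame `(z0 + e c, - e I)` -/
theorem midR (hS : GP (S : Set ℂ)) (he : e ≠ 0) {c : ℂ} {Q Q' M M' : List ℂ}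
    (v : VC S z0 e l0 l1 p0 p1 m A Q)
    (v' : VC S (z0 + e * c) (e * -Complex.I) r0 r1 p0 p1 m A Q')
    (hM : HC S z0 e l0 u1 s0 s1 m' A M)
    (hM' : HC S (z0 + e * c) (e * -Complex.I) w0 r1 s0' s1' m' A M')
    (h0 : p0 ≤ s0) (h1 : s1 ≤ p1) (h2 : l1 ≤ u1) (h0' : p0 ≤ s0') (h1' : s1' ≤ p1) (h3 : w0 ≤ r0)
    (k0 : l0 ≤ c.re + s0') (k1 : c.re + s1' ≤ u1) (k2 : w0 ≤ c.im - s1) (k3 : c.im - r1 ≤ s0)
    (hR : ∀ s ∈ M, s ∈ R) (hR' : ∀ s ∈ M', s ∈ R) :
    ∃ t ∈ Q, ∃ t' ∈ Q', Lk S {s | s ∈ A ∧ s ∈ R} t t' := by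
  obtain ⟨t, ht, ht'⟩ := hM.meet hS he v le_rfl h2 h0 h1
  obtain ⟨u, hu, hu'⟩ := hM'.meet hS (mul_ne_zero he (neg_ne_zero.2 Complex.I_ne_zero)) v' h3 le_rfl
    h0' h1'
  have hr : M'.reverse ≠ [] := by simpa using hM'.ne
  obtain ⟨w, hw, hw'⟩ := cross_e hS he (P := M) (Q := M'.reverse) hM.ne hr hM.adj
    (prs_rev hM'.adj) hM.strip (x0 := c.re + s0') (x1 := c.re + s1')
    (fun s hs => by
      have := hM'.strip s (List.mem_reverse.1 hs)
      rw [Y_right he] at this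
      constructor <;> linarith [this.1, this.2])
    (hM.left.trans k0) (k1.trans hM.right)
    (by
      have := hM'.right
      rw [X_right he] at this
      rw [List.head_reverse]
      linarith)
    (by
      have := hM'.left
      rw [X_right he] at this
      rw [List.getLast_reverse]
      linarith)
  rw [List.mem_reverse] at hw'
  exact ⟨t, ht', u, hu',
    (lk_list (A := {s | s ∈ A ∧ s ∈ R}) hM.adj (fun s hs => ⟨hM.col s hs, hR s hs⟩) ht hw).trans
    (lk_list (A := {s | s ∈ A ∧ s ∈ R}) hM'.adj (fun s hs => ⟨hM'.col s hs, hR' s hs⟩) hw' hu)⟩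

/-! ### the tile event -/

/-- extension of a gate to the right: horizontal crossing of the strip over the window and the landing
zone `(l0, l1)`, vertical crossing `Q` of the landing zone -/
def ExtR (S : Finset ℂ) (z0 e : ℂ) (a0 l0 l1 p0 p1 m m' : ℝ) (A : Finset ℂ) (Q : List ℂ) : Prop :=
  (∃ P, HC S z0 e a0 l1 p0 p1 m A P) ∧ VC S z0 e l0 l1 p0 p1 m' A Q

/-- extension of a gate to the left -/
def ExtL (S : Finset ℂ) (z0 e : ℂ) (a1 r0 r1 p0 p1 m m' : ℝ) (A : Finset ℂ) (Q : List ℂ) : Prop :=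
  (∃ P, HC S z0 e r0 a1 p0 p1 m A P) ∧ VC S z0 e r0 r1 p0 p1 m' A Q

/-- numbers of a gate: window `(a0, a1)`, levels `b0, b1`, margin `mN` of the neck, black strip
`(p0, p1)`, white strip `(q0, q1)`, landing zones `(l0, l1)`, `(r0, r1)`, margins `m` (horizontal
crossings), `m'` (vertical crossings), vertical bounds `Y0, Y1`, horizontal bounds `W0`, `W1` -/
structure Num (a0 a1 b0 b1 mN p0 p1 q0 q1 l0 l1 r0 r1 m m' Y0 Y1 W0 W1 : ℝ) : Prop where
  bp : b0 ≤ p0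
  pq : p1 ≤ q0
  qb : q1 ≤ b1
  al : a1 ≤ l0
  ll : l0 < l1
  rr : r0 < r1
  ra : r1 ≤ a0
  W1 : l1 + m < W1
  W0 : W0 < r0 - m
  Ya : Y0 < b0 - mN
  Yb : b1 + mN < Y1
  Yc : Y0 < p0 - m'
  Yd : q1 + m' < Y1
  pp : p0 < p1
  qq : q0 < q1
  mN : 0 ≤ mN
  m : 0 ≤ m
  m' : 0 ≤ m'

variable {Y0 Y1 W0 W1 : ℝ}

/-- both landing links of the gate on its right side -/
theorem right_links (N : Num a0 a1 b0 b1 mN p0 p1 q0 q1 l0 l1 r0 r1 m m' Y0 Y1 W0 W1)
    (hS : GP (S : Set ℂ)) (he : e ≠ 0) {y x : ℂ} (hN : NeckD S z0 e a0 a1 b0 b1 mN V β y x)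
    (hβ : β ⊆ V) {Q Qw : List ℂ} (hb : ExtR S z0 e a0 l0 l1 p0 p1 m m' β Q)
    (hw : ExtR S z0 e a0 l0 l1 q0 q1 m m' (V \ β) Qw) (hR : ∀ s ∈ V, s ∈ Rc z0 e a0 W1 Y0 Y1 → s ∈ R) :
    (∀ t ∈ Q, Lk S {s | s ∈ β ∧ s ∈ R} y t) ∧
      ∀ t ∈ Qw, Lk S {s | s ∈ V \ β ∧ s ∈ R} x t := by
  obtain ⟨up, dn, hNk, rfl⟩ := hN
  obtain ⟨⟨P, hP⟩, hQ⟩ := hb
  obtain ⟨⟨Pw, hPw⟩, hQw⟩ := hw
  have n1 := N.bp
  have n2 := N.pq
  have n3 := N.qb
  have n4 := N.al
  have n5 := N.ll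
  have n6 := N.W1
  have n7 := N.Ya
  have n8 := N.Yb
  have n9 := N.Yc
  have n10 := N.Yd
  have n11 := N.pp
  have n12 := N.qq
  have n13 := N.mN
  have n14 := N.m
  have n15 := N.m'
  have hwy := hNk.win y (by simp)
  have ha01 : a0 < a1 := hwy.1.1.trans hwy.1.2
  have hy : Y z0 e y < p1 := by
    have h1 := hNk.meet hS he hP.ne hP.adj hP.col (fun s hs => ⟨by linarith [(hP.strip s hs).1],
      by linarith [(hP.strip s hs).2]⟩) hP.left (by linarith [hP.right])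
    exact (hP.strip y h1).2
  constructor
  · intro t ht
    refine black_right hNk hS he hP hQ n1 (by linarith) n4 (by linarith)
      (fun s hs h1 h2 h3 h4 => hR s (hβ hs) ⟨⟨h1, by linarith⟩, by linarith, by linarith⟩)
      (fun s hs => hR s (hβ (hQ.col s hs)) ?_) ht
    have h1 := hQ.strip s hs
    have h2 := hQ.loc s hs
    exact ⟨⟨by linarith [h1.1], by linarith [h1.2]⟩, by linarith [h2.1], by linarith [h2.2]⟩
  · intro t ht
    have h3 := white_right hNk hS he hPw hQw (by linarith) n3 n4 (by linarith)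
      (R := R) (fun s hs h1 h2 h3 h4 => hR s hs ⟨⟨h1, by linarith⟩, by linarith, by linarith⟩)
      (fun s hs h1 h2 h3 h4 => hR s hs ⟨⟨h1, by linarith⟩, by linarith, by linarith⟩)
      (fun s hs => hR s (Finset.mem_sdiff.1 (hQw.col s hs)).1 (by
        have h1 := hQw.strip s hs
        have h2 := hQw.loc s hs
        exact ⟨⟨by linarith [h1.1], by linarith [h1.2]⟩, by linarith [h2.1], by linarith [h2.2]⟩))
      (List.getLast_mem hNk.nu) ht
    exact h3.mono fun s hs => ⟨Finset.mem_sdiff.2 hs.1, hs.2⟩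

/-- both landing links of the gate on its left side -/
theorem left_links (N : Num a0 a1 b0 b1 mN p0 p1 q0 q1 l0 l1 r0 r1 m m' Y0 Y1 W0 W1)
    (hS : GP (S : Set ℂ)) (he : e ≠ 0) {y x : ℂ} (hN : NeckD S z0 e a0 a1 b0 b1 mN V β y x)
    (hβ : β ⊆ V) {Q Qw : List ℂ} (hb : ExtL S z0 e a1 r0 r1 p0 p1 m m' β Q)
    (hw : ExtL S z0 e a1 r0 r1 q0 q1 m m' (V \ β) Qw) (hR : ∀ s ∈ V, s ∈ Rc z0 e W0 a1 Y0 Y1 → s ∈ R) :
    (∀ t ∈ Q, Lk S {s | s ∈ β ∧ s ∈ R} y t) ∧
      ∀ t ∈ Qw, Lk S {s | s ∈ V \ β ∧ s ∈ R} x t := by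
  obtain ⟨up, dn, hNk, rfl⟩ := hN
  obtain ⟨⟨P, hP⟩, hQ⟩ := hb
  obtain ⟨⟨Pw, hPw⟩, hQw⟩ := hw
  have n1 := N.bp
  have n2 := N.pq
  have n3 := N.qb
  have n4 := N.ra
  have n5 := N.rr
  have n6 := N.W0
  have n7 := N.Ya
  have n8 := N.Yb
  have n9 := N.Yc
  have n10 := N.Yd
  have n11 := N.pp
  have n12 := N.qq
  have n13 := N.mN
  have n14 := N.m
  have n15 := N.m'
  have hwy := hNk.win y (by simp)
  have ha01 : a0 < a1 := hwy.1.1.trans hwy.1.2
  have hy : Y z0 e y < p1 := by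
    have h1 := hNk.meet hS he hP.ne hP.adj hP.col (fun s hs => ⟨by linarith [(hP.strip s hs).1],
      by linarith [(hP.strip s hs).2]⟩) (by linarith [hP.left]) hP.right
    exact (hP.strip y h1).2
  constructor
  · intro t ht
    refine black_left hNk hS he hP hQ n1 (by linarith) n4 (by linarith)
      (fun s hs h1 h2 h3 h4 => hR s (hβ hs) ⟨⟨by linarith, h1⟩, by linarith, by linarith⟩)
      (fun s hs => hR s (hβ (hQ.col s hs)) ?_) ht
    have h1 := hQ.strip s hs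
    have h2 := hQ.loc s hs
    exact ⟨⟨by linarith [h1.1], by linarith [h1.2]⟩, by linarith [h2.1], by linarith [h2.2]⟩
  · intro t ht
    have h3 := white_left hNk hS he hPw hQw (by linarith) n3 n4 (by linarith)
      (R := R) (fun s hs h1 h2 h3 h4 => hR s hs ⟨⟨by linarith, h1⟩, by linarith, by linarith⟩)
      (fun s hs h1 h2 h3 h4 => hR s hs ⟨⟨by linarith, h2⟩, by linarith, by linarith⟩)
      (fun s hs => hR s (Finset.mem_sdiff.1 (hQw.col s hs)).1 (by
        have h1 := hQw.strip s hs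
        have h2 := hQw.loc s hs
        exact ⟨⟨by linarith [h1.1], by linarith [h1.2]⟩, by linarith [h2.1], by linarith [h2.2]⟩))
      (List.getLast_mem hNk.nu) ht
    exact h3.mono fun s hs => ⟨Finset.mem_sdiff.2 hs.1, hs.2⟩

/-- **the tile event** from the landing links and the middle links -/
theorem tile_of {y x y' x' : ℂ} {Q Qw Q' Qw' : List ℂ}
    (h1 : ∀ t ∈ Q, Lk S {s | s ∈ β ∧ s ∈ R} y t) (h2 : ∀ t ∈ Qw, Lk S {s | s ∈ V \ β ∧ s ∈ R} x t)
    (h1' : ∀ t ∈ Q', Lk S {s | s ∈ β ∧ s ∈ R} y' t)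
    (h2' : ∀ t ∈ Qw', Lk S {s | s ∈ V \ β ∧ s ∈ R} x' t)
    (hb : ∃ t ∈ Q, ∃ t' ∈ Q', Lk S {s | s ∈ β ∧ s ∈ R} t t')
    (hw : ∃ t ∈ Qw, ∃ t' ∈ Qw', Lk S {s | s ∈ V \ β ∧ s ∈ R} t t') : Tile S V β R y x y' x' := by
  obtain ⟨t, ht, t', ht', hb⟩ := hb
  obtain ⟨u, hu, u', hu', hw⟩ := hw
  refine ⟨((h1 t ht).trans hb).trans (h1' t' ht').symm,
    (((h2 u hu).trans hw).trans (h2' u' hu').symm).mono fun s hs => ?_⟩
  exact ⟨Finset.mem_sdiff.1 hs.1, hs.2⟩

end Crest.Agent.R143.TileGx73
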