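import Crest.Agent.R143.RBm_838
import Crest.Agent.R143.TileG_73

/-!
# Row 143, CORE-C, block V4: probability of lanes in the scaled frame (helper73)

* `X_scale`, `Y_scale`, `hc_scale`, `vc_scale` : frame `(z0, η e)`, `‖e‖ = 1`
* `lane_h`, `lane_v` : crossings of rectangles given by numbers (unit `η`), black version
* `lane_hw`, `lane_vw` : white version
* `two_up`, `two_dn` : two crossings together (Harris)
-/

set_option autoImplicit false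

noncomputable section

open scoped Classical

namespace Crest.Agent.R143.LanePrx73

open Crest.Agent.R143.B0x346 Crest.Agent.R143.DelGx806 Crest.Agent.R143.DelRx806
open Crest.Agent.R143.ToolWx838 Crest.Agent.R143.Blkx838 Crest.Agent.R143.ToolW2x838
open Crest.Agent.R143.ToolW3x838 Crest.Agent.R143.Circ4x838 Crest.Agent.R143.Harx315
open Crest.Agent.R143.RB0x838 Crest.Agent.R143.CircPx838 Crest.Agent.R143.Gatex838
open Crest.Agent.R143.CBx838 Crest.Agent.R143.Multix838 Crest.Agent.R143.RBpx838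
open Crest.Agent.R143.RBmx838

variable {S V β : Finset ℂ} {z0 e : ℂ} {η x0 x1 y0 y1 m : ℝ} {l : List ℂ}

theorem XY_scale (hη : η ≠ 0) (z0 e s : ℂ) : (s - z0) / ((η : ℂ) * e) = (η⁻¹ : ℝ) * ((s - z0) / e) := by
  have h : (η : ℂ) ≠ 0 := by exact_mod_cast hη
  rw [div_mul_eq_div_div_swap, div_eq_inv_mul _ (η : ℂ)]
  push_cast
  ring

theorem X_scale (hη : η ≠ 0) (z0 e s : ℂ) : X z0 ((η : ℂ) * e) s = η⁻¹ * X z0 e s := by
  unfold X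
  rw [XY_scale hη, Complex.re_ofReal_mul]

theorem Y_scale (hη : η ≠ 0) (z0 e s : ℂ) : Y z0 ((η : ℂ) * e) s = η⁻¹ * Y z0 e s := by
  unfold Y
  rw [XY_scale hη, Complex.im_ofReal_mul]

theorem inv_le_iff' (hη : 0 < η) {x y : ℝ} : η⁻¹ * x ≤ y ↔ x ≤ η * y := by
  rw [inv_mul_le_iff₀ hη]

theorem le_inv_iff' (hη : 0 < η) {x y : ℝ} : y ≤ η⁻¹ * x ↔ η * y ≤ x := by
  rw [le_inv_mul_iff₀ hη]

theorem inv_lt_iff' (hη : 0 < η) {x y : ℝ} : η⁻¹ * x < y ↔ x < η * y := by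
  rw [inv_mul_lt_iff₀ hη]

theorem lt_inv_iff' (hη : 0 < η) {x y : ℝ} : y < η⁻¹ * x ↔ η * y < x := by
  rw [lt_inv_mul_iff₀ hη]

theorem hc_scale (hη : 0 < η)
    (h : HC S z0 e (η * x0) (η * x1) (η * y0) (η * y1) (η * m) β l) :
    HC S z0 ((η : ℂ) * e) x0 x1 y0 y1 m β l := by
  refine ⟨h.ne, h.adj, h.col, fun s hs => ?_, fun s hs => ?_, ?_, ?_⟩
  · rw [Y_scale hη.ne', lt_inv_iff' hη, inv_lt_iff' hη]
    exact h.strip s hs
  · rw [X_scale hη.ne', le_inv_iff' hη, inv_le_iff' hη, mul_sub, mul_add]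
    exact h.loc s hs
  · rw [X_scale hη.ne', inv_le_iff' hη]
    exact h.left
  · rw [X_scale hη.ne', le_inv_iff' hη]
    exact h.right

theorem vc_scale (hη : 0 < η)
    (h : VC S z0 e (η * x0) (η * x1) (η * y0) (η * y1) (η * m) β l) :
    VC S z0 ((η : ℂ) * e) x0 x1 y0 y1 m β l := by
  refine ⟨h.ne, h.adj, h.col, fun s hs => ?_, fun s hs => ?_, ?_, ?_⟩
  · rw [X_scale hη.ne', lt_inv_iff' hη, inv_lt_iff' hη]
    exact h.strip s hs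
  · rw [Y_scale hη.ne', le_inv_iff' hη, inv_le_iff' hη, mul_sub, mul_add]
    exact h.loc s hs
  · rw [Y_scale hη.ne', inv_le_iff' hη]
    exact h.left
  · rw [Y_scale hη.ne', le_inv_iff' hη]
    exact h.right

/-- numbers of a rectangle -/
structure Box (k x0 x1 y0 y1 : ℝ) : Prop where
  ax0 : |x0| ≤ k
  ax1 : |x1| ≤ k
  ay0 : |y0| ≤ k
  ay1 : |y1| ≤ k
  wx : 1 ≤ k * (x1 - x0)
  wy : 1 ≤ k * (y1 - y0)

/-- **horizontal lanes** of height at most `2` units, margin at least half of the height -/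
theorem lane_h (hRB : RBm) : ∀ k : ℝ, 1 ≤ k → ∀ C4 : ℝ, 0 ≤ C4 →
    ∃ p c1 c2 K : ℝ, 0 < p ∧ 0 < c1 ∧ 0 < c2 ∧ c2 ≤ 1 ∧ 0 < K ∧
    ∀ (S : Finset ℂ) (z0 : ℂ) (η d : ℝ), 0 < η → NvA S z0 (K * η) c2 η d C4 → d ≤ c1 * η →
    ∀ (e : ℂ) (x0 x1 y0 y1 m : ℝ), ‖e‖ = 1 → Box k x0 x1 y0 y1 → y1 - y0 ≤ 2 →
    (y1 - y0) / 2 ≤ m → ∀ V : Finset ℂ, V ⊆ S →
    (∀ s ∈ S, y0 < Y z0 ((η : ℂ) * e) s → Y z0 ((η : ℂ) * e) s < y1 →
      x0 - m ≤ X z0 ((η : ℂ) * e) s → X z0 ((η : ℂ) * e) s ≤ x1 + m → s ∈ V) →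
    p ≤ pr V (fun β => ∃ l, HC S z0 ((η : ℂ) * e) x0 x1 y0 y1 m β l) := by
  intro k hk C4 hC4
  obtain ⟨p, c1, c2, K, hp, hc1, hc2, hc2', hK, h⟩ := rb_hcm hRB k hk C4 hC4
  refine ⟨p, c1, c2, K, hp, hc1, hc2, hc2', hK, ?_⟩
  intro S z0 η d hη hN hd e x0 x1 y0 y1 m he hB hy2 hm V hV hreg
  have ab : ∀ x : ℝ, |x| ≤ k → |η * x| ≤ k * η := by
    intro x hx
    rw [abs_mul, abs_of_pos hη, mul_comm]
    exact mul_le_mul_of_nonneg_right hx hη.le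
  refine (h S z0 η d hη hN hd e (η * x0) (η * x1) (η * y0) (η * y1) (η * m) he (ab _ hB.ax0)
    (ab _ hB.ax1) (ab _ hB.ay0) (ab _ hB.ay1) ?_ ?_ ?_ ?_ V hV ?_).trans
    (pr_mono fun β _ ⟨l, hl⟩ => ⟨l, hc_scale hη hl⟩)
  · have := mul_le_mul_of_nonneg_left hB.wx hη.le
    nlinarith
  · have := mul_le_mul_of_nonneg_left hB.wy hη.le
    nlinarith
  · nlinarith
  · nlinarith
  · intro s hs h1 h2 h3 h4
    apply hreg s hs
    · rw [Y_scale hη.ne', lt_inv_iff' hη]; exact h1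
    · rw [Y_scale hη.ne', inv_lt_iff' hη]; exact h2
    · rw [X_scale hη.ne', le_inv_iff' hη, mul_sub]; exact h3
    · rw [X_scale hη.ne', inv_le_iff' hη, mul_add]; exact h4

/-- **vertical lanes** of width at most `2` units -/
theorem lane_v (hRB : RBm) : ∀ k : ℝ, 1 ≤ k → ∀ C4 : ℝ, 0 ≤ C4 →
    ∃ p c1 c2 K : ℝ, 0 < p ∧ 0 < c1 ∧ 0 < c2 ∧ c2 ≤ 1 ∧ 0 < K ∧
    ∀ (S : Finset ℂ) (z0 : ℂ) (η d : ℝ), 0 < η → NvA S z0 (K * η) c2 η d C4 → d ≤ c1 * η →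
    ∀ (e : ℂ) (x0 x1 y0 y1 m : ℝ), ‖e‖ = 1 → Box k x0 x1 y0 y1 → x1 - x0 ≤ 2 →
    (x1 - x0) / 2 ≤ m → ∀ V : Finset ℂ, V ⊆ S →
    (∀ s ∈ S, x0 < X z0 ((η : ℂ) * e) s → X z0 ((η : ℂ) * e) s < x1 →
      y0 - m ≤ Y z0 ((η : ℂ) * e) s → Y z0 ((η : ℂ) * e) s ≤ y1 + m → s ∈ V) →
    p ≤ pr V (fun β => ∃ l, VC S z0 ((η : ℂ) * e) x0 x1 y0 y1 m β l) := by
  intro k hk C4 hC4
  obtain ⟨p, c1, c2, K, hp, hc1, hc2, hc2', hK, h⟩ := rb_vcm hRB k hk C4 hC4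
  refine ⟨p, c1, c2, K, hp, hc1, hc2, hc2', hK, ?_⟩
  intro S z0 η d hη hN hd e x0 x1 y0 y1 m he hB hx2 hm V hV hreg
  have ab : ∀ x : ℝ, |x| ≤ k → |η * x| ≤ k * η := by
    intro x hx
    rw [abs_mul, abs_of_pos hη, mul_comm]
    exact mul_le_mul_of_nonneg_right hx hη.le
  refine (h S z0 η d hη hN hd e (η * x0) (η * x1) (η * y0) (η * y1) (η * m) he (ab _ hB.ax0)
    (ab _ hB.ax1) (ab _ hB.ay0) (ab _ hB.ay1) ?_ ?_ ?_ ?_ V hV ?_).trans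
    (pr_mono fun β _ ⟨l, hl⟩ => ⟨l, vc_scale hη hl⟩)
  · have := mul_le_mul_of_nonneg_left hB.wx hη.le
    nlinarith
  · have := mul_le_mul_of_nonneg_left hB.wy hη.le
    nlinarith
  · nlinarith
  · nlinarith
  · intro s hs h1 h2 h3 h4
    apply hreg s hs
    · rw [X_scale hη.ne', lt_inv_iff' hη]; exact h1
    · rw [X_scale hη.ne', inv_lt_iff' hη]; exact h2
    · rw [Y_scale hη.ne', le_inv_iff' hη, mul_sub]; exact h3
    · rw [Y_scale hη.ne', inv_le_iff' hη, mul_add]; exact h4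

/-- the same probability for the white sites -/
theorem white_pr {E : Finset ℂ → Prop} {p : ℝ} (h : p ≤ pr V E) : p ≤ pr V fun τ => E (V \ τ) := by
  rw [pr_flip]; exact h

/-- two increasing events -/
theorem two_up {A B : Finset ℂ → Prop} {p q : ℝ} (_hp : 0 ≤ p) (hq : 0 ≤ q) (hA : Up V A)
    (hB : Up V B) (h1 : p ≤ pr V A) (h2 : q ≤ pr V B) : p * q ≤ pr V fun β => A β ∧ B β :=
  (mul_le_mul h1 h2 hq pr_nonneg).trans (harris_up hA hB)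

/-- two decreasing events -/
theorem two_dn {A B : Finset ℂ → Prop} {p q : ℝ} (_hp : 0 ≤ p) (hq : 0 ≤ q) (hA : Dn V A)
    (hB : Dn V B) (h1 : p ≤ pr V A) (h2 : q ≤ pr V B) : p * q ≤ pr V fun β => A β ∧ B β :=
  (mul_le_mul h1 h2 hq pr_nonneg).trans (harris_dn hA hB)

end Crest.Agent.R143.LanePrx73
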