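import Crest.Agent.R143.RH_73
import Crest.Agent.R143.TplI_204
import Crest.Agent.R143.LanePr_73

/-!
# Row 143, CORE-C, box R1d: half events of a gate, literal form (helper73)

* `HX_mv` : rigid motions
* `hf_scale` : the frame `(z0, η e)`
* `gd_gen` : configuration form of `RHx73.gd_of_hx`
* `hx_cut` : from the full configuration to the cut configuration
* `g0`, `ZR`, `ZL`, `Q0`, `KBR`, `KWR`, `KBL`, `KWL`, `CR`, `CL`, `net` : the numbers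
* `RH`, `LH` : **right and left half event of the gate in standard position**; `RH_fm`, `RH_local`, ..
* `gdR`, `gdL` : quenched half events of the gate and of the next gate give `Gd` of `Theta_73`
* `rh_of`, `lh_of` : from the full configuration
-/

set_option autoImplicit false

noncomputable section

open scoped Classical

namespace Crest.Agent.R143.Halfx73

open Set MeasureTheory
open Crest.Agent.R143.B0x346 Crest.Agent.R143.DelGx806 Crest.Agent.R143.DelRx806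
open Crest.Agent.R143.ToolWx838 Crest.Agent.R143.Blkx838
open Crest.Agent.R143.Gatex838 Crest.Agent.R143.Harx315
open Crest.Agent.R143.Neckx921 (Neck NeckD Tile Lk)
open Crest.Agent.R143.Thetax73 (Su Gd)
open Crest.Agent.R143.WLocx713
open Crest.Agent.R143.Locx922
open Crest.Agent.R143.PP0x831 Crest.Agent.R143.Poisx304 Crest.Agent.R143.Janx304
open Crest.Agent.R143.Prodx609 Crest.Agent.R143.FinMx609 Crest.Agent.R143.FinM2x609
open Crest.Agent.R143.IndLocx279 Crest.Agent.R143.IndLoc3x279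
open Crest.Agent.R143.PWx978 (Cf fm_inter localOn_of)
open Crest.Agent.R143.Fairx653 Crest.Agent.R143.RHx73
open Crest.Agent.R143.TplIx204 Crest.Agent.R143.PthFx765 Crest.Agent.R143.TileRx228
open scoped ENNReal

variable {S S' A : Finset ℂ} {z0 e : ℂ} {l0 l1 p0 p1 m : ℝ} {K P : Set ℂ}

/-! ## rigid motions -/

section mv

variable {φ : ℂ ≃ ℂ} {c : ℂ} {X : Cf}

theorem vc_mv (hX : X.Finite) (h : CovBx126.Mo φ c) {A' : Finset ℂ}
    (hAA : ∀ s ∈ A, φ s ∈ A') {l : List ℂ} (hl : VC (sX X) z0 e l0 l1 p0 p1 m A l) :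
    VC (sX (mvX φ X)) (φ z0) (c * e) l0 l1 p0 p1 m A' (l.map φ) := by
  have hX' : (mvX φ X).Finite := hX.image _
  have hne : l.map φ ≠ [] := by simpa using hl.ne
  refine ⟨hne, iso_adj hX hX' (piso_mv h) hl.adj, ?_, ?_, ?_, ?_, ?_⟩
  · intro s' hs'
    obtain ⟨s, hs, rfl⟩ := List.mem_map.1 hs'
    exact hAA s (hl.col s hs)
  · intro s' hs'
    obtain ⟨s, hs, rfl⟩ := List.mem_map.1 hs'
    rw [WLocx713.X_mv h]
    exact hl.strip s hs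
  · intro s' hs'
    obtain ⟨s, hs, rfl⟩ := List.mem_map.1 hs'
    rw [WLocx713.Y_mv h]
    exact hl.loc s hs
  · rw [List.head_map, WLocx713.Y_mv h]
    exact hl.left
  · rw [List.getLast_map, WLocx713.Y_mv h]
    exact hl.right

theorem hf_mv (hX : X.Finite) (h : CovBx126.Mo φ c) {A' : Finset ℂ} {K' P' : Set ℂ}
    (hA : ∀ s ∈ A, s ∈ ps X) (hAA : ∀ s ∈ A, φ s ∈ A') (hK : ∀ s ∈ K, φ s ∈ K')
    (hP : ∀ y' ∈ P', ∃ y ∈ P, φ y = y') (hf : Hf (sX X) z0 e l0 l1 p0 p1 m K P A) :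
    Hf (sX (mvX φ X)) (φ z0) (c * e) l0 l1 p0 p1 m K' P' A' := by
  obtain ⟨l, h1, h2⟩ := hf
  refine ⟨l.map φ, vc_mv hX h hAA h1, ?_⟩
  intro y' hy' s' hs'
  obtain ⟨y, hy, rfl⟩ := hP y' hy'
  obtain ⟨s, hs, rfl⟩ := List.mem_map.1 hs'
  exact iso_lkA hX (hX.image _) (piso_mv h) (B := {v | v ∈ A ∧ v ∈ K})
    (B' := {v | v ∈ A' ∧ v ∈ K'}) (fun s hs => hA s hs.1)
    (fun s _ h3 => ⟨hAA s h3.1, hK s h3.2⟩) (h2 y hy s hs)

theorem dg_mv (h : CovBx126.Mo φ c) {F : Finset ℂ} {r : ℝ} {T : Set ℂ} (hD : Dg F r T) :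
    Dg (F.image φ) r (φ '' T) := by
  intro z' hz'
  obtain ⟨z, hz, rfl⟩ := Finset.mem_image.1 hz'
  obtain ⟨s, hs, h1⟩ := hD z hz
  refine ⟨φ s, ⟨s, hs, rfl⟩, ?_⟩
  rw [h.sub, norm_mul, h.ne, one_mul]
  exact h1

/-- **rigid motions move half events** -/
theorem HX_mv (h : CovBx126.Mo φ c) {g : GPar} {Z : LZ} {Q Q' Kb Kb' Kw Kw' : Set ℂ}
    {F : Finset ℂ} {r : ℝ} (hQ : ∀ s, φ s ∈ Q' ↔ s ∈ Q) (hb : ∀ s ∈ Kb, φ s ∈ Kb')
    (hw : ∀ s ∈ Kw, φ s ∈ Kw') (hx : HX g Z Q Kb Kw F r X) :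
    HX (g.mv φ c) Z Q' Kb' Kw' (F.image φ) r (mvX φ X) := by
  obtain ⟨⟨hX, h1⟩, h2, h3⟩ := hx
  have hX' : (mvX φ X).Finite := hX.image _
  have key : ∀ p', LG (g.mv φ c) Q' (mvX φ X) p' → ∃ p, LG g Q X p ∧ mp φ p = p' := by
    rintro ⟨u', v'⟩ hp
    obtain ⟨u, rfl⟩ := φ.surjective u'
    obtain ⟨v, rfl⟩ := φ.surjective v'
    exact ⟨(u, v), (LG_mv h g hQ (u, v)).1 hp, rfl⟩
  refine ⟨⟨hX', by rw [ps_mvX]; exact dg_mv h h1⟩, ?_, ?_⟩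
  · refine hf_mv hX h (fun s hs => ((mem_bX hX).1 hs).1) (fun s hs => ?_) hb ?_ h2
    · exact (iso_bX hX hX' (piso_mv h) ((mem_bX hX).1 hs).1).1 hs
    · rintro y' ⟨p', hp', rfl⟩
      obtain ⟨p, hp, rfl⟩ := key p' hp'
      exact ⟨p.1, ⟨p, hp, rfl⟩, rfl⟩
  · refine hf_mv hX h (fun s hs => (mem_sX hX).1 (Finset.mem_sdiff.1 hs).1) (fun s hs => ?_) hw ?_ h3
    · change s ∈ sX X \ bX X at hs
      show φ s ∈ sX (mvX φ X) \ bX (mvX φ X)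
      rw [Finset.mem_sdiff] at hs ⊢
      have hs' := (mem_sX hX).1 hs.1
      rw [← iso_sX hX hX' (piso_mv h) hs', ← iso_bX hX hX' (piso_mv h) hs']
      exact hs
    · rintro y' ⟨p', hp', rfl⟩
      obtain ⟨p, hp, rfl⟩ := key p' hp'
      exact ⟨p.2, ⟨p, hp, rfl⟩, rfl⟩

end mv

/-! ## scaled frame -/

theorem hf_scale {η : ℝ} (hη : 0 < η)
    (h : Hf S z0 e (η * l0) (η * l1) (η * p0) (η * p1) (η * m) K P A) :
    Hf S z0 ((η : ℂ) * e) l0 l1 p0 p1 m K P A := by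
  obtain ⟨l, h1, h2⟩ := h
  exact ⟨l, LanePrx73.vc_scale hη h1, h2⟩

/-! ## configuration form -/

theorem sX_sx (X : Cf) : sX X = sx X := rfl

theorem bX_bk {X : Cf} (hX : X.Finite) : bX X = bk X := by
  ext v
  have h2 : {z | (z, true) ∈ X}.Finite :=
    (hX.image (Prod.fst : ℂ × Bool → ℂ)).subset fun z hz => ⟨(z, true), hz, rfl⟩
  rw [mem_bX hX, bk, mem_fs h2, cX]
  constructor
  · rintro ⟨_, h⟩
    by_contra h3
    rw [if_neg (show ¬ (v, true) ∈ X from h3)] at h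
    exact absurd h (by decide)
  · intro h
    exact ⟨⟨(v, true), h, rfl⟩, if_pos h⟩

theorem mem_sx {X : Cf} (hX : X.Finite) {v : ℂ} : v ∈ sx X ↔ v ∈ ps X := mem_sX hX

theorem mem_bk {X : Cf} (hX : X.Finite) {v : ℂ} : v ∈ bk X ↔ (v, true) ∈ X := by
  have h2 : {z | (z, true) ∈ X}.Finite :=
    (hX.image (Prod.fst : ℂ × Bool → ℂ)).subset fun z hz => ⟨(z, true), hz, rfl⟩
  rw [bk, mem_fs h2]
  rfl

/-- sites of `X` in `Q` -/
def gS (X : Cf) (Q : Set ℂ) : Finset ℂ := (sx X).filter (· ∈ Q)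

/-- black sites of `X` in `Q` -/
def gB (X : Cf) (Q : Set ℂ) : Finset ℂ := (bk X).filter (· ∈ Q)

theorem gB_sub {X : Cf} (hX : X.Finite) (Q : Set ℂ) : gB X Q ⊆ gS X Q :=
  Finset.filter_subset_filter _ (bk_sub hX)

theorem inter_gS {X : Cf} (hX : X.Finite) (hc : Sc X) (Q : Set ℂ) :
    X ∩ ovr Q = clr (gS X Q) (gB X Q) := by
  ext ⟨v, c⟩
  have h := Set.ext_iff.1 (eq_clr hX hc) (v, c)
  rw [mem_clr] at h ⊢
  unfold gS gB
  simp only [Finset.mem_filter, mem_inter_iff]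
  rw [h]
  change (_ ∧ _) ∧ v ∈ Q ↔ _
  tauto

/-- the configuration in `Q ∪ C1` of `S ∪ clr T τ` -/
theorem cut_eq {X : Cf} (hX : X.Finite) (hc : Sc X) {Q C1 : Set ℂ} {T τ : Finset ℂ}
    (hXC : ∀ s ∈ ps X, s ∉ C1) (hTQ : ∀ s ∈ T, s ∉ Q) (hτ : τ ⊆ T) :
    (X ∪ clr T τ) ∩ ovr (Q ∪ C1) =
      clr (gS X Q ∪ T.filter (· ∈ C1)) (gB X Q ∪ (τ ∩ T.filter (· ∈ C1))) := by
  have h0 := inter_gS hX hc Q
  ext ⟨v, c⟩
  have hv := Set.ext_iff.1 h0 (v, c)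
  rw [mem_clr] at hv ⊢
  have a1 : v ∈ gS X Q → v ∈ Q := fun h => (Finset.mem_filter.1 h).2
  have a2 : v ∈ gB X Q → v ∈ gS X Q := fun h => gB_sub hX Q h
  have a3 : v ∈ T → v ∉ Q := hTQ v
  have a4 : v ∈ τ → v ∈ T := fun h => hτ h
  have a5 : (v, c) ∈ X → v ∉ C1 := fun h => hXC v ⟨(v, c), h, rfl⟩
  simp only [ovr, mem_inter_iff, mem_union, mem_ofPred_eq, Finset.mem_union,
    Finset.mem_filter, Finset.mem_inter, mem_clr] at hv ⊢
  constructor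
  · rintro ⟨h2 | h2, h3⟩
    · rcases h3 with h3 | h3
      · obtain ⟨b1, b2⟩ := hv.1 ⟨h2, h3⟩
        refine ⟨Or.inl b1, b2.trans ⟨Or.inl, ?_⟩⟩
        rintro (h | h)
        · exact h
        · exact absurd h3 (a3 (a4 h.1))
      · exact absurd h3 (a5 h2)
    · rcases h3 with h3 | h3
      · exact absurd h3 (a3 h2.1)
      · refine ⟨Or.inr ⟨h2.1, h3⟩, h2.2.trans ⟨fun h => Or.inr ⟨h, h2.1, h3⟩, ?_⟩⟩
        rintro (h | h)
        · exact absurd (a1 (a2 h)) (a3 h2.1)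
        · exact h.1
  · rintro ⟨h2 | h2, h3⟩
    · have h5 := hv.2 ⟨h2, h3.trans ⟨?_, Or.inl⟩⟩
      · exact ⟨Or.inl h5.1, Or.inl h5.2⟩
      · rintro (h | h)
        · exact h
        · exact absurd (a1 h2) (a3 (a4 h.1))
    · refine ⟨Or.inr ⟨h2.1, h3.trans ⟨?_, fun h => Or.inr ⟨h, h2⟩⟩⟩, Or.inr h2.2⟩
      rintro (h | h)
      · exact absurd (a1 (a2 h)) (a3 h2.1)
      · exact h.1

/-- **quenched half event gives `Gd`**, configuration form: `X` outside the tube, `T` sites of the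
tube, `M` all sites -/
theorem gd_gen {g : GPar} {Z : LZ} {Q Kb Kw C1 : Set ℂ} {F : Finset ℂ} {r a d : ℝ} {X : Cf}
    {T : Finset ℂ} (hX : X.Finite) (hc : Sc X) (hXC : ∀ s ∈ ps X, s ∉ C1)
    (hTQ : ∀ s ∈ T, s ∉ Q) (hd : 0 < d)
    (hF : ∀ w ∈ Kb ∪ Kw, ∀ z, ‖z - w‖ ≤ d → ∃ f ∈ F, ‖f - z‖ ≤ d - r)
    (hK : ∀ w ∈ Kb ∪ Kw, ∀ s, ‖s - w‖ < 2 * d → s ∈ Q ∪ C1)
    (zb : Zn g.z0 g.e Z.l0 Z.l1 Z.p0 Z.p1 Z.m ⊆ Kb) (zw : Zn g.z0 g.e Z.l0 Z.l1 Z.q0 Z.q1 Z.m ⊆ Kw)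
    (h : a ≤ pr T fun τ => HX g Z Q Kb Kw F r ((X ∪ clr T τ) ∩ ovr (Q ∪ C1))) :
    Gd (gS X Q) T (Hf (sx X ∪ T) g.z0 g.e Z.l0 Z.l1 Z.q0 Z.q1 Z.m Kw
        (Pw g Q (clr (gS X Q) (gB X Q))))
      (Hf (sx X ∪ T) g.z0 g.e Z.l0 Z.l1 Z.p0 Z.p1 Z.m Kb (Pb g Q (clr (gS X Q) (gB X Q)))) a
      (gB X Q) := by
  refine gd_of_hx (T1 := T.filter (· ∈ C1)) (F := F) (r := r) (d := d)
    (fun s hs => (Finset.mem_filter.1 hs).2) hTQ (gB_sub hX Q) (Finset.filter_subset _ _) hd hF ?_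
    zb zw ?_
  · intro w hw s hs
    have h1 := hK w hw s hs
    simp only [gS, Finset.coe_union, mem_union, Finset.mem_coe, Finset.mem_filter]
    constructor
    · rintro (h2 | h2)
      · exact Or.inl h2.1
      · exact Or.inr h2.1
    · rintro (h2 | h2)
      · refine Or.inl ⟨h2, h1.resolve_right fun h3 => hXC s ((mem_sx hX).1 h2) h3⟩
      · exact Or.inr ⟨h2, h1.resolve_left (hTQ s h2)⟩
  · refine h.trans (pr_mono fun τ hτ h1 => ?_)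
    rwa [cut_eq hX hc hXC hTQ hτ] at h1

/-- **from the full configuration to the cut configuration** -/
theorem hx_cut {g : GPar} {Z : LZ} {Q Kb Kw D1 : Set ℂ} {F : Finset ℂ} {r d : ℝ} {X : Cf}
    (hX : X.Finite) (hd : 0 < d) (hH : Hol (ps X) (Kb ∪ Kw) d) (hQ : Q ⊆ D1)
    (hK : ∀ w ∈ Kb ∪ Kw, ∀ s, ‖s - w‖ < 2 * d → s ∈ D1)
    (hF : ∀ f ∈ F, ∀ s, ‖s - f‖ < r → s ∈ D1) (hD : Dg F r (ps X))
    (zb : Zn g.z0 g.e Z.l0 Z.l1 Z.p0 Z.p1 Z.m ⊆ Kb) (zw : Zn g.z0 g.e Z.l0 Z.l1 Z.q0 Z.q1 Z.m ⊆ Kw)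
    (h1 : Hf (sX X) g.z0 g.e Z.l0 Z.l1 Z.p0 Z.p1 Z.m Kb (Pb g Q X) (bX X))
    (h2 : Hf (sX X) g.z0 g.e Z.l0 Z.l1 Z.q0 Z.q1 Z.m Kw (Pw g Q X) (wX X)) :
    HX g Z Q Kb Kw F r (X ∩ ovr D1) := by
  have hY : (X ∩ ovr D1).Finite := hX.subset inter_subset_left
  have hc : (sX (X ∩ ovr D1) : Set ℂ) = ps X ∩ D1 := by rw [coe_sX hY, ps_inter]
  have hA : Agr (sX X : Set ℂ) (sX (X ∩ ovr D1) : Set ℂ) (Kb ∪ Kw) (2 * d) := by
    intro w hw s hs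
    rw [hc, coe_sX hX]
    exact ⟨fun h => ⟨h, hK w hw s hs⟩, fun h => h.1⟩
  have hwR : ∀ s ∈ Kb ∪ Kw, s ∈ D1 := fun s hs => hK s hs s (by simpa using hd)
  have hH' : Hol (sX X : Set ℂ) (Kb ∪ Kw) d := by rw [coe_sX hX]; exact hH
  have eb : {y | ∃ p, LG g Q (X ∩ ovr D1) p ∧ p.1 = y} = Pb g Q X := by
    unfold Pb
    simp only [LG_cut hQ]
  have ew : {y | ∃ p, LG g Q (X ∩ ovr D1) p ∧ p.2 = y} = Pw g Q X := by
    unfold Pw
    simp only [LG_cut hQ]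
  refine ⟨⟨hY, ?_⟩, ?_, ?_⟩
  · intro f hf
    obtain ⟨s, hs, h3⟩ := hD f hf
    exact ⟨s, by rw [ps_inter]; exact ⟨hs, hF f hf s h3⟩, h3⟩
  · rw [eb]
    set W := (sX X).filter (· ∈ Kb) with hW
    have h3 := Hf.su (U := bX X) (W := W) (K := Kb) (P := Pb g Q X) (S := sX X) (z0 := g.z0)
      (e := g.e) (l0 := Z.l0) (l1 := Z.l1) (p0 := Z.p0) (p1 := Z.p1) (m := Z.m)
      (fun s hs hk => Finset.mem_filter.2 ⟨(Finset.mem_filter.1 hs).1, hk⟩)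
      (fun s hs a1 a2 a3 a4 => Finset.mem_filter.2 ⟨(Finset.mem_filter.1 hs).1,
        zb ⟨⟨a1, a2⟩, a3, a4⟩⟩) (bX X) subset_rfl h1
    refine Hf.up hd (hH'.mono subset_union_left) (fun w hw => hA w (Or.inl hw)) ?_
      (fun s _ a1 a2 a3 a4 => zb ⟨⟨a1, a2⟩, a3, a4⟩) h3
    intro s hs
    rw [Finset.mem_inter, hW, Finset.mem_filter] at hs
    have hs3 := hwR s (Or.inl hs.2.2)
    rw [mem_bX hY, ps_inter, cX_inter hs3]
    have := (mem_bX hX).1 hs.1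
    exact ⟨⟨this.1, hs3⟩, this.2⟩
  · rw [ew]
    set W := (sX X).filter (· ∈ Kw) with hW
    have h3 := Hf.su (U := wX X) (W := W) (K := Kw) (P := Pw g Q X) (S := sX X) (z0 := g.z0)
      (e := g.e) (l0 := Z.l0) (l1 := Z.l1) (p0 := Z.q0) (p1 := Z.q1) (m := Z.m)
      (fun s hs hk => Finset.mem_filter.2 ⟨(Finset.mem_sdiff.1 hs).1, hk⟩)
      (fun s hs a1 a2 a3 a4 => Finset.mem_filter.2 ⟨(Finset.mem_sdiff.1 hs).1,
        zw ⟨⟨a1, a2⟩, a3, a4⟩⟩) (wX X) subset_rfl h2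
    refine Hf.up hd (hH'.mono subset_union_right) (fun w hw => hA w (Or.inr hw)) ?_
      (fun s _ a1 a2 a3 a4 => zw ⟨⟨a1, a2⟩, a3, a4⟩) h3
    intro s hs
    rw [Finset.mem_inter, hW, Finset.mem_filter] at hs
    have hs3 := hwR s (Or.inr hs.2.2)
    have h4 : s ∈ sX X \ bX X := hs.1
    show s ∈ sX (X ∩ ovr D1) \ bX (X ∩ ovr D1)
    rw [Finset.mem_sdiff] at h4 ⊢
    rw [mem_sX hY, mem_bX hY, ps_inter, cX_inter hs3]
    rw [mem_sX hX, mem_bX hX] at h4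
    exact ⟨⟨h4.1, hs3⟩, fun h5 => h4.2 ⟨h4.1, h5.2⟩⟩

/-! ## the numbers -/

/-- the gate in standard position, unit `η` -/
def g0 (η : ℝ) : GPar := ⟨0, 1, -η, η, -(9 * η), 10 * η, η⟩

/-- right landing zone -/
def ZR (η : ℝ) : LZ :=
  ⟨η * 10, η * (101 / 10), η * -8, η * -(47 / 10), η * 2, η * 8, η * (1 / 20)⟩

/-- left landing zone -/
def ZL (η : ℝ) : LZ :=
  ⟨η * -(101 / 10), η * -10, η * -8, η * -(47 / 10), η * 2, η * 8, η * (1 / 20)⟩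

/-- gate box -/
def Q0 (η : ℝ) : Set ℂ := {z | |z.re| < 2 * η ∧ |z.im| < 12 * η}

/-- right landing box -/
def CR (η : ℝ) : Set ℂ := {z | (2 * η ≤ z.re ∧ z.re < 13 * η) ∧ |z.im| < 12 * η}

/-- left landing box -/
def CL (η : ℝ) : Set ℂ := {z | (-(13 * η) < z.re ∧ z.re ≤ -(2 * η)) ∧ |z.im| < 12 * η}

/-- region of the black links, right -/
def KBR (η : ℝ) : Set ℂ :=
  {z | (-η < z.re ∧ z.re < 11 * η) ∧ |z.im| < 9 * η ∧ (2 * η ≤ z.re → z.im < η)}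

/-- region of the white links, right -/
def KWR (η : ℝ) : Set ℂ :=
  {z | (-η < z.re ∧ z.re < 11 * η) ∧ |z.im| < 9 * η ∧ (2 * η ≤ z.re → η < z.im)}

/-- region of the black links, left -/
def KBL (η : ℝ) : Set ℂ :=
  {z | (-(11 * η) < z.re ∧ z.re < η) ∧ |z.im| < 9 * η ∧ (z.re ≤ -(2 * η) → z.im < η)}

/-- region of the white links, left -/
def KWL (η : ℝ) : Set ℂ :=
  {z | (-(11 * η) < z.re ∧ z.re < η) ∧ |z.im| < 9 * η ∧ (z.re ≤ -(2 * η) → η < z.im)}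

theorem WQ_Q0 (η h : ℝ) : WQ (12 * η) (h / 2 + 2 * η) h = Q0 η := by
  unfold WQ Q0
  simp only [add_sub_cancel_left]

/-- box -/
def Bx (x0 x1 y0 y1 : ℝ) : Set ℂ := {z | (x0 ≤ z.re ∧ z.re ≤ x1) ∧ y0 ≤ z.im ∧ z.im ≤ y1}

theorem bx_bdd (x0 x1 y0 y1 : ℝ) : Bornology.IsBounded (Bx x0 x1 y0 y1) := by
  refine (Metric.isBounded_closedBall (x := (0 : ℂ)) (r := |x0| + |x1| + (|y0| + |y1|))).subset ?_
  rintro z ⟨⟨h1, h2⟩, h3, h4⟩
  rw [mem_closedBall_zero_iff]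
  have h5 : |z.re| ≤ |x0| + |x1| := by
    rw [abs_le]
    have := neg_abs_le x0
    have := le_abs_self x1
    have := abs_nonneg x0
    have := abs_nonneg x1
    constructor <;> linarith
  have h6 : |z.im| ≤ |y0| + |y1| := by
    rw [abs_le]
    have := neg_abs_le y0
    have := le_abs_self y1
    have := abs_nonneg y0
    have := abs_nonneg y1
    constructor <;> linarith
  have h7 := Complex.norm_le_abs_re_add_abs_im z
  linarith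

/-- closed neighbourhood -/
def nbh (W : Set ℂ) (d : ℝ) : Set ℂ := {z | ∃ w ∈ W, ‖z - w‖ ≤ d}

theorem nbh_bdd {W : Set ℂ} (hW : Bornology.IsBounded W) (d : ℝ) :
    Bornology.IsBounded (nbh W d) := by
  obtain ⟨R, hR⟩ := hW.subset_closedBall 0
  refine (Metric.isBounded_closedBall (x := (0 : ℂ)) (r := R + d)).subset ?_
  rintro z ⟨w, hw, h⟩
  have h1 := hR hw
  rw [mem_closedBall_zero_iff] at h1 ⊢
  calc ‖z‖ = ‖w + (z - w)‖ := by rw [add_sub_cancel]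
    _ ≤ ‖w‖ + ‖z - w‖ := norm_add_le _ _
    _ ≤ R + d := add_le_add h1 h

theorem net_ex {W : Set ℂ} (hW : Bornology.IsBounded W) {d : ℝ} (hd : 0 < d) :
    ∃ F : Finset ℂ, (∀ z ∈ nbh W d, ∃ f ∈ F, ‖f - z‖ ≤ d / 2) ∧ ∀ f ∈ F, f ∈ nbh W d := by
  have h1 : TotallyBounded (nbh W d) :=
    (nbh_bdd hW d).isCompact_closure.totallyBounded.subset subset_closure
  obtain ⟨t, hf, h2⟩ := Metric.totallyBounded_iff.1 h1 (d / 4) (by positivity)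
  -- replace the centres by points of the set
  set T := hf.toFinset with hT
  set F : Finset ℂ := T.image fun y => if h : ∃ z ∈ nbh W d, z ∈ Metric.ball y (d / 4)
    then h.choose else y with hF
  refine ⟨F.filter (· ∈ nbh W d), fun z hz => ?_, fun f hf => (Finset.mem_filter.1 hf).2⟩
  obtain ⟨y, hy, hzy⟩ := mem_iUnion₂.1 (h2 hz)
  have hex : ∃ z ∈ nbh W d, z ∈ Metric.ball y (d / 4) := ⟨z, hz, hzy⟩
  refine ⟨hex.choose, Finset.mem_filter.2 ⟨Finset.mem_image.2 ⟨y, hf.mem_toFinset.2 hy, ?_⟩,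
    hex.choose_spec.1⟩, ?_⟩
  · rw [dif_pos hex]
  · have h3 := hex.choose_spec.2
    rw [Metric.mem_ball, dist_eq_norm] at h3 hzy
    calc ‖hex.choose - z‖ = ‖(hex.choose - y) - (z - y)‖ := by ring_nf
      _ ≤ ‖hex.choose - y‖ + ‖z - y‖ := norm_sub_le _ _
      _ ≤ d / 2 := by linarith

/-- a net of the closed neighbourhood -/
def net (W : Set ℂ) (d : ℝ) : Finset ℂ :=
  if h : ∃ F : Finset ℂ, (∀ z ∈ nbh W d, ∃ f ∈ F, ‖f - z‖ ≤ d / 2) ∧ ∀ f ∈ F, f ∈ nbh W d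
  then h.choose else ∅

theorem net_near {W : Set ℂ} (hW : Bornology.IsBounded W) {d : ℝ} (hd : 0 < d) :
    ∀ w ∈ W, ∀ z, ‖z - w‖ ≤ d → ∃ f ∈ net W d, ‖f - z‖ ≤ d - d / 2 := by
  intro w hw z hz
  have h := net_ex hW hd
  unfold net
  rw [dif_pos h, sub_half]
  exact h.choose_spec.1 z ⟨w, hw, hz⟩

theorem net_mem {W : Set ℂ} (hW : Bornology.IsBounded W) {d : ℝ} (hd : 0 < d) {f : ℂ}
    (hf : f ∈ net W d) : f ∈ nbh W d := by
  have h := net_ex hW hd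
  unfold net at hf
  rw [dif_pos h] at hf
  exact h.choose_spec.2 f hf

/-! ## the literal half events -/

/-- **right half event** -/
def RH (η d : ℝ) (X : Cf) : Prop :=
  HX (g0 η) (ZR η) (Q0 η) (KBR η) (KWR η) (net (KBR η ∪ KWR η) d) (d / 2)
    (X ∩ ovr (Q0 η ∪ CR η))

/-- **left half event** -/
def LH (η d : ℝ) (X : Cf) : Prop :=
  HX (g0 η) (ZL η) (Q0 η) (KBL η) (KWL η) (net (KBL η ∪ KWL η) d) (d / 2)
    (X ∩ ovr (Q0 η ∪ CL η))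

variable {η d : ℝ}

theorem meas_re : Measurable fun z : ℂ => z.re := Complex.measurable_re
theorem meas_im : Measurable fun z : ℂ => z.im := Complex.measurable_im

theorem Q0_meas : MeasurableSet (Q0 η) :=
  (measurableSet_lt meas_re.abs measurable_const).inter (measurableSet_lt meas_im.abs measurable_const)

theorem CR_meas : MeasurableSet (CR η) :=
  ((measurableSet_le measurable_const meas_re).inter (measurableSet_lt meas_re measurable_const)).inter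
    (measurableSet_lt meas_im.abs measurable_const)

theorem CL_meas : MeasurableSet (CL η) :=
  ((measurableSet_lt measurable_const meas_re).inter (measurableSet_le meas_re measurable_const)).inter
    (measurableSet_lt meas_im.abs measurable_const)

theorem imp_meas {p q : ℂ → Prop} (hp : MeasurableSet {z | p z}) (hq : MeasurableSet {z | q z}) :
    MeasurableSet {z | p z → q z} := by
  have e : {z : ℂ | p z → q z} = {z | p z}ᶜ ∪ {z | q z} := by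
    ext z
    simp only [mem_ofPred_eq, mem_union, mem_compl_iff]
    tauto
  rw [e]
  exact hp.compl.union hq

theorem KBR_meas : MeasurableSet (KBR η) :=
  ((measurableSet_lt measurable_const meas_re).inter (measurableSet_lt meas_re measurable_const)).inter
    ((measurableSet_lt meas_im.abs measurable_const).inter
      (imp_meas (measurableSet_le measurable_const meas_re) (measurableSet_lt meas_im measurable_const)))

theorem KWR_meas : MeasurableSet (KWR η) :=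
  ((measurableSet_lt measurable_const meas_re).inter (measurableSet_lt meas_re measurable_const)).inter
    ((measurableSet_lt meas_im.abs measurable_const).inter
      (imp_meas (measurableSet_le measurable_const meas_re) (measurableSet_lt measurable_const meas_im)))

theorem KBL_meas : MeasurableSet (KBL η) :=
  ((measurableSet_lt measurable_const meas_re).inter (measurableSet_lt meas_re measurable_const)).inter
    ((measurableSet_lt meas_im.abs measurable_const).inter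
      (imp_meas (measurableSet_le meas_re measurable_const) (measurableSet_lt meas_im measurable_const)))

theorem KWL_meas : MeasurableSet (KWL η) :=
  ((measurableSet_lt measurable_const meas_re).inter (measurableSet_lt meas_re measurable_const)).inter
    ((measurableSet_lt meas_im.abs measurable_const).inter
      (imp_meas (measurableSet_le meas_re measurable_const) (measurableSet_lt measurable_const meas_im)))

theorem Q0_bdd : Bornology.IsBounded (Q0 η) := by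
  refine (bx_bdd (-(2 * η)) (2 * η) (-(12 * η)) (12 * η)).subset ?_
  rintro z ⟨h1, h2⟩
  rw [abs_lt] at h1 h2
  exact ⟨⟨h1.1.le, h1.2.le⟩, h2.1.le, h2.2.le⟩

theorem CR_bdd : Bornology.IsBounded (CR η) := by
  refine (bx_bdd (2 * η) (13 * η) (-(12 * η)) (12 * η)).subset ?_
  rintro z ⟨h1, h2⟩
  rw [abs_lt] at h2
  exact ⟨⟨h1.1, h1.2.le⟩, h2.1.le, h2.2.le⟩

theorem CL_bdd : Bornology.IsBounded (CL η) := by
  refine (bx_bdd (-(13 * η)) (-(2 * η)) (-(12 * η)) (12 * η)).subset ?_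
  rintro z ⟨h1, h2⟩
  rw [abs_lt] at h2
  exact ⟨⟨h1.1.le, h1.2⟩, h2.1.le, h2.2.le⟩

theorem KR_sub : KBR η ∪ KWR η ⊆ Bx (-η) (11 * η) (-(9 * η)) (9 * η) := by
  rintro z (⟨h1, h2, _⟩ | ⟨h1, h2, _⟩) <;> rw [abs_lt] at h2 <;>
    exact ⟨⟨h1.1.le, h1.2.le⟩, h2.1.le, h2.2.le⟩

theorem KL_sub : KBL η ∪ KWL η ⊆ Bx (-(11 * η)) η (-(9 * η)) (9 * η) := by
  rintro z (⟨h1, h2, _⟩ | ⟨h1, h2, _⟩) <;> rw [abs_lt] at h2 <;>
    exact ⟨⟨h1.1.le, h1.2.le⟩, h2.1.le, h2.2.le⟩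

theorem KR_bdd : Bornology.IsBounded (KBR η ∪ KWR η) := (bx_bdd _ _ _ _).subset KR_sub

theorem KL_bdd : Bornology.IsBounded (KBL η ∪ KWL η) := (bx_bdd _ _ _ _).subset KL_sub

theorem HX_fm (g : GPar) (Z : LZ) {Q Kb Kw : Set ℂ} (hQ : MeasurableSet Q)
    (hb : MeasurableSet Kb) (hw : MeasurableSet Kw) (F : Finset ℂ) (r : ℝ) :
    FinMeas (HX g Z Q Kb Kw F r) := HX_fme g Z hQ hb hw F r

theorem RH_fm (η d : ℝ) : FinMeas (RH η d) :=
  fm_interP (HX_fm _ _ Q0_meas KBR_meas KWR_meas _ _) (Q0_meas.union CR_meas)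

theorem LH_fm (η d : ℝ) : FinMeas (LH η d) :=
  fm_interP (HX_fm _ _ Q0_meas KBL_meas KWL_meas _ _) (Q0_meas.union CL_meas)

theorem RH_local (η d : ℝ) : LocalOn (Q0 η ∪ CR η) (RH η d) := by
  refine localOn_of fun S T h => ?_
  unfold RH
  rw [h]

theorem LH_local (η d : ℝ) : LocalOn (Q0 η ∪ CL η) (LH η d) := by
  refine localOn_of fun S T h => ?_
  unfold LH
  rw [h]

/-! ## geometry of the regions -/

theorem X01 (s : ℂ) : X 0 1 s = s.re := by unfold X; simp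

theorem Y01 (s : ℂ) : Y 0 1 s = s.im := by unfold Y; simp

theorem zbR (_hη : 0 < η) : Zn (g0 η).z0 (g0 η).e (ZR η).l0 (ZR η).l1 (ZR η).p0 (ZR η).p1 (ZR η).m ⊆
    KBR η := by
  rintro s ⟨⟨h1, h2⟩, h3, h4⟩
  change η * 10 < X 0 1 s at h1
  change X 0 1 s < η * (101 / 10) at h2
  change η * -8 - η * (1 / 20) ≤ Y 0 1 s at h3
  change Y 0 1 s ≤ η * -(47 / 10) + η * (1 / 20) at h4
  rw [X01] at h1 h2
  rw [Y01] at h3 h4
  refine ⟨⟨by linarith, by linarith⟩, ?_, fun _ => by linarith⟩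
  rw [abs_lt]
  constructor <;> linarith

theorem zwR (_hη : 0 < η) : Zn (g0 η).z0 (g0 η).e (ZR η).l0 (ZR η).l1 (ZR η).q0 (ZR η).q1 (ZR η).m ⊆
    KWR η := by
  rintro s ⟨⟨h1, h2⟩, h3, h4⟩
  change η * 10 < X 0 1 s at h1
  change X 0 1 s < η * (101 / 10) at h2
  change η * 2 - η * (1 / 20) ≤ Y 0 1 s at h3
  change Y 0 1 s ≤ η * 8 + η * (1 / 20) at h4
  rw [X01] at h1 h2
  rw [Y01] at h3 h4
  refine ⟨⟨by linarith, by linarith⟩, ?_, fun _ => by linarith⟩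
  rw [abs_lt]
  constructor <;> linarith

theorem zbL (_hη : 0 < η) : Zn (g0 η).z0 (g0 η).e (ZL η).l0 (ZL η).l1 (ZL η).p0 (ZL η).p1 (ZL η).m ⊆
    KBL η := by
  rintro s ⟨⟨h1, h2⟩, h3, h4⟩
  change η * -(101 / 10) < X 0 1 s at h1
  change X 0 1 s < η * -10 at h2
  change η * -8 - η * (1 / 20) ≤ Y 0 1 s at h3
  change Y 0 1 s ≤ η * -(47 / 10) + η * (1 / 20) at h4
  rw [X01] at h1 h2
  rw [Y01] at h3 h4
  refine ⟨⟨by linarith, by linarith⟩, ?_, fun _ => by linarith⟩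
  rw [abs_lt]
  constructor <;> linarith

theorem zwL (_hη : 0 < η) : Zn (g0 η).z0 (g0 η).e (ZL η).l0 (ZL η).l1 (ZL η).q0 (ZL η).q1 (ZL η).m ⊆
    KWL η := by
  rintro s ⟨⟨h1, h2⟩, h3, h4⟩
  change η * -(101 / 10) < X 0 1 s at h1
  change X 0 1 s < η * -10 at h2
  change η * 2 - η * (1 / 20) ≤ Y 0 1 s at h3
  change Y 0 1 s ≤ η * 8 + η * (1 / 20) at h4
  rw [X01] at h1 h2
  rw [Y01] at h3 h4
  refine ⟨⟨by linarith, by linarith⟩, ?_, fun _ => by linarith⟩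
  rw [abs_lt]
  constructor <;> linarith

theorem bx_near {x0 x1 y0 y1 r : ℝ} {w s : ℂ} (hw : w ∈ Bx x0 x1 y0 y1) (hs : ‖s - w‖ ≤ r) :
    s ∈ Bx (x0 - r) (x1 + r) (y0 - r) (y1 + r) := by
  have h1 := (Complex.abs_re_le_norm (s - w)).trans hs
  have h2 := (Complex.abs_im_le_norm (s - w)).trans hs
  rw [Complex.sub_re, abs_le] at h1
  rw [Complex.sub_im, abs_le] at h2
  obtain ⟨⟨h3, h4⟩, h5, h6⟩ := hw
  exact ⟨⟨by linarith, by linarith⟩, by linarith, by linarith⟩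

theorem bx_mono {x0 x1 y0 y1 x0' x1' y0' y1' : ℝ} (h0 : x0' ≤ x0) (h1 : x1 ≤ x1') (h2 : y0' ≤ y0)
    (h3 : y1 ≤ y1') : Bx x0 x1 y0 y1 ⊆ Bx x0' x1' y0' y1' :=
  fun _ h => ⟨⟨h0.trans h.1.1, h.1.2.trans h1⟩, h2.trans h.2.1, h.2.2.trans h3⟩

/-- the right box is contained in `Q0 ∪ CR` -/
theorem bxR (hη : 0 < η) : Bx (-(3 / 2 * η)) (12 * η) (-(11 * η)) (11 * η) ⊆ Q0 η ∪ CR η := by
  rintro z ⟨⟨h1, h2⟩, h3, h4⟩
  have h5 : |z.im| < 12 * η := by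
    rw [abs_lt]
    constructor <;> linarith
  rcases lt_or_ge z.re (2 * η) with h | h
  · refine Or.inl ⟨?_, h5⟩
    rw [abs_lt]
    constructor <;> linarith
  · exact Or.inr ⟨⟨h, by linarith⟩, h5⟩

theorem bxL (hη : 0 < η) : Bx (-(12 * η)) (3 / 2 * η) (-(11 * η)) (11 * η) ⊆ Q0 η ∪ CL η := by
  rintro z ⟨⟨h1, h2⟩, h3, h4⟩
  have h5 : |z.im| < 12 * η := by
    rw [abs_lt]
    constructor <;> linarith
  rcases lt_or_ge (-(2 * η)) z.re with h | h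
  · refine Or.inl ⟨?_, h5⟩
    rw [abs_lt]
    constructor <;> linarith
  · exact Or.inr ⟨⟨by linarith, h⟩, h5⟩

/-- points near the right link regions -/
theorem nearR (hη : 0 < η) {w s : ℂ} (hw : w ∈ KBR η ∪ KWR η) (hs : ‖s - w‖ ≤ η / 2) :
    s ∈ Bx (-(3 / 2 * η)) (12 * η) (-(11 * η)) (11 * η) :=
  bx_mono (by linarith) (by linarith) (by linarith) (by linarith) (bx_near (KR_sub hw) hs)

theorem nearL (hη : 0 < η) {w s : ℂ} (hw : w ∈ KBL η ∪ KWL η) (hs : ‖s - w‖ ≤ η / 2) :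
    s ∈ Bx (-(12 * η)) (3 / 2 * η) (-(11 * η)) (11 * η) :=
  bx_mono (by linarith) (by linarith) (by linarith) (by linarith) (bx_near (KL_sub hw) hs)

/-! ## `Gd` for the literal half events -/

/-- **right half of the first gate** -/
theorem gdR {a : ℝ} (hη : 0 < η) (hd : 0 < d) (hdη : 4 * d ≤ η) {X : Cf} (hX : X.Finite)
    (hc : Sc X) {T : Finset ℂ} (hXC : ∀ s ∈ ps X, s ∉ CR η) (hTQ : ∀ s ∈ T, s ∉ Q0 η)
    (h : a ≤ pr T fun τ => RH η d (X ∪ clr T τ)) :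
    Gd (gS X (Q0 η)) T
      (Hf (sx X ∪ T) 0 (η : ℂ) 10 (101 / 10) 2 8 (1 / 20) (KWR η)
        (Pw (g0 η) (Q0 η) (clr (gS X (Q0 η)) (gB X (Q0 η)))))
      (Hf (sx X ∪ T) 0 (η : ℂ) 10 (101 / 10) (-8) (-(47 / 10)) (1 / 20) (KBR η)
        (Pb (g0 η) (Q0 η) (clr (gS X (Q0 η)) (gB X (Q0 η))))) a (gB X (Q0 η)) := by
  have h1 := gd_gen (g := g0 η) (Z := ZR η) (Q := Q0 η) (Kb := KBR η) (Kw := KWR η) (C1 := CR η)
    (F := net (KBR η ∪ KWR η) d) (r := d / 2) (a := a) (d := d) hX hc hXC hTQ hd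
    (net_near KR_bdd hd) (fun w hw s hs => bxR hη (nearR hη hw (by linarith))) (zbR hη) (zwR hη) h
  refine h1.trans (pr_mono fun τ _ h2 => ?_)
  refine ⟨?_, ?_⟩
  · have h3 := hf_scale (z0 := 0) (e := 1) hη h2.1
    rwa [mul_one] at h3
  · have h3 := hf_scale (z0 := 0) (e := 1) hη h2.2
    rwa [mul_one] at h3

/-- half events of a moved gate -/
theorem gd_mv {φ : ℂ ≃ ℂ} {c : ℂ} (h : CovBx126.Mo φ c) {g : GPar} {Z : LZ} {Q Kb Kw C1 : Set ℂ}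
    {F : Finset ℂ} {r a : ℝ} {X : Cf} {T : Finset ℂ} (hX : X.Finite) (hc : Sc X)
    (hXC : ∀ s ∈ ps X, φ.symm s ∉ C1) (hTQ : ∀ s ∈ T, φ.symm s ∉ Q) (hd : 0 < d)
    (hF : ∀ w ∈ Kb ∪ Kw, ∀ z, ‖z - w‖ ≤ d → ∃ f ∈ F, ‖f - z‖ ≤ d - r)
    (hK : ∀ w ∈ Kb ∪ Kw, ∀ s, ‖s - w‖ < 2 * d → s ∈ Q ∪ C1)
    (zb : Zn g.z0 g.e Z.l0 Z.l1 Z.p0 Z.p1 Z.m ⊆ Kb) (zw : Zn g.z0 g.e Z.l0 Z.l1 Z.q0 Z.q1 Z.m ⊆ Kw)
    (hh : a ≤ pr T fun τ => HX g Z Q Kb Kw F r (mvX φ.symm (X ∪ clr T τ) ∩ ovr (Q ∪ C1))) :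
    Gd (gS X (φ.symm ⁻¹' Q)) T
      (Hf (sx X ∪ T) (φ g.z0) (c * g.e) Z.l0 Z.l1 Z.q0 Z.q1 Z.m (φ.symm ⁻¹' Kw)
        (Pw (g.mv φ c) (φ.symm ⁻¹' Q) (clr (gS X (φ.symm ⁻¹' Q)) (gB X (φ.symm ⁻¹' Q)))))
      (Hf (sx X ∪ T) (φ g.z0) (c * g.e) Z.l0 Z.l1 Z.p0 Z.p1 Z.m (φ.symm ⁻¹' Kb)
        (Pb (g.mv φ c) (φ.symm ⁻¹' Q) (clr (gS X (φ.symm ⁻¹' Q)) (gB X (φ.symm ⁻¹' Q))))) a
      (gB X (φ.symm ⁻¹' Q)) := by
  have hiso : ∀ z w : ℂ, ‖φ z - φ w‖ = ‖z - w‖ := fun z w => by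
    rw [h.sub, norm_mul, h.ne, one_mul]
  have hzn : ∀ {p0 p1 : ℝ} {K : Set ℂ}, Zn g.z0 g.e Z.l0 Z.l1 p0 p1 Z.m ⊆ K →
      Zn (g.mv φ c).z0 (g.mv φ c).e Z.l0 Z.l1 p0 p1 Z.m ⊆ φ.symm ⁻¹' K := by
    intro p0 p1 K hK s hs
    obtain ⟨s, rfl⟩ := φ.surjective s
    obtain ⟨⟨h1, h2⟩, h3, h4⟩ := hs
    change Z.l0 < Gatex838.X (φ g.z0) (c * g.e) (φ s) at h1
    change Gatex838.X (φ g.z0) (c * g.e) (φ s) < Z.l1 at h2
    change p0 - Z.m ≤ Gatex838.Y (φ g.z0) (c * g.e) (φ s) at h3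
    change Gatex838.Y (φ g.z0) (c * g.e) (φ s) ≤ p1 + Z.m at h4
    rw [WLocx713.X_mv h] at h1 h2
    rw [WLocx713.Y_mv h] at h3 h4
    rw [mem_preimage, φ.symm_apply_apply]
    exact hK ⟨⟨h1, h2⟩, h3, h4⟩
  refine gd_gen (g := g.mv φ c) (Z := Z) (Q := φ.symm ⁻¹' Q) (Kb := φ.symm ⁻¹' Kb)
    (Kw := φ.symm ⁻¹' Kw) (C1 := φ.symm ⁻¹' C1) (F := F.image φ) (r := r) (d := d) hX hc hXC hTQ hd
    ?_ ?_ (hzn zb) (hzn zw) ?_
  · intro w hw z hz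
    obtain ⟨w, rfl⟩ := φ.surjective w
    obtain ⟨z, rfl⟩ := φ.surjective z
    rw [← preimage_union, mem_preimage, φ.symm_apply_apply] at hw
    rw [hiso] at hz
    obtain ⟨f, hf, h1⟩ := hF w hw z hz
    exact ⟨φ f, Finset.mem_image_of_mem _ hf, by rwa [hiso]⟩
  · intro w hw z hz
    obtain ⟨w, rfl⟩ := φ.surjective w
    obtain ⟨z, rfl⟩ := φ.surjective z
    rw [← preimage_union, mem_preimage, φ.symm_apply_apply] at hw
    rw [hiso] at hz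
    rw [← preimage_union, mem_preimage, φ.symm_apply_apply]
    exact hK w hw z hz
  · refine hh.trans (pr_mono fun τ _ h1 => ?_)
    have h2 := HX_mv h (Q' := φ.symm ⁻¹' Q) (Kb' := φ.symm ⁻¹' Kb) (Kw' := φ.symm ⁻¹' Kw)
      (fun s => by rw [mem_preimage, φ.symm_apply_apply])
      (fun s hs => by rwa [mem_preimage, φ.symm_apply_apply])
      (fun s hs => by rwa [mem_preimage, φ.symm_apply_apply]) h1
    have h3 : mvX φ (mvX φ.symm (X ∪ clr T τ) ∩ ovr (Q ∪ C1)) =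
        (X ∪ clr T τ) ∩ ovr (φ.symm ⁻¹' Q ∪ φ.symm ⁻¹' C1) := by
      rw [← mvX_inter (φ := φ) (Q := Q ∪ C1) (Q' := φ.symm ⁻¹' (Q ∪ C1))
        (fun s => by rw [mem_preimage, φ.symm_apply_apply]), preimage_union]
      congr 1
      have h4 := mvX_symm (φ := φ.symm) (X := X ∪ clr T τ)
      rwa [φ.symm_symm] at h4
    rwa [h3] at h2

/-- **left half of the next gate** -/
theorem gdL {a h : ℝ} {t : Tn} (hη : 0 < η) (hd : 0 < d) (hdη : 4 * d ≤ η) {X : Cf}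
    (hX : X.Finite) (hc : Sc X) {T : Finset ℂ}
    (hXC : ∀ s ∈ ps X, s ∉ (nxt h t).e.symm ⁻¹' CL η)
    (hTQ : ∀ s ∈ T, s ∉ (nxt h t).e.symm ⁻¹' Q0 η)
    (hh : a ≤ pr T fun τ => Tplx978.tr (nxt h t).e (LH η d) (X ∪ clr T τ)) :
    Gd (gS X ((nxt h t).e.symm ⁻¹' Q0 η)) T
      (Hf (sx X ∪ T) ((nxt h t).e 0) ((η : ℂ) * rot t) (-(101 / 10)) (-10) 2 8 (1 / 20)
        ((nxt h t).e.symm ⁻¹' KWL η)
        (Pw ((g0 η).mv (nxt h t).e (rot t)) ((nxt h t).e.symm ⁻¹' Q0 η)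
          (clr (gS X ((nxt h t).e.symm ⁻¹' Q0 η)) (gB X ((nxt h t).e.symm ⁻¹' Q0 η)))))
      (Hf (sx X ∪ T) ((nxt h t).e 0) ((η : ℂ) * rot t) (-(101 / 10)) (-10) (-8) (-(47 / 10)) (1 / 20)
        ((nxt h t).e.symm ⁻¹' KBL η)
        (Pb ((g0 η).mv (nxt h t).e (rot t)) ((nxt h t).e.symm ⁻¹' Q0 η)
          (clr (gS X ((nxt h t).e.symm ⁻¹' Q0 η)) (gB X ((nxt h t).e.symm ⁻¹' Q0 η))))) a
      (gB X ((nxt h t).e.symm ⁻¹' Q0 η)) := by
  have h1 := gd_mv (φ := (nxt h t).e.toEquiv) (c := rot t) (mo_nxt h t) (g := g0 η) (Z := ZL η)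
    (Q := Q0 η) (Kb := KBL η) (Kw := KWL η) (C1 := CL η) (F := net (KBL η ∪ KWL η) d) (r := d / 2)
    (a := a) (d := d) hX hc hXC hTQ hd (net_near KL_bdd hd)
    (fun w hw s hs => bxL hη (nearL hη hw (by linarith))) (zbL hη) (zwL hη) hh
  refine h1.trans (pr_mono fun τ _ h2 => ?_)
  refine ⟨?_, ?_⟩
  · have h3 := hf_scale (z0 := (nxt h t).e 0) (e := rot t * 1) hη h2.1
    rwa [mul_one] at h3
  · have h3 := hf_scale (z0 := (nxt h t).e 0) (e := rot t * 1) hη h2.2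
    rwa [mul_one] at h3

/-! ## from the full configuration -/

theorem vc_unscale {η x0 x1 y0 y1 : ℝ} (hη : 0 < η) {β : Finset ℂ} {l : List ℂ}
    (h : VC S z0 ((η : ℂ) * e) x0 x1 y0 y1 m β l) :
    VC S z0 e (η * x0) (η * x1) (η * y0) (η * y1) (η * m) β l := by
  refine ⟨h.ne, h.adj, h.col, fun s hs => ?_, fun s hs => ?_, ?_, ?_⟩
  · have := h.strip s hs
    rwa [LanePrx73.X_scale hη.ne', LanePrx73.lt_inv_iff' hη, LanePrx73.inv_lt_iff' hη] at this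
  · have := h.loc s hs
    rwa [LanePrx73.Y_scale hη.ne', LanePrx73.le_inv_iff' hη, LanePrx73.inv_le_iff' hη, mul_sub,
      mul_add] at this
  · have := h.left
    rwa [LanePrx73.Y_scale hη.ne', LanePrx73.inv_le_iff' hη] at this
  · have := h.right
    rwa [LanePrx73.Y_scale hη.ne', LanePrx73.le_inv_iff' hη] at this

theorem hf_unscale {η : ℝ} (hη : 0 < η) (h : Hf S z0 ((η : ℂ) * e) l0 l1 p0 p1 m K P A) :
    Hf S z0 e (η * l0) (η * l1) (η * p0) (η * p1) (η * m) K P A := by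
  obtain ⟨l, h1, h2⟩ := h
  exact ⟨l, vc_unscale hη h1, h2⟩

/-- **the right half event from the full configuration** -/
theorem rh_of (hη : 0 < η) (hd : 0 < d) (hdη : 4 * d ≤ η) {X : Cf} (hX : X.Finite)
    (hD : ∀ z ∈ Bx (-(2 * η)) (12 * η) (-(11 * η)) (11 * η), ∃ s ∈ ps X, ‖s - z‖ < d / 2)
    (hb : Hf (sX X) 0 (η : ℂ) 10 (101 / 10) (-8) (-(47 / 10)) (1 / 20) (KBR η)
      (Pb (g0 η) (Q0 η) X) (bX X))
    (hw : Hf (sX X) 0 (η : ℂ) 10 (101 / 10) 2 8 (1 / 20) (KWR η)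
      (Pw (g0 η) (Q0 η) X) (wX X)) : RH η d X := by
  have hn : ∀ {w s : ℂ}, w ∈ KBR η ∪ KWR η → ‖s - w‖ ≤ η / 2 →
      s ∈ Bx (-(2 * η)) (12 * η) (-(11 * η)) (11 * η) := fun hw hs =>
    bx_mono (by linarith) le_rfl le_rfl le_rfl (nearR hη hw hs)
  refine hx_cut (d := d) hX hd ?_ subset_union_left
    (fun w hw s hs => bxR hη (nearR hη hw (by linarith))) ?_ ?_ (zbR hη) (zwR hη) ?_ ?_
  · intro w hw z hz
    obtain ⟨s, hs, h1⟩ := hD z (hn hw (by linarith))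
    exact ⟨s, hs, by linarith⟩
  · intro f hf s hs
    obtain ⟨w, hw, h1⟩ := net_mem KR_bdd hd hf
    refine bxR hη (nearR hη hw ?_)
    calc ‖s - w‖ = ‖(s - f) + (f - w)‖ := by rw [sub_add_sub_cancel]
      _ ≤ ‖s - f‖ + ‖f - w‖ := norm_add_le _ _
      _ ≤ η / 2 := by linarith
  · intro f hf
    obtain ⟨w, hw, h1⟩ := net_mem KR_bdd hd hf
    exact hD f (hn hw (by linarith))
  · refine hf_unscale (e := 1) hη ?_
    rw [mul_one]
    exact hb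
  · refine hf_unscale (e := 1) hη ?_
    rw [mul_one]
    exact hw

/-- **the left half event from the full configuration** -/
theorem lh_of (hη : 0 < η) (hd : 0 < d) (hdη : 4 * d ≤ η) {X : Cf} (hX : X.Finite)
    (hD : ∀ z ∈ Bx (-(12 * η)) (2 * η) (-(11 * η)) (11 * η), ∃ s ∈ ps X, ‖s - z‖ < d / 2)
    (hb : Hf (sX X) 0 (η : ℂ) (-(101 / 10)) (-10) (-8) (-(47 / 10)) (1 / 20) (KBL η)
      (Pb (g0 η) (Q0 η) X) (bX X))
    (hw : Hf (sX X) 0 (η : ℂ) (-(101 / 10)) (-10) 2 8 (1 / 20) (KWL η)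
      (Pw (g0 η) (Q0 η) X) (wX X)) : LH η d X := by
  have hn : ∀ {w s : ℂ}, w ∈ KBL η ∪ KWL η → ‖s - w‖ ≤ η / 2 →
      s ∈ Bx (-(12 * η)) (2 * η) (-(11 * η)) (11 * η) := fun hw hs =>
    bx_mono le_rfl (by linarith) le_rfl le_rfl (nearL hη hw hs)
  refine hx_cut (d := d) hX hd ?_ subset_union_left
    (fun w hw s hs => bxL hη (nearL hη hw (by linarith))) ?_ ?_ (zbL hη) (zwL hη) ?_ ?_
  · intro w hw z hz
    obtain ⟨s, hs, h1⟩ := hD z (hn hw (by linarith))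
    exact ⟨s, hs, by linarith⟩
  · intro f hf s hs
    obtain ⟨w, hw, h1⟩ := net_mem KL_bdd hd hf
    refine bxL hη (nearL hη hw ?_)
    calc ‖s - w‖ = ‖(s - f) + (f - w)‖ := by rw [sub_add_sub_cancel]
      _ ≤ ‖s - f‖ + ‖f - w‖ := norm_add_le _ _
      _ ≤ η / 2 := by linarith
  · intro f hf
    obtain ⟨w, hw, h1⟩ := net_mem KL_bdd hd hf
    exact hD f (hn hw (by linarith))
  · refine hf_unscale (e := 1) hη ?_
    rw [mul_one]
    exact hb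
  · refine hf_unscale (e := 1) hη ?_
    rw [mul_one]
    exact hw

end Crest.Agent.R143.Halfx73
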