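import Crest.Agent.R143.Neck2_921

/-!
# Row 143, CORE-C, block V, leaf V4: probability of the neck gate, end (helper921)

* `Wl` : numerical conditions, `En` : environment
* `GE` : **gate and extensions**: a neck, a long black crossing `HB`, black vertical chains of both landing
  zones, a long white crossing and white vertical chains of both landing zones
* `neck_det` : exploration event + fresh white chains give `GE`
* `neck_pr` : probability of `GE` is `≥ p ^ 9`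
-/

set_option autoImplicit false

noncomputable section

open scoped Classical

namespace Crest.Agent.R143.Neckx921

open Crest.ProbabilityR.Voronoi (voronoiCell)
open Crest.Agent.R143.B0x346 Crest.Agent.R143.DelGx806 Crest.Agent.R143.DelRx806
open Crest.Agent.R143.ToolWx838 Crest.Agent.R143.Blkx838 Crest.Agent.R143.ToolW2x838
open Crest.Agent.R143.ToolW3x838 Crest.Agent.R143.Circ4x838 Crest.Agent.R143.Harx315
open Crest.Agent.R143.RB0x838 Crest.Agent.R143.CircPx838 Crest.Agent.R143.Gatex838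

variable {S V w w' w0 : Finset ℂ} {z0 e : ℂ}
variable {q0 q1 r0 r1 g0 g1 g2 g3 k0 k1 lR0 lR1 lL0 lL1 tw v0 l0 v1 p1 c0 c1 d0 d1 b1 m mN : ℝ}
  {L : Lc}

/-- numerical conditions: windows (first coordinate)
`q0 < r0 < lL0 < lL1 < a0 ≤ g0 < g1 ≤ k0 < k1 ≤ g2 < g3 ≤ a1 < lR0 < lR1 < r1 < q1`, levels (second coordinate)
`tw < t0 < v0 < b0 ≤ p0 ≤ l0 < l1 < v1 < p1 < cB ≤ d0 ≤ c0 < c1 ≤ d1, c1 ≤ b1` -/
structure Wl (L : Lc) (q0 q1 r0 r1 g0 g1 g2 g3 k0 k1 lR0 lR1 lL0 lL1 tw v0 l0 v1 p1 c0 c1 d0 d1 b1 m : ℝ) :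
    Prop where
  m0 : 0 < m
  q0r : q0 < r0 - m
  rq1 : r1 + m < q1
  ra : r0 + m ≤ L.a0
  ar : L.a1 ≤ r1 - m
  ag : L.a0 ≤ g0
  g01 : g0 < g1
  gk : g1 ≤ k0
  k01 : k0 < k1
  kg : k1 ≤ g2
  g23 : g2 < g3
  ga : g3 ≤ L.a1
  lR : L.a1 ≤ lR0
  lL : lL1 ≤ L.a0
  tw : tw < L.t0
  tv : L.t0 ≤ v0 - m
  vb : v0 + m ≤ L.b0
  pl : L.p0 ≤ l0
  l01 : l0 < L.l1
  lv : L.l1 ≤ v1 - m
  vp : v1 + m < p1
  pB : p1 + m < L.cB
  Bd : L.cB ≤ d0 - m
  dc : d0 ≤ c0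
  c01 : c0 < c1
  cb : c1 ≤ b1

/-- the environment hypotheses -/
structure En (S V : Finset ℂ) (z0 e : ℂ) (r0 r1 v0 v1 m : ℝ) : Prop where
  gp : GP (S : Set ℂ)
  card : 3 ≤ S.card
  reg : ∀ s ∈ S, r0 - m ≤ X z0 e s → X z0 e s ≤ r1 + m → v0 - m ≤ Y z0 e s →
      Y z0 e s ≤ v1 + m → s ∈ V
  near : ∀ s ∈ S, ∀ z ∈ voronoiCell (S : Set ℂ) s, r0 ≤ X z0 e z → X z0 e z ≤ r1 →
      v0 ≤ Y z0 e z → Y z0 e z ≤ v1 → |X z0 e s - X z0 e z| ≤ m ∧ |Y z0 e s - Y z0 e z| ≤ m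

/-- **gate and extensions** (`β` black) -/
structure GE (S V : Finset ℂ) (z0 e : ℂ) (L : Lc) (r0 r1 lR0 lR1 lL0 lL1 p1 c0 c1 d0 d1 b1 m mN : ℝ)
    (β : Finset ℂ) : Prop where
  neck : ∃ y x, NeckD S z0 e L.a0 L.a1 L.b0 b1 mN V β y x
  bl : ∃ P, HB S z0 e (r0 + m) (r1 - m) L.a0 L.a1 L.b0 L.p0 p1 (2 * m) β P
  bR : ∃ Q, VC S z0 e lR0 lR1 L.p0 p1 m β Q
  bL : ∃ Q, VC S z0 e lL0 lL1 L.p0 p1 m β Q
  wh : ∃ U, HC S z0 e r0 r1 c0 c1 m (V \ β) U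
  wR : ∃ U, VC S z0 e lR0 lR1 d0 d1 m (V \ β) U
  wL : ∃ U, VC S z0 e lL0 lL1 d0 d1 m (V \ β) U

/-- **deterministic core** -/
theorem neck_det (W : Wl L q0 q1 r0 r1 g0 g1 g2 g3 k0 k1 lR0 lR1 lL0 lL1 tw v0 l0 v1 p1 c0 c1 d0 d1 b1 m)
    (hN : L.b0 - mN ≤ L.t0) (hmN : m ≤ mN) (he : e ≠ 0) (H : En S V z0 e r0 r1 v0 v1 m)
    (hE : E2 S V z0 e q0 q1 k0 k1 lR0 lR1 lL0 lL1 p1 m L w0)
    (h1 : ∀ s ∈ Jn S V z0 e q0 q1 L w0, (s ∈ w ↔ s ∈ w0))
    (h2 : ∀ s ∈ V, s ∉ Jn S V z0 e q0 q1 L w0 → (s ∈ w ↔ s ∈ w')) (hw' : w' ⊆ V) (hw : w ⊆ V)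
    (hl' : ∃ l, VC S z0 e k0 k1 v0 b1 m w' l) (hU' : ∃ U, HC S z0 e r0 r1 c0 c1 m w' U)
    (hUR : ∃ U, VC S z0 e lR0 lR1 d0 d1 m w' U) (hUL : ∃ U, VC S z0 e lL0 lL1 d0 d1 m w' U) :
    GE S V z0 e L r0 r1 lR0 lR1 lL0 lL1 p1 c0 c1 d0 d1 b1 m mN (V \ w) := by
  obtain ⟨m0, q0r, rq1, ra, ar, ag, g01, gk, k01, kg, g23, ga, lR, lL, tw', tv, vb, pl, l01, lv, vp, pB,
    Bd, dc, c01, cb⟩ := W
  obtain ⟨l, hl⟩ := hl'
  obtain ⟨U, hU⟩ := hU'
  have L1 := L.tb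
  have L2 := L.bp
  have L3 := L.pl
  have L4 := L.lB
  set J := Jn S V z0 e q0 q1 L w0 with hJ
  have hJY : ∀ s ∈ J, Y z0 e s < L.cB := fun s hs => jn_lt hs
  have hww : ∀ s ∈ w', s ∉ J → s ∈ w := fun s hs hsJ => (h2 s (hw' hs) hsJ).2 hs
  have hVw : V \ (V \ w) = w := Finset.sdiff_sdiff_eq_self hw
  have bsw : ∀ s ∈ bs V z0 e L, s ∈ V \ w0 → s ∈ V \ w := by
    intro s hs h
    rw [Finset.mem_sdiff] at h ⊢
    exact ⟨h.1, fun hc => h.2 ((h1 s (bs_jn hs)).1 hc)⟩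
  refine ⟨?_, dual_hc H.gp H.card he m0 q0r rq1 (by linarith) (by linarith) tv vb lv vp H.reg
    H.near hE.1.1 h1, ?_, ?_, ?_, ?_, ?_⟩
  rotate_left
  · obtain ⟨Q, hQ⟩ := hE.2.1
    refine ⟨Q, hQ.ne, hQ.adj, fun s hs => bsw s (mem_bs'.2 ⟨(Finset.mem_sdiff.1 (hQ.col s hs)).1,
      fun hc => ?_, ?_⟩) (hQ.col s hs), hQ.strip, hQ.loc, hQ.left, hQ.right⟩
    · linarith [hc.2, (hQ.strip s hs).1]
    · linarith [(hQ.loc s hs).2]
  · obtain ⟨Q, hQ⟩ := hE.2.2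
    refine ⟨Q, hQ.ne, hQ.adj, fun s hs => bsw s (mem_bs'.2 ⟨(Finset.mem_sdiff.1 (hQ.col s hs)).1,
      fun hc => ?_, ?_⟩) (hQ.col s hs), hQ.strip, hQ.loc, hQ.left, hQ.right⟩
    · linarith [hc.1, (hQ.strip s hs).2]
    · linarith [(hQ.loc s hs).2]
  · rw [hVw]
    refine ⟨U, hU.ne, hU.adj, fun s hs => hww s (hU.col s hs) fun hc => ?_, hU.strip, hU.loc,
      hU.left, hU.right⟩
    have := hJY s hc
    linarith [(hU.strip s hs).1]
  · rw [hVw]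
    obtain ⟨U, hU⟩ := hUR
    refine ⟨U, hU.ne, hU.adj, fun s hs => hww s (hU.col s hs) fun hc => ?_, hU.strip, hU.loc,
      hU.left, hU.right⟩
    have := hJY s hc
    linarith [(hU.loc s hs).1]
  · rw [hVw]
    obtain ⟨U, hU⟩ := hUL
    refine ⟨U, hU.ne, hU.adj, fun s hs => hww s (hU.col s hs) fun hc => ?_, hU.strip, hU.loc,
      hU.left, hU.right⟩
    have := hJY s hc
    linarith [(hU.loc s hs).1]
  -- the neck
  have hXq : ∀ s ∈ l, (q0 < X z0 e s ∧ X z0 e s < q1) ∧ L.a0 < X z0 e s ∧ X z0 e s < L.a1 := by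
    intro s hs
    have := hl.strip s hs
    refine ⟨⟨by linarith [this.1], by linarith [this.2]⟩, by linarith [this.1], by linarith [this.2]⟩
  have hlvl : ∀ s ∈ l, L.lv (X z0 e s) = L.b0 := fun s hs => L.lv_in (hXq s hs).2.1 (hXq s hs).2.2
  have hsd : ∀ s ∈ l, Y z0 e s ≤ L.b0 → s ∈ J := by
    intro s hs hb
    exact kl_jn (Cl.seed (mem_sd'.2 ⟨hw' (hl.col _ hs), (hXq _ hs).1, by linarith [(hl.loc _ hs).1], by
      rw [hlvl s hs]; exact hb⟩))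
  have hhead : l.head hl.ne ∈ J := hsd _ (List.head_mem hl.ne) (by linarith [hl.left])
  have hlast : l.getLast hl.ne ∉ J := fun hc => by
    have := hJY _ hc
    linarith [hl.right]
  obtain ⟨n1, y, y', n2, hsp, hy, hno⟩ := last_split (P := fun s => s ∈ J) hl.ne hhead hlast
  have hmem : ∀ s ∈ y :: y' :: n2, s ∈ l := by
    intro s hs
    rw [hsp]
    exact List.mem_append_right _ hs
  have hsuf : (y :: y' :: n2).IsChain (DE S) := by
    have h := (isChain_iff_prs (R := DE S) l).2 hl.adj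
    rw [hsp, List.isChain_append] at h
    exact h.2.1
  have hyy : DE S y y' := by
    rw [List.isChain_cons_cons] at hsuf
    exact hsuf.1
  have hy'J : y' ∉ J := hno y' (by simp)
  have hy'l : y' ∈ l := hmem y' (by simp)
  have hyl : y ∈ l := hmem y (by simp)
  have hy'V : y' ∈ V := hw' (hl.col _ hy'l)
  have hyK : ¬ Kl S V z0 e q0 q1 L w0 y := by
    intro hK
    have hYy := hE.1.1 y y' hK hyy (hXq y' hy'l).1.1 (hXq y' hy'l).1.2
    rcases le_or_gt (Y z0 e y') L.b0 with hb | hb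
    · exact hy'J (hsd y' hy'l hb)
    · exact hy'J (nb_jn hK hyy (mem_us'.2 ⟨hy'V, (hXq y' hy'l).1, by rw [hlvl y' hy'l]; exact hb, hYy⟩))
  rcases jn_cases hy with h | h | ⟨hyU, x, hx, hxy⟩
  · exact absurd (hXq y hyl).2 (mem_bs'.1 h).2.1
  · exact absurd h hyK
  have hyw0 : y ∉ w0 := fun hc => hyK (Cl.step hx hxy hyU hc)
  have hyw : y ∉ w := fun hc => hyw0 ((h1 y hy).1 hc)
  have hyb := (mem_us'.1 hyU).2.2
  rw [hlvl y hyl] at hyb
  have hxa := hE.1.2 x y hx hxy (hl.strip y hyl).1 (hl.strip y hyl).2 (by linarith [hyb.1]) hyb.2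
  obtain ⟨a, c, ha, hc, hlastx, hcs⟩ := Cl.chain hxa
  have hcK : ∀ s ∈ a :: c, Kl S V z0 e L.a0 L.a1 L w0 s := by
    refine cl_of_chain (l := a :: c) (by simp) (Cl.seed ha) hc ?_
    intro t ht
    rcases List.mem_cons.1 ht with h | h
    · exact Or.inl (h ▸ ha)
    · exact Or.inr (hcs t h)
  have hcJ : ∀ s ∈ a :: c, s ∈ J := fun s hs =>
    kl_jn (kl_tr (x0 := q0) (x1 := q1) (w' := w0) (by linarith) (by linarith) (fun _ _ h => h)
      (hcK s hs)).2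
  have hab : Y z0 e a ≤ L.b0 := by
    have := mem_sd'.1 ha
    rw [← L.lv_in this.2.1.1 this.2.1.2]
    exact this.2.2.2
  set Z : List ℂ := (a :: c) ++ (y :: y' :: n2) with hZ
  have hZc : Z.IsChain (DE S) := by
    rw [hZ, List.isChain_append]
    refine ⟨hc, hsuf, ?_⟩
    intro u hu v hv
    simp only [List.head?_cons, Option.mem_def, Option.some.injEq] at hv
    subst hv
    rw [List.getLast?_eq_some_getLast (by simp)] at hu
    simp only [Option.mem_def, Option.some.injEq] at hu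
    rw [← hu, hlastx]
    exact hxy
  have hZr : (y' :: n2).reverse ++ y :: (a :: c).reverse = Z.reverse := by
    rw [hZ]; simp
  refine ⟨y, (y' :: n2).reverse.getLast (by simp), (y' :: n2).reverse, (a :: c).reverse, ?_, rfl⟩
  refine ⟨by simp, by simp, ?_, ?_, ?_, ?_, ?_, ?_, ?_, ?_, ?_⟩
  · rw [hZr]
    intro p hp
    rw [prs_reverse, List.mem_reverse, List.mem_map] at hp
    obtain ⟨q, hq, rfl⟩ := hp
    exact ((isChain_iff_prs _).1 hZc q hq).symm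
  · intro s hs
    rw [List.mem_reverse] at hs
    have hsl := hmem s (List.mem_cons_of_mem _ hs)
    have h3 := hww s (hl.col s hsl) (hno s hs)
    exact ⟨hw' (hl.col s hsl), fun hc => (Finset.mem_sdiff.1 hc).2 h3⟩
  · intro s hs hb
    rw [List.mem_reverse] at hs
    have hV := (kl_bd (hcK s hs)).1
    refine ⟨hV, fun hc' => (Finset.mem_sdiff.1 hc').2 ?_⟩
    rcases List.mem_cons.1 hs with h | h
    · exfalso
      rw [h] at hb
      linarith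
    · exact (h1 s (hcJ s hs)).2 (hcs s h).2
  · exact ⟨(mem_us'.1 hyU).1, Finset.mem_sdiff.2 ⟨(mem_us'.1 hyU).1, hyw⟩⟩
  · intro s hs
    rw [hZr, List.mem_reverse, hZ, List.mem_append] at hs
    rcases hs with hs | hs
    · have := kl_bd (hcK s hs)
      exact ⟨this.2.1, by linarith [this.2.2.1], by linarith [this.2.2.2]⟩
    · have hsl := hmem s hs
      have := hl.loc s hsl
      exact ⟨(hXq s hsl).2, by linarith [this.1], by linarith [this.2]⟩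
  · exact ⟨hyb.1, by linarith [hyb.2]⟩
  · rw [List.head_reverse]
    have : (y' :: n2).getLast (by simp) = l.getLast hl.ne := by
      have h4 : (n1 ++ y :: y' :: n2).getLast (by simp) = (y' :: n2).getLast (by simp) := by
        rw [List.getLast_append_of_ne_nil _ (List.cons_ne_nil _ _)]
        exact List.getLast_cons (List.cons_ne_nil _ _)
      simp only [hsp]
      exact h4.symm
    rw [this]
    exact hl.right
  · rw [List.getLast_reverse]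
    exact hab
  · intro s hs
    rw [List.mem_reverse] at hs
    by_contra hcon
    push Not at hcon
    exact hno s hs (hsd s (hmem s (List.mem_cons_of_mem _ hs)) hcon)

/-- **gate and extensions with probability at least `p ^ 9`** -/
theorem neck_pr (W : Wl L q0 q1 r0 r1 g0 g1 g2 g3 k0 k1 lR0 lR1 lL0 lL1 tw v0 l0 v1 p1 c0 c1 d0 d1 b1 m)
    (hN : L.b0 - mN ≤ L.t0) (hmN : m ≤ mN) (he : e ≠ 0) (H : En S V z0 e r0 r1 v0 v1 m) {p : ℝ}
    (hp : 0 ≤ p)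
    (h1 : p ≤ pr V (fun β => ∃ l, HC S z0 e q0 q1 l0 L.l1 m β l))
    (h2 : p ≤ pr V (fun β => ∃ l, VC S z0 e g0 g1 tw L.l1 m β l))
    (h3 : p ≤ pr V (fun β => ∃ l, VC S z0 e g2 g3 tw L.l1 m β l))
    (h4 : p ≤ pr V (fun β => ∃ l, VC S z0 e lR0 lR1 L.p0 p1 m β l))
    (h5 : p ≤ pr V (fun β => ∃ l, VC S z0 e lL0 lL1 L.p0 p1 m β l))
    (h6 : p ≤ pr V (fun β => ∃ l, VC S z0 e k0 k1 v0 b1 m β l))
    (h7 : p ≤ pr V (fun β => ∃ l, HC S z0 e r0 r1 c0 c1 m β l))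
    (h8 : p ≤ pr V (fun β => ∃ l, VC S z0 e lR0 lR1 d0 d1 m β l))
    (h9 : p ≤ pr V (fun β => ∃ l, VC S z0 e lL0 lL1 d0 d1 m β l)) :
    p ^ 9 ≤ pr V (GE S V z0 e L r0 r1 lR0 lR1 lL0 lL1 p1 c0 c1 d0 d1 b1 m mN) := by
  set A : Finset ℂ → Prop := GE S V z0 e L r0 r1 lR0 lR1 lL0 lL1 p1 c0 c1 d0 d1 b1 m mN with hA
  rw [← pr_flip V A]
  have hand : ∀ {A B : Finset ℂ → Prop} {a b : ℝ}, Up V A → Up V B → 0 ≤ a → 0 ≤ b → a ≤ pr V A →
      b ≤ pr V B → a * b ≤ pr V (fun β => A β ∧ B β) := by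
    intro A B a b hA hB ha hb h1 h2
    exact (mul_le_mul h1 h2 hb pr_nonneg).trans (harris_up hA hB)
  have hp2 : 0 ≤ p * p := mul_nonneg hp hp
  -- exploration event
  have a1' : p ^ 5 ≤ pr V (E2 S V z0 e q0 q1 k0 k1 lR0 lR1 lL0 lL1 p1 m L) := by
    have b1' := hand (up_vc V S z0 e g0 g1 tw L.l1 m) (up_vc V S z0 e g2 g3 tw L.l1 m) hp hp h2 h3
    have b2' := hand (up_vc V S z0 e lR0 lR1 L.p0 p1 m) (up_vc V S z0 e lL0 lL1 L.p0 p1 m) hp hp h4 h5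
    have b3' := hand (up_hc V S z0 e q0 q1 l0 L.l1 m)
      ((up_vc V S z0 e g0 g1 tw L.l1 m).and (up_vc V S z0 e g2 g3 tw L.l1 m)) hp hp2 h1 b1'
    have b4' := hand ((up_hc V S z0 e q0 q1 l0 L.l1 m).and
      ((up_vc V S z0 e g0 g1 tw L.l1 m).and (up_vc V S z0 e g2 g3 tw L.l1 m)))
      ((up_vc V S z0 e lR0 lR1 L.p0 p1 m).and (up_vc V S z0 e lL0 lL1 L.p0 p1 m))
      (mul_nonneg hp hp2) hp2 b3' b2'
    have b5 : pr V (fun β => ((∃ l, HC S z0 e q0 q1 l0 L.l1 m β l) ∧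
        (∃ l, VC S z0 e g0 g1 tw L.l1 m β l) ∧ ∃ l, VC S z0 e g2 g3 tw L.l1 m β l) ∧
        (∃ l, VC S z0 e lR0 lR1 L.p0 p1 m β l) ∧ ∃ l, VC S z0 e lL0 lL1 L.p0 p1 m β l) ≤
        pr V (E2 S V z0 e q0 q1 k0 k1 lR0 lR1 lL0 lL1 p1 m L) := by
      rw [← pr_flip V (fun β => ((∃ l, HC S z0 e q0 q1 l0 L.l1 m β l) ∧
        (∃ l, VC S z0 e g0 g1 tw L.l1 m β l) ∧ ∃ l, VC S z0 e g2 g3 tw L.l1 m β l) ∧
        (∃ l, VC S z0 e lR0 lR1 L.p0 p1 m β l) ∧ ∃ l, VC S z0 e lL0 lL1 L.p0 p1 m β l)]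
      refine pr_mono fun w _ => ?_
      rintro ⟨⟨⟨h, hh⟩, ⟨lL, hL⟩, lR, hR⟩, hQ1, hQ2⟩
      exact ⟨⟨dd_of H.gp he W.pl hh, cf_of H.gp he W.tw W.ag W.gk W.kg W.ga hL hR⟩, hQ1, hQ2⟩
    calc p ^ 5 = p * (p * p) * (p * p) := by ring
      _ ≤ _ := b4'
      _ ≤ _ := b5
  set WW : Finset ℂ → Prop := fun β => ((∃ l, VC S z0 e k0 k1 v0 b1 m β l) ∧
    ∃ l, HC S z0 e r0 r1 c0 c1 m β l) ∧ (∃ l, VC S z0 e lR0 lR1 d0 d1 m β l) ∧
    ∃ l, VC S z0 e lL0 lL1 d0 d1 m β l with hWW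
  have a2 : p ^ 4 ≤ pr V WW := by
    have b1' := hand (up_vc V S z0 e k0 k1 v0 b1 m) (up_hc V S z0 e r0 r1 c0 c1 m) hp hp h6 h7
    have b2' := hand (up_vc V S z0 e lR0 lR1 d0 d1 m) (up_vc V S z0 e lL0 lL1 d0 d1 m) hp hp h8 h9
    have b3' := hand ((up_vc V S z0 e k0 k1 v0 b1 m).and (up_hc V S z0 e r0 r1 c0 c1 m))
      ((up_vc V S z0 e lR0 lR1 d0 d1 m).and (up_vc V S z0 e lL0 lL1 d0 d1 m)) hp2 hp2 b1' b2'
    calc p ^ 4 = p * p * (p * p) := by ring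
      _ ≤ _ := b3'
  have hqa : q0 ≤ L.a0 := by linarith [W.q0r, W.ra, W.m0]
  have haq : L.a1 ≤ q1 := by linarith [W.rq1, W.ar, W.m0]
  have hG := stop_ge' (V := V) (J := Jn S V z0 e q0 q1 L) jn_stop
    (e2_dec (k0 := k0) (k1 := k1) (m := m) (lR1 := lR1) (lL0 := lL0) hqa haq W.lR W.lL W.pB)
    (B := fun β => A (V \ β))
    (b := p ^ 4) ?_
  · calc p ^ 9 = p ^ 4 * p ^ 5 := by ring
      _ ≤ p ^ 4 * pr V (E2 S V z0 e q0 q1 k0 k1 lR0 lR1 lL0 lL1 p1 m L) :=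
        mul_le_mul_of_nonneg_left a1' (by positivity)
      _ ≤ _ := hG
      _ ≤ _ := pr_mono fun β _ h => h.2
  · intro w0 hw0 hE
    set J := Jn S V z0 e q0 q1 L w0 with hJ
    have hJV : J ⊆ V := jn_stop.sub w0 hw0
    refine a2.trans ?_
    rw [pr_sum hJV (A := WW)]
    have hle : ∀ γ ∈ J.powerset, pr (V \ J) (fun β => WW (β ∪ γ)) ≤
        pr (V \ J) (fun β => A (V \ (β ∪ (w0 ∩ J)))) := by
      intro γ hγ
      rw [Finset.mem_powerset] at hγ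
      refine pr_mono fun β hβ hw => ?_
      obtain ⟨⟨hl, hU⟩, hUR, hUL⟩ := hw
      have q1' : ∀ s ∈ Jn S V z0 e q0 q1 L w0, (s ∈ β ∪ (w0 ∩ J) ↔ s ∈ w0) := by
        intro s hs
        rw [← hJ] at hs
        rw [Finset.mem_union, Finset.mem_inter]
        constructor
        · rintro (h | h)
          · exact absurd hs (Finset.mem_sdiff.1 (hβ h)).2
          · exact h.1
        · intro h
          exact Or.inr ⟨h, hs⟩
      have q2 : ∀ s ∈ V, s ∉ Jn S V z0 e q0 q1 L w0 →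
          (s ∈ β ∪ (w0 ∩ J) ↔ s ∈ β ∪ γ) := by
        intro s hsV hs
        rw [← hJ] at hs
        rw [Finset.mem_union, Finset.mem_union, Finset.mem_inter]
        constructor
        · rintro (h | h)
          · exact Or.inl h
          · exact absurd h.2 hs
        · rintro (h | h)
          · exact Or.inl h
          · exact absurd (hγ h) hs
      have hsub : β ∪ γ ⊆ V := Finset.union_subset (hβ.trans Finset.sdiff_subset) (hγ.trans hJV)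
      have hsub' : β ∪ (w0 ∩ J) ⊆ V := Finset.union_subset (hβ.trans Finset.sdiff_subset)
        (Finset.inter_subset_left.trans hw0)
      exact neck_det W hN hmN he H hE q1' q2 hsub hsub' hl hU hUR hUL
    have hsum := Finset.sum_le_sum hle
    rw [Finset.sum_const, Finset.card_powerset, nsmul_eq_mul] at hsum
    rw [div_le_iff₀ (by positivity)]
    refine hsum.trans (le_of_eq ?_)
    push_cast
    ring

end Crest.Agent.R143.Neckx921
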