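import Crest.Agent.R143.TileG2_73
import Crest.Agent.R143.Neck3_921

/-!
# Row 143, CORE-C, box R1e (form E1): white half of the gate extensions (helper120)

Neck gates (Neck1_921), extension events of Neck3_921.  All numbers are free.
* `HC.narrow`, `VC.narrow` : change of window / strip of a crossing
* `linkR`, `linkL` : the last site `x` of the upper arm is linked by white sites to every site of the
  white landing chain on the right / left side of the gate; horizontal chain over `(u0, u1)` in the strip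
  `(c0, c1)`, landing chain spanning `(d0, d1) ⊇ (c0, c1)` (the fields `wh`, `wR`, `wL` of `GE`)
* `hb_meet`, `hb_low` : the long black crossing passes every neck, so `Y y < p1`
* `ge_whiteR`, `ge_whiteL` : `GE` gives the white landing chains and the links from `x`, for EVERY gate
  dart `(y, x)` of the window
-/

set_option autoImplicit false

noncomputable section

open scoped Classical

namespace Crest.Agent.R143.WTilex120

open Crest.Agent.R143.B0x346 Crest.Agent.R143.DelGx806 Crest.Agent.R143.DelRx806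
open Crest.Agent.R143.ToolWx838 Crest.Agent.R143.Blkx838 Crest.Agent.R143.ToolW2x838
open Crest.Agent.R143.ToolW3x838 Crest.Agent.R143.Circ4x838 Crest.Agent.R143.Harx315
open Crest.Agent.R143.RB0x838 Crest.Agent.R143.CircPx838 Crest.Agent.R143.Gatex838
open Crest.Agent.R143.Neckx921 Crest.Agent.R143.TileGx73

variable {S V β : Finset ℂ} {z0 e : ℂ}
variable {a0 a1 b0 b1 mN u0 u1 l0 l1 r0 r1 c0 c1 d0 d1 m m' : ℝ}

/-! ### windows and strips of a crossing -/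

/-- a horizontal crossing of a longer window is a horizontal crossing of a shorter one -/
theorem HC.narrow {A : Finset ℂ} {P : List ℂ} {x0 x1 x0' x1' y0 y1 n n' : ℝ}
    (h : HC S z0 e x0 x1 y0 y1 n A P) (h0 : x0 ≤ x0') (h1 : x1' ≤ x1) (k0 : x0' - n' ≤ x0 - n)
    (k1 : x1 + n ≤ x1' + n') : HC S z0 e x0' x1' y0 y1 n' A P :=
  ⟨h.ne, h.adj, h.col, h.strip, fun s hs => ⟨k0.trans (h.loc s hs).1, (h.loc s hs).2.trans k1⟩,
    h.left.trans h0, h1.trans h.right⟩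

/-- a vertical crossing of a longer strip is a vertical crossing of a shorter one -/
theorem VC.narrow {A : Finset ℂ} {P : List ℂ} {x0 x1 y0 y1 y0' y1' n n' : ℝ}
    (h : VC S z0 e x0 x1 y0 y1 n A P) (h0 : y0 ≤ y0') (h1 : y1' ≤ y1) (k0 : y0' - n' ≤ y0 - n)
    (k1 : y1 + n ≤ y1' + n') : VC S z0 e x0 x1 y0' y1' n' A P :=
  ⟨h.ne, h.adj, h.col, h.strip, fun s hs => ⟨k0.trans (h.loc s hs).1, (h.loc s hs).2.trans k1⟩,
    h.left.trans h0, h1.trans h.right⟩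

/-! ### landing links -/

/-- **white link on the right side of a gate** -/
theorem linkR (hS : GP (S : Set ℂ)) (he : e ≠ 0) {y x : ℂ}
    (g : NeckD S z0 e a0 a1 b0 b1 mN V β y x) {U Q : List ℂ}
    (hU : HC S z0 e u0 u1 c0 c1 m (V \ β) U) (hQ : VC S z0 e l0 l1 d0 d1 m' (V \ β) Q)
    (hy : Y z0 e y ≤ c0) (h0 : u0 ≤ a0) (h1 : a1 ≤ l0) (h2 : l1 ≤ u1) (h3 : a1 ≤ l1)
    (hdc : d0 ≤ c0) (hcd : c1 ≤ d1) (hcb : c1 ≤ b1) {R : Set ℂ}
    (hR : ∀ s ∈ V, a0 < X z0 e s → X z0 e s ≤ u1 + m → c0 < Y z0 e s → Y z0 e s < c1 → s ∈ R)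
    (hR0 : ∀ s ∈ V, a0 < X z0 e s → X z0 e s < a1 → b0 < Y z0 e s → Y z0 e s < c1 → s ∈ R)
    (hR1 : ∀ s ∈ V, l0 < X z0 e s → X z0 e s < l1 → d0 - m' ≤ Y z0 e s → Y z0 e s ≤ d1 + m' → s ∈ R)
    {t : ℂ} (ht : t ∈ Q) : Lk S {s | (s ∈ V ∧ s ∉ β) ∧ s ∈ R} x t := by
  obtain ⟨up, dn, hN, rfl⟩ := g
  obtain ⟨up1, M, hM, hu, hM1⟩ := up_low hN hcb
  have hcol : ∀ s ∈ U, s ∈ V ∧ s ∉ β := fun s hs => Finset.mem_sdiff.1 (hU.col s hs)
  obtain ⟨t0, T, hT, ht0, hTT⟩ := last_mark (M := fun s => s ∈ M) (A := fun s => X z0 e s ≤ a0) U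
    (meetw' hN hM hu hS he hy hU.ne hU.adj (fun s hs => (hcol s hs).2) hU.strip
      (hU.left.trans h0) ((h3.trans h2).trans hU.right))
    (fun s T hT hs => meetw' hN hM hu hS he hy (by simp)
      (fun p hp => hU.adj p (prs_suffix hT p hp))
      (fun u hu => (hcol u (hT.subset hu)).2) (fun u hu => hU.strip u (hT.subset hu))
      (by simpa using hs) (by rw [suffix_last hT hU.ne]; exact (h3.trans h2).trans hU.right))
  have hup0 : t0 ∈ up := ((List.suffix_cons up1 M).trans hM).subset ht0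
  have hwin := hN.win t0 (List.mem_append_left _ hup0)
  have hX : ∀ s ∈ t0 :: T, a0 < X z0 e s := by
    intro s hs
    rcases List.mem_cons.1 hs with rfl | hs
    · exact hwin.1.1
    · exact not_le.1 (hTT s hs).2
  obtain ⟨s, hs1, hs2⟩ := cross_e hS he (P := t0 :: T) (Q := Q) (by simp) hQ.ne
    (fun p hp => hU.adj p (prs_suffix hT p hp)) hQ.adj (fun u hu => hU.strip u (hT.subset hu))
    hQ.strip (by simpa using (hwin.1.2.le.trans h1))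
    (by rw [suffix_last hT hU.ne]; exact h2.trans hU.right) (hQ.left.trans hdc)
    (hcd.trans hQ.right)
  have k0 := low_link hN hM hM1 hN.upb hR0 ht0
  have k1 : Lk S {s | (s ∈ V ∧ s ∉ β) ∧ s ∈ R} t0 s := by
    refine lk_list (fun p hp => hU.adj p (prs_suffix hT p hp)) (fun u hu => ?_)
      (by simp) hs1
    have hu' := hT.subset hu
    exact ⟨hcol u hu', hR u (hcol u hu').1 (hX u hu) (hU.loc u hu').2 (hU.strip u hu').1
      (hU.strip u hu').2⟩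
  refine (k0.trans k1).trans (lk_list (A := {s | (s ∈ V ∧ s ∉ β) ∧ s ∈ R}) hQ.adj
    (fun u hu => ?_) hs2 ht)
  have hu' := Finset.mem_sdiff.1 (hQ.col u hu)
  exact ⟨hu', hR1 u hu'.1 (hQ.strip u hu).1 (hQ.strip u hu).2 (hQ.loc u hu).1 (hQ.loc u hu).2⟩

/-- **white link on the left side of a gate** -/
theorem linkL (hS : GP (S : Set ℂ)) (he : e ≠ 0) {y x : ℂ}
    (g : NeckD S z0 e a0 a1 b0 b1 mN V β y x) {U Q : List ℂ}
    (hU : HC S z0 e u0 u1 c0 c1 m (V \ β) U) (hQ : VC S z0 e r0 r1 d0 d1 m' (V \ β) Q)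
    (hy : Y z0 e y ≤ c0) (h0 : a1 ≤ u1) (h1 : r1 ≤ a0) (h2 : u0 ≤ r0) (h3 : r0 ≤ a0)
    (hdc : d0 ≤ c0) (hcd : c1 ≤ d1) (hcb : c1 ≤ b1) {R : Set ℂ}
    (hR : ∀ s ∈ V, X z0 e s < a1 → u0 - m ≤ X z0 e s → c0 < Y z0 e s → Y z0 e s < c1 → s ∈ R)
    (hR0 : ∀ s ∈ V, a0 < X z0 e s → X z0 e s < a1 → b0 < Y z0 e s → Y z0 e s < c1 → s ∈ R)
    (hR1 : ∀ s ∈ V, r0 < X z0 e s → X z0 e s < r1 → d0 - m' ≤ Y z0 e s → Y z0 e s ≤ d1 + m' → s ∈ R)
    {t : ℂ} (ht : t ∈ Q) : Lk S {s | (s ∈ V ∧ s ∉ β) ∧ s ∈ R} x t := by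
  obtain ⟨up, dn, hN, rfl⟩ := g
  obtain ⟨up1, M, hM, hu, hM1⟩ := up_low hN hcb
  have hcol : ∀ s ∈ U, s ∈ V ∧ s ∉ β := fun s hs => Finset.mem_sdiff.1 (hU.col s hs)
  have hex : ∃ s ∈ U.reverse, s ∈ M := by
    obtain ⟨s, h2, h3⟩ := meetw' hN hM hu hS he hy hU.ne hU.adj (fun s hs => (hcol s hs).2) hU.strip
      ((hU.left.trans h2).trans h3) (h0.trans hU.right)
    exact ⟨s, List.mem_reverse.2 h2, h3⟩
  obtain ⟨t0, T, hT, ht0, hTT⟩ := last_mark (M := fun s => s ∈ M) (A := fun s => a1 ≤ X z0 e s)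
    U.reverse hex
    (fun s T hT hs => by
      obtain ⟨w, h4, h5⟩ := meetw' hN hM hu hS he hy (P := (s :: T).reverse) (by simp)
        (prs_rev fun p hp => prs_rev hU.adj p (prs_suffix hT p hp))
        (fun u hu => (hcol u (List.mem_reverse.1 (hT.subset (List.mem_reverse.1 hu)))).2)
        (fun u hu => hU.strip u (List.mem_reverse.1 (hT.subset (List.mem_reverse.1 hu))))
        (by rw [suffix_rev_head hT hU.ne]; exact (hU.left.trans h2).trans h3) (by simpa using hs)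
      exact ⟨w, List.mem_reverse.1 h4, h5⟩)
  have hup0 : t0 ∈ up := ((List.suffix_cons up1 M).trans hM).subset ht0
  have hwin := hN.win t0 (List.mem_append_left _ hup0)
  have hX : ∀ s ∈ t0 :: T, X z0 e s < a1 := by
    intro s hs
    rcases List.mem_cons.1 hs with rfl | hs
    · exact hwin.1.2
    · exact not_le.1 (hTT s hs).2
  have dT : ∀ p ∈ prs (t0 :: T), DE S p.1 p.2 := fun p hp =>
    prs_rev hU.adj p (prs_suffix hT p hp)
  have mT : ∀ u ∈ t0 :: T, u ∈ U := fun u hu => List.mem_reverse.1 (hT.subset hu)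
  obtain ⟨s, hs1, hs2⟩ := cross_e hS he (P := (t0 :: T).reverse) (Q := Q) (by simp) hQ.ne
    (prs_rev dT) hQ.adj (fun u hu => hU.strip u (mT u (List.mem_reverse.1 hu))) hQ.strip
    (by rw [suffix_rev_head hT hU.ne]; exact hU.left.trans h2)
    (by simpa using (h1.trans hwin.1.1.le)) (hQ.left.trans hdc) (hcd.trans hQ.right)
  rw [List.mem_reverse] at hs1
  have k0 := low_link hN hM hM1 hN.upb hR0 ht0
  have k1 : Lk S {s | (s ∈ V ∧ s ∉ β) ∧ s ∈ R} t0 s := by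
    refine lk_list dT (fun u hu => ?_) (by simp) hs1
    have hu' := mT u hu
    exact ⟨hcol u hu', hR u (hcol u hu').1 (hX u hu) (hU.loc u hu').1 (hU.strip u hu').1
      (hU.strip u hu').2⟩
  refine (k0.trans k1).trans (lk_list (A := {s | (s ∈ V ∧ s ∉ β) ∧ s ∈ R}) hQ.adj
    (fun u hu => ?_) hs2 ht)
  have hu' := Finset.mem_sdiff.1 (hQ.col u hu)
  exact ⟨hu', hR1 u hu'.1 (hQ.strip u hu).1 (hQ.strip u hu).2 (hQ.loc u hu).1 (hQ.loc u hu).2⟩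

/-! ### from `GE` -/

/-- **the long black crossing passes the neck** -/
theorem hb_meet (hS : GP (S : Set ℂ)) (he : e ≠ 0) {y x : ℂ}
    (g : NeckD S z0 e a0 a1 b0 b1 mN V β y x) {x0 x1 p0 p1 : ℝ} {P : List ℂ}
    (h : HB S z0 e x0 x1 a0 a1 b0 p0 p1 m β P) (h0 : x0 ≤ a0) (h1 : a1 ≤ x1) (hp : p1 ≤ b1) :
    y ∈ P := by
  obtain ⟨up, dn, hN, rfl⟩ := g
  exact hN.meet hS he h.ne h.adj h.col (fun s hs => ⟨(h.strip s hs).1, (h.strip s hs).2.trans_le hp⟩)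
    (h.left.trans h0) (h1.trans h.right)

/-- the neck is below the black strip -/
theorem hb_low (hS : GP (S : Set ℂ)) (he : e ≠ 0) {y x : ℂ}
    (g : NeckD S z0 e a0 a1 b0 b1 mN V β y x) {x0 x1 p0 p1 : ℝ} {P : List ℂ}
    (h : HB S z0 e x0 x1 a0 a1 b0 p0 p1 m β P) (h0 : x0 ≤ a0) (h1 : a1 ≤ x1) (hp : p1 ≤ b1) :
    Y z0 e y < p1 := (h.strip y (hb_meet hS he g h h0 h1 hp)).2

/-- **white landing on the right from `GE`**, for every gate dart `(y, x)` -/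
theorem ge_whiteR {L : Lc} {lR0 lR1 lL0 lL1 p1 : ℝ} (hS : GP (S : Set ℂ)) (he : e ≠ 0)
    (h : GE S V z0 e L r0 r1 lR0 lR1 lL0 lL1 p1 c0 c1 d0 d1 b1 m mN β) {y x : ℂ}
    (g : NeckD S z0 e L.a0 L.a1 L.b0 b1 mN V β y x) (hm : 0 ≤ m) (k0 : r0 + m ≤ L.a0)
    (k1 : L.a1 ≤ r1 - m) (hpb : p1 ≤ b1) (hpc : p1 ≤ c0) (h1 : L.a1 ≤ lR0) (h2 : lR1 ≤ r1)
    (h3 : L.a1 ≤ lR1) (hdc : d0 ≤ c0) (hcd : c1 ≤ d1) (hcb : c1 ≤ b1) {R : Set ℂ}
    (hR : ∀ s ∈ V, L.a0 < X z0 e s → X z0 e s ≤ r1 + m → c0 < Y z0 e s → Y z0 e s < c1 → s ∈ R)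
    (hR0 : ∀ s ∈ V, L.a0 < X z0 e s → X z0 e s < L.a1 → L.b0 < Y z0 e s → Y z0 e s < c1 → s ∈ R)
    (hR1 : ∀ s ∈ V, lR0 < X z0 e s → X z0 e s < lR1 → d0 - m ≤ Y z0 e s → Y z0 e s ≤ d1 + m → s ∈ R) :
    ∃ Q, VC S z0 e lR0 lR1 d0 d1 m (V \ β) Q ∧
      ∀ t ∈ Q, Lk S {s | (s ∈ V ∧ s ∉ β) ∧ s ∈ R} x t := by
  obtain ⟨P, hP⟩ := h.bl
  obtain ⟨U, hU⟩ := h.wh
  obtain ⟨Q, hQ⟩ := h.wR
  exact ⟨Q, hQ, fun t ht => linkR hS he g hU hQ ((hb_low hS he g hP k0 k1 hpb).le.trans hpc)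
    (by linarith) h1 h2 h3 hdc hcd hcb hR hR0 hR1 ht⟩

/-- **white landing on the left from `GE`**, for every gate dart `(y, x)` -/
theorem ge_whiteL {L : Lc} {lR0 lR1 lL0 lL1 p1 : ℝ} (hS : GP (S : Set ℂ)) (he : e ≠ 0)
    (h : GE S V z0 e L r0 r1 lR0 lR1 lL0 lL1 p1 c0 c1 d0 d1 b1 m mN β) {y x : ℂ}
    (g : NeckD S z0 e L.a0 L.a1 L.b0 b1 mN V β y x) (hm : 0 ≤ m) (k0 : r0 + m ≤ L.a0)
    (k1 : L.a1 ≤ r1 - m) (hpb : p1 ≤ b1) (hpc : p1 ≤ c0) (h1 : lL1 ≤ L.a0) (h2 : r0 ≤ lL0)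
    (h3 : lL0 ≤ L.a0) (hdc : d0 ≤ c0) (hcd : c1 ≤ d1) (hcb : c1 ≤ b1) {R : Set ℂ}
    (hR : ∀ s ∈ V, X z0 e s < L.a1 → r0 - m ≤ X z0 e s → c0 < Y z0 e s → Y z0 e s < c1 → s ∈ R)
    (hR0 : ∀ s ∈ V, L.a0 < X z0 e s → X z0 e s < L.a1 → L.b0 < Y z0 e s → Y z0 e s < c1 → s ∈ R)
    (hR1 : ∀ s ∈ V, lL0 < X z0 e s → X z0 e s < lL1 → d0 - m ≤ Y z0 e s → Y z0 e s ≤ d1 + m → s ∈ R) :
    ∃ Q, VC S z0 e lL0 lL1 d0 d1 m (V \ β) Q ∧
      ∀ t ∈ Q, Lk S {s | (s ∈ V ∧ s ∉ β) ∧ s ∈ R} x t := by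
  obtain ⟨P, hP⟩ := h.bl
  obtain ⟨U, hU⟩ := h.wh
  obtain ⟨Q, hQ⟩ := h.wL
  exact ⟨Q, hQ, fun t ht => linkL hS he g hU hQ ((hb_low hS he g hP k0 k1 hpb).le.trans hpc)
    (by linarith) h1 h2 h3 hdc hcd hcb hR hR0 hR1 ht⟩

end Crest.Agent.R143.WTilex120
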