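import Crest.Agent.R143.Neck5_921
import Crest.Agent.R143.WTile_120
import Crest.Agent.R143.GEpr_838
import Crest.Agent.R143.Half_73
import Crest.Agent.R143.Pos_653
import Crest.Agent.R143.GLIa_126

/-!
# Row 143, CORE-C, box R1d: the gate event gives the half events (helper345)

* `GE10` : helper921's event `GE` with helper838's numbers, upper level of the window `10`
* `bR`, `bL`, `wR`, `wL` : black / white landing chains on the right / left, all their sites linked to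
  the gate dart inside a region `K` (unit `e`)
* `lg_ex`, `lg_neck` : the selected gate dart exists; it is a neck
* `rh_ge`, `lh_ge` : helper73's half events `RH`, `LH` of the configuration `clr V β`
* `fg_ge` : helper653's `FG`; `fg_pr` : its probability
-/

set_option autoImplicit false

noncomputable section

open scoped Classical

namespace Crest.Agent.R143.GeHx345

open Crest.Agent.R143.B0x346 Crest.Agent.R143.DelGx806 Crest.Agent.R143.DelRx806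
open Crest.Agent.R143.ToolWx838 Crest.Agent.R143.Blkx838 Crest.Agent.R143.ToolW2x838
open Crest.Agent.R143.ToolW3x838 Crest.Agent.R143.Circ4x838 Crest.Agent.R143.Harx315
open Crest.Agent.R143.RB0x838 Crest.Agent.R143.CircPx838 Crest.Agent.R143.Gatex838
open Crest.Agent.R143.RBmx838 Crest.Agent.R143.RbEx838 Crest.Agent.R143.Neckx921
open Crest.Agent.R143.GEprx838 Crest.Agent.R143.WTilex120 Crest.Agent.R143.RHx73
open Crest.Agent.R143.Halfx73 Crest.Agent.R143.WLocx713 Crest.Agent.R143.Locx922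
open Crest.Agent.R143.IndLocx279 Crest.Agent.R143.IndLoc3x279 Crest.Agent.R143.Janx304
open Crest.Agent.R143.PWx978 (Cf)
open Crest.Agent.R143.FinMx609 Crest.Agent.R143.Fairx653 Crest.Agent.R143.IndLoc2x279 Crest.Agent.R143.IndLoc4x279
open Crest.Agent.R143.Posx653 (FG KG)

variable {V β : Finset ℂ} {z0 e : ℂ} {η d r R : ℝ}

/-- the gate event with its numbers, levels of the window `-9`, `10` -/
def GE10 (V : Finset ℂ) (z0 e : ℂ) (β : Finset ℂ) : Prop :=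
  GE V V z0 e L0 (-12) 12 10 (101 / 10) (-(101 / 10)) (-10) (-(47 / 10)) (49 / 10) 5 2 8 10 (1 / 20) 1 β

/-- short Delaunay edges near the gate -/
def St (V : Finset ℂ) (z0 e : ℂ) : Prop := ∀ u v, DE V u v → |X z0 e u| ≤ 13 → |Y z0 e u| ≤ 13 →
  |X z0 e u - X z0 e v| ≤ 1 / 10

theorem st_of {e : ℂ} (he : e ≠ 0) (hD : LDns V z0 R d) (hR : 27 * ‖e‖ ≤ R) (hd : 20 * d ≤ ‖e‖) :
    St V z0 e := by
  intro u v h h1 h2
  have he0 : 0 < ‖e‖ := norm_pos_iff.2 he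
  have h3 : ‖u - z0‖ ≤ 26 * ‖e‖ := by
    refine (norm_le_XY he u).trans ?_
    nlinarith
  have h4 := Crest.Agent.R143.GLIx126.de_len hD h (Or.inl (by linarith))
  refine (XY_diff (z0 := z0) (e := e) u v).1.trans ?_
  rw [div_le_iff₀ he0]
  linarith

/-- black, right -/
theorem bR (hS : GP (V : Set ℂ)) (he : e ≠ 0) (h : GE10 V z0 e β) {y x : ℂ}
    (g : NeckD V z0 e (-1) 1 (-9) 10 1 V β y x) {K : Set ℂ}
    (hK : ∀ s, -1 < X z0 e s → X z0 e s < 11 → -9 < Y z0 e s → Y z0 e s < -4 → s ∈ K) :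
    ∃ l, VC V z0 e 10 (101 / 10) (-8) (-(47 / 10)) (1 / 20) β l ∧
      ∀ t ∈ l, Lk V {s | s ∈ β ∧ s ∈ K} y t := by
  have a0 : L0.a0 = -1 := rfl
  have a1 : L0.a1 = 1 := rfl
  have b0 : L0.b0 = -9 := rfl
  have p0 : L0.p0 = -8 := rfl
  refine ge_blackR hS he h g (by rw [a0]; norm_num) (by norm_num) (by norm_num)
    (by rw [a1]; norm_num) (by norm_num) (by rw [a0]; norm_num) ?_ ?_
  · intro s _ h1 h2 h3 h4
    rw [a0] at h1
    rw [b0] at h3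
    exact hK s h1 (by linarith) h3 (by linarith)
  · intro s _ h1 h2 h3 h4
    rw [p0] at h3
    exact hK s (by linarith) (by linarith) (by linarith) (by linarith)

/-- black, left -/
theorem bL (hS : GP (V : Set ℂ)) (he : e ≠ 0) (h : GE10 V z0 e β) {y x : ℂ}
    (g : NeckD V z0 e (-1) 1 (-9) 10 1 V β y x) {K : Set ℂ}
    (hK : ∀ s, -11 < X z0 e s → X z0 e s < 1 → -9 < Y z0 e s → Y z0 e s < -4 → s ∈ K) :
    ∃ l, VC V z0 e (-(101 / 10)) (-10) (-8) (-(47 / 10)) (1 / 20) β l ∧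
      ∀ t ∈ l, Lk V {s | s ∈ β ∧ s ∈ K} y t := by
  have a0 : L0.a0 = -1 := rfl
  have a1 : L0.a1 = 1 := rfl
  have b0 : L0.b0 = -9 := rfl
  have p0 : L0.p0 = -8 := rfl
  refine ge_blackL hS he h g (by norm_num) (by rw [a1]; norm_num) (by norm_num)
    (by rw [a0]; norm_num) (by norm_num) (by rw [a1]; norm_num) ?_ ?_
  · intro s _ h1 h2 h3 h4
    rw [a1] at h1
    rw [b0] at h3
    exact hK s (by linarith) h1 h3 (by linarith)
  · intro s _ h1 h2 h3 h4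
    rw [p0] at h3
    exact hK s (by linarith) (by linarith) (by linarith) (by linarith)

/-- the neck is below the level `-4` -/
theorem low (hS : GP (V : Set ℂ)) (he : e ≠ 0) (h : GE10 V z0 e β) {y x : ℂ}
    (g : NeckD V z0 e (-1) 1 (-9) 10 1 V β y x) : Y z0 e y ≤ 2 := by
  obtain ⟨P, hP⟩ := h.bl
  have := hb_low hS he g hP (by norm_num) (by norm_num) (by norm_num)
  linarith

/-- white, right -/
theorem wR (hS : GP (V : Set ℂ)) (he : e ≠ 0) (h : GE10 V z0 e β) (hst : St V z0 e) {y x : ℂ}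
    (g : NeckD V z0 e (-1) 1 (-9) 10 1 V β y x) {K : Set ℂ}
    (hK : ∀ s, -1 < X z0 e s → X z0 e s < 11 → -9 < Y z0 e s → Y z0 e s < 9 →
      (1 ≤ X z0 e s → 1 < Y z0 e s) → s ∈ K) :
    ∃ l, VC V z0 e 10 (101 / 10) 2 8 (1 / 20) (V \ β) l ∧
      ∀ t ∈ l, Lk V {s | (s ∈ V ∧ s ∉ β) ∧ s ∈ K} x t := by
  have a0 : L0.a0 = -1 := rfl
  obtain ⟨l, ⟨U, hU⟩, hl⟩ := GE.extRW h (by rw [a0]; norm_num) (by rw [a0]; norm_num) (by norm_num)
    (by norm_num) (by norm_num) (fun u v a _ _ h3 h4 h5 h6 => (hst u v a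
      (abs_le.2 ⟨by linarith, by linarith⟩) (abs_le.2 ⟨by linarith, by linarith⟩)).trans (by norm_num))
  refine ⟨l, hl, fun t ht => linkR hS he g hU hl (low hS he h g) (by rw [a0]) (by norm_num) le_rfl
    (by norm_num) le_rfl le_rfl (by norm_num) ?_ ?_ ?_ ht⟩
  · intro s _ h1 h2 h3 h4
    exact hK s h1 (by linarith) (by linarith) (by linarith) fun _ => by linarith
  · intro s _ h1 h2 h3 h4
    exact hK s h1 (by linarith) h3 (by linarith) fun h5 => by linarith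
  · intro s _ h1 h2 h3 h4
    exact hK s (by linarith) (by linarith) (by linarith) (by linarith) fun _ => by linarith

/-- white, left -/
theorem wL (hS : GP (V : Set ℂ)) (he : e ≠ 0) (h : GE10 V z0 e β) (hst : St V z0 e) {y x : ℂ}
    (g : NeckD V z0 e (-1) 1 (-9) 10 1 V β y x) {K : Set ℂ}
    (hK : ∀ s, -11 < X z0 e s → X z0 e s < 1 → -9 < Y z0 e s → Y z0 e s < 9 →
      (X z0 e s ≤ -1 → 1 < Y z0 e s) → s ∈ K) :
    ∃ l, VC V z0 e (-(101 / 10)) (-10) 2 8 (1 / 20) (V \ β) l ∧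
      ∀ t ∈ l, Lk V {s | (s ∈ V ∧ s ∉ β) ∧ s ∈ K} x t := by
  have a1 : L0.a1 = 1 := rfl
  obtain ⟨l, ⟨U, hU⟩, hl⟩ := GE.extLW h (by norm_num) (by rw [a1]; norm_num) (by rw [a1]; norm_num)
    (by norm_num) (by norm_num) (fun u v a _ _ h3 h4 h5 h6 => (hst u v a
      (abs_le.2 ⟨by linarith, by linarith⟩) (abs_le.2 ⟨by linarith, by linarith⟩)).trans (by norm_num))
  refine ⟨l, hl, fun t ht => linkL hS he g hU hl (low hS he h g) (by rw [a1]) (by norm_num) le_rfl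
    (by norm_num) le_rfl le_rfl (by norm_num) ?_ ?_ ?_ ht⟩
  · intro s _ h1 h2 h3 h4
    exact hK s (by linarith) h1 (by linarith) (by linarith) fun _ => by linarith
  · intro s _ h1 h2 h3 h4
    exact hK s (by linarith) h2 h3 (by linarith) fun h5 => by linarith
  · intro s _ h1 h2 h3 h4
    exact hK s (by linarith) (by linarith) (by linarith) (by linarith) fun _ => by linarith

/-! ## the configuration `clr V β` -/

theorem Xη (s : ℂ) : X 0 (η : ℂ) s = s.re / η := by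
  unfold X
  rw [sub_zero, Complex.div_ofReal_re]

theorem Yη (s : ℂ) : Y 0 (η : ℂ) s = s.im / η := by
  unfold Y
  rw [sub_zero, Complex.div_ofReal_im]

theorem neck_iff (hη : 0 < η) {y x : ℂ} :
    NeckD V (g0 η).z0 (g0 η).e (g0 η).a0 (g0 η).a1 (g0 η).b0 (g0 η).b1 (g0 η).m V β y x ↔
      NeckD V 0 (η : ℂ) (-1) 1 (-9) 10 1 V β y x := by
  have h := neckD_scale (S := V) (V := V) (β := β) (z0 := 0) (e := 1) (a0 := -1) (a1 := 1)
    (b0 := -9) (b1 := 10) (m := 1) hη (y := y) (x := x)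
  rw [mul_one (η : ℂ)] at h
  rw [h]
  have e0 : g0 η = ⟨0, 1, η * -1, η * 1, η * -9, η * 10, η * 1⟩ := by
    unfold g0
    congr 1 <;> ring
  rw [e0]

/-- points near the window are dense and are in the box of the gate -/
theorem win_hol (_hη : 0 < η) (hd : 0 < d) (hdη : 4 * d ≤ η) (hD : LDns V 0 R r) (hR : 27 * η ≤ R)
    (hr : r ≤ d) : Hol (ps (clr V β)) (g0 η).win d := by
  rw [ps_clr]
  rintro w ⟨⟨h1, h2⟩, h3, h4⟩ z hz
  change -η < X 0 1 w at h1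
  change X 0 1 w < η at h2
  change -(9 * η) - η ≤ Y 0 1 w at h3
  change Y 0 1 w ≤ 10 * η + η at h4
  rw [X01] at h1 h2
  rw [Y01] at h3 h4
  have h5 : ‖w‖ ≤ 12 * η := by
    refine (Complex.norm_le_abs_re_add_abs_im w).trans ?_
    have a1 : |w.re| ≤ η := abs_le.2 ⟨by linarith, by linarith⟩
    have a2 : |w.im| ≤ 11 * η := abs_le.2 ⟨by linarith, by linarith⟩
    linarith
  obtain ⟨s, hs, h6⟩ := hD.hole z (by
    rw [sub_zero]
    have : ‖z‖ ≤ ‖z - w‖ + ‖w‖ := by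
      have := norm_add_le (z - w) w
      rwa [sub_add_cancel] at this
    linarith)
  exact ⟨s, hs, by linarith⟩

theorem win_Q (hη : 0 < η) (hdη : 4 * d ≤ η) :
    ∀ w ∈ (g0 η).win, ∀ s, ‖s - w‖ < 2 * d → s ∈ Q0 η := by
  rintro w ⟨⟨h1, h2⟩, h3, h4⟩ s hs
  change -η < X 0 1 w at h1
  change X 0 1 w < η at h2
  change -(9 * η) - η ≤ Y 0 1 w at h3
  change Y 0 1 w ≤ 10 * η + η at h4
  rw [X01] at h1 h2
  rw [Y01] at h3 h4
  have h5 := (Complex.abs_re_le_norm (s - w)).trans hs.le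
  have h6 := (Complex.abs_im_le_norm (s - w)).trans hs.le
  rw [Complex.sub_re, abs_le] at h5
  rw [Complex.sub_im, abs_le] at h6
  refine ⟨abs_lt.2 ⟨?_, ?_⟩, abs_lt.2 ⟨?_, ?_⟩⟩ <;> linarith

/-- **the selected gate dart exists** -/
theorem lg_ex (hη : 0 < η) (hd : 0 < d) (hdη : 4 * d ≤ η) (hβ : β ⊆ V) (hD : LDns V 0 R r)
    (hR : 27 * η ≤ R) (hr : r ≤ d) (h : GE10 V 0 (η : ℂ) β) :
    ∃ p, LG (g0 η) (Q0 η) (clr V β) p := by
  have hX := clr_finite V β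
  refine (LG_exists (g := g0 η) one_ne_zero hX).2 ?_
  obtain ⟨y, x, hN⟩ := h.neck
  refine ⟨(y, x), (NX_cut hX hd (win_hol hη hd hdη hD hR hr) (win_Q hη hdη)).2 ⟨hX, ?_⟩⟩
  rw [sX_clr, bX_clr hβ]
  exact (neck_iff hη).2 hN

/-- **the selected gate dart is a neck** -/
theorem lg_neck (hη : 0 < η) (hd : 0 < d) (hdη : 4 * d ≤ η) (hβ : β ⊆ V) (hD : LDns V 0 R r)
    (hR : 27 * η ≤ R) (hr : r ≤ d) {p : ℂ × ℂ} (hp : LG (g0 η) (Q0 η) (clr V β) p) :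
    NeckD V 0 (η : ℂ) (-1) 1 (-9) 10 1 V β p.1 p.2 := by
  have h := LG_neck (clr_finite V β) hd (win_hol hη hd hdη hD hR hr) (win_Q hη hdη) hp
  rw [sX_clr, bX_clr hβ] at h
  exact (neck_iff hη).1 h

/-- one half from a landing chain -/
theorem hf_of {S A : Finset ℂ} {l0 l1 p0 p1 m : ℝ} {K : Set ℂ} {f : ℂ × ℂ → ℂ} {X : Cf}
    {p : ℂ × ℂ} (hp : LG (g0 η) (Q0 η) X p)
    (h : ∃ l, VC S z0 e l0 l1 p0 p1 m A l ∧ ∀ t ∈ l, Lk S {v | v ∈ A ∧ v ∈ K} (f p) t) :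
    Hf S z0 e l0 l1 p0 p1 m K {y | ∃ q, LG (g0 η) (Q0 η) X q ∧ f q = y} A := by
  obtain ⟨l, h1, h2⟩ := h
  refine ⟨l, h1, ?_⟩
  rintro y ⟨q, hq, rfl⟩ s hs
  rw [hp.uniq hq]
  exact h2 s hs

theorem wh_of {S : Finset ℂ} {l0 l1 p0 p1 m : ℝ} {K : Set ℂ} {x : ℂ}
    (h : ∃ l, VC S z0 e l0 l1 p0 p1 m (V \ β) l ∧
      ∀ t ∈ l, Lk S {s | (s ∈ V ∧ s ∉ β) ∧ s ∈ K} x t) :
    ∃ l, VC S z0 e l0 l1 p0 p1 m (V \ β) l ∧ ∀ t ∈ l, Lk S {v | v ∈ V \ β ∧ v ∈ K} x t := by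
  obtain ⟨l, h1, h2⟩ := h
  exact ⟨l, h1, fun t ht => (h2 t ht).mono fun s hs => ⟨Finset.mem_sdiff.2 hs.1, hs.2⟩⟩

/-- density in the boxes of the half events -/
theorem bx_den (hη : 0 < η) (hD : LDns V 0 R r) (hR : 27 * η ≤ R) (hr : 2 * r ≤ d)
    (x0 x1 : ℝ) (h0 : -(12 * η) ≤ x0) (h1 : x1 ≤ 12 * η) :
    ∀ z ∈ Bx x0 x1 (-(11 * η)) (11 * η), ∃ s ∈ ps (clr V β), ‖s - z‖ < d / 2 := by
  rintro z ⟨⟨a1, a2⟩, a3, a4⟩
  rw [ps_clr]
  obtain ⟨s, hs, h6⟩ := hD.hole z (by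
    rw [sub_zero]
    refine (Complex.norm_le_abs_re_add_abs_im z).trans ?_
    have b1 : |z.re| ≤ 12 * η := abs_le.2 ⟨by linarith, by linarith⟩
    have b2 : |z.im| ≤ 11 * η := abs_le.2 ⟨by linarith, by linarith⟩
    linarith)
  exact ⟨s, hs, by linarith⟩

theorem nη (hη : 0 < η) : (η : ℂ) ≠ 0 := by exact_mod_cast hη.ne'

theorem nnη (hη : 0 < η) : ‖(η : ℂ)‖ = η := by
  rw [Complex.norm_real, Real.norm_eq_abs, abs_of_pos hη]

/-- **right half event** -/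
theorem rh_ge (hη : 0 < η) (hd : 0 < d) (hdη : 4 * d ≤ η) (hβ : β ⊆ V) (hD : LDns V 0 R r)
    (hR : 27 * η ≤ R) (hr : 2 * r ≤ d) (hr' : 20 * r ≤ η) (h : GE10 V 0 (η : ℂ) β) :
    RH η d (clr V β) := by
  have hrd : r ≤ d := by linarith [hD.dpos]
  obtain ⟨p, hp⟩ := lg_ex hη hd hdη hβ hD hR hrd h
  have hN := lg_neck hη hd hdη hβ hD hR hrd hp
  have hst : St V 0 (η : ℂ) := st_of (nη hη) hD (by rwa [nnη hη]) (by rwa [nnη hη])
  refine rh_of hη hd hdη (clr_finite V β) (bx_den hη hD hR hr _ _ (by linarith) le_rfl) ?_ ?_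
  · rw [sX_clr, bX_clr hβ]
    refine hf_of (f := Prod.fst) hp (bR hD.gp (nη hη) h hN ?_)
    intro s h1 h2 h3 h4
    rw [Xη, lt_div_iff₀ hη] at h1
    rw [Xη, div_lt_iff₀ hη] at h2
    rw [Yη, lt_div_iff₀ hη] at h3
    rw [Yη, div_lt_iff₀ hη] at h4
    exact ⟨⟨by linarith, h2⟩, abs_lt.2 ⟨by linarith, by linarith⟩, fun _ => by linarith⟩
  · rw [sX_clr, wX_clr hβ]
    refine hf_of (f := Prod.snd) hp (wh_of (wR hD.gp (nη hη) h hst hN ?_))
    intro s h1 h2 h3 h4 h5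
    rw [Xη, lt_div_iff₀ hη] at h1
    rw [Xη, div_lt_iff₀ hη] at h2
    rw [Yη, lt_div_iff₀ hη] at h3
    rw [Yη, div_lt_iff₀ hη] at h4
    rw [Xη, le_div_iff₀ hη, Yη, lt_div_iff₀ hη] at h5
    exact ⟨⟨by linarith, h2⟩, abs_lt.2 ⟨by linarith, h4⟩, fun h6 => by linarith [h5 (by linarith)]⟩

/-- **left half event** -/
theorem lh_ge (hη : 0 < η) (hd : 0 < d) (hdη : 4 * d ≤ η) (hβ : β ⊆ V) (hD : LDns V 0 R r)
    (hR : 27 * η ≤ R) (hr : 2 * r ≤ d) (hr' : 20 * r ≤ η) (h : GE10 V 0 (η : ℂ) β) :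
    LH η d (clr V β) := by
  have hrd : r ≤ d := by linarith [hD.dpos]
  obtain ⟨p, hp⟩ := lg_ex hη hd hdη hβ hD hR hrd h
  have hN := lg_neck hη hd hdη hβ hD hR hrd hp
  have hst : St V 0 (η : ℂ) := st_of (nη hη) hD (by rwa [nnη hη]) (by rwa [nnη hη])
  refine lh_of hη hd hdη (clr_finite V β) (bx_den hη hD hR hr _ _ le_rfl (by linarith)) ?_ ?_
  · rw [sX_clr, bX_clr hβ]
    refine hf_of (f := Prod.fst) hp (bL hD.gp (nη hη) h hN ?_)
    intro s h1 h2 h3 h4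
    rw [Xη, lt_div_iff₀ hη] at h1
    rw [Xη, div_lt_iff₀ hη] at h2
    rw [Yη, lt_div_iff₀ hη] at h3
    rw [Yη, div_lt_iff₀ hη] at h4
    exact ⟨⟨by linarith, by linarith⟩, abs_lt.2 ⟨by linarith, by linarith⟩, fun _ => by linarith⟩
  · rw [sX_clr, wX_clr hβ]
    refine hf_of (f := Prod.snd) hp (wh_of (wL hD.gp (nη hη) h hst hN ?_))
    intro s h1 h2 h3 h4 h5
    rw [Xη, lt_div_iff₀ hη] at h1
    rw [Xη, div_lt_iff₀ hη] at h2
    rw [Yη, lt_div_iff₀ hη] at h3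
    rw [Yη, div_lt_iff₀ hη] at h4
    rw [Xη, div_le_iff₀ hη, Yη, lt_div_iff₀ hη] at h5
    exact ⟨⟨by linarith, by linarith⟩, abs_lt.2 ⟨by linarith, h4⟩,
      fun h6 => by linarith [h5 (by linarith)]⟩

/-- **helper653's gate event** -/
theorem fg_ge {P : TplIx204.DT} (hg : P.g = g0 η) (hQ : P.Q = Q0 η) (hη : 0 < η) (hd : 0 < d)
    (hdη : 4 * d ≤ η) (hβ : β ⊆ V) (hD : LDns V 0 R r) (hR : 27 * η ≤ R) (hr : 2 * r ≤ d)
    (hr' : 20 * r ≤ η) (h : GE10 V 0 (η : ℂ) β) : FG P (RH η d) (LH η d) (clr V β) := by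
  have hrd : r ≤ d := by linarith [hD.dpos]
  obtain ⟨p, hp⟩ := lg_ex hη hd hdη hβ hD hR hrd h
  refine ⟨⟨(clr_finite V β).subset Set.inter_subset_left, p, ?_⟩,
    rh_ge hη hd hdη hβ hD hR hr hr' h, lh_ge hη hd hdη hβ hD hR hr hr' h⟩
  rw [hg, hQ]
  exact (LG_cut subset_rfl p).2 hp

/-- **probability of helper653's gate event** -/
theorem fg_pr {P : TplIx204.DT} (hg : P.g = g0 η) (hQ : P.Q = Q0 η) (hη : 0 < η) (hd : 0 < d)
    (hdη : 4 * d ≤ η) (hD : LDns V 0 R r) (hR : 27 * η ≤ R) (hr : 2 * r ≤ d)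
    (hr' : 20 * r ≤ η) {c : ℝ} (h : c ≤ pr V (GEn V V 0 (η : ℂ) 10)) :
    c ≤ pr V fun β => FG P (RH η d) (LH η d) (clr V β) :=
  h.trans (pr_mono fun _ hβ h1 => fg_ge hg hQ hη hd hdη hβ hD hR hr hr' h1)

/-- the same from helper838's environment -/
theorem fg_nva {P : TplIx204.DT} (hg : P.g = g0 η) (hQ : P.Q = Q0 η) (hη : 0 < η) (hd : 0 < d)
    (hdη : 4 * d ≤ η) {K c2 C4 : ℝ} (hK : 20 ≤ K) (hN : NvA V 0 (K * (5 * η)) c2 (5 * η) r C4)
    (hr : 2 * r ≤ d) (hr' : 20 * r ≤ η) {c : ℝ} (h : c ≤ pr V (GEn V V 0 (η : ℂ) 10)) :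
    c ≤ pr V fun β => FG P (RH η d) (LH η d) (clr V β) :=
  fg_pr hg hQ hη hd hdη hN.dns (by nlinarith) hr hr' h

end Crest.Agent.R143.GeHx345
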