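import Crest.Agent.R143.TentE_359

/-!
# Row 143 (S0194), block D: configurations with null frontier (helper422)

* `fr_cells`, `fr_cone`, `fr_thick` : frontiers of unions of cells, cones, thickenings are null
* `tentP` : TENT with null frontiers
-/

set_option autoImplicit false

noncomputable section

namespace Crest.Agent.R143.NullFx422

open Set Metric MeasureTheory Filter Topology
open Crest.Agent.R158 Crest.Agent.R158.Sp896 Crest.Agent.R158.Tj656 Crest.Agent.R158.Tg331
open Crest.Agent.R143.Tentx359 Crest.Agent.R143.TentAx951 Crest.Agent.R143.TentBx951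
open Crest.Agent.R143.Tenx416 Crest.Agent.R143.TentDx359

/-! ### lines -/

/-- real linear form -/
def lf (u w : ℝ) : ℂ →ₗ[ℝ] ℝ := u • Complex.reLm + w • Complex.imLm

theorem lf_apply (u w : ℝ) (z : ℂ) : lf u w z = u * z.re + w * z.im := by
  simp [lf]

theorem line_null {u w : ℝ} (h : u ≠ 0 ∨ w ≠ 0) (t : ℝ) :
    volume {z : ℂ | u * z.re + w * z.im = t} = 0 := by
  by_cases hne : ({z : ℂ | u * z.re + w * z.im = t} : Set ℂ).Nonempty
  · obtain ⟨z0, hz0⟩ := hne
    set A : AffineSubspace ℝ ℂ := AffineSubspace.mk' z0 (LinearMap.ker (lf u w)) with hA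
    have e : {z : ℂ | u * z.re + w * z.im = t} = (A : Set ℂ) := by
      ext z
      rw [hA, SetLike.mem_coe, AffineSubspace.mem_mk', vsub_eq_sub, LinearMap.mem_ker, map_sub,
        lf_apply, lf_apply]
      have h0 : u * z0.re + w * z0.im = t := hz0
      show u * z.re + w * z.im = t ↔ _
      rw [h0, sub_eq_zero]
    rw [e]
    refine Measure.addHaar_affineSubspace volume A fun htop => ?_
    have h1 : ∀ z : ℂ, z ∈ A := fun z => by rw [htop]; exact AffineSubspace.mem_top ℝ ℂ z
    have h2 : ∀ z : ℂ, u * z.re + w * z.im = t := fun z => by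
      have := h1 z
      rw [← SetLike.mem_coe, ← e] at this
      exact this
    have h3 := h2 0
    have h4 := h2 1
    have h5 := h2 Complex.I
    simp at h3 h4 h5
    rcases h with h | h
    · exact h (by rw [h4, ← h3])
    · exact h (by rw [h5, ← h3])
  · rw [Set.not_nonempty_iff_eq_empty.1 hne]
    exact measure_empty

/-! ### cells -/

theorem fr_cells {s : ℝ} {F : Set V} (hcl : IsClosed {z | ∃ q ∈ F, z ∈ sq s q}) :
    volume (frontier {z | ∃ q ∈ F, z ∈ sq s q}) = 0 := by
  have hsub : frontier {z | ∃ q ∈ F, z ∈ sq s q} ⊆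
      (⋃ n : ℤ, {z : ℂ | 1 * z.re + 0 * z.im = s * n}) ∪
      ⋃ n : ℤ, {z : ℂ | 0 * z.re + 1 * z.im = s * n} := by
    intro z hz
    rw [hcl.frontier_eq] at hz
    obtain ⟨⟨q, hq, h1, h2, h3, h4⟩, hni⟩ := hz
    by_contra hcon
    simp only [mem_union, mem_iUnion, mem_ofPred_eq, one_mul, zero_mul, add_zero, zero_add,
      not_or, not_exists] at hcon
    obtain ⟨c1, c2⟩ := hcon
    apply hni
    rw [mem_interior]
    refine ⟨{w : ℂ | s * q.1 < w.re ∧ w.re < s * (q.1 + 1) ∧ s * q.2 < w.im ∧
      w.im < s * (q.2 + 1)}, ?_, ?_, ?_⟩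
    · rintro w ⟨k1, k2, k3, k4⟩
      exact ⟨q, hq, k1.le, k2.le, k3.le, k4.le⟩
    · exact (isOpen_lt continuous_const Complex.continuous_re).inter
        ((isOpen_lt Complex.continuous_re continuous_const).inter
          ((isOpen_lt continuous_const Complex.continuous_im).inter
            (isOpen_lt Complex.continuous_im continuous_const)))
    · have e1 := c1 q.1
      have e2 := c1 (q.1 + 1)
      have e3 := c2 q.2
      have e4 := c2 (q.2 + 1)
      push_cast at e2 e4
      exact ⟨lt_of_le_of_ne h1 fun h => e1 h.symm, lt_of_le_of_ne h2 e2,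
        lt_of_le_of_ne h3 fun h => e3 h.symm, lt_of_le_of_ne h4 e4⟩
  refine measure_mono_null hsub (measure_union_null ?_ ?_)
  · exact measure_iUnion_null fun n => line_null (Or.inl one_ne_zero) _
  · exact measure_iUnion_null fun n => line_null (Or.inr one_ne_zero) _

theorem Pg_eq (s : ℝ) (F : Set V) : Pg s F = {z | ∃ q ∈ F, z ∈ sq s q} := by
  ext z
  simp [Pg]

/-! ### cones -/

theorem fr_le_null {f g : ℂ → ℝ} (hf : Continuous f) (hg : Continuous g)
    (h : volume {z | f z = g z} = 0) : volume (frontier {z | f z ≤ g z}) = 0 :=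
  measure_mono_null (frontier_le_subset_eq hf hg) h

theorem fr_cone {σ : ℝ} (hσ : 0 < σ) (c : V) {M : ℤ} (hM : 0 ≤ M) (k : ZMod 4) :
    volume (frontier (cone σ c M k)) = 0 := by
  have e : cone σ c M k = {z | LL σ M / 2 ≤ ‖z - cen σ c‖} ∩ ({z | 0 ≤ aa σ c k z} ∩
      {z | |bb σ c k z| ≤ σ / LL σ M * ‖z - cen σ c‖}) := by
    ext z
    rw [mem_cone' hσ hM]
    rfl
  have hL := LL_pos hσ hM
  have n1 : volume (frontier {z : ℂ | LL σ M / 2 ≤ ‖z - cen σ c‖}) = 0 := by
    apply fr_le_null continuous_const (by fun_prop)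
    have : {z : ℂ | LL σ M / 2 = ‖z - cen σ c‖} = sphere (cen σ c) (LL σ M / 2) := by
      ext z
      rw [mem_sphere_iff_norm]
      exact eq_comm
    rw [this]
    exact Measure.addHaar_sphere_of_ne_zero _ _ (by positivity)
  -- the directions
  have hd : ((dir k.val).1 : ℝ) ^ 2 + ((dir k.val).2 : ℝ) ^ 2 = 1 := by
    unfold dir
    rcases k_cases k with ⟨-, h⟩ | ⟨-, h⟩ | ⟨-, h⟩ | ⟨-, h⟩ <;> rw [h] <;> norm_num
  have hlin : ∀ α β t : ℝ, (α ≠ 0 ∨ β ≠ 0) →
      volume {z | α * aa σ c k z + β * bb σ c k z = t} = 0 := by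
    intro α β t hab
    set p : ℝ := (((dir k.val).1 : ℤ) : ℝ) with hp
    set r : ℝ := (((dir k.val).2 : ℤ) : ℝ) with hr
    have hrot1 : (((rot (dir k.val)).1 : ℤ) : ℝ) = -r := by
      rw [hr]; unfold rot; push_cast; ring
    have hrot2 : (((rot (dir k.val)).2 : ℤ) : ℝ) = p := by
      rw [hp]; unfold rot; push_cast; ring
    have e1 : {z | α * aa σ c k z + β * bb σ c k z = t} =
        {z : ℂ | (α * p - β * r) * z.re + (α * r + β * p) * z.im =
          t + (α * p - β * r) * (cen σ c).re + (α * r + β * p) * (cen σ c).im} := by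
      ext z
      simp only [mem_ofPred_eq]
      unfold aa bb
      rw [hrot1, hrot2]
      constructor <;> intro h <;> linarith
    rw [e1]
    apply line_null
    by_contra hcon
    rw [not_or, not_not, not_not] at hcon
    obtain ⟨h1, h2⟩ := hcon
    have h3 : α ^ 2 + β ^ 2 = 0 := by
      have : (α ^ 2 + β ^ 2) * (p ^ 2 + r ^ 2) = (α * p - β * r) ^ 2 + (α * r + β * p) ^ 2 := by
        ring
      rw [hd, mul_one] at this
      rw [this, h1, h2]; ring
    rcases hab with h | h
    · exact h (by nlinarith [sq_nonneg α, sq_nonneg β])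
    · exact h (by nlinarith [sq_nonneg α, sq_nonneg β])
  have n2 : volume (frontier {z | 0 ≤ aa σ c k z}) = 0 := by
    apply fr_le_null continuous_const (continuous_aa σ c k)
    have := hlin 1 0 0 (Or.inl one_ne_zero)
    refine measure_mono_null (fun z hz => ?_) this
    have hz' : (0 : ℝ) = aa σ c k z := hz
    show 1 * aa σ c k z + 0 * bb σ c k z = 0
    linarith
  have n3 : volume (frontier {z | |bb σ c k z| ≤ σ / LL σ M * ‖z - cen σ c‖}) = 0 := by
    apply fr_le_null (continuous_bb σ c k).abs (by fun_prop)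
    set κ := σ / LL σ M with hκ
    have hκ1 : κ ≤ 1 / 16 := ratio hσ hM
    have hκ0 : 0 < κ := div_pos hσ hL
    set ρ := κ / Real.sqrt (1 - κ ^ 2) with hρ
    have h1 : 0 < 1 - κ ^ 2 := by nlinarith
    have hs : 0 < Real.sqrt (1 - κ ^ 2) := Real.sqrt_pos.2 h1
    have hρ2 : ρ ^ 2 * (1 - κ ^ 2) = κ ^ 2 := by
      rw [hρ, div_pow, Real.sq_sqrt h1.le]
      field_simp
    refine measure_mono_null (fun z hz => ?_) (measure_union_null
      (hlin (-ρ) 1 0 (Or.inr one_ne_zero)) (hlin ρ 1 0 (Or.inr one_ne_zero)))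
    have hz' : |bb σ c k z| = κ * ‖z - cen σ c‖ := hz
    have h2 : bb σ c k z ^ 2 = κ ^ 2 * (aa σ c k z ^ 2 + bb σ c k z ^ 2) := by
      rw [← norm_sq, ← sq_abs (bb σ c k z), hz']; ring
    have h3 : (bb σ c k z - ρ * aa σ c k z) * (bb σ c k z + ρ * aa σ c k z) = 0 := by
      have : (1 - κ ^ 2) * ((bb σ c k z - ρ * aa σ c k z) * (bb σ c k z + ρ * aa σ c k z)) = 0 := by
        have e1 : (1 - κ ^ 2) * ((bb σ c k z - ρ * aa σ c k z) * (bb σ c k z + ρ * aa σ c k z)) =
          (1 - κ ^ 2) * bb σ c k z ^ 2 - ρ ^ 2 * (1 - κ ^ 2) * aa σ c k z ^ 2 := by ring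
        rw [e1, hρ2]
        linarith
      exact (mul_eq_zero.1 this).resolve_left h1.ne'
    rcases mul_eq_zero.1 h3 with h4 | h4
    · left
      show -ρ * aa σ c k z + 1 * bb σ c k z = 0
      linarith
    · right
      show ρ * aa σ c k z + 1 * bb σ c k z = 0
      linarith
  rw [e]
  refine measure_mono_null (frontier_inter_subset _ _) (measure_union_null
    (measure_mono_null inter_subset_left n1) (measure_mono_null inter_subset_right ?_))
  exact measure_mono_null (frontier_inter_subset _ _) (measure_union_null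
    (measure_mono_null inter_subset_left n2) (measure_mono_null inter_subset_right n3))

theorem fr_TT {σ : ℝ} (hσ : 0 < σ) (U : ℕ → ℕ → V) (k : ZMod 4) :
    volume (frontier (TT σ U k)) = 0 := by
  have e : TT σ U k = {z | ∃ q ∈ {q : V | ∃ j, q = U k.val (j + 1)}, z ∈ sq σ q} := by
    ext z
    constructor
    · rintro ⟨j, h⟩
      exact ⟨_, ⟨j, rfl⟩, h⟩
    · rintro ⟨q, ⟨j, rfl⟩, h⟩
      exact ⟨j, h⟩
  have hc := isClosed_TT hσ U k
  rw [e] at hc ⊢
  exact fr_cells hc

theorem fr_BB {σ : ℝ} (hσ : 0 < σ) (U : ℕ → ℕ → V) (c : V) {M : ℤ} (hM : 0 ≤ M) (k : ZMod 4) :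
    volume (frontier (BB σ U c M k)) = 0 := by
  unfold BB
  refine measure_mono_null (frontier_union_subset _ _) (measure_union_null
    (measure_mono_null inter_subset_left (fr_TT hσ U k))
    (measure_mono_null inter_subset_right (fr_cone hσ c hM k)))

/-! ### thickenings -/

theorem fr_thick {A : Set ℂ} (hA : IsCompact A) {e : ℝ} (he : 0 < e) :
    volume (frontier (thickening e A)) = 0 := by
  set S := frontier (thickening e A) with hS
  have hopen : IsOpen (thickening e A) := isOpen_thickening
  have hSd : Disjoint S (thickening e A) := by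
    rw [hS, hopen.frontier_eq]
    exact disjoint_sdiff_left
  have hae := IsUnifLocDoublingMeasure.ae_tendsto_measure_inter_div (volume : Measure ℂ) S 1
  have hkey : ∀ᵐ x ∂(volume.restrict S), x ∉ S := by
    filter_upwards [hae] with x hx hxS
    -- a nearest point
    have hx1 : infDist x A = e := by
      have h1 := frontier_thickening_subset A hxS
      have hne : A.Nonempty := by
        by_contra hcon
        rw [Set.not_nonempty_iff_eq_empty] at hcon
        rw [hS, hcon, thickening_empty, frontier_empty] at hxS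
        exact hxS
      have h2 : Metric.infEDist x A = ENNReal.ofReal e := h1
      unfold infDist
      rw [h2, ENNReal.toReal_ofReal he.le]
    have hne : A.Nonempty := by
      by_contra hcon
      rw [Set.not_nonempty_iff_eq_empty] at hcon
      rw [hcon, infDist_empty] at hx1
      exact he.ne hx1
    obtain ⟨a, ha, hxa⟩ := hA.exists_infDist_eq_dist hne x
    rw [hx1] at hxa
    -- balls touching `x` from inside
    set δ : ℕ → ℝ := fun n => e / (n + 1) with hδ
    set w : ℕ → ℂ := fun n => x + ((1 / ((n : ℝ) + 1) : ℝ) : ℂ) * (a - x) with hw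
    have hδp : ∀ n, 0 < δ n := fun n => by
      rw [hδ]; positivity
    have hδlim : Tendsto δ atTop (𝓝[>] 0) := by
      rw [tendsto_nhdsWithin_iff]
      refine ⟨?_, Eventually.of_forall hδp⟩
      have := tendsto_one_div_add_atTop_nhds_zero_nat.const_mul e
      simpa [hδ, div_eq_mul_inv] using this
    have hna : ‖a - x‖ = e := by
      rw [← dist_eq_norm, dist_comm, ← hxa]
    have hwx : ∀ n, dist x (w n) = δ n := fun n => by
      rw [dist_comm, dist_eq_norm, hw]
      simp only [add_sub_cancel_left]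
      rw [norm_mul, Complex.norm_real, Real.norm_eq_abs, abs_of_pos (by positivity), hna, hδ]
      ring
    have hwa : ∀ n, dist (w n) a = e - δ n := fun n => by
      rw [dist_eq_norm, hw]
      have e1 : x + ((1 / ((n : ℝ) + 1) : ℝ) : ℂ) * (a - x) - a =
          ((1 / ((n : ℝ) + 1) - 1 : ℝ) : ℂ) * (a - x) := by push_cast; ring
      simp only [e1]
      have h1 : 1 / ((n : ℝ) + 1) ≤ 1 := by
        rw [div_le_one (by positivity)]
        linarith [Nat.cast_nonneg (α := ℝ) n]
      rw [norm_mul, Complex.norm_real, Real.norm_eq_abs, abs_of_nonpos (by linarith), hna, hδ]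
      ring
    have hlim := hx w δ hδlim (Eventually.of_forall fun n => by
      rw [mem_closedBall, one_mul]
      exact (hwx n).le)
    have hz : ∀ n, volume (S ∩ closedBall (w n) (δ n)) = 0 := by
      intro n
      refine measure_mono_null (t := sphere (w n) (δ n)) ?_
        (Measure.addHaar_sphere_of_ne_zero _ _ (hδp n).ne')
      rintro y ⟨hyS, hyb⟩
      rw [mem_closedBall] at hyb
      rw [mem_sphere]
      by_contra hne'
      have hlt : dist y (w n) < δ n := lt_of_le_of_ne hyb hne'
      have h1 : y ∈ thickening e A := by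
        refine mem_thickening_iff.2 ⟨a, ha, ?_⟩
        have := dist_triangle y (w n) a
        rw [hwa n] at this
        linarith
      exact disjoint_left.1 hSd hyS h1
    have h0 : Tendsto (fun n => volume (S ∩ closedBall (w n) (δ n)) /
        volume (closedBall (w n) (δ n))) atTop (𝓝 0) := by
      simp_rw [hz, ENNReal.zero_div]
      exact tendsto_const_nhds
    exact zero_ne_one (tendsto_nhds_unique h0 hlim)
  have h1 : (volume.restrict S) S = 0 := by
    rw [ae_iff] at hkey
    simpa using hkey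
  rwa [Measure.restrict_apply_self] at h1

/-! ### TENT -/

/-- TENT with null frontiers -/
def TENTP : Prop := ∀ (s : ℝ) (F : Set V) (N : ℕ) (v : ℕ → V) (m : ℕ → ℕ), 0 < s → F.Finite →
  (∀ q ∈ F, ∀ q' ∈ F, Con F q q') → (∀ q ∉ F, ∀ q' ∉ F, Con Fᶜ q q') → Cyc F N v →
  m 0 < m 1 → m 1 < m 2 → m 2 < m 3 → m 3 < N →
  ∃ (C : Cfgx416.Cfg 4) (δ κ : ℝ) (B : ZMod 4 → Set ℂ), Ten s F N v m C δ κ B ∧
    ∀ k, volume (frontier (B k)) = 0

theorem tentP : TENTP := by
  intro s F N v m hs hF h1 h2 hv m01 m12 m23 m3N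
  obtain ⟨c, M, U, H⟩ := exFine F N v m hF h1 h2 hv m01 m12 m23 m3N
  have hσ : 0 < s / 81 := by positivity
  have e81 : s / (2 * ((40 : ℕ) : ℝ) + 1) = s / 81 := by norm_num
  have hPg : Pg (s / 81) (ref 40 F) = Pg s F := by
    rw [← e81]
    exact Pg_ref 40 F hs
  exact ⟨CC (s / 81) (ref 40 F) (vref 40 v) (mref 40 m) c M U, s / 81, s / 81 / 4,
    BB (s / 81) U c M,
    { ok := CC_ok H hσ
      kpos := by positivity
      ks := by linarith
      bd := by
        intro z hz
        rw [mem_closedBall, dist_eq_norm]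
        rw [← hPg] at hz
        exact Pg_norm H hσ hz
      Bc := fun k => isClosed_BB hσ U c (M_nonneg H) k
      body := by rw [body_eq H hσ, hPg]
      mth := fun k w hw x hx hd => mth hs hv H hw hx hd
      nb := TentPx951.f_nb H hs
      side := TentPx951.f_side H hs hv m01 m12 m23 m3N
      near := TentPx951.f_near H hs hv m01 m12 m23 m3N
      tt := fun j k hjk y hy w hw => tt H hσ hjk hy hw
      tr := fun k y hy w hd => by
        rw [← hPg]
        exact tr H hσ hy hd
      tc := fun k => tc k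
      mouth := TentPx951.f_mouth H hs hv }, fun k => fr_BB hσ U c (M_nonneg H) k⟩

/-- the polygon has null frontier -/
theorem fr_Pg {s : ℝ} {F : Set V} (hF : F.Finite) : volume (frontier (Pg s F)) = 0 := by
  rw [Pg_eq]
  apply fr_cells
  rw [← Pg_eq]
  exact hF.isClosed_biUnion fun q _ => isClosed_sq s q

end Crest.Agent.R143.NullFx422
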