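import Crest.Agent.R143.CdT_806
import Crest.Agent.R143.NullF_422

/-!
# Row 143 (S0194), FIX A (758), spine side, file 1 (helper904): thin tentacles

* `fr_Bt` : the tentacles of 806 have null frontier
* `TENTK` : for a fixed polygon there are configurations with tentacles of width `δ ≤ θ` for every
  `θ > 0`, in a fixed disc: `‖C.c‖ + C.L ≤ L0`
* `tentK : TENTK`
-/

set_option autoImplicit false

noncomputable section

namespace Crest.Agent.R143.TenKx904

open Set Metric MeasureTheory Filter Topology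
open Crest.Agent.R158.Sp896 Crest.Agent.R143.Tentx359 Crest.Agent.R158.Tj656
open Crest.Agent.R143.Tenx416 (nx Pg OnS Ten TENT)
open Crest.Agent.R143.Cdx806 Crest.Agent.R143.NullFx422

theorem fa_line {α β : ℝ} (h : α ≠ 0 ∨ β ≠ 0) (p : ℂ) (k : ZMod 4) (t : ℝ) :
    volume {z | α * fa p k z + β * fa p (k + 1) z = t} = 0 := by
  rcases z4 k with rfl | rfl | rfl | rfl
  · have e : {z | α * fa p 0 z + β * fa p (0 + 1) z = t} =
        {z : ℂ | α * z.re + β * z.im = t + α * p.re + β * p.im} := by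
      ext z
      rw [show (0 : ZMod 4) + 1 = 1 from rfl]
      simp only [mem_ofPred_eq, fa0, fa1, Complex.sub_re, Complex.sub_im]
      constructor <;> intro h <;> linarith
    rw [e]; exact line_null h _
  · have e : {z | α * fa p 1 z + β * fa p (1 + 1) z = t} =
        {z : ℂ | (-β) * z.re + α * z.im = t - β * p.re + α * p.im} := by
      ext z
      rw [show (1 : ZMod 4) + 1 = 2 from rfl]
      simp only [mem_ofPred_eq, fa1, fa2, Complex.sub_re, Complex.sub_im]
      constructor <;> intro h <;> linarith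
    rw [e]; exact line_null (h.symm.imp (fun h => neg_ne_zero.2 h) id) _
  · have e : {z | α * fa p 2 z + β * fa p (2 + 1) z = t} =
        {z : ℂ | (-α) * z.re + (-β) * z.im = t - α * p.re - β * p.im} := by
      ext z
      rw [show (2 : ZMod 4) + 1 = 3 from rfl]
      simp only [mem_ofPred_eq, fa2, fa3, Complex.sub_re, Complex.sub_im]
      constructor <;> intro h <;> linarith
    rw [e]; exact line_null (h.imp (fun h => neg_ne_zero.2 h) (fun h => neg_ne_zero.2 h)) _
  · have e : {z | α * fa p 3 z + β * fa p (3 + 1) z = t} =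
        {z : ℂ | β * z.re + (-α) * z.im = t + β * p.re - α * p.im} := by
      ext z
      rw [show (3 : ZMod 4) + 1 = 0 from rfl]
      simp only [mem_ofPred_eq, fa3, fa0, Complex.sub_re, Complex.sub_im]
      constructor <;> intro h <;> linarith
    rw [e]; exact line_null (h.symm.imp id (fun h => neg_ne_zero.2 h)) _

theorem fr_Cn {s : ℝ} (hs : 0 < s) (c : V) {M : ℤ} (hM : 0 < M) (k : ZMod 4) :
    volume (frontier (Cn s c M k)) = 0 := by
  have hL := Lr_pos hs hM
  have e : Cn s c M k = {z | Lr s M / 2 ≤ ‖z - cen s c‖} ∩ ({z | 0 ≤ fa (cen s c) k z} ∩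
      {z | |fa (cen s c) (k + 1) z| ≤ s / Lr s M * ‖z - cen s c‖}) := rfl
  have n1 : volume (frontier {z : ℂ | Lr s M / 2 ≤ ‖z - cen s c‖}) = 0 := by
    apply fr_le_null continuous_const (by fun_prop)
    have : {z : ℂ | Lr s M / 2 = ‖z - cen s c‖} = sphere (cen s c) (Lr s M / 2) := by
      ext z
      rw [mem_sphere_iff_norm]
      exact eq_comm
    rw [this]
    exact Measure.addHaar_sphere_of_ne_zero _ _ (by positivity)
  have n2 : volume (frontier {z | 0 ≤ fa (cen s c) k z}) = 0 := by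
    apply fr_le_null continuous_const (fa_cont _ _)
    have := fa_line (α := 1) (β := 0) (Or.inl one_ne_zero) (cen s c) k 0
    refine measure_mono_null (fun z hz => ?_) this
    have hz' : (0 : ℝ) = fa (cen s c) k z := hz
    show 1 * fa (cen s c) k z + 0 * fa (cen s c) (k + 1) z = 0
    linarith
  have n3 : volume (frontier {z | |fa (cen s c) (k + 1) z| ≤ s / Lr s M * ‖z - cen s c‖}) = 0 := by
    apply fr_le_null (fa_cont _ _).abs (by fun_prop)
    set κ := s / Lr s M with hκ
    have hκ1 : κ ≤ 1 / 48 := e_le hs hM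
    have hκ0 : 0 < κ := e_pos hs hM
    set ρ := κ / Real.sqrt (1 - κ ^ 2) with hρ
    have h1 : 0 < 1 - κ ^ 2 := by nlinarith
    have hsq : 0 < Real.sqrt (1 - κ ^ 2) := Real.sqrt_pos.2 h1
    have hρ2 : ρ ^ 2 * (1 - κ ^ 2) = κ ^ 2 := by
      rw [hρ, div_pow, Real.sq_sqrt h1.le]
      field_simp
    refine measure_mono_null (fun z hz => ?_) (measure_union_null
      (fa_line (α := -ρ) (β := 1) (Or.inr one_ne_zero) (cen s c) k 0)
      (fa_line (α := ρ) (β := 1) (Or.inr one_ne_zero) (cen s c) k 0))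
    have hz' : |fa (cen s c) (k + 1) z| = κ * ‖z - cen s c‖ := hz
    have h2 : fa (cen s c) (k + 1) z ^ 2 =
        κ ^ 2 * (fa (cen s c) k z ^ 2 + fa (cen s c) (k + 1) z ^ 2) := by
      rw [← norm_sq, ← sq_abs (fa (cen s c) (k + 1) z), hz']; ring
    have h3 : (fa (cen s c) (k + 1) z - ρ * fa (cen s c) k z) *
        (fa (cen s c) (k + 1) z + ρ * fa (cen s c) k z) = 0 := by
      have : (1 - κ ^ 2) * ((fa (cen s c) (k + 1) z - ρ * fa (cen s c) k z) *
          (fa (cen s c) (k + 1) z + ρ * fa (cen s c) k z)) = 0 := by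
        have e1 : (1 - κ ^ 2) * ((fa (cen s c) (k + 1) z - ρ * fa (cen s c) k z) *
          (fa (cen s c) (k + 1) z + ρ * fa (cen s c) k z)) =
          (1 - κ ^ 2) * fa (cen s c) (k + 1) z ^ 2 -
            ρ ^ 2 * (1 - κ ^ 2) * fa (cen s c) k z ^ 2 := by ring
        rw [e1, hρ2]
        linarith
      exact (mul_eq_zero.1 this).resolve_left h1.ne'
    rcases mul_eq_zero.1 h3 with h4 | h4
    · left
      show -ρ * fa (cen s c) k z + 1 * fa (cen s c) (k + 1) z = 0
      linarith
    · right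
      show ρ * fa (cen s c) k z + 1 * fa (cen s c) (k + 1) z = 0
      linarith
  rw [e]
  refine measure_mono_null (frontier_inter_subset _ _) (measure_union_null
    (measure_mono_null inter_subset_left n1) (measure_mono_null inter_subset_right ?_))
  exact measure_mono_null (frontier_inter_subset _ _) (measure_union_null
    (measure_mono_null inter_subset_left n2) (measure_mono_null inter_subset_right n3))

theorem fr_Pg' {s : ℝ} (hs : 0 < s) (F : Set V) : volume (frontier (Pg s F)) = 0 := by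
  have hc := Pg_closed hs F
  rw [Pg_eq] at hc ⊢
  exact fr_cells hc

/-- the tentacles of 806 have null frontier -/
theorem fr_Bt {s : ℝ} (hs : 0 < s) (U : ℕ → ℕ → V) (c : V) {M : ℤ} (hM : 0 < M) (k : ZMod 4) :
    volume (frontier (Bt s c M U k)) = 0 := by
  unfold Bt
  refine measure_mono_null (frontier_union_subset _ _) (measure_union_null
    (measure_mono_null inter_subset_left (fr_Pg' hs _))
    (measure_mono_null inter_subset_right (fr_Cn hs c hM k)))

/-- TENT with null frontiers and arbitrarily thin tentacles in a fixed disc -/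
def TENTK : Prop := ∀ (s : ℝ) (F : Set V) (N : ℕ) (v : ℕ → V) (m : ℕ → ℕ), 0 < s → F.Finite →
  (∀ q ∈ F, ∀ q' ∈ F, Con F q q') → (∀ q ∉ F, ∀ q' ∉ F, Con Fᶜ q q') → Cyc F N v →
  m 0 < m 1 → m 1 < m 2 → m 2 < m 3 → m 3 < N →
  ∃ L0 : ℝ, 0 < L0 ∧ ∀ θ > 0, ∃ (C : Cfgx416.Cfg 4) (δ κ : ℝ) (B : ZMod 4 → Set ℂ),
    Ten s F N v m C δ κ B ∧ (∀ k, volume (frontier (B k)) = 0) ∧ ‖C.c‖ + C.L ≤ L0 ∧ δ ≤ θ

theorem tentK : TENTK := by
  intro S F N v m hS hfin hcon hcon' hcyc h01 h12 h23 h3
  obtain ⟨c, M, U, hcfg⟩ := exCfg F N v m hfin hcon hcon' hcyc h01 h12 h23 h3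
  have c1 : Cyc (ref 1 F) (3 * N) (vref 1 v) := TentAx951.refCyc 1 F N v hcyc
  have c2 : Cyc (ref 1 (ref 1 F)) (3 * (3 * N)) (vref 1 (vref 1 v)) :=
    TentAx951.refCyc 1 _ _ _ c1
  have R1 := refD_three hS m hcyc
  have R2 := refD_three R1.spos (mref 1 m) c1
  have R3 := refD_three R2.spos (mref 1 (mref 1 m)) c2
  set s3 : ℝ := S / 3 / 3 / 3 with hs3
  have hs3p : 0 < s3 := R3.spos
  have hMp : (0 : ℤ) < M := hcfg.M_pos
  have hMr : (0 : ℝ) < M := by exact_mod_cast hMp
  refine ⟨‖cen s3 c‖ + 16 * s3 * (M + 2), by positivity, fun θ hθ => ?_⟩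
  obtain ⟨h, hh⟩ := exists_nat_gt (max 1 (s3 / θ))
  have h1 : (1 : ℝ) < h := (le_max_left _ _).trans_lt hh
  have h2 : s3 / θ < h := (le_max_right _ _).trans_lt hh
  have hh1 : 1 ≤ h := by
    have : (1 : ℕ) < h := by exact_mod_cast h1
    omega
  have hK : (0 : ℝ) < ((2 * h + 1 : ℕ) : ℝ) := by positivity
  have hK' : ((2 * h + 1 : ℕ) : ℝ) = 2 * h + 1 := by push_cast; ring
  set t : ℝ := s3 / ((2 * h + 1 : ℕ) : ℝ) with ht
  have htp : 0 < t := by positivity
  have htS : ((2 * h + 1 : ℕ) : ℝ) * t = s3 := by rw [ht]; field_simp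
  have R4 := refD_one (h := h) htp (mref 1 (mref 1 (mref 1 m))) hcfg.cyc
  rw [htS] at R4
  have D := TentBx951.cells h hh1 _ _ _ _ c M U hcfg
  have R := ((R1.comp R2).comp R3).comp R4
  have hT := ten_of R (by
    have : 3 ≤ 2 * h + 1 := by omega
    nlinarith) D hcyc h01 h12 h23 h3
  have hM' : (0 : ℤ) < (2 * h + 1) * M := by positivity
  refine ⟨_, _, _, _, hT, fun k => fr_Bt htp _ _ hM' k, ?_, ?_⟩
  · show ‖cen t (cenc h c)‖ + Lr t ((2 * h + 1) * M) ≤ _
    have e1 : cen t (cenc h c) = cen s3 c := by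
      rw [← htS, hK']
      apply Complex.ext
      · simp only [cen, cenc]
        push_cast
        ring
      · simp only [cen, cenc]
        push_cast
        ring
    rw [e1]
    have e2 : Lr t ((2 * h + 1) * M) = 16 * (s3 * M + 2 * t) := by
      unfold Lr
      rw [← htS, hK']
      push_cast
      ring
    have e3 : t ≤ s3 := by
      rw [ht]
      apply div_le_self hs3p.le
      rw [hK']; linarith
    rw [e2]
    nlinarith
  · show t ≤ θ
    rw [ht, div_le_iff₀ hK, hK']
    have := (div_lt_iff₀ hθ).1 h2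
    nlinarith

end Crest.Agent.R143.TenKx904
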