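import Crest.Agent.R143.SwlP_422
import Crest.Agent.R143.TenK_904

/-!
# Row 143 (S0194), FIX A (758), spine side, file 2 (helper904): SWL with thin tentacles

* `GEOK` : GEO with null frontier; for every `θ > 0` a configuration with `δ ≤ θ` in a fixed disc
* `swlK : POLY → TENTK → GEOK` (copy of 922's / 422's `swlP` with one more quantifier)
* `geoK : GEOK`
-/

set_option autoImplicit false
set_option linter.all false

noncomputable section

open scoped Classical Topology
open Set Filter Metric MeasureTheory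

namespace Crest.Agent.R143.GeoKx904

open Crest.Agent.R158.Sp896 Crest.Agent.R158.Jt785
open Crest.ProbabilityR.Percolation
open Crest.Agent.R143.Cfgx416 Crest.Agent.R143.Tenx416 Crest.Agent.R143.Swlx922
  Crest.Agent.R143.Swl2x922 Crest.Agent.R143.Swl3x922 Crest.Agent.R143.NullFx422
  Crest.Agent.R143.SwlPx422 Crest.Agent.R143.TenKx904

variable {g : ℝ → ℂ} {f : ℂ → ℂ}

/-- GEO with null frontier of the outside and thin tentacles -/
def GEOK : Prop := ∀ (g : ℝ → ℂ) (f : ℂ → ℂ), Crest.Agent.R158.Jt785.Unif g f →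
  ∀ (D : Set ℂ) (A : ZMod 4 → Set ℂ) (m : ZMod 4 → ℂ),
  D = Crest.ProbabilityR.Percolation.jordanInterior g →
  (∀ i : ZMod 4, A i = Crest.Agent.R158.Sp896.arc g ((i.val : ℝ) / 4) (((i.val : ℝ) + 1) / 4)) →
  (∀ i : ZMod 4, m i = g ((i.val : ℝ) / 4)) →
  ∃ md : ℝ → ℝ, (∀ s > 0, 0 < md s) ∧ ∀ (T : Set (ZMod 4)), T = {0, 2} ∨ T = {1, 3} →
    ∀ (e : ℝ), 0 < e → ∀ K : Set ℂ, IsCompact K → K ⊆ D →
    ∃ L0 : ℝ, 0 < L0 ∧ ∀ θ > 0,
    ∃ (rv : Bool) (C : Cfg 4) (δ κ : ℝ) (G : Set ℂ) (B : ZMod 4 → Set ℂ),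
      Mac D (rvA rv A) (rvm rv m) (rvT rv T) md e K C δ κ G B ∧ volume (frontier C.out) = 0 ∧
      ‖C.c‖ + C.L ≤ L0 ∧ δ ≤ θ

/-- **leaf SWL + LINK**, with null frontier and thin tentacles -/
theorem swlK : POLY → TENTK → GEOK := by
  intro hPoly hTent g f h D A m hD hA hm
  subst hD
  have hAz : A = Az g := funext fun i => hA i
  have hmz : m = fun k : ZMod 4 => g ((k.val : ℝ) / 4) := funext fun i => hm i
  subst hAz
  subst hmz
  have hj := h.jc
  obtain ⟨md, hmd, hlink⟩ := Linkx606.link h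
  refine ⟨md, hmd, fun T hT e he K hK hKD => ?_⟩
  obtain ⟨r1, hr1, hl⟩ := hlink K hK hKD
  have hAlt := alt_of hT
  obtain ⟨η, h0, h1, hη⟩ := gp_unif hj (r := min (e / 8) r1) (by positivity)
  set p : ZMod 4 → ℂ := fun k => gp g (aa T η (k.val : ℤ)) with hp
  set AU : Set ℂ := ⋃ i ∈ T, Az g i with hAU
  have hAUc : IsClosed AU := Set.Finite.isClosed_biUnion (Set.toFinite T) fun i _ =>
    (isCompact_Az hj i).isClosed
  have hAtr : ∀ i, Az g i ⊆ curveTrace g := by
    rintro i _ ⟨t, ht, rfl⟩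
    have := val_le i
    exact ⟨t, ⟨le_trans (by positivity) ht.1, ht.2.trans (by linarith)⟩, rfl⟩
  have hAUs : AU ⊆ curveTrace g := iUnion₂_subset fun i _ => hAtr i
  have hpAU : ∀ k, p k ∉ AU := by
    intro k hk
    obtain ⟨i, hi, hk⟩ := mem_iUnion₂.1 hk
    exact mark_notin hj hAlt h0 h1 k i hi hk
  have hrp : ∀ (b : Bool) k, rvm b p k ∉ AU := by
    intro b k
    cases b with
    | false => exact hpAU k
    | true => exact hpAU (2 - k)
  choose κ0 hκ0 δ2 hδ2 hL using fun b : Bool => hl AU (rvm b p) hAUc hAUs (hrp b)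
  obtain ⟨κm, hκm, hκm'⟩ := fin_pos (ι := Bool) (Q := fun b r => r ≤ κ0 b)
    (fun b a c _ hac hc => hac.trans hc) (fun b => ⟨κ0 b, hκ0 b, le_rfl⟩)
  obtain ⟨δm, hδm, hδm'⟩ := fin_pos (ι := Bool) (Q := fun b r => r ≤ δ2 b)
    (fun b a c _ hac hc => hac.trans hc) (fun b => ⟨δ2 b, hδ2 b, le_rfl⟩)
  obtain ⟨e1, ρ, he1, hew, hρ, hArs, hmark⟩ := exists_ars h hAlt he h0 h1
    (fun t t' ht => (hη t t' ht).trans_le (min_le_left _ _)) (d := δm / 4) (w0 := κm / 2)
    (by positivity) (by positivity)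
  set e0 := min (ρ / 8) (δm / 8) with he0
  have he0p : 0 < e0 := by positivity
  have g1 : e0 ≤ ρ / 8 := min_le_left _ _
  have g2 : e0 ≤ δm / 8 := min_le_right _ _
  obtain ⟨rv, s, F, N, v, mm, hP⟩ := hPoly g f h (aa T η) (aa_mono hAlt h0 h1)
    (fun k => by have := aa_per (T := T) (η := η) k 1; simpa using this) e0 he0p
  obtain ⟨L0, hL0, hTen0⟩ := hTent s F N v mm hP.s_pos hP.fin hP.con hP.con' hP.cyc hP.m01
    hP.m12 hP.m23 hP.m3N
  refine ⟨L0, hL0, fun θ hθ => ?_⟩
  obtain ⟨C, δ, κt, B, hTen, hBn, hcL, hδθ⟩ := hTen0 θ hθ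
  have hArs' := hArs.rv rv
  have hP' : Pol4 (jordanInterior g) (rvA rv (AAz g T η)) e0 s F N v mm := hP
  have h8 : 8 * e0 ≤ ρ := by linarith
  obtain ⟨κ1, hκ1, hκ1t, hκ1e, hκ1b, hcore⟩ := core hArs' hP' h8 hTen
  choose q hq1 hq2 Tn κ3 hκ3 t1 t2 t3 t4 t5 t6 using fun k => tube hArs' hP' h8 hTen k
  obtain ⟨κn, hκn, hκn'⟩ := fin_pos (ι := ZMod 4) (Q := fun k r => r ≤ κ3 k)
    (fun b a c _ hac hc => hac.trans hc) (fun k => ⟨κ3 k, hκ3 k, le_rfl⟩)
  set κ := min κ1 κn with hκ
  have hκp : 0 < κ := by positivity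
  have k1 : κ ≤ κ1 := min_le_left _ _
  have k2 : κ ≤ κn := min_le_right _ _
  have hM := hcore κ hκp k1
  have hs := hP'.s_pos
  have hse := hP'.s_lt
  obtain ⟨lk, lkm⟩ := hL rv (Csw C (rvA rv (Az g)) (rvT rv T) (Pg s F) e1) κ e (Pg s F)
    (Bp B s F) (rvm rv fun k : ZMod 4 => g ((k.val : ℝ) / 4)) q Tn he (by
      intro k
      have key : ∀ j : ZMod 4, g ((j.val : ℝ) / 4) ∈ curveTrace g := fun j => by
        have := val_le j
        exact ⟨_, ⟨by positivity, by linarith⟩, rfl⟩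
      cases rv with
      | false => exact key k
      | true => exact key (2 - k))
    (by
      have key : ∀ j : ZMod 4, dist (p j) (g ((j.val : ℝ) / 4)) < r1 := fun j => by
        have h5 : g ((j.val : ℝ) / 4) = gp g ((j.val : ℝ) / 4) := by
          have := val_le j
          exact (gp_eq hj ⟨by positivity, by linarith⟩).symm
        rw [h5, dist_eq_norm]
        exact (hη _ _ (shift_le hAlt h0 j)).trans_le (min_le_right _ _)
      intro k
      cases rv with
      | false => exact key k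
      | true => exact key (2 - k))
    hq1 (by
      intro k
      have hze : pt s (v (mm k.val)) ∈ ed s (v (mm k.val)) (v (mm k.val + 1)) :=
        left_mem_segment ℝ _ _
      have hzc : pt s (v (mm k.val)) ∈ sq s (lc (v (mm k.val)) (v (mm k.val + 1))) :=
        ed_sub_lc hs (hP'.cyc.step _) hze
      obtain ⟨n1, n2⟩ := marked hP' k hze
      have h5 := rvm_rvA hmark rv k _ (n1.mono (by linarith)) (n2.mono (by linarith))
      have h6 := sq_dist (hq2 k) hzc
      have h7 := norm_sub_le_norm_sub_add_norm_sub (q k) (pt s (v (mm k.val))) (rvm rv p k)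
      rw [dist_eq_norm]
      have h9 := hδm' rv
      refine lt_of_lt_of_le ?_ h9
      calc ‖q k - rvm rv p k‖ ≤ ‖q k - pt s (v (mm k.val))‖ +
            ‖pt s (v (mm k.val)) - rvm rv p k‖ := h7
        _ < 2 * s + δm / 4 := by linarith
        _ ≤ δm := by linarith)
    (hM.DG.trans interior_subset)
    (hM.bd.trans (closedBall_subset_closedBall (by
      have := hTen.ok.Lpos
      show C.L / 4 ≤ 3 / 4 * C.L
      linarith)))
    (by
      intro y hy hyA
      refine disjoint_left.2 fun w hw hwo => ?_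
      rw [mem_ball] at hw
      rcases mem_out_sw.1 hwo with h5 | ⟨i, hi, h6, h7⟩
      · exact Pg_not_out hTen (hκ1b y hy (by rw [mem_ball]; linarith)) h5
      · obtain ⟨a, ha, hwa⟩ := mem_thickening_iff.1 h7
        have haU : a ∈ AU := by
          have : ∃ j ∈ T, a ∈ Az g j := by
            cases rv with
            | false => exact ⟨i, hi, ha⟩
            | true => exact ⟨1 - i, hi, ha⟩
          obtain ⟨j, hj1, hj2⟩ := this
          exact mem_biUnion hj1 hj2
        have h8 := (hκm' rv).trans (hyA a haU)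
        have h9 := dist_triangle y w a
        rw [dist_comm y w] at h9
        linarith)
    t1 t2 t3 t4 t5 (fun k => t6 k κ (k2.trans (hκn' k)))
  have hnull : volume (frontier (Csw C (rvA rv (Az g)) (rvT rv T) (Pg s F) e1).out) = 0 := by
    refine fr_sw hTen hP.fin hBn (fun i => ?_) he1
    cases rv with
    | false => exact isCompact_Az hj i
    | true => exact isCompact_Az hj (1 - i)
  refine ⟨rv, Csw C (rvA rv (Az g)) (rvT rv T) (Pg s F) e1, δ, κ, Pg s F, Bp B s F, ?_, hnull,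
    hcL, hδθ⟩
  exact {
    ok := hM.ok
    kpos := hM.kpos
    ke := hM.ke
    bd := hM.bd
    Gc := hM.Gc
    DG := hM.DG
    Gbd := hM.Gbd
    Ge := hM.Ge
    Bc := hM.Bc
    body := hM.body
    sw := hM.sw
    sw' := hM.sw'
    ns := hM.ns
    ot := hM.ot
    otD := hM.otD
    nr := hM.nr
    nr' := hM.nr'
    ex := hM.ex
    tb := hM.tb
    tbn := hM.tbn
    tbt := hM.tbt
    tbc := hM.tbc
    tbD := hM.tbD
    tg := hM.tg
    inD := hM.inD
    lk := lk
    lkm := lkm }

/-- **GEO with null frontier and thin tentacles** -/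
theorem geoK : GEOK := swlK Polyx416.poly tentK

end Crest.Agent.R143.GeoKx904
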