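import Crest.Agent.R143.GeoI_136
import Crest.Agent.R143.RegG_707

/-!
# Row 143 (S0194), block H: `RegH` for 707's regions (helper136)

* `regH_rg` : the regions `rg` of 707 (sector over the window `i`) satisfy `RegH` (GeoI_136)
* `win_of` : the window of a straight stretch of the square path
-/

set_option autoImplicit false

noncomputable section

open scoped Classical ENNReal

namespace Crest.Agent.R143.GeoRx136

open Crest.ProbabilityR.Voronoi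
open Crest.Agent.R143.B0x346 Crest.Agent.R143.DelGx806 Crest.Agent.R143.DelRx806
  Crest.Agent.R143.Frame10x395 Crest.Agent.R143.RevCx389 Crest.Agent.R143.RevEx389
  Crest.Agent.R143.Meetx707 Crest.Agent.R143.Stripx707 Crest.Agent.R143.RegGx707
  Crest.Agent.R143.GeoIx136 Crest.Agent.R143.Gatex838 Crest.Agent.R143.ToolWx838
open Crest.Agent.R143.CircPx838 (sup)
open Crest.Agent.R143.FinCx811 (Cs rc0)
open Crest.Agent.R143.TileRx228 (cen)

/-- the window of a straight stretch is on its side -/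
theorem win_of {h hR l : ℝ} {W : ℤ → ℤ × ℤ} {zB u : ℂ} (Q : SqR h hR W zB) (hu : Dir u)
    (hh : 0 < h) {ac : ℤ} {J : ℕ} (hJ : 1 ≤ J)
    (hst : ∀ i : ℤ, |i| ≤ J → X zB u (cen h W (ac + i)) = -hR) (hl : l ≤ h * J) :
    |Y zB u (cen h W ac)| ≤ hR - l := by
  have h1 := stretch_y Q hu hh hJ hst (i := 0) (n := 0) (by simp) (Nat.zero_le _)
  rw [add_zero] at h1
  push_cast at h1
  linarith

variable {A : Finset ℂ} {hS : GP (A : Set ℂ)} {h3 : 3 ≤ A.card}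

/-- **707's regions satisfy `RegH`** -/
theorem regH_rg {zB : ℂ} {hB l t0 a2 A1 A2 D1 : ℝ} {m₀ : ℕ} {u : ℕ → ℂ} {c0 : ℕ → ℝ}
    {h0 : Cs hS} {La Lb : ℕ → ℕ → D0 A} {Gf : Rg (D0 A) (Cs hS)}
    (hh0 : ∀ s, OnHull A s → sr hS h3 s = h0) (hdir : ∀ i, i < m₀ → Dir (u i))
    (hwin : ∀ i, i < m₀ → |c0 i| ≤ hB - l) (hA2 : A2 ≤ hB + a2) (hD : hB - t0 ≤ D1)
    (hLe : ∀ i, i < m₀ → Le (rg A (sr hS h3) h0 zB A1 A2 D1
      (Sec (u i) zB hB t0 (c0 i) l) (La i) (Lb i)) Gf) :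
    RegH zB hB l t0 a2 m₀ u c0 hS h3
      (fun i => rg A (sr hS h3) h0 zB A1 A2 D1 (Sec (u i) zB hB t0 (c0 i) l) (La i) (Lb i))
      Gf where
  dir := hdir
  win := hwin
  h0 _ _ := hh0
  le := hLe
  th _ _ := th_rg (pl_rc0 hS h3)
  far _ _ := fun _ ⟨s, a1, a2', a3, a4⟩ => Or.inr ⟨s, a1, a2', hA2.trans a3, a4⟩
  sec _ _ := subset_rfl
  deep _ _ := cel_mono fun _ _ _ h => h.trans hD

/-- the full exploration in 707's form -/
theorem regH_rgf {zB : ℂ} {hB l t0 a2 A1 A2 D1 : ℝ} {m₀ : ℕ} {u : ℕ → ℂ} {c0 : ℕ → ℝ}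
    {h0 : Cs hS} {La Lb : ℕ → ℕ → D0 A} {La' Lb' : ℕ → D0 A}
    (hh0 : ∀ s, OnHull A s → sr hS h3 s = h0) (hdir : ∀ i, i < m₀ → Dir (u i))
    (hwin : ∀ i, i < m₀ → |c0 i| ≤ hB - l) (hA2 : A2 ≤ hB + a2) (hD : hB - t0 ≤ D1) :
    RegH zB hB l t0 a2 m₀ u c0 hS h3
      (fun i => rg A (sr hS h3) h0 zB A1 A2 D1 (Sec (u i) zB hB t0 (c0 i) l) (La i) (Lb i))
      (rg A (sr hS h3) h0 zB A1 A2 D1 (fun _ => False) La' Lb') :=
  regH_rg hh0 hdir hwin hA2 hD fun _ _ => le_rg fun _ h => h.elim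

end Crest.Agent.R143.GeoRx136
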