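import Crest.Agent.R143.GeoSeq_416

/-!
# Row 143 (S0194), BLOCK D: the sequence of configurations (helper416)

* `Kn` : compact exhaustion
* `lab`, `ar`, `dr` : labels
* `Seq4` : the sequence of configurations for `S : Dat` and the side `up`
* `exists_seq` : existence from `GEO` and `CARA`
* `roomOK`, `arcGeo`
-/

set_option autoImplicit false

noncomputable section

namespace Crest.Agent.R143.GeoSeqx416

open Set Filter Topology MeasureTheory Metric
open Crest.ProbabilityR.Voronoi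
open Crest.Agent.R143.B0x346 Crest.Agent.R143.B0Dx346
open Crest.Agent.R143.Spinex422 Crest.Agent.R143.Cfgx416
open Crest.Agent.R158.Jt785 Crest.Agent.R158.Sp896
open Crest.ProbabilityR.Percolation

/-! ### exhaustion -/

/-- compact exhaustion of `D` -/
def Kn (D : Set ℂ) (r : ℝ) : Set ℂ := closure D ∩ {z | r ≤ infDist z (frontier D)}

theorem isCompact_Kn {D : Set ℂ} (hDb : Bornology.IsBounded D) (r : ℝ) : IsCompact (Kn D r) :=
  hDb.isCompact_closure.inter_right (isClosed_le continuous_const (continuous_infDist_pt _))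

theorem Kn_sub {D : Set ℂ} (hD : IsOpen D) {r : ℝ} (hr : 0 < r) : Kn D r ⊆ D := by
  rintro z ⟨hz, h1⟩
  by_contra hcon
  have hf : z ∈ frontier D := ⟨hz, by rwa [hD.interior_eq]⟩
  have h2 : r ≤ infDist z (frontier D) := h1
  rw [infDist_zero_of_mem hf] at h2
  linarith

theorem exists_margin {D K : Set ℂ} (hD : IsOpen D) (hf : (frontier D).Nonempty)
    (hK : IsCompact K) (hKD : K ⊆ D) : ∃ r > 0, ∀ z ∈ K, r ≤ infDist z (frontier D) := by
  rcases K.eq_empty_or_nonempty with rfl | hne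
  · exact ⟨1, one_pos, fun z hz => absurd hz (notMem_empty z)⟩
  · obtain ⟨z0, hz0, hmin⟩ := hK.exists_isMinOn hne (continuous_infDist_pt (frontier D)).continuousOn
    refine ⟨infDist z0 (frontier D), ?_, fun z hz => hmin hz⟩
    refine (isClosed_frontier.notMem_iff_infDist_pos hf).1 ?_
    intro h
    rw [hD.frontier_eq] at h
    exact h.2 (hKD hz0)

theorem closedBall_sub {D : Set ℂ} {z : ℂ} {r : ℝ} (hz : z ∈ D) (hr : 0 ≤ r)
    (h : r < infDist z (frontier D)) : closedBall z r ⊆ D := by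
  intro w hw
  by_contra hcon
  have h1 : (closedBall z r ∩ frontier D).Nonempty := by
    by_contra hne
    rw [not_nonempty_iff_eq_empty] at hne
    have hpc : IsPreconnected (closedBall z r) := (convex_closedBall z r).isPreconnected
    have hcov : closedBall z r ⊆ interior D ∪ (closure D)ᶜ := by
      intro u hu
      by_cases h1 : u ∈ closure D
      · left
        by_contra h2
        have h3 : u ∈ closedBall z r ∩ frontier D := ⟨hu, h1, h2⟩
        rw [hne] at h3
        exact h3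
      · exact Or.inr h1
    obtain ⟨u, -, hu1, hu2⟩ := hpc (interior D) (closure D)ᶜ isOpen_interior
      isClosed_closure.isOpen_compl hcov ⟨z, mem_closedBall_self hr, by
        by_contra h2
        have h3 : z ∈ closedBall z r ∩ frontier D :=
          ⟨mem_closedBall_self hr, subset_closure hz, h2⟩
        rw [hne] at h3
        exact h3⟩ ⟨w, hw, fun h2 => by
        have h3 : w ∈ closedBall z r ∩ frontier D := ⟨hw, h2, fun h4 => hcon (interior_subset h4)⟩
        rw [hne] at h3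
        exact h3⟩
    exact hu2 (subset_closure (interior_subset hu1))
  obtain ⟨u, hu, huf⟩ := h1
  have h2 := infDist_le_dist_of_mem (x := z) huf
  rw [mem_closedBall, dist_comm] at hu
  linarith

/-! ### labels -/

/-- label of the arc at the index `j` of the configuration -/
def lab (r : Bool) (j : ZMod 4) : ZMod 4 := if r then 1 - j else j

theorem rvA_eq (r : Bool) (A : ZMod 4 → Set ℂ) (j : ZMod 4) : rvA r A j = A (lab r j) := by
  cases r <;> rfl

/-- arc of `Dat` with the label `l` -/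
def ar (l : ZMod 4) : ZMod 3 := if l = 2 then 1 else if l = 3 then 2 else 0

/-- region of the `Dom` which contains `R j` -/
def dr (j : ZMod 4) : ZMod 3 := if j = -2 then 1 else if j = -1 then 2 else 0

theorem R_sub (C : Cfg 4) (j : ZMod 4) : C.R j ⊆ C.dom.R (dr j) := by
  intro z hz
  by_cases h1 : j = -2
  · subst h1
    exact hz
  by_cases h2 : j = -1
  · subst h2
    exact hz
  · have e : dr j = 0 := by unfold dr; rw [if_neg h1, if_neg h2]
    rw [e]
    show z ∈ if (0 : ZMod 3) = 1 then C.R (-2) else if (0 : ZMod 3) = 2 then C.R (-1) else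
      ⋃ j ∈ {j : ZMod 4 | j ≠ -2 ∧ j ≠ -1}, C.R j
    rw [if_neg (by decide), if_neg (by decide)]
    simp only [mem_iUnion]
    exact ⟨j, ⟨h1, h2⟩, hz⟩

theorem dr_eq (r : Bool) (j : ZMod 4) : dr j = sg r (ar (lab r j)) := by
  revert r j; decide

theorem lab_lab (r : Bool) (j : ZMod 4) : lab r (lab r j) = j := by revert r j; decide

theorem sg_sg (r : Bool) (i : ZMod 3) : sg r (sg r i) = i := by revert r i; decide

theorem dr_one (k : ZMod 4) (h : dr k = dr (k - 1)) : k = 1 := by revert k; decide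

theorem dr_zero (k : ZMod 4) (h : dr k = 0) : k = 0 ∨ k = 1 := by revert k; decide

theorem rvm_one (r : Bool) (m : ZMod 4 → ℂ) : rvm r m 1 = m 1 := by
  cases r
  · rfl
  · show m (2 - 1) = m 1
    congr 1

/-! ### the sequence -/

/-- the sequence of configurations -/
structure Seq4 (S : Dat) (b : ℂ) (up : Bool) (A : ZMod 4 → Set ℂ) (m : ZMod 4 → ℂ) (md : ℝ → ℝ)
    (rv : ℕ → Bool) (C : ℕ → Cfg 4) (δ κ : ℕ → ℝ) (G : ℕ → Set ℂ) (B : ℕ → ZMod 4 → Set ℂ) :
    Prop where
  arcs : Arcs S.D A m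
  A0 : A 0 = S.A1
  A2 : A 2 = S.A2
  m1 : m 1 = b
  /-- a point of the open arc `i` only belongs to arcs with `ar l = i` -/
  ex : ∀ i : ZMod 3, ∀ p ∈ S.arc i, ∀ l : ZMod 4, ar l ≠ i → p ∉ A l
  md0 : ∀ s > 0, 0 < md s
  mac : ∀ n, Mac S.D (rvA (rv n) A) (rvm (rv n) m)
    (rvT (rv n) (if up then ({0, 2} : Set (ZMod 4)) else {1, 3})) md (1 / ((n : ℝ) + 1))
    (Kn S.D (1 / ((n : ℝ) + 1))) (C n) (δ n) (κ n) (G n) (B n)

theorem exists_seq (hG : GEO) (hC : CARA) (S : Dat) {b : ℂ} (hb : b ∈ frontier S.D)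
    (hbd : b ≠ S.d) (hφb : S.φ b = S.x) (up : Bool) : ∃ A m md rv C δ κ G B,
    Seq4 S b up A m md rv C δ κ G B := by
  obtain ⟨g, f, hU, hj, hgb, hgd, a0, a1, a2, a3⟩ := hC S b hb hbd hφb
  set A : ZMod 4 → Set ℂ := fun i => arc g ((i.val : ℝ) / 4) (((i.val : ℝ) + 1) / 4) with hA
  set m : ZMod 4 → ℂ := fun i => g ((i.val : ℝ) / 4) with hm
  obtain ⟨md, hmd, h1⟩ := hG g f hU S.D A m hj.symm (fun i => rfl) (fun i => rfl)
  have hT : (if up then ({0, 2} : Set (ZMod 4)) else {1, 3}) = {0, 2} ∨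
      (if up then ({0, 2} : Set (ZMod 4)) else {1, 3}) = {1, 3} := by
    cases up
    · right; rfl
    · left; rfl
  have hen : ∀ n : ℕ, (0 : ℝ) < 1 / ((n : ℝ) + 1) := fun n => by positivity
  choose rv C δ κ G B hmac using fun n : ℕ => h1 _ hT (1 / ((n : ℝ) + 1)) (hen n)
    (Kn S.D (1 / ((n : ℝ) + 1))) (isCompact_Kn S.hDb _) (Kn_sub S.hD (hen n))
  have v0 : ((0 : ZMod 4).val : ℝ) = 0 := by norm_num
  have v1 : ((1 : ZMod 4).val : ℝ) = 1 := by
    have : (1 : ZMod 4).val = 1 := rfl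
    rw [this]; norm_num
  have v2 : ((2 : ZMod 4).val : ℝ) = 2 := by
    have : (2 : ZMod 4).val = 2 := rfl
    rw [this]; norm_num
  have v3 : ((3 : ZMod 4).val : ℝ) = 3 := by
    have : (3 : ZMod 4).val = 3 := rfl
    rw [this]; norm_num
  have A0 : A 0 = arc g 0 (1 / 4) := by
    simp only [hA]; rw [v0]; norm_num
  have A1 : A 1 = arc g (1 / 4) (1 / 2) := by
    simp only [hA]; rw [v1]; norm_num
  have A2 : A 2 = arc g (1 / 2) (3 / 4) := by
    simp only [hA]; rw [v2]; norm_num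
  have A3 : A 3 = arc g (3 / 4) 1 := by
    simp only [hA]; rw [v3]; norm_num
  have m0 : m 0 = g 0 := by
    simp only [hm]; rw [v0]; norm_num
  have m1 : m 1 = g (1 / 4) := by
    simp only [hm]; rw [v1]
  have m2 : m 2 = g (1 / 2) := by
    simp only [hm]; rw [v2]; norm_num
  have m3 : m 3 = g (3 / 4) := by
    simp only [hm]; rw [v3]
  have c4 : ∀ i : ZMod 4, i = 0 ∨ i = 1 ∨ i = 2 ∨ i = 3 := by decide
  have hfr : frontier S.D = curveTrace g := by
    rw [← hj]
    exact frontier_ji hU.jc (by rw [hj]; exact S.hDc.nonempty)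
  have hg01 : g 0 = g 1 := hU.jc.2.2
  have d3 : (3 : ZMod 4) = 0 - 1 := by decide
  refine ⟨A, m, md, rv, C, δ, κ, G, B, ?_⟩
  refine ⟨⟨?_, ?_, ?_, ?_, ?_, ?_⟩, by rw [A0, a0], by rw [A2, a2], by rw [m1, hgb], ?_, hmd, hmac⟩
  · intro i
    rcases c4 i with rfl | rfl | rfl | rfl
    · rw [A0]; exact arc_compact hU (by norm_num) (by norm_num)
    · rw [A1]; exact arc_compact hU (by norm_num) (by norm_num)
    · rw [A2]; exact arc_compact hU (by norm_num) (by norm_num)
    · rw [A3]; exact arc_compact hU (by norm_num) (by norm_num)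
  · intro i
    rcases c4 i with rfl | rfl | rfl | rfl
    · rw [A0, m0]; exact mem_image_of_mem g ⟨by norm_num, by norm_num⟩
    · rw [A1, m1]; exact mem_image_of_mem g ⟨by norm_num, by norm_num⟩
    · rw [A2, m2]; exact mem_image_of_mem g ⟨by norm_num, by norm_num⟩
    · rw [A3, m3]; exact mem_image_of_mem g ⟨by norm_num, by norm_num⟩
  · intro i
    rcases c4 i with rfl | rfl | rfl | rfl
    · rw [← d3, A3, m0, hg01]; exact mem_image_of_mem g ⟨by norm_num, by norm_num⟩
    · rw [show (1 : ZMod 4) - 1 = 0 by decide, A0, m1]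
      exact mem_image_of_mem g ⟨by norm_num, by norm_num⟩
    · rw [show (2 : ZMod 4) - 1 = 1 by decide, A1, m2]
      exact mem_image_of_mem g ⟨by norm_num, by norm_num⟩
    · rw [show (3 : ZMod 4) - 1 = 2 by decide, A2, m3]
      exact mem_image_of_mem g ⟨by norm_num, by norm_num⟩
  · intro i
    rw [hfr]
    rcases c4 i with rfl | rfl | rfl | rfl
    · rw [A0]; exact image_mono (Icc_subset_Icc (by norm_num) (by norm_num))
    · rw [A1]; exact image_mono (Icc_subset_Icc (by norm_num) (by norm_num))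
    · rw [A2]; exact image_mono (Icc_subset_Icc (by norm_num) (by norm_num))
    · rw [A3]; exact image_mono (Icc_subset_Icc (by norm_num) (by norm_num))
  · rw [hfr]
    rintro z ⟨t, ht, rfl⟩
    rw [mem_iUnion]
    rcases le_total t (1 / 4) with h | h
    · exact ⟨0, by rw [A0]; exact mem_image_of_mem g ⟨ht.1, h⟩⟩
    rcases le_total t (1 / 2) with h' | h'
    · exact ⟨1, by rw [A1]; exact mem_image_of_mem g ⟨h, h'⟩⟩
    rcases le_total t (3 / 4) with h'' | h''
    · exact ⟨2, by rw [A2]; exact mem_image_of_mem g ⟨h', h''⟩⟩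
    · exact ⟨3, by rw [A3]; exact mem_image_of_mem g ⟨h'', ht.2⟩⟩
  · have h02 : Disjoint (A 0) (A 2) := by rw [A0, A2]; exact arc_disj hU
    have h13 : Disjoint (A 1) (A 3) := by
      rw [A1, A3, a1, a3, disjoint_left]
      rintro z ⟨hz1, hz2, hz3, hz4, hz5⟩ (⟨-, -, -, hz⟩ | hz)
      · linarith [S.hx0]
      · exact hz2 hz
    intro i
    rcases c4 i with rfl | rfl | rfl | rfl
    · rw [show (0 : ZMod 4) + 2 = 2 by decide]; exact h02
    · rw [show (1 : ZMod 4) + 2 = 3 by decide]; exact h13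
    · rw [show (2 : ZMod 4) + 2 = 0 by decide]; exact h02.symm
    · rw [show (3 : ZMod 4) + 2 = 1 by decide]; exact h13.symm
  · rintro i p ⟨hp1, hp2, hp3, hp4⟩ l hl hpl
    have c3 : ∀ i : ZMod 3, i = 0 ∨ i = 1 ∨ i = 2 := by decide
    have hx0 := S.hx0
    have hx1 := S.hx1
    rcases c4 l with rfl | rfl | rfl | rfl
    · rw [A0, a0] at hpl
      obtain ⟨-, -, -, h4, h5⟩ := hpl
      rcases c3 i with rfl | rfl | rfl
      · exact hl (by decide)
      · rw [if_neg (by decide), if_pos rfl] at hp4; linarith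
      · rw [if_neg (by decide), if_neg (by decide)] at hp4; linarith
    · rw [A1, a1] at hpl
      obtain ⟨-, -, -, h4, h5⟩ := hpl
      rcases c3 i with rfl | rfl | rfl
      · exact hl (by decide)
      · rw [if_neg (by decide), if_pos rfl] at hp4; linarith
      · rw [if_neg (by decide), if_neg (by decide)] at hp4; linarith
    · rw [A2, a2] at hpl
      rcases hpl with ⟨-, -, -, h4⟩ | hpl
      · rcases c3 i with rfl | rfl | rfl
        · rw [if_pos rfl] at hp4; linarith [hp4.2]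
        · exact hl (by decide)
        · rw [if_neg (by decide), if_neg (by decide)] at hp4; linarith
      · exact hp2 hpl
    · rw [A3, a3] at hpl
      rcases hpl with ⟨-, -, -, h4⟩ | hpl
      · rcases c3 i with rfl | rfl | rfl
        · rw [if_pos rfl] at hp4; linarith [hp4.1]
        · rw [if_neg (by decide), if_pos rfl] at hp4; linarith
        · exact hl (by decide)
      · exact hp2 hpl

namespace Seq4

variable {S : Dat} {b : ℂ} {up : Bool} {A : ZMod 4 → Set ℂ} {m : ZMod 4 → ℂ} {md : ℝ → ℝ}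
  {rv : ℕ → Bool} {C : ℕ → Cfg 4} {δ κ : ℕ → ℝ} {G : ℕ → Set ℂ} {B : ℕ → ZMod 4 → Set ℂ}

theorem adm (_h : Seq4 S b up A m md rv C δ κ G B) (n : ℕ) : AdmC (C n).dom (δ n) :=
  ⟨4, C n, by norm_num, (_h.mac n).ok, rfl⟩

theorem fne (h : Seq4 S b up A m md rv C δ κ G B) : (frontier S.D).Nonempty :=
  ⟨_, h.arcs.sub 0 (h.arcs.mem 0)⟩

theorem Lpos (h : Seq4 S b up A m md rv C δ κ G B) (n : ℕ) : 0 < (C n).L := (h.mac n).ok.Lpos

/-- linked points -/
theorem linked (h : Seq4 S b up A m md rv C δ κ G B) {n : ℕ} {z : ℂ}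
    (hz : z ∈ Kn S.D (1 / ((n : ℝ) + 1))) : Linked (C n).dom (κ n) z := by
  obtain ⟨P, h1, h2, h3, h4, h5⟩ := (h.mac n).lk z hz
  refine ⟨P, h1, h2, h3, fun k => ?_, fun y hy => ?_⟩
  · have h6 : ∃ j, (C n).dom.q k = (C n).q j := by
      show ∃ j, (if k = 1 then (C n).q (-2) else if k = 2 then (C n).q (-1) else (C n).q 0) =
        (C n).q j
      split_ifs
      · exact ⟨_, rfl⟩
      · exact ⟨_, rfl⟩
      · exact ⟨_, rfl⟩
    obtain ⟨j, hj⟩ := h6
    rw [hj]
    exact h4 j
  · rw [Cfg.dom_out]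
    exact h5 y hy

theorem ev_small {r : ℝ} (hr : 0 < r) : ∀ᶠ n : ℕ in atTop, 1 / ((n : ℝ) + 1) < r :=
  tendsto_one_div_add_atTop_nhds_zero_nat.eventually (gt_mem_nhds hr)

theorem roomOK (h : Seq4 S b up A m md rv C δ κ G B) :
    RoomOK S.D (fun n => (C n).dom) κ := by
  refine ⟨fun n => (h.mac n).kpos, fun K hK hKD => ?_⟩
  obtain ⟨r, hr, h1⟩ := exists_margin S.hD h.fne hK hKD
  refine ⟨r / 2, by linarith, ?_⟩
  filter_upwards [ev_small (show 0 < r / 2 by linarith)] with n hn z hz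
  have h2 := h1 z hz
  have hzD := hKD hz
  have hsub : closedBall z (r / 2) ⊆ S.D := closedBall_sub hzD (by linarith) (by linarith)
  have hL := h.Lpos n
  refine ⟨⟨?_, ?_⟩, h.linked ⟨subset_closure hzD, ?_⟩⟩
  · rw [Cfg.dom_out, disjoint_left]
    intro w hw hwo
    have h3 := (h.mac n).inD w (hsub hw) hwo
    have h4 : infDist z (frontier S.D) ≤ infDist w (frontier S.D) + dist z w :=
      infDist_le_infDist_add_dist
    rw [mem_closedBall, dist_comm] at hw
    linarith
  · refine hsub.trans (subset_closure.trans ((h.mac n).bd.trans (closedBall_subset_closedBall ?_)))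
    show (C n).L / 4 ≤ (C n).L / 2
    linarith
  · show 1 / ((n : ℝ) + 1) ≤ infDist z (frontier S.D)
    linarith

/-- lower bound of the radii -/
theorem exists_r (h : Seq4 S b up A m md rv C δ κ G B) : ∃ r > 0, ∀ n, ∀ p ∈ frontier S.D,
    closedBall p r ⊆ closedBall (C n).c ((C n).L / 2) := by
  obtain ⟨z0, hz0⟩ := S.hDc.nonempty
  obtain ⟨r, hr, hb⟩ := Metric.isOpen_iff.1 S.hD z0 hz0
  refine ⟨r / 2, by linarith, fun n p hp w hw => ?_⟩
  have hbd := (h.mac n).bd
  have h1 : dist p (C n).c ≤ (C n).L / 4 := hbd (frontier_subset_closure hp)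
  have e1 : z0 + ((r / 2 : ℝ) : ℂ) ∈ S.D := hb (by
    rw [mem_ball, dist_eq_norm, add_sub_cancel_left, Complex.norm_real, Real.norm_eq_abs,
      abs_of_pos (by linarith)]
    linarith)
  have e2 : z0 - ((r / 2 : ℝ) : ℂ) ∈ S.D := hb (by
    rw [mem_ball, dist_eq_norm, sub_sub_cancel_left, norm_neg, Complex.norm_real,
      Real.norm_eq_abs, abs_of_pos (by linarith)]
    linarith)
  have h2 : dist (z0 + ((r / 2 : ℝ) : ℂ)) (C n).c ≤ (C n).L / 4 := hbd (subset_closure e1)
  have h3 : dist (z0 - ((r / 2 : ℝ) : ℂ)) (C n).c ≤ (C n).L / 4 := hbd (subset_closure e2)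
  have h4 : dist (z0 + ((r / 2 : ℝ) : ℂ)) (z0 - ((r / 2 : ℝ) : ℂ)) = r := by
    rw [dist_eq_norm, show z0 + ((r / 2 : ℝ) : ℂ) - (z0 - ((r / 2 : ℝ) : ℂ)) = ((r : ℝ) : ℂ) by
      push_cast; ring, Complex.norm_real, Real.norm_eq_abs, abs_of_pos hr]
  have h5 := dist_triangle_right (z0 + ((r / 2 : ℝ) : ℂ)) (z0 - ((r / 2 : ℝ) : ℂ)) (C n).c
  rw [mem_closedBall] at hw ⊢
  have h6 := dist_triangle w p (C n).c
  linarith

/-- distance of a point of the open arc `i` from the other arcs -/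
theorem exists_r0 (h : Seq4 S b up A m md rv C δ κ G B) {i : ZMod 3} {p : ℂ} (hp : p ∈ S.arc i) :
    ∃ r > 0, ∀ l : ZMod 4, ar l ≠ i → r ≤ infDist p (A l) := by
  have h1 : ∀ l : ZMod 4, ∃ r > 0, ar l ≠ i → r ≤ infDist p (A l) := by
    intro l
    by_cases hl : ar l = i
    · exact ⟨1, one_pos, fun h' => absurd hl h'⟩
    · refine ⟨infDist p (A l), ?_, fun _ => le_rfl⟩
      exact ((h.arcs.cpt l).isClosed.notMem_iff_infDist_pos (h.arcs.ne l)).1 (h.ex i p hp l hl)
  choose r hr h2 using h1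
  refine ⟨min (min (r 0) (r 1)) (min (r 2) (r 3)), ?_, fun l hl => ?_⟩
  · exact lt_min (lt_min (hr 0) (hr 1)) (lt_min (hr 2) (hr 3))
  · have h3 := h2 l hl
    have c4 : ∀ i : ZMod 4, i = 0 ∨ i = 1 ∨ i = 2 ∨ i = 3 := by decide
    rcases c4 l with rfl | rfl | rfl | rfl
    · exact ((min_le_left _ _).trans (min_le_left _ _)).trans h3
    · exact ((min_le_left _ _).trans (min_le_right _ _)).trans h3
    · exact ((min_le_right _ _).trans (min_le_left _ _)).trans h3
    · exact ((min_le_right _ _).trans (min_le_right _ _)).trans h3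

/-- local structure of the polygon near a point of the open arc `i` -/
theorem local_G (h : Seq4 S b up A m md rv C δ κ G B) {i : ZMod 3} {p : ℂ} {r : ℝ}
    (hr : ∀ l : ZMod 4, ar l ≠ i → r ≤ infDist p (A l)) {n : ℕ} (hn : 1 / ((n : ℝ) + 1) < r / 4)
    {y w : ℂ} (hy : y ∈ G n) (hyw : dist w y < κ n) (hwp : dist w p < r / 4) :
    (w ∈ G n ∧ w ∉ (C n).out) ∨ (∃ j, w ∈ (C n).R j ∧ dr j = sg (rv n) i) ∨
      (w ∈ B n 1 ∧ sg (rv n) i = 0) := by
  have hk : κ n < 1 / ((n : ℝ) + 1) := (h.mac n).ke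
  have hpos : (0 : ℝ) < 1 / ((n : ℝ) + 1) := by positivity
  have hR : ∀ j, w ∈ (C n).R j → dr j = sg (rv n) i := by
    intro j hj
    have h1 := (h.mac n).nr j y hy w hj hyw
    rw [rvA_eq] at h1
    rw [dr_eq (rv n) j]
    by_contra hcon
    have h2 : ar (lab (rv n) j) ≠ i := fun h' => hcon (by rw [h'])
    have h3 := hr _ h2
    have h4 : infDist p (A (lab (rv n) j)) ≤ infDist y (A (lab (rv n) j)) + dist p y :=
      infDist_le_infDist_add_dist
    have h5 := dist_triangle p w y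
    rw [dist_comm p w] at h5
    linarith
  by_cases hwo : w ∈ (C n).out
  · obtain ⟨j, hj⟩ := mem_iUnion.1 hwo
    exact Or.inr (Or.inl ⟨j, hj, hR j hj⟩)
  · rcases (h.mac n).ex y hy w hyw with h1 | h1 | ⟨k, hk1, hk2⟩
    · exact Or.inl ⟨h1, hwo⟩
    · exact absurd h1 hwo
    · right; right
      have hA' := h.arcs.rv (rv n)
      have h6 : ∀ l : ZMod 4, rvm (rv n) m k ∈ A l → ar l = i := by
        intro l hl
        by_contra hcon
        have h3 := hr l hcon
        have h4 := infDist_le_dist_of_mem (x := p) hl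
        have h5 := dist_triangle p w (rvm (rv n) m k)
        rw [dist_comm p w] at h5
        linarith
      have h7 := hA'.mem k
      have h8 := hA'.mem' k
      rw [rvA_eq] at h7 h8
      have h9 : dr k = sg (rv n) i := by rw [dr_eq (rv n) k, h6 _ h7]
      have h10 : dr (k - 1) = sg (rv n) i := by rw [dr_eq (rv n) (k - 1), h6 _ h8]
      have h11 := dr_one k (h9.trans h10.symm)
      subst h11
      exact ⟨hk1, by rw [← h9]; decide⟩

/-- local structure of the tentacle `1` -/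
theorem local_B (h : Seq4 S b up A m md rv C δ κ G B) {n : ℕ} {y w : ℂ} (hy : y ∈ B n 1)
    (hyw : dist w y < κ n) : w ∈ B n 1 ∨ w ∈ (C n).R 0 ∨ w ∈ (C n).R 1 ∨
      (w ∈ G n ∧ w ∉ (C n).out ∧ dist w b < 1 / ((n : ℝ) + 1)) := by
  have hm : rvm (rv n) m 1 = b := by rw [rvm_one, h.m1]
  have e0 : (1 : ZMod 4) - 1 = 0 := by decide
  rcases (h.mac n).tb 1 y hy w hyw with h1 | h1 | h1 | ⟨h1, h2⟩
  · exact Or.inl h1
  · rw [e0] at h1
    exact Or.inr (Or.inl h1)
  · exact Or.inr (Or.inr (Or.inl h1))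
  · by_cases hwo : w ∈ (C n).out
    · obtain ⟨j, hj⟩ := mem_iUnion.1 hwo
      by_cases hj0 : j = 0
      · exact Or.inr (Or.inl (by rw [← hj0]; exact hj))
      by_cases hj1 : j = 1
      · exact Or.inr (Or.inr (Or.inl (by rw [← hj1]; exact hj)))
      · exact absurd hj ((h.mac n).tbn 1 y hy w hyw j (by rw [e0]; exact hj0) hj1)
    · rw [hm] at h2
      exact Or.inr (Or.inr (Or.inr ⟨h1, hwo, h2⟩))

theorem B_out (h : Seq4 S b up A m md rv C δ κ G B) (n : ℕ) (k : ZMod 4) :
    Disjoint (B n k) (C n).out := by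
  rw [disjoint_left]
  intro w hw hwo
  have h1 : w ∈ (C n).outᶜ := by
    rw [(h.mac n).body]
    exact Or.inr (mem_iUnion.2 ⟨k, hw⟩)
  exact h1 hwo

theorem D_sub_G (h : Seq4 S b up A m md rv C δ κ G B) (n : ℕ) : S.D ⊆ G n :=
  subset_closure.trans ((h.mac n).DG.trans interior_subset)

/-- points of `D` are in the body for large `n` -/
theorem ev_body (h : Seq4 S b up A m md rv C δ κ G B) {z : ℂ} (hz : z ∈ S.D) :
    ∀ᶠ n : ℕ in atTop, z ∉ (C n).out ∧ z ∈ Kn S.D (1 / ((n : ℝ) + 1)) := by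
  obtain ⟨r, hr, h1⟩ := exists_margin S.hD h.fne isCompact_singleton (singleton_subset_iff.2 hz)
  filter_upwards [ev_small hr] with n hn
  have h2 := h1 z rfl
  refine ⟨fun ho => ?_, subset_closure hz, ?_⟩
  · have h3 := (h.mac n).inD z hz ho
    linarith
  · show 1 / ((n : ℝ) + 1) ≤ infDist z (frontier S.D)
    linarith

theorem arcGeo (h : Seq4 S b up A m md rv C δ κ G B) : ArcGeo S rv (fun n => (C n).dom) := by
  intro i p hp
  obtain ⟨r0, hr0, h0⟩ := h.exists_r0 hp
  obtain ⟨r, hr, h1⟩ := h.exists_r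
  set R0 := min (r0 / 4) r with hR0
  refine ⟨R0, lt_min (by linarith) hr, fun z hz hzp => ?_, fun s hs => ?_⟩
  · filter_upwards [ev_small (show 0 < r0 / 4 by linarith), h.ev_body hz] with n hn hzn
    refine ⟨(closedBall_subset_closedBall (min_le_right _ _)).trans (h1 n p hp.1), κ n,
      (h.mac n).kpos, (G n \ (C n).out) ∪ (if sg (rv n) i = 0 then B n 1 else ∅), ?_, ?_, ?_⟩
    · exact Or.inl ⟨h.D_sub_G n hz, hzn.1⟩
    · rw [Cfg.dom_out, disjoint_left]
      rintro w (hw | hw) hwo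
      · exact hw.2 hwo
      · split_ifs at hw
        · exact disjoint_left.1 (h.B_out n 1) hw hwo
        · exact hw
    · rintro y hy y' hyy hyp
      have hyp' : dist y' p < r0 / 4 := hyp.trans_le (min_le_left _ _)
      rw [dist_comm] at hyy
      rcases hy with hy | hy
      · rcases h.local_G h0 hn hy.1 hyy hyp' with h2 | ⟨j, h2, h3⟩ | ⟨h2, h3⟩
        · exact Or.inl (Or.inl h2)
        · exact Or.inr ⟨_, rfl, by rw [← h3]; exact R_sub _ _ h2⟩
        · exact Or.inl (Or.inr (by rw [if_pos h3]; exact h2))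
      · split_ifs at hy with hi
        · rcases h.local_B hy hyy with h2 | h2 | h2 | h2
          · exact Or.inl (Or.inr (by rw [if_pos hi]; exact h2))
          · refine Or.inr ⟨_, rfl, ?_⟩
            rw [hi]
            exact R_sub _ 0 h2
          · refine Or.inr ⟨_, rfl, ?_⟩
            rw [hi]
            exact R_sub _ 1 h2
          · exact Or.inl (Or.inl ⟨h2.1, h2.2.1⟩)
        · exact absurd hy (notMem_empty y)
  · filter_upwards [ev_small hs] with n hn
    obtain ⟨l, hl⟩ := mem_iUnion.1 (h.arcs.cov hp.1)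
    have h2 : ar l = i := by
      by_contra hcon
      exact h.ex i p hp l hcon hl
    have h3 : p ∈ rvA (rv n) A (lab (rv n) l) := by rwa [rvA_eq, lab_lab]
    obtain ⟨w, hw1, hw2⟩ := (h.mac n).nr' _ p h3
    refine ⟨w, ?_, mem_ball.2 (hw2.trans hn)⟩
    have h4 := R_sub _ _ hw1
    rwa [dr_eq (rv n), lab_lab, h2] at h4

end Seq4

end Crest.Agent.R143.GeoSeqx416
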