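import Crest.Agent.R143.Cfg_416
import Crest.Agent.R143.Spine2_422

/-!
# Row 143 (S0194), BLOCK D: from the macroscopic configurations to the leaf `LDom'` (helper416)

* `Arcs` : the four boundary arcs
* `macLO`, `macUP` : conditions of D4 from `Mac`
-/

set_option autoImplicit false

noncomputable section

namespace Crest.Agent.R143.GeoSeqx416

open Set Filter Topology MeasureTheory Metric
open Crest.ProbabilityR.Voronoi
open Crest.Agent.R143.B0x346 Crest.Agent.R143.B0Dx346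
open Crest.Agent.R143.Spinex422 Crest.Agent.R143.Cfgx416

/-- the four boundary arcs of a domain -/
structure Arcs (D : Set ℂ) (A : ZMod 4 → Set ℂ) (m : ZMod 4 → ℂ) : Prop where
  cpt : ∀ i, IsCompact (A i)
  mem : ∀ i, m i ∈ A i
  mem' : ∀ i, m i ∈ A (i - 1)
  sub : ∀ i, A i ⊆ frontier D
  cov : frontier D ⊆ ⋃ i, A i
  opp : ∀ i, Disjoint (A i) (A (i + 2))

theorem cases4 (i j : ZMod 4) : j = i ∨ j = i + 1 ∨ j = i + 2 ∨ j = i + 3 := by
  revert i j; decide

theorem Arcs.ne {D : Set ℂ} {A : ZMod 4 → Set ℂ} {m : ZMod 4 → ℂ} (h : Arcs D A m) (i : ZMod 4) :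
    (A i).Nonempty := ⟨_, h.mem i⟩

theorem Arcs.rv {D : Set ℂ} {A : ZMod 4 → Set ℂ} {m : ZMod 4 → ℂ} (h : Arcs D A m) (r : Bool) :
    Arcs D (rvA r A) (rvm r m) := by
  cases r
  · exact h
  · refine ⟨fun i => h.cpt _, fun i => ?_, fun i => ?_, fun i => h.sub _, ?_, fun i => ?_⟩
    · show m (2 - i) ∈ A (1 - i)
      have := h.mem' (2 - i)
      rwa [show (2 : ZMod 4) - i - 1 = 1 - i by ring] at this
    · show m (2 - i) ∈ A (1 - (i - 1))
      have := h.mem (2 - i)
      rwa [show (1 : ZMod 4) - (i - 1) = 2 - i by ring]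
    · refine h.cov.trans fun z hz => ?_
      obtain ⟨i, hi⟩ := mem_iUnion.1 hz
      refine mem_iUnion.2 ⟨1 - i, ?_⟩
      show z ∈ A (1 - (1 - i))
      rwa [sub_sub_cancel]
    · show Disjoint (A (1 - i)) (A (1 - (i + 2)))
      have := h.opp (1 - (i + 2))
      rw [show (1 : ZMod 4) - (i + 2) + 2 = 1 - i by ring] at this
      exact this.symm

variable {D : Set ℂ} {A : ZMod 4 → Set ℂ} {m : ZMod 4 → ℂ} {T : Set (ZMod 4)} {md : ℝ → ℝ} {e : ℝ}
  {K : Set ℂ} {C : Cfg 4} {δ κ : ℝ} {G : Set ℂ} {B : ZMod 4 → Set ℂ}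

theorem infDist_lt {s : Set ℂ} {x y : ℂ} {r : ℝ} (hy : y ∈ s) (h : dist x y < r) :
    infDist x s < r := (infDist_le_dist_of_mem hy).trans_lt h

/-- two points near opposite arcs are far -/
theorem far_of_near (hA : Arcs D A m) {i : ZMod 4} {r : ℝ}
    (h4 : ∀ x ∈ A i, ∀ y ∈ A (i + 2), r ≤ dist x y) {x y : ℂ} {a b : ℝ}
    (hx : infDist x (A i) ≤ a) (hy : infDist y (A (i + 2)) ≤ b) : r - a - b ≤ dist x y := by
  obtain ⟨x', hx', hxe⟩ := (hA.cpt i).exists_infDist_eq_dist (hA.ne i) x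
  obtain ⟨y', hy', hye⟩ := (hA.cpt (i + 2)).exists_infDist_eq_dist (hA.ne (i + 2)) y
  have h1 := h4 x' hx' y' hy'
  have h2 : dist x' y' ≤ dist x' x + dist x y + dist y y' := dist_triangle4 _ _ _ _
  rw [dist_comm x' x] at h2
  linarith

/-- **conditions of D4LO** -/
theorem macLO (hA : Arcs D A m) (hD : IsOpen D) (h : Mac D A m T md e K C δ κ G B) {i : ZMod 4}
    (hi : i ∉ T) (hi2 : i + 2 ∉ T) (h1T : i + 1 ∈ T) (h3T : i + 3 ∈ T)
    (h4 : ∀ x ∈ A i, ∀ y ∈ A (i + 2), 4 * e ≤ dist x y) :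
    MacLO C δ D (A i) (A (i + 2)) i κ
      ((G ∩ Dᶜ ∩ {z | infDist z (A i) ≤ e}) ∪ (B i ∪ B (i + 1)))
      ((G ∩ Dᶜ ∩ {z | infDist z (A (i + 2)) ≤ e}) ∪ (B (i + 2) ∪ B (i + 3))) := by
  have hk := h.kpos
  have he : 0 < e := hk.trans h.ke
  have hcl : ∀ j, IsClosed (G ∩ Dᶜ ∩ {z | infDist z (A j) ≤ e}) := fun j =>
    (h.Gc.isClosed.inter hD.isClosed_compl).inter
      (isClosed_le (continuous_infDist_pt _) continuous_const)
  -- marks
  have hm2 : ∀ z, infDist z (A i) ≤ e → ∀ k, (k = i + 2 ∨ k = i + 3) → e ≤ dist z (m k) := by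
    intro z hz k hk'
    have h5 : m k ∈ A (i + 2) := by
      rcases hk' with rfl | rfl
      · exact hA.mem _
      · have := hA.mem' (i + 3)
        rwa [show i + 3 - 1 = i + 2 by ring] at this
    have h6 := far_of_near hA h4 hz (y := m k) (b := 0) (by
      rw [infDist_zero_of_mem h5])
    linarith
  have hm0 : ∀ z, infDist z (A (i + 2)) ≤ e → ∀ k, (k = i ∨ k = i + 1) → e ≤ dist z (m k) := by
    intro z hz k hk'
    have h5 : m k ∈ A i := by
      rcases hk' with rfl | rfl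
      · exact hA.mem _
      · have := hA.mem' (i + 1)
        rwa [show i + 1 - 1 = i by ring] at this
    have h6 := far_of_near hA h4 (x := m k) (a := 0) (by
      rw [infDist_zero_of_mem h5]) hz
    rw [dist_comm] at h6
    linarith
  have hBB : ∀ j k, j ≠ k → ∀ y ∈ B j, ∀ w ∈ B k, κ ≤ dist y w := h.tbt
  have hne : ∀ a b : ZMod 4, a ≠ b → i + a ≠ i + b := fun a b hab h' => hab (add_left_cancel h')
  refine ⟨hk, h.bd, (hcl i).union ((h.Bc _).union (h.Bc _)),
    (hcl (i + 2)).union ((h.Bc _).union (h.Bc _)), ?_, ?_, ?_, ?_, ?_, ?_, ?_, ?_⟩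
  · -- sep
    have n02 : i ≠ i + 2 := by simpa using hne 0 2 (by decide)
    have n03 : i ≠ i + 3 := by simpa using hne 0 3 (by decide)
    have n12 : i + 1 ≠ i + 2 := hne 1 2 (by decide)
    have n13 : i + 1 ≠ i + 3 := hne 1 3 (by decide)
    rintro x (⟨⟨hxG, hxD⟩, hx⟩ | hx) y (⟨⟨hyG, hyD⟩, hy⟩ | hy)
    · have := far_of_near hA h4 hx hy
      linarith [h.ke]
    · by_contra hcon
      push Not at hcon
      rcases hy with hy | hy
      · have h5 := h.tg (i + 2) y hy x hxG (by rwa [dist_comm])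
        linarith [hm2 x hx _ (Or.inl rfl)]
      · have h5 := h.tg (i + 3) y hy x hxG (by rwa [dist_comm])
        linarith [hm2 x hx _ (Or.inr rfl)]
    · by_contra hcon
      push Not at hcon
      rcases hx with hx | hx
      · have h5 := h.tg i x hx y hyG hcon
        linarith [hm0 y hy _ (Or.inl rfl)]
      · have h5 := h.tg (i + 1) x hx y hyG hcon
        linarith [hm0 y hy _ (Or.inr rfl)]
    · rcases hx with hx | hx <;> rcases hy with hy | hy
      · exact hBB _ _ n02 _ hx _ hy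
      · exact hBB _ _ n03 _ hx _ hy
      · exact hBB _ _ n12 _ hx _ hy
      · exact hBB _ _ n13 _ hx _ hy
  · -- cov
    rintro z ⟨hz, hzD⟩
    have h5 : z ∈ (G \ C.out) ∪ ⋃ k, B k := by rw [← h.body]; exact hz
    rcases h5 with ⟨hzG, -⟩ | h5
    · obtain ⟨j, hj, hjd⟩ := h.ns z hzG hz hzD
      rcases cases4 i j with rfl | rfl | rfl | rfl
      · exact Or.inl (Or.inl ⟨⟨hzG, hzD⟩, hjd.le⟩)
      · exact absurd h1T hj
      · exact Or.inr (Or.inl ⟨⟨hzG, hzD⟩, hjd.le⟩)
      · exact absurd h3T hj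
    · obtain ⟨j, hj⟩ := mem_iUnion.1 h5
      rcases cases4 i j with rfl | rfl | rfl | rfl
      · exact Or.inl (Or.inr (Or.inl hj))
      · exact Or.inl (Or.inr (Or.inr hj))
      · exact Or.inr (Or.inr (Or.inl hj))
      · exact Or.inr (Or.inr (Or.inr hj))
  · -- fr1
    rintro z ⟨⟨hz, hzf⟩, hzE⟩
    have hzc : z ∈ closure D := frontier_subset_closure hzf
    obtain ⟨j, hj⟩ := mem_iUnion.1 (hA.cov hzf)
    rcases cases4 i j with rfl | rfl | rfl | rfl
    · exact hj
    · exact absurd (mem_iUnion.2 ⟨_, h.sw _ h1T hj⟩) hz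
    · exfalso
      rcases hzE with ⟨-, hz1⟩ | hz1 | hz1
      · have h5 := far_of_near hA h4 (x := z) (y := z) (b := 0) hz1 (by
          rw [infDist_zero_of_mem hj])
        rw [dist_self] at h5
        linarith
      · have := h.tbD _ z hz1 z hzc
        rw [dist_self] at this; linarith
      · have := h.tbD _ z hz1 z hzc
        rw [dist_self] at this; linarith
    · exact absurd (mem_iUnion.2 ⟨_, h.sw _ h3T hj⟩) hz
  · -- fr2
    rintro z ⟨⟨hz, hzf⟩, hzE⟩
    have hzc : z ∈ closure D := frontier_subset_closure hzf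
    obtain ⟨j, hj⟩ := mem_iUnion.1 (hA.cov hzf)
    rcases cases4 i j with rfl | rfl | rfl | rfl
    · exfalso
      rcases hzE with ⟨-, hz1⟩ | hz1 | hz1
      · have h5 := far_of_near hA h4 (x := z) (y := z) (a := 0) (by
          rw [infDist_zero_of_mem hj]) hz1
        rw [dist_self] at h5
        linarith
      · have := h.tbD _ z hz1 z hzc
        rw [dist_self] at this; linarith
      · have := h.tbD _ z hz1 z hzc
        rw [dist_self] at this; linarith
    · exact absurd (mem_iUnion.2 ⟨_, h.sw _ h1T hj⟩) hz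
    · exact hj
    · exact absurd (mem_iUnion.2 ⟨_, h.sw _ h3T hj⟩) hz
  · -- nr1
    rintro z hz ⟨w, hw, hzw⟩
    have hzD : z ∉ D := fun hzD => by
      have := h.otD i hi z (subset_closure hzD) w hw
      linarith
    refine ⟨?_, hzD⟩
    have h5 : z ∈ (G \ C.out) ∪ ⋃ k, B k := by rw [← h.body]; exact hz
    rcases h5 with ⟨hzG, -⟩ | h5
    · exact Or.inl ⟨⟨hzG, hzD⟩, (h.nr i z hzG w hw (by rwa [dist_comm])).le⟩
    · obtain ⟨j, hj⟩ := mem_iUnion.1 h5
      rcases cases4 i j with rfl | rfl | rfl | rfl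
      · exact Or.inr (Or.inl hj)
      · exact Or.inr (Or.inr hj)
      · refine absurd hw (h.tbn _ z hj w (by rwa [dist_comm]) i ?_ ?_)
        · rw [show i + 2 - 1 = i + 1 by ring]
          simpa using hne 0 1 (by decide)
        · simpa using hne 0 2 (by decide)
      · refine absurd hw (h.tbn _ z hj w (by rwa [dist_comm]) i ?_ ?_)
        · rw [show i + 3 - 1 = i + 2 by ring]
          simpa using hne 0 2 (by decide)
        · simpa using hne 0 3 (by decide)
  · -- nr2
    rintro z hz ⟨w, hw, hzw⟩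
    have hzD : z ∉ D := fun hzD => by
      have := h.otD _ hi2 z (subset_closure hzD) w hw
      linarith
    refine ⟨?_, hzD⟩
    have h5 : z ∈ (G \ C.out) ∪ ⋃ k, B k := by rw [← h.body]; exact hz
    rcases h5 with ⟨hzG, -⟩ | h5
    · exact Or.inl ⟨⟨hzG, hzD⟩, (h.nr _ z hzG w hw (by rwa [dist_comm])).le⟩
    · obtain ⟨j, hj⟩ := mem_iUnion.1 h5
      rcases cases4 i j with rfl | rfl | rfl | rfl
      · refine absurd hw (h.tbn _ z hj w (by rwa [dist_comm]) (j + 2) ?_ ?_)
        · rw [show j - 1 = j + 3 by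
            have : (3 : ZMod 4) = -1 := by decide
            rw [this]; ring]
          exact hne 2 3 (by decide)
        · simpa using hne 2 0 (by decide)
      · refine absurd hw (h.tbn _ z hj w (by rwa [dist_comm]) (i + 2) ?_ ?_)
        · rw [show i + 1 - 1 = i by ring]
          simpa using hne 2 0 (by decide)
        · exact hne 2 1 (by decide)
      · exact Or.inr (Or.inl hj)
      · exact Or.inr (Or.inr hj)
  · rintro z (hz | hz)
    · exact Or.inr (Or.inl (h.tbc _ hz))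
    · exact Or.inr (Or.inr (h.tbc _ hz))
  · rintro z (hz | hz)
    · exact Or.inr (Or.inl (h.tbc _ hz))
    · exact Or.inr (Or.inr (h.tbc _ hz))

/-- **conditions of D4UP** -/
theorem macUP (h : Mac D A m T md e K C δ κ G B) {i : ZMod 4} (hi : i ∈ T) (hi2 : i + 2 ∈ T)
    (h1T : i + 1 ∉ T) (h3T : i + 3 ∉ T) : MacUP C D (A i) (A (i + 2)) i κ := by
  refine ⟨h.kpos, h.bd, h.sw _ hi, h.sw _ hi2, ?_⟩
  rintro z hz w (hw | hw)
  · exact h.otD _ h1T z hz w hw
  · exact h.otD _ h3T z hz w hw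

end Crest.Agent.R143.GeoSeqx416
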