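import Crest.Agent.R143.Frame8_395

/-!
# Row 143 (S0194): the frame as an average over colourings, with giants of known colours (helper215)

`nn a = ∑ g, ‖a g‖²` is the sum over the darts (three equal terms for every face), so
`(1/4) ∑ g, ‖a g‖² = (3/4) ∑ faces ‖a‖²`.

* `sum_le` : `∑ x ∈ ev M, ∑ β, ‖∑ g ∈ β, a g‖² ≤ nE * ((1/4) ∑ g, ‖a g‖²)`
* `col_le` : `∑ χ, ∑ β ∈ blks M (cfg M χ), ‖∑ g ∈ β, a g‖² ≤ 2 ^ |C| * ((1/4) ∑ g, ‖a g‖²)`
* `col_eq` : equality if the three cells of every face in the support of `a` are different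
* `col_on` : sum over any finite set `S` of colourings
* `card_fix` : number of colourings with prescribed colours on `P` : `2 ^ (|C| - |P|)`
* `giants` : **sum over the colourings with prescribed colours at the cells of `P` is at most
  `#colourings * (2 ^ |P| * ((1/4) ∑ g, ‖a g‖²))`** (858's note 3240)
* `giants_root` : the same for one block chosen for every colouring (e.g. the block of a root face)
* `giants_event` : the same on an event `S` of conditional probability at least `c`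
-/

set_option autoImplicit false

noncomputable section

open scoped Classical

namespace Crest.Agent.R143.Giantx215

open Crest.Agent.R143.Frame1x395 Crest.Agent.R143.Frame2x395 Crest.Agent.R143.Frame3x395
  Crest.Agent.R143.Frame4x395 Crest.Agent.R143.Frame8x395

variable {D C : Type} [Fintype D] {M : CMap D C} {x : D → ZMod 2} {w : ℂ} {a : D → ℂ}

theorem norm_one_of_cube (w3 : w ^ 3 = 1) : ‖w‖ = 1 := by
  have h : ‖w‖ ^ 3 = 1 := by rw [← norm_pow, w3, norm_one]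
  exact (pow_eq_one_iff_of_nonneg (norm_nonneg w) (by norm_num)).1 h

theorem norm_rot (w3 : w ^ 3 = 1) (ha : Spin M w a) (d : D) : ‖a (M.rho d)‖ = ‖a d‖ := by
  rw [ha, norm_mul, norm_one_of_cube w3, one_mul]

/-- rotation of a sum over the darts -/
theorem sum_rho (f : D → ℝ) : ∑ g, f (M.rho g) = ∑ g, f g :=
  Fintype.sum_equiv (rhoE M) _ _ fun _ => rfl

theorem three_sum (w3 : w ^ 3 = 1) (ha : Spin M w a) (f : D → ℝ) :
    ∑ g, ‖a g‖ ^ 2 * (f g + f (M.rho g) + f (M.rho (M.rho g))) = 3 * ∑ g, ‖a g‖ ^ 2 * f g := by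
  have h1 : ∑ g, ‖a g‖ ^ 2 * f (M.rho g) = ∑ g, ‖a g‖ ^ 2 * f g := by
    rw [← sum_rho (M := M) fun g => ‖a g‖ ^ 2 * f g]
    exact Finset.sum_congr rfl fun g _ => by rw [norm_rot w3 ha]
  have h2 : ∑ g, ‖a g‖ ^ 2 * f (M.rho (M.rho g)) = ∑ g, ‖a g‖ ^ 2 * f g := by
    rw [← h1, ← sum_rho (M := M) fun g => ‖a g‖ ^ 2 * f (M.rho g)]
    exact Finset.sum_congr rfl fun g _ => by rw [norm_rot w3 ha]
  simp only [mul_add, Finset.sum_add_distrib]
  rw [h1, h2]
  ring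

theorem sum_le (w3 : w ^ 3 = 1) (w1 : w ≠ 1) (wc : (starRingEnd ℂ) w = w ^ 2) (ha : Spin M w a) :
    ∑ x ∈ ev M, ∑ β ∈ blks M x, ‖∑ g ∈ β, a g‖ ^ 2 ≤ nE M * (1 / 4 * ∑ g, ‖a g‖ ^ 2) := by
  rw [i1_norm w3 w1 wc ha]
  have h := three_sum w3 ha (fun g => (nG M g : ℝ))
  have h2 : ∑ g, ‖a g‖ ^ 2 * ((nG M g : ℝ) + nG M (M.rho g) + nG M (M.rho (M.rho g))) ≤
      ∑ g, ‖a g‖ ^ 2 * (3 / 4 * nE M) := by
    refine Finset.sum_le_sum fun g _ => mul_le_mul_of_nonneg_left ?_ (sq_nonneg _)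
    have := nG_sum (M := M) g
    push_cast at this
    exact this
  rw [h, ← Finset.sum_mul] at h2
  linarith

/-- all faces in the support of `a` have three different cells -/
def Nondeg (M : CMap D C) (a : D → ℂ) : Prop :=
  ∀ g, a g ≠ 0 → M.cell g ≠ M.cell (M.rho g)

theorem sum_eq (w3 : w ^ 3 = 1) (w1 : w ≠ 1) (wc : (starRingEnd ℂ) w = w ^ 2) (ha : Spin M w a)
    (hn : Nondeg M a) :
    ∑ x ∈ ev M, ∑ β ∈ blks M x, ‖∑ g ∈ β, a g‖ ^ 2 = nE M * (1 / 4 * ∑ g, ‖a g‖ ^ 2) := by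
  rw [i1_norm w3 w1 wc ha, Finset.mul_sum, Finset.mul_sum]
  refine Finset.sum_congr rfl fun g _ => ?_
  by_cases h0 : a g = 0
  · rw [h0]; simp
  have hw : w ≠ 0 := by
    rintro rfl
    norm_num at w3
  have h1 : a (M.rho g) ≠ 0 := by rw [ha]; exact mul_ne_zero hw h0
  have h2 : a (M.rho (M.rho g)) ≠ 0 := by rw [ha]; exact mul_ne_zero hw h1
  have h3 := hn _ h2
  rw [M.rho3] at h3
  have h4 : (4 : ℝ) * nG M g = nE M := by exact_mod_cast nG_eq (hn g h0) (hn _ h1) h3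
  rw [← h4]
  ring

theorem nK_mul [Fintype C] : (nK M : ℝ) * nE M = 2 ^ Fintype.card C := by
  have h := sum_cfg (M := M) (A := ℕ) fun _ => 1
  rw [Finset.sum_const, Finset.sum_const, smul_eq_mul, mul_one, smul_eq_mul, smul_eq_mul,
    mul_one, Finset.card_univ, Fintype.card_fun, ZMod.card] at h
  have h2 : (ev M).card = nE M := rfl
  rw [h2] at h
  exact_mod_cast h.symm

/-- **the frame, average over the colourings** -/
theorem col_le [Fintype C] (w3 : w ^ 3 = 1) (w1 : w ≠ 1) (wc : (starRingEnd ℂ) w = w ^ 2)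
    (ha : Spin M w a) :
    ∑ χ : C → ZMod 2, ∑ β ∈ blks M (cfg M χ), ‖∑ g ∈ β, a g‖ ^ 2 ≤
      2 ^ Fintype.card C * (1 / 4 * ∑ g, ‖a g‖ ^ 2) := by
  rw [sum_cfg (M := M) (fun x => ∑ β ∈ blks M x, ‖∑ g ∈ β, a g‖ ^ 2), nsmul_eq_mul, ← nK_mul (M := M),
    mul_assoc]
  exact mul_le_mul_of_nonneg_left (sum_le w3 w1 wc ha) (Nat.cast_nonneg _)

theorem col_eq [Fintype C] (w3 : w ^ 3 = 1) (w1 : w ≠ 1) (wc : (starRingEnd ℂ) w = w ^ 2)
    (ha : Spin M w a) (hn : Nondeg M a) :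
    ∑ χ : C → ZMod 2, ∑ β ∈ blks M (cfg M χ), ‖∑ g ∈ β, a g‖ ^ 2 =
      2 ^ Fintype.card C * (1 / 4 * ∑ g, ‖a g‖ ^ 2) := by
  rw [sum_cfg (M := M) (fun x => ∑ β ∈ blks M x, ‖∑ g ∈ β, a g‖ ^ 2), nsmul_eq_mul, ← nK_mul (M := M),
    mul_assoc, sum_eq w3 w1 wc ha hn]

theorem en_nonneg (x : D → ZMod 2) : 0 ≤ ∑ β ∈ blks M x, ‖∑ g ∈ β, a g‖ ^ 2 :=
  Finset.sum_nonneg fun _ _ => sq_nonneg _

/-- the frame on a set of colourings -/
theorem col_on [Fintype C] (w3 : w ^ 3 = 1) (w1 : w ≠ 1) (wc : (starRingEnd ℂ) w = w ^ 2)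
    (ha : Spin M w a) (S : Finset (C → ZMod 2)) :
    ∑ χ ∈ S, ∑ β ∈ blks M (cfg M χ), ‖∑ g ∈ β, a g‖ ^ 2 ≤
      2 ^ Fintype.card C * (1 / 4 * ∑ g, ‖a g‖ ^ 2) :=
  (Finset.sum_le_univ_sum_of_nonneg fun _ => en_nonneg _).trans (col_le w3 w1 wc ha)

/-- the colourings with the colours `b` on `P` -/
def fix [Fintype C] (P : Finset C) (b : C → ZMod 2) : Finset (C → ZMod 2) :=
  Finset.univ.filter fun χ => ∀ c ∈ P, χ c = b c

theorem mem_fix [Fintype C] {P : Finset C} {b χ : C → ZMod 2} :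
    χ ∈ fix P b ↔ ∀ c ∈ P, χ c = b c := by
  unfold fix
  simp

/-- number of colourings with prescribed colours -/
theorem card_fix [Fintype C] (P : Finset C) (b : C → ZMod 2) :
    2 ^ P.card * (fix P b).card = 2 ^ Fintype.card C := by
  -- every colouring on `P` has the same number of extensions
  have h1 : ∀ b' : C → ZMod 2, (fix P b').card = (fix P b).card := by
    intro b'
    refine Finset.card_bij' (fun χ _ => fun c => χ c + b' c + b c)
      (fun χ _ => fun c => χ c + b' c + b c) ?_ ?_ ?_ ?_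
    · intro χ hχ
      rw [mem_fix] at hχ ⊢
      intro c hc
      show χ c + b' c + b c = b c
      rw [hχ c hc, z_self, zero_add]
    · intro χ hχ
      rw [mem_fix] at hχ ⊢
      intro c hc
      show χ c + b' c + b c = b' c
      rw [hχ c hc]
      linear_combination z_self (b c)
    · intro χ _
      funext c
      show χ c + b' c + b c + b' c + b c = χ c
      linear_combination z_self (b c) + z_self (b' c)
    · intro χ _
      funext c
      show χ c + b' c + b c + b' c + b c = χ c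
      linear_combination z_self (b c) + z_self (b' c)
  have h2 : (Finset.univ : Finset (C → ZMod 2)).card =
      ∑ y : (P → ZMod 2), (Finset.univ.filter fun χ : C → ZMod 2 => (fun c : P => χ c) = y).card :=
    Finset.card_eq_sum_card_fiberwise fun _ _ => Finset.mem_univ _
  have h3 : ∀ y : (P → ZMod 2),
      (Finset.univ.filter fun χ : C → ZMod 2 => (fun c : P => χ c) = y).card = (fix P b).card := by
    intro y
    rw [← h1 fun c => if hc : c ∈ P then y ⟨c, hc⟩ else 0]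
    congr 1
    ext χ
    rw [mem_fix, Finset.mem_filter]
    constructor
    · rintro ⟨-, h⟩ c hc
      rw [dif_pos hc, ← h]
    · intro h
      refine ⟨Finset.mem_univ _, funext fun c => ?_⟩
      rw [h c.1 c.2, dif_pos c.2]
  rw [Finset.sum_congr rfl fun y _ => h3 y, Finset.sum_const, Finset.card_univ, Finset.card_univ,
    Fintype.card_fun, Fintype.card_fun, ZMod.card, Fintype.card_coe, smul_eq_mul] at h2
  exact h2.symm

/-- **the frame with giants of known colours** -/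
theorem giants [Fintype C] (w3 : w ^ 3 = 1) (w1 : w ≠ 1) (wc : (starRingEnd ℂ) w = w ^ 2)
    (ha : Spin M w a) (P : Finset C) (b : C → ZMod 2) :
    ∑ χ ∈ fix P b, ∑ β ∈ blks M (cfg M χ), ‖∑ g ∈ β, a g‖ ^ 2 ≤
      (fix P b).card * (2 ^ P.card * (1 / 4 * ∑ g, ‖a g‖ ^ 2)) := by
  have h := col_on w3 w1 wc ha (fix P b)
  have h2 : (2 : ℝ) ^ P.card * (fix P b).card = 2 ^ Fintype.card C := by
    exact_mod_cast card_fix P b
  rw [← h2] at h
  linarith

/-- one block for every colouring -/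
theorem root_le (F : (D → ZMod 2) → Finset D) (hF : F x ∈ blks M x ∨ F x = ∅) :
    ‖∑ g ∈ F x, a g‖ ^ 2 ≤ ∑ β ∈ blks M x, ‖∑ g ∈ β, a g‖ ^ 2 := by
  rcases hF with h | h
  · exact Finset.single_le_sum (f := fun β => ‖∑ g ∈ β, a g‖ ^ 2) (fun _ _ => sq_nonneg _) h
  · rw [h, Finset.sum_empty, norm_zero]
    simpa using en_nonneg x

theorem giants_root [Fintype C] (w3 : w ^ 3 = 1) (w1 : w ≠ 1) (wc : (starRingEnd ℂ) w = w ^ 2)
    (ha : Spin M w a) (P : Finset C) (b : C → ZMod 2) (F : (D → ZMod 2) → Finset D)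
    (hF : ∀ x, F x ∈ blks M x ∨ F x = ∅) :
    ∑ χ ∈ fix P b, ‖∑ g ∈ F (cfg M χ), a g‖ ^ 2 ≤
      (fix P b).card * (2 ^ P.card * (1 / 4 * ∑ g, ‖a g‖ ^ 2)) :=
  (Finset.sum_le_sum fun _ _ => root_le F (hF _)).trans (giants w3 w1 wc ha P b)

/-- the frame on an event of conditional probability at least `c`, giants of known colours -/
theorem giants_event [Fintype C] (w3 : w ^ 3 = 1) (w1 : w ≠ 1) (wc : (starRingEnd ℂ) w = w ^ 2)
    (ha : Spin M w a) (P : Finset C) (b : C → ZMod 2) {S : Finset (C → ZMod 2)} {c : ℝ}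
    (hc : 0 < c) (hS : S ⊆ fix P b) (hcS : c * (fix P b).card ≤ S.card) :
    ∑ χ ∈ S, ∑ β ∈ blks M (cfg M χ), ‖∑ g ∈ β, a g‖ ^ 2 ≤
      S.card * (c⁻¹ * (2 ^ P.card * (1 / 4 * ∑ g, ‖a g‖ ^ 2))) := by
  have h1 : ∑ χ ∈ S, ∑ β ∈ blks M (cfg M χ), ‖∑ g ∈ β, a g‖ ^ 2 ≤
      ∑ χ ∈ fix P b, ∑ β ∈ blks M (cfg M χ), ‖∑ g ∈ β, a g‖ ^ 2 :=
    Finset.sum_le_sum_of_subset_of_nonneg hS fun _ _ _ => en_nonneg _
  refine h1.trans ((giants w3 w1 wc ha P b).trans ?_)
  have h2 : 0 ≤ 2 ^ P.card * (1 / 4 * ∑ g, ‖a g‖ ^ 2) := by positivity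
  have h3 : ((fix P b).card : ℝ) ≤ S.card * c⁻¹ := by
    rw [le_mul_inv_iff₀ hc, mul_comm]
    exact hcS
  calc ((fix P b).card : ℝ) * (2 ^ P.card * (1 / 4 * ∑ g, ‖a g‖ ^ 2)) ≤
      (S.card * c⁻¹) * (2 ^ P.card * (1 / 4 * ∑ g, ‖a g‖ ^ 2)) :=
        mul_le_mul_of_nonneg_right h3 h2
    _ = _ := by ring

end Crest.Agent.R143.Giantx215
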