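import Crest.Agent.R143.XLift_697
import Crest.Agent.R143.XF_903
import Crest.Agent.R143.Indep_583
import Crest.Agent.R143.GapI_877

/-!
# Row 143 (S0194), block X, GLUE-O, part A (helper697): coordinates and geometry of the boxes

* `ed_zero`, `ed_one`, `ed_two`; `nrm_sq`, `X_lip`, `Y_lip`; `box_ne` (boxes are disjoint),
  `not_axE`
* `LamO` : closed chain of the box `k` which surrounds the axis between `141 q` and `206 q` and whose
  occupied edges are the gate and black-black edges; `ch_lam`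
-/

set_option autoImplicit false

noncomputable section

open scoped Classical

namespace Crest.Agent.R143.Glox697

open Crest.Agent.R143.B0x346 Crest.Agent.R143.DelGx806 Crest.Agent.R143.DelRx806
open Crest.Agent.R143.ToolWx838 Crest.Agent.R143.Blkx838 Crest.Agent.R143.Planarx54
open Crest.Agent.R143.XGx343 Crest.Agent.R143.X0Bx683 Crest.Agent.R143.CircPx838
open Crest.Agent.R143.XLegx126 Crest.Agent.R143.XDx697 Crest.Agent.R143.XLiftx697
open Crest.Agent.R143.Gatex838 Crest.Agent.R143.Circ4x838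

variable {S : Finset ℂ} {z0 : ℂ} {q h : ℝ}

/-! ### coordinates -/

theorem ed_zero : ed 0 = -Complex.I := by
  unfold ed
  rw [show (0 : ZMod 3).val = 0 from rfl, pow_zero, mul_one]

theorem ed_one : ed 1 = 1 := by
  unfold ed
  rw [show (1 : ZMod 3).val = 1 from rfl, pow_one, neg_mul, Complex.I_mul_I, neg_neg]

theorem ed_two : ed 2 = Complex.I := by
  unfold ed
  rw [show (2 : ZMod 3).val = 2 from rfl, Complex.I_sq]
  ring

theorem ed_norm (k : ZMod 3) : ‖ed k‖ = 1 := by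
  unfold ed
  rw [norm_mul, norm_neg, norm_pow, Complex.norm_I, one_pow, one_mul]

theorem ed_ne (k : ZMod 3) : ed k ≠ 0 := by
  intro h0
  have := ed_norm k
  rw [h0, norm_zero] at this
  exact one_ne_zero this.symm

theorem X0 (z : ℂ) : X z0 (ed 0) z = -(z - z0).im := by
  unfold X; rw [ed_zero, div_negI]; simp

theorem Y0 (z : ℂ) : Y z0 (ed 0) z = (z - z0).re := by
  unfold Y; rw [ed_zero, div_negI]; simp

theorem X1 (z : ℂ) : X z0 (ed 1) z = (z - z0).re := by
  unfold X; rw [ed_one, div_one]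

theorem Y1 (z : ℂ) : Y z0 (ed 1) z = (z - z0).im := by
  unfold Y; rw [ed_one, div_one]

theorem X2 (z : ℂ) : X z0 (ed 2) z = (z - z0).im := by
  unfold X; rw [ed_two, div_I]; simp

theorem Y2 (z : ℂ) : Y z0 (ed 2) z = -(z - z0).re := by
  unfold Y; rw [ed_two, div_I]; simp

theorem nrm_sq (k : ZMod 3) (z : ℂ) :
    ‖z - z0‖ ^ 2 = X z0 (ed k) z ^ 2 + Y z0 (ed k) z ^ 2 := by
  have h1 : ‖(z - z0) / ed k‖ = ‖z - z0‖ := by rw [norm_div, ed_norm, div_one]
  rw [← h1, ← Complex.normSq_eq_norm_sq, Complex.normSq_apply]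
  unfold X Y
  ring

theorem X_le (k : ZMod 3) (z : ℂ) : |X z0 (ed k) z| ≤ ‖z - z0‖ := by
  have h1 : ‖(z - z0) / ed k‖ = ‖z - z0‖ := by rw [norm_div, ed_norm, div_one]
  rw [← h1]; exact Complex.abs_re_le_norm _

theorem Y_le (k : ZMod 3) (z : ℂ) : |Y z0 (ed k) z| ≤ ‖z - z0‖ := by
  have h1 : ‖(z - z0) / ed k‖ = ‖z - z0‖ := by rw [norm_div, ed_norm, div_one]
  rw [← h1]; exact Complex.abs_im_le_norm _

theorem nrm_le (k : ZMod 3) (z : ℂ) : ‖z - z0‖ ≤ |X z0 (ed k) z| + |Y z0 (ed k) z| := by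
  have h1 : ‖(z - z0) / ed k‖ = ‖z - z0‖ := by rw [norm_div, ed_norm, div_one]
  rw [← h1]; exact Complex.norm_le_abs_re_add_abs_im _

theorem X_lip (k : ZMod 3) (z w : ℂ) : |X z0 (ed k) z - X z0 (ed k) w| ≤ ‖z - w‖ := by
  have h1 : ‖(z - w) / ed k‖ = ‖z - w‖ := by rw [norm_div, ed_norm, div_one]
  rw [← h1]
  have h2 : X z0 (ed k) z - X z0 (ed k) w = ((z - w) / ed k).re := by
    unfold X; rw [← Complex.sub_re]; congr 1; ring
  rw [h2]; exact Complex.abs_re_le_norm _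

theorem Y_lip (k : ZMod 3) (z w : ℂ) : |Y z0 (ed k) z - Y z0 (ed k) w| ≤ ‖z - w‖ := by
  have h1 : ‖(z - w) / ed k‖ = ‖z - w‖ := by rw [norm_div, ed_norm, div_one]
  rw [← h1]
  have h2 : Y z0 (ed k) z - Y z0 (ed k) w = ((z - w) / ed k).im := by
    unfold Y; rw [← Complex.sub_im]; congr 1; ring
  rw [h2]; exact Complex.abs_im_le_norm _

theorem mid_dist (a b : ℂ) : ‖a - mid (a, b)‖ ≤ ‖b - a‖ / 2 ∧ ‖b - mid (a, b)‖ ≤ ‖b - a‖ / 2 := by
  have e1 : a - mid (a, b) = (a - b) / 2 := by unfold mid; ring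
  have e2 : b - mid (a, b) = (b - a) / 2 := by unfold mid; ring
  rw [e1, e2, norm_div, norm_div, norm_sub_rev a b]
  norm_num

theorem X_mid (k : ZMod 3) (a b : ℂ) :
    X z0 (ed k) (mid (a, b)) = (X z0 (ed k) a + X z0 (ed k) b) / 2 := by
  unfold X
  have e : (mid (a, b) - z0) / ed k = ((a - z0) / ed k + (b - z0) / ed k) / 2 := by
    unfold mid; ring
  rw [e]
  simp

theorem Y_mid (k : ZMod 3) (a b : ℂ) :
    Y z0 (ed k) (mid (a, b)) = (Y z0 (ed k) a + Y z0 (ed k) b) / 2 := by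
  unfold Y
  have e : (mid (a, b) - z0) / ed k = ((a - z0) / ed k + (b - z0) / ed k) / 2 := by
    unfold mid; ring
  rw [e]
  simp

theorem z3 (k : ZMod 3) : k = 0 ∨ k = 1 ∨ k = 2 := by
  fin_cases k
  · exact Or.inl rfl
  · exact Or.inr (Or.inl rfl)
  · exact Or.inr (Or.inr rfl)

/-- the boxes are disjoint -/
theorem box_ne {k k' : ZMod 3} {z : ℂ} {a : ℝ} (ha : 0 ≤ a) (h1 : |X z0 (ed k) z| ≤ a)
    (h2 : a < Y z0 (ed k) z) (h3 : |X z0 (ed k') z| ≤ a) (h4 : 0 < Y z0 (ed k') z) : k = k' := by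
  rw [abs_le] at h1 h3
  rcases z3 k with rfl | rfl | rfl <;> rcases z3 k' with rfl | rfl | rfl <;>
    first
    | rfl
    | (exfalso
       simp only [X0, X1, X2, Y0, Y1, Y2] at h1 h2 h3 h4
       obtain ⟨h1a, h1b⟩ := h1
       obtain ⟨h3a, h3b⟩ := h3
       linarith)

/-- no axis is crossed -/
theorem not_axE {k : ZMod 3} {a b : ℂ} (ha : 0 < Y z0 (ed k) a) (hb : 0 < Y z0 (ed k) b)
    (hx : 0 ≤ X z0 (ed k) a ↔ 0 ≤ X z0 (ed k) b) : ¬ AxE z0 (a, b) := by
  rintro ⟨k', h1, h2⟩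
  rw [Y_mid] at h1
  rcases z3 k with rfl | rfl | rfl <;> rcases z3 k' with rfl | rfl | rfl <;>
    simp only [X0, X1, X2, Y0, Y1, Y2] at ha hb hx h1 h2 <;>
    first
    | exact h2 hx
    | linarith
    | (apply h2; constructor <;> intro h3 <;> linarith)

theorem norm_sup (z : ℂ) : sup z ≤ ‖z‖ := sup_le_norm z

theorem sup_tri (a b c : ℂ) : sup (a - c) ≤ sup (a - b) + sup (b - c) := by
  unfold sup
  have h1 : |(a - c).re| ≤ |(a - b).re| + |(b - c).re| := by
    have : (a - c).re = (a - b).re + (b - c).re := by simp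
    rw [this]; exact abs_add_le _ _
  have h2 : |(a - c).im| ≤ |(a - b).im| + |(b - c).im| := by
    have : (a - c).im = (a - b).im + (b - c).im := by simp
    rw [this]; exact abs_add_le _ _
  refine max_le (h1.trans ?_) (h2.trans ?_)
  · exact add_le_add (le_max_left _ _) (le_max_left _ _)
  · exact add_le_add (le_max_right _ _) (le_max_right _ _)

theorem sup_comm (a b : ℂ) : sup (a - b) = sup (b - a) := by
  unfold sup
  rw [← neg_sub b a, Complex.neg_re, Complex.neg_im, abs_neg, abs_neg]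

/-! ### the closed chain of a box -/

/-- closed chain `lam` of the box `k` (outer side) : `σ` = black sites, `g` = gate -/
structure LamO (S : Finset ℂ) (z0 : ℂ) (q : ℝ) (k : ZMod 3) (σ : Finset ℂ) (J : Finset (ℂ × ℂ))
    (g : ℂ × ℂ) (lam : List ℂ) : Prop where
  loop : Loop S lam
  box : ∀ s ∈ lam, |X z0 (ed k) s| ≤ 12 * q ∧ 100 * q ≤ Y z0 (ed k) s ∧ Y z0 (ed k) s ≤ 222 * q
  core : ∀ z, |X z0 (ed k) z| ≤ 6 * q → 141 * q ≤ Y z0 (ed k) z → Y z0 (ed k) z ≤ 206 * q →
    asum z lam ≠ 0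
  off : ∀ s ∈ lam, |X z0 (ed k) s| ≤ 6 * q → 141 * q ≤ Y z0 (ed k) s → 206 * q < Y z0 (ed k) s
  occ : ∀ a b, Touch lam (a, b) → (b, a) ∈ J → ((a, b) = g ∨ (b, a) = g) ∨
    (a ∈ σ ∧ b ∈ σ ∧ ((206 * q < Y z0 (ed k) a ∧ 206 * q < Y z0 (ed k) b) ∨
      (0 ≤ X z0 (ed k) a ↔ 0 ≤ X z0 (ed k) b)))
  gt : Touch lam g
  low : Y z0 (ed k) (mid g) ≤ 142 * q

/-- region of the box -/
def Bx (z0 : ℂ) (q : ℝ) (k : ZMod 3) : Set ℂ :=
  {z | |X z0 (ed k) z| ≤ 12 * q ∧ 100 * q ≤ Y z0 (ed k) z ∧ Y z0 (ed k) z ≤ 222 * q}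

variable {k : ZMod 3} {σ : Finset ℂ} {J : Finset (ℂ × ℂ)} {g : ℂ × ℂ} {lam : List ℂ}

theorem LamO.edge (hL : LamO S z0 q k σ J g lam) {e : ℂ × ℂ} (he : Touch lam e) :
    e.1 ∈ lam ∧ e.2 ∈ lam := by
  rcases he with he | he
  · exact mem_of_prs he
  · exact (mem_of_prs he).symm

theorem LamO.edge_mem (hL : LamO S z0 q k σ J g lam) {e : ℂ × ℂ} (he : Touch lam e) :
    mid e ∈ Bx z0 q k := by
  obtain ⟨a, b⟩ := e
  obtain ⟨h1, h2⟩ := hL.edge he
  have h3 := hL.box _ h1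
  have h4 := hL.box _ h2
  dsimp only at h3 h4
  unfold Bx
  rw [Set.mem_setOf_eq, X_mid, Y_mid]
  rw [abs_le] at h3 h4 ⊢
  refine ⟨⟨?_, ?_⟩, ?_, ?_⟩ <;> linarith [h3.1.1, h3.1.2, h3.2.1, h3.2.2, h4.1.1, h4.1.2, h4.2.1,
    h4.2.2]

theorem LamO.see (hL : LamO S z0 q k σ J g lam) {z : ℂ} (hz : asum z lam ≠ 0) : z ∈ Bx z0 q k := by
  by_contra hcon
  apply hz
  have hcl := hL.loop.closed
  have hX : ∀ s, ((s - z) / ed k).re = X z0 (ed k) s - X z0 (ed k) z := by
    intro s; unfold X; rw [← Complex.sub_re]; congr 1; ring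
  have hY : ∀ s, ((s - z) / ed k).im = Y z0 (ed k) s - Y z0 (ed k) z := by
    intro s; unfold Y; rw [← Complex.sub_im]; congr 1; ring
  have hI : ∀ s, ((s - z) / (ed k * Complex.I)).re = Y z0 (ed k) s - Y z0 (ed k) z := by
    intro s
    rw [← hY, ← div_div, div_I]
    simp
  unfold Bx at hcon
  rw [Set.mem_setOf_eq] at hcon
  by_cases h1 : X z0 (ed k) z ≤ 12 * q
  · by_cases h2 : -(12 * q) ≤ X z0 (ed k) z
    · by_cases h3 : 100 * q ≤ Y z0 (ed k) z
      · have h4 : 222 * q < Y z0 (ed k) z := by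
          by_contra h4
          push Not at h4
          exact hcon ⟨abs_le.2 ⟨h2, h1⟩, h3, h4⟩
        refine asum_half_closed (u := -(ed k * Complex.I)) hcl fun s hs => ?_
        rw [div_neg, Complex.neg_re, hI]
        linarith [(hL.box s hs).2.2]
      · push Not at h3
        refine asum_half_closed (u := ed k * Complex.I) hcl fun s hs => ?_
        rw [hI]
        linarith [(hL.box s hs).2.1]
    · push Not at h2
      refine asum_half_closed (u := ed k) hcl fun s hs => ?_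
      rw [hX]
      linarith [(abs_le.1 (hL.box s hs).1).1]
  · push Not at h1
    refine asum_half_closed (u := -ed k) hcl fun s hs => ?_
    rw [div_neg, Complex.neg_re, hX]
    linarith [(abs_le.1 (hL.box s hs).1).2]

/-- points of the upper half plane of the box are in the half plane of the port -/
theorem port_half {y : ℝ} (hy : 0 < y) {k : ZMod 3} {z : ℂ} (hz : 0 < Y z0 (ed k) z) :
    0 < ((z - z0) / (port z0 y k - z0)).re := by
  have e1 : port z0 y k - z0 = (y : ℂ) * (Complex.I * ed k) := by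
    unfold port ed
    rw [add_sub_cancel_left]
    have : Complex.I * (-Complex.I * Complex.I ^ k.val) = Complex.I ^ k.val := by
      rw [← mul_assoc, mul_neg, Complex.I_mul_I, neg_neg, one_mul]
    rw [this]
  have e2 : (z - z0) / (port z0 y k - z0) = ((1 / y : ℝ) : ℂ) * (((z - z0) / ed k) / Complex.I) := by
    rw [e1]
    push_cast
    have hy' : (y : ℂ) ≠ 0 := by exact_mod_cast hy.ne'
    have he := ed_ne k
    field_simp
  rw [e2, Complex.re_ofReal_mul, div_I]
  have e3 : (-Complex.I * ((z - z0) / ed k)).re = Y z0 (ed k) z := by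
    unfold Y; simp
  rw [e3]
  positivity

theorem port_ne {y : ℝ} (hy : 0 < y) (k : ZMod 3) : port z0 y k ≠ z0 := by
  intro h0
  have h1 : port z0 y k - z0 = 0 := sub_eq_zero.2 h0
  unfold port at h1
  rw [add_sub_cancel_left] at h1
  rcases mul_eq_zero.1 h1 with h2 | h2
  · exact hy.ne' (by exact_mod_cast h2)
  · exact pow_ne_zero _ Complex.I_ne_zero h2

/-- the chain of the box as a member of the family -/
theorem ch_lam (hL : LamO S z0 q k σ J g lam) (hq : 0 < q) (θ : ℝ) :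
    Ch S z0 lam (Bx z0 q k) (lf z0 (port z0 (205 * q) k) θ) where
  loop := hL.loop
  edge := fun e he => hL.edge_mem he
  see := fun z hz => hL.see hz
  ang := by
    intro z hz w hw
    have h1 : 0 < Y z0 (ed k) z := lt_of_lt_of_le (by positivity) hz.2.1
    have h2 : 0 < Y z0 (ed k) w := lt_of_lt_of_le (by positivity) hw.2.1
    have hy : 0 < 205 * q := by positivity
    have := ang_half (port_ne hy k) (port_half hy h1) (port_half hy h2)
    unfold lf
    rw [this]
    ring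

end Crest.Agent.R143.Glox697
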