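import Crest.Agent.R143.Glu_991

/-!
# Row 143 (S0194), K7: territories off a larger set of bricks (helper991)

`GS A x0 L s G` : the tiles of `G` contain no site of a class and lie in `closedBall x0 (L - 2 s)`;
every brick off `G` is equal or next to a brick off `G` with a class site or with a point outside.
Instances `gs_gd` (good bricks) and `gs_gp` : `Gp` = good bricks and their neighbours.
* `wayP`, `nearP`, `joiP`, `terrP` : class sites near the sites off the deep sites, territories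
-/

set_option autoImplicit false

noncomputable section

open scoped Classical

namespace Crest.Agent.R143.GluPx991

open Set
open Crest.Agent.R158
open Crest.Agent.R158.Sp896 (sq)
open Crest.Agent.R143.B0x346 Crest.Agent.R143.DelGx806 Crest.Agent.R143.DelRx806
  Crest.Agent.R143.JColx54 Crest.Agent.R143.RE0x723 Crest.Agent.R143.K33x877
open Crest.Agent.R143.Brkx478
open Crest.Agent.R143.Gridx991 (tl mem_tl sq_sub_tl tl_dist nb_meet pg_eq exists_tl)
open Crest.Agent.R143.Tenx416 (Pg)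
open Crest.Agent.R143.Segx991 Crest.Agent.R143.Pwx453 Crest.Agent.R143.GridKx991
open Crest.Agent.R143.Glux991
open Crest.Agent.R143.Terr2x583 (Joi Near)
open Crest.Agent.R143.Colx583 (uA mem_uA)
open Crest.Agent.R143.K7Dx359 (Stg Gd Al Va ThF)

variable {S : Finset ℂ} {A : ZMod 3 → Set ℂ} {s L R ρ d : ℝ} {x0 x p e z : ℂ}
  {q q' : Sp896.V} {i : ZMod 3} {G : Set Bk} {b c : Bk}

/-- a set of bricks without class sites, well inside the disc, whose complement is marked -/
structure GS (A : ZMod 3 → Set ℂ) (x0 : ℂ) (L s : ℝ) (G : Set Bk) : Prop where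
  cls : ∀ b ∈ G, ∀ i, ∀ e ∈ A i, e ∉ tl s b
  ball : ∀ b ∈ G, ∀ z ∈ tl s b, ‖z - x0‖ ≤ L - 2 * s
  bad : ∀ b ∉ G, ∃ c ∉ G, (c = b ∨ Nb b c) ∧
    ((∃ z ∈ tl s c, L - 2 * s < ‖z - x0‖) ∨ ∃ i, ∃ e ∈ A i, e ∈ tl s c)

theorem gs_gd (hs : 0 < s) : GS A x0 L s (Gd A x0 L s) where
  cls := fun b hb i e he => ((gd_iff.1 hb) b (Or.inl rfl)).2 i e he
  ball := fun b hb => ((gd_iff.1 hb) b (Or.inl rfl)).1
  bad := fun b hb => by
    obtain ⟨c, hc, h1⟩ := bad7 hb
    refine ⟨c, ?_, hc, h1⟩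
    rcases h1 with ⟨z, hz, h2⟩ | ⟨i, e, he, h2⟩
    · exact bad_of_out hz h2
    · exact bad_of_cls hs he h2 (by rw [sub_self, norm_zero]; exact hs)

/-- good bricks and their neighbours -/
def Gp (A : ZMod 3 → Set ℂ) (x0 : ℂ) (L s : ℝ) : Set Bk :=
  {b | b ∈ Gd A x0 L s ∨ ∃ g ∈ Gd A x0 L s, Nb g b}

theorem gd_gp : Gd A x0 L s ⊆ Gp A x0 L s := fun _ h => Or.inl h

theorem gp_prop (h : b ∈ Gp A x0 L s) : (∀ z ∈ tl s b, ‖z - x0‖ ≤ L - 2 * s) ∧
    ∀ i, ∀ e ∈ A i, e ∉ tl s b := by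
  rcases h with h | ⟨g, hg, h⟩
  · exact (gd_iff.1 h) b (Or.inl rfl)
  · exact (gd_iff.1 hg) b (Or.inr h)

theorem gp_not (h : (∃ z ∈ tl s c, L - 2 * s < ‖z - x0‖) ∨ ∃ i, ∃ e ∈ A i, e ∈ tl s c) :
    c ∉ Gp A x0 L s := by
  intro hc
  rcases h with ⟨z, hz, h2⟩ | ⟨i, e, he, h2⟩
  · have := (gp_prop hc).1 z hz
    linarith
  · exact (gp_prop hc).2 i e he h2

theorem gs_gp : GS A x0 L s (Gp A x0 L s) where
  cls := fun b hb => (gp_prop hb).2
  ball := fun b hb => (gp_prop hb).1
  bad := fun b hb => by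
    obtain ⟨c, hc, h1⟩ := bad7 (fun h => hb (gd_gp h))
    exact ⟨c, gp_not h1, hc, h1⟩

/-- **a ring brick has a neighbour off `Gp`** -/
theorem ring_nb (hb : b ∈ Gp A x0 L s) (hb' : b ∉ Gd A x0 L s) :
    ∃ c ∉ Gp A x0 L s, Nb b c ∧
      ((∃ z ∈ tl s c, L - 2 * s < ‖z - x0‖) ∨ ∃ i, ∃ e ∈ A i, e ∈ tl s c) := by
  obtain ⟨c, hc, h1⟩ := bad7 hb'
  have h2 : c ∉ Gp A x0 L s := gp_not h1
  rcases hc with rfl | hc
  · exact absurd hb h2
  · exact ⟨c, h2, hc, h1⟩

/-- the tiles near a good brick are in the polygon of `Gp` -/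
theorem near_gp (hs : 0 < s) (hb : b ∈ Gd A x0 L s) (hz : z ∈ tl s b) {w : ℂ} (hzw : ‖z - w‖ < s) :
    w ∈ Pg s (cells (Gp A x0 L s)) := by
  obtain ⟨c, hc⟩ := exists_tl hs w
  rw [pg_eq]
  refine mem_iUnion₂.2 ⟨c, ?_, hc⟩
  rcases tl_near hs hz hc hzw with rfl | h
  · exact Or.inl hb
  · exact Or.inr ⟨b, hb, h⟩

/-- class sites are off the polygon -/
theorem far_pg (hG : GS A x0 L s G) (he : e ∈ A i) : e ∉ Pg s (cells G) := by
  rw [pg_eq]
  intro h
  obtain ⟨b, hb, h⟩ := mem_iUnion₂.1 h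
  exact hG.cls b hb i e he h

theorem pg_ball (hG : GS A x0 L s G) (hz : z ∈ Pg s (cells G)) : ‖z - x0‖ ≤ L - 2 * s := by
  rw [pg_eq] at hz
  obtain ⟨b, hb, h⟩ := mem_iUnion₂.1 hz
  exact hG.ball b hb z h

/-- **way from a point outside to a class site** -/
theorem wayP (h : Stg S A x0 L d s) (hG : GS A x0 L s G) (hP : p ∉ Pg s (cells G))
    (hpL : ‖p - x0‖ ≤ L + s) :
    ∃ e ∈ uA S A, ∃ C : Set ℂ, IsPreconnected C ∧ p ∈ C ∧ e ∈ C ∧
      (∀ c ∈ C, c ∉ Pg s (cells G)) ∧ ∀ c ∈ C, ‖c - p‖ ≤ 14 * s := by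
  have hs := s0 h
  have hsL := h.sL
  have hL := L0 h
  have hws : 2 * (0 : ℝ) < s := by linarith
  rw [← pw_zero] at hP ⊢
  set q := Sp896.cellOf s p with hq
  have hp : p ∈ sq s q := Sp896.mem_cellOf hs p
  have hqF : q ∉ cells G := not_F le_rfl hP hp
  have hbq : bk q ∉ G := hqF
  obtain ⟨c, hcG, hc, h1⟩ := hG.bad _ hbq
  -- way to a point of the tile of `c`
  have key : ∀ y ∈ tl s c, y ∉ Pw s 0 (cells G) → ∃ C : Set ℂ, IsPreconnected C ∧ p ∈ C ∧
      y ∈ C ∧ (∀ c ∈ C, c ∉ Pw s 0 (cells G)) ∧ ∀ c ∈ C, ‖c - p‖ ≤ 6 * s := by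
    intro y hy hyP
    obtain ⟨q', hq', hyq⟩ : ∃ q', q' ∈ cells ({bk q, c} : Set Bk) ∧ y ∈ sq s q' := by
      rcases hy with h | h
      · exact ⟨c0 c, by rw [mem_cells, bk_c0]; exact Or.inr rfl, h⟩
      · exact ⟨c1 c, by rw [mem_cells, bk_c1]; exact Or.inr rfl, h⟩
    have hconn : Conn ({bk q, c} : Set Bk) := by
      have m1 : bk q ∈ ({bk q, c} : Set Bk) := Or.inl rfl
      have m2 : c ∈ ({bk q, c} : Set Bk) := Or.inr rfl
      have h2 : Cn ({bk q, c} : Set Bk) (bk q) c := by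
        rcases hc with hc | hc
        · rw [hc]; exact Relation.ReflTransGen.refl
        · exact Relation.ReflTransGen.single ⟨m1, m2, hc⟩
      rintro a (ha | ha) b (hb | hb)
      · rw [ha, hb]; exact Relation.ReflTransGen.refl
      · rw [ha, hb]; exact h2
      · rw [ha, hb]; exact Gridx991.Cn.symm h2
      · rw [ha, hb]; exact Relation.ReflTransGen.refl
    have hcon := con_cells hconn q (Or.inl rfl) q' hq'
    obtain ⟨C, k1, k2, k3, k4, k5⟩ := way_pts hs le_rfl hws (F := cells G)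
      (N := cells ({bk q, c} : Set Bk)) (by
        rintro x (hx | hx) hx'
        · exact hbq (hx ▸ hx')
        · exact hcG (hx ▸ hx')) hcon hp hP hyq hyP
    refine ⟨C, k1, k2, k3, k4, fun c' hc' => ?_⟩
    have hpb : p ∈ tl s (bk q) := sq_sub_tl s q hp
    obtain ⟨x, hx, hcx⟩ := k5 c' hc'
    have hx' : bk x = bk q ∨ bk x = c := by
      rcases hx with rfl | hx
      · exact Or.inl rfl
      · exact hx
    have hcx' : c' ∈ tl s (bk x) := sq_sub_tl s x hcx
    rcases hx' with hx' | hx'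
    · rw [hx'] at hcx'
      have := tl_dist hs hcx' hpb
      linarith
    · rw [hx'] at hcx'
      obtain ⟨u, hu1, hu2⟩ : (tl s (bk q) ∩ tl s c).Nonempty := by
        rcases hc with hc | hc
        · exact ⟨p, hpb, by rw [hc]; exact hpb⟩
        · exact nb_meet hs hc
      have e1 := tl_dist hs hcx' hu2
      have e2 := tl_dist hs hu1 hpb
      have e3 : ‖c' - p‖ ≤ ‖c' - u‖ + ‖u - p‖ := by
        have := norm_add_le (c' - u) (u - p)
        rwa [sub_add_sub_cancel] at this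
      linarith
  have hball : ∀ y ∈ Pw s 0 (cells G), ‖y - x0‖ ≤ L - 2 * s := fun y hy => by
    rw [pw_zero] at hy
    exact pg_ball hG hy
  rcases h1 with ⟨z, hz, h2⟩ | ⟨i, e, he, h2⟩
  · -- outside
    have hzP : z ∉ Pw s 0 (cells G) := fun h' => by
      have := hball z h'
      linarith
    obtain ⟨C, k1, k2, k3, k4, k5⟩ := key z hz hzP
    set D := ‖z - x0‖ with hD
    have hD0 : 0 < D := by linarith
    obtain ⟨u, hu, hzu⟩ := DomBx722.exists_pol (c := x0) (z := z) hD0
    obtain ⟨pr, hpr⟩ := DomAx722.crossRay_exists h.dns hu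
    have h3 := (DomBx722.crossRay_ends h.dns hu hpr).1
    obtain ⟨i, hi⟩ := h.tr.hull_mem (Or.inl hpr.1)
    set a := pr.1 with ha
    have hsq := sq_s h
    have e0 : 6 * (s / 2 ^ 20) ≤ s / 4 := by
      have : s / 4 - 6 * (s / 2 ^ 20) = s * (1 / 4 - 6 / 2 ^ 20) := by ring
      have h5 : 0 ≤ s * (1 / 4 - 6 / 2 ^ 20) := mul_nonneg hs.le (by norm_num)
      linarith
    set y0 : ℂ := x0 + L * u with hy0
    have h4 : ‖a - y0‖ ≤ s / 4 := by linarith
    have hzu' : z = x0 + (D : ℂ) * u := hzu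
    have hDL : D ≤ L + 7 * s := by
      have e1 := k5 z k3
      have e2 : ‖z - x0‖ ≤ ‖z - p‖ + ‖p - x0‖ := by
        have := norm_add_le (z - p) (p - x0)
        rwa [sub_add_sub_cancel] at this
      linarith
    have hzy : ‖z - y0‖ ≤ 7 * s := by
      have e1 : z - y0 = ((D - L : ℝ) : ℂ) * u := by
        rw [hzu', hy0]; push_cast; ring
      rw [e1, norm_mul, hu, mul_one, Complex.norm_real, Real.norm_eq_abs, abs_le]
      constructor <;> linarith
    have hzp := k5 z k3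
    refine ⟨a, (mem_uA h.tr).2 ⟨i, hi⟩, C ∪ (segment ℝ z y0 ∪ segment ℝ y0 a), ?_, Or.inl k2,
      Or.inr (Or.inr (right_mem_segment ℝ y0 a)), ?_, ?_⟩
    · exact IsPreconnected.union z k3 (Or.inl (left_mem_segment ℝ z y0)) k1
        (IsPreconnected.union y0 (right_mem_segment ℝ z y0) (left_mem_segment ℝ y0 a)
          (convex_segment z y0).isPreconnected (convex_segment y0 a).isPreconnected)
    · rintro y (hy | ⟨α, β, hα, hβ, hαβ, rfl⟩ | hy)
      · exact k4 y hy
      · intro h'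
        have h5 := hball _ h'
        have e : α • z + β • y0 - x0 = ((α * D + β * L : ℝ) : ℂ) * u := by
          have e1 : (α : ℂ) + β = 1 := by exact_mod_cast hαβ
          simp only [Complex.real_smul]
          push_cast
          rw [hzu', hy0]
          linear_combination x0 * e1
        rw [e, norm_mul, hu, mul_one, Complex.norm_real, Real.norm_of_nonneg (by positivity)] at h5
        have e6 : L - 2 * s < α * D + β * L := by
          rcases hβ.eq_or_lt with h0 | h0
          · rw [← h0, add_zero] at hαβ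
            rw [hαβ, ← h0]
            linarith
          · have h6 : α * (L - 2 * s) ≤ α * D := mul_le_mul_of_nonneg_left h2.le hα
            have h7 : β * (L - 2 * s) < β * L := mul_lt_mul_of_pos_left (by linarith) h0
            have h8 : L - 2 * s = α * (L - 2 * s) + β * (L - 2 * s) := by
              rw [← add_mul, hαβ, one_mul]
            linarith
        linarith
      · intro h'
        have h5 := hball _ h'
        have h6 := Nearx440.seg_add hy
        have h7 : ‖y - y0‖ ≤ s / 4 := by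
          have := norm_nonneg (y - a)
          rw [norm_sub_rev y0 y, norm_sub_rev y0 a] at h6
          linarith
        have h8 : ‖y0 - x0‖ = L := by
          rw [hy0, add_sub_cancel_left, norm_mul, hu, mul_one, Complex.norm_real,
            Real.norm_of_nonneg hL.le]
        have h9 : ‖y0 - x0‖ ≤ ‖y0 - y‖ + ‖y - x0‖ := by
          have := norm_add_le (y0 - y) (y - x0)
          rwa [sub_add_sub_cancel] at this
        rw [h8, norm_sub_rev y0 y] at h9
        linarith
    · rintro y (hy | hy | hy)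
      · have := k5 y hy
        linarith
      · have h5 := Nearx440.seg_add hy
        have h8 : ‖y - p‖ ≤ ‖y - z‖ + ‖z - p‖ := by
          have := norm_add_le (y - z) (z - p)
          rwa [sub_add_sub_cancel] at this
        have h9 := norm_nonneg (y - y0)
        rw [norm_sub_rev z y] at h5
        linarith
      · have h6 := Nearx440.seg_add hy
        have h7 : ‖y - y0‖ ≤ s / 4 := by
          have := norm_nonneg (y - a)
          rw [norm_sub_rev y0 y, norm_sub_rev y0 a] at h6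
          linarith
        have h8 : ‖y - p‖ ≤ ‖y - y0‖ + (‖y0 - z‖ + ‖z - p‖) := by
          have e1 := norm_add_le (y - y0) (y0 - p)
          have e2 := norm_add_le (y0 - z) (z - p)
          rw [sub_add_sub_cancel] at e1 e2
          linarith
        rw [norm_sub_rev y0 z] at h8
        linarith
  · have heP : e ∉ Pw s 0 (cells G) := by rw [pw_zero]; exact far_pg hG he
    obtain ⟨C, k1, k2, k3, k4, k5⟩ := key e h2 heP
    exact ⟨e, (mem_uA h.tr).2 ⟨i, he⟩, C, k1, k2, k3, k4, fun c hc => (k5 c hc).trans (by linarith)⟩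

/-! ### main statements -/

/-- deep sites are free -/
theorem deep_frP (hG : GS A x0 L s G) (hρ : 0 ≤ ρ) :
    (deep S (Pg s (cells G)) ρ : Set ℂ) ⊆ fr S A := by
  intro x hx
  have hx' := Finset.mem_coe.1 hx
  exact ⟨(mem_deep.1 hx').1, fun i hi => far_pg hG hi (deep_mem hρ hx')⟩

/-- **(Near)** for every site off the deep sites -/
theorem nearP (h : Stg S A x0 L d s) (hG : GS A x0 L s G) (hd : d < ρ) (hρ : ρ ≤ s)
    (hx : x ∈ S) (hxd : x ∉ deep S (Pg s (cells G)) ρ) :
    Near S (deep S (Pg s (cells G)) ρ) (uA S A) (40 * s) x := by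
  have hs := s0 h
  obtain ⟨p, hp, hxp⟩ := exists_out hx hxd
  have hxL := h.dns.sub x hx
  have hds := d_s h
  have hd1 : s / 2 ^ 20 ≤ s := div_le_self hs.le (by norm_num)
  have hpL : ‖p - x0‖ ≤ L + s := by
    have : ‖p - x0‖ ≤ ‖p - x‖ + ‖x - x0‖ := by
      have := norm_add_le (p - x) (x - x0)
      rwa [sub_add_sub_cancel] at this
    rw [norm_sub_rev p x] at this
    linarith
  have hH : Hl S (Pg s (cells G)) d := (hol h).mono fun z hz => by
    rw [Metric.mem_closedBall, dist_eq_norm]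
    have := pg_ball hG hz
    linarith
  obtain ⟨e, he, C, k1, k2, k3, k4, k5⟩ := wayP h hG hp hpL
  refine ⟨e, he, (pth_out3 (r := 15 * s) (r' := 17 * s) h.dns.gp h.card hx hp hxp k1 k4
    hH h.dns.dpos.le hd k2 ?_ ?_ (mem_clm (Finset.filter_subset _ _ he) k3)).mono ?_⟩
  · intro q hq
    have h1 := k5 q hq
    have h2 : ‖q - x‖ ≤ ‖q - p‖ + ‖p - x‖ := by
      have := norm_add_le (q - p) (p - x)
      rwa [sub_add_sub_cancel] at this
    rw [norm_sub_rev p x] at h2
    linarith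
  · have h3 := hol' h (R := 16 * s) (by linarith)
    rw [show 16 * s + s = 17 * s by ring] at h3
    refine h3.mono fun q hq => ?_
    rw [Metric.mem_closedBall, dist_eq_norm]
    have h1 := k5 q hq
    have h2 : ‖q - x0‖ ≤ ‖q - p‖ + ‖p - x0‖ := by
      have := norm_add_le (q - p) (p - x0)
      rwa [sub_add_sub_cancel] at this
    linarith
  · rintro y ⟨h1, h2⟩
    exact ⟨h1, h2.trans (by linarith)⟩

/-- **(Joi)** -/
theorem joiP (h : Stg S A x0 L d s) (hG : GS A x0 L s G) (hd : d < ρ) (hρ : ρ ≤ s) :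
    Joi S (deep S (Pg s (cells G)) ρ) (uA S A) := fun _ hx hxd => by
  obtain ⟨y, hy, hp⟩ := nearP h hG hd hρ hx hxd
  exact ⟨y, hy, hp.mono fun _ h' => h'.1⟩

/-- **territories** with the free sites `deep S (Pg s (cells G)) ρ` -/
theorem terrP (h : Stg S A x0 L d s) (hG : GS A x0 L s G) (hd : d < ρ) (hρ : ρ ≤ s) :
    ∃ T : ZMod 3 → Set ℂ, Tr S T ∧ (∀ i, A i ⊆ T i) ∧
      fr S T = (deep S (Pg s (cells G)) ρ : Set ℂ) ∧ ∀ i, ThF S A T i (960 * s) := by
  have hs := s0 h
  have hρ0 : 0 ≤ ρ := h.dns.dpos.le.trans hd.le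
  obtain ⟨T, h1, h2, h3, h4⟩ := Colx583.tr_terr h.tr (deep_frP hG hρ0) (joiP h hG hd hρ)
    (ρ := 40 * s) (by linarith)
  refine ⟨T, h1, h2, h3, fun i x hx => ?_⟩
  have hxS : x ∈ S := Finset.mem_coe.1 (h1.sub i hx)
  have hxd : x ∉ deep S (Pg s (cells G)) ρ := by
    intro h'
    have : x ∈ fr S T := by rw [h3]; exact Finset.mem_coe.2 h'
    exact this.2 i hx
  obtain ⟨y, hy, hp⟩ := h4 i x hx (nearP h hG hd hρ hxS hxd)
  refine ⟨y, hy, hp.mono ?_⟩
  rintro z ⟨h5, h6⟩
  exact ⟨h5, h6.trans (by linarith)⟩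

/-- the deep sites of the setting -/
theorem va_eq' : Va S A x0 L d s = deep S (Pg s (cells (Gd A x0 L s))) (2 * d) := rfl

end Crest.Agent.R143.GluPx991
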