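import Crest.Agent.R143.ArcP_571
import Crest.Agent.R143.OutP_571

/-!
# Row 143, R10, polygon side (helper571; statements of helper845, helper969)

* (G1) `frontier_P` : `frontier u.P = ⋃ i, ed u.s (u.v i) (u.v (i + 1))`, `isClosed_P`, `isCompact_P`,
  `ed_not_int` (points of an edge are not in the interior), `frontier_arc` (union of the arcs)
* (G5) `lab_of_foot` : a foot `p ∈ u.Arc j` with `dist p x ≤ r`, `4 r < u.s`, the marks at distance
  `≥ ρ > 2 r` from `p` gives `u.Lab x = j`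
-/

set_option autoImplicit false

noncomputable section

open scoped Classical

namespace Crest.Agent.R143.UKG5x571

open Set
open Crest.Agent.R158.Sp896
open Crest.Agent.R143.Brkx478 (Bk cells Conn cells_finite)
open Crest.Agent.R143.Tenx416 (Pg)
open Crest.Agent.R143.PolyUx346
open Crest.Agent.R143.ArcPx571
open Crest.Agent.R143.OutCx571 (mem_pg ctr)

variable {F : Set V} {L : ℕ} {v : ℕ → V} {s : ℝ}

/-! ### (G1) -/

theorem isClosed_Pg (hf : F.Finite) (s : ℝ) : IsClosed (Pg s F) :=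
  hf.isClosed_biUnion fun q _ => isClosed_sq s q

theorem isCompact_Pg (hf : F.Finite) (hs : 0 < s) : IsCompact (Pg s F) := by
  refine Metric.isCompact_of_isClosed_isBounded (isClosed_Pg hf s) ?_
  obtain ⟨M, hM, h⟩ := OutCx571.pg_bdd hf hs.le
  refine (Metric.isBounded_closedBall (x := (0 : ℂ)) (r := 2 * M)).subset fun w hw => ?_
  rw [Metric.mem_closedBall, dist_zero_right]
  have := Complex.norm_le_abs_re_add_abs_im w
  linarith [(h w hw).1, (h w hw).2]

/-- a point of the open cell is in no other closed cell -/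
theorem open_cell {q q' : V} {w : ℂ} (h1 : s * q.1 < w.re) (h2 : w.re < s * (q.1 + 1))
    (h3 : s * q.2 < w.im) (h4 : w.im < s * (q.2 + 1)) (hs : 0 < s) (h : w ∈ sq s q') : q' = q := by
  obtain ⟨g1, g2, g3, g4⟩ := h
  have key : ∀ a b : ℤ, s * (a : ℝ) < s * ((b : ℝ) + 1) → a ≤ b := by
    intro a b hab
    have : (a : ℝ) < ((b + 1 : ℤ) : ℝ) := by
      push_cast
      exact lt_of_mul_lt_mul_left hab hs.le
    have := Int.cast_lt.1 this
    omega
  have e1 := key q'.1 q.1 (lt_of_le_of_lt g1 h2)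
  have e2 := key q.1 q'.1 (lt_of_lt_of_le h1 g2)
  have e3 := key q'.2 q.2 (lt_of_le_of_lt g3 h4)
  have e4 := key q.2 q'.2 (lt_of_lt_of_le h3 g4)
  exact Prod.ext (by omega) (by omega)

/-- points of an outer cell are limits of points off the polygon -/
theorem mem_cl_compl (hs : 0 < s) {q : V} (hq : q ∉ F) {z : ℂ} (hz : z ∈ sq s q) :
    z ∈ closure (Pg s F)ᶜ := by
  obtain ⟨g1, g2, g3, g4⟩ := hz
  rw [Metric.mem_closure_iff]
  intro ε hε
  set c : ℂ := ctr s q with hc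
  have hcr : c.re = s * (q.1 + 1 / 2) := rfl
  have hci : c.im = s * (q.2 + 1 / 2) := rfl
  set t : ℝ := min 1 (ε / (2 * (‖c - z‖ + 1))) with ht
  have hn : 0 ≤ ‖c - z‖ := norm_nonneg _
  have ht0 : 0 < t := lt_min one_pos (by positivity)
  have ht1 : t ≤ 1 := min_le_left _ _
  have ht2 : t * ‖c - z‖ < ε := by
    have h1 : t ≤ ε / (2 * (‖c - z‖ + 1)) := min_le_right _ _
    have h2 : t * ‖c - z‖ ≤ ε / (2 * (‖c - z‖ + 1)) * ‖c - z‖ := mul_le_mul_of_nonneg_right h1 hn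
    have h3 : ε / (2 * (‖c - z‖ + 1)) * ‖c - z‖ < ε := by
      rw [div_mul_eq_mul_div, div_lt_iff₀ (by positivity)]
      nlinarith
    linarith
  refine ⟨z + (t : ℂ) * (c - z), ?_, ?_⟩
  · intro hw
    obtain ⟨q', hq', hw'⟩ := mem_pg.1 hw
    have hr : (z + (t : ℂ) * (c - z)).re = z.re + t * (c.re - z.re) := by
      simp [Complex.add_re, Complex.mul_re]
    have hi : (z + (t : ℂ) * (c - z)).im = z.im + t * (c.im - z.im) := by
      simp [Complex.add_im, Complex.mul_im]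
    have : q' = q := by
      refine open_cell ?_ ?_ ?_ ?_ hs hw'
      · rw [hr, hcr]
        nlinarith [mul_pos ht0 hs]
      · rw [hr, hcr]
        nlinarith [mul_pos ht0 hs]
      · rw [hi, hci]
        nlinarith [mul_pos ht0 hs]
      · rw [hi, hci]
        nlinarith [mul_pos ht0 hs]
    exact hq (this ▸ hq')
  · rw [dist_eq_norm]
    have : z - (z + (t : ℂ) * (c - z)) = -((t : ℂ) * (c - z)) := by ring
    rw [this, norm_neg, norm_mul, Complex.norm_real, Real.norm_eq_abs, abs_of_pos ht0]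
    exact ht2

/-- the common points of the two cells of a step are on the edge -/
theorem inter_ed {a b : V} (h : Adj a b) {z : ℂ} (h1 : z ∈ sq s (lc a b))
    (h2 : z ∈ sq s (rc a b)) : z ∈ ed s a b := by
  obtain ⟨g1, g2, g3, g4⟩ := h1
  obtain ⟨k1, k2, k3, k4⟩ := h2
  have hz : z = ⟨z.re, z.im⟩ := rfl
  unfold ed
  have seg : ∀ (x y z : ℝ), (x ≤ z ∧ z ≤ y) → z ∈ segment ℝ x y := by
    intro x y z h
    rw [segment_eq_uIcc, Set.mem_uIcc]
    exact Or.inl h
  have seg' : ∀ (x y z : ℝ), (y ≤ z ∧ z ≤ x) → z ∈ segment ℝ x y := by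
    intro x y z h
    rw [segment_eq_uIcc, Set.mem_uIcc]
    exact Or.inr h
  have mk1 : ∀ (x y w : ℝ), z.re ∈ segment ℝ x y → z.im = w →
      z ∈ segment ℝ (⟨x, w⟩ : ℂ) (⟨y, w⟩ : ℂ) := by
    rintro x y w ⟨c, d, hc, hd, hcd, e⟩ hw
    refine ⟨c, d, hc, hd, hcd, ?_⟩
    apply Complex.ext
    · simpa using e
    · simp only [Complex.add_im, Complex.smul_im, smul_eq_mul]
      rw [hw, ← add_mul, hcd, one_mul]
  have mk2 : ∀ (x y w : ℝ), z.im ∈ segment ℝ x y → z.re = w →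
      z ∈ segment ℝ (⟨w, x⟩ : ℂ) (⟨w, y⟩ : ℂ) := by
    rintro x y w ⟨c, d, hc, hd, hcd, e⟩ hw
    refine ⟨c, d, hc, hd, hcd, ?_⟩
    apply Complex.ext
    · simp only [Complex.add_re, Complex.smul_re, smul_eq_mul]
      rw [hw, ← add_mul, hcd, one_mul]
    · simpa using e
  rcases h with ⟨e1, e2⟩ | ⟨e1, e2⟩ | ⟨e1, e2⟩ | ⟨e1, e2⟩
  · have f1 : lc a b = (a.1, a.2) := by unfold lc; ext <;> simp only <;> omega
    have f2 : rc a b = (a.1, a.2 - 1) := by unfold rc; ext <;> simp only <;> omega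
    rw [f1] at g1 g2 g3 g4
    rw [f2] at k1 k2 k3 k4
    simp only at g1 g2 g3 g4 k1 k2 k3 k4
    push_cast at k3 k4
    unfold pt
    rw [e1, e2]
    push_cast
    refine mk1 _ _ _ (seg _ _ _ ⟨g1, g2⟩) ?_
    have : s * ((a.2 : ℝ) - 1 + 1) = s * a.2 := by ring
    linarith
  · have f1 : lc a b = (a.1 - 1, a.2 - 1) := by unfold lc; ext <;> simp only <;> omega
    have f2 : rc a b = (a.1 - 1, a.2) := by unfold rc; ext <;> simp only <;> omega
    rw [f1] at g1 g2 g3 g4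
    rw [f2] at k1 k2 k3 k4
    simp only at g1 g2 g3 g4 k1 k2 k3 k4
    push_cast at g1 g2 g3 g4 k1 k2
    unfold pt
    rw [e1, e2]
    push_cast
    refine mk1 _ _ _ (seg' _ _ _ ⟨g1, ?_⟩) ?_
    · have : s * ((a.1 : ℝ) - 1 + 1) = s * a.1 := by ring
      linarith
    · have : s * ((a.2 : ℝ) - 1 + 1) = s * a.2 := by ring
      linarith
  · have f1 : lc a b = (a.1 - 1, a.2) := by unfold lc; ext <;> simp only <;> omega
    have f2 : rc a b = (a.1, a.2) := by unfold rc; ext <;> simp only <;> omega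
    rw [f1] at g1 g2 g3 g4
    rw [f2] at k1 k2 k3 k4
    simp only at g1 g2 g3 g4 k1 k2 k3 k4
    push_cast at g1 g2
    unfold pt
    rw [e1, e2]
    push_cast
    refine mk2 _ _ _ (seg _ _ _ ⟨g3, g4⟩) ?_
    have : s * ((a.1 : ℝ) - 1 + 1) = s * a.1 := by ring
    linarith
  · have f1 : lc a b = (a.1, a.2 - 1) := by unfold lc; ext <;> simp only <;> omega
    have f2 : rc a b = (a.1 - 1, a.2 - 1) := by unfold rc; ext <;> simp only <;> omega
    rw [f1] at g1 g2 g3 g4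
    rw [f2] at k1 k2 k3 k4
    simp only at g1 g2 g3 g4 k1 k2 k3 k4
    push_cast at g3 g4 k1 k2 k3 k4
    unfold pt
    rw [e1, e2]
    push_cast
    refine mk2 _ _ _ (seg' _ _ _ ⟨g3, ?_⟩) ?_
    · have : s * ((a.2 : ℝ) - 1 + 1) = s * a.2 := by ring
      linarith
    · have : s * ((a.1 : ℝ) - 1 + 1) = s * a.1 := by ring
      linarith

/-- two cells with a common point: an adjacent pair, one in `F`, one not -/
theorem adj_pair (hs : 0 < s) {q q' : V} (hq : q ∈ F) (hq' : q' ∉ F) {z : ℂ} (h1 : z ∈ sq s q)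
    (h2 : z ∈ sq s q') : ∃ c c', Adj c c' ∧ c ∈ F ∧ c' ∉ F ∧ z ∈ sq s c ∧ z ∈ sq s c' := by
  obtain ⟨g1, g2, g3, g4⟩ := h1
  obtain ⟨k1, k2, k3, k4⟩ := h2
  have key : ∀ (a b : ℤ) (x : ℝ), s * (a : ℝ) ≤ x → x ≤ s * ((b : ℝ) + 1) → a ≤ b + 1 := by
    intro a b x ha hb
    have : (a : ℝ) ≤ ((b + 1 : ℤ) : ℝ) := by
      push_cast
      exact le_of_mul_le_mul_left (ha.trans hb) hs
    exact_mod_cast this
  have a1 := key _ _ _ g1 k2
  have a2 := key _ _ _ k1 g2
  have a3 := key _ _ _ g3 k4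
  have a4 := key _ _ _ k3 g4
  by_cases hc : ((q'.1, q.2) : V) ∈ F
  · refine ⟨(q'.1, q.2), q', ?_, hc, hq', ⟨k1, k2, g3, g4⟩, ⟨k1, k2, k3, k4⟩⟩
    have hne : q.2 ≠ q'.2 := by
      intro e
      apply hq'
      have : q' = (q'.1, q.2) := Prod.ext rfl e.symm
      rw [this]
      exact hc
    have : q'.2 = q.2 + 1 ∨ q'.2 = q.2 - 1 := by omega
    rcases this with h | h
    · exact Or.inr (Or.inr (Or.inl ⟨rfl, h⟩))
    · exact Or.inr (Or.inr (Or.inr ⟨rfl, h⟩))
  · refine ⟨q, (q'.1, q.2), ?_, hq, hc, ⟨g1, g2, g3, g4⟩, ⟨k1, k2, g3, g4⟩⟩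
    have hne : q.1 ≠ q'.1 := by
      intro e
      apply hc
      have : ((q'.1, q.2) : V) = q := Prod.ext e.symm rfl
      rw [this]
      exact hq
    have : q'.1 = q.1 + 1 ∨ q'.1 = q.1 - 1 := by omega
    rcases this with h | h
    · exact Or.inl ⟨h, rfl⟩
    · exact Or.inr (Or.inl ⟨h, rfl⟩)

/-- points of the boundary edges are not in the interior -/
theorem ed_not_int (C : Cyc F L v) (hs : 0 < s) {i : ℕ} {z : ℂ} (hz : z ∈ ed s (v i) (v (i + 1))) :
    z ∈ Pg s F ∧ z ∉ interior (Pg s F) := by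
  refine ⟨mem_pg.2 ⟨_, C.left i, ed_sub_lc hs (C.step i) hz⟩, fun h => ?_⟩
  have h1 := mem_cl_compl hs (C.right i) (ed_sub_rc hs (C.step i) hz)
  rw [_root_.closure_compl] at h1
  exact h1 h

/-- **(G1)** the frontier is the union of the edges -/
theorem frontier_Pg (C : Cyc F L v) (hf : F.Finite) (hs : 0 < s) :
    frontier (Pg s F) = ⋃ i, ed s (v i) (v (i + 1)) := by
  ext z
  rw [(isClosed_Pg hf s).frontier_eq, Set.mem_iUnion]
  constructor
  · rintro ⟨h1, h2⟩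
    obtain ⟨q, hq, hz⟩ := mem_pg.1 h1
    obtain ⟨q', hq', hz'⟩ : ∃ q', q' ∉ F ∧ z ∈ sq s q' := by
      by_contra hcon
      push Not at hcon
      apply h2
      exact mem_interior_cells hs (F := F) (z := z) fun q' h' => by
        by_contra h''
        exact hcon q' h'' h'
    obtain ⟨c, c', hadj, hc, hc', z1, z2⟩ := adj_pair hs hq hq' hz hz'
    obtain ⟨a, b, hab, rfl, rfl⟩ := exists_dart hadj
    obtain ⟨i, -, rfl, rfl⟩ := C.all a b hab hc hc'
    exact ⟨i, inter_ed hab z1 z2⟩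
  · rintro ⟨i, hi⟩
    exact ed_not_int C hs hi

section poly

variable (u : Poly)

theorem isClosed_P : IsClosed u.P := isClosed_Pg (cells_finite u.U.finite_toSet) _

theorem isCompact_P : IsCompact u.P := isCompact_Pg (cells_finite u.U.finite_toSet) u.s_pos

/-- **(G1)** -/
theorem frontier_P : frontier u.P = ⋃ i, ed u.s (u.v i) (u.v (i + 1)) :=
  frontier_Pg u.cyc (cells_finite u.U.finite_toSet) u.s_pos

variable {u}

theorem ed_P {i : ℕ} {z : ℂ} (hz : z ∈ ed u.s (u.v i) (u.v (i + 1))) :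
    z ∈ u.P ∧ z ∉ interior u.P := ed_not_int u.cyc u.s_pos hz

/-- every point of a boundary edge is on one of the arcs -/
theorem mem_arc_of_ed {i : ℕ} {z : ℂ} (hz : z ∈ ed u.s (u.v i) (u.v (i + 1))) :
    ∃ j, z ∈ u.Arc j := by
  obtain ⟨t, h0, h1, rfl⟩ := mem_ed.1 hz
  -- translate of the parameter to `[k 0 + 1/2, k 0 + L + 1/2]`
  have hL : 0 < u.L := by
    have := u.cyc.four_le
    omega
  obtain ⟨a, ha, hx, hx'⟩ : ∃ a : ℕ, a ≡ i [MOD u.L] ∧ (u.k 0 : ℝ) + 1 / 2 ≤ a + t ∧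
      (a : ℝ) + t ≤ u.k 0 + u.L + 1 / 2 := by
    -- residue of `i` in `[k 0, k 0 + L)`
    obtain ⟨a, ha, h2, h3⟩ : ∃ a : ℕ, a ≡ i [MOD u.L] ∧ u.k 0 ≤ a ∧ a < u.k 0 + u.L := by
      refine ⟨u.k 0 + (i + (u.L - u.k 0 % u.L)) % u.L, ?_, by omega, by
        have := Nat.mod_lt (i + (u.L - u.k 0 % u.L)) hL
        omega⟩
      have h4 : u.k 0 % u.L < u.L := Nat.mod_lt _ hL
      calc u.k 0 + (i + (u.L - u.k 0 % u.L)) % u.L ≡ u.k 0 + (i + (u.L - u.k 0 % u.L)) [MOD u.L] :=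
            (Nat.mod_modEq _ _).add_left _
        _ ≡ u.k 0 % u.L + (i + (u.L - u.k 0 % u.L)) [MOD u.L] :=
            (Nat.mod_modEq _ _).symm.add_right _
        _ = i + u.L := by omega
        _ ≡ i [MOD u.L] := by unfold Nat.ModEq; simp
    have h2' : (u.k 0 : ℝ) ≤ a := by exact_mod_cast h2
    have h3' : (a : ℝ) + 1 ≤ u.k 0 + u.L := by exact_mod_cast h3
    by_cases hc : (u.k 0 : ℝ) + 1 / 2 ≤ a + t
    · exact ⟨a, ha, hc, by linarith⟩
    · push Not at hc
      refine ⟨a + u.L, ?_, ?_, ?_⟩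
      · unfold Nat.ModEq at ha ⊢
        rw [Nat.add_mod_right, ha]
      · push_cast
        have : (4 : ℝ) ≤ u.L := by exact_mod_cast u.cyc.four_le
        linarith
      · push_cast
        linarith
  have e : ep u.s u.v i t = bp u a t := (ep_mod u.cyc ha t).symm
  rw [e]
  by_cases c1 : (a : ℝ) + t ≤ u.k 1 + 1 / 2
  · exact ⟨0, arc_iff.2 ⟨a, t, h0, h1, hx, by simpa [Poly.k'] using c1, rfl⟩⟩
  · push Not at c1
    by_cases c2 : (a : ℝ) + t ≤ u.k 2 + 1 / 2
    · exact ⟨1, arc_iff.2 ⟨a, t, h0, h1, c1.le, by simpa [Poly.k'] using c2, rfl⟩⟩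
    · push Not at c2
      refine ⟨2, arc_iff.2 ⟨a, t, h0, h1, c2.le, ?_, rfl⟩⟩
      have : ((u.k' 2 : ℕ) : ℝ) = u.k 0 + u.L := by simp [Poly.k']
      rw [this]
      exact hx'

/-- every point of an arc is on a boundary edge -/
theorem ed_of_mem_arc {j : Fin 3} {z : ℂ} (hz : z ∈ u.Arc j) :
    ∃ i, z ∈ ed u.s (u.v i) (u.v (i + 1)) := by
  obtain ⟨a, t, h0, h1, -, -, rfl⟩ := arc_iff.1 hz
  exact ⟨a, mem_ed.2 ⟨t, h0, h1, rfl⟩⟩

/-- **(G1)** the frontier is the union of the three arcs -/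
theorem frontier_arc : frontier u.P = ⋃ j, u.Arc j := by
  rw [frontier_P]
  ext z
  rw [Set.mem_iUnion, Set.mem_iUnion]
  exact ⟨fun ⟨_, h⟩ => mem_arc_of_ed h, fun ⟨_, h⟩ => ed_of_mem_arc h⟩

theorem mem_frontier_iff {z : ℂ} : z ∈ frontier u.P ↔ ∃ j, z ∈ u.Arc j := by
  rw [frontier_arc, Set.mem_iUnion]

theorem arc_P {j : Fin 3} {z : ℂ} (hz : z ∈ u.Arc j) : z ∈ u.P ∧ z ∉ interior u.P := by
  obtain ⟨i, hi⟩ := ed_of_mem_arc hz
  exact ed_P hi

/-! ### (G5) -/

theorem mid_mem_arc (j : Fin 3) : u.mid (u.k j) ∈ u.Arc j := by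
  refine arc_iff.2 ⟨u.k j, 1 / 2, by norm_num, by norm_num, le_rfl, ?_, mid_eq _⟩
  have : (u.k j : ℝ) + 1 ≤ u.k' j := by exact_mod_cast k_lt (u := u) j
  linarith

theorem arc_nonempty (j : Fin 3) : (u.Arc j).Nonempty := ⟨_, mid_mem_arc j⟩

/-- distance of a point of an arc to the other arcs -/
theorem dist_arc {i j : Fin 3} (hij : i ≠ j) {p q : ℂ} {ρ : ℝ} (hp : p ∈ u.Arc j)
    (hq : q ∈ u.Arc i) (hρ : ∀ l, ρ ≤ dist p (u.mid (u.k l))) : min ρ (u.s / 2) ≤ dist p q := by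
  by_contra hcon
  push Not at hcon
  have h1 : dist p q < ρ := lt_of_lt_of_le hcon (min_le_left _ _)
  have h2 : dist p q < u.s / 2 := lt_of_lt_of_le hcon (min_le_right _ _)
  rw [dist_eq_norm] at h1 h2
  have h3 := Complex.abs_re_le_norm (p - q)
  have h4 := Complex.abs_im_le_norm (p - q)
  rw [Complex.sub_re] at h3
  rw [Complex.sub_im] at h4
  obtain ⟨l, hl⟩ := arc_sep (Ne.symm hij) hp hq (by linarith) (by linarith)
  have h5 := hρ l
  rw [dist_eq_norm, norm_sub_rev] at h5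
  have h6 : ‖u.mid (u.k l) - p‖ ≤ ‖q - p‖ := by
    obtain ⟨c, d, hc, hd, hcd, e⟩ := hl
    have : u.mid (u.k l) - p = (d : ℝ) • (q - p) := by
      rw [← e, smul_sub]
      have : c = 1 - d := by linarith
      rw [this, sub_smul, one_smul]
      ring
    rw [this, norm_smul, Real.norm_eq_abs, abs_of_nonneg hd]
    have := norm_nonneg (q - p)
    nlinarith
  rw [norm_sub_rev q p] at h6
  linarith

/-- a strictly nearest arc gives the label -/
theorem lab_of_lt {x : ℂ} {j : Fin 3}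
    (h : ∀ i, i ≠ j → Metric.infDist x (u.Arc j) < Metric.infDist x (u.Arc i)) :
    u.Lab x = ((j : ℕ) : ZMod 3) := by
  obtain ⟨j', h1, h2, -⟩ := Poly.near_lab (u := u) x
  have : j' = j := by
    by_contra hne
    have := h j' hne
    have := h1 j
    linarith
  rw [h2, this]

/-- **(G5)** the label of a point with a foot away from the marks -/
theorem lab_of_foot {x p : ℂ} {j : Fin 3} {r ρ : ℝ} (hp : p ∈ u.Arc j) (hpx : dist p x ≤ r)
    (hρ : ∀ l, ρ ≤ dist p (u.mid (u.k l))) (h1 : 2 * r < ρ) (h2 : 4 * r < u.s) :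
    u.Lab x = ((j : ℕ) : ZMod 3) ∧ Metric.infDist x (u.Arc j) ≤ r ∧
      ∀ i, i ≠ j → min ρ (u.s / 2) - r ≤ Metric.infDist x (u.Arc i) := by
  have e1 : Metric.infDist x (u.Arc j) ≤ r := by
    have := Metric.infDist_le_dist_of_mem hp (x := x)
    rw [dist_comm] at this
    linarith
  have e2 : ∀ i, i ≠ j → min ρ (u.s / 2) - r ≤ Metric.infDist x (u.Arc i) := by
    intro i hi
    rw [Metric.le_infDist (arc_nonempty i)]
    intro q hq
    have h3 := dist_arc hi hp hq hρ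
    have h4 := dist_triangle p x q
    linarith
  refine ⟨lab_of_lt fun i hi => ?_, e1, e2⟩
  have h3 := e2 i hi
  have h4 : r < min ρ (u.s / 2) - r := by
    rcases min_cases ρ (u.s / 2) with h | h <;> linarith [h.1]
  linarith

/-- **(G5)** literal -/
theorem lab_foot {x p : ℂ} {j : Fin 3} {d : ℝ} (hd : 0 < d) (hds : 8 * d < u.s)
    (hp : p ∈ u.Arc j) (hpx : dist p x ≤ 2 * d) (hρ : ∀ l, 20 * d < dist p (u.mid (u.k l))) :
    u.Lab x = ((j : ℕ) : ZMod 3) :=
  (lab_of_foot hp hpx (ρ := 20 * d) (fun l => (hρ l).le) (by linarith) (by linarith)).1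

/-- the label of a point whose feet are all away from the marks is the label of the arc of a foot;
every point near the boundary has a foot on an arc -/
theorem foot_arc {p : ℂ} (hp : p ∈ frontier u.P) : ∃ j, p ∈ u.Arc j := mem_frontier_iff.1 hp

end poly

end Crest.Agent.R143.UKG5x571
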