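import Crest.Agent.R143.R10N_930
import Crest.Agent.R143.StemU_923

/-!
# Row 143 (S0194), box R10: the final form for the giants of `U_K` (helper930)

* **`r10u`** : 133's `CorEnv`, 416's layout, 923's `UKin` ⟹ `Con` (923's `Cpl`, window form, 798's
  `fU ≤ θ`) and `Vin ⊆ ff S A`
-/

set_option autoImplicit false

noncomputable section

open scoped Classical ENNReal

namespace Crest.Agent.R143.R10Ux930

open Set
open Crest.ProbabilityR.Voronoi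
open Crest.Agent.R143.K33x877
open Crest.Agent.R143.NetUx346 Crest.Agent.R143.NetVx346
open Crest.Agent.R143.PolyUx346
open Crest.Agent.R143.CorEx133
open Crest.Agent.R143.R10Nx930
open Crest.Agent.R143.R10Px923 (UKin Nw)

/-- no giant near the polygon: the free sites of the polygon are free -/
theorem vin_ff {S : Finset ℂ} {A : ZMod 3 → Set ℂ} {P : Set ℂ} {d h : ℝ} (hh : 0 < h) (hd : 0 ≤ d)
    (hgap : ∀ l, ∀ s ∈ A l, ∀ z ∈ P, h / 2 ≤ ‖s - z‖) : Vin S P d ⊆ ff S A := by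
  intro v hv
  obtain ⟨h1, h2⟩ := Finset.mem_filter.1 hv
  refine mem_ff.2 ⟨h1, fun l hl => ?_⟩
  have := hgap l v hl v (h2 (Metric.mem_closedBall_self (by linarith)))
  rw [sub_self, norm_zero] at this
  linarith

/-- **R10 for the giants of `U_K`** -/
theorem r10u : ∃ C c c1 c2 K : ℝ, 1 ≤ C ∧ 0 < c ∧ 0 < c1 ∧ c1 ≤ 1 ∧ 0 < c2 ∧ 2 ≤ K ∧
    ∀ (u : Poly) (ε h c2c ρ0 : ℝ) (ω : Sample), 0 < h → 100 * h ≤ Du u K → ρ0 ≤ Du u K →
    c2c * Du u K ≤ c2 * h → √ε ≤ c1 * h → 5000 * √ε ≤ h → CorEnv u ε √ε K c2c ρ0 ω →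
    ∀ (m M : ℕ) (p W : ℤ → ℤ × ℤ) (Ai e : ℤ → ℤ), LayUx416.LayU u m M p W Ai e →
    (m : ℝ) * h = u.s → ∀ (A : ZMod 3 → Set ℂ) (o : ℂ × ℂ × ℂ) (i : ZMod 3)
      (A1 B1 w a0 a1 b0 b1 m' : ℝ), A1 ≤ B1 → B1 < h → Nw h √ε w a0 a1 b0 b1 m' →
    UKin (SU u ε ω) A o i u.P h A1 B1 w a0 a1 b0 b1 m' W Ai e →
    Vin (SU u ε ω) u.P √ε ⊆ ff (SU u ε ω) A ∧ ∀ Wd : Set ℂ, u.P ⊆ Wd → Con C c K u ε h ω A Wd := by
  obtain ⟨C, c, c1, c2, K, hC, hc, hc1, hc1', hc2, hK, H⟩ := r10n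
  refine ⟨C, c, c1, c2, K, hC, hc, hc1, hc1', hc2, hK, ?_⟩
  intro u ε h c2c ρ0 ω hh hhD hρ0 hcc hdr hdr' CE m M p W Ai e HL hm A o i A1 B1 w a0 a1 b0 b1 m'
    hAB hB hN hU
  have hε' : 0 < √ε := CE.d0
  have hs1 := s_le u
  have hDs : Du u K ≤ u.s / 4 := min_le_left _ _
  refine ⟨vin_ff hh hε'.le hU.far, fun Wd hWd => ?_⟩
  refine H u ε h c2c ρ0 ω hh hhD hρ0 hcc hdr hdr' CE m M p W Ai e HL hm A o i hU.rt hU.ng hU.far
    (fun b k j hb => ?_) (fun w hw => ?_) Wd hWd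
  · refine StemUx923.stem HL hm hAB hB (by linarith) hN (fun q hq z hz => ?_) hU hb
    have h1 : q ∈ u.P := (UKG5x571.isClosed_P u).frontier_subset hq
    have h2 := P_norm u h1
    have h3 := norm_add_le (z - q) q
    rw [sub_add_cancel] at h3
    obtain ⟨s, h4, h5⟩ := CE.hol z (mem_UU.2 (by linarith)) z
      (by rw [sub_self, norm_zero]; exact hε'.le)
    exact ⟨s, Finset.mem_coe.1 h4, h5⟩
  · by_contra hcon
    push Not at hcon
    refine hw.2 i (hU.outs w (Finset.mem_coe.1 hw.1) fun z hz => ?_)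
    by_contra hn
    push Not at hn
    have h1 := P_norm u hz
    have h2 := Complex.norm_le_abs_re_add_abs_im (w - z)
    have h3 := norm_add_le (w - z) z
    rw [sub_add_cancel] at h3
    linarith [hn.1, hn.2]

end Crest.Agent.R143.R10Ux930
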