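import Crest.Agent.R143.SmallE_304
import Crest.Agent.R143.R5q_166

/-!
# Row 143 (S0194), block RIG, field `small`: the root loop is inside `U` and macroscopic (helper304)

`X : Ex (rc0 hS) σ p N n r W` (166), `μ = σ` on the revealed cells `EE`.
* `state`, `left_off` : every state of the loop of the root gap has its left cell off `W`
* `InU_ex` : if the circumdiscs of the darts with cell off `W` are inside `U`, then `InU`
* `Big_ex` : two states of the revealed arc with sites at distance `≥ k` in one coordinate: `Big`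
* **`small_ex`** : `SmallEx304.small_env` for 166's hypotheses
-/

set_option autoImplicit false

noncomputable section

open scoped Classical

namespace Crest.Agent.R143.InBx304

open MeasureTheory Set Filter Topology
open Crest.ProbabilityR.Voronoi
open Crest.Agent.R143.B0x346 Crest.Agent.R143.SumScx302 Crest.Agent.R143.PP0x831
  Crest.Agent.R143.ColSumx304 Crest.Agent.R143.MassQx304 Crest.Agent.R143.Mass2x302
  Crest.Agent.R143.Mass3x302 Crest.Agent.R143.Mass4x302 Crest.Agent.R143.Mass5x302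
  Crest.Agent.R143.DelGx806 Crest.Agent.R143.DelRx806 Crest.Agent.R143.JColx54
  Crest.Agent.R143.FinCx811 Crest.Agent.R143.Resax778 Crest.Agent.R143.MixFx304
  Crest.Agent.R143.Dblx609 Crest.Agent.R143.Dbl2x609 Crest.Agent.R143.SmallAx304
open Crest.Agent.R143.Mass1x302 hiding ps
open Crest.Agent.R143.Frame1x395 Crest.Agent.R143.Frame2x395 Crest.Agent.R143.Frame3x395
  Crest.Agent.R143.Frame4x395 Crest.Agent.R143.Frame8x395 Crest.Agent.R143.Frame10x395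
open Crest.Agent.R143.Frame5x395 (sd mem_sd th th_spec)
open Crest.Agent.R143.CorMx970 (av)
open Crest.Agent.R143.R5qx166 (Ex EE per)
open Crest.Agent.R143.Splx117 (Lp InK gp)
open scoped ENNReal

section gen

variable {D C : Type} {M : CMap D C} {σ μ : C → ZMod 2} {p : D} {N n r : ℕ} {W : Set C}

variable [Fintype D]

theorem state (X : Ex M σ p N n r W) (hE : ∀ c ∈ EE M (cfg M σ) p n W, μ c = σ c) (m : ℕ) :
    (stp M (cfg M μ))^[m] (M.rho (gp M (cfg M σ) p r)) = (stp M (cfg M μ))^[r + m] p := by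
  obtain ⟨-, T⟩ := X.arc hE
  rw [T.rg, add_comm, Function.iterate_add_apply]

/-- every state of the loop is a state after the root gap -/
theorem state' (X : Ex M σ p N n r W) (hE : ∀ c ∈ EE M (cfg M σ) p n W, μ c = σ c) (u : ℕ) :
    ∃ m, (stp M (cfg M μ))^[m] (M.rho (gp M (cfg M σ) p r)) = (stp M (cfg M μ))^[u] p := by
  obtain ⟨L, T⟩ := X.arc hE
  set N' := per M (cfg M μ) p with hN'
  have hper : ∀ k, (stp M (cfg M μ))^[k * N'] p = p := by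
    intro k
    induction k with
    | zero => simp
    | succ k ih =>
      rw [Nat.succ_mul, add_comm, Function.iterate_add_apply, ih]
      exact L.per
  have h0 : 1 ≤ N' := L.pos
  have hr : r ≤ r * N' := Nat.le_mul_of_pos_right r h0
  refine ⟨u + (r * N' - r), ?_⟩
  rw [state X hE, show r + (u + (r * N' - r)) = u + r * N' by omega, Function.iterate_add_apply,
    hper]

theorem left_off (X : Ex M σ p N n r W) (hE : ∀ c ∈ EE M (cfg M σ) p n W, μ c = σ c) (m : ℕ) :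
    M.cell ((stp M (cfg M μ))^[m] (M.rho (gp M (cfg M σ) p r))) ∉ W := by
  rw [state X hE]
  exact X.rch (X.gsP hE (r + m)).m

end gen

section cm

variable {S : Finset ℂ} (hS : GP (S : Set ℂ)) {P₀ U : Set ℂ} {σ μ : Cs hS → ZMod 2} {p : D0 S}
  {N n r : ℕ} {W : Set (Cs hS)}

/-- a dart whose circumdisc is in `U` -/
theorem fc_dart (hPS : ∀ z ∈ U, z ∈ P₀ ↔ z ∈ (S : Set ℂ)) (e0 d : D0 S)
    (hd : cdisc (d.1.1, d.1.2, th S d.1) ⊆ U) :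
    Fc P₀ U d.1.1 d.1.2 (th S d.1) ∧ d = dl e0 d.1.1 d.1.2 := by
  have h1 : (d.1.1, d.1.2, th S d.1) ∈ delT S := th_spec d.2
  refine ⟨fc_congr (P := (S : Set ℂ)) (fun z hz => (hPS z hz).symm) ⟨mem_delT.1 h1, hd⟩, ?_⟩
  rw [dl_eq (e0 := e0) (show (d.1.1, d.1.2) ∈ sd S from d.2)]

theorem InU_ex (hPS : ∀ z ∈ U, z ∈ P₀ ↔ z ∈ (S : Set ℂ)) (e0 : D0 S)
    (X : Ex (rc0 hS) σ p N n r W)
    (hE : ∀ c ∈ EE (rc0 hS) (cfg (rc0 hS) σ) p n W, μ c = σ c)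
    (hd : ∀ d : D0 S, (rc0 hS).cell d ∉ W → cdisc (d.1.1, d.1.2, th S d.1) ⊆ U) :
    InU P₀ U (cm0 hS) (dl e0) (cfg (rc0 hS) μ) (gp (rc0 hS) (cfg (rc0 hS) σ) p r) := by
  intro m
  have h1 := left_off X hE m
  obtain ⟨h2, h3⟩ := fc_dart hPS e0 _ (hd _ h1)
  exact ⟨_, _, _, h2, h3⟩

theorem Big_ex {k : ℝ} (hPS : ∀ z ∈ U, z ∈ P₀ ↔ z ∈ (S : Set ℂ)) (e0 : D0 S)
    (X : Ex (rc0 hS) σ p N n r W)
    (hE : ∀ c ∈ EE (rc0 hS) (cfg (rc0 hS) σ) p n W, μ c = σ c)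
    (hd : ∀ d : D0 S, (rc0 hS).cell d ∉ W → cdisc (d.1.1, d.1.2, th S d.1) ⊆ U)
    {u v : ℕ} (hu : u ≤ n) (hv : v ≤ n)
    (huv : k ≤ |(((stp (rc0 hS) (cfg (rc0 hS) σ))^[u] p).1.1 -
        ((stp (rc0 hS) (cfg (rc0 hS) σ))^[v] p).1.1).re| ∨
      k ≤ |(((stp (rc0 hS) (cfg (rc0 hS) σ))^[u] p).1.1 -
        ((stp (rc0 hS) (cfg (rc0 hS) σ))^[v] p).1.1).im|) :
    Big P₀ U (cm0 hS) (dl e0) (cfg (rc0 hS) μ) k (gp (rc0 hS) (cfg (rc0 hS) σ) p r) := by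
  intro z
  have key : ∀ w, w ≤ n → ∃ m, (stp (cm0 hS) (cfg (rc0 hS) μ))^[m]
      ((cm0 hS).rho (gp (rc0 hS) (cfg (rc0 hS) σ) p r)) =
        (stp (rc0 hS) (cfg (rc0 hS) σ))^[w] p ∧
      Fc P₀ U ((stp (rc0 hS) (cfg (rc0 hS) σ))^[w] p).1.1
        ((stp (rc0 hS) (cfg (rc0 hS) σ))^[w] p).1.2
        (th S ((stp (rc0 hS) (cfg (rc0 hS) σ))^[w] p).1) ∧
      (stp (rc0 hS) (cfg (rc0 hS) σ))^[w] p = dl e0 ((stp (rc0 hS) (cfg (rc0 hS) σ))^[w] p).1.1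
        ((stp (rc0 hS) (cfg (rc0 hS) σ))^[w] p).1.2 := by
    intro w hw
    obtain ⟨m, hm⟩ := state' X hE w
    have h1 : (stp (rc0 hS) (cfg (rc0 hS) μ))^[w] p = (stp (rc0 hS) (cfg (rc0 hS) σ))^[w] p :=
      X.walk hE hw
    refine ⟨m, hm.trans h1, ?_⟩
    have h2 : (rc0 hS).cell ((stp (rc0 hS) (cfg (rc0 hS) σ))^[w] p) ∉ W := X.dis w hw
    exact fc_dart hPS e0 _ (hd _ h2)
  obtain ⟨m1, e1, f1, g1⟩ := key u hu
  obtain ⟨m2, e2, f2, g2⟩ := key v hv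
  set a := (stp (rc0 hS) (cfg (rc0 hS) σ))^[u] p
  set b := (stp (rc0 hS) (cfg (rc0 hS) σ))^[v] p
  by_cases h1 : cdisc (a.1.1, a.1.2, th S a.1) ⊆ sq z k
  · refine ⟨m2, _, _, _, f2, e2.trans g2, fun h2 => ?_⟩
    have ma : a.1.1 ∈ sq z k := by
      obtain ⟨⟨-, -, -, -, o, q1, q2, -⟩, -⟩ := f1
      exact h1 ⟨o, q1, q2, le_rfl⟩
    have mb : b.1.1 ∈ sq z k := by
      obtain ⟨⟨-, -, -, -, o, q1, q2, -⟩, -⟩ := f2
      exact h2 ⟨o, q1, q2, le_rfl⟩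
    obtain ⟨a1, a2, a3, a4⟩ := ma
    obtain ⟨b1, b2, b3, b4⟩ := mb
    rcases huv with h | h
    · rw [Complex.sub_re] at h
      have : |a.1.1.re - b.1.1.re| < k := abs_lt.2 ⟨by linarith, by linarith⟩
      linarith
    · rw [Complex.sub_im] at h
      have : |a.1.1.im - b.1.1.im| < k := abs_lt.2 ⟨by linarith, by linarith⟩
      linarith
  · exact ⟨m1, _, _, _, f1, e1.trans g1, h1⟩

/-- the root gap is a gap of the mixed colouring -/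
theorem Gp_ex (X : Ex (rc0 hS) σ p N n r W)
    (hE : ∀ c ∈ EE (rc0 hS) (cfg (rc0 hS) σ) p n W, μ c = σ c) :
    Gp (cm0 hS) (cfg (rc0 hS) μ) (gp (rc0 hS) (cfg (rc0 hS) σ) p r) :=
  (X.arc hE).2.gp

end cm

/-- **`small` from 166's hypotheses** -/
theorem small_ex {k : ℝ} (hk : 0 < k) {U : Set ℂ} (hU : Bornology.IsBounded U) :
    ∃ E1 E2 : ℝ → Sample → ℝ, (∀ ε, 0 < ε → Measurable (E1 ε) ∧ Measurable (E2 ε)) ∧
      (∀ ε ω, 0 ≤ E1 ε ω ∧ 0 ≤ E2 ε ω) ∧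
      (∀ᶠ ε in 𝓝[>] (0 : ℝ), Integrable (E1 ε) sampleLaw ∧ Integrable (E2 ε) sampleLaw) ∧
      Tendsto (fun ε : ℝ => ∫ ω, E1 ε ω ∂sampleLaw) (𝓝[>] 0) (𝓝 0) ∧
      Tendsto (fun ε : ℝ => ∫ ω, E2 ε ω ∂sampleLaw) (𝓝[>] 0) (𝓝 0) ∧
      ∀ᶠ ε in 𝓝[>] (0 : ℝ), ∀ᵐ ω ∂sampleLaw, ∀ (S : Finset ℂ) (hS : GP (S : Set ℂ))
        (h3 : 3 ≤ S.card),
        (∀ z ∈ U, z ∈ points ε ω ↔ z ∈ (S : Set ℂ)) → (∀ v ∈ S, v ∈ U → ¬ OnHull S v) →
        ∀ (e0 : D0 S) (a : D0 S → ℂ), FldU (points ε ω) U (dl e0) a →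
        ∀ (O : (Cs hS → ZMod 2) → Finset (Cs hS)), StopSet O →
        ∀ (g : (Cs hS → ZMod 2) → ℝ) (p : (Cs hS → ZMod 2) → D0 S)
          (N n r : (Cs hS → ZMod 2) → ℕ) (W : (Cs hS → ZMod 2) → Set (Cs hS)),
        (∀ σ, 0 ≤ g σ) → (∀ σ, g σ ≤ 1) →
        (∀ σ, 0 < g σ → Ex (rc0 hS) σ (p σ) (N σ) (n σ) (r σ) (W σ) ∧
          (∀ c ∈ EE (rc0 hS) (cfg (rc0 hS) σ) (p σ) (n σ) (W σ), c ∈ O σ) ∧
          (∀ d : D0 S, (rc0 hS).cell d ∉ W σ → cdisc (d.1.1, d.1.2, th S d.1) ⊆ U) ∧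
          ∃ u v, u ≤ n σ ∧ v ≤ n σ ∧
            (k ≤ |(((stp (rc0 hS) (cfg (rc0 hS) σ))^[u] (p σ)).1.1 -
                ((stp (rc0 hS) (cfg (rc0 hS) σ))^[v] (p σ)).1.1).re| ∨
              k ≤ |(((stp (rc0 hS) (cfg (rc0 hS) σ))^[u] (p σ)).1.1 -
                ((stp (rc0 hS) (cfg (rc0 hS) σ))^[v] (p σ)).1.1).im|)) →
        av S.powerset (fun β => g (chiS hS h3 β) * av S.powerset fun β' =>
          ‖Vm hS O (fun σ _ => gp (rc0 hS) (cfg (rc0 hS) σ) (p σ) (r σ)) a (chiS hS h3 β)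
            (chiS hS h3 β')‖) ≤ E1 ε ω ∧
        av S.powerset (fun β => g (chiS hS h3 β) * av S.powerset fun β' =>
          ‖Vm hS O (fun σ _ => gp (rc0 hS) (cfg (rc0 hS) σ) (p σ) (r σ)) a (chiS hS h3 β)
            (chiS hS h3 β')‖ ^ 2) ≤ E2 ε ω := by
  obtain ⟨E1, E2, h1, h2, h3, h4, h5, h6⟩ := SmallEx304.small_env hk hU
  refine ⟨E1, E2, h1, h2, h3, h4, h5, ?_⟩
  filter_upwards [h6] with ε h6
  filter_upwards [h6] with ω h6
  intro S hS h3' hPS hin e0 a ha O hO g p N n r W g0 g1 hX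
  have h7 := h6 S hS h3' hPS hin e0 a ha O hO (fun σ _ => g σ)
    (fun σ _ => gp (rc0 hS) (cfg (rc0 hS) σ) (p σ) (r σ)) (fun σ _ => g0 σ) (fun σ _ => g1 σ) ?_
  · have e1 : ∀ F : Finset ℂ → Finset ℂ → ℝ,
        av S.powerset (fun β => g (chiS hS h3' β) * av S.powerset fun β' => F β β') =
        av S.powerset (fun β => av S.powerset fun β' => g (chiS hS h3' β) * F β β') := fun F =>
      CorMx970.av_congr fun β _ => (CorMx970.av_mulL' _ _).symm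
    rw [e1, e1]
    exact h7
  · intro σ τ hσ
    obtain ⟨X, hO', hd, u, v, hu, hv, huv⟩ := hX σ hσ
    have hE : ∀ c ∈ EE (rc0 hS) (cfg (rc0 hS) σ) (p σ) (n σ) (W σ), mix O σ τ c = σ c :=
      fun c hc => glue_on (hO' c hc)
    exact ⟨Gp_ex hS X hE, InU_ex hS hPS e0 X hE hd, Big_ex hS hPS e0 X hE hd hu hv huv⟩

end Crest.Agent.R143.InBx304
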