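import Crest.Agent.R143.QuenS_654
import Crest.Agent.R143.SysD_166
import Crest.Agent.R143.InB_304
import Crest.Agent.R143.SysA_168
import Crest.Agent.R143.ExtU_387
import Crest.Agent.R143.BigU_749

/-!
# Row 143 (S0194), CORE-C, RIG: field `small` of 654's `Quen` for 358's `Sys` (helper304)

* **`small_sys`** : `SmE` (one environment) ⟹ the hypothesis `small` of 166's `quen_of`, if on
  `g > 0` there is a strand whose complement of the white giant is in `U` and which has two far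
  states
* `far_S` : 749's far states on a fixed environment
* **`small_cor`** : the same for 168's family of all strands under `CorH`
-/

set_option autoImplicit false
set_option linter.unusedSectionVars false

noncomputable section

open scoped Classical

namespace Crest.Agent.R143.SmIx304

open MeasureTheory Set Filter Topology
open Crest.ProbabilityR.Voronoi
open Crest.Agent.R143.B0x346 Crest.Agent.R143.DelGx806 Crest.Agent.R143.DelRx806
  Crest.Agent.R143.FinCx811 Crest.Agent.R143.Resax778 Crest.Agent.R143.SmallAx304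
  Crest.Agent.R143.ColXx829 Crest.Agent.R143.QuenSx654 Crest.Agent.R143.SysDx166
  Crest.Agent.R143.SysCx166 Crest.Agent.R143.InBx304
open Crest.Agent.R143.Frame1x395 Crest.Agent.R143.Frame2x395 Crest.Agent.R143.Frame3x395
  Crest.Agent.R143.Frame4x395 Crest.Agent.R143.Frame8x395 Crest.Agent.R143.Frame9x395
  Crest.Agent.R143.Frame10x395
open Crest.Agent.R143.Frame5x395 (sd mem_sd th th_spec)
open Crest.Agent.R143.Coarse2x166 (zs)
open Crest.Agent.R143.C2SDx395 (zc)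
open Crest.Agent.R143.Mass1x302 (cdisc)
open Crest.Agent.R143.OutSx358 (Sys OO wg rt gr)
open Crest.Agent.R143.R5qx166 (Ex EE per)
open Crest.Agent.R143.Splx117 (gp)
open Crest.Agent.R143.CorMx970 (av)
open Crest.Agent.R143.IndLoc3x279 (clr)

variable {S : Finset ℂ} {hS : GP (S : Set ℂ)}

/-- **field `small`** from 358's `Sys` -/
theorem small_sys {ε : ℝ} {ω : Sample} {U : Set ℂ} {k e : ℝ} (h : SmE ε ω U k e)
    (h3 : 3 ≤ S.card) (hU : ∀ z ∈ U, z ∈ points ε ω ↔ z ∈ (S : Set ℂ))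
    (hin : ∀ v ∈ S, v ∈ U → ¬ OnHull S v) {H R : Set (Cs hS)} {Q : Set (D0 S)} {ι : Type}
    {pa : ι → (Cs hS → ZMod 2) → D0 S} {na : ι → (Cs hS → ZMod 2) → ℕ}
    {Ev : ι → (Cs hS → ZMod 2) → Prop} (Y : Sys (rc0 hS) H R Q pa na Ev) (d₀ : D0 S)
    {g : Set (ℂ × Bool) → ℝ} (g0 : ∀ X, 0 ≤ g X) (g1 : ∀ X, g X ≤ 1)
    (hg : ∀ β ∈ S.powerset, g (clr S β) = g (Xc hS h3 (chiS hS h3 β)))
    (hx : ∀ σ, 0 < g (Xc hS h3 σ) → ∃ i, Ev i σ ∧
      (∀ d : D0 S, (rc0 hS).cell d ∉ wg (rc0 hS) H R pa na i σ →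
        cdisc (d.1.1, d.1.2, th S d.1) ⊆ U) ∧
      ∃ u v, u ≤ na i σ ∧ v ≤ na i σ ∧
        (k ≤ |(((stp (rc0 hS) (cfg (rc0 hS) σ))^[u] (pa i σ)).1.1 -
            ((stp (rc0 hS) (cfg (rc0 hS) σ))^[v] (pa i σ)).1.1).re| ∨
          k ≤ |(((stp (rc0 hS) (cfg (rc0 hS) σ))^[u] (pa i σ)).1.1 -
            ((stp (rc0 hS) (cfg (rc0 hS) σ))^[v] (pa i σ)).1.1).im|)) :
    av S.powerset (fun σ => g (clr S σ) * av S.powerset fun τ =>
      ‖Vb (rc0 hS) H R Q pa na Ev d₀ (zs (rc0 hS) om (zc hS id)) (chiS hS h3 σ)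
        (chiS hS h3 τ)‖) ≤ e := by
  refine le_trans (le_of_eq ?_) (small_of h h3 hU hin d₀ (O := OO (rc0 hS) H R pa na Ev) Y.stop
    (s0 := fun σ _ => OutSx358.gR (rc0 hS) Q pa na Ev d₀ σ) g0 g1 hg fun σ τ hσ => ?_)
  · refine CorMx970.av_congr fun β _ => ?_
    congr 1
    refine CorMx970.av_congr fun β' _ => ?_
    rw [vb_vm]
  · obtain ⟨i, hi, hd, u, v, hu, hv, huv⟩ := hx σ hσ
    have X := Y.ex hi
    have e1 : OutSx358.gR (rc0 hS) Q pa na Ev d₀ σ =
        gp (rc0 hS) (cfg (rc0 hS) σ) (pa i σ) (rt (rc0 hS) Q pa na i σ) := Y.gR_eq d₀ hi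
    rw [e1]
    have hE : ∀ c ∈ EE (rc0 hS) (cfg (rc0 hS) σ) (pa i σ) (na i σ) (wg (rc0 hS) H R pa na i σ),
        mix (OO (rc0 hS) H R pa na Ev) σ τ c = σ c := by
      intro c hc
      rw [← Y.oo_eq hi] at hc
      exact mix_on hc
    exact ⟨Gp_ex hS X hE, InU_ex hS hU d₀ X hE hd, Big_ex hS hU d₀ X hE hd hu hv huv⟩

end Crest.Agent.R143.SmIx304
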