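import Crest.Agent.R143.GoodA_654
import Crest.Agent.R143.GWX_597
import Crest.Agent.R143.SmI_304
import Crest.Agent.R143.R10U_930
import Crest.Agent.R143.CorE_133

/-!
# Row 143 (S0194), RIG: one environment of the polygon `u` (helper654)

`S = SU u ε ω` (133), `CE : CorEnv u ε √ε K1 c2 ρ0 ω`, weight `g` and charges `V l` local on a region
inside `UU u`. Hypotheses at the colourings `s` of the cells with `0 < g (Xc s)`.

* `quenE` : `Quen` of `GoodA_654` from: `Sys`, `Hx`, values of the charges, 304's `SmE` with the two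
  geometric conditions of `small_sys`, 930's `Con` and `Vin ⊆ ff`, `near`, `hQ`
-/

set_option autoImplicit false
set_option linter.unusedSectionVars false

noncomputable section

open scoped Classical

namespace Crest.Agent.R143.GoodBx654

open Crest.ProbabilityR.Voronoi
open Crest.Agent.R143.B0x346 Crest.Agent.R143.DelGx806 Crest.Agent.R143.DelRx806
  Crest.Agent.R143.FinCx811 Crest.Agent.R143.Resax778 Crest.Agent.R143.SmallAx304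
  Crest.Agent.R143.C2SBx395 Crest.Agent.R143.C2SCx395 Crest.Agent.R143.C2SDx395
open Crest.Agent.R143.Frame1x395 Crest.Agent.R143.Frame2x395 Crest.Agent.R143.Frame3x395
  Crest.Agent.R143.Frame4x395 Crest.Agent.R143.Frame8x395 Crest.Agent.R143.Frame9x395
  Crest.Agent.R143.Frame10x395
open Crest.Agent.R143.Coarse2x166 (zs)
open Crest.Agent.R143.NetUx346 Crest.Agent.R143.NetVx346
open Crest.Agent.R143.CorMx970 (av far)
open Crest.Agent.R143.PP0x831 (LocalOn)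
open Crest.Agent.R143.IndLoc3x279 (clr)
open Crest.Agent.R143.OutSx358 Crest.Agent.R143.SysCx166 Crest.Agent.R143.SysDx166
  Crest.Agent.R143.RigDx654 Crest.Agent.R143.QuenSx654 Crest.Agent.R143.GoodAx654
open Crest.Agent.R143.ColXx829 (Xc)
open Crest.Agent.R143.GWXx597 (loc_chiS)
open Crest.Agent.R143.CorEx133 (Rp RU UU SU CorEnv P_sub_UU mem_SU)
open Crest.Agent.R143.R10Nx930 (Con Du)
open Crest.Agent.R143.Mass1x302 (cdisc)
open Crest.Agent.R143.Frame5x395 (th)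

variable {u : PolyUx346.Poly} {ε K1 c2c ρ0 : ℝ} {ω : Sample}

/-- the sites in `UU` -/
theorem mem_UU_SU (CE : CorEnv u ε √ε K1 c2c ρ0 ω) : ∀ z ∈ UU u,
    z ∈ points ε ω ↔ z ∈ (SU u ε ω : Set ℂ) := by
  intro z hz
  rw [Finset.mem_coe, mem_SU CE.e0]
  refine ⟨fun h => ⟨h, ?_⟩, fun h => h.1⟩
  have h1 := CorEx133.mem_UU.1 hz
  have h2 := CorEx133.one_le_Rp u
  unfold RU
  linarith

section env

variable {hS : GP (SU u ε ω : Set ℂ)} {h3 : 3 ≤ (SU u ε ω).card} {H R : Set (Cs hS)}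
  {Q : Set (D0 (SU u ε ω))} {ι : Type} {pa : ι → (Cs hS → ZMod 2) → D0 (SU u ε ω)}
  {na : ι → (Cs hS → ZMod 2) → ℕ} {Ev : ι → (Cs hS → ZMod 2) → Prop}
  {F : ℕ → Set (D0 (SU u ε ω))} {tl : Cs hS → ℕ} {d₀ : D0 (SU u ε ω)}
  {E1 η θ0 θ Qq kk : ℝ} {i : ZMod 3} {n r : ℕ} {reg : Set ℂ}
  {g : Set (ℂ × Bool) → ℝ} {V : ℕ → Set (ℂ × Bool) → ℂ} {ta tb : Set (ℂ × Bool) → ℕ}

/-- **ONE ENVIRONMENT** : everything at the colourings `s` of the cells with positive weight -/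
theorem quenE (CE : CorEnv u ε √ε K1 c2c ρ0 ω) (Y : Sys (rc0 hS) H R Q pa na Ev) (hn : 0 < n)
    (hreg : reg ⊆ UU u) (g0 : ∀ X, 0 ≤ g X) (g1 : ∀ X, g X ≤ 1) (hgl : LocalOn reg g)
    (hVl : ∀ l, LocalOn reg (V l))
    (hH : ∀ c : Cs hS, ∀ v, OnHull (SU u ε ω) v → c.1 = Quot.mk (hullE (SU u ε ω)) v → c ∈ H)
    (hZ : ∀ j σ, Ev j σ → ∀ c ∈ H, c ∉ ac (rc0 hS) (pa j σ) (na j σ) σ)
    (hx : ∀ s, 0 < g (Xc hS h3 s) → Hx (rc0 hS) pa na Ev n n F tl s)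
    (hV : ∀ s, 0 < g (Xc hS h3 s) → ∀ l, 2 ≤ l → l + 2 < n →
      Vs (rc0 hS) pa na Ev (zs (rc0 hS) om (zc hS id)) F l s = V (n - 1 - l) (Xc hS h3 s))
    (ha : ∀ X, ta X ≤ n) (hb : ∀ X, tb X ≤ n)
    (hE : SmE ε ω (UU u) kk E1)
    (hsm : ∀ s, 0 < g (Xc hS h3 s) → ∃ j, Ev j s ∧
      (∀ d : D0 (SU u ε ω), (rc0 hS).cell d ∉ wg (rc0 hS) H R pa na j s →
        cdisc (d.1.1, d.1.2, th (SU u ε ω) d.1) ⊆ UU u) ∧
      ∃ a b, a ≤ na j s ∧ b ≤ na j s ∧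
        (kk ≤ |(((stp (rc0 hS) (cfg (rc0 hS) s))^[a] (pa j s)).1.1 -
            ((stp (rc0 hS) (cfg (rc0 hS) s))^[b] (pa j s)).1.1).re| ∨
          kk ≤ |(((stp (rc0 hS) (cfg (rc0 hS) s))^[a] (pa j s)).1.1 -
            ((stp (rc0 hS) (cfg (rc0 hS) s))^[b] (pa j s)).1.1).im|))
    (hη : 0 ≤ η)
    (hC : ∀ s, 0 < g (Xc hS h3 s) →
      Vin (SU u ε ω) u.P √ε ⊆ ff (SU u ε ω) (st (gA (rc0 hS) H R Q pa na Ev i s)) ∧
      R10Px923.Cpl (SU u ε ω) (st (gA (rc0 hS) H R Q pa na Ev i s)) (Vin (SU u ε ω) u.P √ε)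
        (Bl (SU u ε ω) (Vin (SU u ε ω) u.P √ε) u.Lab) η θ0)
    (hθ : ∀ σ ∈ (SU u ε ω).powerset, 0 < g (clr (SU u ε ω) σ) → av (SU u ε ω).powerset (far r
      (fun σ τ => ka (rc0 hS) H R Q pa na Ev n n F tl (chiS hS h3 σ) (chiS hS h3 τ))
      (fun σ τ => kb (rc0 hS) H R Q pa na Ev n n F tl (chiS hS h3 σ) (chiS hS h3 τ))
      (fun τ => n - tb (clr (SU u ε ω) τ)) (fun τ => n - ta (clr (SU u ε ω) τ)) σ) ≤ θ)
    (hQ : ∑ l ∈ Finset.range n, av (SU u ε ω).powerset (fun σ => g (clr (SU u ε ω) σ) *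
      av (SU u ε ω).powerset fun τ =>
      ‖Wd (rc0 hS) H R Q pa na Ev i d₀ (zs (rc0 hS) om (zc hS id)) F l (chiS hS h3 σ)
        (chiS hS h3 τ)‖ ^ 2) ≤ Qq) :
    ∃ (Vβ Vγ : Finset ℂ → Finset ℂ → ℂ) (TK : Finset ℂ → ℂ)
      (W : ℕ → Finset ℂ → Finset ℂ → ℂ) (ka' kb' : Finset ℂ → Finset ℂ → ℕ),
      Quen n (r + 1) 3 (SU u ε ω) g V ta tb om (RigCx654.tI (InpJx609.mv u ε ω) i) E1
        (3 * (η + 2 * RU u * θ0)) θ Qq Vβ Vγ TK W ka' kb' := by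
  have hT : ∀ v ∈ SU u ε ω, v ∈ reg → ¬ OnHull (SU u ε ω) v := fun v _ hv => CE.inn (hreg hv)
  have hgx : ∀ β : Finset ℂ, g (Xc hS h3 (chiS hS h3 β)) = g (clr (SU u ε ω) β) := fun β =>
    loc_chiS hgl hT
  have hRU : 0 ≤ RU u := by linarith [CorEx133.RU_ge u]
  refine ⟨_, _, _, _, _, _, quenI (S := SU u ε ω) (hS := hS) (h3 := h3) (d₀ := d₀) Y hn hH hZ
    (fun σ _ h0 => hx _ (by rwa [hgx])) (fun σ _ h0 l h1 h2 => ?_) (fun τ _ => ha _)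
    (fun τ _ => hb _) ?_ CE.e0 (CE.hol.mono fun z hz => P_sub_UU u (LocUx700.deep_sub (Real.sqrt_nonneg _) hz))
    (fun x hx => ?_) hRU (fun v hv => ((mem_SU CE.e0).1 hv).2) hη
    (fun σ _ h0 => hC _ (by rwa [hgx])) hθ hQ⟩
  · rw [hV _ (by rwa [hgx]) l h1 h2]
    exact (loc_chiS (hVl _) hT).symm
  · refine SmIx304.small_sys hE h3 (mem_UU_SU CE) (fun v _ hv => CE.inn hv) Y d₀ g0 g1
      (fun β _ => (hgx β).symm) hsm
  · rw [mem_UU_SU CE x (P_sub_UU u hx)]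
    rfl

end env

end Crest.Agent.R143.GoodBx654
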