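import Crest.Agent.R143.K7D_359
import Crest.Agent.R143.GridT_991
import Crest.Agent.R143.D4L_408

/-!
# Row 143 (S0194), K7: GRID (helper991)

* `tile_eq`, `al_eq`
* `tl_near` : bricks at distance `< s` are equal or neighbours
* numbers of the setting: `Stg.s0`, `Stg.d_s`, `Stg.L0`, `edge_s`, `hull_s`
* `gd_cls` : class sites have distance `≥ s` from the good bricks; `gd_ball` : good bricks are in
  `closedBall x0 (L - 3 s)`
* `bad_conn7` : the bad bricks are connected; `con_F7` : the cells off the good bricks are connected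
* `grid_of : K7Dx359.GRID`
-/

set_option autoImplicit false

noncomputable section

open scoped Classical

namespace Crest.Agent.R143.GridKx991

open Set
open Crest.Agent.R158
open Crest.Agent.R143.B0x346 Crest.Agent.R143.DelGx806 Crest.Agent.R143.DelRx806
  Crest.Agent.R143.JColx54 Crest.Agent.R143.RE0x723 Crest.Agent.R143.K33x877
open Crest.Agent.R143.Brkx478 Crest.Agent.R143.Gridx991
open Crest.Agent.R143.Discx683 (Es mem_Es cls_Es)
open Crest.Agent.R143.K7Dx359 (Stg tile Al Va Dart Cm GRID)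

variable {S : Finset ℂ} {A : ZMod 3 → Set ℂ} {s L d : ℝ} {x0 z e : ℂ} {b c : Bk}

/-! ### tiles -/

theorem tile_eq (s : ℝ) (b : Bk) : tile s b = tl s b := by
  unfold tile
  rw [pg_eq]
  simp only [mem_singleton_iff, iUnion_iUnion_eq_left]

theorem al_eq : Al A x0 L s = ⋃ b ∈ K7Dx359.Gd A x0 L s, tl s b := pg_eq s _

theorem int_bd' {s : ℝ} (hs : 0 < s) {m m' : ℤ} {k : ℕ} {x : ℝ} (h1 : s * m ≤ x)
    (h2 : x < s * (m' + k)) : m - m' < k := by
  have h3 : (m : ℝ) < m' + k := lt_of_mul_lt_mul_left (h1.trans_lt h2) hs.le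
  have h4 : m < m' + k := by exact_mod_cast h3
  omega

/-- **bricks at distance `< s` are equal or neighbours** -/
theorem tl_near (hs : 0 < s) (hb : z ∈ tl s b) (hc : e ∈ tl s c) (h : ‖z - e‖ < s) :
    c = b ∨ Nb b c := by
  have h1 := (Complex.abs_re_le_norm (z - e)).trans_lt h
  have h2 := (Complex.abs_im_le_norm (z - e)).trans_lt h
  rw [Complex.sub_re, abs_lt] at h1
  rw [Complex.sub_im, abs_lt] at h2
  rw [mem_tl hs] at hb hc
  obtain ⟨b1, b2, b3, b4⟩ := hb
  obtain ⟨c1, c2, c3, c4⟩ := hc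
  have k1 : (2 * b.1 + b.2) - (2 * c.1 + c.2) < (3 : ℕ) :=
    int_bd' hs (x := z.re) (by push_cast; exact b1) (by push_cast; linarith)
  have k2 : (2 * c.1 + c.2) - (2 * b.1 + b.2) < (3 : ℕ) :=
    int_bd' hs (x := e.re) (by push_cast; exact c1) (by push_cast; linarith)
  have k3 : b.2 - c.2 < (2 : ℕ) := int_bd' hs (x := z.im) b3 (by push_cast; linarith)
  have k4 : c.2 - b.2 < (2 : ℕ) := int_bd' hs (x := e.im) c3 (by push_cast; linarith)
  push_cast at k1 k2 k3 k4
  by_cases hbc : c = b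
  · exact Or.inl hbc
  · right
    rw [nb_iff]
    have : ¬ (c.1 = b.1 ∧ c.2 = b.2) := fun h => hbc (Prod.ext h.1 h.2)
    omega

/-! ### numbers -/

theorem L0 (h : Stg S A x0 L d s) : 0 < L := by
  have := h.dns.dpos
  have := h.dns.dL
  linarith

theorem sq0 (h : Stg S A x0 L d s) : 0 < √(L * d) :=
  Real.sqrt_pos.2 (mul_pos (L0 h) h.dns.dpos)

theorem s0 (h : Stg S A x0 L d s) : 0 < s := by
  have := sq0 h
  have := h.scl
  linarith

/-- `√(L d) ≤ s / 2²⁰` -/
theorem sq_s (h : Stg S A x0 L d s) : √(L * d) ≤ s / 2 ^ 20 := by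
  rw [le_div_iff₀ (by norm_num)]
  have := h.scl
  linarith

/-- `d ≤ s / 2²⁰` -/
theorem d_s (h : Stg S A x0 L d s) : d ≤ s / 2 ^ 20 := by
  have h1 := h.dns.dpos
  have h2 := h.dns.dL
  exact (DomBx722.d_le_sqrt h1.le (by linarith)).trans (sq_s h)

/-- edges are shorter than `s / 2¹⁷` -/
theorem edge_s (h : Stg S A x0 L d s) {u v : ℂ} (huv : Adj S u v) : ‖u - v‖ ≤ s / 2 ^ 17 := by
  have h1 := D4Lx408.adj_len h.dns (D4Ux408.adj_iff.2 huv)
  have h2 := sq_s h
  have := s0 h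
  have e1 : s / 2 ^ 17 = 8 * (s / 2 ^ 20) := by ring
  rw [e1]
  have := sq0 h
  linarith

/-- hull sites are close to the circle -/
theorem hull_s (h : Stg S A x0 L d s) {a b : ℂ} (hab : hullE S a b) :
    L - 2 * d ≤ ‖a - x0‖ ∧ L - 2 * d ≤ ‖b - x0‖ := DomBx722.hull_far h.dns hab

/-! ### good bricks -/

theorem gd_iff : b ∈ K7Dx359.Gd A x0 L s ↔ ∀ c, (c = b ∨ Nb b c) →
    (∀ z ∈ tl s c, ‖z - x0‖ ≤ L - 2 * s) ∧ ∀ i, ∀ e ∈ A i, e ∉ tl s c := by
  unfold K7Dx359.Gd
  simp only [tile_eq]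
  exact Iff.rfl

/-- **class sites have distance `≥ s` from the good bricks** -/
theorem gd_cls (hs : 0 < s) (hb : b ∈ K7Dx359.Gd A x0 L s) (hz : z ∈ tl s b) {i : ZMod 3}
    (he : e ∈ A i) : s ≤ ‖z - e‖ := by
  by_contra hcon
  push Not at hcon
  obtain ⟨c, hc⟩ := exists_tl hs e
  exact ((gd_iff.1 hb) c (tl_near hs hz hc hcon)).2 i e he hc

/-- **good bricks are in `closedBall x0 (L - 3 s)`** -/
theorem gd_ball (hs : 0 < s) (hL : 3 * s ≤ L) (hb : b ∈ K7Dx359.Gd A x0 L s) (hz : z ∈ tl s b) :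
    ‖z - x0‖ ≤ L - 3 * s := by
  by_contra hcon
  push Not at hcon
  set D := ‖z - x0‖ with hD
  have hD0 : 0 < D := by linarith
  -- a point at distance `< s` outside
  obtain ⟨r, hr1, hr2⟩ : ∃ r, L - 2 * s - D < r ∧ r < s := exists_between (by linarith)
  obtain ⟨r', hr1', hr2'⟩ : ∃ r', max 0 r < r' ∧ r' < s := exists_between (max_lt hs hr2)
  have h0 : 0 < r' := (le_max_left _ _).trans_lt hr1'
  have h1 : r < r' := (le_max_right _ _).trans_lt hr1'
  set w : ℂ := z + ((r' / D : ℝ) : ℂ) * (z - x0) with hw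
  have e1 : ‖z - w‖ = r' := by
    have : z - w = -(((r' / D : ℝ) : ℂ) * (z - x0)) := by rw [hw]; ring
    rw [this, norm_neg, norm_mul, Complex.norm_real, Real.norm_of_nonneg (by positivity), ← hD]
    field_simp
  have e2 : ‖w - x0‖ = D + r' := by
    have : w - x0 = ((1 + r' / D : ℝ) : ℂ) * (z - x0) := by rw [hw]; push_cast; ring
    rw [this, norm_mul, Complex.norm_real, Real.norm_of_nonneg (by positivity), ← hD]
    field_simp
  obtain ⟨c, hc⟩ := exists_tl hs w
  have h2 := ((gd_iff.1 hb) c (tl_near hs hz hc (by rw [e1]; exact hr2'))).1 w hc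
  rw [e2] at h2
  linarith

/-- a bad brick has a neighbour (or is one) with a class site or a point outside -/
theorem bad7 (hb : b ∉ K7Dx359.Gd A x0 L s) : ∃ c, (c = b ∨ Nb b c) ∧
    ((∃ z ∈ tl s c, L - 2 * s < ‖z - x0‖) ∨ ∃ i, ∃ e ∈ A i, e ∈ tl s c) := by
  rw [gd_iff] at hb
  push Not at hb
  obtain ⟨c, hc, h⟩ := hb
  refine ⟨c, hc, ?_⟩
  by_cases h1 : ∀ z ∈ tl s c, ‖z - x0‖ ≤ L - 2 * s
  · exact Or.inr (h h1)
  · push Not at h1
    exact Or.inl h1

theorem bad_of_cls (hs : 0 < s) {i : ZMod 3} (he : e ∈ A i) (hz : z ∈ tl s b) (h : ‖z - e‖ < s) :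
    b ∉ K7Dx359.Gd A x0 L s := fun hb => by
  have := gd_cls hs hb hz he
  linarith

theorem bad_of_out (hz : z ∈ tl s b) (h : L - 2 * s < ‖z - x0‖) : b ∉ K7Dx359.Gd A x0 L s :=
  fun hb => by
  have := ((gd_iff.1 hb) b (Or.inl rfl)).1 z hz
  linarith

theorem gd_fin7 (hs : 0 < s) : (K7Dx359.Gd A x0 L s).Finite := by
  refine (gd_fin (t := 0) (E := ∅) (x0 := x0) (R := L) hs).subset ?_
  intro b hb
  refine ⟨fun z _ e he => absurd he (notMem_empty e), fun z hz => ?_⟩
  have := ((gd_iff.1 hb) b (Or.inl rfl)).1 z hz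
  linarith

/-- **the bad bricks are connected** -/
theorem bad_conn7 (h : Stg S A x0 L d s) : Conn (K7Dx359.Gd A x0 L s)ᶜ := by
  have hs := s0 h
  have hsL := h.sL
  have hR : (0 : ℝ) ≤ L - 2 * s := by linarith
  set B := (K7Dx359.Gd A x0 L s)ᶜ with hB
  have j1 : ∀ i, ∀ e ∈ A i, ∀ b c, (tl s b ∩ Metric.ball e s).Nonempty →
      (tl s c ∩ Metric.ball e s).Nonempty → Cn B b c := fun i e he b c h1 h2 =>
    conn_meet hs (convex_ball e s).isPreconnected Metric.isBounded_ball (fun b' ⟨z, hz, hze⟩ => by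
      rw [Metric.mem_ball, dist_eq_norm] at hze
      exact bad_of_cls hs he hz hze) h1 h2
  have j2 : ∀ b c, (∃ z ∈ tl s b, L - 2 * s < ‖z - x0‖) → (∃ z ∈ tl s c, L - 2 * s < ‖z - x0‖) →
      Cn B b c := by
    rintro b c ⟨z, hz, h1⟩ ⟨w, hw, h2⟩
    obtain ⟨C, c1, c2, c3, c4, c5⟩ := out_join hR h1 h2
    exact conn_meet hs c1 c2 (fun b' ⟨y, hy, hyC⟩ => bad_of_out hy (c5 y hyC)) ⟨z, hz, c3⟩
      ⟨w, hw, c4⟩
  -- every bad brick is joined to a brick outside
  have key : ∀ b ∈ B, ∃ c, Cn B b c ∧ ∃ z ∈ tl s c, L - 2 * s < ‖z - x0‖ := by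
    intro b hb
    obtain ⟨c, hc, h1⟩ := bad7 hb
    have hcB : c ∈ B := by
      rcases h1 with ⟨z, hz, h2⟩ | ⟨i, e, he, h2⟩
      · exact bad_of_out hz h2
      · exact bad_of_cls hs he h2 (by rw [sub_self, norm_zero]; exact hs)
    have hbc : Cn B b c := by
      rcases hc with rfl | hc
      · exact .refl
      · exact Relation.ReflTransGen.single ⟨hb, hcB, hc⟩
    rcases h1 with ⟨z, hz, h2⟩ | ⟨i, e, he, h2⟩
    · exact ⟨c, hbc, z, hz, h2⟩
    · -- the class of `e` reaches the hull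
      have hij : i ≠ i + 1 := by
        intro h'
        have : (1 : ZMod 3) = 0 := by
          have := congrArg (fun x => x - i) h'
          simpa using this.symm
        exact absurd this (by decide)
      obtain ⟨a, a', hab, ha, -, -⟩ := h.tr.one i (i + 1) hij
      have hRa : L - 2 * s < ‖a - x0‖ := by
        have hd := d_s h
        have h3 : L - 2 * d ≤ ‖a - x0‖ := by
          rcases hab with h' | h'
          · exact (hull_s h h').1
          · exact (hull_s h h').2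
        have : s / 2 ^ 20 ≤ s / 2 := by
          apply div_le_div_of_nonneg_left hs.le (by norm_num) (by norm_num)
        linarith
      have hp := h.tr.con i e he a ha
      have key : ∀ y, Relation.ReflTransGen (fun u v => Adj S u v ∧ v ∈ A i) e y →
          y ∈ A i ∧ ∀ c', y ∈ tl s c' → Cn B c c' := by
        intro y hy
        induction hy with
        | refl => exact ⟨he, fun c' hc' => j1 i e he c c' ⟨e, h2, Metric.mem_ball_self hs⟩
            ⟨e, hc', Metric.mem_ball_self hs⟩⟩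
        | @tail u v _ h5 ih =>
          obtain ⟨c1, hc1⟩ := exists_tl hs u
          refine ⟨h5.2, fun c' hc' => (ih.2 c1 hc1).trans ?_⟩
          refine j1 i u ih.1 c1 c' ⟨u, hc1, Metric.mem_ball_self hs⟩ ⟨v, hc', ?_⟩
          rw [Metric.mem_ball, dist_eq_norm, norm_sub_rev]
          refine (edge_s h h5.1).trans_lt ?_
          exact div_lt_self hs (by norm_num)
      obtain ⟨c1, hc1⟩ := exists_tl hs a
      exact ⟨c1, hbc.trans ((key a hp.2).2 c1 hc1), a, hc1, hRa⟩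
  intro b hb c hc
  obtain ⟨b', h1, h2⟩ := key b hb
  obtain ⟨c', h3, h4⟩ := key c hc
  exact (h1.trans (j2 b' c' h2 h4)).trans (Gridx991.Cn.symm h3)

/-- there is a bad brick -/
theorem bad_ne7 (h : Stg S A x0 L d s) : ((K7Dx359.Gd A x0 L s)ᶜ).Nonempty := by
  have hs := s0 h
  obtain ⟨b, hb⟩ := exists_tl hs (x0 + (L : ℝ))
  refine ⟨b, bad_of_out hb ?_⟩
  rw [add_sub_cancel_left, Complex.norm_real, Real.norm_of_nonneg (L0 h).le]
  linarith

/-- **the cells off the good bricks are connected** -/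
theorem con_F7 (h : Stg S A x0 L d s) :
    ∀ q ∉ cells (K7Dx359.Gd A x0 L s), ∀ q' ∉ cells (K7Dx359.Gd A x0 L s),
      Sp896.Con (cells (K7Dx359.Gd A x0 L s))ᶜ q q' :=
  fun q hq q' hq' => con_cells (U := (K7Dx359.Gd A x0 L s)ᶜ) (bad_conn7 h) q hq q' hq'

/-- the component of a good brick -/
theorem cm_comp (h : Stg S A x0 L d s) (hb : b ∈ K7Dx359.Gd A x0 L s) :
    ∃ U : Finset Bk, (U : Set Bk) = comp (K7Dx359.Gd A x0 L s) b ∧ Cm A x0 L s U ∧ b ∈ U := by
  have hs := s0 h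
  have hfin : (comp (K7Dx359.Gd A x0 L s) b).Finite := (gd_fin7 hs).subset comp_sub
  have hco : ((hfin.toFinset : Finset Bk) : Set Bk) = comp (K7Dx359.Gd A x0 L s) b :=
    hfin.coe_toFinset
  have hmem : ∀ c, c ∈ hfin.toFinset ↔ c ∈ comp (K7Dx359.Gd A x0 L s) b :=
    fun c => hfin.mem_toFinset
  have hbU : b ∈ hfin.toFinset := (hmem b).2 (self_comp hb)
  refine ⟨hfin.toFinset, hco, ⟨⟨b, hbU⟩, fun c hc => comp_sub ((hmem c).1 hc), ?_, ?_, ?_⟩, hbU⟩
  · rw [hco]; exact comp_conn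
  · rw [hco]; exact comp_conn' (bad_conn7 h) (bad_ne7 h)
  · intro c hc e hce he
    rw [hmem] at hc ⊢
    exact ⟨hc.1, hc.2.tail ⟨comp_sub hc, he, hce⟩⟩

/-- **GRID** -/
theorem grid_of : GRID := by
  intro S A x0 L d s h b hb
  obtain ⟨U, -, h1, h2⟩ := cm_comp h hb
  exact ⟨U, h1, h2⟩

/-- a component in the sense of `Cm` is `comp` of each of its bricks -/
theorem cm_eq {U : Finset Bk} (hU : Cm A x0 L s U) (hb : b ∈ U) :
    (U : Set Bk) = comp (K7Dx359.Gd A x0 L s) b := by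
  ext c
  constructor
  · intro hc
    exact ⟨hU.sub b hb, Gridx991.Cn.mono (fun x hx => hU.sub x (Finset.mem_coe.1 hx))
      (hU.con b (Finset.mem_coe.2 hb) c hc)⟩
  · rintro ⟨-, hc⟩
    have key : ∀ e, Cn (K7Dx359.Gd A x0 L s) b e → e ∈ U := by
      intro e he
      induction he with
      | refl => exact hb
      | @tail x y _ h2 ih => exact hU.cl x ih y h2.2.2 h2.2.1
    exact Finset.mem_coe.2 (key c hc)

end Crest.Agent.R143.GridKx991
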