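import Crest.Agent.R143.Brk_478
import Crest.Agent.R143.Ten_416
import Crest.Agent.R143.G6T_408
import Crest.Agent.R143.EQ2_63

/-!
# Row 143 (S0194): the component of good bricks (helper991)

* `comp_conn` : `G` set of bricks, `Gᶜ` connected and not empty, `F` a component of `G` ⟹ `F`, `Fᶜ`
  connected
* `tl s b` : the closed brick `b` at the scale `s`; `tl_nb` : two bricks which meet are neighbours;
  `conn_meet` : the bricks which meet a bounded connected set are joined through such bricks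
* `Bad`, `bad_conn` : the bad bricks are connected
* `grid` : the polygon of good bricks around a point
-/

set_option autoImplicit false

noncomputable section

open scoped Classical

namespace Crest.Agent.R143.Gridx991

open Set
open Crest.Agent.R158
open Crest.Agent.R143.Brkx478
open Crest.Agent.R143.Tenx416 (Pg)

/-! ### graph part -/

section graph

variable {G U : Set Bk} {b c e : Bk}

theorem Cn.symm (h : Cn U b c) : Cn U c b := by
  induction h with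
  | refl => exact .refl
  | tail _ h2 ih => exact Relation.ReflTransGen.head ⟨h2.2.1, h2.1, h2.2.2.symm⟩ ih

theorem Cn.mono {U' : Set Bk} (h : U ⊆ U') (h1 : Cn U b c) : Cn U' b c :=
  Relation.ReflTransGen.mono (fun _ _ h2 => ⟨h h2.1, h h2.2.1, h2.2.2⟩) _ _ h1

theorem Cn.mem (h : Cn U b c) (hb : b ∈ U) : c ∈ U := by
  rcases Relation.ReflTransGen.cases_tail h with h1 | ⟨z, -, h1⟩
  · rw [h1]; exact hb
  · exact h1.2.1

/-- all the bricks are connected -/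
theorem cn_univ (b c : Bk) : Cn univ b c := by
  have step : ∀ (b : Bk) (k : ZMod 6), Cn univ b (b + nv k) := fun b k =>
    Relation.ReflTransGen.single ⟨trivial, trivial, k, rfl⟩
  have h1 : ∀ (n : ℕ) (b : Bk), Cn univ b (b.1 + n, b.2) := by
    intro n
    induction n with
    | zero => intro b; simp only [Nat.cast_zero, add_zero]; exact .refl
    | succ n ih =>
      intro b
      have h2 := step (b.1 + n, b.2) 0
      have e : ((b.1 + n, b.2) : Bk) + nv 0 = (b.1 + (n + 1 : ℕ), b.2) := by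
        simp only [nv, Prod.mk_add_mk, add_zero]; push_cast; rw [add_assoc]
      rw [e] at h2
      exact (ih b).trans h2
  have h1' : ∀ (m : ℤ) (b : Bk), Cn univ b (b.1 + m, b.2) := by
    intro m b
    rcases Int.eq_nat_or_neg m with ⟨n, rfl | rfl⟩
    · exact h1 n b
    · have := h1 n (b.1 + -(n : ℤ), b.2)
      simp only [neg_add_cancel_right] at this
      exact Cn.symm this
  have h2 : ∀ (n : ℕ) (b : Bk), Cn univ b (b.1, b.2 + n) := by
    intro n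
    induction n with
    | zero => intro b; simp only [Nat.cast_zero, add_zero]; exact .refl
    | succ n ih =>
      intro b
      have h2 := step (b.1, b.2 + n) 1
      have e : ((b.1, b.2 + n) : Bk) + nv 1 = (b.1, b.2 + (n + 1 : ℕ)) := by
        simp only [nv, Prod.mk_add_mk, add_zero]; push_cast; rw [add_assoc]
      rw [e] at h2
      exact (ih b).trans h2
  have h2' : ∀ (m : ℤ) (b : Bk), Cn univ b (b.1, b.2 + m) := by
    intro m b
    rcases Int.eq_nat_or_neg m with ⟨n, rfl | rfl⟩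
    · exact h2 n b
    · have := h2 n (b.1, b.2 + -(n : ℤ))
      simp only [neg_add_cancel_right] at this
      exact Cn.symm this
  have h3 := h1' (c.1 - b.1) b
  have h4 := h2' (c.2 - b.2) (b.1 + (c.1 - b.1), b.2)
  simp only [add_sub_cancel] at h3 h4
  exact h3.trans h4

/-- the component of `b` in `G` -/
def comp (G : Set Bk) (b : Bk) : Set Bk := {c | b ∈ G ∧ Cn G b c}

theorem comp_sub : comp G b ⊆ G := fun _ h => Cn.mem h.2 h.1

theorem self_comp (h : b ∈ G) : b ∈ comp G b := ⟨h, .refl⟩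

/-- paths in `G` from a brick of the component stay in the component -/
theorem cn_comp (hc : c ∈ comp G b) (h : Cn G c e) : Cn (comp G b) c e := by
  induction h with
  | refl => exact .refl
  | @tail x y h1 h2 ih =>
    have hx : x ∈ comp G b := ⟨hc.1, hc.2.trans h1⟩
    exact ih.tail ⟨hx, ⟨hc.1, hx.2.tail h2⟩, h2.2.2⟩

theorem comp_conn : Conn (comp G b) := fun _ hc _ he =>
  cn_comp hc ((Cn.symm hc.2).trans he.2)

/-- a neighbour of the component is in the component or not in `G` -/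
theorem comp_nb (hc : c ∈ comp G b) (h : Nb c e) (he : e ∉ comp G b) : e ∉ G := fun h' =>
  he ⟨hc.1, hc.2.tail ⟨comp_sub hc, h', h⟩⟩

/-- **the complement of a component is connected** -/
theorem comp_conn' (hG : Conn Gᶜ) (hne : (Gᶜ).Nonempty) : Conn (comp G b)ᶜ := by
  have hsub : Gᶜ ⊆ (comp G b)ᶜ := compl_subset_compl.2 comp_sub
  -- every brick off the component is joined to a brick off `G`
  have key : ∀ x ∈ (comp G b)ᶜ, ∃ y ∈ Gᶜ, Cn (comp G b)ᶜ x y := by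
    intro x hx
    obtain ⟨y0, hy0⟩ := hne
    have h1 := cn_univ x y0
    have h2 : ∀ y, Cn univ x y → (∃ z ∈ Gᶜ, Cn (comp G b)ᶜ x z) ∨ (y ∈ G ∧ Cn G x y ∧
        Cn (comp G b)ᶜ x y) := by
      intro y hy
      induction hy with
      | refl =>
        by_cases hxG : x ∈ G
        · exact Or.inr ⟨hxG, .refl, .refl⟩
        · exact Or.inl ⟨x, hxG, .refl⟩
      | @tail y z _ h4 ih =>
        rcases ih with ih | ⟨h5, h6, h7⟩
        · exact Or.inl ih
        · have hyc : y ∉ comp G b := fun h8 => hx (by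
            have h9 := cn_comp h8 (Cn.symm h6)
            exact Cn.mem h9 h8)
          by_cases hz : z ∈ G
          · have hzc : z ∉ comp G b := fun h8 => hyc (by
              have h9 : Cn G z y := Relation.ReflTransGen.single ⟨hz, h5, h4.2.2.symm⟩
              exact Cn.mem (cn_comp h8 h9) h8)
            exact Or.inr ⟨hz, h6.tail ⟨h5, hz, h4.2.2⟩, h7.tail ⟨hyc, hzc, h4.2.2⟩⟩
          · exact Or.inl ⟨z, hz, h7.tail ⟨hyc, hsub hz, h4.2.2⟩⟩
    rcases h2 y0 h1 with h3 | ⟨h3, -⟩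
    · exact h3
    · exact absurd h3 hy0
  intro x hx y hy
  obtain ⟨x', hx', h1⟩ := key x hx
  obtain ⟨y', hy', h2⟩ := key y hy
  exact (h1.trans (Cn.mono hsub (hG x' hx' y' hy'))).trans (Cn.symm h2)

end graph

/-! ### tiles -/

section tiles

variable {s : ℝ} {b c : Bk} {z : ℂ}

/-- the closed brick `b` at the scale `s` -/
def tl (s : ℝ) (b : Bk) : Set ℂ := Sp896.sq s (c0 b) ∪ Sp896.sq s (c1 b)

theorem mem_tl (hs : 0 < s) : z ∈ tl s b ↔ s * (2 * b.1 + b.2) ≤ z.re ∧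
    z.re ≤ s * (2 * b.1 + b.2 + 2) ∧ s * b.2 ≤ z.im ∧ z.im ≤ s * (b.2 + 1) := by
  unfold tl Sp896.sq c0 c1
  simp only [mem_union, mem_ofPred_eq]
  push_cast
  constructor
  · rintro (⟨h1, h2, h3, h4⟩ | ⟨h1, h2, h3, h4⟩)
    · exact ⟨h1, by nlinarith, h3, h4⟩
    · exact ⟨by nlinarith, by nlinarith, h3, h4⟩
  · rintro ⟨h1, h2, h3, h4⟩
    rcases le_total z.re (s * (2 * b.1 + b.2 + 1)) with h | h
    · exact Or.inl ⟨h1, h, h3, h4⟩
    · exact Or.inr ⟨h, by nlinarith, h3, h4⟩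

theorem isClosed_tl (s : ℝ) (b : Bk) : IsClosed (tl s b) :=
  (Sp896.isClosed_sq s _).union (Sp896.isClosed_sq s _)

theorem sq_sub_tl (s : ℝ) (q : Sp896.V) : Sp896.sq s q ⊆ tl s (bk q) := by
  unfold tl
  rcases cell_cases q with h | h
  · rw [← h]; exact subset_union_left
  · rw [← h]; exact subset_union_right

/-- the polygon of a set of bricks -/
theorem pg_eq (s : ℝ) (U : Set Bk) : Pg s (cells U) = ⋃ b ∈ U, tl s b := by
  ext z
  unfold Pg
  simp only [mem_iUnion₂]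
  constructor
  · rintro ⟨q, hq, hz⟩
    exact ⟨bk q, hq, sq_sub_tl s q hz⟩
  · rintro ⟨b, hb, hz | hz⟩
    · exact ⟨c0 b, by rw [mem_cells, bk_c0]; exact hb, hz⟩
    · exact ⟨c1 b, by rw [mem_cells, bk_c1]; exact hb, hz⟩

theorem exists_tl (hs : 0 < s) (z : ℂ) : ∃ b, z ∈ tl s b :=
  ⟨bk (Sp896.cellOf s z), sq_sub_tl s _ (Sp896.mem_cellOf hs z)⟩

theorem int_bd {s : ℝ} (hs : 0 < s) {m m' : ℤ} {k : ℕ} {x : ℝ} (h1 : s * m ≤ x)
    (h2 : x ≤ s * (m' + k)) : m - m' ≤ k := by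
  have h3 : (m : ℝ) ≤ m' + k := le_of_mul_le_mul_left (h1.trans h2) hs
  have h4 : m ≤ m' + k := by exact_mod_cast h3
  omega

/-- **two bricks which meet are neighbours** -/
theorem tl_nb (hs : 0 < s) (hb : z ∈ tl s b) (hc : z ∈ tl s c) : b = c ∨ Nb b c := by
  rw [mem_tl hs] at hb hc
  obtain ⟨b1, b2, b3, b4⟩ := hb
  obtain ⟨c1, c2, c3, c4⟩ := hc
  have h1 : (2 * b.1 + b.2) - (2 * c.1 + c.2) ≤ (2 : ℕ) :=
    int_bd hs (by push_cast; exact b1) (by push_cast; exact c2)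
  have h2 : (2 * c.1 + c.2) - (2 * b.1 + b.2) ≤ (2 : ℕ) :=
    int_bd hs (by push_cast; exact c1) (by push_cast; exact b2)
  have h3 : b.2 - c.2 ≤ (1 : ℕ) := int_bd hs b3 (by push_cast; exact c4)
  have h4 : c.2 - b.2 ≤ (1 : ℕ) := int_bd hs c3 (by push_cast; exact b4)
  push_cast at h1 h2 h3 h4
  by_cases hbc : b = c
  · exact Or.inl hbc
  · right
    rw [nb_iff]
    have : ¬ (b.1 = c.1 ∧ b.2 = c.2) := fun h => hbc (Prod.ext h.1 h.2)
    omega

/-- distances in a brick -/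
theorem tl_dist (hs : 0 < s) {w : ℂ} (hz : z ∈ tl s b) (hw : w ∈ tl s b) : ‖z - w‖ ≤ 3 * s := by
  rw [mem_tl hs] at hz hw
  obtain ⟨b1, b2, b3, b4⟩ := hz
  obtain ⟨c1, c2, c3, c4⟩ := hw
  have h := Complex.norm_le_abs_re_add_abs_im (z - w)
  rw [Complex.sub_re, Complex.sub_im] at h
  have h1 : |z.re - w.re| ≤ 2 * s := by rw [abs_le]; constructor <;> linarith
  have h2 : |z.im - w.im| ≤ s := by rw [abs_le]; constructor <;> linarith
  linarith

/-- neighbouring bricks have a common point -/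
theorem nb_meet (hs : 0 < s) (h : Nb b c) : (tl s b ∩ tl s c).Nonempty := by
  rw [nb_iff] at h
  have hm : ∀ (b : Bk) (x y : ℝ), 2 * (b.1 : ℝ) + b.2 ≤ x → x ≤ 2 * b.1 + b.2 + 2 →
      (b.2 : ℝ) ≤ y → y ≤ b.2 + 1 → (⟨s * x, s * y⟩ : ℂ) ∈ tl s b := by
    intro b x y h1 h2 h3 h4
    rw [mem_tl hs]
    exact ⟨mul_le_mul_of_nonneg_left h1 hs.le, mul_le_mul_of_nonneg_left h2 hs.le,
      mul_le_mul_of_nonneg_left h3 hs.le, mul_le_mul_of_nonneg_left h4 hs.le⟩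
  have key : ∀ x y : ℝ, (2 * (b.1 : ℝ) + b.2 ≤ x ∧ x ≤ 2 * b.1 + b.2 + 2 ∧
      (b.2 : ℝ) ≤ y ∧ y ≤ b.2 + 1) → (2 * (c.1 : ℝ) + c.2 ≤ x ∧ x ≤ 2 * c.1 + c.2 + 2 ∧
      (c.2 : ℝ) ≤ y ∧ y ≤ c.2 + 1) → (tl s b ∩ tl s c).Nonempty := fun x y h1 h2 =>
    ⟨⟨s * x, s * y⟩, hm b x y h1.1 h1.2.1 h1.2.2.1 h1.2.2.2, hm c x y h2.1 h2.2.1 h2.2.2.1 h2.2.2.2⟩
  have cast : ∀ {i j : ℤ}, i = j → (i : ℝ) = j := fun h => by rw [h]
  rcases h with ⟨h1, h2⟩ | ⟨h1, h2⟩ | ⟨h1, h2⟩ | ⟨h1, h2⟩ | ⟨h1, h2⟩ | ⟨h1, h2⟩ <;>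
    (replace h1 := cast h1; replace h2 := cast h2; push_cast at h1 h2)
  · refine key (2 * b.1 + b.2 + 2) b.2 ⟨?_, ?_, ?_, ?_⟩ ⟨?_, ?_, ?_, ?_⟩ <;> linarith
  · refine key (2 * b.1 + b.2 + 1) (b.2 + 1) ⟨?_, ?_, ?_, ?_⟩ ⟨?_, ?_, ?_, ?_⟩ <;> linarith
  · refine key (2 * b.1 + b.2) (b.2 + 1) ⟨?_, ?_, ?_, ?_⟩ ⟨?_, ?_, ?_, ?_⟩ <;> linarith
  · refine key (2 * b.1 + b.2) b.2 ⟨?_, ?_, ?_, ?_⟩ ⟨?_, ?_, ?_, ?_⟩ <;> linarith
  · refine key (2 * b.1 + b.2) b.2 ⟨?_, ?_, ?_, ?_⟩ ⟨?_, ?_, ?_, ?_⟩ <;> linarith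
  · refine key (2 * b.1 + b.2 + 1) b.2 ⟨?_, ?_, ?_, ?_⟩ ⟨?_, ?_, ?_, ?_⟩ <;> linarith

/-- finitely many bricks meet a bounded set -/
theorem fin_meet (hs : 0 < s) {C : Set ℂ} (hC : Bornology.IsBounded C) :
    {b : Bk | (tl s b ∩ C).Nonempty}.Finite := by
  obtain ⟨R, hR⟩ := hC.subset_closedBall 0
  obtain ⟨N, hN⟩ := exists_nat_gt (R / s)
  have hN' : R < s * N := by rwa [div_lt_iff₀ hs, mul_comm] at hN
  refine (Set.finite_Icc ((-(2 * N : ℤ) - 4, -(N : ℤ) - 2) : Bk) (2 * N + 4, N + 2)).subset ?_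
  rintro b ⟨z, hz, hzC⟩
  have h1 := hR hzC
  rw [Metric.mem_closedBall, dist_zero_right] at h1
  have h2 := (Complex.abs_re_le_norm z).trans h1
  have h3 := (Complex.abs_im_le_norm z).trans h1
  rw [abs_le] at h2 h3
  rw [mem_tl hs] at hz
  obtain ⟨b1, b2, b3, b4⟩ := hz
  have e1 : (2 * b.1 + b.2) - 0 ≤ (N : ℤ) := int_bd hs (m' := 0) (x := z.re)
    (by push_cast; exact b1) (by push_cast; linarith)
  have e2 : (-(N : ℤ)) - (2 * b.1 + b.2) ≤ (2 : ℕ) := int_bd hs (x := z.re)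
    (by push_cast; linarith) (by push_cast; exact b2)
  have e3 : b.2 - 0 ≤ (N : ℤ) := int_bd hs (m' := 0) (x := z.im)
    (by push_cast; exact b3) (by push_cast; linarith)
  have e4 : (-(N : ℤ)) - b.2 ≤ (1 : ℕ) := int_bd hs (x := z.im)
    (by push_cast; linarith) (by push_cast; exact b4)
  push_cast at e1 e2 e3 e4
  refine ⟨Prod.mk_le_mk.2 ⟨?_, ?_⟩, Prod.mk_le_mk.2 ⟨?_, ?_⟩⟩ <;> omega

/-- **the bricks which meet a bounded connected set are joined** -/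
theorem conn_meet (hs : 0 < s) {C : Set ℂ} (hC : IsPreconnected C) (hb : Bornology.IsBounded C)
    {G : Set Bk} (hG : ∀ b, (tl s b ∩ C).Nonempty → b ∈ G) (h1 : (tl s b ∩ C).Nonempty)
    (h2 : (tl s c ∩ C).Nonempty) : Cn G b c := by
  have h3 := G6Tx408.chain_of_cover (s := {b : Bk | (tl s b ∩ C).Nonempty}) (fin_meet hs hb)
    (F := tl s) (fun b _ => isClosed_tl s b) hC (fun z hz => by
      obtain ⟨b, hb⟩ := exists_tl hs z
      exact mem_biUnion (x := b) ⟨z, hb, hz⟩ hb) h1 h2 (by rwa [inter_comm]) (by rwa [inter_comm])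
  induction h3 with
  | refl => exact .refl
  | @tail x y _ h5 ih =>
    obtain ⟨hx, hy, z, ⟨hzx, hzy⟩, -⟩ := h5
    have ih' := ih hx
    rcases tl_nb hs hzx hzy with e | e
    · rw [← e]; exact ih'
    · exact ih'.tail ⟨hG _ hx, hG _ hy, e⟩

end tiles

/-! ### good and bad bricks -/

section good

variable {s t R : ℝ} {E : Set ℂ} {x0 p q : ℂ} {b c : Bk}

/-- good bricks -/
def Gd (s t : ℝ) (E : Set ℂ) (x0 : ℂ) (R : ℝ) : Set Bk :=
  {b | (∀ z ∈ tl s b, ∀ e ∈ E, t ≤ ‖z - e‖) ∧ ∀ z ∈ tl s b, ‖z - x0‖ ≤ R}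

theorem gd_fin (hs : 0 < s) : (Gd s t E x0 R).Finite := by
  refine (fin_meet hs (C := Metric.closedBall x0 R) Metric.isBounded_closedBall).subset ?_
  rintro b ⟨-, h⟩
  have hz : (⟨s * (2 * b.1 + b.2), s * b.2⟩ : ℂ) ∈ tl s b := by
    rw [mem_tl hs]
    refine ⟨le_rfl, ?_, le_rfl, ?_⟩
    · show s * (2 * b.1 + b.2) ≤ _
      nlinarith
    · show s * b.2 ≤ _
      nlinarith
  exact ⟨_, hz, by rw [Metric.mem_closedBall, dist_eq_norm]; exact h _ hz⟩

/-- two points outside a ball are joined outside the ball -/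
theorem out_join (hR : 0 ≤ R) {z w : ℂ} (hz : R < ‖z - x0‖) (hw : R < ‖w - x0‖) :
    ∃ C : Set ℂ, IsPreconnected C ∧ Bornology.IsBounded C ∧ z ∈ C ∧ w ∈ C ∧
      ∀ y ∈ C, R < ‖y - x0‖ := by
  set r : ℝ := max ‖z - x0‖ ‖w - x0‖ with hr
  have key : ∀ z : ℂ, R < ‖z - x0‖ → ‖z - x0‖ ≤ r → ∃ z1 : ℂ, ‖z1 - x0‖ = r ∧
      ∀ y ∈ segment ℝ z z1, R < ‖y - x0‖ := by
    intro z hz hzr
    have hz0 : 0 < ‖z - x0‖ := hR.trans_lt hz
    set lam : ℝ := r / ‖z - x0‖ with hlam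
    have hl1 : 1 ≤ lam := by rw [hlam, le_div_iff₀ hz0, one_mul]; exact hzr
    refine ⟨x0 + (lam : ℂ) * (z - x0), ?_, ?_⟩
    · rw [add_sub_cancel_left, norm_mul, Complex.norm_real, Real.norm_of_nonneg (by linarith),
        hlam]
      field_simp
    · rintro y ⟨a, a', ha, ha', haa, rfl⟩
      have e : a • z + a' • (x0 + (lam : ℂ) * (z - x0)) - x0 =
          ((1 + a' * (lam - 1) : ℝ) : ℂ) * (z - x0) := by
        have h1 : (a : ℂ) + a' = 1 := by exact_mod_cast haa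
        simp only [Complex.real_smul]
        push_cast
        linear_combination (z - x0) * h1 + x0 * h1
      rw [e, norm_mul, Complex.norm_real, Real.norm_of_nonneg (by nlinarith)]
      nlinarith [mul_nonneg (mul_nonneg ha' (sub_nonneg.2 hl1)) hz0.le]
  obtain ⟨z1, h1, h2⟩ := key z hz (le_max_left _ _)
  obtain ⟨w1, h3, h4⟩ := key w hw (le_max_right _ _)
  refine ⟨segment ℝ z z1 ∪ (Metric.sphere x0 r ∪ segment ℝ w1 w), ?_, ?_, Or.inl
    (left_mem_segment ℝ z z1), Or.inr (Or.inr (right_mem_segment ℝ w1 w)), ?_⟩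
  · refine IsPreconnected.union z1 (right_mem_segment ℝ z z1) (Or.inl ?_)
      (convex_segment z z1).isPreconnected ?_
    · rw [mem_sphere_iff_norm]; exact h1
    · refine IsPreconnected.union w1 ?_ (left_mem_segment ℝ w1 w)
        (EQ2x63.isPreconnected_sph x0 r) (convex_segment w1 w).isPreconnected
      rw [mem_sphere_iff_norm]; exact h3
  · refine Bornology.IsBounded.union ?_ (Bornology.IsBounded.union Metric.isBounded_sphere ?_)
    · rw [segment_eq_image']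
      exact (isCompact_Icc.image (by fun_prop)).isBounded
    · rw [segment_eq_image']
      exact (isCompact_Icc.image (by fun_prop)).isBounded
  · rintro y (hy | hy | hy)
    · exact h2 y hy
    · rw [mem_sphere_iff_norm.1 hy]
      exact hz.trans_le (le_max_left _ _)
    · rw [segment_symm] at hy
      exact h4 y hy

/-- steps of `E` of length `< t` -/
def Stp (E : Set ℂ) (t : ℝ) (x y : ℂ) : Prop := x ∈ E ∧ y ∈ E ∧ ‖x - y‖ < t

/-- **the bad bricks are connected** -/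
theorem bad_conn (hs : 0 < s) (ht : 0 < t) (hR : 0 ≤ R)
    (hE : ∀ e ∈ E, ∃ e', R < ‖e' - x0‖ ∧ Relation.ReflTransGen (Stp E t) e e') :
    Conn (Gd s t E x0 R)ᶜ := by
  set B := (Gd s t E x0 R)ᶜ with hB
  -- bricks which meet a small ball around a site of `E` are bad
  have hb1 : ∀ e ∈ E, ∀ b, (tl s b ∩ Metric.ball e t).Nonempty → b ∈ B := by
    rintro e he b ⟨z, hz, hze⟩ hb
    have := hb.1 z hz e he
    rw [Metric.mem_ball, dist_eq_norm] at hze
    linarith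
  have hb2 : ∀ b, (∃ z ∈ tl s b, R < ‖z - x0‖) → b ∈ B := by
    rintro b ⟨z, hz, h⟩ hb
    have := hb.2 z hz
    linarith
  have j1 : ∀ e ∈ E, ∀ b c, (tl s b ∩ Metric.ball e t).Nonempty →
      (tl s c ∩ Metric.ball e t).Nonempty → Cn B b c := fun e he b c h1 h2 =>
    conn_meet hs (convex_ball e t).isPreconnected Metric.isBounded_ball (hb1 e he) h1 h2
  have j2 : ∀ b c, (∃ z ∈ tl s b, R < ‖z - x0‖) → (∃ z ∈ tl s c, R < ‖z - x0‖) → Cn B b c := by
    rintro b c ⟨z, hz, h1⟩ ⟨w, hw, h2⟩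
    obtain ⟨C, c1, c2, c3, c4, c5⟩ := out_join hR h1 h2
    exact conn_meet hs c1 c2 (fun b' ⟨y, hy, hyC⟩ => hb2 b' ⟨y, hy, c5 y hyC⟩) ⟨z, hz, c3⟩
      ⟨w, hw, c4⟩
  -- every bad brick is joined to a brick outside
  have key : ∀ b ∈ B, ∃ c, Cn B b c ∧ ∃ z ∈ tl s c, R < ‖z - x0‖ := by
    intro b hb
    have hb' : ¬ ((∀ z ∈ tl s b, ∀ e ∈ E, t ≤ ‖z - e‖) ∧ ∀ z ∈ tl s b, ‖z - x0‖ ≤ R) := hb
    rw [not_and_or] at hb'
    rcases hb' with h | h
    · push Not at h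
      obtain ⟨z, hz, e, he, h1⟩ := h
      obtain ⟨e', h2, h3⟩ := hE e he
      have h4 : ∀ y, Relation.ReflTransGen (Stp E t) e y → y ∈ E ∧ ∀ c, y ∈ tl s c → Cn B b c := by
        intro y hy
        induction hy with
        | refl =>
          exact ⟨he, fun c hc => j1 e he b c ⟨z, hz, by
            rw [Metric.mem_ball, dist_eq_norm]; exact h1⟩ ⟨e, hc, Metric.mem_ball_self ht⟩⟩
        | @tail y y' _ h5 ih =>
          obtain ⟨c1, hc1⟩ := exists_tl hs y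
          refine ⟨h5.2.1, fun c hc => (ih.2 c1 hc1).trans ?_⟩
          exact j1 y h5.1 c1 c ⟨y, hc1, Metric.mem_ball_self ht⟩ ⟨y', hc, by
            rw [Metric.mem_ball, dist_eq_norm, norm_sub_rev]; exact h5.2.2⟩
      obtain ⟨c, hc⟩ := exists_tl hs e'
      exact ⟨c, (h4 e' h3).2 c hc, e', hc, h2⟩
    · push Not at h
      exact ⟨b, .refl, h⟩
  intro b hb c hc
  obtain ⟨b', h1, h2⟩ := key b hb
  obtain ⟨c', h3, h4⟩ := key c hc
  exact (h1.trans (j2 b' c' h2 h4)).trans (Cn.symm h3)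

/-- there is a bad brick -/
theorem bad_ne (hs : 0 < s) : ((Gd s t E x0 R)ᶜ).Nonempty := by
  obtain ⟨b, hb⟩ := exists_tl hs (x0 + (|R| + 1 : ℝ))
  refine ⟨b, fun h => ?_⟩
  have := h.2 _ hb
  rw [add_sub_cancel_left, Complex.norm_real, Real.norm_of_nonneg (by positivity)] at this
  linarith [le_abs_self R]

/-- room around `p` -/
def Rom (s t : ℝ) (E : Set ℂ) (x0 : ℂ) (R : ℝ) (p : ℂ) : Prop :=
  (∀ e ∈ E, t + 3 * s ≤ ‖p - e‖) ∧ ‖p - x0‖ + 3 * s ≤ R

theorem rom_gd (hs : 0 < s) (h : Rom s t E x0 R p) (hp : p ∈ tl s b) : b ∈ Gd s t E x0 R := by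
  refine ⟨fun z hz e he => ?_, fun z hz => ?_⟩
  · have h1 := tl_dist hs hp hz
    have h2 := h.1 e he
    have h3 : ‖p - e‖ ≤ ‖p - z‖ + ‖z - e‖ := by
      have := norm_add_le (p - z) (z - e)
      rwa [sub_add_sub_cancel] at this
    linarith
  · have h1 := tl_dist hs hz hp
    have h2 := h.2
    have h3 : ‖z - x0‖ ≤ ‖z - p‖ + ‖p - x0‖ := by
      have := norm_add_le (z - p) (p - x0)
      rwa [sub_add_sub_cancel] at this
    linarith

/-- **GRID, component form** : the component of a good brick -/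
theorem grid_comp (hs : 0 < s) (ht : 0 < t) (hR : 0 ≤ R)
    (hE : ∀ e ∈ E, ∃ e', R < ‖e' - x0‖ ∧ Relation.ReflTransGen (Stp E t) e e')
    {b0 : Bk} (hb0 : b0 ∈ Gd s t E x0 R) :
    ∃ U : Finset Bk, (U : Set Bk) = comp (Gd s t E x0 R) b0 ∧ Conn (U : Set Bk) ∧
      Conn (U : Set Bk)ᶜ ∧ b0 ∈ U ∧
      (∀ b ∈ U, ∀ z ∈ tl s b, (∀ e ∈ E, t ≤ ‖z - e‖) ∧ ‖z - x0‖ ≤ R) ∧
      (∀ b ∈ U, ∀ c ∉ U, Nb b c → ∃ z ∈ tl s c, (∃ e ∈ E, ‖z - e‖ < t) ∨ R < ‖z - x0‖) := by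
  have hfin : (comp (Gd s t E x0 R) b0).Finite := (gd_fin hs).subset comp_sub
  have hco : ((hfin.toFinset : Finset Bk) : Set Bk) = comp (Gd s t E x0 R) b0 := hfin.coe_toFinset
  have hmem : ∀ b, b ∈ hfin.toFinset ↔ b ∈ comp (Gd s t E x0 R) b0 := fun b => hfin.mem_toFinset
  refine ⟨hfin.toFinset, hco, ?_, ?_, (hmem b0).2 (self_comp hb0), ?_, ?_⟩
  · rw [hco]; exact comp_conn
  · rw [hco]; exact comp_conn' (bad_conn hs ht hR hE) (bad_ne hs)
  · intro b hb z hz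
    have := comp_sub ((hmem b).1 hb)
    exact ⟨this.1 z hz, this.2 z hz⟩
  · intro b hb c hc hbc
    have h1 : c ∉ Gd s t E x0 R := comp_nb ((hmem b).1 hb) hbc fun h => hc ((hmem c).2 h)
    have h2 : ¬ ((∀ z ∈ tl s c, ∀ e ∈ E, t ≤ ‖z - e‖) ∧ ∀ z ∈ tl s c, ‖z - x0‖ ≤ R) := h1
    rw [not_and_or] at h2
    rcases h2 with h | h
    · push Not at h
      obtain ⟨z, hz, e, he, h3⟩ := h
      exact ⟨z, hz, Or.inl ⟨e, he, h3⟩⟩
    · push Not at h
      obtain ⟨z, hz, h3⟩ := h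
      exact ⟨z, hz, Or.inr h3⟩

/-- **GRID** : the polygon of good bricks around `p` -/
theorem grid (hs : 0 < s) (ht : 0 < t) (hR : 0 ≤ R)
    (hE : ∀ e ∈ E, ∃ e', R < ‖e' - x0‖ ∧ Relation.ReflTransGen (Stp E t) e e')
    (hp : Rom s t E x0 R p) :
    ∃ U : Finset Bk, Conn (U : Set Bk) ∧ Conn (U : Set Bk)ᶜ ∧ U.Nonempty ∧
      (∀ b, p ∈ tl s b → b ∈ U) ∧
      (∀ b ∈ U, ∀ z ∈ tl s b, (∀ e ∈ E, t ≤ ‖z - e‖) ∧ ‖z - x0‖ ≤ R) ∧
      (∀ b ∈ U, ∀ c ∉ U, Nb b c → ∃ z ∈ tl s c, (∃ e ∈ E, ‖z - e‖ < t) ∨ R < ‖z - x0‖) ∧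
      (∀ C : Set ℂ, IsPreconnected C → Bornology.IsBounded C → p ∈ C →
        (∀ z ∈ C, Rom s t E x0 R z) → ∀ z ∈ C, ∀ b, z ∈ tl s b → b ∈ U) := by
  obtain ⟨b0, hb0⟩ := exists_tl hs p
  have hb0G : b0 ∈ Gd s t E x0 R := rom_gd hs hp hb0
  obtain ⟨U, hU, h1, h2, h3, h4, h5⟩ := grid_comp hs ht hR hE hb0G
  have hmem : ∀ b, b ∈ U ↔ b ∈ comp (Gd s t E x0 R) b0 := fun b => by
    rw [← hU]; exact Finset.mem_coe.symm
  have h6 : ∀ C : Set ℂ, IsPreconnected C → Bornology.IsBounded C → p ∈ C →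
      (∀ z ∈ C, Rom s t E x0 R z) → ∀ z ∈ C, ∀ b, z ∈ tl s b → b ∈ U := by
    intro C hC hCb hpC hCr z hz b hb
    rw [hmem]
    exact ⟨hb0G, conn_meet hs hC hCb (fun b' ⟨y, hy, hy'⟩ => rom_gd hs (hCr y hy') hy)
      ⟨p, hb0, hpC⟩ ⟨z, hb, hz⟩⟩
  exact ⟨U, h1, h2, ⟨b0, h3⟩, fun b hb => h6 {p} isPreconnected_singleton
    Bornology.isBounded_singleton rfl (fun z hz => by rw [mem_singleton_iff.1 hz]; exact hp) p rfl
    b hb, h4, h5, h6⟩

/-! ### components of a union of bricks -/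

/-- the bricks of `G` which meet a bounded connected subset of the polygon of `G` are joined in
`G` -/
theorem pre_cn (hs : 0 < s) {G : Set Bk} {C : Set ℂ} (hC : IsPreconnected C)
    (hCb : Bornology.IsBounded C) (hG : C ⊆ Pg s (cells G)) (hb : b ∈ G) (hc : c ∈ G)
    (h1 : (C ∩ tl s b).Nonempty) (h2 : (C ∩ tl s c).Nonempty) : Cn G b c := by
  have hfin : {b' : Bk | b' ∈ G ∧ (tl s b' ∩ C).Nonempty}.Finite :=
    (fin_meet hs hCb).subset fun _ h => h.2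
  have h3 := G6Tx408.chain_of_cover hfin (F := tl s) (fun b _ => isClosed_tl s b) hC
    (fun y hy => by
      have := hG hy
      rw [pg_eq] at this
      obtain ⟨b', hb', hy'⟩ := mem_iUnion₂.1 this
      exact mem_biUnion (x := b') ⟨hb', y, hy', hy⟩ hy') ⟨hb, by rwa [inter_comm]⟩
    ⟨hc, by rwa [inter_comm]⟩ h1 h2
  clear h1 h2 hc
  induction h3 with
  | refl => exact .refl
  | @tail x y _ h5 ih =>
    obtain ⟨hx, hy, y0, ⟨hzx, hzy⟩, -⟩ := h5
    rcases tl_nb hs hzx hzy with e | e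
    · rw [← e]; exact ih
    · exact ih.tail ⟨hx.1, hy.1, e⟩

/-- **a bounded connected subset of the polygon of `G` lies in the polygon of one component** -/
theorem pre_comp (hs : 0 < s) {G : Set Bk} {C : Set ℂ} (hC : IsPreconnected C)
    (hCb : Bornology.IsBounded C) (hG : C ⊆ Pg s (cells G)) (hb : b ∈ G)
    (h1 : (C ∩ tl s b).Nonempty) : C ⊆ Pg s (cells (comp G b)) := by
  intro z hz
  have := hG hz
  rw [pg_eq] at this ⊢
  obtain ⟨c, hc, hzc⟩ := mem_iUnion₂.1 this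
  exact mem_iUnion₂.2 ⟨c, ⟨hb, pre_cn hs hC hCb hG hb hc h1 ⟨z, hz, hzc⟩⟩, hzc⟩

theorem pg_mono {G G' : Set Bk} (h : G ⊆ G') : Pg s (cells G) ⊆ Pg s (cells G') := by
  rw [pg_eq, pg_eq]
  exact biUnion_subset_biUnion_left h

/-- a ball inside the polygon of `G` is inside the polygon of a component -/
theorem ball_comp (hs : 0 < s) {G : Set Bk} {x : ℂ} {ρ : ℝ} (hρ : 0 ≤ ρ)
    (h : Metric.closedBall x ρ ⊆ Pg s (cells G)) :
    ∃ b ∈ G, Metric.closedBall x ρ ⊆ Pg s (cells (comp G b)) := by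
  have hx : x ∈ Pg s (cells G) := h (Metric.mem_closedBall_self hρ)
  rw [pg_eq] at hx
  obtain ⟨b, hb, hxb⟩ := mem_iUnion₂.1 hx
  exact ⟨b, hb, pre_comp hs (convex_closedBall x ρ).isPreconnected Metric.isBounded_closedBall h hb
    ⟨x, Metric.mem_closedBall_self hρ, hxb⟩⟩

/-- balls of near centres are inside the same component -/
theorem ball_comp' (hs : 0 < s) {G : Set Bk} {x y : ℂ} {ρ : ℝ} (hρ : 0 ≤ ρ)
    (hx : Metric.closedBall x ρ ⊆ Pg s (cells (comp G b)))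
    (hy : Metric.closedBall y ρ ⊆ Pg s (cells G)) (hxy : ‖x - y‖ ≤ ρ) :
    Metric.closedBall y ρ ⊆ Pg s (cells (comp G b)) := by
  have h1 : x ∈ Pg s (cells (comp G b)) := hx (Metric.mem_closedBall_self hρ)
  rw [pg_eq] at h1
  obtain ⟨c, hc, hxc⟩ := mem_iUnion₂.1 h1
  have h2 := pre_comp hs (convex_closedBall y ρ).isPreconnected Metric.isBounded_closedBall hy
    (comp_sub hc) ⟨x, by rw [Metric.mem_closedBall, dist_eq_norm]; exact hxy, hxc⟩
  refine h2.trans (pg_mono ?_)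
  rintro e ⟨-, he⟩
  exact ⟨hc.1, hc.2.trans he⟩

/-- the polygons of different components are disjoint -/
theorem comp_disj (hs : 0 < s) {G : Set Bk} {z : ℂ} (h1 : z ∈ Pg s (cells (comp G b)))
    (h2 : z ∈ Pg s (cells (comp G c))) : comp G b = comp G c := by
  rw [pg_eq] at h1 h2
  obtain ⟨x, hx, hzx⟩ := mem_iUnion₂.1 h1
  obtain ⟨y, hy, hzy⟩ := mem_iUnion₂.1 h2
  have h3 : Cn G x y := by
    rcases tl_nb hs hzx hzy with e | e
    · rw [← e]
      exact .refl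
    · exact Relation.ReflTransGen.single ⟨comp_sub hx, comp_sub hy, e⟩
  ext e
  constructor
  · rintro ⟨-, he⟩
    exact ⟨hy.1, ((hy.2.trans (Cn.symm h3)).trans (Cn.symm hx.2)).trans he⟩
  · rintro ⟨-, he⟩
    exact ⟨hx.1, ((hx.2.trans h3).trans (Cn.symm hy.2)).trans he⟩

end good

end Crest.Agent.R143.Gridx991
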