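import Crest.Agent.R143.Lay_88
import Crest.Agent.R143.Asm3_414

/-!
# Row 143 (S0194), block H, input [LAY] in the majorant form of `Asm3_414` (helper88)

* `lyq_le` : one stage, `CHq (layer field) + Wf Q ≤ Wf U`
* `lay_maj` : majorant of the layer, `∫ RL ≤ wD (4 b (s + d) + 4 s²) E g + δ`
* `lay_maj'` : the same with `Cl (d + s) + δ`, `Cl = clL b := wD (4 b + 4)`, for `s ≤ 1` (the clause of
  `Asm3x414.ValsM`)
-/

set_option autoImplicit false

noncomputable section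

open scoped Classical

namespace Crest.Agent.R143.LayMx88

open MeasureTheory Filter Topology
open Crest.ProbabilityR.Voronoi
open Crest.Agent.R143.B0x346 Crest.Agent.R143.SumScx302 Crest.Agent.R143.Mass1x302
  Crest.Agent.R143.Mass2x302 Crest.Agent.R143.Mass3x302 Crest.Agent.R143.Mass4x302
  Crest.Agent.R143.Mass5x302
open Crest.Agent.R143.Frame1x395 Crest.Agent.R143.Frame2x395 Crest.Agent.R143.Frame3x395
  Crest.Agent.R143.Frame4x395 Crest.Agent.R143.Frame8x395 Crest.Agent.R143.Frame9x395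
  Crest.Agent.R143.Coarsex166 Crest.Agent.R143.Budx432 Crest.Agent.R143.Bud2x432
  Crest.Agent.R143.Bud3x432 Crest.Agent.R143.PP0x831 Crest.Agent.R143.Trans3x690
  Crest.Agent.R143.HBudx136 Crest.Agent.R143.Layx88 Crest.Agent.R143.HGluex136
  Crest.Agent.R143.Asm3x414 Crest.Agent.R143.FinCx811 Crest.Agent.R143.SmallAx304
  Crest.Agent.R143.Dblx609 Crest.Agent.R143.Dbl2x609
open Crest.Agent.R143.Trans2x690 (Wf)
open scoped ENNReal

section det

variable {D C C' : Type} {M : CMap D C} {P Q U : Set ℂ} {δ : ℂ → ℂ → D} {κ : ℂ → C}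
variable {π : C → C'} {hπ : ClsCon M π} {o : C'} {a : D → ℂ}

/-- **the layer, one stage** : mean energy (136's `CHq`) of the chords of the layer field -/
theorem lyq_le [Fintype D] (A : Agr P U M δ κ) (F : FrF P U M π o δ) (hQ : Q ⊆ U)
    (ha : ∀ t : T3, Fc P U t.1 t.2.1 t.2.2 → a (gd δ t) = Nn t)
    {w : ℂ} (w3 : w ^ 3 = 1) (w1 : w ≠ 1) (wc : (starRingEnd ℂ) w = w ^ 2) (sa : Spin M w a) :
    CHq M π hπ o (ly P Q δ a) + Wf P Q ≤ Wf P U := by
  unfold CHq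
  have h := lay_chd (hπ := hπ) A F hQ ha w3 w1 wc sa
  rwa [ENNReal.div_eq_inv_mul] at h

end det

theorem sb_sub_ub {z : ℂ} {b s d : ℝ} (hs : 0 < s) (hd : 0 ≤ d) : Sb z b d ⊆ Ub z b s := by
  intro w hw
  obtain ⟨h1, h2, h3, h4⟩ := hw
  simp only [Complex.add_re, Complex.add_im, Complex.mul_re, Complex.mul_im, Complex.ofReal_re,
    Complex.ofReal_im, Complex.one_re, Complex.one_im, Complex.I_re, Complex.I_im] at h1 h2 h3 h4
  refine ⟨?_, ?_, ?_, ?_⟩ <;>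
    simp only [Complex.sub_re, Complex.sub_im, Complex.mul_re, Complex.mul_im, Complex.ofReal_re,
      Complex.ofReal_im, Complex.add_re, Complex.add_im, Complex.one_re, Complex.one_im,
      Complex.I_re, Complex.I_im] <;> linarith

/-- quenched mean of a functional with values in `[0, 1]` -/
theorem mq_le_one {ε : ℝ} {B : Set ℂ} {g : Set (ℂ × Bool) → ℝ≥0∞} (hg : ∀ X, g X ≤ 1)
    (ω : Sample) : mq ε B g ω ≤ 1 := by
  unfold mq
  have h : ∑ β ∈ (Ap ε B ω).powerset, g (paint (Ap ε B ω) β) ≤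
      ∑ β ∈ (Ap ε B ω).powerset, 1 := Finset.sum_le_sum fun β _ => hg _
  rw [Finset.sum_const, Finset.card_powerset, nsmul_eq_mul, mul_one] at h
  push_cast at h
  calc _ ≤ ((2 : ℝ≥0∞) ^ (Ap ε B ω).card)⁻¹ * 2 ^ (Ap ε B ω).card := by gcongr
    _ = 1 := ENNReal.inv_mul_cancel (by positivity) (ENNReal.pow_ne_top (by norm_num))

/-- **[LAY], majorant form.** -/
theorem lay_maj (Lw : LLN famF wD) (z : ℂ) {b s d δ : ℝ} (hb : 0 < b) (hs : 0 < s) (hd : 0 ≤ d)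
    (hdb : 2 * d < b) (hδ : 0 < δ) : ∀ᶠ ε : ℝ in 𝓝[>] 0,
    ∀ B : Set ℂ, MeasurableSet B → Bornology.IsBounded B →
    ∀ g L : Set (ℂ × Bool) → ℝ≥0∞, Poisx304.FM g → (∀ X, g X ≤ 1) →
      (∀ᵐ ω ∂sampleLaw, ∀ β ∈ (Ap ε B ω).powerset,
        g (paint (Ap ε B ω) β) ≠ 0 →
        L (paint (Ap ε B ω) β) + Wf (ps (cfg ε ω)) (Sb z b d) ≤
        Wf (ps (cfg ε ω)) (Ub z b s)) →
      ∃ R : Sample → ℝ≥0∞, Maj ε B g L R ∧
        ∫⁻ ω, R ω ∂sampleLaw ≤ ENNReal.ofReal (wD * (4 * b * (s + d) + 4 * s ^ 2)) *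
          Mg ε B g + ENNReal.ofReal δ := by
  have hw := wD_nonneg
  obtain ⟨R3, m3, p3, t3⟩ := Lw (z - ((s : ℝ) : ℂ) * (1 + Complex.I)) (b + 2 * s) (by linarith)
  obtain ⟨R4, m4, p4, t4⟩ := Lw (z + ((d : ℝ) : ℂ) * (1 + Complex.I)) (b - 2 * d) (by linarith)
  have ht := t3.add t4
  rw [add_zero] at ht
  have hδ' : (0 : ℝ≥0∞) < ENNReal.ofReal δ := ENNReal.ofReal_pos.2 hδ
  filter_upwards [p3, p4, ht.eventually (ge_mem_nhds hδ'), eventually_mem_nhdsWithin]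
    with ε q3 q4 q5 hε
  have hε : 0 < ε := hε
  intro B hBm hB g L hg hg1 h
  set c : ℝ := wD * (4 * b * (s + d) + 4 * s ^ 2) with hc
  have hcc : ENNReal.ofReal (wD * (b + 2 * s) ^ 2) ≤ ENNReal.ofReal c +
      ENNReal.ofReal (wD * (b - 2 * d) ^ 2) := by
    rw [← ENNReal.ofReal_add (by positivity) (by positivity)]
    apply ENNReal.ofReal_le_ofReal
    have := lay_const (b := b) (s := s) (d := d) hw
    rw [hc]
    linarith
  have m1 := mq_meas hε hBm hB hg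
  refine ⟨fun ω => ENNReal.ofReal c * mq ε B g ω + (R3 ε ω + R4 ε ω), ⟨?_, ?_⟩, ?_⟩
  · exact (m1.const_mul _).add ((m3 ε).add (m4 ε))
  · filter_upwards [h, q3, q4] with ω h q3 q4
    have h5 : mq ε B (fun Y => g Y * L Y) ω ≤
        mq ε B (fun Y => (ENNReal.ofReal c + (R3 ε ω + R4 ε ω)) * g Y) ω := by
      refine mq_mono fun β hβ => ?_
      by_cases h0 : g (paint (Ap ε B ω) β) = 0
      · rw [h0, zero_mul]; exact zero_le
      have h1 := h β hβ h0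
      rw [famF_Ph] at q3 q4
      set E := L (paint (Ap ε B ω) β) with hE
      have h2 : E + ENNReal.ofReal (wD * (b - 2 * d) ^ 2) ≤
          (ENNReal.ofReal c + (R3 ε ω + R4 ε ω)) + ENNReal.ofReal (wD * (b - 2 * d) ^ 2) := by
        calc E + ENNReal.ofReal (wD * (b - 2 * d) ^ 2)
            ≤ E + (Wf (ps (cfg ε ω)) (Sb z b d) + R4 ε ω) := by gcongr; exact q4.2
          _ = (E + Wf (ps (cfg ε ω)) (Sb z b d)) + R4 ε ω := by ring
          _ ≤ Wf (ps (cfg ε ω)) (Ub z b s) + R4 ε ω := by gcongr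
          _ ≤ (ENNReal.ofReal (wD * (b + 2 * s) ^ 2) + R3 ε ω) + R4 ε ω := by
              gcongr
              exact q3.1
          _ ≤ ((ENNReal.ofReal c + ENNReal.ofReal (wD * (b - 2 * d) ^ 2)) + R3 ε ω) +
              R4 ε ω := by gcongr
          _ = _ := by ring
      have h3 : E ≤ ENNReal.ofReal c + (R3 ε ω + R4 ε ω) :=
        (ENNReal.add_le_add_iff_right ENNReal.ofReal_ne_top).1 h2
      rw [mul_comm]
      gcongr
    rw [mq_mul] at h5
    refine h5.trans ?_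
    rw [add_mul]
    gcongr
    calc (R3 ε ω + R4 ε ω) * mq ε B g ω ≤ (R3 ε ω + R4 ε ω) * 1 := by
          gcongr
          exact mq_le_one hg1 ω
      _ = _ := mul_one _
  · have e1 : ∫⁻ ω, (ENNReal.ofReal c * mq ε B g ω + (R3 ε ω + R4 ε ω)) ∂sampleLaw =
        ∫⁻ ω, ENNReal.ofReal c * mq ε B g ω ∂sampleLaw +
          ∫⁻ ω, (R3 ε ω + R4 ε ω) ∂sampleLaw := lintegral_add_left' (m1.const_mul _) _
    rw [e1, lint_mq hε hBm hB hg]
    gcongr
    refine le_trans (le_of_eq ?_) q5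
    rw [lintegral_add_right' _ (m4 ε)]

/-- the constant of the layer -/
def clL (b : ℝ) : ℝ := wD * (4 * b + 4)

theorem clL_nonneg {b : ℝ} (hb : 0 < b) : 0 ≤ clL b :=
  mul_nonneg wD_nonneg (by linarith)

/-- **[LAY], the clause of `Asm3x414.ValsM`** -/
theorem lay_maj' (z : ℂ) {b s d δ : ℝ} (hb : 0 < b) (hs : 0 < s) (hs1 : s ≤ 1) (hd : 0 ≤ d)
    (hdb : 2 * d < b) (hδ : 0 < δ) : ∀ᶠ ε : ℝ in 𝓝[>] 0,
    ∀ B : Set ℂ, MeasurableSet B → Bornology.IsBounded B →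
    ∀ g L : Set (ℂ × Bool) → ℝ≥0∞, Poisx304.FM g → (∀ X, g X ≤ 1) →
      (∀ᵐ ω ∂sampleLaw, ∀ β ∈ (Ap ε B ω).powerset,
        g (paint (Ap ε B ω) β) ≠ 0 →
        L (paint (Ap ε B ω) β) + Wf (ps (cfg ε ω)) (Sb z b d) ≤
        Wf (ps (cfg ε ω)) (Ub z b s)) →
      ∃ R : Sample → ℝ≥0∞, Maj ε B g L R ∧
        ∫⁻ ω, R ω ∂sampleLaw ≤ ENNReal.ofReal (clL b * (d + s) + δ) *
          Mg ε B g + ENNReal.ofReal δ := by
  filter_upwards [lay_maj Crest.Agent.R143.LLN4x432.lln_famF z hb hs hd hdb hδ]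
    with ε h B hBm hB g L hg hg1 hL
  obtain ⟨R, h1, h2⟩ := h B hBm hB g L hg hg1 hL
  refine ⟨R, h1, h2.trans ?_⟩
  gcongr
  have hw := wD_nonneg
  have h3 : 4 * b * (s + d) + 4 * s ^ 2 ≤ (4 * b + 4) * (d + s) := by nlinarith
  have h4 := mul_le_mul_of_nonneg_left h3 hw
  unfold clL
  nlinarith

end Crest.Agent.R143.LayMx88
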