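import Crest.Agent.R143.HDec_197
import Crest.Agent.R143.StgI_432
import Crest.Agent.R143.Asm4_414
import Crest.Agent.R143.LayM_88

/-!
# Row 143 (S0194), block H, COMPOSITION (helper197): what is left is the ring

[H4] (432, 136), [LAY] (88), [B], [N] (795) are theorems; `ring` collects what is left:
* `mn E F A β` : mean over the configurations of the net with the giant `E A β`
* `Lg`, `Ng`, `Nr`, `Fg` : layer, number of the deep chords, near chords, far deep chords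
* `Ring1` : **ONE ring for one mesh**; `RingS z b` : the ring for all depths, radii, errors
* `inpQ_of : RingS z b → InpQ z b`; `body_of_ring : RingS z b → Body`
-/

set_option autoImplicit false

noncomputable section

open scoped Classical

namespace Crest.Agent.R143.HCompx197

open MeasureTheory Filter Topology
open Crest.ProbabilityR.Voronoi
open Crest.Agent.R143.B0x346 Crest.Agent.R143.SumScx302 Crest.Agent.R143.Mass1x302
  Crest.Agent.R143.Mass2x302 Crest.Agent.R143.Mass4x302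
  Crest.Agent.R143.Mass5x302 Crest.Agent.R143.DelGx806 Crest.Agent.R143.DelRx806
open Crest.Agent.R143.PP0x831 Crest.Agent.R143.Trans3x690 Crest.Agent.R143.Trans5x690
  Crest.Agent.R143.HBudx136 Crest.Agent.R143.HGluex136 Crest.Agent.R143.JColx54
  Crest.Agent.R143.SmallAx304 Crest.Agent.R143.Dblx609 Crest.Agent.R143.Dbl2x609
  Crest.Agent.R143.Asm3x414 Crest.Agent.R143.Asm4x414
open Crest.Agent.R143.Frame1x395 Crest.Agent.R143.Frame2x395 Crest.Agent.R143.Frame8x395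
  Crest.Agent.R143.Frame10x395
open Crest.Agent.R143.Coarsex166 (ClsCon coarse)
open Crest.Agent.R143.Bud2x432 (chd en clb FrF)
open Crest.Agent.R143.HInst1x432 (pe pe_none pe_eq)
open Crest.Agent.R143.HInst2x432 (mE)
open Crest.Agent.R143.StgIx432
open Crest.Agent.R143.StrHx795 (dchE cchE)
open Crest.Agent.R143.CntGx197 (Dense)
open Crest.Agent.R143.HDecx197
open Crest.Agent.R143.Harx315 (IsStop)
open Crest.Agent.R143.Trans2x690 (Wf)
open Crest.Agent.R143.Spinex422 (Body)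
open scoped ENNReal

/-! ### means over the net with the giant -/

/-- a function of the configurations of the net with a giant -/
abbrev NF := ∀ (A : Finset ℂ) (hS : GP (A : Set ℂ)) (E : Set (Quot (hullE A))),
  ClsCon (cm0 hS) (pe E) → (D0 A → ZMod 2) → ℝ≥0∞

/-- mean over the configurations of the net with the giant `E A β` -/
def mn (E : EFam) (F : NF) (A β : Finset ℂ) : ℝ≥0∞ :=
  if h : ∃ hS : GP (A : Set ℂ), ClsCon (cm0 hS) (pe (E A β)) then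
    mE (cm0 h.choose) (pe (E A β)) h.choose_spec (F A h.choose (E A β) h.choose_spec)
  else 0

theorem mn_eq {E : EFam} {F : NF} {A β : Finset ℂ} (hS : GP (A : Set ℂ))
    (h : ClsCon (cm0 hS) (pe (E A β))) :
    mn E F A β = mE (cm0 hS) (pe (E A β)) h (F A hS (E A β) h) := by
  have h1 : ∃ hS : GP (A : Set ℂ), ClsCon (cm0 hS) (pe (E A β)) := ⟨hS, h⟩
  unfold mn
  rw [dif_pos h1]

/-- all faces inside `Ub z b s` -/
def aF (z : ℂ) (b s : ℝ) (A : Finset ℂ) : D0 A → ℂ := aU (A : Set ℂ) z b s A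

/-- mean energy of the layer -/
def Lg (z : ℂ) (b s d0 : ℝ) (E : EFam) : Finset ℂ → Finset ℂ → ℝ≥0∞ :=
  mn E fun A hS _ hπ x => ∑ β ∈ chd (cm0 hS) (pe _) hπ none x, en (aL (A : Set ℂ) z b s d0 A) β

/-- mean number of the deep chords -/
def Ng (z : ℂ) (b d0 : ℝ) (E : EFam) : Finset ℂ → Finset ℂ → ℝ≥0∞ :=
  mn E fun _ hS _ hπ x => ((dchE hS hπ (Sb z b d0) x).card : ℝ≥0∞)

/-- mean deep energy of the chords with near ends -/
def Nr (z : ℂ) (b d0 r : ℝ) (E : EFam) : Finset ℂ → Finset ℂ → ℝ≥0∞ :=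
  mn E fun A hS _ hπ x => ∑ β ∈ cchE hS hπ r x, en (aD (A : Set ℂ) z b d0 A) β

/-- mean deep energy of the deep chords with far ends -/
def Fg (z : ℂ) (b d0 r : ℝ) (E : EFam) : Finset ℂ → Finset ℂ → ℝ≥0∞ :=
  mn E fun A hS _ hπ x => ∑ β ∈ fchE hS hπ (Sb z b d0) r x, en (aD (A : Set ℂ) z b d0 A) β

/-! ### the ring -/

/-- **ONE RING FOR ONE MESH** : box `B`, weight `g` of total mass `≥ c`, revealed sites `Rv`, giant
`E`; `Lf, Zf, Yf, κf` : bound of the far deep chords -/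
def Ring1 (z : ℂ) (b s ε c d0 R K c1 c2 C4 Cf τ δ : ℝ) : Prop :=
  ∃ (B : Set ℂ) (g : Set (ℂ × Bool) → ℝ≥0∞) (E : EFam) (Rv : Finset ℂ → Finset ℂ → Finset ℂ)
    (Lf Zf Yf : Finset ℂ → Finset ℂ → ℝ≥0∞) (RL RZ RY : Sample → ℝ≥0∞) (κf : ℝ≥0∞),
    (MeasurableSet B ∧ Bornology.IsBounded B ∧ Ub z b s ⊆ B ∧ Poisx304.FM g ∧ (∀ X, g X ≤ 1) ∧
      ENNReal.ofReal c ≤ Mg ε B g) ∧
    ((∀ᵐ ω ∂sampleLaw, IsStop (Ap ε B ω) (Rv (Ap ε B ω))) ∧
      FactsAe ε B (Ub z b s) (sq z b) g Rv E ∧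
      ∀ᵐ ω ∂sampleLaw, ∀ β ∈ (Ap ε B ω).powerset, g (paint (Ap ε B ω) β) ≠ 0 →
        ∃ d : ℝ, 0 < d ∧ 2 * d ≤ R ∧ d ≤ c1 * R ∧
          Dense (Ap ε B ω) z (3 * b + 2) K d c2 R (d0 / 2) C4) ∧
    ((∀ᵐ ω ∂sampleLaw, ∀ β ∈ (Ap ε B ω).powerset, g (paint (Ap ε B ω) β) ≠ 0 →
      Fg z b d0 (2 * R) E (Ap ε B ω) β ≤ Lf (Ap ε B ω) β + Zf (Ap ε B ω) β + Yf (Ap ε B ω) β +
        κf * Ng z b d0 E (Ap ε B ω) β) ∧
      MajQ ε B g Lf RL ∧ MajQ ε B g Zf RZ ∧ MajQ ε B g Yf RY ∧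
      ∫⁻ ω, RL ω ∂sampleLaw ≤ ENNReal.ofReal (Cf * (d0 + s) + δ) * Mg ε B g +
        ENNReal.ofReal δ ∧
      ∫⁻ ω, RZ ω ∂sampleLaw ≤ ENNReal.ofReal τ * Mg ε B g ∧
      ∫⁻ ω, RY ω ∂sampleLaw ≤ ENNReal.ofReal δ ∧ κf ≤ ENNReal.ofReal τ)

/-- **THE RING** : all that is left of block H -/
def RingS (z : ℂ) (b : ℝ) : Prop :=
  ∃ C4 : ℝ, 0 ≤ C4 ∧ ∃ Cf : ℝ, 0 ≤ Cf ∧
    ∀ K c1 c2 : ℝ, 1 ≤ K → 0 < c1 → 0 < c2 → c2 ≤ 1 → ∀ d0 : ℝ, 0 < d0 → d0 ≤ b / 4 →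
      ∀ R : ℝ, 0 < R → R ≤ d0 / 10 → ∀ τ : ℝ, 0 < τ → ∃ s c : ℝ, 0 < s ∧ s ≤ τ ∧ 0 < c ∧
        ∀ δ : ℝ, 0 < δ → ∃ᶠ ε : ℝ in 𝓝[>] 0, Ring1 z b s ε c d0 R K c1 c2 C4 Cf τ δ

/-! ### tools -/

theorem majQ_of {ε : ℝ} {B : Set ℂ} {g : Set (ℂ × Bool) → ℝ≥0∞}
    {Ψ : Finset ℂ → Finset ℂ → ℝ≥0∞} {R : Sample → ℝ≥0∞} (h : Maj ε B g (val Ψ) R) :
    MajQ ε B g Ψ R := by
  refine ⟨h.me, ?_⟩
  filter_upwards [h.le] with ω h1
  rw [mq_val] at h1
  have h2 := mul_le_mul_right h1 ((2 : ℝ≥0∞) ^ (Ap ε B ω).card)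
  rwa [pow_inv_mul] at h2

theorem fac_ste {z : ℂ} {b s : ℝ} {A β R : Finset ℂ} {E : Set (Quot (hullE A))}
    (F : Facts (Ub z b s) (sq z b) A β R E) : StE (A : Set ℂ) z b s A E :=
  ⟨F.gp, F.c3, F.hull, fun _ _ => Iff.rfl, F.box, F.fac⟩

theorem wf_congr {P Q U : Set ℂ} (h : ∀ w ∈ U, w ∈ P ↔ w ∈ Q) : Wf P U = Wf Q U := by
  unfold Trans2x690.Wf
  refine tsum_congr fun t => ?_
  exact if_congr ⟨fun h1 => fc_congr h h1, fun h1 => fc_congr (fun w hw => (h w hw).symm) h1⟩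
    rfl rfl

theorem fld_aF (z : ℂ) (b s : ℝ) : Fld (Ub z b s) (aF z b s) :=
  ⟨fun _ hS e0 _ ht => ch_gd hS (fun _ _ => Iff.rfl) e0 ht, fun _ hS => ch_spin hS⟩

/-- **[H4]** in 414's form -/
theorem budQ {z : ℂ} {b s k ε : ℝ} {B : Set ℂ} {g : Set (ℂ × Bool) → ℝ≥0∞} {E : EFam}
    {Rv : Finset ℂ → Finset ℂ → Finset ℂ} (hε : 0 < ε) (hs : 0 ≤ s) (hBm : MeasurableSet B)
    (hB : Bornology.IsBounded B) (hUB : Ub z b s ⊆ B) (hg : Poisx304.FM g) (hg1 : ∀ X, g X ≤ 1)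
    (hR : ∀ᵐ ω ∂sampleLaw, IsStop (Ap ε B ω) (Rv (Ap ε B ω)))
    (hF : FactsAe ε B (Ub z b s) (sq z b) g Rv E) :
    BudQ z b s k ε B g (CHg E (aF z b s)) (CLg (Ub z b s) k E (aF z b s)) := by
  have ha := fld_aF z b s
  refine ⟨hBm, hB, hUB, hg, hg1, ?_, ?_⟩
  · filter_upwards [pb (k := k) hε hs hB hUB ha hF] with ω h β hβ e h0
    rw [e] at h
    have h2 := h h0
    have hs := Finset.mem_powerset.1 hβ
    unfold CHf CLf at h2
    rw [lft_paint _ hs, lft_paint _ hs] at h2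
    exact h2
  · filter_upwards [hF, hR] with ω hF hR
    have hA := coe_Ap hε hB ω
    have hPS : ∀ w ∈ Ub z b s, w ∈ points ε ω ↔ w ∈ ((Ap ε B ω : Finset ℂ) : Set ℂ) := by
      intro w hw
      rw [hA]
      exact ⟨fun h => ⟨h, hUB hw⟩, fun h => h.1⟩
    by_cases h0 : ∀ β ∈ (Ap ε B ω).powerset, g (paint (Ap ε B ω) β) = 0
    · exact Or.inl h0
    · right
      push Not at h0
      obtain ⟨β0, hβ0, hg0⟩ := h0
      have F0 := hF β0 hβ0 hg0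
      have hD := exists_dart F0.gp F0.c3
      refine ⟨F0.gp, F0.c3, F0.out, hD.some, aF z b s _, fun t ht =>
        ha.nn _ F0.gp _ t (fc_congr hPS ht), Rv _, hR, fun β hβ hΦ => ?_⟩
      have F := hF β hβ hΦ
      refine ⟨Option (Quot (hullE (Ap ε B ω))), pc F.gp _, clsCon_pc F.cls, none,
        F.stg hPS hD.some, ?_⟩
      rw [clg_eq F.gp F.cls hD, clq_congr hPS]

/-- the sites of the box are the points in `Ub` -/
theorem ps_iff {ε : ℝ} (hε : 0 < ε) {B U : Set ℂ} (hB : Bornology.IsBounded B) (hUB : U ⊆ B)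
    (ω : Sample) : ∀ w ∈ U, w ∈ ps (cfg ε ω) ↔ w ∈ ((Ap ε B ω : Finset ℂ) : Set ℂ) := by
  intro w hw
  have hps : ps (PP0x831.cfg ε ω) = points ε ω := Dblx609.fst_cfg ε ω
  rw [hps, coe_Ap hε hB ω]
  exact ⟨fun h => ⟨h, hUB hw⟩, fun h => h.1⟩

/-- **majorant of anything bounded by the deep weight** -/
theorem near_maj (z : ℂ) {b s d0 q δ : ℝ} (hs : 0 ≤ s) (hd0 : 0 ≤ d0) (hdb : 2 * d0 < b)
    (hq : 0 ≤ q) (hδ : 0 < δ) : ∀ᶠ ε : ℝ in 𝓝[>] 0,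
    ∀ B : Set ℂ, MeasurableSet B → Bornology.IsBounded B → Ub z b s ⊆ B →
    ∀ g : Set (ℂ × Bool) → ℝ≥0∞, Poisx304.FM g → (∀ X, g X ≤ 1) →
    ∀ Ψ : Finset ℂ → Finset ℂ → ℝ≥0∞,
      (∀ᵐ ω ∂sampleLaw, ∀ β ∈ (Ap ε B ω).powerset, g (paint (Ap ε B ω) β) ≠ 0 →
        Ψ (Ap ε B ω) β ≤ Wf ((Ap ε B ω : Finset ℂ) : Set ℂ) (Sb z b d0) * ENNReal.ofReal q) →
      ∃ R : Sample → ℝ≥0∞, MajQ ε B g Ψ R ∧
        ∫⁻ ω, R ω ∂sampleLaw ≤ ENNReal.ofReal (q * (wD * b ^ 2)) * Mg ε B g +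
          ENNReal.ofReal δ := by
  have hw := wD_nonneg
  obtain ⟨R4, m4, p4, t4⟩ := LLN4x432.lln_famF (z + ((d0 : ℝ) : ℂ) * (1 + Complex.I))
    (b - 2 * d0) (by linarith)
  have hq1 : (0 : ℝ≥0∞) < ENNReal.ofReal (δ / (q + 1)) := ENNReal.ofReal_pos.2 (by positivity)
  filter_upwards [p4, t4.eventually (ge_mem_nhds hq1), eventually_mem_nhdsWithin]
    with ε q4 q5 hε
  have hε : 0 < ε := hε
  intro B hBm hB hUB g hg hg1 Ψ h
  set c4 : ℝ≥0∞ := ENNReal.ofReal (wD * (b - 2 * d0) ^ 2) with hc4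
  have m1 := mq_meas hε hBm hB hg
  refine ⟨fun ω => ENNReal.ofReal q * (c4 + R4 ε ω) * mq ε B g ω, ?_, ?_⟩
  · refine MajQ.rand (c := fun ω => ENNReal.ofReal q * (c4 + R4 ε ω)) hε hBm hB hg
      (((m4 ε).const_add c4).const_mul _) ?_
    filter_upwards [h, q4] with ω h q4
    rw [Finset.mul_sum]
    refine Finset.sum_le_sum fun β hβ => ?_
    by_cases h0 : g (paint (Ap ε B ω) β) = 0
    · rw [h0, zero_mul]; exact zero_le
    rw [mul_comm (g _)]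
    refine mul_le_mul_left ?_ _
    refine (h β hβ h0).trans ?_
    rw [mul_comm]
    gcongr
    have e1 : Wf ((Ap ε B ω : Finset ℂ) : Set ℂ) (Sb z b d0) = Wf (ps (cfg ε ω)) (Sb z b d0) :=
      wf_congr fun w hw => (ps_iff hε hB hUB ω w (sb_sub hs hd0 hw)).symm
    rw [e1, ← famF_Ph]
    exact q4.1
  · have e1 : ∀ ω, ENNReal.ofReal q * (c4 + R4 ε ω) * mq ε B g ω ≤
        ENNReal.ofReal q * c4 * mq ε B g ω + ENNReal.ofReal q * R4 ε ω := by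
      intro ω
      rw [mul_add, add_mul]
      refine add_le_add le_rfl ?_
      calc ENNReal.ofReal q * R4 ε ω * mq ε B g ω ≤ ENNReal.ofReal q * R4 ε ω * 1 := by
            gcongr
            exact LayMx88.mq_le_one hg1 ω
        _ = _ := mul_one _
    refine (lintegral_mono e1).trans ?_
    rw [lintegral_add_left' (m1.const_mul _), lint_mq hε hBm hB hg,
      lintegral_const_mul'' _ (m4 ε)]
    refine add_le_add ?_ ?_
    · refine mul_le_mul_left ?_ _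
      rw [hc4, ← ENNReal.ofReal_mul hq]
      refine ENNReal.ofReal_le_ofReal ?_
      have h1 : (b - 2 * d0) ^ 2 ≤ b ^ 2 := by nlinarith
      gcongr
    · calc ENNReal.ofReal q * ∫⁻ ω, R4 ε ω ∂sampleLaw
          ≤ ENNReal.ofReal q * ENNReal.ofReal (δ / (q + 1)) := by gcongr
        _ = ENNReal.ofReal (q * (δ / (q + 1))) := (ENNReal.ofReal_mul hq).symm
        _ ≤ _ := by
            refine ENNReal.ofReal_le_ofReal ?_
            rw [mul_div_assoc', div_le_iff₀ (by positivity)]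
            nlinarith

theorem norm_ub {z : ℂ} {b s : ℝ} (hb : 0 ≤ b) (hs1 : s ≤ 1) {w : ℂ} (hw : w ∈ Ub z b s) :
    ‖w - z‖ ≤ 2 * b + 2 := by
  obtain ⟨h1, h2, h3, h4⟩ := hw
  rw [HBudx136.re_k'] at h1 h2
  rw [HBudx136.im_k'] at h3 h4
  have h5 := Complex.norm_le_abs_re_add_abs_im (w - z)
  rw [Complex.sub_re, Complex.sub_im] at h5
  have h6 : |w.re - z.re| ≤ b + 1 := abs_le.2 ⟨by linarith, by linarith⟩
  have h7 : |w.im - z.im| ≤ b + 1 := abs_le.2 ⟨by linarith, by linarith⟩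
  linarith

/-- the constants of 795's theorem -/
def Cst (C4 C0 cc c1 c2 K : ℝ) (d0 b R : ℝ) (m : ℕ) : Prop :=
  ∀ {S : Finset ℂ} {E : Set (Quot (hullE S))} {B : Set ℂ} {z0 : ℂ} {μ d : ℝ}
    (G : StrHx795.Cfg S E B z0 (3 * b + 2) R (d0 / 2) μ), d ≤ c1 * R →
    Dense S z0 (3 * b + 2) K d c2 R (d0 / 2) C4 → ∀ hπ : ClsCon (cm0 G.gp) (pe E),
    mE (cm0 G.gp) (pe E) hπ (fun x => ((dchE G.gp hπ B x).card : ℝ≥0∞)) ≤ (m : ℝ≥0∞) ∧
    ∀ w : ℂ, w ^ 3 = 1 → w ≠ 1 → (starRingEnd ℂ) w = w ^ 2 → ∀ a : D0 S → ℂ,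
      Spin (cm0 G.gp) w a → (∀ d, a d ≠ 0 → d ∈ StrHx795.Df S B) →
      mE (cm0 G.gp) (pe E) hπ (fun x => ∑ β ∈ cchE G.gp hπ (2 * R) x, en a β) ≤
        ENNReal.ofReal ((∑ g, ‖a g‖ ^ 2) * (C0 * (R / (d0 / 2)) ^ cc * m))

/-- one configuration : decomposition, near chords, number of the deep chords, layer -/
theorem one_conf {z : ℂ} {b s d0 R K c1 c2 C4 C0 cc d : ℝ} {m : ℕ} {A β Rv : Finset ℂ}
    {E : EFam} (F : Facts (Ub z b s) (sq z b) A β Rv (E A β))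
    (HC : Cst C4 C0 cc c1 c2 K d0 b R m) (hb : 0 < b) (hs : 0 ≤ s) (hs1 : s ≤ 1) (hd0 : 0 < d0)
    (hdb : d0 ≤ b / 4) (hRd : R ≤ d0 / 10) (hK : 1 ≤ K) (hd : 0 < d) (hdR : 2 * d ≤ R)
    (hdc : d ≤ c1 * R) (hD : Dense A z (3 * b + 2) K d c2 R (d0 / 2) C4) :
    CHg E (aF z b s) A β ≤ 2 * Lg z b s d0 E A β + 2 * Nr z b d0 (2 * R) E A β +
        2 * Fg z b d0 (2 * R) E A β ∧
    Nr z b d0 (2 * R) E A β ≤ Wf (A : Set ℂ) (Sb z b d0) *
      ENNReal.ofReal (C0 * (R / (d0 / 2)) ^ cc * m) ∧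
    Ng z b d0 E A β ≤ (m : ℝ≥0∞) ∧
    Lg z b s d0 E A β + Wf (A : Set ℂ) (Sb z b d0) ≤ Wf (A : Set ℂ) (Ub z b s) := by
  have H := fac_ste F
  have hRad : ∀ w ∈ Ub z b s, ‖w - z‖ + 2 * d ≤ 3 * b + 2 := by
    intro w hw
    have := norm_ub hb.le hs1 hw
    linarith
  have G := cfg_of H hd hd0 hs hdR hRd hK hRad hD
  obtain ⟨n1, n2⟩ := HC G hdc hD F.cls
  obtain ⟨e0⟩ := exists_dart F.gp F.c3
  have n3 := n2 om om3 om_ne om_conj (aD (A : Set ℂ) z b d0 A) (ch_spin F.gp) fun g hg =>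
    aD_supp (s := s) (fun _ _ => Iff.rfl) hs hd0.le hg
  refine ⟨?_, ?_, ?_, ?_⟩
  · rw [chg_eq F.gp F.cls]
    unfold Lg Nr Fg
    rw [mn_eq F.gp F.cls, mn_eq F.gp F.cls, mn_eq F.gp F.cls]
    exact dec F.gp F.cls (fun _ _ => Iff.rfl) hs hd0.le (2 * R)
  · unfold Nr
    rw [mn_eq F.gp F.cls]
    exact near_le F.gp H F.out hs hd0.le e0 n3
  · unfold Ng
    rw [mn_eq F.gp F.cls]
    exact n1
  · unfold Lg
    rw [mn_eq F.gp F.cls]
    exact lay_le F.gp H F.out hs hd0.le e0 F.cls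

/-- **one mesh** -/
theorem vals_of {z : ℂ} {b s d0 R K c1 c2 C4 C0 cc Cf τ δ c k : ℝ} {m : ℕ}
    (HC : Cst C4 C0 cc c1 c2 K d0 b R m) (hb : 0 < b) (hs : 0 < s) (hs1 : s ≤ 1) (hd0 : 0 < d0)
    (hdb : d0 ≤ b / 4) (hRd : R ≤ d0 / 10) (hK : 1 ≤ K) (hC0 : 0 ≤ C0) (hR : 0 < R)
    (hCf : 0 ≤ Cf) (hτ : 0 < τ) (hδ : 0 < δ) (hc : 0 < c)
    (hq : C0 * (R / (d0 / 2)) ^ cc * m * (wD * b ^ 2) ≤ τ / 8) :
    ∀ᶠ ε : ℝ in 𝓝[>] 0, Ring1 z b s ε c d0 R K c1 c2 C4 Cf (τ / (8 * (m + 1))) (δ / 2) →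
      ValsQ z b s k ε c (LayMx88.clL b + Cf) d0 m τ δ := by
  set q : ℝ := C0 * (R / (d0 / 2)) ^ cc * m with hqd
  have hq0 : 0 ≤ q := by positivity
  have hcl := LayMx88.clL_nonneg hb
  filter_upwards [LayMx88.lay_maj' z (b := b) (s := s) (d := d0) (δ := δ / 2) hb hs hs1 hd0.le
      (by linarith) (by positivity),
    near_maj z (b := b) (s := s) (d0 := d0) (q := q) (δ := τ / 8 * c) hs.le hd0.le (by linarith)
      hq0 (by positivity), eventually_mem_nhdsWithin] with ε hlay hnear hε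
  have hε : 0 < ε := hε
  rintro ⟨B, g, E, Rv, Lf, Zf, Yf, RL, RZ, RY, κf, ⟨hBm, hB, hUB, hg, hg1, hcg⟩, ⟨hst, hF, hDe⟩,
    hfar, jL, jZ, jY, iL, iZ, iY, hκ⟩
  -- the pointwise facts
  have hpt : ∀ᵐ ω ∂sampleLaw, ∀ β ∈ (Ap ε B ω).powerset, g (paint (Ap ε B ω) β) ≠ 0 →
      CHg E (aF z b s) (Ap ε B ω) β ≤ 2 * Lg z b s d0 E (Ap ε B ω) β +
          2 * Nr z b d0 (2 * R) E (Ap ε B ω) β + 2 * Fg z b d0 (2 * R) E (Ap ε B ω) β ∧
      Nr z b d0 (2 * R) E (Ap ε B ω) β ≤ Wf ((Ap ε B ω : Finset ℂ) : Set ℂ) (Sb z b d0) *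
        ENNReal.ofReal q ∧
      Ng z b d0 E (Ap ε B ω) β ≤ (m : ℝ≥0∞) ∧
      Lg z b s d0 E (Ap ε B ω) β + Wf ((Ap ε B ω : Finset ℂ) : Set ℂ) (Sb z b d0) ≤
        Wf ((Ap ε B ω : Finset ℂ) : Set ℂ) (Ub z b s) := by
    filter_upwards [hF, hDe] with ω hF hDe β hβ h0
    obtain ⟨d, hd, hdR, hdc, hD⟩ := hDe β hβ h0
    exact one_conf (hF β hβ h0) HC hb hs.le hs1 hd0 hdb hRd hK hd hdR hdc hD
  -- the layer
  obtain ⟨R1, mL', iL'⟩ := hlay B hBm hB g (val (Lg z b s d0 E)) hg hg1 (by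
    filter_upwards [hpt] with ω h β hβ h0
    rw [val_paint _ (Finset.mem_powerset.1 hβ)]
    have h1 := (h β hβ h0).2.2.2
    rw [wf_congr fun w hw => (ps_iff hε hB hUB ω w hw).symm,
      wf_congr (U := Sb z b d0) fun w hw => (ps_iff hε hB hUB ω w
        (sb_sub hs.le hd0.le hw)).symm] at h1
    exact h1)
  have mL := majQ_of mL'
  -- the near chords
  obtain ⟨R2, mN, iN⟩ := hnear B hBm hB hUB g hg hg1 (Nr z b d0 (2 * R) E) (by
    filter_upwards [hpt] with ω h β hβ h0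
    exact (h β hβ h0).2.1)
  -- the number of the deep chords
  have mC : MajQ ε B g (Ng z b d0 E) (fun ω => (m : ℝ≥0∞) * mq ε B g ω) := by
    refine MajQ.const hε hBm hB hg _ ?_
    filter_upwards [hpt] with ω h
    rw [Finset.mul_sum]
    refine Finset.sum_le_sum fun β hβ => ?_
    by_cases h0 : g (paint (Ap ε B ω) β) = 0
    · rw [h0, zero_mul]; exact zero_le
    rw [mul_comm (g _)]
    exact mul_le_mul_left (h β hβ h0).2.2.1 _
  have hτm : τ / (8 * ((m : ℝ) + 1)) ≤ τ / 8 := by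
    refine div_le_div_of_nonneg_left hτ.le (by norm_num) ?_
    have : (0 : ℝ) ≤ m := Nat.cast_nonneg _
    linarith
  have hm0 : (0 : ℝ) ≤ m := Nat.cast_nonneg _
  refine ⟨B, g, CHg E (aF z b s), CLg (Ub z b s) k E (aF z b s),
    fun A β => Lg z b s d0 E A β + Lf A β,
    fun A β => 2 * Nr z b d0 (2 * R) E A β + 2 * Zf A β, fun A β => 2 * Yf A β, Ng z b d0 E,
    fun ω => R1 ω + RL ω, fun ω => 2 * R2 ω + 2 * RZ ω, fun ω => 2 * RY ω,
    fun ω => (m : ℝ≥0∞) * mq ε B g ω, 2 * κf, budQ hε hs.le hBm hB hUB hg hg1 hst hF, hcg, ?_,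
    mL.add jL, (mN.mul 2).add (jZ.mul 2), jY.mul 2, mC, ?_, ?_, ?_, ?_, ?_⟩
  · filter_upwards [hpt, hfar] with ω h hf β hβ h0
    have h1 := (h β hβ h0).1
    have h2 := hf β hβ h0
    calc CHg E (aF z b s) (Ap ε B ω) β ≤ _ := h1
      _ ≤ 2 * Lg z b s d0 E (Ap ε B ω) β + 2 * Nr z b d0 (2 * R) E (Ap ε B ω) β +
          2 * (Lf (Ap ε B ω) β + Zf (Ap ε B ω) β + Yf (Ap ε B ω) β +
            κf * Ng z b d0 E (Ap ε B ω) β) := by gcongr
      _ = _ := by ring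
  · rw [lintegral_add_right' _ jL.me]
    calc _ ≤ (ENNReal.ofReal (LayMx88.clL b * (d0 + s) + δ / 2) * Mg ε B g +
          ENNReal.ofReal (δ / 2)) + (ENNReal.ofReal (Cf * (d0 + s) + δ / 2) * Mg ε B g +
          ENNReal.ofReal (δ / 2)) := add_le_add iL' iL
      _ = (ENNReal.ofReal (LayMx88.clL b * (d0 + s) + δ / 2) +
          ENNReal.ofReal (Cf * (d0 + s) + δ / 2)) * Mg ε B g +
          (ENNReal.ofReal (δ / 2) + ENNReal.ofReal (δ / 2)) := by ring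
      _ = _ := by
          rw [← ENNReal.ofReal_add (by positivity) (by positivity),
            ← ENNReal.ofReal_add (by positivity) (by positivity)]
          congr 3 <;> ring
  · rw [lintegral_add_right' _ (jZ.me.const_mul 2), lintegral_const_mul'' _ mN.me,
      lintegral_const_mul'' _ jZ.me]
    have h1 : ENNReal.ofReal (τ / 8 * c) ≤ ENNReal.ofReal (τ / 8) * Mg ε B g := by
      rw [ENNReal.ofReal_mul (by positivity)]
      gcongr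
    calc _ ≤ 2 * (ENNReal.ofReal (τ / 8) * Mg ε B g + ENNReal.ofReal (τ / 8) * Mg ε B g) +
          2 * (ENNReal.ofReal (τ / 8) * Mg ε B g) := by
          refine add_le_add (mul_le_mul_right (iN.trans (add_le_add ?_ h1)) _)
            (mul_le_mul_right (iZ.trans ?_) _)
          · gcongr
          · gcongr
      _ = 6 * ENNReal.ofReal (τ / 8) * Mg ε B g := by ring
      _ ≤ _ := by
          refine mul_le_mul_left ?_ _
          rw [show (6 : ℝ≥0∞) = ENNReal.ofReal 6 by norm_num, ← ENNReal.ofReal_mul (by norm_num)]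
          refine ENNReal.ofReal_le_ofReal ?_
          linarith
  · rw [lintegral_const_mul'' _ jY.me]
    calc _ ≤ 2 * ENNReal.ofReal (δ / 2) := by gcongr
      _ = _ := by
          rw [show (2 : ℝ≥0∞) = ENNReal.ofReal 2 by norm_num, ← ENNReal.ofReal_mul (by norm_num)]
          congr 1
          ring
  · rw [lint_mq hε hBm hB hg, ENNReal.ofReal_natCast]
  · calc _ ≤ 2 * ENNReal.ofReal (τ / (8 * (m + 1))) := by gcongr
      _ = ENNReal.ofReal (2 * (τ / (8 * (m + 1)))) := by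
          rw [ENNReal.ofReal_mul (by norm_num)]
          norm_num
      _ ≤ _ := by
          refine ENNReal.ofReal_le_ofReal ?_
          rw [mul_div_assoc', div_le_div_iff₀ (by positivity) (by positivity)]
          nlinarith

theorem ring1_mono {z : ℂ} {b s ε c d0 R K c1 c2 C4 Cf τ τ' δ : ℝ} (h : τ ≤ τ')
    (H : Ring1 z b s ε c d0 R K c1 c2 C4 Cf τ δ) : Ring1 z b s ε c d0 R K c1 c2 C4 Cf τ' δ := by
  obtain ⟨B, g, E, Rv, Lf, Zf, Yf, RL, RZ, RY, κf, a1, a2, hfar, jL, jZ, jY, iL, iZ, iY, hκ⟩ := H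
  refine ⟨B, g, E, Rv, Lf, Zf, Yf, RL, RZ, RY, κf, a1, a2, hfar, jL, jZ, jY, iL,
    iZ.trans ?_, iY, hκ.trans (ENNReal.ofReal_le_ofReal h)⟩
  exact mul_le_mul_left (ENNReal.ofReal_le_ofReal h) _

theorem valsQ_mono {z : ℂ} {b s k ε c Cl d0 d0' CN τ δ : ℝ} (hCl : 0 ≤ Cl) (h : d0' ≤ d0)
    (H : ValsQ z b s k ε c Cl d0' CN τ δ) : ValsQ z b s k ε c Cl d0 CN τ δ := by
  obtain ⟨B, g, CH, CL, L, Z, Y, N, RL, RZ, RY, RN, κ2, hP, hcg, hpt, m1, m2, m3, m4, i1, i2,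
    i3, i4, hκ⟩ := H
  refine ⟨B, g, CH, CL, L, Z, Y, N, RL, RZ, RY, RN, κ2, hP, hcg, hpt, m1, m2, m3, m4,
    i1.trans ?_, i2, i3, i4, hκ⟩
  refine add_le_add (mul_le_mul_left (ENNReal.ofReal_le_ofReal ?_) _) le_rfl
  have := mul_le_mul_of_nonneg_left (add_le_add_left h s) hCl
  linarith

/-- the radius of the near chords -/
theorem exists_R {C0 cc η X τ d0 : ℝ} (hC0 : 0 ≤ C0) (hcc : 0 < cc) (hη : 0 < η) (hX : 0 ≤ X)
    (hτ : 0 < τ) (hd0 : 0 < d0) : ∃ R : ℝ, 0 < R ∧ R ≤ d0 / 10 ∧ R ≤ η * (d0 / 2) ∧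
      C0 * (R / (d0 / 2)) ^ cc * X ≤ τ := by
  set x : ℝ := τ / (C0 * X + 1) with hx
  have hx0 : 0 < x := by positivity
  have hy : 0 < x ^ (1 / cc) := Real.rpow_pos_of_pos hx0 _
  set ρ : ℝ := min (min η (1 / 5)) (x ^ (1 / cc)) with hρ
  have hρ0 : 0 < ρ := lt_min (lt_min hη (by norm_num)) hy
  have r1 : ρ ≤ η := (min_le_left _ _).trans (min_le_left _ _)
  have r2 : ρ ≤ 1 / 5 := (min_le_left _ _).trans (min_le_right _ _)
  have r3 : ρ ^ cc ≤ x := by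
    calc ρ ^ cc ≤ (x ^ (1 / cc)) ^ cc := Real.rpow_le_rpow hρ0.le (min_le_right _ _) hcc.le
      _ = x := by rw [← Real.rpow_mul hx0.le, one_div, inv_mul_cancel₀ hcc.ne', Real.rpow_one]
  refine ⟨ρ * (d0 / 2), by positivity, by nlinarith, ?_, ?_⟩
  · exact mul_le_mul_of_nonneg_right r1 (by positivity)
  · rw [mul_div_assoc, div_self (by positivity), mul_one]
    calc C0 * ρ ^ cc * X ≤ C0 * x * X := by gcongr
      _ = τ * (C0 * X) / (C0 * X + 1) := by rw [hx]; ring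
      _ ≤ τ := by
          rw [div_le_iff₀ (by positivity)]
          nlinarith

/-- **THE COMPOSITION OF BLOCK H** : the ring gives the inputs -/
theorem inpQ_of {z : ℂ} {b : ℝ} (hb : 0 < b) (H : RingS z b) : InpQ z b := by
  obtain ⟨C4, hC4, Cf, hCf, H⟩ := H
  obtain ⟨C0, cc, c1, c2, K, η, a1, a2, a3, a4, a5, a6, a7, -, HC⟩ := StrHx795.chords_E C4 hC4
  have hcl := LayMx88.clL_nonneg hb
  have hw := wD_nonneg
  refine ⟨LayMx88.clL b + Cf, by positivity, fun d0 hd0 => ?_⟩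
  set d0' : ℝ := min d0 (b / 4) with hd0'
  have p0 : 0 < d0' := lt_min hd0 (by positivity)
  obtain ⟨m, hm⟩ := HC (3 * b + 2) (d0' / 2) (by positivity)
  refine ⟨m, Nat.cast_nonneg _, fun τ hτ => ?_⟩
  obtain ⟨R, r0, r1, r2, r3⟩ := exists_R (X := m * (wD * b ^ 2)) (τ := τ / 8) a1.le a2 a7
    (by positivity) (by positivity) p0
  have t0 : 0 < min (τ / (8 * ((m : ℝ) + 1))) (min 1 τ) := by positivity
  obtain ⟨s, c, hs, hsτ, hc, H⟩ := H K c1 c2 a6 a3 a4 a5 d0' p0 (min_le_right _ _) R r0 r1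
    (min (τ / (8 * ((m : ℝ) + 1))) (min 1 τ)) t0
  have hs1 : s ≤ 1 := hsτ.trans ((min_le_right _ _).trans (min_le_left _ _))
  have hs2 : s ≤ τ := hsτ.trans ((min_le_right _ _).trans (min_le_right _ _))
  refine ⟨s, c, hs, hs2, hc, fun k0 hk0 => ⟨k0, hk0, le_rfl, fun δ hδ => ?_⟩⟩
  have HC' : Cst C4 C0 cc c1 c2 K d0' b R m := by
    intro S E B z0 μ d G hd hD hπ
    exact hm G r0 r2 hd hD hπ
  have h1 := vals_of (z := z) (k := k0) HC' hb hs hs1 p0 (min_le_right _ _) r1 a6 a1.le r0 hCf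
    hτ hδ hc (by
      calc C0 * (R / (d0' / 2)) ^ cc * m * (wD * b ^ 2) =
            C0 * (R / (d0' / 2)) ^ cc * (m * (wD * b ^ 2)) := by ring
        _ ≤ τ / 8 := r3)
  refine ((H (δ / 2) (by positivity)).and_eventually h1).mono fun ε hε => ?_
  exact valsQ_mono (by positivity) (min_le_left _ _) (hε.2 (ring1_mono (min_le_left _ _) hε.1))

/-- **row 143 from the ring** -/
theorem body_of_ring {z : ℂ} {b : ℝ} (hb : 0 < b) (H : RingS z b) : Body :=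
  bodyQ hb (inpQ_of hb H)

end Crest.Agent.R143.HCompx197
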