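import Crest.Agent.R143.HBud_136

/-!
# Row 143 (S0194), block H, input [LAY] of 414's note 3909: the energy of the layer (helper88)

`M' = coarse M π hπ` with one giant `o`, `Q ⊆ U` the deep box, `ly P Q δ a` = the field `a` cut to the
faces which are not inside `Q` (layer).
* `lay_det` : **`∑ over all blocks of M' of the energy of the layer field + card * Wf Q ≤ card * Wf U`**
  (frame identity; no condition on the environment)
* `lay_chd` : the same for the chords, divided by `card`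
* `lay_int` : `∫ g E ≤ wD ((b + 2 s)² - (b - 2 d₀)²) ∫ g + δ` for small `ε`, uniformly in the weights
  `0 ≤ g ≤ 1` and in `E` with `E + Wf (Sb z b d₀) ≤ Wf (Ub z b s)` where `g ≠ 0`
* `lay_const` : the constant is at most `wD (4 b (s + d₀) + 4 s²)`
-/

set_option autoImplicit false

noncomputable section

open scoped Classical

namespace Crest.Agent.R143.Layx88

open MeasureTheory Filter Topology
open Crest.ProbabilityR.Voronoi
open Crest.Agent.R143.B0x346 Crest.Agent.R143.SumScx302 Crest.Agent.R143.Mass1x302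
  Crest.Agent.R143.Mass2x302 Crest.Agent.R143.Mass3x302 Crest.Agent.R143.Mass4x302
  Crest.Agent.R143.Mass5x302
open Crest.Agent.R143.Frame1x395 Crest.Agent.R143.Frame2x395 Crest.Agent.R143.Frame3x395
  Crest.Agent.R143.Frame4x395 Crest.Agent.R143.Frame8x395 Crest.Agent.R143.Frame9x395
  Crest.Agent.R143.Coarsex166 Crest.Agent.R143.Budx432 Crest.Agent.R143.Bud2x432
  Crest.Agent.R143.Bud3x432 Crest.Agent.R143.PP0x831 Crest.Agent.R143.Trans3x690
  Crest.Agent.R143.HBudx136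
open Crest.Agent.R143.Trans2x690 (Wf)
open scoped ENNReal

section det

variable {D C C' : Type} {M : CMap D C} {P Q U : Set ℂ} {δ : ℂ → ℂ → D} {κ : ℂ → C}
variable {π : C → C'} {hπ : ClsCon M π} {o : C'} {x : D → ZMod 2} {a : D → ℂ}

/-- the field on the faces which are not inside `Q` -/
def ly (P Q : Set ℂ) (δ : ℂ → ℂ → D) (a : D → ℂ) (g : D) : ℂ := if g ∈ FD P Q δ then 0 else a g

theorem ly_spin {w : ℂ} (A : Agr P U M δ κ) (hQ : Q ⊆ U) (sa : Spin M w a) :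
    Spin M w (ly P Q δ a) := by
  intro g
  unfold ly
  rw [if_congr (FD_rho A hQ g) rfl rfl, sa g]
  split_ifs
  · rw [mul_zero]
  · rfl

/-- a dart with a gap is a dart of a face inside `U` -/
theorem gap_fd (A : Agr P U M δ κ) (F : FrF P U M π o δ) {g : D}
    (hx : IsC (coarse M π hπ) ∅ x) (hg : Gp (coarse M π hπ) x g) : g ∈ FD P U δ := by
  obtain ⟨p, q, r, hf, e⟩ := F.st A hx hg.2
  have e1 : gd δ (p, q, r) = g := by
    have := A.gd_eq (s := (p, q, r)) hf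
    rw [this]
    show M.rho (M.rho (δ p q)) = g
    rw [← e]
    exact M.rho3 g
  rw [← e1]
  exact gd_mem hf

/-- **the energy of the layer** -/
theorem lay_det [Fintype D] (A : Agr P U M δ κ) (F : FrF P U M π o δ) (hQ : Q ⊆ U)
    (ha : ∀ t : T3, Fc P U t.1 t.2.1 t.2.2 → a (gd δ t) = Nn t)
    {w : ℂ} (w3 : w ^ 3 = 1) (w1 : w ≠ 1) (wc : (starRingEnd ℂ) w = w ^ 2) (sa : Spin M w a) :
    ∑ x ∈ ev (coarse M π hπ), ∑ β ∈ blks (coarse M π hπ) x, en (ly P Q δ a) β +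
      ((ev (coarse M π hπ)).card : ℝ≥0∞) * Wf P Q ≤
      ((ev (coarse M π hπ)).card : ℝ≥0∞) * Wf P U := by
  set M' := coarse M π hπ with hM'
  rw [sum_en w3 w1 wc (spin_coarse (ly_spin A hQ sa)), ← sum_FD A hQ fun t ht =>
    ha t (fc_mono hQ ht), ← sum_FD A (le_refl U) ha, ← ENNReal.ofReal_natCast,
    ← ENNReal.ofReal_mul (Nat.cast_nonneg _), ← ENNReal.ofReal_mul (Nat.cast_nonneg _),
    ← ENNReal.ofReal_add (Finset.sum_nonneg fun g _ => by positivity)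
      (mul_nonneg (Nat.cast_nonneg _) (Finset.sum_nonneg fun g _ => by positivity))]
  apply ENNReal.ofReal_le_ofReal
  rw [Finset.sum_filter, Finset.sum_filter, Finset.mul_sum, Finset.mul_sum,
    ← Finset.sum_add_distrib]
  refine Finset.sum_le_sum fun g _ => ?_
  by_cases h1 : g ∈ FD P Q δ
  · have h2 : g ∈ FD P U δ := by
      obtain ⟨p, q, r, hf, e⟩ := h1
      exact ⟨p, q, r, fc_mono hQ hf, e⟩
    unfold ly
    rw [if_pos h1, if_pos h1, if_pos h2]
    simp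
  · unfold ly
    rw [if_neg h1, if_neg h1, mul_zero, add_zero]
    by_cases h2 : g ∈ FD P U δ
    · rw [if_pos h2, mul_comm]
      refine mul_le_mul_of_nonneg_right ?_ (by positivity)
      exact_mod_cast nG_le_ev (M := M') g
    · rw [if_neg h2, mul_zero]
      have h3 : nG M' g = 0 := by
        unfold nG
        rw [Finset.card_eq_zero, Finset.filter_eq_empty_iff]
        rintro x - ⟨hx, hg⟩
        exact h2 (gap_fd A F hx hg)
      rw [h3]
      simp

theorem ev_pos [Fintype D] (M : CMap D C) : 0 < (ev M).card := by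
  refine Finset.card_pos.2 ⟨fun _ => 0, mem_ev.2 ⟨fun d _ => rfl, fun d => rfl, fun d => ?_⟩⟩
  rw [if_neg (Set.notMem_empty d)]
  decide

/-- the mean over the configurations of the chords -/
theorem lay_chd [Fintype D] (A : Agr P U M δ κ) (F : FrF P U M π o δ) (hQ : Q ⊆ U)
    (ha : ∀ t : T3, Fc P U t.1 t.2.1 t.2.2 → a (gd δ t) = Nn t)
    {w : ℂ} (w3 : w ^ 3 = 1) (w1 : w ≠ 1) (wc : (starRingEnd ℂ) w = w ^ 2) (sa : Spin M w a) :
    (∑ x ∈ ev (coarse M π hπ), ∑ β ∈ chd M π hπ o x, en (ly P Q δ a) β) /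
      ((ev (coarse M π hπ)).card : ℝ≥0∞) + Wf P Q ≤ Wf P U := by
  have h := lay_det (hπ := hπ) A F hQ ha w3 w1 wc sa
  have h0 : ((ev (coarse M π hπ)).card : ℝ≥0∞) ≠ 0 := by
    exact_mod_cast (ev_pos (coarse M π hπ)).ne'
  have ht : ((ev (coarse M π hπ)).card : ℝ≥0∞) ≠ ∞ := ENNReal.natCast_ne_top _
  have h1 : ∑ x ∈ ev (coarse M π hπ), ∑ β ∈ chd M π hπ o x, en (ly P Q δ a) β ≤
      ∑ x ∈ ev (coarse M π hπ), ∑ β ∈ blks (coarse M π hπ) x, en (ly P Q δ a) β := by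
    refine Finset.sum_le_sum fun x _ => Finset.sum_le_sum_of_subset ?_
    unfold chd
    exact Finset.filter_subset _ _
  set c : ℝ≥0∞ := ((ev (coarse M π hπ)).card : ℝ≥0∞) with hc
  have h2 : (∑ x ∈ ev (coarse M π hπ), ∑ β ∈ chd M π hπ o x, en (ly P Q δ a) β) + c * Wf P Q ≤
      c * Wf P U := (add_le_add_left h1 _).trans h
  have h3 : c * ((∑ x ∈ ev (coarse M π hπ), ∑ β ∈ chd M π hπ o x, en (ly P Q δ a) β) / c +
      Wf P Q) ≤ c * Wf P U := by
    rw [mul_add, ENNReal.mul_div_cancel h0 ht]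
    exact h2
  exact (ENNReal.mul_le_mul_iff_right h0 ht).1 h3

end det

/-! ### expectation -/

theorem lay_const {w b s d : ℝ} (hw : 0 ≤ w) : w * ((b + 2 * s) ^ 2 - (b - 2 * d) ^ 2) ≤
    w * (4 * b * (s + d) + 4 * s ^ 2) := by
  refine mul_le_mul_of_nonneg_left ?_ hw
  nlinarith [sq_nonneg d]

/-- **[LAY]** -/
theorem lay_int (Lw : LLN famF wD) (z : ℂ) {b s d δ : ℝ} (hb : 0 < b) (hs : 0 < s) (hd : 0 ≤ d)
    (hdb : 2 * d < b) (hδ : 0 < δ) : ∀ᶠ ε : ℝ in 𝓝[>] 0,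
    ∀ (g E : Sample → ℝ≥0∞), AEMeasurable g sampleLaw → (∀ ω, g ω ≤ 1) →
      (∀ᵐ ω ∂sampleLaw, g ω ≠ 0 → E ω + Wf (ps (cfg ε ω)) (Sb z b d) ≤
        Wf (ps (cfg ε ω)) (Ub z b s)) →
      ∫⁻ ω, g ω * E ω ∂sampleLaw ≤ ENNReal.ofReal (wD * (4 * b * (s + d) + 4 * s ^ 2)) *
          ∫⁻ ω, g ω ∂sampleLaw + ENNReal.ofReal δ := by
  have hw := wD_nonneg
  obtain ⟨R3, m3, p3, t3⟩ := Lw (z - ((s : ℝ) : ℂ) * (1 + Complex.I)) (b + 2 * s) (by linarith)
  obtain ⟨R4, m4, p4, t4⟩ := Lw (z + ((d : ℝ) : ℂ) * (1 + Complex.I)) (b - 2 * d) (by linarith)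
  have ht := t3.add t4
  rw [add_zero] at ht
  have hδ' : (0 : ℝ≥0∞) < ENNReal.ofReal δ := ENNReal.ofReal_pos.2 hδ
  filter_upwards [p3, p4, ht.eventually (ge_mem_nhds hδ')] with ε q3 q4 q5
  intro g E hg hg1 h
  set c : ℝ := wD * (4 * b * (s + d) + 4 * s ^ 2) with hc
  have hcc : ENNReal.ofReal (wD * (b + 2 * s) ^ 2) ≤ ENNReal.ofReal c +
      ENNReal.ofReal (wD * (b - 2 * d) ^ 2) := by
    rw [← ENNReal.ofReal_add (by positivity) (by positivity)]
    apply ENNReal.ofReal_le_ofReal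
    have := lay_const (b := b) (s := s) (d := d) hw
    rw [hc]
    linarith
  have hpt : ∀ᵐ ω ∂sampleLaw, g ω * E ω ≤ ENNReal.ofReal c * g ω + (R3 ε ω + R4 ε ω) := by
    filter_upwards [h, q3, q4] with ω h q3 q4
    by_cases h0 : g ω = 0
    · rw [h0, zero_mul]; exact zero_le
    have h1 := h h0
    rw [famF_Ph] at q3 q4
    have h2 : E ω + ENNReal.ofReal (wD * (b - 2 * d) ^ 2) ≤
        (ENNReal.ofReal c + (R3 ε ω + R4 ε ω)) + ENNReal.ofReal (wD * (b - 2 * d) ^ 2) := by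
      calc E ω + ENNReal.ofReal (wD * (b - 2 * d) ^ 2)
          ≤ E ω + (Wf (ps (cfg ε ω)) (Sb z b d) + R4 ε ω) := by gcongr; exact q4.2
        _ = (E ω + Wf (ps (cfg ε ω)) (Sb z b d)) + R4 ε ω := by ring
        _ ≤ Wf (ps (cfg ε ω)) (Ub z b s) + R4 ε ω := by gcongr
        _ ≤ (ENNReal.ofReal (wD * (b + 2 * s) ^ 2) + R3 ε ω) + R4 ε ω := by
            gcongr
            exact q3.1
        _ ≤ ((ENNReal.ofReal c + ENNReal.ofReal (wD * (b - 2 * d) ^ 2)) + R3 ε ω) + R4 ε ω := by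
            gcongr
        _ = _ := by ring
    have h3 : E ω ≤ ENNReal.ofReal c + (R3 ε ω + R4 ε ω) :=
      (ENNReal.add_le_add_iff_right ENNReal.ofReal_ne_top).1 h2
    calc g ω * E ω ≤ g ω * (ENNReal.ofReal c + (R3 ε ω + R4 ε ω)) := by gcongr
      _ = ENNReal.ofReal c * g ω + g ω * (R3 ε ω + R4 ε ω) := by ring
      _ ≤ ENNReal.ofReal c * g ω + 1 * (R3 ε ω + R4 ε ω) := by gcongr; exact hg1 ω
      _ = _ := by rw [one_mul]
  calc ∫⁻ ω, g ω * E ω ∂sampleLaw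
      ≤ ∫⁻ ω, (ENNReal.ofReal c * g ω + (R3 ε ω + R4 ε ω)) ∂sampleLaw := lintegral_mono_ae hpt
    _ = ENNReal.ofReal c * ∫⁻ ω, g ω ∂sampleLaw + ∫⁻ ω, (R3 ε ω + R4 ε ω) ∂sampleLaw := by
        rw [lintegral_add_left' (hg.const_mul _), lintegral_const_mul'' _ hg]
    _ ≤ _ := by
        gcongr
        refine le_trans (le_of_eq ?_) q5
        rw [lintegral_add_right' _ (m4 ε)]

end Crest.Agent.R143.Layx88
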