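import Crest.Agent.R143.StrH_795
import Crest.Agent.R143.Lay_88
import Crest.Agent.R143.HGlue_136
import Crest.Agent.R143.GiantE_197

/-!
# Row 143 (S0194), block H, composition, part 1 (helper197): one configuration

`S` sites in the box, `E` the cells of the giant (contains the hull), `U = Ub z b s`,
`Q = Sb z b d0` deep box.
* `StE` : the facts on the giant used by [H4], [LAY], [B], [N] (given by the ring instance)
* `cfg_of` : `StE` + `Dense` ⟹ 795's `Cfg` with `d1 = d0 / 2`, `μ = 2 d`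
* `fchE` : deep chords with far ends
* `dec` : `CH ≤ 2 L + 2 near + 2 far`
* `near_le` : `near ≤ C0 (R / d1) ^ c * m * Wf Q`
-/

set_option autoImplicit false

noncomputable section

open scoped Classical

namespace Crest.Agent.R143.HDecx197

open Crest.ProbabilityR.Voronoi
open Crest.Agent.R143.B0x346 Crest.Agent.R143.SumScx302 Crest.Agent.R143.Mass1x302
  Crest.Agent.R143.Mass2x302 Crest.Agent.R143.Mass3x302 Crest.Agent.R143.Mass4x302
  Crest.Agent.R143.Mass5x302 Crest.Agent.R143.DelGx806 Crest.Agent.R143.DelRx806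
open Crest.Agent.R143.Frame1x395 Crest.Agent.R143.Frame2x395 Crest.Agent.R143.Frame3x395
  Crest.Agent.R143.Frame4x395 Crest.Agent.R143.Frame8x395 Crest.Agent.R143.Frame9x395
  Crest.Agent.R143.Frame10x395
open Crest.Agent.R143.Frame5x395 (sd mem_sd th th_spec)
open Crest.Agent.R143.Coarsex166 (ClsCon coarse)
open Crest.Agent.R143.JColx54 (Adj delT_rot)
open Crest.Agent.R143.HGluex136 (CHq)
open Crest.Agent.R143.Bud2x432 (chd en clb FrF)
open Crest.Agent.R143.Bud3x432 (FD sum_FD FD_rho)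
open Crest.Agent.R143.HInst1x432 (pe pe_none pe_eq)
open Crest.Agent.R143.HInst2x432 (mE card_ev)
open Crest.Agent.R143.HBudx136 (Ub Sb re_k im_k sb_sub)
open Crest.Agent.R143.StrHx795
open Crest.Agent.R143.CntGx197 (Dense)
open Crest.Agent.R143.Layx88 (ly ly_spin)
open Crest.Agent.R143.Trans2x690 (Wf)
open scoped ENNReal

variable {S : Finset ℂ} {P : Set ℂ} {E : Set (Quot (hullE S))} {z z0 : ℂ}
  {b s d0 d R Rad K c2 C4 : ℝ}

/-- **the giant at one configuration** : what the ring instance gives to the energy budget -/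
structure StE (P : Set ℂ) (z : ℂ) (b s : ℝ) (S : Finset ℂ) (E : Set (Quot (hullE S))) : Prop where
  gp : GP (S : Set ℂ)
  h3 : 3 ≤ S.card
  hull : ∀ v, OnHull S v → (Quot.mk _ v : Quot (hullE S)) ∈ E
  PS : ∀ w ∈ Ub z b s, w ∈ P ↔ w ∈ (S : Set ℂ)
  box : ∀ v ∈ S, v ∈ sq z b → (Quot.mk _ v : Quot (hullE S)) ∉ E
  fr : ∀ p q r, (p, q, r) ∈ delT S → (Quot.mk _ p : Quot (hullE S)) ∉ E →
    cdisc (p, q, r) ⊆ Ub z b s

theorem sb_sub_sq {z : ℂ} {b k : ℝ} (hk : 0 ≤ k) : Sb z b k ⊆ sq z b := by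
  rintro w ⟨h1, h2, h3, h4⟩
  rw [re_k] at h1 h2
  rw [im_k] at h3 h4
  exact ⟨by linarith, by linarith, by linarith, by linarith⟩

/-- the distance from the deep box to the complement of the box -/
theorem dist_sb {z : ℂ} {b k : ℝ} {y e : ℂ} (hy : y ∈ Sb z b k) (he : e ∉ sq z b) :
    k ≤ ‖e - y‖ := by
  obtain ⟨h1, h2, h3, h4⟩ := hy
  rw [re_k] at h1 h2
  rw [im_k] at h3 h4
  by_contra hc
  push Not at hc
  have a1 := Complex.abs_re_le_norm (e - y)
  have a2 := Complex.abs_im_le_norm (e - y)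
  rw [Complex.sub_re] at a1
  rw [Complex.sub_im] at a2
  have b1 := abs_le.1 (a1.trans hc.le)
  have b2 := abs_le.1 (a2.trans hc.le)
  have b3 := abs_lt.1 (a1.trans_lt hc)
  have b4 := abs_lt.1 (a2.trans_lt hc)
  exact he ⟨by linarith, by linarith, by linarith, by linarith⟩

theorem sb_conv (z : ℂ) (b k : ℝ) : IsPreconnected (Sb z b k) := by
  have h : Convex ℝ (Sb z b k) := by
    have e : Sb z b k = {w : ℂ | (z + (k : ℂ) * (1 + Complex.I)).re ≤ w.re} ∩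
        ({w : ℂ | w.re < (z + (k : ℂ) * (1 + Complex.I)).re + (b - 2 * k)} ∩
        ({w : ℂ | (z + (k : ℂ) * (1 + Complex.I)).im ≤ w.im} ∩
        {w : ℂ | w.im < (z + (k : ℂ) * (1 + Complex.I)).im + (b - 2 * k)})) := by
      ext w; rfl
    rw [e]
    exact (convex_halfSpace_re_ge _).inter ((convex_halfSpace_re_lt _).inter
      ((convex_halfSpace_im_ge _).inter (convex_halfSpace_im_lt _)))
  exact h.isPreconnected

/-- **795's geometry** -/
theorem cfg_of (H : StE P z b s S E) (hd : 0 < d) (hd0 : 0 < d0) (hs : 0 ≤ s) (hdR : 2 * d ≤ R)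
    (hRd : R ≤ d0 / 10) (hK : 1 ≤ K)
    (hRad : ∀ w ∈ Ub z b s, ‖w - z0‖ + 2 * d ≤ Rad)
    (hD : Dense S z0 Rad K d c2 R (d0 / 2) C4) :
    Cfg S E (Sb z b d0) z0 Rad R (d0 / 2) (2 * d) := by
  have hfresh : ∀ v ∈ S, (Quot.mk _ v : Quot (hullE S)) ∉ E → v ∈ Ub z b s := by
    intro v hv hvE
    obtain ⟨q, hq⟩ := Crest.Agent.R143.DelRx806.exists_tri_at H.gp H.h3 hv
    obtain ⟨r, hT⟩ := Crest.Agent.R143.DelRx806.mem_nbs.1 hq
    exact H.fr v q r hT hvE (mem_cdisc (P := (S : Set ℂ)) (t := (v, q, r)) (mem_delT.1 hT))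
  have hdK : d ≤ K * (d0 / 2) := by nlinarith
  have hsm : ∀ v ∈ S, (Quot.mk _ v : Quot (hullE S)) ∉ E → ∀ u, Adj S v u → ‖u - v‖ ≤ 2 * d := by
    intro v hv hvE u hu
    have h1 := hRad v (hfresh v hv hvE)
    refine (ArmPx930.adj_small (hD.dns v (by linarith)) hu ?_).le
    rw [sub_self, norm_zero, zero_add]
    exact hdK
  refine ⟨H.gp, H.h3, H.hull, sb_conv z b d0, by linarith, hdR, by linarith, ?_, ?_, ?_⟩
  · intro p q r ht hp
    have hp' : p ∈ S := (mem_delT.1 ht).1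
    exact ⟨hsm p hp' hp q (Or.inl ⟨r, ht⟩), hsm p hp' hp r (Or.inr ⟨q, delT_rot H.gp
      (delT_rot H.gp ht)⟩)⟩
  · intro v hv hvE
    exact hRad v (hfresh v hv hvE)
  · intro v hv e he heE
    obtain ⟨hvS, y, hy, hyv⟩ := mem_Vp.1 hv
    have h1 : e ∉ sq z b := fun h => H.box e he h heE
    have h2 := dist_sb hy h1
    have h3 := hRad y (sb_sub hs hd0.le hy)
    obtain ⟨t, ht, h4⟩ := (hD.dns y (by linarith)).hole y (by
      rw [sub_self, norm_zero]; nlinarith)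
    have h5 := hyv t (Finset.mem_coe.2 ht)
    rw [norm_sub_rev] at h4
    have e1 : e - y = (e - v) + (v - y) := by ring
    rw [e1] at h2
    have h6 := h2.trans (norm_add_le _ _)
    rw [norm_sub_rev v y] at h6
    linarith

/-! ### the fields -/

/-- deep field -/
abbrev aD (P : Set ℂ) (z : ℂ) (b d0 : ℝ) (S : Finset ℂ) : D0 S → ℂ := ch P (Sb z b d0) S

/-- field of all faces inside `Ub` -/
abbrev aU (P : Set ℂ) (z : ℂ) (b s : ℝ) (S : Finset ℂ) : D0 S → ℂ := ch P (Ub z b s) S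

/-- layer field -/
def aL (P : Set ℂ) (z : ℂ) (b s d0 : ℝ) (S : Finset ℂ) (g : D0 S) : ℂ :=
  aU P z b s S g - aD P z b d0 S g

theorem aU_eq (g : D0 S) : aU P z b s S g = aL P z b s d0 S g + aD P z b d0 S g := by
  unfold aL
  ring

theorem aD_spin (hS : GP (S : Set ℂ)) : Spin (cm0 hS) om (aD P z b d0 S) := ch_spin hS

theorem aL_spin (hS : GP (S : Set ℂ)) : Spin (cm0 hS) om (aL P z b s d0 S) := by
  intro g
  have h1 : aU P z b s S ((cm0 hS).rho g) = om * aU P z b s S g := ch_spin hS g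
  have h2 : aD P z b d0 S ((cm0 hS).rho g) = om * aD P z b d0 S g := ch_spin hS g
  unfold aL
  rw [h1, h2]
  ring

/-- the deep field is supported in 795's deep faces -/
theorem aD_supp (hPS : ∀ w ∈ Ub z b s, w ∈ P ↔ w ∈ (S : Set ℂ)) (hs : 0 ≤ s) (hd0 : 0 ≤ d0)
    {g : D0 S} (h : aD P z b d0 S g ≠ 0) : g ∈ Df S (Sb z b d0) := by
  have hf : Fc P (Sb z b d0) g.1.1 g.1.2 (th S g.1) := by
    by_contra hc
    exact h (if_neg hc)
  refine Or.inl (mem_Vp.2 ⟨?_, g.1.1, fc_memU hf, REwx838.self_cell _⟩)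
  exact (hPS _ (sb_sub hs hd0 (fc_memU hf))).1 hf.1.1

/-- the layer field is 88's field -/
theorem aL_ly (hS : GP (S : Set ℂ)) (hPS : ∀ w ∈ Ub z b s, w ∈ P ↔ w ∈ (S : Set ℂ))
    (hs : 0 ≤ s) (hd0 : 0 ≤ d0) (e0 : D0 S) (g : D0 S) :
    aL P z b s d0 S g = ly P (Sb z b d0) (dl e0) (aU P z b s S) g := by
  unfold ly aL
  have key : g ∈ FD P (Sb z b d0) (dl e0) ↔ Fc P (Sb z b d0) g.1.1 g.1.2 (th S g.1) := by
    constructor
    · rintro ⟨p, q, r, hf, e⟩
      have hf' : Fc (S : Set ℂ) (Sb z b d0) p q r :=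
        fc_congr (fun w hw => hPS w (sb_sub hs hd0 hw)) hf
      have ht : (p, q, r) ∈ delT S := mem_delT.2 hf'.1
      have hm : (p, q) ∈ sd S := mem_sd.2 ⟨r, ht⟩
      rw [dl_eq hm] at e
      subst e
      have e2 : th S (p, q) = r := th0 hS ht
      show Fc P (Sb z b d0) p q (th S (p, q))
      rw [e2]
      exact hf
    · intro hf
      refine ⟨_, _, _, hf, ?_⟩
      exact (dl_eq (e0 := e0) g.2).symm
  by_cases h : g ∈ FD P (Sb z b d0) (dl e0)
  · rw [if_pos h]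
    have h1 := key.1 h
    have h2 : Fc P (Ub z b s) g.1.1 g.1.2 (th S g.1) := ⟨h1.1, h1.2.trans (sb_sub hs hd0)⟩
    show ch P (Ub z b s) S g - ch P (Sb z b d0) S g = 0
    unfold ch
    rw [if_pos h1, if_pos h2, sub_self]
  · rw [if_neg h]
    have h1 : ¬ Fc P (Sb z b d0) g.1.1 g.1.2 (th S g.1) := fun h' => h (key.2 h')
    show ch P (Ub z b s) S g - ch P (Sb z b d0) S g = ch P (Ub z b s) S g
    rw [show ch P (Sb z b d0) S g = 0 from if_neg h1, sub_zero]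

/-! ### the decomposition -/

/-- deep chords whose ends are at distance at least `r` -/
def fchE (hS : GP (S : Set ℂ)) (hπ : ClsCon (cm0 hS) (pe E)) (B : Set ℂ) (r : ℝ)
    (x : D0 S → ZMod 2) : Finset (Finset (D0 S)) :=
  (dchE hS hπ B x).filter fun β => β ∉ cchE hS hπ r x

theorem en_add (a a' : D0 S → ℂ) (β : Finset (D0 S)) :
    en (fun g => a g + a' g) β ≤ 2 * en a β + 2 * en a' β := by
  unfold en
  rw [Finset.sum_add_distrib]
  set u := ∑ g ∈ β, a g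
  set v := ∑ g ∈ β, a' g
  have h1 : ‖u + v‖ ^ 2 ≤ 2 * ‖u‖ ^ 2 + 2 * ‖v‖ ^ 2 := by
    have h2 := norm_add_le u v
    nlinarith [sq_nonneg (‖u‖ - ‖v‖), norm_nonneg (u + v), norm_nonneg u, norm_nonneg v]
  calc ENNReal.ofReal (‖u + v‖ ^ 2) ≤ ENNReal.ofReal (2 * ‖u‖ ^ 2 + 2 * ‖v‖ ^ 2) :=
        ENNReal.ofReal_le_ofReal h1
    _ = _ := by
        rw [ENNReal.ofReal_add (by positivity) (by positivity), ENNReal.ofReal_mul (by norm_num),
          ENNReal.ofReal_mul (by norm_num)]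
        norm_num

theorem en_zero {a : D0 S → ℂ} {β : Finset (D0 S)} (h : ∀ g ∈ β, a g = 0) : en a β = 0 := by
  unfold en
  rw [Finset.sum_eq_zero h]
  norm_num

theorem mE_mono {hS : GP (S : Set ℂ)} {hπ : ClsCon (cm0 hS) (pe E)}
    {F G : (D0 S → ZMod 2) → ℝ≥0∞} (h : ∀ x ∈ ev (coarse (cm0 hS) (pe E) hπ), F x ≤ G x) :
    mE (cm0 hS) (pe E) hπ F ≤ mE (cm0 hS) (pe E) hπ G := by
  unfold mE
  exact ENNReal.div_le_div_right (Finset.sum_le_sum h) _

theorem mE_add {hS : GP (S : Set ℂ)} {hπ : ClsCon (cm0 hS) (pe E)}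
    (F G : (D0 S → ZMod 2) → ℝ≥0∞) : mE (cm0 hS) (pe E) hπ (fun x => F x + G x) =
    mE (cm0 hS) (pe E) hπ F + mE (cm0 hS) (pe E) hπ G := by
  unfold mE
  rw [Finset.sum_add_distrib, ENNReal.add_div]

theorem mE_smul {hS : GP (S : Set ℂ)} {hπ : ClsCon (cm0 hS) (pe E)} (c : ℝ≥0∞)
    (F : (D0 S → ZMod 2) → ℝ≥0∞) : mE (cm0 hS) (pe E) hπ (fun x => c * F x) =
    c * mE (cm0 hS) (pe E) hπ F := by
  unfold mE
  rw [← Finset.mul_sum, mul_div_assoc]

/-- **the decomposition of the chord energy** -/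
theorem dec (hS : GP (S : Set ℂ)) (hπ : ClsCon (cm0 hS) (pe E))
    (hPS : ∀ w ∈ Ub z b s, w ∈ P ↔ w ∈ (S : Set ℂ)) (hs : 0 ≤ s) (hd0 : 0 ≤ d0) (r : ℝ) :
    mE (cm0 hS) (pe E) hπ (fun x => ∑ β ∈ chd (cm0 hS) (pe E) hπ none x, en (aU P z b s S) β) ≤
      2 * mE (cm0 hS) (pe E) hπ
        (fun x => ∑ β ∈ chd (cm0 hS) (pe E) hπ none x, en (aL P z b s d0 S) β) +
      2 * mE (cm0 hS) (pe E) hπ (fun x => ∑ β ∈ cchE hS hπ r x, en (aD P z b d0 S) β) +
      2 * mE (cm0 hS) (pe E) hπ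
        (fun x => ∑ β ∈ fchE hS hπ (Sb z b d0) r x, en (aD P z b d0 S) β) := by
  rw [← mE_smul, ← mE_smul, ← mE_smul, ← mE_add, ← mE_add]
  refine mE_mono fun x _ => ?_
  set c := chd (cm0 hS) (pe E) hπ none x with hc
  have h1 : ∑ β ∈ c, en (aU P z b s S) β ≤ ∑ β ∈ c, (2 * en (aL P z b s d0 S) β +
      2 * en (aD P z b d0 S) β) := by
    refine Finset.sum_le_sum fun β _ => ?_
    refine le_trans (le_of_eq ?_) (en_add (aL P z b s d0 S) (aD P z b d0 S) β)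
    unfold en
    rw [Finset.sum_congr rfl fun g _ => aU_eq (d0 := d0) g]
  refine h1.trans ?_
  rw [Finset.sum_add_distrib, ← Finset.mul_sum, ← Finset.mul_sum, add_assoc]
  refine add_le_add le_rfl ?_
  rw [← mul_add]
  refine mul_le_mul_right ?_ _
  -- chords without a deep gap have no deep energy
  have h2 : ∑ β ∈ c, en (aD P z b d0 S) β ≤ ∑ β ∈ c,
      ((if β ∈ cchE hS hπ r x then en (aD P z b d0 S) β else 0) +
        if β ∈ fchE hS hπ (Sb z b d0) r x then en (aD P z b d0 S) β else 0) := by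
    refine Finset.sum_le_sum fun β hβ => ?_
    by_cases h3 : β ∈ cchE hS hπ r x
    · rw [if_pos h3]; exact le_self_add
    · by_cases h4 : ∃ g ∈ β, g ∈ Df S (Sb z b d0)
      · have h5 : β ∈ fchE hS hπ (Sb z b d0) r x :=
          Finset.mem_filter.2 ⟨Finset.mem_filter.2 ⟨hβ, h4⟩, h3⟩
        rw [if_pos h5]
        exact le_add_self
      · rw [en_zero fun g hg => ?_]
        · exact zero_le
        · by_contra hne
          exact h4 ⟨g, hg, aD_supp hPS hs hd0 hne⟩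
  refine h2.trans ?_
  rw [Finset.sum_add_distrib, ← Finset.sum_filter, ← Finset.sum_filter]
  refine add_le_add (Finset.sum_le_sum_of_subset fun β hβ => (Finset.mem_filter.1 hβ).2)
    (Finset.sum_le_sum_of_subset fun β hβ => (Finset.mem_filter.1 hβ).2)

/-- the total weight of the deep field -/
theorem sum_aD (hP : GP P) (H : StE P z b s S E) (hin : ∀ v ∈ S, v ∈ Ub z b s → ¬ OnHull S v)
    (hs : 0 ≤ s) (hd0 : 0 ≤ d0) (e0 : D0 S) :
    ENNReal.ofReal (∑ g, ‖aD P z b d0 S g‖ ^ 2) = Wf P (Sb z b d0) := by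
  have A := agr0 hP H.gp H.PS hin e0
  have hQS : ∀ w ∈ Sb z b d0, w ∈ P ↔ w ∈ (S : Set ℂ) := fun w hw => H.PS w (sb_sub hs hd0 hw)
  rw [← sum_FD A (sb_sub hs hd0) (a := aD P z b d0 S) fun t ht => ch_gd H.gp hQS e0 ht]
  congr 1
  rw [Finset.sum_filter]
  refine Finset.sum_congr rfl fun g _ => ?_
  by_cases h : g ∈ FD P (Sb z b d0) (dl e0)
  · rw [if_pos h]
  · rw [if_neg h]
    have h1 : ¬ Fc P (Sb z b d0) g.1.1 g.1.2 (th S g.1) := by
      intro hf
      exact h ⟨_, _, _, hf, (dl_eq (e0 := e0) g.2).symm⟩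
    show ‖ch P (Sb z b d0) S g‖ ^ 2 = 0
    unfold ch
    rw [if_neg h1]
    norm_num

/-- **the budget at one configuration** -/
theorem bud_le (hP : GP P) (H : StE P z b s S E) (hin : ∀ v ∈ S, v ∈ Ub z b s → ¬ OnHull S v)
    (hs : 0 ≤ s) (e0 : D0 S) (hπ : ClsCon (cm0 H.gp) (pe E)) {X : Set (ℂ × Bool)} (hX : ps X = P)
    (k : ℝ) :
    Wf P (sq z b) / 4 ≤ mE (cm0 H.gp) (pe E) hπ
        (fun x => ∑ β ∈ chd (cm0 H.gp) (pe E) hπ none x, en (aU P z b s S) β) +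
      fam.Ph (sq z b) X +
      Wf P (Bud3x432.Nk (Finset.univ : Finset Unit) (fun _ => sq z b) k ∩ Ub z b s) +
      mE (cm0 H.gp) (pe E) hπ
        (fun x => ∑ β ∈ clb P (Ub z b s) (cm0 H.gp) (pe E) hπ none (dl e0) k x,
          en (aU P z b s S) β) := by
  have A := agr0 hP H.gp H.PS hin e0
  have hsub : sq z b ⊆ Ub z b s := by
    rintro w ⟨h1, h2, h3, h4⟩
    refine ⟨?_, ?_, ?_, ?_⟩ <;> simp <;> linarith
  have hfr : ∀ p q r, Fc P (sq z b) p q r → pe E (Quot.mk _ p : Quot (hullE S)) ≠ none :=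
    fun p q r h => HInst2x432.fresh_cm0 (fun w hw => H.PS w (hsub hw))
      (fun v hv hvb => H.box v hv hvb) h
  have h := HInst2x432.budget_E (hπ := hπ) (k := k) A (HInst2x432.gt_cm0 H.gp H.hull)
    (HInst2x432.fr_cm0 H.gp H.PS H.fr) hX (J := (Finset.univ : Finset Unit))
    (Q := fun _ => sq z b) (fun _ _ => hsub) (fun _ _ => hfr)
    (fun t ht => ch_gd H.gp H.PS e0 ht) om3 om_ne om_conj (ch_spin H.gp) hsub hfr
  simpa using h

/-- **the near chords** -/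
theorem near_le {C0 c : ℝ} {m : ℕ} {near : ℝ≥0∞} (hP : GP P) (H : StE P z b s S E)
    (hin : ∀ v ∈ S, v ∈ Ub z b s → ¬ OnHull S v) (hs : 0 ≤ s) (hd0 : 0 ≤ d0) (e0 : D0 S)
    (h : near ≤ ENNReal.ofReal ((∑ g, ‖aD P z b d0 S g‖ ^ 2) * (C0 * (R / (d0 / 2)) ^ c * m))) :
    near ≤ Wf P (Sb z b d0) * ENNReal.ofReal (C0 * (R / (d0 / 2)) ^ c * m) := by
  refine h.trans (le_of_eq ?_)
  rw [ENNReal.ofReal_mul (Finset.sum_nonneg fun g _ => by positivity), sum_aD hP H hin hs hd0 e0]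

/-- **the layer** -/
theorem lay_le (hP : GP P) (H : StE P z b s S E) (hin : ∀ v ∈ S, v ∈ Ub z b s → ¬ OnHull S v)
    (hs : 0 ≤ s) (hd0 : 0 ≤ d0) (e0 : D0 S) (hπ : ClsCon (cm0 H.gp) (pe E)) :
    mE (cm0 H.gp) (pe E) hπ
      (fun x => ∑ β ∈ chd (cm0 H.gp) (pe E) hπ none x, en (aL P z b s d0 S) β) +
      Wf P (Sb z b d0) ≤ Wf P (Ub z b s) := by
  have A := agr0 hP H.gp H.PS hin e0
  have h := Layx88.lay_chd (hπ := hπ) A (HInst2x432.fr_cm0 H.gp H.PS H.fr) (sb_sub hs hd0)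
    (fun t ht => ch_gd H.gp H.PS e0 ht) om3 om_ne om_conj (ch_spin H.gp)
  have e : aL P z b s d0 S = ly P (Sb z b d0) (dl e0) (aU P z b s S) :=
    funext fun g => aL_ly H.gp H.PS hs hd0 e0 g
  rw [e]
  exact h

end Crest.Agent.R143.HDecx197
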