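import Crest.Agent.R143.HE_571
import Crest.Agent.R143.UKC_969

/-!
# Row 143, R10: `he_poly`, the structure `HE` of helper969 for the frozen index `Poly` (helper571)

* `lz u a` : label of the half edge `a` in `ZMod 3`
* **`he_poly`** : `HE u.P u.s (hM u) (hw u) (hnu u) (lz u)`
* `arc_eq`, `near_arc`, `lab_occ` : the arcs, the nearest arc, every label occurs
* `mk_mark`, `exists_mk` : the marked half edges are the ones of the edges `k j`
-/

set_option autoImplicit false

noncomputable section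

open scoped Classical

namespace Crest.Agent.R143.HEPx571

open Set
open Crest.Agent.R158.Sp896
open Crest.Agent.R143.PolyUx346
open Crest.Agent.R143.ArcPx571
open Crest.Agent.R143.UKG5x571
open Crest.Agent.R143.HEx571
open Crest.Agent.R143.UKCx969 (HE Mk Arc)

variable {u : Poly}

/-- label of the half edge -/
def lz (u : Poly) (a : J u) : ZMod 3 := ((hl u a : ℕ) : ZMod 3)

theorem cast_inj {i j : Fin 3} (h : ((i : ℕ) : ZMod 3) = ((j : ℕ) : ZMod 3)) : i = j := by
  revert i j
  decide

theorem cast_surj (i : ZMod 3) : ∃ j : Fin 3, ((j : ℕ) : ZMod 3) = i := by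
  revert i
  decide

/-- **the polygon of `u` by half edges** -/
theorem he_poly (u : Poly) : HE u.P u.s (hM u) (hw u) (hnu u) (lz u) where
  wn := wn
  nu := nu_iff
  fr := fr_he
  col := fun a t y h0 h1 y0 y1 => col_he a h0 h1 y0 (by linarith [u.s_pos])
  far := fun a b h => far_he fun e => h (by unfold lz; rw [e])

theorem mk_iff {a : J u} : Mk (hM u) (lz u) a ↔ ∃ b, hl u b ≠ hl u a ∧ hM u b = hM u a := by
  constructor
  · rintro ⟨b, h1, h2⟩
    exact ⟨b, fun e => h1 (by unfold lz; rw [e]), h2⟩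
  · rintro ⟨b, h1, h2⟩
    exact ⟨b, fun e => h1 (cast_inj e), h2⟩

/-- the middle of a half edge is on its arc -/
theorem mid_mem (a : J u) : hM u a ∈ he u.s (hM u a) (hw u a) :=
  ⟨0, le_rfl, by have := u.s_pos; positivity, by simp⟩

theorem he_arc {a : J u} {z : ℂ} (hz : z ∈ he u.s (hM u a) (hw u a)) : z ∈ u.Arc (hl u a) := by
  rw [arc_he]
  simp only [Set.mem_iUnion, exists_prop]
  exact ⟨a, rfl, hz⟩

/-- **a marked half edge starts at a mark** -/
theorem mk_mark {a : J u} (h : Mk (hM u) (lz u) a) : ∃ j : Fin 3, hM u a = u.mid (u.k j) := by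
  obtain ⟨b, h1, h2⟩ := mk_iff.1 h
  have h3 : hM u a ∈ u.Arc (hl u a) := he_arc (mid_mem a)
  have h4 : hM u a ∈ u.Arc (hl u b) := by
    rw [← h2]
    exact he_arc (mid_mem b)
  have hs := u.s_pos
  obtain ⟨l, hl'⟩ := arc_sep (Ne.symm h1) h3 h4 (by simpa using hs) (by simpa using hs)
  refine ⟨l, ?_⟩
  rw [segment_same] at hl'
  exact hl'.symm

/-- every mark is the start of two marked half edges -/
theorem exists_mk (j : Fin 3) : ∃ a : J u, Mk (hM u) (lz u) a ∧ hl u a = j ∧
    hM u a = u.mid (u.k j) := by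
  have h1 := u.k01
  have h2 := u.k12
  have h3 := u.k20
  have hr := k_range (u := u) j
  have hk := k_lt (u := u) j
  have ea : (2 * u.k j + 1) / 2 = u.k j := by omega
  set a : J u := ⟨2 * u.k j + 1, by omega, by omega⟩ with hadef
  have hla : hl u a = j := hl_iff.2 ⟨by simp only [hadef]; omega, by simp only [hadef]; omega⟩
  have hMa : hM u a = u.mid (u.k j) := by
    unfold hM
    rw [hadef]
    simp only [ea]
  refine ⟨a, mk_iff.2 ?_, hla, hMa⟩
  rcases fin3 j with rfl | rfl | rfl
  · have eb : (2 * (u.k 0 + u.L)) / 2 = u.k 0 + u.L := by omega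
    have hL := u.cyc.four_le
    refine ⟨⟨2 * (u.k 0 + u.L), by omega, by omega⟩, ?_, ?_⟩
    · rw [hla]
      have : hl u ⟨2 * (u.k 0 + u.L), by omega, by omega⟩ = 2 :=
        hl_iff.2 ⟨by simp only; omega, by rw [k'_2]; simp only; omega⟩
      rw [this]
      decide
    · rw [hMa]
      unfold hM
      simp only [eb]
      rw [mid_eq, mid_eq]
      exact ep_mod u.cyc (by unfold Nat.ModEq; simp) _
  · have eb : (2 * u.k 1) / 2 = u.k 1 := by omega
    refine ⟨⟨2 * u.k 1, by omega, by omega⟩, ?_, ?_⟩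
    · rw [hla]
      have : hl u ⟨2 * u.k 1, by omega, by omega⟩ = 0 :=
        hl_iff.2 ⟨by simp only; omega, by rw [k'_0]; simp only; omega⟩
      rw [this]
      decide
    · rw [hMa]
      unfold hM
      simp only [eb]
  · have eb : (2 * u.k 2) / 2 = u.k 2 := by omega
    refine ⟨⟨2 * u.k 2, by omega, by omega⟩, ?_, ?_⟩
    · rw [hla]
      have : hl u ⟨2 * u.k 2, by omega, by omega⟩ = 1 :=
        hl_iff.2 ⟨by simp only; omega, by rw [k'_1]; simp only; omega⟩
      rw [this]
      decide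
    · rw [hMa]
      unfold hM
      simp only [eb]

/-- points far from the marked half edges are far from the marks and conversely -/
theorem mk_forall {R : ℂ → Prop} : (∀ a : J u, Mk (hM u) (lz u) a → R (hM u a)) ↔
    ∀ j : Fin 3, R (u.mid (u.k j)) := by
  constructor
  · intro h j
    obtain ⟨a, h1, -, h2⟩ := exists_mk (u := u) j
    rw [← h2]
    exact h a h1
  · intro h a ha
    obtain ⟨j, hj⟩ := mk_mark ha
    rw [hj]
    exact h j

/-- the arc of helper969 is the arc of `u` -/
theorem arc_eq (j : Fin 3) : Arc u.s (hM u) (hw u) (lz u) ((j : ℕ) : ZMod 3) = u.Arc j := by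
  ext z
  rw [UKCx969.mem_arc, arc_he]
  simp only [Set.mem_iUnion, exists_prop]
  constructor
  · rintro ⟨a, h1, h2⟩
    exact ⟨a, cast_inj h1, h2⟩
  · rintro ⟨a, h1, h2⟩
    have h1' : hl u a = j := h1
    exact ⟨a, by unfold lz; rw [h1'], h2⟩

/-- the label is a nearest arc -/
theorem near_arc (x : ℂ) (i : ZMod 3) :
    Metric.infDist x (Arc u.s (hM u) (hw u) (lz u) (u.Lab x)) ≤
      Metric.infDist x (Arc u.s (hM u) (hw u) (lz u) i) := by
  obtain ⟨j, h1, h2, -⟩ := Poly.near_lab (u := u) x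
  obtain ⟨i, rfl⟩ := cast_surj i
  rw [h2, arc_eq, arc_eq]
  exact h1 i

/-- every label occurs -/
theorem lab_occ (i : ZMod 3) : ∃ a, lz u a = i := by
  obtain ⟨j, rfl⟩ := cast_surj i
  obtain ⟨a, -, h, -⟩ := exists_mk (u := u) j
  exact ⟨a, by unfold lz; rw [h]⟩

end Crest.Agent.R143.HEPx571
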