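import Crest.Agent.R143.UKG5_571

/-!
# Row 143, R10, polygon side: the half edges of `Poly` (helper571; structure of helper969)

* `J u`, `hM`, `dr`, `hw`, `hnu`, `hl`, `he` : half edges; `a` even: from the middle of the edge
  `a / 2` to its first end, `a` odd: to its second end; `hnu` is the outward normal
* `wn`, `nu_iff`, `arc_he`, `fr_he`, `far_he`, `col_he`
-/

set_option autoImplicit false

noncomputable section

open scoped Classical

namespace Crest.Agent.R143.HEx571

open Set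
open Crest.Agent.R158.Sp896
open Crest.Agent.R143.Brkx478 (Bk cells Conn cells_finite cyc_mod)
open Crest.Agent.R143.Tenx416 (Pg)
open Crest.Agent.R143.PolyUx346
open Crest.Agent.R143.ArcPx571
open Crest.Agent.R143.UKG5x571
open Crest.Agent.R143.OutCx571 (mem_pg)

/-! ### walks: the open outer cell and the closed inner cell of a step -/

section walk

variable {F : Set V} {L : ℕ} {v : ℕ → V} {s : ℝ}

/-- the step `v i → v (i + 1)` as a complex number -/
def drv (v : ℕ → V) (i : ℕ) : ℂ := ⟨(v (i + 1)).1 - (v i).1, (v (i + 1)).2 - (v i).2⟩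

theorem drv_cases (C : Cyc F L v) (i : ℕ) :
    drv v i = 1 ∨ drv v i = -1 ∨ drv v i = Complex.I ∨ drv v i = -Complex.I := by
  rcases step_real C i with (⟨h1, h2⟩ | ⟨h1, h2⟩) | (⟨h1, h2⟩ | ⟨h1, h2⟩)
  · left
    apply Complex.ext <;> simp [drv, h1, h2]
  · right; left
    apply Complex.ext <;> simp [drv, h1, h2]
  · right; right; left
    apply Complex.ext <;> simp [drv, h1, h2]
  · right; right; right
    apply Complex.ext <;> simp [drv, h1, h2]

theorem norm_drv (C : Cyc F L v) (i : ℕ) : ‖drv v i‖ = 1 := by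
  rcases drv_cases C i with h | h | h | h <;> rw [h] <;> simp

/-- points of an edge by the distance to its middle -/
theorem ep_mid (i : ℕ) (x : ℝ) :
    ep s v i (1 / 2 + x) = ep s v i (1 / 2) + ((s * x : ℝ) : ℂ) * drv v i := by
  apply Complex.ext
  · simp only [ep_re, Complex.add_re, Complex.re_ofReal_mul, drv]
    ring
  · simp only [ep_im, Complex.add_im, Complex.im_ofReal_mul, drv]
    ring

theorem drv_mod (C : Cyc F L v) {a b : ℕ} (h : a ≡ b [MOD L]) : drv v a = drv v b := by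
  unfold drv
  rw [vmod C h, vmod C (h.add_right 1)]

/-- **the open cell on the right of a step is off the polygon** -/
theorem outer_open (C : Cyc F L v) (hs : 0 < s) (i : ℕ) {x y : ℝ} (x0 : 0 < x) (x1 : x < s)
    (y0 : 0 < y) (y1 : y < s) :
    pt s (v i) + (x : ℂ) * drv v i + (y : ℂ) * (-(Complex.I * drv v i)) ∉ Pg s F := by
  intro hw
  obtain ⟨q', hq', hw'⟩ := mem_pg.1 hw
  set w : ℂ := pt s (v i) + (x : ℂ) * drv v i + (y : ℂ) * (-(Complex.I * drv v i)) with hwd
  have hr : w.re = s * (v i).1 + x * ((v (i + 1)).1 - (v i).1) + y * ((v (i + 1)).2 - (v i).2) := by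
    rw [hwd]
    simp only [Complex.add_re, Complex.mul_re, Complex.mul_im, Complex.neg_re, Complex.neg_im,
      Complex.I_re, Complex.I_im, Complex.ofReal_re, Complex.ofReal_im, drv, pt]
    ring
  have hi : w.im = s * (v i).2 + x * ((v (i + 1)).2 - (v i).2) - y * ((v (i + 1)).1 - (v i).1) := by
    rw [hwd]
    simp only [Complex.add_im, Complex.mul_re, Complex.mul_im, Complex.neg_re, Complex.neg_im,
      Complex.I_re, Complex.I_im, Complex.ofReal_re, Complex.ofReal_im, drv, pt]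
    ring
  apply C.right i
  suffices h : q' = rc (v i) (v (i + 1)) from h ▸ hq'
  have e1 := C.step i
  clear_value w
  generalize v i = a at *
  generalize v (i + 1) = b at *
  rcases e1 with ⟨e1, e2⟩ | ⟨e1, e2⟩ | ⟨e1, e2⟩ | ⟨e1, e2⟩
  · have f2 : rc a b = (a.1, a.2 - 1) := by unfold rc; ext <;> simp only <;> omega
    rw [f2]
    rw [e1, e2] at hr hi
    push_cast at hr hi
    refine open_cell ?_ ?_ ?_ ?_ hs hw' <;> simp only <;> push_cast <;> nlinarith
  · have f2 : rc a b = (a.1 - 1, a.2) := by unfold rc; ext <;> simp only <;> omega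
    rw [f2]
    rw [e1, e2] at hr hi
    push_cast at hr hi
    refine open_cell ?_ ?_ ?_ ?_ hs hw' <;> simp only <;> push_cast <;> nlinarith
  · have f2 : rc a b = (a.1, a.2) := by unfold rc; ext <;> simp only <;> omega
    rw [f2]
    rw [e1, e2] at hr hi
    push_cast at hr hi
    refine open_cell ?_ ?_ ?_ ?_ hs hw' <;> simp only <;> push_cast <;> nlinarith
  · have f2 : rc a b = (a.1 - 1, a.2 - 1) := by unfold rc; ext <;> simp only <;> omega
    rw [f2]
    rw [e1, e2] at hr hi
    push_cast at hr hi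
    refine open_cell ?_ ?_ ?_ ?_ hs hw' <;> simp only <;> push_cast <;> nlinarith

/-- the closed cell on the left of a step is in the polygon -/
theorem inner_closed (C : Cyc F L v) (i : ℕ) {x y : ℝ} (x0 : 0 ≤ x) (x1 : x ≤ s)
    (y0 : 0 ≤ y) (y1 : y ≤ s) :
    pt s (v i) + (x : ℂ) * drv v i + (y : ℂ) * (Complex.I * drv v i) ∈ Pg s F := by
  refine mem_pg.2 ⟨_, C.left i, ?_⟩
  set w : ℂ := pt s (v i) + (x : ℂ) * drv v i + (y : ℂ) * (Complex.I * drv v i) with hwd
  have hr : w.re = s * (v i).1 + x * ((v (i + 1)).1 - (v i).1) - y * ((v (i + 1)).2 - (v i).2) := by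
    rw [hwd]
    simp only [Complex.add_re, Complex.mul_re, Complex.mul_im,
      Complex.I_re, Complex.I_im, Complex.ofReal_re, Complex.ofReal_im, drv, pt]
    ring
  have hi : w.im = s * (v i).2 + x * ((v (i + 1)).2 - (v i).2) + y * ((v (i + 1)).1 - (v i).1) := by
    rw [hwd]
    simp only [Complex.add_im, Complex.mul_re, Complex.mul_im,
      Complex.I_re, Complex.I_im, Complex.ofReal_re, Complex.ofReal_im, drv, pt]
    ring
  have e1 := C.step i
  clear_value w
  generalize v i = a at *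
  generalize v (i + 1) = b at *
  rcases e1 with ⟨e1, e2⟩ | ⟨e1, e2⟩ | ⟨e1, e2⟩ | ⟨e1, e2⟩
  · have f2 : lc a b = (a.1, a.2) := by unfold lc; ext <;> simp only <;> omega
    rw [f2]
    rw [e1, e2] at hr hi
    push_cast at hr hi
    refine ⟨?_, ?_, ?_, ?_⟩ <;> simp only <;> push_cast <;> nlinarith
  · have f2 : lc a b = (a.1 - 1, a.2 - 1) := by unfold lc; ext <;> simp only <;> omega
    rw [f2]
    rw [e1, e2] at hr hi
    push_cast at hr hi
    refine ⟨?_, ?_, ?_, ?_⟩ <;> simp only <;> push_cast <;> nlinarith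
  · have f2 : lc a b = (a.1 - 1, a.2) := by unfold lc; ext <;> simp only <;> omega
    rw [f2]
    rw [e1, e2] at hr hi
    push_cast at hr hi
    refine ⟨?_, ?_, ?_, ?_⟩ <;> simp only <;> push_cast <;> nlinarith
  · have f2 : lc a b = (a.1, a.2 - 1) := by unfold lc; ext <;> simp only <;> omega
    rw [f2]
    rw [e1, e2] at hr hi
    push_cast at hr hi
    refine ⟨?_, ?_, ?_, ?_⟩ <;> simp only <;> push_cast <;> nlinarith

end walk

/-! ### half edges -/

/-- index set of the half edges -/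
abbrev J (u : Poly) : Type := {a : ℕ // 2 * u.k 0 + 1 ≤ a ∧ a < 2 * u.k 0 + 1 + 2 * u.L}

/-- the step `u.v i → u.v (i + 1)` -/
def dr (u : Poly) (i : ℕ) : ℂ := drv u.v i

/-- the middle of the edge -/
def hM (u : Poly) (a : J u) : ℂ := u.mid (a.1 / 2)

/-- direction of the half edge, from the middle -/
def hw (u : Poly) (a : J u) : ℂ := if a.1 % 2 = 0 then -dr u (a.1 / 2) else dr u (a.1 / 2)

/-- outward normal -/
def hnu (u : Poly) (a : J u) : ℂ := -(Complex.I * dr u (a.1 / 2))

/-- label -/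
def hl (u : Poly) (a : J u) : Fin 3 :=
  if a.1 < 2 * u.k 1 + 1 then 0 else if a.1 < 2 * u.k 2 + 1 then 1 else 2

/-- the half edge -/
def he (s : ℝ) (M w : ℂ) : Set ℂ := {z | ∃ t : ℝ, 0 ≤ t ∧ t ≤ s / 2 ∧ z = M + (t : ℂ) * w}

variable {u : Poly}

theorem wn (a : J u) : ‖hw u a‖ = 1 := by
  unfold hw dr
  split_ifs
  · rw [norm_neg, norm_drv u.cyc]
  · rw [norm_drv u.cyc]

theorem nu_iff (a : J u) : hnu u a = Complex.I * hw u a ∨ hnu u a = -Complex.I * hw u a := by
  unfold hnu hw
  split_ifs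
  · left; ring
  · right; ring

/-- the points of the half edge, `a` even -/
theorem pt_even {a : J u} (h : a.1 % 2 = 0) (t : ℝ) :
    hM u a + (t : ℂ) * hw u a = bp u (a.1 / 2) (1 / 2 - t / u.s) := by
  have hs := u.s_pos.ne'
  unfold hM hw
  rw [if_pos h, mid_eq, bp, bp, show (1 / 2 - t / u.s : ℝ) = 1 / 2 + (-(t / u.s)) by ring, ep_mid]
  have : ((u.s * -(t / u.s) : ℝ) : ℂ) = -(t : ℂ) := by
    rw [mul_neg, mul_div_cancel₀ _ hs]
    push_cast
    rfl
  rw [this]
  unfold dr
  ring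

/-- the points of the half edge, `a` odd -/
theorem pt_odd {a : J u} (h : a.1 % 2 = 1) (t : ℝ) :
    hM u a + (t : ℂ) * hw u a = bp u (a.1 / 2) (1 / 2 + t / u.s) := by
  have hs := u.s_pos.ne'
  unfold hM hw
  rw [if_neg (by omega), mid_eq, bp, bp, ep_mid, mul_div_cancel₀ _ hs]
  rfl

theorem he_even {a : J u} (h : a.1 % 2 = 0) {z : ℂ} : z ∈ he u.s (hM u a) (hw u a) ↔
    ∃ t, 0 ≤ t ∧ t ≤ 1 / 2 ∧ z = bp u (a.1 / 2) t := by
  have hs := u.s_pos
  constructor
  · rintro ⟨t, h0, h1, rfl⟩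
    refine ⟨1 / 2 - t / u.s, ?_, ?_, pt_even h t⟩
    · rw [sub_nonneg, div_le_iff₀ hs]; linarith
    · have : 0 ≤ t / u.s := by positivity
      linarith
  · rintro ⟨t, h0, h1, rfl⟩
    refine ⟨u.s * (1 / 2 - t), by nlinarith, by nlinarith, ?_⟩
    rw [pt_even h, mul_div_cancel_left₀ _ hs.ne']
    congr 1
    ring

theorem he_odd {a : J u} (h : a.1 % 2 = 1) {z : ℂ} : z ∈ he u.s (hM u a) (hw u a) ↔
    ∃ t, 1 / 2 ≤ t ∧ t ≤ 1 ∧ z = bp u (a.1 / 2) t := by
  have hs := u.s_pos
  constructor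
  · rintro ⟨t, h0, h1, rfl⟩
    refine ⟨1 / 2 + t / u.s, ?_, ?_, pt_odd h t⟩
    · have : 0 ≤ t / u.s := by positivity
      linarith
    · have : t / u.s ≤ 1 / 2 := by
        rw [div_le_iff₀ hs]; linarith
      linarith
  · rintro ⟨t, h0, h1, rfl⟩
    refine ⟨u.s * (t - 1 / 2), by nlinarith, by nlinarith, ?_⟩
    rw [pt_odd h, mul_div_cancel_left₀ _ hs.ne']
    congr 1
    ring

/-- every point of a half edge in parameters -/
theorem he_param {a : J u} {z : ℂ} (hz : z ∈ he u.s (hM u a) (hw u a)) :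
    ∃ t, 0 ≤ t ∧ t ≤ 1 ∧ (a.1 % 2 = 0 → t ≤ 1 / 2) ∧ (a.1 % 2 = 1 → 1 / 2 ≤ t) ∧
      z = bp u (a.1 / 2) t := by
  rcases Nat.mod_two_eq_zero_or_one a.1 with h | h
  · obtain ⟨t, h0, h1, h2⟩ := (he_even h).1 hz
    exact ⟨t, h0, by linarith, fun _ => h1, fun h' => by omega, h2⟩
  · obtain ⟨t, h0, h1, h2⟩ := (he_odd h).1 hz
    exact ⟨t, by linarith, h1, fun h' => by omega, fun _ => h0, h2⟩

theorem fin3 (j : Fin 3) : j = 0 ∨ j = 1 ∨ j = 2 := by
  revert j
  decide

theorem k'_0 : u.k' 0 = u.k 1 := by simp [Poly.k']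

theorem k'_1 : u.k' 1 = u.k 2 := by simp [Poly.k']

theorem k'_2 : u.k' 2 = u.k 0 + u.L := by simp [Poly.k']

theorem hl_iff {a : J u} {j : Fin 3} : hl u a = j ↔ 2 * u.k j + 1 ≤ a.1 ∧ a.1 < 2 * u.k' j + 1 := by
  obtain ⟨a, ha1, ha2⟩ := a
  have h1 := u.k01
  have h2 := u.k12
  have h3 := u.k20
  have e01 : (0 : Fin 3) ≠ 1 := by decide
  have e02 : (0 : Fin 3) ≠ 2 := by decide
  have e12 : (1 : Fin 3) ≠ 2 := by decide
  unfold hl
  simp only
  rcases fin3 j with rfl | rfl | rfl
  · rw [k'_0]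
    split_ifs with c1 c2
    · exact ⟨fun _ => ⟨ha1, c1⟩, fun _ => rfl⟩
    · exact ⟨fun h => absurd h e01.symm, fun h => absurd h.2 c1⟩
    · exact ⟨fun h => absurd h e02.symm, fun h => absurd h.2 c1⟩
  · rw [k'_1]
    split_ifs with c1 c2
    · exact ⟨fun h => absurd h e01, fun h => by omega⟩
    · exact ⟨fun _ => by omega, fun _ => rfl⟩
    · exact ⟨fun h => absurd h e12.symm, fun h => by omega⟩
  · rw [k'_2]
    split_ifs with c1 c2
    · exact ⟨fun h => absurd h e02, fun h => by omega⟩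
    · exact ⟨fun h => absurd h e12, fun h => by omega⟩
    · exact ⟨fun _ => by omega, fun _ => rfl⟩

/-- range of the indices of the arcs -/
theorem k_range (j : Fin 3) : u.k 0 ≤ u.k j ∧ u.k' j ≤ u.k 0 + u.L := by
  have h1 := u.k01
  have h2 := u.k12
  have h3 := u.k20
  unfold Poly.k'
  fin_cases j <;> simp <;> omega

/-- **the arc is the union of its half edges** -/
theorem arc_he (j : Fin 3) : u.Arc j = ⋃ a ∈ {a : J u | hl u a = j}, he u.s (hM u a) (hw u a) := by
  ext z
  simp only [Set.mem_iUnion, exists_prop, Set.mem_ofPred_eq]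
  have hr := k_range (u := u) j
  have hk := k_lt (u := u) j
  constructor
  · intro hz
    obtain ⟨i, t, h0, h1, h2, h3, rfl⟩ := arc_iff.1 hz
    -- choice of the half
    have key0 : t ≤ 1 / 2 → u.k j + 1 ≤ i → i ≤ u.k' j → ∃ a : J u, hl u a = j ∧
        bp u i t ∈ he u.s (hM u a) (hw u a) := by
      intro ht c1 c2
      refine ⟨⟨2 * i, by omega, by omega⟩, hl_iff.2 ⟨by simp only; omega, by simp only; omega⟩, ?_⟩
      rw [he_even (by simp)]
      have e : 2 * i / 2 = i := by omega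
      simp only [e]
      exact ⟨t, h0, ht, rfl⟩
    have key1 : 1 / 2 ≤ t → u.k j ≤ i → i + 1 ≤ u.k' j → ∃ a : J u, hl u a = j ∧
        bp u i t ∈ he u.s (hM u a) (hw u a) := by
      intro ht c1 c2
      refine ⟨⟨2 * i + 1, by omega, by omega⟩,
        hl_iff.2 ⟨by simp only; omega, by simp only; omega⟩, ?_⟩
      have e0 : (2 * i + 1) % 2 = 1 := by omega
      rw [he_odd (by simpa using e0)]
      have e : (2 * i + 1) / 2 = i := by omega
      simp only [e]
      exact ⟨t, ht, h1, rfl⟩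
    rcases lt_trichotomy t (1 / 2) with ht | ht | ht
    · apply key0 ht.le
      · have : (u.k j : ℝ) < i := by linarith
        exact_mod_cast this
      · have : (i : ℝ) < u.k' j + 1 := by linarith
        have : i < u.k' j + 1 := by exact_mod_cast this
        omega
    · have c1 : u.k j ≤ i := by
        have : (u.k j : ℝ) ≤ i := by linarith
        exact_mod_cast this
      have c2 : i ≤ u.k' j := by
        have : (i : ℝ) ≤ u.k' j := by linarith
        exact_mod_cast this
      by_cases c3 : i = u.k' j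
      · exact key0 ht.le (by omega) c2
      · exact key1 ht.ge c1 (by omega)
    · apply key1 ht.le
      · have : (u.k j : ℝ) < i + 1 := by linarith
        have : u.k j < i + 1 := by exact_mod_cast this
        omega
      · have : (i : ℝ) < u.k' j := by linarith
        exact_mod_cast this
  · rintro ⟨a, ha, hz⟩
    obtain ⟨g1, g2⟩ := hl_iff.1 ha
    obtain ⟨t, h0, h1, h2, h3, rfl⟩ := he_param hz
    refine arc_iff.2 ⟨a.1 / 2, t, h0, h1, ?_, ?_, rfl⟩
    · rcases Nat.mod_two_eq_zero_or_one a.1 with h | h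
      · have : u.k j + 1 ≤ a.1 / 2 := by omega
        have : (u.k j : ℝ) + 1 ≤ ((a.1 / 2 : ℕ) : ℝ) := by exact_mod_cast this
        linarith
      · have : u.k j ≤ a.1 / 2 := by omega
        have : (u.k j : ℝ) ≤ ((a.1 / 2 : ℕ) : ℝ) := by exact_mod_cast this
        linarith [h3 h]
    · rcases Nat.mod_two_eq_zero_or_one a.1 with h | h
      · have : a.1 / 2 ≤ u.k' j := by omega
        have : ((a.1 / 2 : ℕ) : ℝ) ≤ (u.k' j : ℝ) := by exact_mod_cast this
        linarith [h2 h]
      · have : a.1 / 2 + 1 ≤ u.k' j := by omega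
        have : ((a.1 / 2 : ℕ) : ℝ) + 1 ≤ (u.k' j : ℝ) := by exact_mod_cast this
        linarith

/-- **fr** -/
theorem fr_he : frontier u.P = ⋃ a : J u, he u.s (hM u a) (hw u a) := by
  rw [frontier_arc]
  ext z
  simp only [Set.mem_iUnion, arc_he, exists_prop, Set.mem_ofPred_eq]
  exact ⟨fun ⟨_, a, _, h⟩ => ⟨a, h⟩, fun ⟨a, h⟩ => ⟨hl u a, a, rfl, h⟩⟩

theorem sub_le_norm {p q : ℂ} {r : ℝ} (h : r ≤ |p.re - q.re| ∨ r ≤ |p.im - q.im|) : r ≤ ‖p - q‖ := by
  rcases h with h | h
  · have := Complex.abs_re_le_norm (p - q)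
    rw [Complex.sub_re] at this
    linarith
  · have := Complex.abs_im_le_norm (p - q)
    rw [Complex.sub_im] at this
    linarith

/-- consecutive edges -/
theorem far_nb {a b : J u} (hl' : hl u a ≠ hl u b) (h : a.1 / 2 + 1 ≡ b.1 / 2 [MOD u.L]) {p q : ℂ}
    (hp : p ∈ he u.s (hM u a) (hw u a)) (hq : q ∈ he u.s (hM u b) (hw u b)) :
    u.s / 2 ≤ ‖p - q‖ := by
  obtain ⟨t, h0, h1, h2, h3, rfl⟩ := he_param hp
  obtain ⟨t', h0', h1', h2', h3', rfl⟩ := he_param hq
  have C := u.cyc
  have hk : t ≤ 1 / 2 ∨ 1 / 2 ≤ t' := by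
    rcases Nat.mod_two_eq_zero_or_one a.1 with ha | ha
    · exact Or.inl (h2 ha)
    rcases Nat.mod_two_eq_zero_or_one b.1 with hb | hb
    · exfalso
      obtain ⟨a, a1, a2⟩ := a
      obtain ⟨b, b1, b2⟩ := b
      simp only at ha hb h
      -- `b = a + 1`
      have e : b = a + 1 := by
        have h' : 2 * (a / 2 + 1) ≡ 2 * (b / 2) [MOD 2 * u.L] := h.mul_left' 2
        have e1 : 2 * (a / 2 + 1) = a + 1 := by omega
        have e2 : 2 * (b / 2) = b := by omega
        rw [e1, e2] at h'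
        have h5 := (Nat.modEq_iff_dvd.1 h')
        obtain ⟨c, hc⟩ := h5
        push_cast at hc
        have hL : (0 : ℤ) < u.L := by
          have := C.four_le
          exact_mod_cast (by omega : 0 < u.L)
        have hc0 : c = 0 := by
          by_contra hne
          rcases lt_or_gt_of_ne hne with g | g
          · have : 2 * (u.L : ℤ) * c ≤ 2 * (u.L : ℤ) * (-1) :=
              mul_le_mul_of_nonneg_left (by omega) (by omega)
            omega
          · have : 2 * (u.L : ℤ) * 1 ≤ 2 * (u.L : ℤ) * c :=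
              mul_le_mul_of_nonneg_left (by omega) (by omega)
            omega
        rw [hc0] at hc
        omega
      subst e
      apply hl'
      unfold hl
      simp only
      have g1 : a < 2 * u.k 1 + 1 ↔ a + 1 < 2 * u.k 1 + 1 := by omega
      have g2 : a < 2 * u.k 2 + 1 ↔ a + 1 < 2 * u.k 2 + 1 := by omega
      simp only [g1, g2]
    · exact Or.inr (h3' hb)
  have h4 := nb_sep C u.s_pos (a.1 / 2) h1 h0' hk
  rw [ep_mod C h t'] at h4
  exact sub_le_norm h4

/-- **far** -/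
theorem far_he {a b : J u} (hl' : hl u a ≠ hl u b) :
    (∀ p ∈ he u.s (hM u a) (hw u a), ∀ q ∈ he u.s (hM u b) (hw u b), u.s / 2 ≤ ‖p - q‖) ∨
    (hM u b = hM u a ∧ hw u b = -hw u a ∧ hnu u b = hnu u a) := by
  have C := u.cyc
  have hs := u.s_pos
  by_cases c0 : a.1 / 2 ≡ b.1 / 2 [MOD u.L]
  · right
    have e1 : hM u b = hM u a := by
      unfold hM
      rw [mid_eq, mid_eq]
      exact (ep_mod C c0 _).symm
    have e2 : dr u (b.1 / 2) = dr u (a.1 / 2) := (drv_mod C c0).symm
    refine ⟨e1, ?_, by unfold hnu; rw [e2]⟩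
    have hpar : a.1 % 2 ≠ b.1 % 2 := by
      intro hp
      apply hl'
      have : a = b := by
        obtain ⟨a, a1, a2⟩ := a
        obtain ⟨b, b1, b2⟩ := b
        simp only at c0 hp
        have h' : 2 * (a / 2) ≡ 2 * (b / 2) [MOD 2 * u.L] := c0.mul_left' 2
        have h5 := (Nat.modEq_iff_dvd.1 h')
        obtain ⟨c, hc⟩ := h5
        have hL : (0 : ℤ) < u.L := by
          have := C.four_le
          exact_mod_cast (by omega : 0 < u.L)
        have e3 : ((2 * (b / 2) : ℕ) : ℤ) - ((2 * (a / 2) : ℕ) : ℤ) = (b : ℤ) - a := by omega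
        rw [e3] at hc
        push_cast at hc
        have hc0 : c = 0 := by
          by_contra hne
          rcases lt_or_gt_of_ne hne with g | g
          · have : 2 * (u.L : ℤ) * c ≤ 2 * (u.L : ℤ) * (-1) :=
              mul_le_mul_of_nonneg_left (by omega) (by omega)
            omega
          · have : 2 * (u.L : ℤ) * 1 ≤ 2 * (u.L : ℤ) * c :=
              mul_le_mul_of_nonneg_left (by omega) (by omega)
            omega
        rw [hc0] at hc
        have : a = b := by omega
        subst this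
        rfl
      rw [this]
    unfold hw
    rw [e2]
    rcases Nat.mod_two_eq_zero_or_one a.1 with ha | ha
    · rw [if_neg (show ¬ b.1 % 2 = 0 by omega), if_pos ha, neg_neg]
    · rw [if_pos (show b.1 % 2 = 0 by omega), if_neg (show ¬ a.1 % 2 = 0 by omega)]
  · left
    intro p hp q hq
    by_cases c1 : a.1 / 2 + 1 ≡ b.1 / 2 [MOD u.L]
    · exact far_nb hl' c1 hp hq
    by_cases c2 : b.1 / 2 + 1 ≡ a.1 / 2 [MOD u.L]
    · rw [norm_sub_rev]
      exact far_nb (Ne.symm hl') c2 hq hp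
    by_contra hcon
    push Not at hcon
    obtain ⟨t, h0, h1, -, -, rfl⟩ := he_param hp
    obtain ⟨t', h0', h1', -, -, rfl⟩ := he_param hq
    have g1 := Complex.abs_re_le_norm (bp u (a.1 / 2) t - bp u (b.1 / 2) t')
    have g2 := Complex.abs_im_le_norm (bp u (a.1 / 2) t - bp u (b.1 / 2) t')
    rw [Complex.sub_re] at g1
    rw [Complex.sub_im] at g2
    rcases ep_sep C hs h0 h1 h0' h1' (by linarith) (by linarith) with h | h | h
    · exact c0 h
    · exact c1 h
    · exact c2 h.symm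

theorem mem_congr {x y : ℂ} (h : x ∈ Pg u.s (cells (u.U : Set Bk))) (e : y = x) : y ∈ u.P :=
  e ▸ h

theorem notMem_congr {x y : ℂ} (h : x ∉ Pg u.s (cells (u.U : Set Bk))) (e : y = x) : y ∉ u.P :=
  e ▸ h

/-- **col** : the open outer unit cell -/
theorem col_he (a : J u) {t y : ℝ} (h0 : 0 ≤ t) (h1 : t < u.s / 2) (y0 : 0 < y) (y1 : y < u.s) :
    hM u a + (t : ℂ) * hw u a + (y : ℂ) * hnu u a ∉ u.P := by
  have hs := u.s_pos
  have hmid : hM u a = pt u.s (u.v (a.1 / 2)) + ((u.s / 2 : ℝ) : ℂ) * dr u (a.1 / 2) := by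
    unfold hM dr
    rw [mid_eq, bp, ← ep_zero]
    have := ep_mid (s := u.s) (v := u.v) (a.1 / 2) (-(1 / 2))
    rw [show (1 / 2 + -(1 / 2) : ℝ) = 0 by norm_num] at this
    rw [this]
    push_cast
    ring
  rcases Nat.mod_two_eq_zero_or_one a.1 with ha | ha
  · have := outer_open u.cyc hs (a.1 / 2) (x := u.s / 2 - t) (y := y) (by linarith) (by linarith)
      y0 y1
    rw [hmid]
    unfold hw hnu dr
    rw [if_pos ha]
    refine notMem_congr this ?_
    push_cast
    ring
  · have := outer_open u.cyc hs (a.1 / 2) (x := u.s / 2 + t) (y := y) (by linarith) (by linarith)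
      y0 y1
    rw [hmid]
    unfold hw hnu dr
    rw [if_neg (by omega)]
    refine notMem_congr this ?_
    push_cast
    ring

/-- the closed inner unit cell -/
theorem inn_he (a : J u) {t y : ℝ} (h0 : 0 ≤ t) (h1 : t ≤ u.s / 2) (y0 : 0 ≤ y) (y1 : y ≤ u.s) :
    hM u a + (t : ℂ) * hw u a - (y : ℂ) * hnu u a ∈ u.P := by
  have hs := u.s_pos
  have hmid : hM u a = pt u.s (u.v (a.1 / 2)) + ((u.s / 2 : ℝ) : ℂ) * dr u (a.1 / 2) := by
    unfold hM dr
    rw [mid_eq, bp, ← ep_zero]
    have := ep_mid (s := u.s) (v := u.v) (a.1 / 2) (-(1 / 2))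
    rw [show (1 / 2 + -(1 / 2) : ℝ) = 0 by norm_num] at this
    rw [this]
    push_cast
    ring
  rcases Nat.mod_two_eq_zero_or_one a.1 with ha | ha
  · have := inner_closed (s := u.s) u.cyc (a.1 / 2) (x := u.s / 2 - t) (y := y) (by linarith)
      (by linarith) y0 y1
    rw [hmid]
    unfold hw hnu dr
    rw [if_pos ha]
    refine mem_congr this ?_
    push_cast
    ring
  · have := inner_closed (s := u.s) u.cyc (a.1 / 2) (x := u.s / 2 + t) (y := y) (by linarith)
      (by linarith) y0 y1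
    rw [hmid]
    unfold hw hnu dr
    rw [if_neg (by omega)]
    refine mem_congr this ?_
    push_cast
    ring

end Crest.Agent.R143.HEx571
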