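import Crest.Agent.R143.Bud_432

/-!
# Row 143 (S0194), block H (helper432): mean over the free colours = mean over the even
configurations of the coarse map with one giant

* `pe E` : the cells of `E` are merged (`none`), the other cells are single; `clsCon_pe`, `gt_pe`
* `xb b` : the configuration of the coarse map for the colours `b` (giant `1`, `b` = the free cells
  of colour `1`); `card_fib` : uniform
* `Unif s χ K0` : the colours of the cells of `K0` are uniform under `s`; `fib`, `sum_free` :
  **`card (ev M') * Σ_{ω ∈ s} F (cfg M (fil π o (χ ω))) = card s * Σ_{x ∈ ev M'} F x`**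
-/

set_option autoImplicit false

noncomputable section

open scoped Classical

namespace Crest.Agent.R143.HInst1x432

open Crest.Agent.R143.Frame1x395 Crest.Agent.R143.Frame2x395 Crest.Agent.R143.Frame3x395
  Crest.Agent.R143.Frame4x395 Crest.Agent.R143.Frame8x395 Crest.Agent.R143.Frame9x395
  Crest.Agent.R143.Coarsex166 Crest.Agent.R143.Budx432

variable {D C C' : Type} {M : CMap D C}

/-! ### merging a set of cells -/

/-- the cells of `E` are merged -/
def pe (E : Set C) (c : C) : Option C := if c ∈ E then none else some c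

theorem pe_none {E : Set C} {c : C} : pe E c = none ↔ c ∈ E := by
  unfold pe
  split_ifs with h <;> simp [h]

theorem pe_eq {E : Set C} {c c' : C} (h : pe E c = pe E c') : c = c' ∨ pe E c = none := by
  by_cases hc : c ∈ E
  · exact Or.inr (pe_none.2 hc)
  · left
    have h1 : pe E c = some c := if_neg hc
    rw [h1] at h
    by_cases hc' : c' ∈ E
    · rw [pe_none.2 hc'] at h; exact absurd h (by simp)
    · have h2 : pe E c' = some c' := if_neg hc'
      rw [h2] at h
      exact Option.some.inj h

/-- `E` is connected through live darts inside `E` -/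
def ECon (M : CMap D C) (E : Set C) : Prop := ∀ a b : D, M.cell a ∈ E → M.cell b ∈ E →
  Relation.EqvGen (fun c c' => c ∈ E ∧ c' ∈ E ∧ ∃ d ∈ M.live, M.cell d = c ∧ M.cell (M.rho d) = c')
    (M.cell a) (M.cell b)

theorem clsCon_pe {E : Set C} (h : ECon M E) : ClsCon M (pe E) := by
  intro a b e
  rcases pe_eq e with h1 | h1
  · rw [h1]; exact Relation.EqvGen.refl _
  · have ha := pe_none.1 h1
    have hb := pe_none.1 (e ▸ h1)
    refine Relation.EqvGen.mono ?_ _ _ (h a b ha hb)
    rintro c c' ⟨hc, hc', d, hd, e1, e2⟩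
    exact ⟨(pe_none.2 hc).trans (pe_none.2 hc').symm, d, hd, e1, e2⟩

theorem gt_pe {E : Set C} (h : ∀ c, c ∉ E → Gen M c) : Gt M (pe E) none :=
  ⟨fun _ _ e => pe_eq e, fun c hc => h c fun hc' => hc (pe_none.2 hc')⟩

/-! ### the configurations of the coarse map and the free colours -/

variable {π : C → C'} {hπ : ClsCon M π} {o : C'} {K0 : Finset C}

/-- indicator -/
def ind (b : Finset C) (c : C) : ZMod 2 := if c ∈ b then 1 else 0

/-- the configuration for the set `b` of the free cells of colour `1` -/
def xb (M : CMap D C) (π : C → C') (o : C') (b : Finset C) : D → ZMod 2 :=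
  cfg M (fil π o (ind b))

theorem ind_sd (b b' : Finset C) (c : C) : ind (symmDiff b b') c = ind b c + ind b' c := by
  unfold ind
  by_cases h : c ∈ b <;> by_cases h' : c ∈ b' <;>
    simp [Finset.mem_symmDiff, h, h', z_self]

theorem xb_sd (b b' b'' : Finset C) (d : D) :
    xb M π o (symmDiff (symmDiff b b') b'') d = xb M π o b d + xb M π o b' d + xb M π o b'' d := by
  have key : ∀ c, fil π o (ind (symmDiff (symmDiff b b') b'')) c =
      fil π o (ind b) c + fil π o (ind b') c + fil π o (ind b'') c := by
    intro c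
    unfold fil
    by_cases h : π c = o
    · simp only [if_pos h]; decide
    · simp only [if_neg h]
      rw [ind_sd, ind_sd]
  unfold xb cfg
  rw [key, key]
  ring

theorem xb_mem [Fintype D] (T : Gt M π o) (b : Finset C) : xb M π o b ∈ ev (coarse M π hπ) :=
  mem_ev.2 (fil_isC T _)

/-- every even configuration of the coarse map comes from free colours -/
theorem xb_surj [Fintype D] (hK : ∀ d, π (M.cell d) ≠ o → M.cell d ∈ K0) {x : D → ZMod 2}
    (hx : x ∈ ev (coarse M π hπ)) : ∃ b ∈ K0.powerset, xb M π o b = x := by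
  obtain ⟨χ, hχ⟩ := exists_cfg (mem_ev.1 hx)
  obtain ⟨χ', h1, h2⟩ : ∃ χ' : C' → ZMod 2, χ' o = 1 ∧ cfg (coarse M π hπ) χ' = x := by
    rcases z01 (χ o) with h | h
    · refine ⟨fun c => χ c + 1, ?_, by rw [cfg_flip]; exact hχ⟩
      show χ o + 1 = 1
      rw [h]; decide
    · exact ⟨χ, h, hχ⟩
  refine ⟨K0.filter fun c => χ' (π c) = 1, Finset.mem_powerset.2 (Finset.filter_subset _ _), ?_⟩
  rw [← h2]
  have key : ∀ d, fil π o (ind (K0.filter fun c => χ' (π c) = 1)) (M.cell d) =
      χ' (π (M.cell d)) := by
    intro d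
    unfold fil
    by_cases h : π (M.cell d) = o
    · rw [if_pos h, h, h1]
    · rw [if_neg h]
      unfold ind
      rcases z01 (χ' (π (M.cell d))) with h3 | h3
      · rw [if_neg, h3]
        intro h4
        have h5 := (Finset.mem_filter.1 h4).2
        rw [h3] at h5
        exact absurd h5 (by decide)
      · rw [if_pos (Finset.mem_filter.2 ⟨hK d h, h3⟩), h3]
  funext d
  unfold xb cfg
  rw [key, key]
  rfl

/-- **uniform** -/
theorem card_fib [Fintype D] (T : Gt M π o) (hK : ∀ d, π (M.cell d) ≠ o → M.cell d ∈ K0)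
    {x : D → ZMod 2} (hx : x ∈ ev (coarse M π hπ)) :
    (K0.powerset.filter fun b => xb M π o b = x).card * (ev (coarse M π hπ)).card =
      2 ^ K0.card := by
  set fb : (D → ZMod 2) → Finset (Finset C) := fun y => K0.powerset.filter fun b => xb M π o b = y
    with hfb
  have hle : ∀ y ∈ ev (coarse M π hπ), ∀ y' ∈ ev (coarse M π hπ),
      (fb y).card ≤ (fb y').card := by
    intro y hy y' hy'
    obtain ⟨c, hc, ec⟩ := xb_surj (K0 := K0) hK hy
    obtain ⟨c', hc', ec'⟩ := xb_surj (K0 := K0) hK hy'
    rw [Finset.mem_powerset] at hc hc'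
    refine Finset.card_le_card_of_injOn (fun b => symmDiff (symmDiff b c) c') ?_ ?_
    · intro b hb
      obtain ⟨h1, h2⟩ := Finset.mem_filter.1 (Finset.mem_coe.1 hb)
      rw [Finset.mem_powerset] at h1
      refine Finset.mem_coe.2 (Finset.mem_filter.2 ⟨Finset.mem_powerset.2 ?_, ?_⟩)
      · intro v hv
        rw [Finset.mem_symmDiff, Finset.mem_symmDiff] at hv
        rcases hv with ⟨⟨h3, -⟩ | ⟨h3, -⟩, -⟩ | ⟨h3, -⟩
        · exact h1 h3
        · exact hc h3
        · exact hc' h3
      · funext d
        rw [xb_sd, h2, ec, ec', z_self, zero_add]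
    · intro b _ b' _ e
      have e1 : symmDiff (symmDiff b c) c' = symmDiff (symmDiff b' c) c' := e
      exact symmDiff_left_injective c (symmDiff_left_injective c' e1)
  have hcard : ∀ y ∈ ev (coarse M π hπ), (fb y).card = (fb x).card := fun y hy =>
    le_antisymm (hle y hy x hx) (hle x hx y hy)
  have h1 := Finset.card_eq_sum_card_fiberwise (f := xb M π o) (s := K0.powerset)
    (t := ev (coarse M π hπ)) fun b _ => xb_mem T b
  rw [Finset.card_powerset, Finset.sum_congr rfl hcard, Finset.sum_const, smul_eq_mul] at h1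
  rw [h1, mul_comm]

/-! ### uniform colours -/

variable {A : Type}

/-- the colours of the cells of `K0` are uniform under `s` -/
def Unif (s : Finset A) (χ : A → C → ZMod 2) (K0 : Finset C) : Prop :=
  ∀ b ⊆ K0, (s.filter fun ω => ∀ c ∈ K0, χ ω c = ind b c).card * 2 ^ K0.card = s.card

theorem cfg_xb (hK : ∀ d, π (M.cell d) ≠ o → M.cell d ∈ K0) {χ : C → ZMod 2} {b : Finset C}
    (h : ∀ c ∈ K0, χ c = ind b c) : cfg M (fil π o χ) = xb M π o b := by
  have key : ∀ d, fil π o χ (M.cell d) = fil π o (ind b) (M.cell d) := by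
    intro d
    unfold fil
    by_cases h1 : π (M.cell d) = o
    · rw [if_pos h1, if_pos h1]
    · rw [if_neg h1, if_neg h1, h _ (hK d h1)]
  funext d
  unfold xb cfg
  rw [key, key]

/-- **the configuration of the coarse map is uniform under uniform free colours** -/
theorem fib [Fintype D] (T : Gt M π o) (hK : ∀ d, π (M.cell d) ≠ o → M.cell d ∈ K0)
    {s : Finset A} {χ : A → C → ZMod 2} (hu : Unif s χ K0) {x : D → ZMod 2}
    (hx : x ∈ ev (coarse M π hπ)) :
    (s.filter fun ω => cfg M (fil π o (χ ω)) = x).card * (ev (coarse M π hπ)).card = s.card := by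
  set res : A → Finset C := fun ω => K0.filter fun c => χ ω c = 1 with hres
  have hr : ∀ ω, ∀ c ∈ K0, χ ω c = ind (res ω) c := by
    intro ω c hc
    unfold ind
    rcases z01 (χ ω c) with h | h
    · rw [if_neg, h]
      intro h1
      have h2 := (Finset.mem_filter.1 h1).2
      rw [h] at h2
      exact absurd h2 (by decide)
    · rw [if_pos (Finset.mem_filter.2 ⟨hc, h⟩), h]
  have hr2 : ∀ ω, ∀ b ⊆ K0, (∀ c ∈ K0, χ ω c = ind b c) ↔ res ω = b := by
    intro ω b hb
    constructor
    · intro h
      ext c
      constructor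
      · intro hc
        obtain ⟨h1, h2⟩ := Finset.mem_filter.1 hc
        rw [h c h1] at h2
        unfold ind at h2
        by_contra h3
        rw [if_neg h3] at h2
        exact absurd h2 (by decide)
      · intro hc
        refine Finset.mem_filter.2 ⟨hb hc, ?_⟩
        rw [h c (hb hc)]
        exact if_pos hc
    · rintro rfl
      exact hr ω
  have e1 : (s.filter fun ω => cfg M (fil π o (χ ω)) = x).card =
      ∑ b ∈ K0.powerset.filter (fun b => xb M π o b = x),
        (s.filter fun ω => ∀ c ∈ K0, χ ω c = ind b c).card := by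
    rw [Finset.card_eq_sum_card_fiberwise (f := res)
      (t := K0.powerset.filter fun b => xb M π o b = x)]
    · refine Finset.sum_congr rfl fun b hb => ?_
      obtain ⟨h1, h2⟩ := Finset.mem_filter.1 hb
      rw [Finset.mem_powerset] at h1
      congr 1
      ext ω
      rw [Finset.mem_filter, Finset.mem_filter, Finset.mem_filter, hr2 ω b h1]
      constructor
      · rintro ⟨⟨h3, -⟩, h4⟩
        exact ⟨h3, h4⟩
      · rintro ⟨h3, h4⟩
        refine ⟨⟨h3, ?_⟩, h4⟩
        rw [cfg_xb hK (hr ω), h4, h2]
    · intro ω hω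
      obtain ⟨h1, h2⟩ := Finset.mem_filter.1 (Finset.mem_coe.1 hω)
      refine Finset.mem_coe.2 (Finset.mem_filter.2 ⟨Finset.mem_powerset.2
        (Finset.filter_subset _ _), ?_⟩)
      rw [← cfg_xb hK (hr ω)]
      exact h2
  have e2 : (s.filter fun ω => cfg M (fil π o (χ ω)) = x).card * 2 ^ K0.card =
      (K0.powerset.filter fun b => xb M π o b = x).card * s.card := by
    rw [e1, Finset.sum_mul, ← smul_eq_mul, ← Finset.sum_const]
    refine Finset.sum_congr rfl fun b hb => ?_
    exact hu b (Finset.mem_powerset.1 (Finset.mem_filter.1 hb).1)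
  have e3 := card_fib (hπ := hπ) T hK hx
  have h2 : 0 < 2 ^ K0.card := by positivity
  refine Nat.eq_of_mul_eq_mul_right h2 ?_
  calc (s.filter fun ω => cfg M (fil π o (χ ω)) = x).card * (ev (coarse M π hπ)).card *
        2 ^ K0.card = ((s.filter fun ω => cfg M (fil π o (χ ω)) = x).card * 2 ^ K0.card) *
        (ev (coarse M π hπ)).card := by ring
    _ = s.card * ((K0.powerset.filter fun b => xb M π o b = x).card *
        (ev (coarse M π hπ)).card) := by rw [e2]; ring
    _ = _ := by rw [e3]

/-- **mean over the free colours = mean over the even configurations of the coarse map** -/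
theorem sum_free [Fintype D] {R : Type} [Semiring R] (T : Gt M π o)
    (hK : ∀ d, π (M.cell d) ≠ o → M.cell d ∈ K0) {s : Finset A} {χ : A → C → ZMod 2}
    (hu : Unif s χ K0) (F : (D → ZMod 2) → R) :
    ((ev (coarse M π hπ)).card : R) * ∑ ω ∈ s, F (cfg M (fil π o (χ ω))) =
      (s.card : R) * ∑ x ∈ ev (coarse M π hπ), F x := by
  have e1 : ∑ ω ∈ s, F (cfg M (fil π o (χ ω))) = ∑ x ∈ ev (coarse M π hπ),
      ((s.filter fun ω => cfg M (fil π o (χ ω)) = x).card : R) * F x := by
    rw [← Finset.sum_fiberwise_of_maps_to (g := fun ω => cfg M (fil π o (χ ω)))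
      (t := ev (coarse M π hπ)) fun ω _ => mem_ev.2 (fil_isC T _)]
    refine Finset.sum_congr rfl fun x _ => ?_
    rw [← nsmul_eq_mul, ← Finset.sum_const]
    refine Finset.sum_congr rfl fun ω hω => ?_
    rw [(Finset.mem_filter.1 hω).2]
  rw [e1, Finset.mul_sum, Finset.mul_sum]
  refine Finset.sum_congr rfl fun x hx => ?_
  rw [← mul_assoc]
  congr 1
  have h := fib (hπ := hπ) T hK hu hx
  rw [← h]
  push_cast
  exact (Nat.cast_commute _ _).eq

end Crest.Agent.R143.HInst1x432
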