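import Crest.Agent.R143.StgI_432
import Crest.Agent.R143.Asm4_414

/-!
# Row 143 (S0194), block H (helper136): 414's `BudQ` from 432's `StgI_432`

* `budQ` : the fields `bud`, `big` of `BudQ` for the giant family `E`, with `CH := CHg E a`,
  `CL := CLg (Ub z b s) k E a`, from `FactsAe`
-/

set_option autoImplicit false

noncomputable section

open scoped Classical

namespace Crest.Agent.R143.HStx136

open MeasureTheory Filter Topology
open Crest.ProbabilityR.Voronoi
open Crest.Agent.R143.B0x346 Crest.Agent.R143.SumScx302 Crest.Agent.R143.Mass1x302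
  Crest.Agent.R143.Mass2x302 Crest.Agent.R143.Mass3x302 Crest.Agent.R143.Mass4x302
  Crest.Agent.R143.Mass5x302 Crest.Agent.R143.DelGx806 Crest.Agent.R143.DelRx806
  Crest.Agent.R143.JColx54
open Crest.Agent.R143.HGluex136 Crest.Agent.R143.FinCx811 Crest.Agent.R143.SmallAx304
  Crest.Agent.R143.Dblx609 Crest.Agent.R143.Dbl2x609 Crest.Agent.R143.StgIx432
  Crest.Agent.R143.Asm4x414
open Crest.Agent.R143.Harx315 (IsStop)
open Crest.Agent.R143.Frame10x395
open Crest.Agent.R143.HBudx136 (Ub)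
open scoped ENNReal

/-- **414's `BudQ` for a family of giants** -/
theorem budQ {z : ℂ} {b s k ε : ℝ} {B : Set ℂ} {E : EFam} {a : ∀ A : Finset ℂ, D0 A → ℂ}
    {R : Finset ℂ → Finset ℂ → Finset ℂ} {g : Set (ℂ × Bool) → ℝ≥0∞} (hε : 0 < ε) (hs : 0 ≤ s)
    (hBm : MeasurableSet B) (hB : Bornology.IsBounded B) (hUB : Ub z b s ⊆ B)
    (hg : Poisx304.FM g) (hg1 : ∀ X, g X ≤ 1) (ha : Fld (Ub z b s) a)
    (hR : ∀ᵐ ω ∂sampleLaw, IsStop (Ap ε B ω) (R (Ap ε B ω)))
    (hF : FactsAe ε B (Ub z b s) (sq z b) g R E) :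
    BudQ z b s k ε B g (CHg E a) (CLg (Ub z b s) k E a) := by
  refine ⟨hBm, hB, hUB, hg, hg1, ?_, ?_⟩
  · filter_upwards [pb (k := k) hε hs hB hUB ha hF] with ω h β hβ e h0
    have h1 := h (by rw [e]; exact h0)
    rw [Finset.mem_powerset] at hβ
    rw [e] at h1
    unfold CHf CLf at h1
    rw [lft_paint _ hβ, lft_paint _ hβ] at h1
    exact h1
  · filter_upwards [hF, hR] with ω hF hR
    have hA := coe_Ap hε hB ω
    have hPS : ∀ w ∈ Ub z b s, w ∈ points ε ω ↔ w ∈ ((Ap ε B ω : Finset ℂ) : Set ℂ) := by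
      intro w hw
      rw [hA]
      exact ⟨fun h => ⟨h, hUB hw⟩, fun h => h.1⟩
    by_cases h0 : ∀ β ∈ (Ap ε B ω).powerset, g (paint (Ap ε B ω) β) = 0
    · exact Or.inl h0
    · right
      push Not at h0
      obtain ⟨β0, hβ0, hg0⟩ := h0
      have F0 := hF β0 hβ0 hg0
      have hD := exists_dart F0.gp F0.c3
      refine ⟨F0.gp, F0.c3, F0.out, hD.some, a _,
        fun t ht => ha.nn _ F0.gp _ t (fc_congr hPS ht), R _, hR, fun β hβ hg => ?_⟩
      have F := hF β hβ hg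
      refine ⟨Option (Quot (hullE (Ap ε B ω))), pc F.gp _, clsCon_pc F.cls, none,
        F.stg hPS hD.some, ?_⟩
      rw [clg_eq F.gp F.cls hD, clq_congr hPS]

end Crest.Agent.R143.HStx136
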