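import Crest.Agent.R143.HTop_690
import Crest.Agent.R143.LLN4_432
import Crest.Agent.R143.HGlue_136

/-!
# Row 143 (S0194), block H, top quantifiers in 136's quenched form (helper690)

* `RingM z b s k ε c η` : ONE ring for one mesh: box `B`, weight `g` (total mass `≥ c`), chord energy
  `CH` and big closed blocks `CL` of the net with the giant (`hbudM`'s hypotheses), `R` a measurable
  majorant of the quenched mean of `g * CH` with `∫ R ≤ η ∫ g`
* `HSmallM` : **all that is left of block H**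
* `sat_of_smallM : HSmallM → Sat`, `body_of_smallM : HSmallM → Body` (the laws of large numbers are
  432's theorems)
-/

set_option autoImplicit false

noncomputable section

open scoped Classical

namespace Crest.Agent.R143.HTop2x690

open MeasureTheory Filter Topology
open Crest.ProbabilityR.Voronoi
open Crest.Agent.R143.B0x346 Crest.Agent.R143.SumScx302 Crest.Agent.R143.Mass1x302
  Crest.Agent.R143.Mass2x302
  Crest.Agent.R143.PP0x831 Crest.Agent.R143.Trans2x690 Crest.Agent.R143.Trans3x690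
  Crest.Agent.R143.Bud3x432 Crest.Agent.R143.HBudx136 Crest.Agent.R143.HGluex136
  Crest.Agent.R143.Dblx609 Crest.Agent.R143.Dbl2x609 Crest.Agent.R143.HTopx690
open scoped ENNReal

/-- total mass of the weight -/
def mass (ε : ℝ) (B : Set ℂ) (g : Set (ℂ × Bool) → ℝ≥0∞) : ℝ≥0∞ :=
  ∫⁻ ω, g (cfg ε ω ∩ ovM Bool B) ∂sampleLaw

/-- **one ring for one mesh** (`z, b` box, `s` width of the ring, `k` size of the big blocks, `c`
lower bound for the mass of the weight, `η` relative energy of the chords) -/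
structure RingM (z : ℂ) (b s k ε c η : ℝ) : Prop where
  ex : ∃ (B : Set ℂ) (g CH CL : Set (ℂ × Bool) → ℝ≥0∞) (R : Sample → ℝ≥0∞),
    MeasurableSet B ∧ Bornology.IsBounded B ∧ Ub z b s ⊆ B ∧ Poisx304.FM g ∧ (∀ X, g X ≤ 1) ∧
    (∀ᵐ ω ∂sampleLaw, g (cfg ε ω ∩ ovM Bool B) ≠ 0 →
      Wf (ps (cfg ε ω)) (sq z b) / 4 ≤ CH (cfg ε ω ∩ ovM Bool B) + CL (cfg ε ω ∩ ovM Bool B) +
        fam.Ph (sq z b) (cfg ε ω) +
        Wf (ps (cfg ε ω)) (Nk (Finset.univ : Finset Unit) (fun _ => sq z b) k ∩ Ub z b s)) ∧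
    (∀ᵐ ω ∂sampleLaw, Qg k (Ub z b s) (points ε ω) (Ap ε B ω) fun X => g X * CL X) ∧
    AEMeasurable R sampleLaw ∧ (∀ᵐ ω ∂sampleLaw, mq ε B (fun X => g X * CH X) ω ≤ R ω) ∧
    ENNReal.ofReal c ≤ mass ε B g ∧
    ∫⁻ ω, R ω ∂sampleLaw ≤ ENNReal.ofReal η * mass ε B g

/-- **all that is left of block H** -/
def HSmallM : Prop := ∃ (z : ℂ) (b : ℝ), 0 < b ∧ ∀ η : ℝ, 0 < η → ∃ s : ℝ, 0 < s ∧ s ≤ η ∧
  ∃ c : ℝ, 0 < c ∧ ∀ k0 : ℝ, 0 < k0 → ∃ k : ℝ, 0 < k ∧ k ≤ k0 ∧ ∃ᶠ ε : ℝ in 𝓝[>] 0,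
    RingM z b s k ε c η

theorem sat_of_smallM (H : HSmallM) : Trans5x690.Sat := by
  have Lw := LLN4x432.lln_famF
  have La := LLN4x432.lln_fam
  have hw := wD_nonneg
  have ha := aD_nonneg
  obtain ⟨z, b, hb, H⟩ := H
  by_contra hcon
  unfold Trans5x690.Sat at hcon
  push Not at hcon
  set Δ : ℝ := (wD / 4 - aD) * b ^ 2 with hΔ
  have hΔ0 : 0 < Δ := by
    have : 0 < wD / 4 - aD := by linarith
    positivity
  obtain ⟨η, hη, hη1⟩ : ∃ η : ℝ, 0 < η ∧ η + wD * (4 * η * b + 4 * η ^ 2) ≤ Δ / 4 := by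
    refine ⟨min 1 (Δ / (4 * (1 + wD * (4 * b + 4)))), by positivity, ?_⟩
    set η := min 1 (Δ / (4 * (1 + wD * (4 * b + 4)))) with hηd
    have h1 : η ≤ 1 := min_le_left _ _
    have h2 : η ≤ Δ / (4 * (1 + wD * (4 * b + 4))) := min_le_right _ _
    have h0 : 0 < η := by positivity
    rw [le_div_iff₀ (by positivity)] at h2
    have h3 : η ^ 2 ≤ η := by nlinarith
    have h4 : wD * (4 * η * b + 4 * η ^ 2) ≤ wD * (4 * η * b + 4 * η) := by
      gcongr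
    nlinarith
  obtain ⟨s, hs, hsη, c, hc, H⟩ := H η hη
  obtain ⟨δ, hδ, hδ1⟩ : ∃ δ : ℝ, 0 < δ ∧ δ + δ / c ≤ Δ / 4 := by
    refine ⟨Δ / (4 * (1 + 1 / c)), by positivity, ?_⟩
    have e : Δ / (4 * (1 + 1 / c)) + Δ / (4 * (1 + 1 / c)) / c = Δ / 4 := by
      field_simp
    exact e.le
  obtain ⟨k0, hk0, hB⟩ := hbudM z hb hs hδ Lw La
  obtain ⟨k, hk, hkk, hF⟩ := H k0 hk0
  obtain ⟨ε, ⟨⟨B, g, CH, CL, R, hBm, hBb, hUB, hg, hg1, hBd, hQ, hR, hRm, hcG, hE⟩⟩, h2⟩ :=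
    (hF.and_eventually (hB k hk hkk)).exists
  have h3 := h2 B hBm hBb hUB g CH CL hg hg1 hBd hQ R hR hRm
  have hG1 : mass ε B g ≤ 1 := by
    unfold mass
    calc ∫⁻ ω, g (cfg ε ω ∩ ovM Bool B) ∂sampleLaw ≤ ∫⁻ _, 1 ∂sampleLaw :=
          lintegral_mono fun ω => hg1 _
      _ = 1 := by simp
  have h4 := divide (u := wD / 4 * b ^ 2) (v := aD * b ^ 2 + wD * (4 * s * b + 4 * s ^ 2) + δ)
    (d := δ) (η := η) hc (by positivity) hδ.le hη.le hcG hG1
    (h3.trans (by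
      show _ ≤ ENNReal.ofReal η * mass ε B g + _ * mass ε B g + _
      gcongr
      exact le_rfl))
  have h5 : wD * (4 * s * b + 4 * s ^ 2) ≤ wD * (4 * η * b + 4 * η ^ 2) := by
    gcongr
  have h6 : Δ = wD / 4 * b ^ 2 - aD * b ^ 2 := by rw [hΔ]; ring
  linarith

/-- **row 143 from block H** -/
theorem body_of_smallM (H : HSmallM) : Spinex422.Body :=
  Trans6x690.body_of_sat (sat_of_smallM H)

end Crest.Agent.R143.HTop2x690
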