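import Crest.Agent.R143.HBud_136
import Crest.Agent.R143.Trans6_690

/-!
# Row 143 (S0194), block H, top quantifiers (helper690)

* `HSmall` : **everything that is left of block H**: one box `sq z b`, for every `η` a ring of width
  `s ≤ η` with a weight `g` of total mass `≥ c(s) > 0` uniformly in `ε`, such that the budget of
  `HBud_136` holds where `g ≠ 0` with an energy `E` of the chords (and of the big closed blocks) with
  `∫ g E ≤ η ∫ g`
* `sat_of_small : LLN famF wD → LLN fam aD → HSmall → Sat`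
* `body_of_small : ... → Body`
-/

set_option autoImplicit false

noncomputable section

open scoped Classical

namespace Crest.Agent.R143.HTopx690

open MeasureTheory Filter Topology
open Crest.ProbabilityR.Voronoi
open Crest.Agent.R143.B0x346 Crest.Agent.R143.SumScx302 Crest.Agent.R143.Mass1x302
  Crest.Agent.R143.Mass2x302
  Crest.Agent.R143.PP0x831 Crest.Agent.R143.Trans2x690 Crest.Agent.R143.Trans3x690
  Crest.Agent.R143.Bud3x432 Crest.Agent.R143.HBudx136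
open scoped ENNReal

/-- the pointwise budget of `hbud` for the weight `g` and the energy `E` -/
def Bdg (z : ℂ) (b s k ε : ℝ) (g E : Sample → ℝ≥0∞) : Prop :=
  ∀ᵐ ω ∂sampleLaw, g ω ≠ 0 → Wf (ps (cfg ε ω)) (sq z b) / 4 ≤ E ω +
    fam.Ph (sq z b) (cfg ε ω) +
    Wf (ps (cfg ε ω)) (Nk (Finset.univ : Finset Unit) (fun _ => sq z b) k ∩ Ub z b s)

/-- **all that is left of block H** -/
def HSmall : Prop := ∃ (z : ℂ) (b : ℝ), 0 < b ∧ ∀ η : ℝ, 0 < η → ∃ s : ℝ, 0 < s ∧ s ≤ η ∧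
  ∃ c : ℝ, 0 < c ∧ ∀ k0 : ℝ, 0 < k0 → ∃ k : ℝ, 0 < k ∧ k ≤ k0 ∧ ∃ᶠ ε : ℝ in 𝓝[>] 0,
    ∃ g E : Sample → ℝ≥0∞, AEMeasurable g sampleLaw ∧ (∀ ω, g ω ≤ 1) ∧ Bdg z b s k ε g E ∧
      ENNReal.ofReal c ≤ ∫⁻ ω, g ω ∂sampleLaw ∧
      ∫⁻ ω, g ω * E ω ∂sampleLaw ≤ ENNReal.ofReal η * ∫⁻ ω, g ω ∂sampleLaw

/-- real form of the division by the mass of the weight -/
theorem divide {G : ℝ≥0∞} {c u v d η : ℝ} (hc : 0 < c) (hv : 0 ≤ v) (hd : 0 ≤ d)
    (hη : 0 ≤ η) (hG : ENNReal.ofReal c ≤ G) (hG1 : G ≤ 1)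
    (h : ENNReal.ofReal u * G ≤ ENNReal.ofReal η * G + ENNReal.ofReal v * G + ENNReal.ofReal d) :
    u ≤ η + v + d / c := by
  have hGt : G ≠ ∞ := ne_top_of_le_ne_top ENNReal.one_ne_top hG1
  have hG0 : G ≠ 0 := by
    rintro rfl
    exact absurd hG (not_le.2 (ENNReal.ofReal_pos.2 hc))
  have h1 : ENNReal.ofReal d ≤ ENNReal.ofReal (d / c) * G := by
    calc ENNReal.ofReal d = ENNReal.ofReal (d / c) * ENNReal.ofReal c := by
          rw [← ENNReal.ofReal_mul (by positivity), div_mul_cancel₀ _ hc.ne']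
      _ ≤ _ := by gcongr
  have h2 : ENNReal.ofReal u * G ≤ ENNReal.ofReal (η + v + d / c) * G := by
    rw [ENNReal.ofReal_add (by positivity) (by positivity), ENNReal.ofReal_add hη hv, add_mul,
      add_mul]
    refine h.trans ?_
    gcongr
  have h3 := (ENNReal.mul_le_mul_iff_left hG0 hGt).1 h2
  exact (ENNReal.ofReal_le_ofReal_iff (by positivity)).1 h3

/-- **the top of block H** -/
theorem sat_of_small (Lw : LLN famF wD) (La : LLN fam aD) (H : HSmall) : Trans5x690.Sat := by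
  have hw := wD_nonneg
  have ha := aD_nonneg
  obtain ⟨z, b, hb, H⟩ := H
  by_contra hcon
  unfold Trans5x690.Sat at hcon
  push Not at hcon
  set Δ : ℝ := (wD / 4 - aD) * b ^ 2 with hΔ
  have hΔ0 : 0 < Δ := by
    have : 0 < wD / 4 - aD := by linarith
    positivity
  obtain ⟨η, hη, hη1⟩ : ∃ η : ℝ, 0 < η ∧ η + wD * (4 * η * b + 4 * η ^ 2) ≤ Δ / 4 := by
    refine ⟨min 1 (Δ / (4 * (1 + wD * (4 * b + 4)))), by positivity, ?_⟩
    set η := min 1 (Δ / (4 * (1 + wD * (4 * b + 4)))) with hηd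
    have h1 : η ≤ 1 := min_le_left _ _
    have h2 : η ≤ Δ / (4 * (1 + wD * (4 * b + 4))) := min_le_right _ _
    have h0 : 0 < η := by positivity
    rw [le_div_iff₀ (by positivity)] at h2
    have h3 : η ^ 2 ≤ η := by nlinarith
    have h4 : wD * (4 * η * b + 4 * η ^ 2) ≤ wD * (4 * η * b + 4 * η) := by
      gcongr
    nlinarith
  obtain ⟨s, hs, hsη, c, hc, H⟩ := H η hη
  obtain ⟨δ, hδ, hδ1⟩ : ∃ δ : ℝ, 0 < δ ∧ δ + δ / c ≤ Δ / 4 := by
    refine ⟨Δ / (4 * (1 + 1 / c)), by positivity, ?_⟩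
    have e : Δ / (4 * (1 + 1 / c)) + Δ / (4 * (1 + 1 / c)) / c = Δ / 4 := by
      field_simp
    exact e.le
  obtain ⟨k0, hk0, hB⟩ := hbud Lw La z hb hs hδ
  obtain ⟨k, hk, hkk, hF⟩ := H k0 hk0
  obtain ⟨ε, ⟨g, E, hg, hg1, hBd, hcG, hE⟩, h2⟩ := (hF.and_eventually (hB k hk hkk)).exists
  have h3 := h2 g E hg hg1 hBd
  have hG1 : ∫⁻ ω, g ω ∂sampleLaw ≤ 1 := by
    calc ∫⁻ ω, g ω ∂sampleLaw ≤ ∫⁻ _, 1 ∂sampleLaw := lintegral_mono hg1
      _ = 1 := by simp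
  have h4 := divide (u := wD / 4 * b ^ 2) (v := aD * b ^ 2 + wD * (4 * s * b + 4 * s ^ 2) + δ)
    (d := δ) (η := η) hc (by positivity) hδ.le hη.le hcG hG1
    (h3.trans (by gcongr))
  have h5 : wD * (4 * s * b + 4 * s ^ 2) ≤ wD * (4 * η * b + 4 * η ^ 2) := by
    gcongr
  have h6 : Δ = wD / 4 * b ^ 2 - aD * b ^ 2 := by rw [hΔ]; ring
  linarith

theorem body_of_small (Lw : LLN famF wD) (La : LLN fam aD) (H : HSmall) :
    Spinex422.Body := Trans6x690.body_of_sat (sat_of_small Lw La H)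

end Crest.Agent.R143.HTopx690
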