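import Crest.Agent.R143.CorrC_831
import Crest.Agent.R143.SpM_169
import Crest.Agent.R143.GWX_597
import Crest.Agent.R143.RegE_523

/-!
# Row 143 (S0194), RIG: the hypothesis `hV` of 166's `quen_n` (helper832)

* `zs_face`, `zs_cor`, **`zs_corS`** : 166's field `zs om z` is 169's `fP` of the face, on the faces with
  two sites in an enlarged strip of the corridor
* **`vs_of`** : 166's `Vs` of the strand (831's output, uniqueness) = 169's `VL`
* `VL_clr` : `VL` at the colouring of the cells and at the coloured sites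
* **`hV_S`** : `V j (clr S b) = Vs .. (n - 1 - j) (chiS b)`, `V j = VL D P (η / 2) fP o n j`;
  **`hV_C`** : from the last output of 831's `hx_S`
-/

set_option autoImplicit false
set_option linter.all false

noncomputable section

open scoped Classical

namespace Crest.Agent.R143.HVx832

open Set MeasureTheory
open Crest.Agent.R143.B0x346 Crest.Agent.R143.DelGx806 Crest.Agent.R143.DelRx806
  Crest.Agent.R143.JColx54
open Crest.Agent.R143.Frame1x395 Crest.Agent.R143.Frame2x395 Crest.Agent.R143.Frame3x395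
  Crest.Agent.R143.Frame4x395 Crest.Agent.R143.Frame8x395 Crest.Agent.R143.Frame9x395
  Crest.Agent.R143.Frame10x395 Crest.Agent.R143.Frame11x395
open Crest.Agent.R143.Frame5x395 (sd mem_sd th th_spec)
open Crest.Agent.R143.Locx922
open Crest.Agent.R143.Splx117 Crest.Agent.R143.WLocx713
open Crest.Agent.R143.PP0x831 Crest.Agent.R143.FinMx609 Crest.Agent.R143.PWx978
  Crest.Agent.R143.Tplx978
open Crest.Agent.R143.Janx304 (ovr)
open Crest.Agent.R143.TileRx228 Crest.Agent.R143.PthFx765 Crest.Agent.R143.TplIx204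
open Crest.Agent.R143.CorHx713 Crest.Agent.R143.Sptx169 Crest.Agent.R143.Sptx832
  Crest.Agent.R143.SpRx169 Crest.Agent.R143.SpVx169 Crest.Agent.R143.CorVx169
  Crest.Agent.R143.Spt2x832 Crest.Agent.R143.Rstx832 Crest.Agent.R143.SpMx169
open Crest.Agent.R143.RingDx117 (RD)
open Crest.Agent.R143.OutSx358 (Sys)
open Crest.Agent.R143.SysCx166 (Vs Hv Hx)
open Crest.Agent.R143.Coarse2x166 (zs)
open Crest.Agent.R143.FinCx811 Crest.Agent.R143.ColXx829 Crest.Agent.R143.SmallAx304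
open Crest.Agent.R143.CorrIx831 (Ft Bk Stk bst tlt)
open Crest.Agent.R143.IndLoc3x279 (clr)
open Crest.Agent.R143.IndLocx279

/-! ### the field -/

/-- **the field is a function of the face** -/
theorem zs_face {S : Finset ℂ} (hS : GP (S : Set ℂ)) {z : Cs hS → ℂ}
    (hz : ∀ d : D0 S, ¬ OnHull S d.1.1 → z ((rc0 hS).cell d) = d.1.1) {e : D0 S}
    (h1 : ¬ OnHull S e.1.1) (h2 : ¬ OnHull S e.1.2) (h3 : ¬ OnHull S (th S e.1)) :
    zs (rc0 hS) om z e = fP (e.1.2, th S e.1, e.1.1) := by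
  have e3 : ((rc0 hS).rho ((rc0 hS).rho e)).1.1 = th S e.1 := th0 hS (th_spec e.2)
  have a1 : z ((rc0 hS).cell e) = e.1.1 := hz _ h1
  have a2 : z ((rc0 hS).cell ((rc0 hS).rho e)) = e.1.2 := hz _ h2
  have a3 : z ((rc0 hS).cell ((rc0 hS).rho ((rc0 hS).rho e))) = th S e.1 := by
    rw [hz _ (by rw [e3]; exact h3), e3]
  unfold zs fP
  rw [a1, a2, a3]

/-- the positions of the inner sites -/
theorem hz_zc {S : Finset ℂ} (hS : GP (S : Set ℂ)) (d : D0 S) (h : ¬ OnHull S d.1.1) :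
    C2SDx395.zc hS id ((rc0 hS).cell d) = d.1.1 := C2SDx395.zc_eq (z := id) h rfl

section cor

variable {D : DT} {M : ℕ} {W : ℤ → ℤ × ℤ} {η d : ℝ} {X : Set (ℂ × Bool)} {U : Set ℂ} {o : ℤ}
  {n : ℕ}

/-- a face with two sites in an enlarged strip has its three sites in `U` -/
theorem face_U (H : CorH X U M W η d o n) {k : ℕ} {e : D0 (sX X)}
    (h2 : e.1.2 ∈ Bk η W o k) (h3 : th (sX X) e.1 ∈ Bk η W o k) :
    e.1.1 ∈ U ∧ e.1.2 ∈ U ∧ th (sX X) e.1 ∈ U := by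
  have e1 := H.e0
  have e2 := H.d0
  have e3 := H.de
  have u2 : e.1.2 ∈ U := H.sub_U (by linarith) (by linarith) (o + k) h2
  have u3 : th (sX X) e.1 ∈ U := H.sub_U (by linarith) (by linarith) (o + k) h3
  refine ⟨?_, u2, u3⟩
  have h : ((e.1.1, e.1.2, th (sX X) e.1) : ℂ × ℂ × ℂ) ∈ delT (sX X) := th_spec e.2
  have hne : Crest.Agent.R143.Blkx838.DE (sX X) e.1.2 e.1.1 := Or.inr ⟨th (sX X) e.1, h⟩
  have h4 := H.step u2 hne
  have h5 := RegEx523.RR_thick (A := 19 / 2 * η) (B := 103 / 2 * η) H.path h2 h4.le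
  exact H.sub_U (by linarith) (by linarith) (o + k) h5

/-- **166's field on the faces of the corridor** -/
theorem zs_cor (H : CorH X U M W η d o n) {z : Cs H.gp → ℂ}
    (hz : ∀ d : D0 (sX X), ¬ OnHull (sX X) d.1.1 → z ((rc0 H.gp).cell d) = d.1.1) {k : ℕ}
    {e : D0 (sX X)} (h2 : e.1.2 ∈ Bk η W o k) (h3 : th (sX X) e.1 ∈ Bk η W o k) :
    zs (rc0 H.gp) om z e = fP (e.1.2, th (sX X) e.1, e.1.1) := by
  obtain ⟨u1, u2, u3⟩ := face_U H h2 h3
  exact zs_face H.gp hz (H.inn u1) (H.inn u2) (H.inn u3)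

/-- the same, sites `S` -/
theorem zs_corS {S : Finset ℂ} (hS : GP (S : Set ℂ)) (eS : sX X = S) (H : CorH X U M W η d o n)
    {z : Cs hS → ℂ} (hz : ∀ d : D0 S, ¬ OnHull S d.1.1 → z ((rc0 hS).cell d) = d.1.1) (k : ℕ)
    (e : D0 S) (h2 : e.1.2 ∈ Bk η W o k) (h3 : th S e.1 ∈ Bk η W o k) :
    zs (rc0 hS) om z e = fP (e.1.2, th S e.1, e.1.1) := by
  subst eS
  exact zs_cor H hz h2 h3

/-- no hull site in the three tiles of `VT` -/
theorem reg3_inn {S : Finset ℂ} (eS : sX X = S) (H : CorH X U M W η d o n) (s : IsS D η) (a : ℤ) :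
    ∀ v ∈ S, v ∈ reg3 D W a → ¬ OnHull S v := by
  subst eS
  have e1 := H.e0
  intro v _ hv
  obtain ⟨j, -, hj⟩ := mem_iUnion₂.1 hv
  rw [s.A', s.B', s.h] at hj
  exact H.inn (H.sub_U (by linarith) (by linarith) _ hj)

/-- **the charge at the colouring of the cells and at the coloured sites** -/
theorem VL_clr {S : Finset ℂ} {hS : GP (S : Set ℂ)} {h3 : 3 ≤ S.card} {b : Finset ℂ}
    (hin : ∀ a, ∀ v ∈ S, v ∈ reg3 D W a → ¬ OnHull S v) (P : FPath M W) (r : ℝ)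
    (f : ℂ × ℂ × ℂ → ℂ) (N l : ℕ) :
    VL D P r f o N l (Xc hS h3 (chiS hS h3 b)) = VL D P r f o N l (clr S b) := by
  by_cases h : 2 ≤ l ∧ l + 2 < N
  · rw [VL_of D P r h.1 h.2]
    exact GWXx597.loc_chiS (VT_local3 D P r f _) (hin _)
  · rw [VL_not D P r h]

section vs

variable {ι : Type}

/-- **166's charges are 169's** (`j` the normal index) -/
theorem vs_of (H : CorH X U M W η d o n) (s : IsS D η) {S : Finset ℂ} {hS : GP (S : Set ℂ)}
    {Hh Rw : Set (Cs hS)} {Qs : Set (D0 S)} {pa : ι → (Cs hS → ZMod 2) → D0 S}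
    {na : ι → (Cs hS → ZMod 2) → ℕ} {Ev : ι → (Cs hS → ZMod 2) → Prop}
    (Y : Sys (rc0 hS) Hh Rw Qs pa na Ev) {i : ι} {σ : Cs hS → ZMod 2} (hi : Ev i σ)
    {F : ℕ → Set (D0 S)} {w : D0 S → ℂ} {f : ℂ × ℂ × ℂ → ℂ}
    (hv : ∀ l, 2 ≤ l → l + 2 < n →
      KS (rc0 hS) (cfg (rc0 hS) σ) (pa i σ) (rst w (F l)) 0 (na i σ) =
        VX f n (Bk η W o) (QX (100 * η) W o n) (Stk η W o) (n - 1 - l) X) {j : ℕ} (j2 : 2 ≤ j)
    (jn : j + 2 < n) :
    Vs (rc0 hS) pa na Ev w F (n - 1 - j) σ = VL D H.path (η / 2) f o n j X := by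
  have h := hv (n - 1 - j) (by omega) (by omega)
  rw [show n - 1 - (n - 1 - j) = j by omega] at h
  have e1 : VX f n (Bk η W o) (QX (100 * η) W o n) (Stk η W o) j X =
      VL D H.path (η / 2) f o n j X := H.vx_vl s (by omega) (by omega) f
  rw [← e1, ← h]
  unfold Vs
  refine StGluex867.pick_eq (fun i j σ hi hj => ?_) hi
  obtain ⟨e3, e4⟩ := Y.uni i j σ hi hj
  rw [e3, e4]

/-- **the hypothesis `hV` of `quen_n`** at one set of black sites -/
theorem hV_S {S : Finset ℂ} {hS : GP (S : Set ℂ)} {h3 : 3 ≤ S.card} {b : Finset ℂ}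
    (H : CorH (Xc hS h3 (chiS hS h3 b)) U M W η d o n) (s : IsS D η)
    {Hh Rw : Set (Cs hS)} {Qs : Set (D0 S)} {pa : ι → (Cs hS → ZMod 2) → D0 S}
    {na : ι → (Cs hS → ZMod 2) → ℕ} {Ev : ι → (Cs hS → ZMod 2) → Prop}
    (Y : Sys (rc0 hS) Hh Rw Qs pa na Ev) {i : ι} (hi : Ev i (chiS hS h3 b))
    {F : ℕ → Set (D0 S)} {z : Cs hS → ℂ}
    (hz : ∀ d : D0 S, ¬ OnHull S d.1.1 → z ((rc0 hS).cell d) = d.1.1)
    (hv : ∀ {f : ℂ × ℂ × ℂ → ℂ} {w : D0 S → ℂ}, (∀ k, k < n → ∀ e : D0 S,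
        e.1.2 ∈ Bk η W o k → th S e.1 ∈ Bk η W o k → w e = f (e.1.2, th S e.1, e.1.1)) →
      ∀ l, 2 ≤ l → l + 2 < n →
        KS (rc0 hS) (cfg (rc0 hS) (chiS hS h3 b)) (pa i (chiS hS h3 b)) (rst w (F l)) 0
            (na i (chiS hS h3 b)) =
          VX f n (Bk η W o) (QX (100 * η) W o n) (Stk η W o) (n - 1 - l)
            (Xc hS h3 (chiS hS h3 b))) {j : ℕ} (j2 : 2 ≤ j) (jn : j + 2 < n) :
    VL D H.path (η / 2) fP o n j (clr S b) =
      Vs (rc0 hS) pa na Ev (zs (rc0 hS) om z) F (n - 1 - j) (chiS hS h3 b) := by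
  rw [vs_of H s Y hi (hv (f := fP) (w := zs (rc0 hS) om z) fun k _ e a1 a2 =>
    zs_corS hS sX_Xc H hz k e a1 a2) j2 jn]
  exact (VL_clr (hS := hS) (h3 := h3) (fun a => reg3_inn sX_Xc H s a) H.path (η / 2) fP n j).symm

/-- the same from the last output of `CorrIx831.hx_S` -/
theorem hV_C {S : Finset ℂ} {hS : GP (S : Set ℂ)} {h3 : 3 ≤ S.card} {b : Finset ℂ}
    (H : CorH (Xc hS h3 (chiS hS h3 b)) U M W η d o n) (s : IsS D η)
    {pa : ι → (Cs hS → ZMod 2) → D0 S} {na : ι → (Cs hS → ZMod 2) → ℕ}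
    {Ev : ι → (Cs hS → ZMod 2) → Prop} {F : ℕ → Set (D0 S)} {z : Cs hS → ℂ}
    (hz : ∀ d : D0 S, ¬ OnHull S d.1.1 → z ((rc0 hS).cell d) = d.1.1)
    (hv : ∀ {f : ℂ × ℂ × ℂ → ℂ} {w : D0 S → ℂ}, (∀ k, k < n → ∀ e : D0 S,
        e.1.2 ∈ Bk η W o k → th S e.1 ∈ Bk η W o k → w e = f (e.1.2, th S e.1, e.1.1)) →
      ∀ l, 2 ≤ l → l + 2 < n → Vs (rc0 hS) pa na Ev w F l (chiS hS h3 b) =
        VX f n (Bk η W o) (QX (100 * η) W o n) (Stk η W o) (n - 1 - l)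
          (Xc hS h3 (chiS hS h3 b))) {j : ℕ} (j2 : 2 ≤ j) (jn : j + 2 < n) :
    VL D H.path (η / 2) fP o n j (clr S b) =
      Vs (rc0 hS) pa na Ev (zs (rc0 hS) om z) F (n - 1 - j) (chiS hS h3 b) := by
  rw [hv (f := fP) (w := zs (rc0 hS) om z) (fun k _ e a1 a2 =>
    zs_corS hS sX_Xc H hz k e a1 a2) (n - 1 - j) (by omega) (by omega),
    show n - 1 - (n - 1 - j) = j by omega]
  refine Eq.trans ?_ (H.vx_vl s (by omega) (by omega) fP).symm
  exact (VL_clr (hS := hS) (h3 := h3) (fun a => reg3_inn sX_Xc H s a) H.path (η / 2) fP n j).symm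

end vs

end cor

end Crest.Agent.R143.HVx832
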