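import Crest.Agent.R143.RE3_723
import Crest.Agent.R143.SSb_930
import Crest.Agent.R143.HUL_838
import Crest.Agent.R143.Ex2_922

/-!
# Row 143, RBE, T3a: walks to the hull (helper723)

* `ext_hull` : a site which is extreme in some direction is on the hull
* `walkH` : every site is joined to the hull in every half plane at it
* `edge5` : the edges are shorter than `5 √(R d)`
-/

set_option autoImplicit false

noncomputable section

open scoped Classical

namespace Crest.Agent.R143.RE4x723

open Set Filter Topology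
open Crest.Agent.R143.B0x346 Crest.Agent.R143.DelGx806 Crest.Agent.R143.DelRx806
  Crest.Agent.R143.JColx54 Crest.Agent.R143.RE0x723

variable {S : Finset ℂ} {V W : Set ℂ} {x y z : ℂ}

/-- barycentric form of a linear function on a triangle -/
theorem bary_dt (a b c x v e : ℂ) : cr (b - a) (c - a) * dt (x - v) e =
    cr (c - b) (x - b) * dt (a - v) e + cr (a - c) (x - c) * dt (b - v) e +
    cr (b - a) (x - a) * dt (c - v) e := by
  rw [cr_sub, cr_sub, cr_sub, cr_sub]
  unfold dt
  simp only [Complex.sub_re, Complex.sub_im]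
  ring

/-- **a site which is extreme in the direction `e` is on the hull** -/
theorem ext_hull (hS : GP (S : Set ℂ)) (h3 : 3 ≤ S.card) {v e : ℂ} (hv : v ∈ S) (he : e ≠ 0)
    (hmax : ∀ s ∈ S, dt (s - v) e ≤ 0) : ∃ x y, hullE S x y ∧ (x = v ∨ y = v) := by
  by_contra hcon
  push Not at hcon
  have hev : ∀ᶠ t : ℝ in 𝓝[>] 0, ∀ p ∈ (S ×ˢ S).filter (fun p => 0 < cr (p.2 - p.1) (v - p.1)),
      0 < cr (p.2 - p.1) (v + (t : ℂ) * e - p.1) := by
    rw [Filter.eventually_all_finset]
    intro p hp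
    have h1 := (Finset.mem_filter.1 hp).2
    have hc : Continuous fun t : ℝ => cr (p.2 - p.1) (v + (t : ℂ) * e - p.1) := by
      unfold cr
      fun_prop
    have := hc.continuousAt (x := 0)
    have h2 : ∀ᶠ t : ℝ in 𝓝 0, 0 < cr (p.2 - p.1) (v + (t : ℂ) * e - p.1) := by
      refine this.eventually (IsOpen.mem_nhds isOpen_Ioi ?_)
      simpa using h1
    exact h2.filter_mono nhdsWithin_le_nhds
  obtain ⟨t, ht, ht0⟩ := (hev.and self_mem_nhdsWithin).exists
  have hin : InHull S (v + (t : ℂ) * e) := by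
    intro a b hab
    obtain ⟨h1, h2⟩ := hcon a b hab
    have h4 := hull_side_lt hS hab hv h1 h2
    obtain ⟨ha, hb⟩ := hullE.mem hab
    exact (ht (a, b) (Finset.mem_filter.2 ⟨Finset.mem_product.2 ⟨ha, hb⟩, h4⟩)).le
  obtain ⟨a, b, c, o, hT, ⟨i1, i2, i3⟩, -⟩ := cover hS h3 hin
  have hb := bary_dt a b c (v + (t : ℂ) * e) v e
  have hpos : 0 < dt ((v + (t : ℂ) * e) - v) e := by
    have e1 : (v + (t : ℂ) * e) - v = (t : ℂ) * e := by ring
    have h5 := dt_pos he
    rw [e1]
    have : dt ((t : ℂ) * e) e = t * dt e e := by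
      unfold dt
      simp only [Complex.mul_re, Complex.mul_im, Complex.ofReal_re, Complex.ofReal_im]
      ring
    rw [this]
    exact mul_pos ht0 h5
  have hc : 0 < cr (b - a) (c - a) := hT.pos
  have h1 := mul_nonneg i2 (neg_nonneg.2 (hmax a hT.ma))
  have h2 := mul_nonneg i3 (neg_nonneg.2 (hmax b hT.mb))
  have h4 := mul_nonneg i1 (neg_nonneg.2 (hmax c hT.mc))
  have h5 := mul_pos hc hpos
  linarith

/-- **half plane walk** -/
theorem walkH (hS : GP (S : Set ℂ)) (h3 : 3 ≤ S.card) {e : ℂ} (he : e ≠ 0) :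
    ∀ (q : ℕ) (v : ℂ), v ∈ S → (S.filter fun s => 0 < dt (s - v) e).card ≤ q →
    ∃ x y, hullE S x y ∧ Pth S {s | s ∈ S ∧ 0 ≤ dt (s - v) e} v x := by
  intro q
  induction q with
  | zero =>
    intro v hv hc
    obtain ⟨x, y, hxy, h⟩ := ext_hull hS h3 hv he (fun s hs => by
      by_contra hcon
      push Not at hcon
      have : s ∈ S.filter fun s => 0 < dt (s - v) e := Finset.mem_filter.2 ⟨hs, hcon⟩
      have := Finset.card_pos.2 ⟨s, this⟩
      omega)
    have hm : v ∈ {s | s ∈ S ∧ 0 ≤ dt (s - v) e} := ⟨hv, by rw [sub_self]; unfold dt; simp⟩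
    rcases h with rfl | rfl
    · exact ⟨x, y, hxy, Pth.refl hm⟩
    · obtain ⟨c, hc, -⟩ := hull_succ hS hxy
      exact ⟨y, c, hc, Pth.refl hm⟩
  | succ q ih =>
    intro v hv hc
    have hm : v ∈ {s | s ∈ S ∧ 0 ≤ dt (s - v) e} := ⟨hv, by rw [sub_self]; unfold dt; simp⟩
    by_cases hex : ∃ s ∈ S, 0 < dt (s - v) e
    · obtain ⟨u, hu, hue⟩ := lower_nb hS h3 hv hex
      have huS := hu.mem.2
      obtain ⟨x, y, hxy, hp⟩ := ih u huS (by
        have : (S.filter fun s => 0 < dt (s - u) e) ⊂ S.filter fun s => 0 < dt (s - v) e := by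
          rw [Finset.ssubset_iff_of_subset]
          · refine ⟨u, Finset.mem_filter.2 ⟨huS, hue⟩, fun h => ?_⟩
            have := (Finset.mem_filter.1 h).2
            rw [sub_self] at this
            unfold dt at this
            simp at this
          · intro s hs
            obtain ⟨h1, h2⟩ := Finset.mem_filter.1 hs
            refine Finset.mem_filter.2 ⟨h1, ?_⟩
            rw [dt_sub_left] at h2 hue ⊢
            linarith
        have := Finset.card_lt_card this
        omega)
      refine ⟨x, y, hxy, (Pth.single hm hu ⟨huS, hue.le⟩).trans (hp.mono ?_)⟩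
      rintro s ⟨h1, h2⟩
      refine ⟨h1, ?_⟩
      rw [dt_sub_left] at h2 hue ⊢
      linarith
    · push Not at hex
      obtain ⟨x, y, hxy, h⟩ := ext_hull hS h3 hv he hex
      rcases h with rfl | rfl
      · exact ⟨x, y, hxy, Pth.refl hm⟩
      · obtain ⟨c, hc, -⟩ := hull_succ hS hxy
        exact ⟨y, c, hc, Pth.refl hm⟩

/-- edges -/
theorem edge5 {c : ℂ} {L d : ℝ} (hD : DomAx722.Dns S c L d) (h : Adj S x y) :
    ‖x - y‖ ≤ 5 * Real.sqrt (L * d) := by
  rcases h with ⟨w, h⟩ | ⟨w, h⟩
  · obtain ⟨o, hT⟩ := mem_delT_iff.1 h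
    refine Ex2x922.tri_near hD h (x := y) ⟨?_, ?_, ?_⟩
    · unfold cr; nlinarith
    · rw [sub_self]; unfold cr; simp
    · have := hT.pos
      have e : cr (x - w) (y - w) = cr (y - x) (w - x) := by rw [cr_sub, cr_sub]; ring
      rw [e]
      exact this.le
  · obtain ⟨o, hT⟩ := mem_delT_iff.1 h
    rw [norm_sub_rev]
    refine Ex2x922.tri_near hD h (x := x) ⟨?_, ?_, ?_⟩
    · unfold cr; nlinarith
    · rw [sub_self]; unfold cr; simp
    · have := hT.pos
      have e : cr (y - w) (x - w) = cr (x - y) (w - y) := by rw [cr_sub, cr_sub]; ring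
      rw [e]
      exact this.le

end Crest.Agent.R143.RE4x723
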