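import Crest.Agent.R143.HarmA_802
import Crest.Agent.R143.HUL_838
import Crest.Agent.R143.RE4_723
import Crest.Agent.R143.Near_440

/-!
# Row 143 (S0194), CONT: one arm up to the hull, file 2 (helper802)

* `NH` : frame at a point `x` of the circle
* `bot`, `top` : the hull sites near the axis
* `labels` : the four arcs of the hull around `x`
* `quad` : the quad of the half annulus
-/

set_option autoImplicit false

noncomputable section

open scoped Classical

namespace Crest.Agent.R143.HarmBx802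

open Set
open Crest.Agent.R143.B0x346 Crest.Agent.R143.B0Dx346 Crest.Agent.R143.DelGx806
  Crest.Agent.R143.DelRx806 Crest.Agent.R143.DomAx722 Crest.Agent.R143.DomBx722
  Crest.Agent.R143.RE0x723 Crest.Agent.R143.HULx838 Crest.Agent.R143.RE4x723
open Crest.Agent.R143.Crsx117 (M4 w_inj)
open Crest.Agent.R143.JColx54 (Adj)

variable {S : Finset ℂ} {x0 x u s y : ℂ} {L e a R ρ θ : ℝ} {n : ℕ} {w : ℤ → ℂ}
  {i0 i1 i2 i3 : ℤ}

/-- frame at the point `x` of the circle, `u * I` = inner normal -/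
structure NH (S : Finset ℂ) (x0 : ℂ) (L e : ℝ) (u x : ℂ) : Prop where
  u1 : ‖u‖ = 1
  D : Dns S x0 L e
  hx : x0 = x + u * ((L : ℂ) * Complex.I)

namespace NH

variable (H : NH S x0 L e u x)

include H

theorem e0 : 0 < e := H.D.dpos

theorem L0 : 0 < L := by linarith [H.D.dpos, H.D.dL]

theorem une : u ≠ 0 := u_ne H.u1

theorem div_x0 : (x0 - x) / u = (L : ℂ) * Complex.I := by
  rw [H.hx, add_sub_cancel_left, mul_div_cancel_left₀ _ H.une]

theorem X0 : X x u x0 = 0 := by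
  unfold X
  rw [H.div_x0]
  simp

theorem Y0 : Y x u x0 = L := by
  unfold Y
  rw [H.div_x0]
  simp

theorem nxx : ‖x0 - x‖ = L := by
  rw [H.hx, add_sub_cancel_left, norm_mul, H.u1, one_mul, norm_mul, Complex.norm_I, mul_one,
    Complex.norm_real, Real.norm_eq_abs, abs_of_pos H.L0]

theorem sq0 (s : ℂ) : ‖s - x0‖ ^ 2 = X x u s ^ 2 + (L - Y x u s) ^ 2 := by
  have h := sq_XY (z0 := x) H.u1 s x0
  rw [H.X0, H.Y0] at h
  rw [h]
  ring

theorem sqx (s : ℂ) : ‖s - x‖ ^ 2 = X x u s ^ 2 + Y x u s ^ 2 := by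
  have h := sq_XY (z0 := x) H.u1 s x
  have h1 : X x u x = 0 := by unfold X; simp
  have h2 : Y x u x = 0 := by unfold Y; simp
  rw [h1, h2] at h
  rw [h]
  ring

theorem aX (s : ℂ) : |X x u s| ≤ ‖s - x‖ := by
  apply abs_le_of_sq_le_sq _ (norm_nonneg _)
  rw [H.sqx]
  nlinarith [sq_nonneg (Y x u s)]

theorem aY (s : ℂ) : |Y x u s| ≤ ‖s - x‖ := by
  apply abs_le_of_sq_le_sq _ (norm_nonneg _)
  rw [H.sqx]
  nlinarith [sq_nonneg (X x u s)]

/-- distance to the centre of the frame -/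
theorem dist_le (s : ℂ) : ‖s - x‖ ≤ |X x u s| + |Y x u s| := by
  apply le_of_sq_le_sq _ (by positivity)
  rw [H.sqx, add_sq, sq_abs, sq_abs]
  have : 0 ≤ 2 * |X x u s| * |Y x u s| := by positivity
  linarith

/-- a hull site near the axis, on an edge to the right, is at the bottom -/
theorem bot (h : hullE S s y) (hx : |X x u s| ≤ L / 4) (hxy : X x u s ≤ X x u y) :
    ‖s - x‖ ≤ |X x u s| + (2 * e + 2 * X x u s ^ 2 / L) := by
  have he := H.e0
  have hL := H.L0
  have h8 := H.D.dL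
  have e1 := edge_dist H.D h
  have e2 := (hull_far H.D h).1
  have e3 := H.D.sub s (hullE.mem h).1
  have e5 := H.sq0 s
  rw [cr_XY (z0 := x) H.u1, H.X0, H.Y0] at e1
  have e4 := Y_diff (z0 := x) H.u1 y s
  have hn : 0 < ‖y - s‖ := norm_pos_iff.2 (sub_ne_zero.2 (hullE.ne h).symm)
  set xx := X x u s with hxx
  set yy := Y x u s with hyy
  have hs : yy < L := by
    by_contra hcon
    push Not at hcon
    have g1 : (X x u y - xx) * (L - yy) ≤ 0 :=
      mul_nonpos_of_nonneg_of_nonpos (by linarith) (by linarith)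
    have g2 : (Y x u y - yy) * xx ≤ ‖y - s‖ * (L / 4) := by
      calc (Y x u y - yy) * xx ≤ |(Y x u y - yy) * xx| := le_abs_self _
        _ = |Y x u y - yy| * |xx| := abs_mul _ _
        _ ≤ ‖y - s‖ * (L / 4) := mul_le_mul e4 hx (abs_nonneg _) hn.le
    have g3 : (L - 2 * e) * ‖y - s‖ ≤ (L / 4) * ‖y - s‖ := by linarith
    have g4 := le_of_mul_le_mul_right g3 hn
    linarith
  have hx2 : xx ^ 2 ≤ L ^ 2 / 16 := by
    rw [← sq_abs]
    have := pow_le_pow_left₀ (abs_nonneg _) hx 2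
    linarith [show (L / 4) ^ 2 = L ^ 2 / 16 by ring]
  -- `0 ≤ Y`
  have hy0 : 0 ≤ yy := by
    by_contra hcon
    push Not at hcon
    have g1 : ‖s - x0‖ ^ 2 ≤ L ^ 2 := pow_le_pow_left₀ (norm_nonneg _) e3 2
    nlinarith
  have hyu : yy ≤ 2 * e + 2 * xx ^ 2 / L := by
    by_contra hcon
    push Not at hcon
    have g1 : (L - 2 * e) ^ 2 ≤ ‖s - x0‖ ^ 2 := pow_le_pow_left₀ (by linarith) e2 2
    set q := xx ^ 2 / L with hq
    have hq0 : 0 ≤ q := by positivity
    have hqL : q * L = xx ^ 2 := by rw [hq]; field_simp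
    have hq1 : 2 * xx ^ 2 / L = 2 * q := by rw [hq]; ring
    rw [hq1] at hcon
    have hq2 : q ≤ L / 16 := by
      rw [hq, div_le_iff₀ hL]
      linarith [show L / 16 * L = L ^ 2 / 16 by ring]
    have g2 : (L - yy) ^ 2 < (L - 2 * e - 2 * q) ^ 2 := by
      apply pow_lt_pow_left₀ _ (by linarith) (by norm_num)
      linarith
    nlinarith
  have := H.dist_le s
  rw [abs_of_nonneg hy0] at this
  linarith

/-- a hull site near the axis, on an edge to the left, is at the top -/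
theorem top (h : hullE S s y) (hx : |X x u s| ≤ L / 4) (hxy : X x u y ≤ X x u s) :
    L ≤ ‖s - x‖ := by
  have he := H.e0
  have hL := H.L0
  have h8 := H.D.dL
  have e1 := edge_dist H.D h
  rw [cr_XY (z0 := x) H.u1, H.X0, H.Y0] at e1
  have e4 := Y_diff (z0 := x) H.u1 y s
  have hn : 0 < ‖y - s‖ := norm_pos_iff.2 (sub_ne_zero.2 (hullE.ne h).symm)
  by_contra hcon
  push Not at hcon
  have hY := (le_abs_self _).trans (H.aY s)
  have g1 : (X x u y - X x u s) * (L - Y x u s) ≤ 0 :=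
    mul_nonpos_of_nonpos_of_nonneg (by linarith) (by linarith)
  have g2 : (Y x u y - Y x u s) * X x u s ≤ ‖y - s‖ * (L / 4) := by
    calc (Y x u y - Y x u s) * X x u s ≤ |(Y x u y - Y x u s) * X x u s| := le_abs_self _
      _ = |Y x u y - Y x u s| * |X x u s| := abs_mul _ _
      _ ≤ ‖y - s‖ * (L / 4) := mul_le_mul e4 hx (abs_nonneg _) hn.le
  have g3 : (L - 2 * e) * ‖y - s‖ ≤ (L / 4) * ‖y - s‖ := by linarith
  have g4 := le_of_mul_le_mul_right g3 hn
  linarith

/-- a hull site near every direction -/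
theorem near (hc : HullCyc S n w) {q : ℂ} (hq : ‖q‖ = 1) :
    ∃ i, ‖w i - (x0 + L * q)‖ ≤ 6 * Real.sqrt (L * e) := by
  obtain ⟨p, hp⟩ := crossRay_exists H.D hq
  have h1 := (crossRay_ends H.D hq hp).1
  obtain ⟨i, -, -, hi, -⟩ := hc.all _ _ hp.1
  exact ⟨i, by rw [hi]; exact h1⟩

end NH

/-- the four arcs of the hull around `x` -/
structure Lab4 (S : Finset ℂ) (x u : ℂ) (a R : ℝ) (n : ℕ) (w : ℤ → ℂ) (i0 i1 i2 i3 : ℤ) :
    Prop where
  m4 : M4 S n w i0 i1 i2 i3
  l0 : ∀ k, i0 < k → k ≤ i1 → X x u (w k) ≤ -(2 * a) ∧ ‖w k - x‖ < R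
  l1 : ∀ k, i1 < k → k ≤ i2 → ‖w k - x‖ ≤ 3 * a
  l2 : ∀ k, i2 < k → k ≤ i3 → 2 * a < X x u (w k) ∧ ‖w k - x‖ < R
  l3 : ∀ k, i3 < k → k ≤ i0 + n → R / 2 ≤ ‖w k - x‖
  mid : ∃ k, i1 < k ∧ k ≤ i2 ∧ ‖w k - x‖ ≤ a

/-- scales -/
structure Sc (L e a R : ℝ) : Prop where
  a0 : 0 < a
  h1 : 100 * Real.sqrt (L * e) ≤ a
  h2 : 16 * a ≤ R
  h3 : 100 * R ≤ L

/-- shift into the period -/
theorem shift (hc : HullCyc S n w) (i0 k : ℤ) : ∃ k', i0 < k' ∧ k' ≤ i0 + n ∧ w k' = w k := by
  obtain ⟨l, h1, h2, h3⟩ := exists_mod (x := fun i => (w i).re) hc.pos (fun i => by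
    rw [hc.per]) (i0 + 1) k
  -- use `mod_per` on `w` itself
  have hn : (0 : ℤ) < n := by exact_mod_cast hc.pos
  refine ⟨i0 + 1 + (k - (i0 + 1)) % n, ?_, ?_, ?_⟩
  · have := Int.emod_nonneg (k - (i0 + 1)) hn.ne'
    omega
  · have := Int.emod_lt_of_pos (k - (i0 + 1)) hn
    omega
  · have h := mod_per (X := ℂ) (w := fun j => w (i0 + 1 + j)) hc.pos (fun j => by
      rw [← add_assoc]; exact hc.per _) (k - (i0 + 1))
    rw [h]
    congr 1
    ring

theorem labels (H : NH S x0 L e u x) (G : Sc L e a R) :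
    ∃ n w i0 i1 i2 i3, Lab4 S x u a R n w i0 i1 i2 i3 := by
  have ha := G.a0
  have hL := H.L0
  have he := H.e0
  have h1 := G.h1
  have h2 := G.h2
  have h3 := G.h3
  have h8 := H.D.dL
  have hsq := d_le_sqrt he.le (by linarith : e ≤ L)
  obtain ⟨n, w, hc⟩ := hull_cycle H.D.gp H.D.card
  set μ := Real.sqrt (L * e) with hμ
  have hμ0 : 0 ≤ μ := Real.sqrt_nonneg _
  set g : ℕ → ℝ := fun j => if j = 1 then -(R / 2) else if j = 2 then -(2 * a) else
    if j = 3 then 2 * a else R / 2 with hg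
  have g1 : g 1 = -(R / 2) := rfl
  have g2 : g 2 = -(2 * a) := rfl
  have g3 : g 3 = 2 * a := rfl
  have g4 : g 4 = R / 2 := rfl
  obtain ⟨j0, hj0⟩ := H.near hc (q := -u) (by rw [norm_neg, H.u1])
  obtain ⟨j1, hj1⟩ := H.near hc (q := u) H.u1
  obtain ⟨p, P1, P2, P3, P4, P5, P6⟩ := pos (x := fun i => X x u (w i))
    (y := fun i => Y x u (w i)) (n := n) hc.pos
    (fun i => by rw [hc.per]) (fun i => by rw [hc.per])
    (fun i j k hij hjk hki => by
      have := hc.conv i j k hij hjk hki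
      rwa [cr_XY (z0 := x) H.u1] at this) (e := 4 * μ) (fun i => by
      have h1 := X_diff (z0 := x) H.u1 (w (i + 1)) (w i)
      exact h1.trans (edge_len H.D (hc.edge i))) (N := 3) (by norm_num) (g := g)
    (fun j hj1 hj2 => by
      have : j = 1 ∨ j = 2 ∨ j = 3 := by omega
      rcases this with rfl | rfl | rfl
      · rw [g1, show 1 + 1 = 2 from rfl, g2]; linarith
      · rw [g2, show 2 + 1 = 3 from rfl, g3]; linarith
      · rw [g3, show 3 + 1 = 4 from rfl, g4]; linarith) (i0 := j0) (i1 := j1) (by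
      have h1 := X_diff (z0 := x) H.u1 (w j0) (x0 + L * -u)
      have h2 : X x u (x0 + L * -u) = -L := by
        have := X_sub (z0 := x) (u := u) (x0 + L * -u) x0
        have e : ((L : ℂ) * -u) / u = ((-L : ℝ) : ℂ) := by
          rw [mul_neg, neg_div, mul_div_cancel_right₀ _ H.une]
          push_cast
          rfl
        rw [H.X0, add_sub_cancel_left, e, Complex.ofReal_re, sub_zero] at this
        exact this
      rw [h2] at h1
      have h3 := le_abs_self (X x u (w j0) - -L)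
      rw [g1]
      linarith) (by
      have h1 := X_diff (z0 := x) H.u1 (w j1) (x0 + L * u)
      have h2 : X x u (x0 + L * u) = L := by
        have := X_sub (z0 := x) (u := u) (x0 + L * u) x0
        rw [H.X0, add_sub_cancel_left, mul_div_cancel_right₀ _ H.une] at this
        simp only [Complex.ofReal_re] at this
        linarith
      rw [h2] at h1
      have h3 := neg_abs_le (X x u (w j1) - L)
      show g 4 < _
      rw [g4]
      linarith)
  -- the bottom sites
  have hb : ∀ k, p 1 < k → k ≤ p 4 → X x u (w k) ≤ X x u (w (k + 1)) ∧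
      -(R / 2) < X x u (w k) ∧ X x u (w k) ≤ R / 2 := by
    intro k k1 k2
    rcases le_or_gt k (p 2) with k3 | k3
    · obtain ⟨q1, q2, q3⟩ := P4 1 le_rfl (by norm_num) k k1 k3
      rw [g1] at q1
      rw [show 1 + 1 = 2 from rfl, g2] at q2
      exact ⟨q3, q1, by linarith⟩
    rcases le_or_gt k (p 3) with k4 | k4
    · obtain ⟨q1, q2, q3⟩ := P4 2 (by norm_num) (by norm_num) k k3 k4
      rw [g2] at q1
      rw [show 2 + 1 = 3 from rfl, g3] at q2
      exact ⟨q3, by linarith, by linarith⟩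
    · obtain ⟨q1, q2, q3⟩ := P4 3 (by norm_num) (by norm_num) k k4 k2
      rw [g3] at q1
      rw [show 3 + 1 = 4 from rfl, g4] at q2
      exact ⟨q3, by linarith, by linarith⟩
  have hbd : ∀ k, p 1 < k → k ≤ p 4 → ‖w k - x‖ ≤ |X x u (w k)| + (2 * e + R / 100) := by
    intro k k1 k2
    obtain ⟨q1, q2, q3⟩ := hb k k1 k2
    have q4 : |X x u (w k)| ≤ R / 2 := abs_le.2 ⟨by linarith, q3⟩
    have q5 := H.bot (hc.edge k) (by linarith) q1
    have q6 : 2 * X x u (w k) ^ 2 / L ≤ R / 100 := by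
      rw [div_le_iff₀ hL]
      have q7 : X x u (w k) ^ 2 ≤ (R / 2) ^ 2 := by
        rw [← sq_abs]
        exact pow_le_pow_left₀ (abs_nonneg _) q4 2
      nlinarith
    linarith
  have m1 := P1 0 (by norm_num)
  have m2 := P1 1 (by norm_num)
  have m3 := P1 2 (by norm_num)
  have m4 := P1 3 (by norm_num)
  have m5 := P1 4 (by norm_num)
  simp only [show 0 + 1 = 1 from rfl, show 1 + 1 = 2 from rfl, show 2 + 1 = 3 from rfl,
    show 3 + 1 = 4 from rfl, show 4 + 1 = 5 from rfl] at m1 m2 m3 m4 m5 P2 P5 P6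
  -- far sites
  have hfar : ∀ k, p 4 < k → k ≤ p 1 + n → R / 2 ≤ ‖w k - x‖ := by
    intro k k1 k2
    rcases le_or_gt k (p 5) with k3 | k3
    · have := P5 k k1 k3
      rw [g4] at this
      exact this.le.trans ((le_abs_self _).trans (H.aX _))
    rcases le_or_gt k (p 0 + n) with k4 | k4
    · obtain ⟨q1, q2, q3⟩ := P6 k k3 k4
      rw [g1] at q1
      rw [g4] at q2
      have := H.top (hc.edge k) (abs_le.2 ⟨by linarith, by linarith⟩) q3
      linarith
    · have q1 := P3 (k - n) (by omega) (by omega)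
      have q2 := hc.per (k - n)
      rw [sub_add_cancel] at q2
      rw [g1, ← q2] at q1
      have := H.aX (w k)
      have := neg_abs_le (X x u (w k))
      linarith
  refine ⟨n, w, p 1, p 2, p 3, p 4, ⟨hc, m2, m3, m4, by omega⟩, ?_, ?_, ?_, ?_, ?_⟩
  · intro k k1 k2
    obtain ⟨q1, q2, q3⟩ := P4 1 le_rfl (by norm_num) k k1 k2
    rw [g1] at q1
    rw [show 1 + 1 = 2 from rfl, g2] at q2
    refine ⟨q2, ?_⟩
    have q4 := hbd k k1 (by omega)
    have q5 : |X x u (w k)| ≤ R / 2 := abs_le.2 ⟨by linarith, by linarith⟩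
    linarith
  · intro k k1 k2
    obtain ⟨q1, q2, q3⟩ := P4 2 (by norm_num) (by norm_num) k k1 k2
    rw [g2] at q1
    rw [show 2 + 1 = 3 from rfl, g3] at q2
    have q5 : |X x u (w k)| ≤ 2 * a := abs_le.2 ⟨by linarith, by linarith⟩
    have q6 := H.bot (hc.edge k) (by linarith) q3
    have q7 : 2 * X x u (w k) ^ 2 / L ≤ a / 10 := by
      rw [div_le_iff₀ hL]
      have q7 : X x u (w k) ^ 2 ≤ (2 * a) ^ 2 := by
        rw [← sq_abs]
        exact pow_le_pow_left₀ (abs_nonneg _) q5 2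
      nlinarith
    linarith
  · intro k k1 k2
    obtain ⟨q1, q2, q3⟩ := P4 3 (by norm_num) (by norm_num) k k1 k2
    rw [g3] at q1
    rw [show 3 + 1 = 4 from rfl, g4] at q2
    refine ⟨q1, ?_⟩
    have q4 := hbd k (by omega) k2
    have q5 : |X x u (w k)| ≤ R / 2 := abs_le.2 ⟨by linarith, by linarith⟩
    linarith
  · exact hfar
  · -- the site near `x`
    obtain ⟨k, hk⟩ := H.near hc (q := -(u * Complex.I)) (by
      rw [norm_neg, norm_mul, H.u1, Complex.norm_I, one_mul])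
    have e1 : x0 + L * -(u * Complex.I) = x := by
      rw [H.hx]; ring
    rw [e1] at hk
    have hka : ‖w k - x‖ ≤ a := by linarith
    obtain ⟨k', k1, k2, k3⟩ := shift hc (p 1) k
    rw [← k3] at hka
    refine ⟨k', ?_, ?_, hka⟩
    · by_contra hcon
      push Not at hcon
      obtain ⟨q1, q2, q3⟩ := P4 1 le_rfl (by norm_num) k' k1 hcon
      rw [show 1 + 1 = 2 from rfl, g2] at q2
      have := H.aX (w k')
      have := neg_abs_le (X x u (w k'))
      linarith
    · by_contra hcon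
      push Not at hcon
      rcases le_or_gt k' (p 4) with k4 | k4
      · obtain ⟨q1, q2, q3⟩ := P4 3 (by norm_num) (by norm_num) k' hcon k4
        rw [g3] at q1
        have := H.aX (w k')
        have := le_abs_self (X x u (w k'))
        linarith
      · have := hfar k' k4 k2
        linarith

/-! ### the quad -/

/-- the classes -/
def Bc (S : Finset ℂ) (x : ℂ) (a R : ℝ) (n : ℕ) (w : ℤ → ℂ) (i0 i1 i2 i3 : ℤ) (c : ZMod 4) :
    Finset ℂ :=
  if c = 0 then S.filter fun s => ∃ k, i0 < k ∧ k ≤ i1 ∧ s = w k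
  else if c = 1 then S.filter fun s => ‖s - x‖ ≤ a ∨ ∃ k, i1 < k ∧ k ≤ i2 ∧ s = w k
  else if c = 2 then S.filter fun s => ∃ k, i2 < k ∧ k ≤ i3 ∧ s = w k
  else S.filter fun s => R ≤ ‖s - x‖ ∨ ∃ k, i3 < k ∧ k ≤ i0 + n ∧ s = w k

theorem mem0 : s ∈ Bc S x a R n w i0 i1 i2 i3 0 ↔ s ∈ S ∧ ∃ k, i0 < k ∧ k ≤ i1 ∧ s = w k := by
  unfold Bc
  rw [if_pos rfl, Finset.mem_filter]

theorem mem1 : s ∈ Bc S x a R n w i0 i1 i2 i3 1 ↔
    s ∈ S ∧ (‖s - x‖ ≤ a ∨ ∃ k, i1 < k ∧ k ≤ i2 ∧ s = w k) := by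
  unfold Bc
  rw [if_neg (by decide), if_pos rfl, Finset.mem_filter]

theorem mem2 : s ∈ Bc S x a R n w i0 i1 i2 i3 2 ↔ s ∈ S ∧ ∃ k, i2 < k ∧ k ≤ i3 ∧ s = w k := by
  unfold Bc
  rw [if_neg (by decide), if_neg (by decide), if_pos rfl, Finset.mem_filter]

theorem mem3 : s ∈ Bc S x a R n w i0 i1 i2 i3 3 ↔
    s ∈ S ∧ (R ≤ ‖s - x‖ ∨ ∃ k, i3 < k ∧ k ≤ i0 + n ∧ s = w k) := by
  unfold Bc
  rw [if_neg (by decide), if_neg (by decide), if_neg (by decide), Finset.mem_filter]

theorem z4 (k : ZMod 4) : k = 0 ∨ k = 1 ∨ k = 2 ∨ k = 3 := by revert k; decide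

theorem w_mem (hc : HullCyc S n w) (k : ℤ) : w k ∈ S := (hullE.mem (hc.edge k)).1

theorem run (hc : HullCyc S n w) {V : Set ℂ} (i : ℤ) : ∀ l : ℕ,
    (∀ k, i ≤ k → k ≤ i + l → w k ∈ V) → Pth S V (w i) (w (i + l)) := by
  intro l
  induction l with
  | zero =>
    intro h
    have := Pth.refl (S := S) (h i le_rfl (by simp))
    simpa using this
  | succ l ih =>
    intro h
    have h1 := ih (fun k h1 h2 => h k h1 (by push_cast; omega))
    have h2 : Adj S (w (i + l)) (w (i + l + 1)) := Or.inl (hc.edge (i + l)).1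
    have e : i + ((l + 1 : ℕ) : ℤ) = i + l + 1 := by push_cast; ring
    rw [e]
    exact h1.tail h2 (h _ (by omega) (by push_cast; omega))

theorem run' (hc : HullCyc S n w) {V : Set ℂ} {i j : ℤ} (hV : ∀ k, i < k → k ≤ j → w k ∈ V)
    {k k' : ℤ} (h1 : i < k) (h2 : k ≤ j) (h3 : i < k') (h4 : k' ≤ j) : Pth S V (w k) (w k') := by
  have key : ∀ k k' : ℤ, i < k → k ≤ k' → k' ≤ j → Pth S V (w k) (w k') := by
    intro k k' h1 h2 h3
    obtain ⟨l, rfl⟩ := Int.le.dest h2
    exact run hc k l fun q q1 q2 => hV q (by omega) (by omega)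
  rcases le_total k k' with h | h
  · exact key k k' h1 h h4
  · exact (key k' k h3 h h2).symm

theorem idx (hc : HullCyc S n w) {i k k' : ℤ} (h1 : i < k) (h2 : k ≤ i + n) (h3 : i < k')
    (h4 : k' ≤ i + n) (e : w k = w k') : k = k' := by
  rcases le_total k k' with h | h
  · exact w_inj hc h (by omega) e
  · exact (w_inj hc h (by omega) e.symm).symm

/-- the path keeps to the sites -/
theorem pth_in {V : Set ℂ} {x y : ℂ} (h : Pth S V x y) (hx : x ∈ S) :
    Pth S {z | z ∈ V ∧ z ∈ S} x y := by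
  refine ⟨⟨h.1, hx⟩, ?_⟩
  refine Relation.ReflTransGen.mono ?_ _ _ h.2
  rintro a b ⟨h1, h2⟩
  refine ⟨h1, h2, ?_⟩
  rcases h1 with ⟨c, hc⟩ | ⟨c, hc⟩
  · exact (mem_delT.1 hc).2.1
  · exact (mem_delT.1 hc).1

/-- the sites in a ball are connected -/
theorem ball_con (hS : GP (S : Set ℂ)) (h3 : 3 ≤ S.card) (x : ℂ) : ∃ x1 ∈ S, ∀ s ∈ S,
    Pth S {z | z ∈ S ∧ ‖z - x‖ ≤ ‖s - x‖} x1 s := by
  obtain ⟨x1, hx1, hmin⟩ := S.exists_min_image (fun s => ‖x - s‖) (Finset.card_pos.1 (by omega))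
  refine ⟨x1, hx1, fun s hs => ?_⟩
  have h1 : Nearx440.Nst {s} x s := ⟨Finset.mem_singleton_self s, fun e he => by
    rw [Finset.mem_singleton.1 he]⟩
  have h2 := h1.path hS h3 (by
    intro z hz
    rw [Finset.mem_singleton.1 hz]
    exact hs) (fun e he hne => absurd (Finset.mem_singleton.1 he) hne) hx1
    (fun t ht => hmin t ht)
  refine (pth_in h2 hx1).mono ?_
  rintro z ⟨⟨-, h3, -⟩, h4⟩
  refine ⟨h4, ?_⟩
  rw [norm_sub_rev s x]
  exact h3

theorem dt_far {z s x : ℂ} (h : 0 ≤ dt (z - s) (s - x)) : ‖s - x‖ ≤ ‖z - x‖ := by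
  apply le_of_sq_le_sq _ (norm_nonneg _)
  unfold dt at h
  rw [Complex.sq_norm, Complex.sq_norm, Complex.normSq_apply, Complex.normSq_apply]
  simp only [Complex.sub_re, Complex.sub_im] at h ⊢
  nlinarith [sq_nonneg (z.re - s.re), sq_nonneg (z.im - s.im)]

variable (H : NH S x0 L e u x) (G : Sc L e a R) (Q : Lab4 S x u a R n w i0 i1 i2 i3)

include H G Q in
/-- **the quad of the half annulus** -/
theorem quad : Qd S n w i0 i1 i2 i3 (Bc S x a R n w i0 i1 i2 i3) := by
  have ha := G.a0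
  have h2 := G.h2
  have hc := Q.m4.cyc
  have hS := H.D.gp
  have m1 := Q.m4.h01
  have m2 := Q.m4.h12
  have m3 := Q.m4.h23
  have m4 := Q.m4.h30
  have hwS := w_mem hc
  have nX : ∀ s : ℂ, X x u s ≤ ‖s - x‖ ∧ -X x u s ≤ ‖s - x‖ := fun s =>
    ⟨(le_abs_self _).trans (H.aX s), (neg_le_abs _).trans (H.aX s)⟩
  refine ⟨hS, Q.m4, ?_, ?_, ?_, ?_, ?_, ?_, ?_⟩
  · intro c
    rcases z4 c with rfl | rfl | rfl | rfl
    · exact fun s hs => (mem0.1 hs).1
    · exact fun s hs => (mem1.1 hs).1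
    · exact fun s hs => (mem2.1 hs).1
    · exact fun s hs => (mem3.1 hs).1
  · -- disjoint
    have d01 : Disjoint (Bc S x a R n w i0 i1 i2 i3 0) (Bc S x a R n w i0 i1 i2 i3 1) := by
      rw [Finset.disjoint_left]
      intro s hs hs'
      obtain ⟨-, k, k1, k2, rfl⟩ := mem0.1 hs
      obtain ⟨-, h | ⟨k', k3, k4, k5⟩⟩ := mem1.1 hs'
      · have := (Q.l0 k k1 k2).1
        have := (nX (w k)).2
        linarith
      · have := idx hc (i := i0) k1 (by omega) (by omega) (by omega) k5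
        omega
    have d02 : Disjoint (Bc S x a R n w i0 i1 i2 i3 0) (Bc S x a R n w i0 i1 i2 i3 2) := by
      rw [Finset.disjoint_left]
      intro s hs hs'
      obtain ⟨-, k, k1, k2, rfl⟩ := mem0.1 hs
      obtain ⟨-, k', k3, k4, k5⟩ := mem2.1 hs'
      have := idx hc (i := i0) k1 (by omega) (by omega) (by omega) k5
      omega
    have d03 : Disjoint (Bc S x a R n w i0 i1 i2 i3 0) (Bc S x a R n w i0 i1 i2 i3 3) := by
      rw [Finset.disjoint_left]
      intro s hs hs'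
      obtain ⟨-, k, k1, k2, rfl⟩ := mem0.1 hs
      obtain ⟨-, h | ⟨k', k3, k4, k5⟩⟩ := mem3.1 hs'
      · have := (Q.l0 k k1 k2).2
        linarith
      · have := idx hc (i := i0) k1 (by omega) (by omega) (by omega) k5
        omega
    have d12 : Disjoint (Bc S x a R n w i0 i1 i2 i3 1) (Bc S x a R n w i0 i1 i2 i3 2) := by
      rw [Finset.disjoint_left]
      intro s hs hs'
      obtain ⟨-, k, k1, k2, rfl⟩ := mem2.1 hs'
      obtain ⟨-, h | ⟨k', k3, k4, k5⟩⟩ := mem1.1 hs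
      · have := (Q.l2 k k1 k2).1
        have := (nX (w k)).1
        linarith
      · have := idx hc (i := i0) (by omega) (by omega) (by omega) (by omega) k5
        omega
    have d13 : Disjoint (Bc S x a R n w i0 i1 i2 i3 1) (Bc S x a R n w i0 i1 i2 i3 3) := by
      rw [Finset.disjoint_left]
      intro s hs hs'
      obtain ⟨-, h | ⟨k, k1, k2, k5⟩⟩ := mem1.1 hs
      · obtain ⟨-, h' | ⟨k', k3, k4, k5⟩⟩ := mem3.1 hs'
        · linarith
        · have := Q.l3 k' k3 k4
          rw [← k5] at this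
          linarith
      · have h := Q.l1 k k1 k2
        rw [← k5] at h
        obtain ⟨-, h' | ⟨k', k3, k4, k5⟩⟩ := mem3.1 hs'
        · linarith
        · have := Q.l3 k' k3 k4
          rw [← k5] at this
          linarith
    have d23 : Disjoint (Bc S x a R n w i0 i1 i2 i3 2) (Bc S x a R n w i0 i1 i2 i3 3) := by
      rw [Finset.disjoint_left]
      intro s hs hs'
      obtain ⟨-, k, k1, k2, rfl⟩ := mem2.1 hs
      obtain ⟨-, h | ⟨k', k3, k4, k5⟩⟩ := mem3.1 hs'
      · have := (Q.l2 k k1 k2).2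
        linarith
      · have := idx hc (i := i0) (by omega) (by omega) (by omega) (by omega) k5
        omega
    intro i j hij
    rcases z4 i with rfl | rfl | rfl | rfl <;> rcases z4 j with rfl | rfl | rfl | rfl
    · exact absurd rfl hij
    · exact d01
    · exact d02
    · exact d03
    · exact d01.symm
    · exact absurd rfl hij
    · exact d12
    · exact d13
    · exact d02.symm
    · exact d12.symm
    · exact absurd rfl hij
    · exact d23
    · exact d03.symm
    · exact d13.symm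
    · exact d23.symm
    · exact absurd rfl hij
  · -- connected
    intro c
    rcases z4 c with rfl | rfl | rfl | rfl
    · intro s hs t ht
      obtain ⟨-, k, k1, k2, rfl⟩ := mem0.1 hs
      obtain ⟨-, k', k3, k4, rfl⟩ := mem0.1 ht
      exact run' hc (fun q q1 q2 => Finset.mem_coe.2 (mem0.2 ⟨hwS q, q, q1, q2, rfl⟩)) k1 k2 k3 k4
    · obtain ⟨x1, hx1, hb⟩ := ball_con hS H.D.card x
      obtain ⟨km, km1, km2, km3⟩ := Q.mid
      have hball : ∀ s ∈ S, ‖s - x‖ ≤ a →
          Pth S (Bc S x a R n w i0 i1 i2 i3 1 : Set ℂ) x1 s := by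
        intro s hs hsa
        refine (hb s hs).mono ?_
        rintro z ⟨h1, h2⟩
        exact Finset.mem_coe.2 (mem1.2 ⟨h1, Or.inl (h2.trans hsa)⟩)
      have key : ∀ s ∈ Bc S x a R n w i0 i1 i2 i3 1,
          Pth S (Bc S x a R n w i0 i1 i2 i3 1 : Set ℂ) x1 s := by
        intro s hs
        obtain ⟨hsS, h | ⟨k, k1, k2, rfl⟩⟩ := mem1.1 hs
        · exact hball s hsS h
        · exact (hball _ (hwS km) km3).trans (run' hc (fun q q1 q2 =>
            Finset.mem_coe.2 (mem1.2 ⟨hwS q, Or.inr ⟨q, q1, q2, rfl⟩⟩)) km1 km2 k1 k2)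
      intro s hs t ht
      exact (key s hs).symm.trans (key t ht)
    · intro s hs t ht
      obtain ⟨-, k, k1, k2, rfl⟩ := mem2.1 hs
      obtain ⟨-, k', k3, k4, rfl⟩ := mem2.1 ht
      exact run' hc (fun q q1 q2 => Finset.mem_coe.2 (mem2.2 ⟨hwS q, q, q1, q2, rfl⟩)) k1 k2 k3 k4
    · have hh : ∀ k, i3 < k → k ≤ i0 + n →
          Pth S (Bc S x a R n w i0 i1 i2 i3 3 : Set ℂ) (w k) (w (i0 + n)) := by
        intro k k1 k2
        exact run' hc (fun q q1 q2 => Finset.mem_coe.2 (mem3.2 ⟨hwS q, Or.inr ⟨q, q1, q2, rfl⟩⟩))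
          k1 k2 m4 le_rfl
      have key : ∀ s ∈ Bc S x a R n w i0 i1 i2 i3 3,
          Pth S (Bc S x a R n w i0 i1 i2 i3 3 : Set ℂ) s (w (i0 + n)) := by
        intro s hs
        obtain ⟨hsS, h | ⟨k, k1, k2, rfl⟩⟩ := mem3.1 hs
        · have hne : s - x ≠ 0 := by
            intro h0
            rw [h0, norm_zero] at h
            linarith
          obtain ⟨x', y', hxy, hp⟩ := walkH hS H.D.card hne _ s hsS le_rfl
          have hx' : R ≤ ‖x' - x‖ := h.trans (dt_far hp.snd.2)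
          obtain ⟨k0, -, -, hk0, -⟩ := hc.all _ _ hxy
          obtain ⟨k, k1, k2, k3⟩ := shift hc i0 k0
          rw [hk0] at k3
          have h1 : Pth S (Bc S x a R n w i0 i1 i2 i3 3 : Set ℂ) s x' := by
            refine hp.mono ?_
            rintro z ⟨z1, z2⟩
            exact Finset.mem_coe.2 (mem3.2 ⟨z1, Or.inl (h.trans (dt_far z2))⟩)
          have h3 : i3 < k := by
            by_contra hcon
            push Not at hcon
            rw [← k3] at hx'
            rcases le_or_gt k i1 with h4 | h4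
            · have := (Q.l0 k k1 h4).2
              linarith
            rcases le_or_gt k i2 with h5 | h5
            · have := Q.l1 k h4 h5
              linarith
            · have := (Q.l2 k h5 hcon).2
              linarith
          rw [← k3] at h1
          exact h1.trans (hh k h3 k2)
        · exact hh k k1 k2
      intro s hs t ht
      exact (key s hs).trans (key t ht).symm
  · exact fun k k1 k2 => mem0.2 ⟨hwS k, k, k1, k2, rfl⟩
  · exact fun k k1 k2 => mem1.2 ⟨hwS k, Or.inr ⟨k, k1, k2, rfl⟩⟩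
  · exact fun k k1 k2 => mem2.2 ⟨hwS k, k, k1, k2, rfl⟩
  · exact fun k k1 k2 => mem3.2 ⟨hwS k, Or.inr ⟨k, k1, k2, rfl⟩⟩

end Crest.Agent.R143.HarmBx802
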