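import Crest.Agent.R143.HarmB_802
import Crest.Agent.R143.D3F_802

/-!
# Row 143 (S0194), CONT: one arm up to the hull, file 3 (helper802)

* `hit` : the circle around `x` meets the hull
* `cross` : white crossing of the half annulus, probability `≥ 1/3`
* `arm1` : one scale; `arm_pow` : many scales
-/

set_option autoImplicit false

noncomputable section

open scoped Classical

namespace Crest.Agent.R143.HarmCx802

open Set
open Crest.Agent.R143.B0x346 Crest.Agent.R143.B0Dx346 Crest.Agent.R143.DelGx806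
  Crest.Agent.R143.DelRx806 Crest.Agent.R143.DomAx722 Crest.Agent.R143.DomBx722
  Crest.Agent.R143.RE0x723 Crest.Agent.R143.HULx838 Crest.Agent.R143.RE4x723
  Crest.Agent.R143.HarmBx802 Crest.Agent.R143.Circx63
open Crest.Agent.R143.Crsx117 (M4 w_inj)
open Crest.Agent.R143.JColx54 (Adj)
open Crest.Agent.R143.RB2x54 (Vt)
open Crest.Agent.R143.Scalx63 (dm vertex_mem)
open Crest.Agent.R143.Harx315 (pr)
open Crest.Agent.R143.D3Fx802 (CArm)
open Crest.Agent.R143.Lawx872 (ConnIn)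

variable {S : Finset ℂ} {x0 x u s y : ℂ} {L e a R ρ θ : ℝ} {n : ℕ} {w : ℤ → ℂ}
  {i0 i1 i2 i3 : ℤ}

/-- the points of the circle with centre `x` -/
def pt (x u : ℂ) (ρ θ : ℝ) : ℂ :=
  x + u * (((ρ * Real.sin θ : ℝ) : ℂ) + ((ρ * Real.cos θ : ℝ) : ℂ) * Complex.I)

theorem pt_div (hu : u ≠ 0) : (pt x u ρ θ - x) / u =
    ((ρ * Real.sin θ : ℝ) : ℂ) + ((ρ * Real.cos θ : ℝ) : ℂ) * Complex.I := by
  unfold pt
  rw [add_sub_cancel_left, mul_div_cancel_left₀ _ hu]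

theorem X_pt (hu : u ≠ 0) : X x u (pt x u ρ θ) = ρ * Real.sin θ := by
  unfold X
  rw [pt_div hu]
  simp only [Complex.add_re, Complex.ofReal_re, Complex.mul_re, Complex.I_re, Complex.I_im,
    Complex.ofReal_im, mul_zero, mul_one, sub_self, add_zero]

theorem Y_pt (hu : u ≠ 0) : Y x u (pt x u ρ θ) = ρ * Real.cos θ := by
  unfold Y
  rw [pt_div hu]
  simp only [Complex.add_im, Complex.ofReal_re, Complex.mul_im, Complex.I_re, Complex.I_im,
    Complex.ofReal_im, mul_zero, mul_one, zero_add, add_zero]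

theorem cont_pt : Continuous fun θ : ℝ => pt x u ρ θ := by
  unfold pt
  fun_prop

variable (H : NH S x0 L e u x)

include H in
theorem norm_pt (hρ : 0 ≤ ρ) : ‖pt x u ρ θ - x‖ = ρ := by
  have h := H.sqx (pt x u ρ θ)
  rw [X_pt H.une, Y_pt H.une] at h
  have h1 : ‖pt x u ρ θ - x‖ ^ 2 = ρ ^ 2 := by
    rw [h, mul_pow, mul_pow, ← mul_add, Real.sin_sq_add_cos_sq, mul_one]
  exact (pow_left_inj₀ (norm_nonneg _) hρ (by norm_num)).1 h1

include H in
theorem inHull_of (h : ‖y - x0‖ ≤ L - 2 * e) : InHull S y := by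
  intro b c hbc
  have h1 := edge_dist H.D hbc
  have h2 : cr (c - b) (y - b) = cr (c - b) (x0 - b) + cr (c - b) (y - x0) := by
    rw [← cr_add_right]
    congr 1
    ring
  have h3 := abs_cr_le (c - b) (y - x0)
  have h4 := neg_abs_le (cr (c - b) (y - x0))
  have h5 : ‖c - b‖ * ‖y - x0‖ ≤ ‖c - b‖ * (L - 2 * e) :=
    mul_le_mul_of_nonneg_left h (norm_nonneg _)
  rw [h2]
  linarith

include H in
theorem norm_of_inHull (h : InHull S y) : ‖y - x0‖ ≤ L := by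
  obtain ⟨b, c, d, o, hT, hy, -⟩ := cover H.D.gp H.D.card h
  have hm := mem_delT.1 (mem_delT_iff.2 ⟨o, hT⟩)
  exact inT_ball hT.pos hy (H.D.sub _ hm.1) (H.D.sub _ hm.2.1) (H.D.sub _ hm.2.2.1)

include H in
/-- **the circle around `x` meets the hull** -/
theorem hit (hρ1 : 2 * e ≤ ρ) (hρ2 : ρ ≤ L) {σ : ℝ} (hσ : σ = 1 ∨ σ = -1) :
    ∃ τ ∈ Icc (0 : ℝ) (Real.pi / 2), (∀ θ ∈ Icc 0 τ, InHull S (pt x u ρ (σ * θ))) ∧
      ∃ b c, hullE S b c ∧ pt x u ρ (σ * τ) ∈ segment ℝ b c := by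
  have he := H.e0
  have hL := H.L0
  have hρ0 : 0 < ρ := by linarith
  have hpi := Real.pi_pos
  set E : Finset (ℂ × ℂ) := (S ×ˢ S).filter fun q => hullE S q.1 q.2 with hE
  have memE : ∀ b c, hullE S b c → (b, c) ∈ E := fun b c h =>
    Finset.mem_filter.2 ⟨Finset.mem_product.2 ⟨(hullE.mem h).1, (hullE.mem h).2⟩, h⟩
  set f : ℂ × ℂ → ℝ → ℝ := fun q θ => cr (q.2 - q.1) (pt x u ρ (σ * θ) - q.1) with hf
  have hfc : ∀ q, Continuous (f q) := by
    intro q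
    have h1 : Continuous fun θ : ℝ => pt x u ρ (σ * θ) :=
      cont_pt.comp (continuous_const.mul continuous_id)
    exact (continuous_cr q.1 q.2).comp h1
  set Z : Set ℝ := Icc (0 : ℝ) (Real.pi / 2) ∩ ⋃ q ∈ E, {θ | f q θ ≤ 0} with hZ
  have hZc : IsCompact Z := by
    apply isCompact_Icc.inter_right
    exact isClosed_biUnion_finset fun q _ => isClosed_le (hfc q) continuous_const
  have hZn : Z.Nonempty := by
    refine ⟨Real.pi / 2, ⟨by positivity, le_rfl⟩, ?_⟩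
    by_contra hcon
    have h1 : InHull S (pt x u ρ (σ * (Real.pi / 2))) := by
      intro b c hbc
      by_contra h2
      push Not at h2
      apply hcon
      rw [Set.mem_iUnion₂]
      exact ⟨(b, c), memE b c hbc, h2.le⟩
    have h2 := norm_of_inHull H h1
    have h3 := H.sq0 (pt x u ρ (σ * (Real.pi / 2)))
    rw [X_pt H.une, Y_pt H.une] at h3
    have h4 : Real.cos (σ * (Real.pi / 2)) = 0 := by
      rcases hσ with rfl | rfl
      · rw [one_mul, Real.cos_pi_div_two]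
      · rw [neg_one_mul, Real.cos_neg, Real.cos_pi_div_two]
    have h5 : Real.sin (σ * (Real.pi / 2)) ^ 2 = 1 := by
      have := Real.sin_sq_add_cos_sq (σ * (Real.pi / 2))
      rw [h4] at this
      linarith [show (0 : ℝ) ^ 2 = 0 by norm_num]
    rw [h4, mul_pow, h5, mul_one, mul_zero, sub_zero] at h3
    have h6 : ‖pt x u ρ (σ * (Real.pi / 2)) - x0‖ ^ 2 ≤ L ^ 2 :=
      pow_le_pow_left₀ (norm_nonneg _) h2 2
    have h7 : 0 < ρ ^ 2 := by positivity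
    linarith
  set τ := sInf Z with hτ
  have hτZ : τ ∈ Z := hZc.sInf_mem hZn
  have hlt : ∀ θ, 0 ≤ θ → θ < τ → ∀ q ∈ E, 0 < f q θ := by
    intro θ h1 h2 q hq
    by_contra hcon
    push Not at hcon
    have h3 : θ ∈ Z := ⟨⟨h1, h2.le.trans hτZ.1.2⟩, Set.mem_iUnion₂.2 ⟨q, hq, hcon⟩⟩
    exact absurd (csInf_le hZc.bddBelow h3) (not_le.2 h2)
  have hτ0 : ∀ q ∈ E, 0 ≤ f q τ := by
    intro q hq
    rcases eq_or_lt_of_le hτZ.1.1 with h | h
    · -- at the deepest point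
      have h1 : InHull S (pt x u ρ (σ * τ)) := by
        apply inHull_of H
        rw [← h, mul_zero]
        have h3 := H.sq0 (pt x u ρ 0)
        rw [X_pt H.une, Y_pt H.une, Real.sin_zero, Real.cos_zero, mul_zero, mul_one] at h3
        have h4 : ‖pt x u ρ 0 - x0‖ ^ 2 = (L - ρ) ^ 2 := by rw [h3]; ring
        have h5 := (pow_left_inj₀ (norm_nonneg _) (by linarith : 0 ≤ L - ρ) (by norm_num)).1 h4
        rw [h5]
        linarith
      exact h1 q.1 q.2 (Finset.mem_filter.1 hq).2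
    · have h1 : Icc 0 τ ⊆ {θ | 0 ≤ f q θ} := by
        rw [← closure_Ico h.ne]
        apply closure_minimal _ (isClosed_le continuous_const (hfc q))
        intro θ hθ
        exact (hlt θ hθ.1 hθ.2 q hq).le
      exact h1 ⟨h.le, le_rfl⟩
  refine ⟨τ, hτZ.1, ?_, ?_⟩
  · intro θ hθ b c hbc
    rcases eq_or_lt_of_le hθ.2 with h | h
    · rw [h]
      exact hτ0 (b, c) (memE b c hbc)
    · exact (hlt θ hθ.1 h (b, c) (memE b c hbc)).le
  · obtain ⟨q, hq, hq0⟩ := Set.mem_iUnion₂.1 hτZ.2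
    have hq1 : hullE S q.1 q.2 := (Finset.mem_filter.1 hq).2
    have h1 : InHull S (pt x u ρ (σ * τ)) := fun b c hbc => hτ0 (b, c) (memE b c hbc)
    exact ⟨q.1, q.2, hq1, mem_edge H.D.gp H.D.card hq1 h1 (le_antisymm hq0 (hτ0 q hq))⟩

include H in
theorem near_vt {t : ℂ × ℂ × ℂ} (ht : t ∈ delT S) (hy : y ∈ cT t) {v : ℂ} (hv : Vt t v) :
    ‖y - v‖ ≤ 5 * Real.sqrt (L * e) := by
  obtain ⟨b, c, d⟩ := t
  obtain ⟨o, hT⟩ := mem_delT_iff.1 ht
  have h1 : ∀ p q : ℂ, Adj S p q → ‖p - q‖ ≤ 5 * Real.sqrt (L * e) := fun p q h => edge5 H.D h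
  have h0 : (0 : ℝ) ≤ 5 * Real.sqrt (L * e) := by positivity
  have hr := H.D.gp
  have t2 := JColx54.delT_rot hr ht
  have t3 := JColx54.delT_rot hr t2
  have hv' : v = b ∨ v = c ∨ v = d := hv
  have e1 : ‖(b : ℂ) - v‖ ≤ 5 * Real.sqrt (L * e) := by
    rcases hv' with rfl | rfl | rfl
    · rw [sub_self, norm_zero]; exact h0
    · exact h1 _ _ (Or.inl ⟨_, ht⟩)
    · exact h1 _ _ (Or.inr ⟨_, t3⟩)
  have e2 : ‖(c : ℂ) - v‖ ≤ 5 * Real.sqrt (L * e) := by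
    rcases hv' with rfl | rfl | rfl
    · exact h1 _ _ (Or.inr ⟨_, ht⟩)
    · rw [sub_self, norm_zero]; exact h0
    · exact h1 _ _ (Or.inl ⟨_, t2⟩)
  have e3 : ‖(d : ℂ) - v‖ ≤ 5 * Real.sqrt (L * e) := by
    rcases hv' with rfl | rfl | rfl
    · exact h1 _ _ (Or.inl ⟨_, t3⟩)
    · exact h1 _ _ (Or.inr ⟨_, t2⟩)
    · rw [sub_self, norm_zero]; exact h0
  exact inT_ball hT.pos hy e1 e2 e3

theorem seg_cT {b c d : ℂ} (h : 0 < cr (c - b) (d - b)) (hy : y ∈ segment ℝ b c) :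
    y ∈ cT (b, c, d) := by
  obtain ⟨α, β, h1, h2, h3, rfl⟩ := hy
  have hβ : β = 1 - α := by linarith
  subst hβ
  unfold cr at h
  simp only [Complex.sub_re, Complex.sub_im] at h
  refine ⟨?_, ?_, ?_⟩
  · unfold cr
    simp only [Complex.sub_re, Complex.sub_im, Complex.add_re, Complex.add_im, Complex.real_smul,
      Complex.mul_re, Complex.mul_im, Complex.ofReal_re, Complex.ofReal_im]
    nlinarith
  · unfold cr
    simp only [Complex.sub_re, Complex.sub_im, Complex.add_re, Complex.add_im, Complex.real_smul,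
      Complex.mul_re, Complex.mul_im, Complex.ofReal_re, Complex.ofReal_im]
    nlinarith [mul_nonneg h1 h.le]
  · unfold cr
    simp only [Complex.sub_re, Complex.sub_im, Complex.add_re, Complex.add_im, Complex.real_smul,
      Complex.mul_re, Complex.mul_im, Complex.ofReal_re, Complex.ofReal_im]
    nlinarith [mul_nonneg h2 h.le]

variable (G : Sc L e a R) (Q : Lab4 S x u a R n w i0 i1 i2 i3)

/-- the classes -/
local notation "BB" => Bc S x a R n w i0 i1 i2 i3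

include Q in
/-- a hull site in the middle annulus is in the class `0` or in the class `2` -/
theorem hull_cls (hs : hullE S s y) (h1 : 3 * a < ‖s - x‖) (h2 : ‖s - x‖ < R / 2) :
    (s ∈ BB 0 ∧ X x u s ≤ -(2 * a)) ∨ (s ∈ BB 2 ∧ 2 * a < X x u s) := by
  have hc := Q.m4.cyc
  obtain ⟨k0, -, -, hk0, -⟩ := hc.all _ _ hs
  obtain ⟨k, k1, k2, k3⟩ := shift hc i0 k0
  rw [hk0] at k3
  subst k3
  have hwS := w_mem hc k
  rcases le_or_gt k i1 with h4 | h4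
  · exact Or.inl ⟨mem0.2 ⟨hwS, k, k1, h4, rfl⟩, (Q.l0 k k1 h4).1⟩
  rcases le_or_gt k i2 with h5 | h5
  · have := Q.l1 k h4 h5
    linarith
  rcases le_or_gt k i3 with h6 | h6
  · exact Or.inr ⟨mem2.2 ⟨hwS, k, h5, h6, rfl⟩, (Q.l2 k h5 h6).1⟩
  · have := Q.l3 k h6 k2
    linarith

include G Q in
/-- a site in the middle annulus is in the class `0`, in the class `2` or free -/
theorem mid_cls (hs : s ∈ S) (h1 : 3 * a < ‖s - x‖) (h2 : ‖s - x‖ < R / 2) :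
    s ∈ BB 0 ∨ s ∈ BB 2 ∨ s ∈ fre S BB := by
  have ha := G.a0
  have hR := G.h2
  have n1 : s ∉ BB 1 := by
    intro h
    obtain ⟨-, h | ⟨k, k1, k2, rfl⟩⟩ := mem1.1 h
    · linarith
    · have := Q.l1 k k1 k2
      linarith
  have n3 : s ∉ BB 3 := by
    intro h
    obtain ⟨-, h | ⟨k, k1, k2, rfl⟩⟩ := mem3.1 h
    · linarith
    · have := Q.l3 k k1 k2
      linarith
  by_cases n0 : s ∈ BB 0
  · exact Or.inl n0
  by_cases n2 : s ∈ BB 2
  · exact Or.inr (Or.inl n2)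
  refine Or.inr (Or.inr (Finset.mem_filter.2 ⟨hs, fun i => ?_⟩))
  rcases z4 i with rfl | rfl | rfl | rfl
  · exact n0
  · exact n1
  · exact n2
  · exact n3

include H G Q in
/-- **white crossing of the half annulus** -/
theorem cross {C4 : ℝ} (hlog : 96 * C4 ≤ Real.log (R / (16 * a)))
    (hM : ∀ b ∈ Icc (4 * a) (R / 4), ∑ t ∈ (delT S).filter
      (fun t => (cT t ∩ Metric.closedBall x b).Nonempty), dm t ^ 2 ≤ C4 * b ^ 2)
    (h32 : 32 * a ≤ R) : 1 / 3 ≤ pr (fre S BB) (Crq S BB 0) := by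
  have ha := G.a0
  have hR := G.h2
  have hh1 := G.h1
  have hh3 := G.h3
  have he := H.e0
  have hL := H.L0
  have hsq := d_le_sqrt he.le (by linarith [H.D.dL] : e ≤ L)
  have hq := quad H G Q
  have hex : ∀ ρ : ℝ, ∃ τ ∈ Icc (0 : ℝ) (Real.pi / 2), ∃ τ' ∈ Icc (0 : ℝ) (Real.pi / 2),
      ρ ∈ Icc (4 * a) (R / 4) → (∀ θ ∈ Icc (-τ') τ, InHull S (pt x u ρ θ)) ∧
      (∃ b c, hullE S b c ∧ pt x u ρ τ ∈ segment ℝ b c) ∧
      ∃ b c, hullE S b c ∧ pt x u ρ (-τ') ∈ segment ℝ b c := by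
    intro ρ
    by_cases hρ : ρ ∈ Icc (4 * a) (R / 4)
    · obtain ⟨τ, h1, h2, h3⟩ := hit H (ρ := ρ) (by linarith [hρ.1]) (by linarith [hρ.2])
        (Or.inl rfl)
      obtain ⟨τ', h1', h2', h3'⟩ := hit H (ρ := ρ) (by linarith [hρ.1]) (by linarith [hρ.2])
        (Or.inr rfl)
      rw [one_mul] at h3
      rw [neg_one_mul] at h3'
      refine ⟨τ, h1, τ', h1', fun _ => ⟨fun θ hθ => ?_, h3, h3'⟩⟩
      rcases le_total 0 θ with h | h
      · have := h2 θ ⟨h, hθ.2⟩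
        rwa [one_mul] at this
      · have := h2' (-θ) ⟨by linarith, by linarith [hθ.1]⟩
        rwa [neg_one_mul, neg_neg] at this
    · exact ⟨0, ⟨le_rfl, by positivity⟩, 0, ⟨le_rfl, by positivity⟩, fun h => absurd h hρ⟩
  choose τ hτ τ' hτ' hall using hex
  set Γ : ℝ → Set ℂ := fun ρ => (fun θ => pt x u ρ θ) '' Icc (-τ' ρ) (τ ρ) with hΓ
  have hend : ∀ ρ, pt x u ρ (τ ρ) ∈ Γ ρ ∧ pt x u ρ (-τ' ρ) ∈ Γ ρ := fun ρ =>
    ⟨⟨τ ρ, ⟨by linarith [(hτ ρ).1, (hτ' ρ).1], le_rfl⟩, rfl⟩,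
      ⟨-τ' ρ, ⟨le_rfl, by linarith [(hτ ρ).1, (hτ' ρ).1]⟩, rfl⟩⟩
  have hnrm : ∀ ρ ∈ Icc (4 * a) (R / 4), ∀ y ∈ Γ ρ, ‖y - x‖ = ρ := by
    rintro ρ hρ y ⟨θ, -, rfl⟩
    exact norm_pt H (by linarith [hρ.1])
  -- the vertices of the triangles which meet the curves
  have hvt : ∀ ρ ∈ Icc (4 * a) (R / 4), ∀ t ∈ delT S, ∀ y ∈ cT t, y ∈ Γ ρ → ∀ v, Vt t v →
      v ∈ S ∧ 3 * a < ‖v - x‖ ∧ ‖v - x‖ < R / 2 ∧ ‖y - v‖ ≤ a / 20 := by
    intro ρ hρ t ht y hy hyΓ v hv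
    have h1 := near_vt H ht hy hv
    have h2 := hnrm ρ hρ y hyΓ
    have h3 : ‖y - v‖ ≤ a / 20 := by linarith
    have h4 := norm_sub_norm_le (y - x) (v - x)
    rw [sub_sub_sub_cancel_right, h2] at h4
    have h5 := norm_sub_norm_le (v - x) (y - x)
    rw [sub_sub_sub_cancel_right, h2, norm_sub_rev v y] at h5
    have hm := mem_delT.1 (show (t.1, t.2.1, t.2.2) ∈ delT S from ht)
    refine ⟨?_, by linarith [hρ.1], by linarith [hρ.2], h3⟩
    rcases hv with rfl | rfl | rfl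
    · exact hm.1
    · exact hm.2.1
    · exact hm.2.2.1
  -- the triangle at a hull edge
  have htri : ∀ b c, hullE S b c → ∀ y ∈ segment ℝ b c, ∃ t ∈ delT S, y ∈ cT t ∧ Vt t b := by
    intro b c hbc y hy
    obtain ⟨⟨d, hd⟩, -⟩ := hbc
    obtain ⟨o, hT⟩ := mem_delT_iff.1 hd
    exact ⟨(b, c, d), hd, seg_cT hT.pos hy, Or.inl rfl⟩
  have hside : ∀ ρ ∈ Icc (4 * a) (R / 4), ∀ y ∈ Γ ρ, (∃ b c, hullE S b c ∧ y ∈ segment ℝ b c) →
      ∃ t ∈ delT S, (cT t ∩ Γ ρ).Nonempty ∧ ∃ v, Vt t v ∧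
        ((v ∈ BB 0 ∧ X x u v ≤ -(2 * a)) ∨ (v ∈ BB 2 ∧ 2 * a < X x u v)) ∧
        ‖y - v‖ ≤ a / 20 := by
    rintro ρ hρ y hyΓ ⟨b, c, hbc, hy⟩
    obtain ⟨t, ht, h1, h2⟩ := htri b c hbc y hy
    obtain ⟨h3, h4, h5, h6⟩ := hvt ρ hρ t ht y h1 hyΓ b h2
    exact ⟨t, ht, ⟨y, h1, hyΓ⟩, b, h2, hull_cls Q hbc h4 h5, h6⟩
  refine HarmAx802.epc hq x Γ (r := 4 * a) (R := R / 4) (b := R / 4) (C4 := C4) (by linarith)
    (by linarith) le_rfl ?_ hnrm ?_ ?_ ?_ ?_ ?_ ?_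
  · refine hlog.trans (le_of_eq ?_)
    congr 1
    field_simp
    norm_num
  · intro ρ _
    exact isPreconnected_Icc.image _ cont_pt.continuousOn
  · rintro ρ hρ y ⟨θ, hθ, rfl⟩
    obtain ⟨b, c, d, o, hT, hy, -⟩ := cover H.D.gp H.D.card ((hall ρ hρ).1 θ hθ)
    exact ⟨(b, c, d), mem_delT_iff.2 ⟨o, hT⟩, hy⟩
  · rintro ρ hρ t ht ⟨y, hy, hyΓ⟩ v hv
    obtain ⟨h1, h2, h3, -⟩ := hvt ρ hρ t ht y hy hyΓ v hv
    exact mid_cls G Q h1 h2 h3
  · intro ρ hρ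
    obtain ⟨t, ht, h1, v, h2, h3, h4⟩ := hside ρ hρ _ (hend ρ).2 (hall ρ hρ).2.2
    refine ⟨t, ht, h1, v, h2, ?_⟩
    rcases h3 with h3 | h3
    · exact h3.1
    · exfalso
      have h5 := X_diff (z0 := x) H.u1 (pt x u ρ (-τ' ρ)) v
      rw [X_pt H.une, Real.sin_neg] at h5
      have h6 : 0 ≤ Real.sin (τ' ρ) := Real.sin_nonneg_of_nonneg_of_le_pi (hτ' ρ).1
        (by linarith [(hτ' ρ).2, Real.pi_pos])
      have h7 : 0 ≤ ρ * Real.sin (τ' ρ) := mul_nonneg (by linarith [hρ.1]) h6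
      have h8 := neg_abs_le (ρ * -Real.sin (τ' ρ) - X x u v)
      have h9 := h3.2
      have h10 := le_abs_self (ρ * -Real.sin (τ' ρ) - X x u v)
      nlinarith
  · intro ρ hρ
    obtain ⟨t, ht, h1, v, h2, h3, h4⟩ := hside ρ hρ _ (hend ρ).1 (hall ρ hρ).2.1
    refine ⟨t, ht, h1, v, h2, ?_⟩
    rcases h3 with h3 | h3
    · exfalso
      have h5 := X_diff (z0 := x) H.u1 (pt x u ρ (τ ρ)) v
      rw [X_pt H.une] at h5
      have h6 : 0 ≤ Real.sin (τ ρ) := Real.sin_nonneg_of_nonneg_of_le_pi (hτ ρ).1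
        (by linarith [(hτ ρ).2, Real.pi_pos])
      have h7 : 0 ≤ ρ * Real.sin (τ ρ) := mul_nonneg (by linarith [hρ.1]) h6
      have h8 := le_abs_self (ρ * Real.sin (τ ρ) - X x u v)
      have h9 := h3.2
      linarith
    · exact h3.1
  · exact hM

open Crest.Agent.R143.Harx315 in
include H G Q in
/-- **one scale** -/
theorem arm1 {C4 : ℝ} (hlog : 96 * C4 ≤ Real.log (R / (16 * a)))
    (hM : ∀ b ∈ Icc (4 * a) (R / 4), ∑ t ∈ (delT S).filter
      (fun t => (cT t ∩ Metric.closedBall x b).Nonempty), dm t ^ 2 ≤ C4 * b ^ 2)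
    (h32 : 32 * a ≤ R) {V : Finset ℂ} (hV : V ⊆ S) (hVh : ∀ v ∈ V, ∀ y, ¬ hullE S v y) :
    pr V (fun β => CArm S β x a R) ≤ 2 / 3 := by
  have hcr := cross H G Q hlog hM h32
  have hq := quad H G Q
  have hc := Q.m4.cyc
  have hFS : fre S BB ⊆ S := Finset.filter_subset _ _
  -- an arm is a crossing of the quad
  have h1 : pr V (fun β => CArm S β x a R) ≤ pr V (fun β => Crq S BB 1 (β ∩ fre S BB)) := by
    apply pr_mono
    rintro β hβ ⟨p, q, hp, hq', h1, h2, h3⟩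
    have hcls : ∀ z ∈ β, z ∈ {v | v ∈ β ∩ fre S BB ∨ v ∈ BB 1 ∨ v ∈ BB (1 + 2)} := by
      intro z hz
      have hzV := hβ hz
      have hzS := hV hzV
      by_cases g1 : ‖z - x‖ ≤ a
      · exact Or.inr (Or.inl (mem1.2 ⟨hzS, Or.inl g1⟩))
      by_cases g2 : R ≤ ‖z - x‖
      · exact Or.inr (Or.inr (mem3.2 ⟨hzS, Or.inl g2⟩))
      refine Or.inl (Finset.mem_inter.2 ⟨hz, Finset.mem_filter.2 ⟨hzS, fun i hi => ?_⟩⟩)
      have hw : ∀ k, z ≠ w k := by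
        rintro k rfl
        exact hVh _ hzV _ (hc.edge k)
      rcases z4 i with rfl | rfl | rfl | rfl
      · obtain ⟨-, k, -, -, h⟩ := mem0.1 hi
        exact hw k h
      · obtain ⟨-, h | ⟨k, -, -, h⟩⟩ := mem1.1 hi
        · exact g1 h
        · exact hw k h
      · obtain ⟨-, k, -, -, h⟩ := mem2.1 hi
        exact hw k h
      · obtain ⟨-, h | ⟨k, -, -, h⟩⟩ := mem3.1 hi
        · exact g2 h
        · exact hw k h
    refine ⟨p, mem1.2 ⟨hV (hβ hp), Or.inl h1⟩, q, mem3.2 ⟨hV (hβ hq'), Or.inl h2⟩, hcls p hp, ?_⟩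
    refine Relation.ReflTransGen.mono ?_ _ _ h3
    rintro b c ⟨g1, g2, g3⟩
    exact ⟨g1, hcls c g3⟩
  have hmono : ∀ T T' : Finset ℂ, T ⊆ T' → Crq S BB 1 T → Crq S BB 1 T' := by
    rintro T T' hT ⟨p, hp, q, hq', h⟩
    refine ⟨p, hp, q, hq', h.mono ?_⟩
    rintro z (hz | hz)
    · exact Or.inl (hT hz)
    · exact Or.inr hz
  have h2 : pr V (fun β => Crq S BB 1 (β ∩ fre S BB)) ≤
      pr S (fun β => Crq S BB 1 (β ∩ fre S BB)) :=
    CBx838.pr_le_of_sub hV fun β β' hb h => hmono _ _ (Finset.inter_subset_inter_right hb) h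
  have hd : Dep S (fre S BB) (fun β => Crq S BB 1 (β ∩ fre S BB)) := by
    intro β _
    simp only [Finset.inter_assoc, Finset.inter_self]
  have h3 : pr (fre S BB) (fun β => Crq S BB 1 (β ∩ fre S BB)) = pr (fre S BB) (Crq S BB 1) := by
    apply pr_congr
    intro β hβ
    simp only [Finset.inter_eq_left.2 hβ]
  have h4 : pr (fre S BB) (fun β => Crq S BB 1 (fre S BB \ β)) = pr (fre S BB) (Crq S BB 1) :=
    pr_flip (fre S BB) (Crq S BB 1)
  have h5 : pr (fre S BB) (fun β => Crq S BB 1 (fre S BB \ β)) =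
      pr (fre S BB) (fun β => ¬ Crq S BB 0 β) := by
    apply pr_congr
    intro β hβ
    rw [Qd3x54.xorq hq hβ, not_not]
  rw [pr_dep hFS hd, h3, ← h4, h5, pr_not] at h2
  linarith

end Crest.Agent.R143.HarmCx802
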