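import Crest.Agent.R143.HarmG_496
import Crest.Agent.R143.Exit_920

/-!
# Row 143 (S0194), CONT, HARM: one scale at the hull circle (helper496)

* **`harm_one : HarmOne`** : quad `HarmG_496.qd`, curves `Exit_920.exit_curve`, energy principle
  `EPC_496.epc`, duality `HarmQ_496.arm_le`
* **`harm : Harm`**
-/

set_option autoImplicit false

noncomputable section

open scoped Classical

namespace Crest.Agent.R143.HarmFx496

open Set
open Crest.Agent.R143.B0x346 Crest.Agent.R143.B0Dx346 Crest.Agent.R143.DelGx806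
  Crest.Agent.R143.DelRx806 Crest.Agent.R143.DomAx722 Crest.Agent.R143.DomBx722
  Crest.Agent.R143.HULx838 Crest.Agent.R143.HarmGx496
open Crest.Agent.R143.RE0x723 (Pth X Y fre Crq)
open Crest.Agent.R143.JColx54 (Adj)
open Crest.Agent.R143.Harx315 (pr)
open Crest.Agent.R143.RB2x54 (Vt)
open Crest.Agent.R143.Circx63 (cT)

variable {S : Finset ℂ} {x0 q u : ℂ} {L e r A : ℝ} {n : ℕ} {w : ℤ → ℂ} {j1 j2 j3 j4 : ℤ}

/-- a vertex of a triangle which contains `y` is close to `y` -/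
theorem vt_near (hD : Dns S x0 L e) {t : ℂ × ℂ × ℂ} (ht : t ∈ delT S) {y v : ℂ} (hy : y ∈ cT t)
    (hv : Vt t v) : ‖v - y‖ ≤ 6 * Real.sqrt (L * e) := by
  obtain ⟨a, b, c⟩ := t
  obtain ⟨o, hT⟩ := mem_delT_iff.1 ht
  have hs := Real.sqrt_nonneg (L * e)
  have hadj : ∀ x y : ℂ, Vt (a, b, c) x → Vt (a, b, c) y → ‖x - y‖ ≤ 6 * Real.sqrt (L * e) := by
    intro x y hx hy
    by_cases hxy : x = y
    · rw [hxy, sub_self, norm_zero]; positivity
    · exact D4Lx408.adj_len hD (D4Ux408.adj_iff.2 (Qd2x54.adj_of_vt hD.gp ht hx hy hxy))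
  have h := inT_ball (z := v) (r := 6 * Real.sqrt (L * e)) hT.pos hy
    (hadj _ _ (Or.inl rfl) hv) (hadj _ _ (Or.inr (Or.inl rfl)) hv) (hadj _ _ (Or.inr (Or.inr rfl)) hv)
  rwa [norm_sub_rev] at h

/-- a point of a hull edge is in a triangle with this edge -/
theorem seg_tri {a b y : ℂ} (h : hullE S a b) (hy : y ∈ segment ℝ a b) :
    ∃ t ∈ delT S, y ∈ cT t ∧ Vt t a ∧ Vt t b := by
  obtain ⟨c, hc⟩ := h.1
  obtain ⟨o, hT⟩ := mem_delT_iff.1 hc
  refine ⟨(a, b, c), hc, ?_, Or.inl rfl, Or.inr (Or.inl rfl)⟩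
  obtain ⟨s, t, hs, ht, hst, rfl⟩ := hy
  have hp := hT.pos
  have e1 : s = 1 - t := by linarith
  subst e1
  show InT _ a b c
  unfold InT
  have f1 : cr (b - a) ((1 - t) • a + t • b - a) = 0 := by
    unfold cr
    simp only [Complex.sub_re, Complex.sub_im, Complex.add_re, Complex.add_im, Complex.real_smul,
      Complex.mul_re, Complex.mul_im, Complex.ofReal_re, Complex.ofReal_im]
    ring
  have f2 : cr (c - b) ((1 - t) • a + t • b - b) = (1 - t) * cr (b - a) (c - a) := by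
    unfold cr
    simp only [Complex.sub_re, Complex.sub_im, Complex.add_re, Complex.add_im, Complex.real_smul,
      Complex.mul_re, Complex.mul_im, Complex.ofReal_re, Complex.ofReal_im]
    ring
  have f3 : cr (a - c) ((1 - t) • a + t • b - c) = t * cr (b - a) (c - a) := by
    unfold cr
    simp only [Complex.sub_re, Complex.sub_im, Complex.add_re, Complex.add_im, Complex.real_smul,
      Complex.mul_re, Complex.mul_im, Complex.ofReal_re, Complex.ofReal_im]
    ring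
  refine ⟨by rw [f1], by rw [f2]; positivity, by rw [f3]; positivity⟩

theorem seg_near {a b y : ℂ} (hy : y ∈ segment ℝ a b) : ‖a - y‖ ≤ ‖b - a‖ := by
  obtain ⟨s, t, hs, ht, hst, rfl⟩ := hy
  have e1 : s = 1 - t := by linarith
  subst e1
  have : a - ((1 - t) • a + t • b) = (t : ℂ) * (a - b) := by
    simp only [Complex.real_smul]
    push_cast
    ring
  rw [this, norm_mul, Complex.norm_real, Real.norm_eq_abs, abs_of_nonneg ht, norm_sub_rev a b]
  have : 0 ≤ ‖b - a‖ := norm_nonneg _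
  nlinarith

/-- hull sites at the left are in the class `0` -/
theorem left0 (H : HS S x0 q u L e r A) (hc : HullCyc S n w) (P : PS q u L r A n w j1 j2 j3 j4)
    {a b : ℂ} (h : hullE S a b) (h1 : -(A * r / 2) < X q u a) (h2 : X q u a ≤ -(3 * r))
    (h3 : Y q u a < 17 / 10 * L) : a ∈ Bq S q r A n w j1 j2 j3 j4 0 := by
  have hr := H.rp
  have hA := H.Ar
  obtain ⟨i, g1, g2, rfl⟩ := exists_pos hc j1 h
  by_cases f1 : i ≤ j2
  · exact m0.2 ⟨i, g1, f1, rfl⟩
  push Not at f1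
  by_cases f2 : i ≤ j3
  · have := (P.c1 i f1 f2).1
    linarith
  push Not at f2
  by_cases f3 : i ≤ j4
  · have := (P.c2 i f2 f3).1
    linarith
  push Not at f3
  rcases P.c3 i f3 g2 with k | k | k <;> linarith

/-- hull sites at the right are in the class `2` -/
theorem right2 (H : HS S x0 q u L e r A) (hc : HullCyc S n w) (P : PS q u L r A n w j1 j2 j3 j4)
    {a b : ℂ} (h : hullE S a b) (h1 : X q u a ≤ A * r / 2) (h2 : 3 * r < X q u a)
    (h3 : Y q u a < 17 / 10 * L) : a ∈ Bq S q r A n w j1 j2 j3 j4 2 := by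
  have hr := H.rp
  have hA := H.Ar
  obtain ⟨i, g1, g2, rfl⟩ := exists_pos hc j1 h
  by_cases f1 : i ≤ j2
  · have := (P.c0 i g1 f1).2.1
    linarith
  push Not at f1
  by_cases f2 : i ≤ j3
  · have := (P.c1 i f1 f2).2.1
    linarith
  push Not at f2
  by_cases f3 : i ≤ j4
  · exact m2.2 ⟨i, f2, f3, rfl⟩
  push Not at f3
  rcases P.c3 i f3 g2 with k | k | k <;> linarith

/-- **the energy principle for the quad** -/
theorem ep (H : HS S x0 q u L e r A) (hc : HullCyc S n w) (P : PS q u L r A n w j1 j2 j3 j4)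
    {C4 : ℝ} (hlog : 96 * C4 ≤ Real.log ((A * r / 2 - r) / (5 * r)))
    (hM : ∀ b' ∈ Icc (5 * r) (A * r / 2 - r), ∑ t ∈ (delT S).filter
      (fun t => (cT t ∩ Metric.closedBall q b').Nonempty), Scalx63.dm t ^ 2 ≤ C4 * b' ^ 2) :
    1 / 3 ≤ pr (fre S (Bq S q r A n w j1 j2 j3 j4)) (Crq S (Bq S q r A n w j1 j2 j3 j4) 0) := by
  have hr := H.rp
  have hA := H.Ar
  have hsr := H.sr
  have hsp := H.sp
  have hAL := H.hL
  have hL := H.Lp
  have hD := H.dns
  have hex : ∀ ρ ∈ Icc (5 * r) (A * r / 2 - r), ∃ Cv : Set ℂ, IsPreconnected Cv ∧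
      (∀ y ∈ Cv, ‖y - q‖ = ρ ∧ ∃ t ∈ delT S, y ∈ Circx63.cT t) ∧
      (∃ y ∈ Cv, ∃ a b, hullE S a b ∧ y ∈ segment ℝ a b ∧ RE0x723.X q u y ≤ -(7 / 8 * ρ)) ∧
      (∃ y ∈ Cv, ∃ a b, hullE S a b ∧ y ∈ segment ℝ a b ∧ 7 / 8 * ρ ≤ RE0x723.X q u y) := by
    rintro ρ ⟨h1, h2⟩
    exact Exitx920.exit_curve hD H.u1 H.cen (by linarith) (by linarith)
  choose! C hC1 hC2 hC3 hC4 using hex
  have XY : ∀ {a b y : ℂ}, hullE S a b → y ∈ segment ℝ a b →
      |X q u a - X q u y| ≤ r / 8 ∧ |Y q u a - Y q u y| ≤ r / 8 := by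
    intro a b y hab hy
    have h1 := seg_near hy
    have h2 := edge_len hD hab
    exact ⟨(X_diff (z0 := q) H.u1 a y).trans (by linarith),
      (Y_diff (z0 := q) H.u1 a y).trans (by linarith)⟩
  refine EPCx496.epc (qd H hc P) q C (r := 5 * r) (R := A * r / 2 - r) (b := A * r / 2 - r)
    (C4 := C4) (by positivity) (by linarith) le_rfl hlog (fun ρ hρ y hy => (hC2 ρ hρ y hy).1) hC1
    (fun ρ hρ y hy => (hC2 ρ hρ y hy).2) ?_ ?_ ?_ hM
  · rintro ρ hρ t ht ⟨y, hy, hyC⟩ v hv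
    have h1 := (hC2 ρ hρ y hyC).1
    have h2 := vt_near hD ht hy hv
    obtain ⟨hρ1, hρ2⟩ := hρ
    have h3 : ‖v - q‖ ≤ ‖v - y‖ + ‖y - q‖ := by
      have := norm_add_le (v - y) (y - q)
      rwa [sub_add_sub_cancel] at this
    have h4 : ‖y - q‖ ≤ ‖v - y‖ + ‖v - q‖ := by
      have := norm_sub_le (v - q) (v - y)
      rw [sub_sub_sub_cancel_left] at this
      linarith
    have hvS : v ∈ S := by
      obtain ⟨k1, k2, k3, -⟩ := mem_delT.1 ht
      rcases hv with rfl | rfl | rfl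
      · exact k1
      · exact k2
      · exact k3
    by_cases m0' : v ∈ Bq S q r A n w j1 j2 j3 j4 0
    · exact Or.inl m0'
    by_cases m2' : v ∈ Bq S q r A n w j1 j2 j3 j4 2
    · exact Or.inr (Or.inl m2')
    right; right
    refine Finset.mem_filter.2 ⟨hvS, fun k => ?_⟩
    have z4 : k = 0 ∨ k = 1 ∨ k = 2 ∨ k = 3 := by revert k; decide
    rcases z4 with rfl | rfl | rfl | rfl
    · exact m0'
    · intro hk
      have := (l1 H hc P hk).1
      linarith
    · exact m2'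
    · intro hk
      have := (l3 H P hk).1
      linarith
  · intro ρ hρ
    obtain ⟨y, hy, a, b, hab, hseg, hX⟩ := hC3 ρ hρ
    obtain ⟨t, ht, hyt, hva, -⟩ := seg_tri hab hseg
    refine ⟨t, ht, ⟨y, hyt, hy⟩, a, hva, ?_⟩
    have h1 := (hC2 ρ hρ y hy).1
    obtain ⟨k1, k2⟩ := XY hab hseg
    have k3 := absX_le H y
    have k4 := absY_le H y
    obtain ⟨hρ1, hρ2⟩ := hρ
    rw [abs_le] at k1 k2 k3 k4
    exact left0 H hc P hab (by linarith) (by linarith) (by linarith)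
  · intro ρ hρ
    obtain ⟨y, hy, a, b, hab, hseg, hX⟩ := hC4 ρ hρ
    obtain ⟨t, ht, hyt, hva, -⟩ := seg_tri hab hseg
    refine ⟨t, ht, ⟨y, hyt, hy⟩, a, hva, ?_⟩
    have h1 := (hC2 ρ hρ y hy).1
    obtain ⟨k1, k2⟩ := XY hab hseg
    have k3 := absX_le H y
    have k4 := absY_le H y
    obtain ⟨hρ1, hρ2⟩ := hρ
    rw [abs_le] at k1 k2 k3 k4
    exact right2 H hc P hab (by linarith) (by linarith) (by linarith)

/-- the frame at a point near the circle -/
theorem frame {p : ℂ} (hp0 : 0 < ‖p - x0‖) (hp : ‖p - x0‖ ≤ L) :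
    ∃ q u : ℂ, ‖u‖ = 1 ∧ x0 = q + u * ((L : ℂ) * Complex.I) ∧ ‖p - q‖ = L - ‖p - x0‖ := by
  set k : ℝ := ‖p - x0‖ with hk
  set ω : ℂ := (p - x0) / k with hω
  have hk0 : (k : ℂ) ≠ 0 := by exact_mod_cast hp0.ne'
  have hω1 : ‖ω‖ = 1 := by
    rw [hω, norm_div, Complex.norm_real, Real.norm_eq_abs, abs_of_pos hp0, ← hk, div_self hp0.ne']
  refine ⟨x0 + L * ω, ω * Complex.I, ?_, ?_, ?_⟩
  · rw [norm_mul, hω1, Complex.norm_I, mul_one]
  · have : ω * Complex.I * ((L : ℂ) * Complex.I) = -(L * ω) := by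
      have hI := Complex.I_mul_I
      linear_combination (L : ℂ) * ω * hI
    rw [this]
    ring
  · have e1 : p - (x0 + L * ω) = ((k - L : ℝ) : ℂ) * ω := by
      have : p - x0 = k * ω := by
        rw [hω]; field_simp
      push_cast
      linear_combination this
    rw [e1, norm_mul, hω1, mul_one, Complex.norm_real, Real.norm_eq_abs, abs_of_nonpos (by linarith)]
    ring

/-- **ONE SCALE AT THE HULL** -/
theorem harm_one : HarmSx496.HarmOne := by
  intro C4 hC4
  set E : ℝ := Real.exp (96 * C4) with hE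
  have hE1 : 1 ≤ E := Real.one_le_exp (by positivity)
  set A : ℝ := 10 * E + 60 with hA
  refine ⟨2 / 3, 1, 8 * A, by norm_num, by norm_num, one_pos, le_rfl, by linarith, ?_⟩
  intro S x0 L e r hD h1 h2 hM p hp hpr V hV hVh
  have he := hD.dpos
  have hL8 := hD.dL
  have hL : 0 < L := by linarith
  have hs0 : 0 < Real.sqrt (L * e) := Real.sqrt_pos.2 (by positivity)
  have hA0 : 0 < A := by linarith
  have hr : 0 < r := lt_of_lt_of_le (by positivity) h1
  have hrL : r < L := by nlinarith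
  obtain ⟨q, u, hu, hcen, hpq⟩ := frame (p := p) (by linarith) hp
  have H : HS S x0 q u L e r A := ⟨hD, hu, hcen, by linarith, h1, h2⟩
  obtain ⟨n, w, hc⟩ := hull_cycle hD.gp hD.card
  obtain ⟨j1, j2, j3, j4, P⟩ := exists_ps H hc
  have hpq' : ‖p - q‖ ≤ r := by rw [hpq]; linarith
  have hEP := ep H hc P (C4 := C4) ?_ ?_
  · refine HarmQx496.arm_le (qd H hc P) hEP (p := p) (r := r) (R := 8 * A * r) ?_ ?_ hV ?_
    · intro x hx hxp
      refine m1.2 (Or.inl ⟨hx, ?_⟩)
      have : ‖x - q‖ ≤ ‖x - p‖ + ‖p - q‖ := by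
        have := norm_add_le (x - p) (p - q)
        rwa [sub_add_sub_cancel] at this
      linarith
    · intro y hy hyp
      refine m3.2 (Or.inl ⟨hy, ?_⟩)
      have : ‖y - p‖ ≤ ‖y - q‖ + ‖p - q‖ := by
        have := norm_sub_le (y - q) (p - q)
        rwa [sub_sub_sub_cancel_right] at this
      nlinarith
    · intro v hv
      constructor
      · intro h0
        obtain ⟨i, -, -, rfl⟩ := m0.1 h0
        exact (hVh _ hv (w (i + 1))).1 (hc.edge i)
      · intro h0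
        obtain ⟨i, -, -, rfl⟩ := m2.1 h0
        exact (hVh _ hv (w (i + 1))).1 (hc.edge i)
  · rw [← Real.log_exp (96 * C4)]
    apply Real.log_le_log (Real.exp_pos _)
    rw [le_div_iff₀ (by positivity)]
    rw [← hE, hA]
    nlinarith
  · rintro b' ⟨hb1, hb2⟩
    exact hM q (by rw [H.qx]) b' (by linarith) (by nlinarith)

/-- **HARM** -/
theorem harm : HarmSx496.Harm := HarmSx496.harm_of_one harm_one

end Crest.Agent.R143.HarmFx496
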