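import Crest.Agent.R143.HarmQ_496
import Crest.Agent.R143.HUL_838
import Crest.Agent.R143.RE4_723
import Crest.Agent.R143.Seg_991

/-!
# Row 143 (S0194), CONT, HARM: the quad of a half annulus at the hull circle (helper496)

Frame `X = X q u`, `Y = Y q u`: `q` = point of the circle `‖z - x0‖ = L`, `x0 = q + u (L i)`.
* `HS` : hypotheses (`A ≥ 40`, `8 A √(L e) ≤ r`, `8 A r ≤ L`)
* `dich` : a hull site with `|X| ≤ L / 4` is at the bottom (and `X` increases along the hull) or at the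
  top (and `X` decreases)
* `PS`, `exists_ps` : positions of the thresholds `- A r / 2, - 3 r, 3 r, A r / 2` along the hull
* `Bq`, `qd` : the quad
-/

set_option autoImplicit false

noncomputable section

open scoped Classical

namespace Crest.Agent.R143.HarmGx496

open Set
open Crest.Agent.R143.B0x346 Crest.Agent.R143.B0Dx346 Crest.Agent.R143.DelGx806
  Crest.Agent.R143.DelRx806 Crest.Agent.R143.DomAx722 Crest.Agent.R143.DomBx722
  Crest.Agent.R143.HULx838
open Crest.Agent.R143.RE0x723 (Pth X Y)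
open Crest.Agent.R143.JColx54 (Adj)

variable {S : Finset ℂ} {x0 q u : ℂ} {L e r A : ℝ}

/-- hypotheses -/
structure HS (S : Finset ℂ) (x0 q u : ℂ) (L e r A : ℝ) : Prop where
  dns : Dns S x0 L e
  u1 : ‖u‖ = 1
  cen : x0 = q + u * ((L : ℂ) * Complex.I)
  A40 : 40 ≤ A
  hs : 8 * A * Real.sqrt (L * e) ≤ r
  hL : 8 * A * r ≤ L

section
variable (H : HS S x0 q u L e r A)
include H

namespace HS

theorem ep : 0 < e := H.dns.dpos
theorem Lp : 0 < L := by have := H.dns.dL; have := H.ep; linarith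
theorem es : e ≤ Real.sqrt (L * e) := d_le_sqrt H.ep.le (by have := H.dns.dL; have := H.ep; linarith)
theorem sp : 0 < Real.sqrt (L * e) := H.ep.trans_le H.es
theorem sr : 320 * Real.sqrt (L * e) ≤ r := by
  have := H.hs; have := H.A40; have := H.sp
  nlinarith
theorem rp : 0 < r := by have := H.sr; have := H.sp; linarith
theorem rL : 320 * r ≤ L := by
  have := H.hL; have := H.A40; have := H.rp
  nlinarith
theorem eL : 1000 * e ≤ L := by
  have := H.rL; have := H.sr; have := H.es; have := H.ep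
  linarith
theorem Ar : 40 * r ≤ A * r := by have := H.A40; have := H.rp; nlinarith

theorem Xc : X q u x0 = 0 := by
  unfold RE0x723.X
  rw [H.cen, add_sub_cancel_left, mul_div_cancel_left₀ _ (u_ne H.u1)]
  simp

theorem Yc : Y q u x0 = L := by
  unfold RE0x723.Y
  rw [H.cen, add_sub_cancel_left, mul_div_cancel_left₀ _ (u_ne H.u1)]
  simp

omit H in
theorem Xq : X q u q = 0 := by unfold RE0x723.X; simp
omit H in
theorem Yq : Y q u q = 0 := by unfold RE0x723.Y; simp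

theorem nsq (s : ℂ) : ‖s - q‖ ^ 2 = X q u s ^ 2 + Y q u s ^ 2 := by
  rw [sq_XY (z0 := q) H.u1, Xq, Yq, sub_zero, sub_zero]

theorem csq (s : ℂ) : ‖s - x0‖ ^ 2 = X q u s ^ 2 + (Y q u s - L) ^ 2 := by
  rw [sq_XY (z0 := q) H.u1, H.Xc, H.Yc, sub_zero]

theorem qx : ‖q - x0‖ = L := by
  have h := H.csq q
  rw [Xq, Yq] at h
  have hL := H.Lp
  have h1 : ‖q - x0‖ ^ 2 = L ^ 2 := by rw [h]; ring
  exact (pow_left_inj₀ (norm_nonneg _) hL.le two_ne_zero).1 h1

theorem site {s : ℂ} (hs : s ∈ S) : X q u s ^ 2 + Y q u s ^ 2 ≤ 2 * L * Y q u s := by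
  have h1 := H.dns.sub s hs
  have h2 := H.csq s
  have h3 : ‖s - x0‖ ^ 2 ≤ L ^ 2 := pow_le_pow_left₀ (norm_nonneg _) h1 2
  nlinarith

theorem Y0 {s : ℂ} (hs : s ∈ S) : 0 ≤ Y q u s := by
  have h1 := H.site hs
  have h2 := H.Lp
  by_contra hc
  push Not at hc
  nlinarith [sq_nonneg (X q u s), sq_nonneg (Y q u s)]

theorem hfar' {a b : ℂ} (h : hullE S a b) : (L - 2 * e) ^ 2 ≤ X q u a ^ 2 + (Y q u a - L) ^ 2 := by
  have h1 := (hull_far H.dns h).1
  have h2 := H.csq a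
  have h3 := H.eL
  have h4 := H.ep
  rw [← h2]
  exact pow_le_pow_left₀ (by linarith) h1 2

/-- **bottom or top** -/
theorem dich {a b : ℂ} (h : hullE S a b) (hx : |X q u a| ≤ L / 4) :
    (Y q u a ≤ 3 / 10 * L ∧ X q u a < X q u b) ∨ (17 / 10 * L ≤ Y q u a ∧ X q u b < X q u a) := by
  have e1 := edge_dist H.dns h
  rw [cr_XY (z0 := q) H.u1, H.Xc, H.Yc] at e1
  have e2 := H.hfar' h
  have hL := H.Lp
  have he := H.eL
  have hep := H.ep
  have hn : 0 < ‖b - a‖ := norm_pos_iff.2 (sub_ne_zero.2 (hullE.ne h).symm)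
  have k1 := Y_diff (z0 := q) H.u1 b a
  have hx2 : X q u a ^ 2 ≤ (L / 4) ^ 2 := by
    rw [← sq_abs]
    exact pow_le_pow_left₀ (abs_nonneg _) hx 2
  have k2 : (Y q u b - Y q u a) * (0 - X q u a) * (-1) ≤ ‖b - a‖ * (L / 4) := by
    have h1 : (Y q u b - Y q u a) * (0 - X q u a) * (-1) ≤
        |Y q u b - Y q u a| * |X q u a| := by
      rw [← abs_mul]
      have := le_abs_self ((Y q u b - Y q u a) * X q u a)
      linarith
    exact h1.trans (mul_le_mul k1 hx (abs_nonneg _) hn.le)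
  have hYd : 17 / 25 * L ≤ |Y q u a - L| := by
    by_contra hc
    push Not at hc
    have h1 : (Y q u a - L) ^ 2 < (17 / 25 * L) ^ 2 := by
      rw [← sq_abs]
      exact pow_lt_pow_left₀ hc (abs_nonneg _) two_ne_zero
    nlinarith
  -- first the sign
  have key : ∀ s : ℝ, (s = 1 ∨ s = -1) → 0 ≤ s * (Y q u a - L) → X q u a = X q u a ∧
      s * (X q u b - X q u a) < 0 := by
    intro s hs hsY
    refine ⟨rfl, ?_⟩
    by_contra hc
    push Not at hc
    have h1 : (X q u b - X q u a) * (L - Y q u a) ≤ 0 := by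
      rcases hs with rfl | rfl
      · nlinarith
      · nlinarith
    have h2 : (L - 2 * e) * ‖b - a‖ ≤ ‖b - a‖ * (L / 4) := by
      nlinarith
    nlinarith
  rcases le_total (Y q u a) L with hy | hy
  · left
    rw [abs_of_nonpos (by linarith)] at hYd
    have h1 := (key (-1) (Or.inr rfl) (by linarith)).2
    -- better bound on `Y`
    refine ⟨?_, by linarith⟩
    by_contra hc
    push Not at hc
    nlinarith
  · right
    rw [abs_of_nonneg (by linarith)] at hYd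
    have h1 := (key 1 (Or.inl rfl) (by linarith)).2
    refine ⟨?_, by linarith⟩
    by_contra hc
    push Not at hc
    nlinarith

/-- height of the bottom hull sites -/
theorem botY {a b : ℂ} (h : hullE S a b) (hY : Y q u a ≤ 3 / 10 * L) :
    17 * L * Y q u a ≤ 10 * (4 * L * e + X q u a ^ 2) := by
  have e2 := H.hfar' h
  have hL := H.Lp
  have hep := H.ep
  have h0 := H.Y0 (hullE.mem h).1
  nlinarith

end HS
end

/-! ### positions -/

/-- a hull site near every direction -/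
theorem near' (H : HS S x0 q u L e r A) {n : ℕ} {w : ℤ → ℂ} (hc : HullCyc S n w) {v : ℂ}
    (hv : ‖v‖ = 1) : ∃ i, ‖w i - (x0 + L * v)‖ ≤ 6 * Real.sqrt (L * e) := by
  obtain ⟨p, hp⟩ := crossRay_exists H.dns hv
  have h1 := crossRay_near H.dns hv hp
  have h2 := edge_len H.dns hp.1
  obtain ⟨i, -, -, hi, -⟩ := hc.all _ _ hp.1
  refine ⟨i, ?_⟩
  rw [hi]
  have e' : p.1 - (x0 + L * v) = (mid p - (x0 + L * v)) - (1 / 2 : ℂ) * (p.2 - p.1) := by
    unfold mid
    ring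
  rw [e']
  have h3 : ‖(1 / 2 : ℂ) * (p.2 - p.1)‖ ≤ 2 * Real.sqrt (L * e) := by
    rw [norm_mul]
    have : ‖(1 / 2 : ℂ)‖ = 1 / 2 := by norm_num
    rw [this]
    linarith
  have := norm_sub_le (mid p - (x0 + L * v)) ((1 / 2 : ℂ) * (p.2 - p.1))
  linarith

/-- **positions along the hull** -/
structure PS (q u : ℂ) (L r A : ℝ) (n : ℕ) (w : ℤ → ℂ) (j1 j2 j3 j4 : ℤ) : Prop where
  h12 : j1 < j2
  h23 : j2 < j3
  h34 : j3 < j4
  h41 : j4 < j1 + n
  c0 : ∀ i, j1 < i → i ≤ j2 → -(A * r / 2) < X q u (w i) ∧ X q u (w i) ≤ -(3 * r) ∧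
    Y q u (w i) ≤ 3 / 10 * L
  c1 : ∀ i, j2 < i → i ≤ j3 → -(3 * r) < X q u (w i) ∧ X q u (w i) ≤ 3 * r ∧
    Y q u (w i) ≤ 3 / 10 * L
  c2 : ∀ i, j3 < i → i ≤ j4 → 3 * r < X q u (w i) ∧ X q u (w i) ≤ A * r / 2 ∧
    Y q u (w i) ≤ 3 / 10 * L
  c3 : ∀ i, j4 < i → i ≤ j1 + n → X q u (w i) ≤ -(A * r / 2) ∨ A * r / 2 < X q u (w i) ∨
    17 / 10 * L ≤ Y q u (w i)

theorem exists_ps (H : HS S x0 q u L e r A) {n : ℕ} {w : ℤ → ℂ} (hc : HullCyc S n w) :
    ∃ j1 j2 j3 j4, PS q u L r A n w j1 j2 j3 j4 := by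
  have hL := H.Lp
  have hr := H.rp
  have hsr := H.sr
  have hsp := H.sp
  have hrL := H.rL
  have hAr := H.Ar
  have hAL := H.hL
  obtain ⟨i0, hi0⟩ := near' H hc (v := -u) (by rw [norm_neg, H.u1])
  obtain ⟨i1, hi1⟩ := near' H hc (v := u) H.u1
  set g : ℕ → ℝ := fun j => if j = 1 then -(A * r / 2) else if j = 2 then -(3 * r)
    else if j = 3 then 3 * r else A * r / 2 with hg
  have g1 : g 1 = -(A * r / 2) := rfl
  have g2 : g 2 = -(3 * r) := rfl
  have g3 : g 3 = 3 * r := rfl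
  have g4 : g 4 = A * r / 2 := rfl
  have hsm : ∀ {i : ℤ}, |X q u (w i)| ≤ A * r / 2 → |X q u (w i)| ≤ L / 4 := by
    intro i h; linarith
  obtain ⟨p, P1, P2, P3, P4, P5, P6⟩ := pos (x := fun i => X q u (w i)) (y := fun i => Y q u (w i))
    (n := n) hc.pos (fun i => by rw [hc.per]) (fun i => by rw [hc.per])
    (fun i j k hij hjk hki => by
      have := hc.conv i j k hij hjk hki
      rwa [cr_XY (z0 := q) H.u1] at this) (e := 4 * Real.sqrt (L * e)) (fun i => by
      have h1 := X_diff (z0 := q) H.u1 (w (i + 1)) (w i)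
      have h2 := edge_len H.dns (hc.edge i)
      linarith) (N := 3) (by norm_num) (g := g) (fun j h1 h2 => by
      obtain rfl | rfl | rfl : j = 1 ∨ j = 2 ∨ j = 3 := by omega
      · show g 1 + _ < g 2
        rw [g1, g2]; linarith
      · show g 2 + _ < g 3
        rw [g2, g3]; linarith
      · show g 3 + _ < g 4
        rw [g3, g4]; linarith) (i0 := i0) (i1 := i1) (by
      have h1 := X_diff (z0 := q) H.u1 (w i0) (x0 + L * -u)
      have h2 : X q u (x0 + L * -u) = -L := by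
        have := X_sub (z0 := q) (u := u) (x0 + L * -u) x0
        have e : ((L : ℂ) * -u) / u = ((-L : ℝ) : ℂ) := by
          rw [mul_neg, neg_div, mul_div_cancel_right₀ _ (u_ne H.u1)]
          push_cast
          rfl
        rw [H.Xc, add_sub_cancel_left, e, Complex.ofReal_re, sub_zero] at this
        exact this
      rw [h2] at h1
      have h3 := le_abs_self (X q u (w i0) - -L)
      rw [g1]
      linarith) (by
      have h1 := X_diff (z0 := q) H.u1 (w i1) (x0 + L * u)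
      have h2 : X q u (x0 + L * u) = L := by
        have := X_sub (z0 := q) (u := u) (x0 + L * u) x0
        rw [H.Xc, add_sub_cancel_left, mul_div_cancel_right₀ _ (u_ne H.u1)] at this
        simp only [Complex.ofReal_re] at this
        linarith
      rw [h2] at h1
      have h3 := neg_abs_le (X q u (w i1) - L)
      show g 4 < _
      rw [g4]
      linarith)
  have q1 : p 0 < p 1 := P1 0 (by omega)
  have q2 : p 1 < p 2 := P1 1 (by omega)
  have q3 : p 2 < p 3 := P1 2 (by omega)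
  have q4 : p 3 < p 4 := P1 3 (by omega)
  have q5 : p 4 < p 5 := P1 4 (by omega)
  have q6 : p 5 < p 0 + n := P2
  have bot : ∀ i, |X q u (w i)| ≤ A * r / 2 → X q u (w i) ≤ X q u (w (i + 1)) →
      Y q u (w i) ≤ 3 / 10 * L := by
    intro i h1 h2
    rcases H.dich (hc.edge i) (hsm h1) with h | h
    · exact h.1
    · linarith [h.2]
  refine ⟨p 1, p 2, p 3, p 4, q2, q3, q4, by omega, ?_, ?_, ?_, ?_⟩
  · intro i h1 h2
    obtain ⟨k1, k2, k3⟩ := P4 1 le_rfl (by omega) i h1 h2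
    have k1' : -(A * r / 2) < X q u (w i) := k1
    have k2' : X q u (w i) ≤ -(3 * r) := k2
    exact ⟨k1', k2', bot i (by rw [abs_le]; constructor <;> linarith) k3⟩
  · intro i h1 h2
    obtain ⟨k1, k2, k3⟩ := P4 2 (by omega) (by omega) i h1 h2
    have k1' : -(3 * r) < X q u (w i) := k1
    have k2' : X q u (w i) ≤ 3 * r := k2
    exact ⟨k1', k2', bot i (by rw [abs_le]; constructor <;> linarith) k3⟩
  · intro i h1 h2
    obtain ⟨k1, k2, k3⟩ := P4 3 (by omega) (by omega) i h1 h2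
    have k1' : 3 * r < X q u (w i) := k1
    have k2' : X q u (w i) ≤ A * r / 2 := k2
    exact ⟨k1', k2', bot i (by rw [abs_le]; constructor <;> linarith) k3⟩
  · intro i h1 h2
    by_cases h3 : i ≤ p 5
    · right; left
      exact P5 i h1 h3
    by_cases h4 : i ≤ p 0 + n
    · obtain ⟨k1, k2, k3⟩ := P6 i (by push Not at h3; exact h3) h4
      have k1' : -(A * r / 2) < X q u (w i) := k1
      have k2' : X q u (w i) ≤ A * r / 2 := k2
      right; right
      have h5 : |X q u (w i)| ≤ A * r / 2 := by rw [abs_le]; constructor <;> linarith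
      rcases H.dich (hc.edge i) (hsm h5) with h | h
      · have : X q u (w (i + 1)) ≤ X q u (w i) := k3
        linarith [h.2]
      · exact h.1
    · left
      push Not at h4
      have h5 := P3 (i - n) (by omega) (by omega)
      have h6 := hc.per (i - n)
      rw [sub_add_cancel] at h6
      rw [← h6] at h5
      exact h5

/-- every hull site is at a position in `(j1, j1 + n]` -/
theorem exists_pos {n : ℕ} {w : ℤ → ℂ} (hc : HullCyc S n w) (j : ℤ) {a b : ℂ}
    (h : hullE S a b) : ∃ i, j < i ∧ i ≤ j + n ∧ w i = a := by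
  obtain ⟨i, -, -, hi, -⟩ := hc.all a b h
  have hn : (0 : ℤ) < n := by exact_mod_cast hc.pos
  refine ⟨j + 1 + (i - (j + 1)) % n, ?_, ?_, ?_⟩
  · have := Int.emod_nonneg (i - (j + 1)) hn.ne'
    omega
  · have := Int.emod_lt_of_pos (i - (j + 1)) hn
    omega
  · have h := mod_per (X := ℂ) (w := fun k => w (j + 1 + k)) hc.pos (fun k => by
      rw [← add_assoc]; exact hc.per _) (i - (j + 1))
    rw [h, add_sub_cancel]
    exact hi

/-! ### the quad -/

theorem arc_pth {n : ℕ} {w : ℤ → ℂ} (hc : HullCyc S n w) {V : Set ℂ} {a b : ℤ}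
    (hV : ∀ k, a < k → k ≤ b → w k ∈ V) {i j : ℤ} (hi : a < i) (hj : j ≤ b) (hij : i ≤ j) :
    Pth S V (w i) (w j) := by
  obtain ⟨m, rfl⟩ : ∃ m : ℕ, j = i + m := ⟨(j - i).toNat, by omega⟩
  induction m with
  | zero =>
    have : w (i + ((0 : ℕ) : ℤ)) = w i := by norm_num
    rw [this]
    exact Pth.refl (hV i hi (by omega))
  | succ m ih =>
    have h1 := ih (by push_cast at hj; omega) (by omega)
    have e1 : (i + ((m + 1 : ℕ) : ℤ)) = i + m + 1 := by push_cast; ring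
    rw [e1] at hj ⊢
    exact h1.tail (Or.inl (hc.edge (i + m)).1) (hV _ (by omega) hj)

theorem arc_con {n : ℕ} {w : ℤ → ℂ} (hc : HullCyc S n w) {V : Set ℂ} {a b : ℤ}
    (hV : ∀ k, a < k → k ≤ b → w k ∈ V) {i j : ℤ} (hi : a < i) (hi' : i ≤ b) (hj : a < j)
    (hj' : j ≤ b) : Pth S V (w i) (w j) := by
  rcases le_total i j with h | h
  · exact arc_pth hc hV hi hj' h
  · exact (arc_pth hc hV hj hi' h).symm

/-- the classes -/
def Bq (S : Finset ℂ) (q : ℂ) (r A : ℝ) (n : ℕ) (w : ℤ → ℂ) (j1 j2 j3 j4 : ℤ) (k : ZMod 4) :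
    Finset ℂ :=
  if k = 0 then (Finset.Ioc j1 j2).image w
  else if k = 1 then (S.filter fun s => ‖s - q‖ ≤ 2 * r) ∪ (Finset.Ioc j2 j3).image w
  else if k = 2 then (Finset.Ioc j3 j4).image w
  else (S.filter fun s => (A - 1) * r ≤ ‖s - q‖) ∪ (Finset.Ioc j4 (j1 + n)).image w

section quad

variable {n : ℕ} {w : ℤ → ℂ} {j1 j2 j3 j4 : ℤ}

local notation "BB" => Bq S q r A n w j1 j2 j3 j4

theorem m0 {s : ℂ} : s ∈ BB 0 ↔ ∃ i, j1 < i ∧ i ≤ j2 ∧ w i = s := by
  unfold Bq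
  rw [if_pos rfl, Finset.mem_image]
  simp only [Finset.mem_Ioc, and_assoc]

theorem m1 {s : ℂ} : s ∈ BB 1 ↔ (s ∈ S ∧ ‖s - q‖ ≤ 2 * r) ∨ ∃ i, j2 < i ∧ i ≤ j3 ∧ w i = s := by
  unfold Bq
  rw [if_neg (by decide), if_pos rfl, Finset.mem_union, Finset.mem_image, Finset.mem_filter]
  simp only [Finset.mem_Ioc, and_assoc]

theorem m2 {s : ℂ} : s ∈ BB 2 ↔ ∃ i, j3 < i ∧ i ≤ j4 ∧ w i = s := by
  unfold Bq
  rw [if_neg (by decide), if_neg (by decide), if_pos rfl, Finset.mem_image]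
  simp only [Finset.mem_Ioc, and_assoc]

theorem m3 {s : ℂ} : s ∈ BB 3 ↔ (s ∈ S ∧ (A - 1) * r ≤ ‖s - q‖) ∨
    ∃ i, j4 < i ∧ i ≤ j1 + n ∧ w i = s := by
  unfold Bq
  rw [if_neg (by decide), if_neg (by decide), if_neg (by decide), Finset.mem_union,
    Finset.mem_image, Finset.mem_filter]
  simp only [Finset.mem_Ioc, and_assoc]

theorem absX_le (H : HS S x0 q u L e r A) (s : ℂ) : |X q u s| ≤ ‖s - q‖ := by
  have h := H.nsq s
  have : |X q u s| ^ 2 ≤ ‖s - q‖ ^ 2 := by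
    rw [sq_abs, h]
    nlinarith [sq_nonneg (Y q u s)]
  exact (pow_le_pow_iff_left₀ (abs_nonneg _) (norm_nonneg _) two_ne_zero).1 this

theorem absY_le (H : HS S x0 q u L e r A) (s : ℂ) : |Y q u s| ≤ ‖s - q‖ := by
  have h := H.nsq s
  have : |Y q u s| ^ 2 ≤ ‖s - q‖ ^ 2 := by
    rw [sq_abs, h]
    nlinarith [sq_nonneg (X q u s)]
  exact (pow_le_pow_iff_left₀ (abs_nonneg _) (norm_nonneg _) two_ne_zero).1 this

theorem nrm_le (H : HS S x0 q u L e r A) (s : ℂ) : ‖s - q‖ ≤ |X q u s| + |Y q u s| := by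
  have h := H.nsq s
  have : ‖s - q‖ ^ 2 ≤ (|X q u s| + |Y q u s|) ^ 2 := by
    rw [h, ← sq_abs (X q u s), ← sq_abs (Y q u s)]
    nlinarith [mul_nonneg (abs_nonneg (X q u s)) (abs_nonneg (Y q u s))]
  exact (pow_le_pow_iff_left₀ (norm_nonneg _) (by positivity) two_ne_zero).1 this

/-- the bottom hull sites are close to the line `Y = 0` -/
theorem bot_nrm (H : HS S x0 q u L e r A) (hc : HullCyc S n w) {i : ℤ}
    (h1 : |X q u (w i)| ≤ A * r / 2) (h2 : Y q u (w i) ≤ 3 / 10 * L) :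
    ‖w i - q‖ ≤ 21 / 20 * |X q u (w i)| + r / 100 := by
  have hL := H.Lp
  have hr := H.rp
  have hY := H.botY (hc.edge i) h2
  have hY0 := H.Y0 (hullE.mem (hc.edge i)).1
  have h3 := nrm_le H (w i)
  rw [abs_of_nonneg hY0] at h3
  have hAL := H.hL
  have he := H.es
  have hs := H.sr
  have h4 : X q u (w i) ^ 2 ≤ |X q u (w i)| * (L / 16) := by
    rw [← sq_abs, sq]
    exact mul_le_mul_of_nonneg_left (by linarith) (abs_nonneg _)
  have h5 : 17 * Y q u (w i) ≤ 40 * e + 10 / 16 * |X q u (w i)| := by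
    have : L * (17 * Y q u (w i)) ≤ L * (40 * e + 10 / 16 * |X q u (w i)|) := by nlinarith
    exact le_of_mul_le_mul_left this hL
  linarith [abs_nonneg (X q u (w i))]

/-- location of the class `0` -/
theorem l0 (H : HS S x0 q u L e r A) (hc : HullCyc S n w) (P : PS q u L r A n w j1 j2 j3 j4)
    {s : ℂ} (hs : s ∈ BB 0) : -(A * r / 2) < X q u s ∧ X q u s ≤ -(3 * r) ∧
    Y q u s ≤ 3 / 10 * L ∧ 3 * r ≤ ‖s - q‖ ∧ ‖s - q‖ < (A - 1) * r := by
  obtain ⟨i, h1, h2, rfl⟩ := m0.1 hs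
  obtain ⟨k1, k2, k3⟩ := P.c0 i h1 h2
  have hr := H.rp
  have hA := H.Ar
  have a1 : |X q u (w i)| ≤ A * r / 2 := by rw [abs_le]; constructor <;> linarith
  have a2 : 3 * r ≤ |X q u (w i)| := by rw [abs_of_nonpos (by linarith)]; linarith
  have a3 := bot_nrm H hc a1 k3
  exact ⟨k1, k2, k3, a2.trans (absX_le H _), by nlinarith⟩

theorem l2 (H : HS S x0 q u L e r A) (hc : HullCyc S n w) (P : PS q u L r A n w j1 j2 j3 j4)
    {s : ℂ} (hs : s ∈ BB 2) : 3 * r < X q u s ∧ X q u s ≤ A * r / 2 ∧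
    Y q u s ≤ 3 / 10 * L ∧ 3 * r ≤ ‖s - q‖ ∧ ‖s - q‖ < (A - 1) * r := by
  obtain ⟨i, h1, h2, rfl⟩ := m2.1 hs
  obtain ⟨k1, k2, k3⟩ := P.c2 i h1 h2
  have hr := H.rp
  have hA := H.Ar
  have a1 : |X q u (w i)| ≤ A * r / 2 := by rw [abs_le]; constructor <;> linarith
  have a2 : 3 * r ≤ |X q u (w i)| := by rw [abs_of_nonneg (by linarith)]; linarith
  have a3 := bot_nrm H hc a1 k3
  exact ⟨k1, k2, k3, a2.trans (absX_le H _), by nlinarith⟩

theorem l1 (H : HS S x0 q u L e r A) (hc : HullCyc S n w) (P : PS q u L r A n w j1 j2 j3 j4)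
    {s : ℂ} (hs : s ∈ BB 1) : ‖s - q‖ ≤ 7 / 2 * r ∧
      (‖s - q‖ ≤ 2 * r ∨ (-(3 * r) < X q u s ∧ X q u s ≤ 3 * r)) := by
  have hr := H.rp
  have hA := H.Ar
  rcases m1.1 hs with ⟨-, h⟩ | ⟨i, h1, h2, rfl⟩
  · exact ⟨by linarith, Or.inl h⟩
  · obtain ⟨k1, k2, k3⟩ := P.c1 i h1 h2
    have a0 : |X q u (w i)| ≤ 3 * r := by rw [abs_le]; constructor <;> linarith
    have a3 := bot_nrm H hc (a0.trans (by linarith)) k3
    exact ⟨by linarith, Or.inr ⟨k1, k2⟩⟩

theorem l3 (H : HS S x0 q u L e r A) (P : PS q u L r A n w j1 j2 j3 j4)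
    {s : ℂ} (hs : s ∈ BB 3) : A * r / 2 ≤ ‖s - q‖ ∧ ((A - 1) * r ≤ ‖s - q‖ ∨
      X q u s ≤ -(A * r / 2) ∨ A * r / 2 < X q u s ∨ 17 / 10 * L ≤ Y q u s) := by
  have hr := H.rp
  have hA := H.Ar
  have hAL := H.hL
  rcases m3.1 hs with ⟨-, h⟩ | ⟨i, h1, h2, rfl⟩
  · exact ⟨by nlinarith, Or.inl h⟩
  · have k := P.c3 i h1 h2
    refine ⟨?_, Or.inr k⟩
    rcases k with k | k | k
    · exact le_trans (by rw [abs_of_nonpos (by linarith)]; linarith) (absX_le H (w i))
    · exact le_trans (by rw [abs_of_nonneg (by linarith)]; linarith) (absX_le H (w i))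
    · have hL := H.Lp
      exact le_trans (by rw [abs_of_nonneg (by linarith)]; linarith) (absY_le H (w i))

/-- position of the hull sites near `q` -/
theorem pos1 (H : HS S x0 q u L e r A) (hc : HullCyc S n w) (P : PS q u L r A n w j1 j2 j3 j4) :
    ∃ i, j2 < i ∧ i ≤ j3 ∧ ‖w i - q‖ ≤ r := by
  have hr := H.rp
  have hu := H.u1
  obtain ⟨i', hi'⟩ := near' H hc (v := -(u * Complex.I)) (by
    rw [norm_neg, norm_mul, Complex.norm_I, mul_one, hu])
  have e1 : x0 + (L : ℂ) * -(u * Complex.I) = q := by rw [H.cen]; ring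
  rw [e1] at hi'
  obtain ⟨i, h1, h2, h3⟩ := exists_pos hc j1 (hc.edge i')
  rw [← h3] at hi'
  have hsr := H.sr
  have hsp := H.sp
  have hn : ‖w i - q‖ ≤ r := by linarith
  by_cases g1 : i ≤ j2
  · have := (l0 H hc P (m0.2 ⟨i, h1, g1, rfl⟩)).2.2.2.1
    linarith
  push Not at g1
  by_cases g2 : i ≤ j3
  · exact ⟨i, g1, g2, hn⟩
  push Not at g2
  by_cases g3 : i ≤ j4
  · have := (l2 H hc P (m2.2 ⟨i, g2, g3, rfl⟩)).2.2.2.1
    linarith
  push Not at g3
  have := (l3 H P (m3.2 (Or.inr ⟨i, g3, h2, rfl⟩))).1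
  have hA := H.Ar
  linarith

theorem con1 (H : HS S x0 q u L e r A) (hc : HullCyc S n w) (P : PS q u L r A n w j1 j2 j3 j4) :
    ∀ x ∈ BB 1, ∀ y ∈ BB 1, Pth S ((BB 1 : Finset ℂ) : Set ℂ) x y := by
  have hr := H.rp
  obtain ⟨i0, a1, a2, a3⟩ := pos1 H hc P
  have hi0S : w i0 ∈ S := (hullE.mem (hc.edge i0)).1
  obtain ⟨c, hcS, hcm⟩ := Finset.exists_min_image S (fun s => ‖s - q‖) ⟨_, hi0S⟩
  have key : ∀ s ∈ S, ‖s - q‖ ≤ 2 * r → Pth S ((BB 1 : Finset ℂ) : Set ℂ) s c := by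
    intro s hs hsr
    have h1 : c ∈ Segx991.Clm S (segment ℝ s q) := by
      refine ⟨hcS, q, right_mem_segment ℝ s q, ?_⟩
      intro t ht
      have := hcm t (Finset.mem_coe.1 ht)
      rw [norm_sub_rev q c, norm_sub_rev q t]
      exact this
    have h2 := Segx991.pth_conn H.dns.gp H.dns.card (convex_segment s q).isPreconnected
      (Segx991.mem_clm hs (left_mem_segment ℝ s q)) h1
    refine h2.mono ?_
    intro z hz
    exact Finset.mem_coe.2 (m1.2 (Or.inl ⟨hz.1, (Segx991.seg_ball hs hz).trans hsr⟩))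
  have key2 : ∀ x ∈ BB 1, Pth S ((BB 1 : Finset ℂ) : Set ℂ) x c := by
    intro x hx
    rcases m1.1 hx with ⟨h1, h2⟩ | ⟨i, h1, h2, rfl⟩
    · exact key x h1 h2
    · exact (arc_con hc (fun k hk hk' => Finset.mem_coe.2 (m1.2 (Or.inr ⟨k, hk, hk', rfl⟩)))
        h1 h2 a1 a2).trans (key _ hi0S (by linarith))
  intro x hx y hy
  exact (key2 x hx).trans (key2 y hy).symm

theorem con3 (H : HS S x0 q u L e r A) (hc : HullCyc S n w) (P : PS q u L r A n w j1 j2 j3 j4) :
    ∀ x ∈ BB 3, ∀ y ∈ BB 3, Pth S ((BB 3 : Finset ℂ) : Set ℂ) x y := by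
  have hr := H.rp
  have hA := H.Ar
  have hh := P.h41
  have key2 : ∀ x ∈ BB 3, Pth S ((BB 3 : Finset ℂ) : Set ℂ) x (w (j1 + n)) := by
    intro x hx
    have hV : ∀ k, j4 < k → k ≤ j1 + n → w k ∈ ((BB 3 : Finset ℂ) : Set ℂ) :=
      fun k hk hk' => Finset.mem_coe.2 (m3.2 (Or.inr ⟨k, hk, hk', rfl⟩))
    rcases m3.1 hx with ⟨h1, h2⟩ | ⟨i, h1, h2, rfl⟩
    · have hne : x - q ≠ 0 := by
        intro h0
        rw [h0, norm_zero] at h2
        nlinarith
      obtain ⟨x', y', k1, k2⟩ := RE4x723.walkH H.dns.gp H.dns.card hne _ x h1 le_rfl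
      have far : ∀ t : ℂ, 0 ≤ dt (t - x) (x - q) → ‖x - q‖ ≤ ‖t - q‖ := by
        intro t ht
        have e1 : ‖t - q‖ ^ 2 = ‖t - x‖ ^ 2 + 2 * dt (t - x) (x - q) + ‖x - q‖ ^ 2 := by
          rw [sq_norm, sq_norm, sq_norm]
          unfold dt
          simp only [Complex.sub_re, Complex.sub_im]
          ring
        have : ‖x - q‖ ^ 2 ≤ ‖t - q‖ ^ 2 := by
          rw [e1]
          nlinarith [sq_nonneg ‖t - x‖]
        exact (pow_le_pow_iff_left₀ (norm_nonneg _) (norm_nonneg _) two_ne_zero).1 this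
      have k3 : Pth S ((BB 3 : Finset ℂ) : Set ℂ) x x' := by
        refine k2.mono ?_
        intro t ht
        exact Finset.mem_coe.2 (m3.2 (Or.inl ⟨ht.1, h2.trans (far t ht.2)⟩))
      have k4 : (A - 1) * r ≤ ‖x' - q‖ := h2.trans (far x' k2.snd.2)
      obtain ⟨i, g1, g2, rfl⟩ := exists_pos hc j1 k1
      by_cases f1 : i ≤ j2
      · have := (l0 H hc P (m0.2 ⟨i, g1, f1, rfl⟩)).2.2.2.2
        linarith
      push Not at f1
      by_cases f2 : i ≤ j3
      · have := (l1 H hc P (m1.2 (Or.inr ⟨i, f1, f2, rfl⟩))).1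
        nlinarith
      push Not at f2
      by_cases f3 : i ≤ j4
      · have := (l2 H hc P (m2.2 ⟨i, f2, f3, rfl⟩)).2.2.2.2
        linarith
      push Not at f3
      exact k3.trans (arc_con hc hV f3 g2 hh le_rfl)
    · exact arc_con hc hV h1 h2 hh le_rfl
  intro x hx y hy
  exact (key2 x hx).trans (key2 y hy).symm

/-- **the quad** -/
theorem qd (H : HS S x0 q u L e r A) (hc : HullCyc S n w) (P : PS q u L r A n w j1 j2 j3 j4) :
    RE0x723.Qd S n w j1 j2 j3 j4 (Bq S q r A n w j1 j2 j3 j4) := by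
  have hr := H.rp
  have hA := H.Ar
  have hwS : ∀ i, w i ∈ S := fun i => (hullE.mem (hc.edge i)).1
  have z4 : ∀ k : ZMod 4, k = 0 ∨ k = 1 ∨ k = 2 ∨ k = 3 := by decide
  have d01 : Disjoint (BB 0) (BB 1) := by
    rw [Finset.disjoint_left]
    intro s h h'
    have a := l0 H hc P h
    have b := l1 H hc P h'
    rcases b.2 with b | b
    · linarith [a.2.2.2.1]
    · linarith [a.2.1, b.1]
  have d02 : Disjoint (BB 0) (BB 2) := by
    rw [Finset.disjoint_left]
    intro s h h'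
    have a := l0 H hc P h
    have b := l2 H hc P h'
    linarith [a.2.1, b.1]
  have d03 : Disjoint (BB 0) (BB 3) := by
    rw [Finset.disjoint_left]
    intro s h h'
    have a := l0 H hc P h
    have b := l3 H P h'
    have hL := H.Lp
    rcases b.2 with b | b | b | b
    · linarith [a.2.2.2.2]
    · linarith [a.1]
    · linarith [a.2.1]
    · linarith [a.2.2.1]
  have d12 : Disjoint (BB 1) (BB 2) := by
    rw [Finset.disjoint_left]
    intro s h' h
    have a := l2 H hc P h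
    have b := l1 H hc P h'
    rcases b.2 with b | b
    · linarith [a.2.2.2.1]
    · linarith [a.1, b.2]
  have d13 : Disjoint (BB 1) (BB 3) := by
    rw [Finset.disjoint_left]
    intro s h h'
    have a := (l1 H hc P h).1
    have b := (l3 H P h').1
    linarith
  have d23 : Disjoint (BB 2) (BB 3) := by
    rw [Finset.disjoint_left]
    intro s h h'
    have a := l2 H hc P h
    have b := l3 H P h'
    have hL := H.Lp
    rcases b.2 with b | b | b | b
    · linarith [a.2.2.2.2]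
    · linarith [a.1]
    · linarith [a.2.1]
    · linarith [a.2.2.1]
  refine ⟨H.dns.gp, ⟨hc, P.h12, P.h23, P.h34, P.h41⟩, ?_, ?_, ?_, ?_, ?_, ?_, ?_⟩
  · intro k s hs
    rcases z4 k with rfl | rfl | rfl | rfl
    · obtain ⟨i, -, -, rfl⟩ := m0.1 hs; exact hwS i
    · rcases m1.1 hs with ⟨h, -⟩ | ⟨i, -, -, rfl⟩
      · exact h
      · exact hwS i
    · obtain ⟨i, -, -, rfl⟩ := m2.1 hs; exact hwS i
    · rcases m3.1 hs with ⟨h, -⟩ | ⟨i, -, -, rfl⟩
      · exact h
      · exact hwS i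
  · intro a b hab
    rcases z4 a with rfl | rfl | rfl | rfl <;> rcases z4 b with rfl | rfl | rfl | rfl
    · exact absurd rfl hab
    · exact d01
    · exact d02
    · exact d03
    · exact d01.symm
    · exact absurd rfl hab
    · exact d12
    · exact d13
    · exact d02.symm
    · exact d12.symm
    · exact absurd rfl hab
    · exact d23
    · exact d03.symm
    · exact d13.symm
    · exact d23.symm
    · exact absurd rfl hab
  · intro k
    rcases z4 k with rfl | rfl | rfl | rfl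
    · intro x hx y hy
      obtain ⟨i, h1, h2, rfl⟩ := m0.1 hx
      obtain ⟨i', h1', h2', rfl⟩ := m0.1 hy
      exact arc_con hc (fun k hk hk' => Finset.mem_coe.2 (m0.2 ⟨k, hk, hk', rfl⟩)) h1 h2 h1' h2'
    · exact con1 H hc P
    · intro x hx y hy
      obtain ⟨i, h1, h2, rfl⟩ := m2.1 hx
      obtain ⟨i', h1', h2', rfl⟩ := m2.1 hy
      exact arc_con hc (fun k hk hk' => Finset.mem_coe.2 (m2.2 ⟨k, hk, hk', rfl⟩)) h1 h2 h1' h2'
    · exact con3 H hc P
  · exact fun k h1 h2 => m0.2 ⟨k, h1, h2, rfl⟩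
  · exact fun k h1 h2 => m1.2 (Or.inr ⟨k, h1, h2, rfl⟩)
  · exact fun k h1 h2 => m2.2 ⟨k, h1, h2, rfl⟩
  · exact fun k h1 h2 => m3.2 (Or.inr ⟨k, h1, h2, rfl⟩)

end quad

end Crest.Agent.R143.HarmGx496
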