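import Crest.Agent.R143.EPC_496
import Crest.Agent.R143.Qd4_54
import Crest.Agent.R143.HarmS_496

/-!
# Row 143 (S0194), CONT, HARM: arms and quads (helper496)

* `arm_le` : if `Crq S B 0` has probability `≥ 1/3`, then an arm from `B 1` to `B 3` (of sites outside
  `B 0 ∪ B 2`) has probability `≤ 2/3`
-/

set_option autoImplicit false

noncomputable section

open scoped Classical

namespace Crest.Agent.R143.HarmQx496

open Crest.Agent.R143.B0x346 Crest.Agent.R143.DelGx806 Crest.Agent.R143.DelRx806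
open Crest.Agent.R143.Harx315 Crest.Agent.R143.D3Fx802
open Crest.Agent.R143.Lawx872 (ConnIn)
open Crest.Agent.R143.RE0x723 (Pth fre Crq)
open Crest.Agent.R143.JColx54 (Adj)

variable {S : Finset ℂ} {n : ℕ} {w : ℤ → ℂ} {i0 i1 i2 i3 : ℤ} {B : ZMod 4 → Finset ℂ}

theorem pr_sub {W V : Finset ℂ} {A : Finset ℂ → Prop} (hW : W ⊆ V) (hA : Up V A) :
    pr W A ≤ pr V A := by
  have h1 : Dep V W (fun β => A (β ∩ W)) := by
    intro β _
    simp only [Finset.inter_assoc, Finset.inter_self]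
  have h2 := pr_dep hW h1
  have h3 : pr W (fun β => A (β ∩ W)) = pr W A := by
    apply pr_congr
    intro β hβ
    simp only [Finset.inter_eq_left.2 hβ]
  rw [← h3, ← h2]
  exact pr_mono fun β hβ h => hA _ _ Finset.inter_subset_left hβ h

/-- **a crossing of one colour forbids arms of the other colour** -/
theorem arm_le (h : RE0x723.Qd S n w i0 i1 i2 i3 B) (hp : 1 / 3 ≤ pr (fre S B) (Crq S B 0))
    {p : ℂ} {r R : ℝ} (hin : ∀ x ∈ S, ‖x - p‖ ≤ r → x ∈ B 1) (hout : ∀ y ∈ S, R ≤ ‖y - p‖ → y ∈ B 3)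
    {V : Finset ℂ} (hV : V ⊆ S) (hV' : ∀ v ∈ V, v ∉ B 0 ∧ v ∉ B 2) :
    pr V (fun β => CArm S β p r R) ≤ 2 / 3 := by
  have h1 : pr (fre S B) (Crq S B 1) ≤ 2 / 3 := by
    have e1 : pr (fre S B) (Crq S B 0) = pr (fre S B) (fun T => ¬ Crq S B 1 (fre S B \ T)) :=
      pr_congr fun T hT => Qd3x54.xorq h hT
    have e2 := pr_flip (fre S B) (fun T => ¬ Crq S B 1 T)
    rw [e1, e2, pr_not] at hp
    linarith
  have h2 : pr V (fun β => CArm S β p r R) ≤ pr V (fun β => Crq S B 1 (β ∩ fre S B)) := by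
    apply pr_mono
    rintro β hβ ⟨x, y, hx, hy, k1, k2, k3⟩
    have hmem : ∀ v ∈ β, v ∈ β ∩ fre S B ∨ v ∈ B 1 ∨ v ∈ B (1 + 2) := by
      intro v hv
      have hvS := hV (hβ hv)
      by_cases h3 : v ∈ B 1
      · exact Or.inr (Or.inl h3)
      by_cases h4 : v ∈ B (1 + 2)
      · exact Or.inr (Or.inr h4)
      left
      refine Finset.mem_inter.2 ⟨hv, Finset.mem_filter.2 ⟨hvS, ?_⟩⟩
      intro i
      have hi : i = 0 ∨ i = 1 ∨ i = 2 ∨ i = 1 + 2 := by revert i; decide
      rcases hi with rfl | rfl | rfl | rfl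
      · exact (hV' v (hβ hv)).1
      · exact h3
      · exact (hV' v (hβ hv)).2
      · exact h4
    refine ⟨x, hin x (hV (hβ hx)) k1, y, hout y (hV (hβ hy)) k2, hmem x hx, ?_⟩
    refine Relation.ReflTransGen.mono ?_ _ _ k3
    intro a b hab
    exact ⟨hab.1, hmem b hab.2.2⟩
  have h3 : pr V (fun β => Crq S B 1 (β ∩ fre S B)) ≤ pr (fre S B) (Crq S B 1) := by
    have hW : V ∩ fre S B ⊆ V := Finset.inter_subset_left
    have hd : Dep V (V ∩ fre S B) (fun β => Crq S B 1 (β ∩ fre S B)) := by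
      intro β hβ
      have : β ∩ (V ∩ fre S B) ∩ fre S B = β ∩ fre S B := by
        rw [← Finset.inter_assoc, Finset.inter_eq_left.2 hβ, Finset.inter_assoc,
          Finset.inter_self]
      simp only [this]
    rw [pr_dep hW hd]
    have e : pr (V ∩ fre S B) (fun β => Crq S B 1 (β ∩ fre S B)) =
        pr (V ∩ fre S B) (Crq S B 1) := by
      apply pr_congr
      intro β hβ
      simp only [Finset.inter_eq_left.2 (hβ.trans Finset.inter_subset_right)]
    rw [e]
    exact pr_sub Finset.inter_subset_right (Qd4x54.crq_up _ _ _)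
  linarith

end Crest.Agent.R143.HarmQx496
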