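import Crest.Agent.R143.HarmC_802
import Crest.Agent.R143.ArmP_930

/-!
# Row 143 (S0194), CONT: one arm up to the hull (helper802)

* `carm_pow` : many scales, general ratio
* `bdry` : one arm around a point of the circle
* `harm` : **one arm around every point of the disc**, free sites = any set of sites off the hull
-/

set_option autoImplicit false

noncomputable section

open scoped Classical

namespace Crest.Agent.R143.Harmx802

open Set
open Crest.Agent.R143.B0x346 Crest.Agent.R143.B0Dx346 Crest.Agent.R143.DelGx806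
  Crest.Agent.R143.DelRx806 Crest.Agent.R143.DomAx722 Crest.Agent.R143.DomBx722
  Crest.Agent.R143.HarmBx802 Crest.Agent.R143.HarmCx802 Crest.Agent.R143.Circx63
  Crest.Agent.R143.Harx315
open Crest.Agent.R143.JColx54 (Adj)
open Crest.Agent.R143.Scalx63 (dm)
open Crest.Agent.R143.RE4x723 (edge5)
open Crest.Agent.R143.D3Fx802 (CArm extract)
open Crest.Agent.R143.Lawx872 (ConnIn)
open Crest.Agent.R143.RB0x838 (LDns Mesh)

variable {S V : Finset ℂ} {x0 x u p : ℂ} {L e r R r1 r2 : ℝ}

/-- a chain in a larger set -/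
theorem conn_mono {β β' : Finset ℂ} (h : β ⊆ β') {y z : ℂ} (hc : ConnIn S β y z) :
    ConnIn S β' y z :=
  Relation.ReflTransGen.mono (fun _ _ g => ⟨g.1, h g.2.1, h g.2.2⟩) _ _ hc

/-- **many scales** -/
theorem carm_pow {M r q : ℝ} (hr : 0 < r) (hM : 8 ≤ M) (m : ℕ)
    (h1 : ∀ j < m, ∀ W ⊆ V, pr W (fun β => CArm S β p (M ^ j * r) (M / 4 * (M ^ j * r))) ≤ q)
    (hst : ∀ u v, Adj S u v → ‖u - p‖ < M ^ m * r → ‖v - u‖ ≤ r / 4)
    (hr1 : r1 ≤ r) (hr2 : M ^ m * r ≤ r2) :
    pr V (fun β => CArm S β p r1 r2) ≤ q ^ m := by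
  set W : ℕ → Finset ℂ := fun j => V.filter fun s => M ^ j * r / 2 < ‖s - p‖ ∧
    ‖s - p‖ < M / 2 * (M ^ j * r) with hW
  set A : ℕ → Finset ℂ → Prop := fun j β =>
    CArm S (β ∩ W j) p (M ^ j * r) (M / 4 * (M ^ j * r)) with hA
  have hpow : ∀ j : ℕ, (1 : ℝ) ≤ M ^ j := fun j => one_le_pow₀ (by linarith)
  have hmono : ∀ i j : ℕ, i ≤ j → M ^ i ≤ M ^ j := fun i j h =>
    pow_le_pow_right₀ (by linarith) h
  have s1 : pr V (fun β => CArm S β p r1 r2) ≤ pr V (fun β => ∀ j ∈ Finset.range m, A j β) := by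
    apply pr_mono
    rintro β hβ ⟨x, y, hx, hy, g1, g2, g3⟩ j hj
    rw [Finset.mem_range] at hj
    have hjr : 0 < M ^ j * r := by positivity
    have h8 : M ^ (j + 1) * r ≤ M ^ m * r := mul_le_mul_of_nonneg_right (hmono _ _ hj) hr.le
    have h8' : M ^ (j + 1) * r = M * (M ^ j * r) := by ring
    have hjr1 : r ≤ M ^ j * r := by
      have := mul_le_mul_of_nonneg_right (hpow j) hr.le
      linarith
    have hM4 : 2 * (M ^ j * r) ≤ M / 4 * (M ^ j * r) :=
      mul_le_mul_of_nonneg_right (by linarith) hjr.le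
    have hM8 : 8 * (M ^ j * r) ≤ M * (M ^ j * r) := mul_le_mul_of_nonneg_right hM hjr.le
    obtain ⟨x', y', k1, k2, k3, k4, k5⟩ := extract (S := S) (β := β) (p := p)
      (a := M ^ j * r) (b := M / 4 * (M ^ j * r)) (e := r / 4)
      (by linarith) (fun u v huv hu => hst u v huv (by
        refine hu.trans_le ?_
        rw [h8'] at h8
        refine le_trans ?_ h8
        nlinarith)) hx (by linarith) (by
        refine le_trans ?_ g2
        refine le_trans ?_ hr2
        rw [h8'] at h8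
        refine le_trans ?_ h8
        nlinarith) g3
    have hsub : β.filter (fun s => M ^ j * r - r / 4 ≤ ‖s - p‖ ∧
        ‖s - p‖ ≤ M / 4 * (M ^ j * r) + r / 4) ⊆ β ∩ W j := by
      intro s hs
      rw [Finset.mem_filter] at hs
      rw [hW, Finset.mem_inter, Finset.mem_filter]
      refine ⟨hs.1, hβ hs.1, by linarith [hs.2.1], ?_⟩
      have : M / 2 * (M ^ j * r) = M / 4 * (M ^ j * r) + M / 4 * (M ^ j * r) := by ring
      linarith [hs.2.2]
    exact ⟨x', y', hsub k1, hsub k2, k3, k4, conn_mono hsub k5⟩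
  have hWV : ∀ j, W j ⊆ V := fun j => Finset.filter_subset _ _
  have hdep : ∀ j, Dep V (W j) (A j) := by
    intro j β _
    rw [hA]
    simp only [Finset.inter_assoc, Finset.inter_self]
  have s2 : pr V (fun β => ∀ j ∈ Finset.range m, A j β) = ∏ j ∈ Finset.range m, pr V (A j) := by
    apply pr_indep_prod _ (W := W) _ (fun j _ => hdep j)
    have hlt : ∀ i j : ℕ, i < j → Disjoint (W i) (W j) := by
      intro i j hij
      rw [Finset.disjoint_left]
      intro s hs hs'
      rw [hW, Finset.mem_filter] at hs hs'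
      have h8 : M ^ (i + 1) * r ≤ M ^ j * r := mul_le_mul_of_nonneg_right (hmono _ _ hij) hr.le
      have h8' : M ^ (i + 1) * r = M * (M ^ i * r) := by ring
      have h9 : M / 2 * (M ^ i * r) = M * (M ^ i * r) / 2 := by ring
      linarith [hs.2.2, hs'.2.1]
    intro i _ j _ hij
    rcases lt_or_gt_of_ne hij with h | h
    · exact hlt i j h
    · exact (hlt j i h).symm
  rw [s2] at s1
  refine s1.trans ?_
  have s3 : ∀ j ∈ Finset.range m, pr V (A j) ≤ q := by
    intro j hj
    rw [pr_dep (hWV j) (hdep j)]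
    have : pr (W j) (A j) =
        pr (W j) (fun β => CArm S β p (M ^ j * r) (M / 4 * (M ^ j * r))) := by
      apply pr_congr
      intro β hβ
      rw [hA]
      simp only [Finset.inter_eq_left.2 hβ]
    rw [this]
    exact h1 j (Finset.mem_range.1 hj) _ (hWV j)
  calc ∏ j ∈ Finset.range m, pr V (A j) ≤ ∏ _j ∈ Finset.range m, q :=
        Finset.prod_le_prod (fun j _ => pr_nonneg) s3
    _ = q ^ m := by rw [Finset.prod_const, Finset.card_range]

/-- powers -/
theorem pow_floor {M r R : ℝ} (hM : 1 < M) (hr : 0 < r) (hrR : r ≤ R) :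
    ∃ m : ℕ, M ^ m * r ≤ R ∧
      (2 / 3 : ℝ) ^ m ≤ 3 / 2 * (r / R) ^ (Real.log (3 / 2) / Real.log M) := by
  have hR : 0 < R := hr.trans_le hrR
  have hl : 0 < Real.log M := Real.log_pos hM
  have hx0 : 0 ≤ Real.log (R / r) / Real.log M :=
    div_nonneg (Real.log_nonneg ((one_le_div hr).2 hrR)) hl.le
  set m : ℕ := ⌊Real.log (R / r) / Real.log M⌋₊ with hm
  have m1 : (m : ℝ) ≤ Real.log (R / r) / Real.log M := Nat.floor_le hx0
  have m2 : Real.log (R / r) / Real.log M < m + 1 := Nat.lt_floor_add_one _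
  refine ⟨m, ?_, ?_⟩
  · rw [le_div_iff₀ hl] at m1
    have h1 : Real.log (M ^ m) ≤ Real.log (R / r) := by rwa [Real.log_pow]
    have h2 := (Real.log_le_log_iff (by positivity) (div_pos hR hr)).1 h1
    rwa [le_div_iff₀ hr] at h2
  · have h3 : (2 / 3 : ℝ) ^ m = Real.exp (m * -Real.log (3 / 2)) := by
      have : -Real.log (3 / 2 : ℝ) = Real.log (2 / 3) := by
        rw [← Real.log_inv]; norm_num
      rw [this, mul_comm, Real.exp_mul, Real.exp_log (by norm_num), Real.rpow_natCast]
    have h4 : (r / R) ^ (Real.log (3 / 2) / Real.log M) =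
        Real.exp (Real.log (R / r) / Real.log M * -Real.log (3 / 2)) := by
      rw [Real.rpow_def_of_pos (div_pos hr hR)]
      congr 1
      have : Real.log (r / R) = -Real.log (R / r) := by
        rw [← Real.log_inv, inv_div]
      rw [this]
      field_simp
    have hl3 : 0 < Real.log (3 / 2 : ℝ) := Real.log_pos (by norm_num)
    rw [h3, h4]
    calc Real.exp (m * -Real.log (3 / 2))
        ≤ Real.exp (Real.log (3 / 2) + Real.log (R / r) / Real.log M * -Real.log (3 / 2)) := by
          apply Real.exp_le_exp.2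
          nlinarith
      _ = 3 / 2 * Real.exp (Real.log (R / r) / Real.log M * -Real.log (3 / 2)) := by
          rw [Real.exp_add, Real.exp_log (by norm_num)]

/-- **one arm around a point of the circle** -/
theorem bdry : ∀ C4 : ℝ, ∃ c : ℝ, 0 < c ∧
    ∀ (S : Finset ℂ) (x0 x u : ℂ) (L e r R r1 r2 : ℝ), NH S x0 L e u x →
    100 * Real.sqrt (L * e) ≤ r → r ≤ R → 25 * R ≤ L → r1 ≤ r → R ≤ r2 →
    (∀ b, r ≤ b → b ≤ R → ∑ t ∈ (delT S).filter
      (fun t => (cT t ∩ Metric.closedBall x b).Nonempty), dm t ^ 2 ≤ C4 * b ^ 2) →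
    ∀ V ⊆ S, (∀ v ∈ V, ∀ y, ¬ hullE S v y) →
    pr V (fun β => CArm S β x r1 r2) ≤ 3 / 2 * (r / R) ^ c := by
  intro C4
  set M : ℝ := 128 * Real.exp (96 * |C4|) with hM
  have hex : 1 ≤ Real.exp (96 * |C4|) := Real.one_le_exp (by positivity)
  have hM128 : 128 ≤ M := by rw [hM]; linarith
  have hlM : 0 < Real.log M := Real.log_pos (by linarith)
  refine ⟨Real.log (3 / 2) / Real.log M, div_pos (Real.log_pos (by norm_num)) hlM, ?_⟩
  intro S x0 x u L e r R r1 r2 H hr hrR hRL hr1 hr2 hMs V hV hVh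
  have hL := H.L0
  have he := H.e0
  have hsq : 0 < Real.sqrt (L * e) := Real.sqrt_pos.2 (mul_pos hL he)
  have hr0 : 0 < r := by linarith
  obtain ⟨m, hm1, hm2⟩ := pow_floor (M := M) (by linarith) hr0 hrR
  refine le_trans ?_ hm2
  refine carm_pow hr0 (by linarith) m ?_ ?_ hr1 (hm1.trans hr2)
  · intro j hj W hW
    have hp1 : 1 ≤ M ^ j := one_le_pow₀ (by linarith)
    have ha : r ≤ M ^ j * r := by nlinarith
    set a := M ^ j * r with hadef
    have hMa : M * a ≤ R := by
      have h1 : M ^ (j + 1) ≤ M ^ m := pow_le_pow_right₀ (by linarith) hj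
      have h2 : M ^ (j + 1) * r ≤ M ^ m * r := mul_le_mul_of_nonneg_right h1 hr0.le
      have h3 : M ^ (j + 1) * r = M * a := by rw [hadef]; ring
      linarith
    have hMa2 : 128 * a ≤ M * a := mul_le_mul_of_nonneg_right hM128 (by linarith)
    have G : Sc L e a (M / 4 * a) := by
      refine ⟨by linarith, by linarith, ?_, ?_⟩
      · linarith [show M / 4 * a = M * a / 4 by ring]
      · linarith [show M / 4 * a = M * a / 4 by ring]
    obtain ⟨n, w, i0, i1, i2, i3, Q⟩ := labels H G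
    refine arm1 H G Q (C4 := |C4|) ?_ ?_ ?_ (hW.trans hV) (fun v hv => hVh v (hW hv))
    · have ha0 : 0 < a := by linarith
      have e1 : M / 4 * a / (16 * a) = 2 * Real.exp (96 * |C4|) := by
        rw [hM]; field_simp; ring
      rw [e1, Real.log_mul (by norm_num) (Real.exp_pos _).ne', Real.log_exp]
      have : 0 < Real.log 2 := Real.log_pos (by norm_num)
      linarith
    · intro b hb
      have hbM : b ≤ R := by
        have := hb.2
        linarith [show M / 4 * a / 4 = M * a / 16 by ring]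
      refine (hMs b (by linarith [hb.1]) hbM).trans ?_
      exact mul_le_mul_of_nonneg_right (le_abs_self _) (sq_nonneg _)
    · linarith [show M / 4 * a = M * a / 4 by ring]
  · intro y z hyz _
    have := edge5 H.D hyz
    rw [norm_sub_rev] at this
    linarith

/-! ### all points -/

theorem carm_move {β : Finset ℂ} {q : ℂ} {h : ℝ} (hq : ‖p - q‖ ≤ h) (hc : CArm S β p r1 r2) :
    CArm S β q (r1 + h) (r2 - h) := by
  obtain ⟨y, z, hy, hz, h1, h2, h3⟩ := hc
  refine ⟨y, z, hy, hz, ?_, ?_, h3⟩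
  · have := norm_add_le (y - p) (p - q)
    rw [sub_add_sub_cancel] at this
    linarith
  · have := norm_add_le (z - q) (q - p)
    rw [sub_add_sub_cancel, norm_sub_rev q p] at this
    linarith

theorem rp_le {k t c c' : ℝ} (hk : 0 ≤ k) (ht : 0 < t) (ht1 : t ≤ 1) (hcc : c ≤ c') :
    (k * t) ^ c' ≤ k ^ c' * t ^ c := by
  rw [Real.mul_rpow hk ht.le]
  exact mul_le_mul_of_nonneg_left (Real.rpow_le_rpow_of_exponent_ge ht ht1 hcc)
    (Real.rpow_nonneg hk _)

/-- **HARM**: one arm, up to the hull -/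
theorem harm : ∀ C4 : ℝ, 0 ≤ C4 → ∃ C c c2 A : ℝ, 0 < C ∧ 0 < c ∧ 0 < c2 ∧ c2 ≤ 1 ∧ 1 ≤ A ∧
    ∀ (S : Finset ℂ) (x0 : ℂ) (L e r R : ℝ), Dns S x0 L e → A * Real.sqrt (L * e) ≤ r → r ≤ R →
    A * R ≤ L →
    (∀ z, ‖z - x0‖ ≤ L → ∀ b, c2 * r ≤ b → b ≤ R → ∑ t ∈ (delT S).filter
      (fun t => (cT t ∩ Metric.closedBall z b).Nonempty), dm t ^ 2 ≤ C4 * b ^ 2) →
    ∀ p, ‖p - x0‖ ≤ L → ∀ V ⊆ S, (∀ v ∈ V, ∀ y, ¬ hullE S v y) →
    pr V (fun β => CArm S β p r R) ≤ C * (r / R) ^ c := by
  intro C4 hC4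
  obtain ⟨C1, c1, k1, k2, K, hC1, hc1, hk1, hk2, hk2', hK, HI⟩ := ArmPx930.arm C4 hC4
  obtain ⟨c3, hc3, HB⟩ := bdry C4
  set c : ℝ := min c1 c3 / 2 with hc
  have hcpos : 0 < c := by rw [hc]; exact half_pos (lt_min hc1 hc3)
  have hcc1 : 2 * c ≤ c1 := by rw [hc]; linarith [min_le_left c1 c3]
  have hcc3 : 2 * c ≤ c3 := by rw [hc]; linarith [min_le_right c1 c3]
  have hK0 : 0 < K := by linarith
  -- the constants
  set B1 : ℝ := C1 * (8 * K) ^ c1 with hB1
  set B2 : ℝ := 3 / 2 * (4 * (K + 2)) ^ c3 with hB2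
  set B3 : ℝ := (8 * (K + 2)) ^ c with hB3
  have hB10 : 0 ≤ B1 := by positivity
  have hB20 : 0 ≤ B2 := by positivity
  have hB30 : 0 < B3 := by positivity
  refine ⟨B1 + B2 + B3, c, k2, max 100 (2 / k1), by positivity, hcpos, hk2, hk2',
    le_trans (by norm_num) (le_max_left _ _), ?_⟩
  intro S x0 L e r R hD hr hrR hRL hM p hp V hV hVh
  have he := hD.dpos
  have hL : 0 < L := by linarith [hD.dL]
  have hsq0 : 0 < Real.sqrt (L * e) := Real.sqrt_pos.2 (mul_pos hL he)
  have hesq := d_le_sqrt he.le (by linarith [hD.dL] : e ≤ L)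
  have hr100 : 100 * Real.sqrt (L * e) ≤ r :=
    (mul_le_mul_of_nonneg_right (le_max_left _ _) hsq0.le).trans hr
  have hrk : 2 / k1 * Real.sqrt (L * e) ≤ r :=
    (mul_le_mul_of_nonneg_right (le_max_right _ _) hsq0.le).trans hr
  have hr0 : 0 < r := by linarith
  have hR0 : 0 < R := by linarith
  have hRL100 : 100 * R ≤ L := (mul_le_mul_of_nonneg_right (le_max_left _ _) hR0.le).trans hRL
  have hek : e ≤ k1 * r := by
    have h1 : Real.sqrt (L * e) ≤ k1 * r := by
      have h2 : 2 / k1 * Real.sqrt (L * e) * k1 ≤ r * k1 := mul_le_mul_of_nonneg_right hrk hk1.le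
      have h3 : 2 / k1 * Real.sqrt (L * e) * k1 = 2 * Real.sqrt (L * e) := by field_simp
      linarith
    linarith
  have ht0 : 0 < r / R := div_pos hr0 hR0
  have ht1 : r / R ≤ 1 := (div_le_one hR0).2 hrR
  set P := pr V (fun β => CArm S β p r R) with hP
  have hP0 : 0 ≤ P := pr_nonneg
  have hP1 : P ≤ 1 := pr_le_one
  have htc : 0 < (r / R) ^ c := Real.rpow_pos_of_pos ht0 _
  set h := L - ‖p - x0‖ with hh
  have hh0 : 0 ≤ h := by linarith
  -- the trivial case
  have triv : R ≤ 8 * (K + 2) * r → P ≤ (B1 + B2 + B3) * (r / R) ^ c := by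
    intro hcase
    have h1 : 1 ≤ (8 * (K + 2) * (r / R)) ^ c := by
      apply Real.one_le_rpow _ hcpos.le
      rw [← mul_div_assoc, one_le_div hR0]
      exact hcase
    rw [Real.mul_rpow (by positivity) ht0.le, ← hB3] at h1
    have : 0 ≤ (B1 + B2) * (r / R) ^ c := by positivity
    nlinarith
  by_cases hcase : R ≤ 8 * (K + 2) * r
  · exact triv hcase
  push Not at hcase
  -- interior
  have inter : ∀ R1, r ≤ R1 → R1 ≤ R → K * R1 + e ≤ h → P ≤ C1 * (r / R1) ^ c1 := by
    intro R1 g1 g2 g3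
    have hin : ∀ z, ‖z - p‖ ≤ K * R1 → ‖z - x0‖ ≤ L - e := by
      intro z hz
      have := norm_add_le (z - p) (p - x0)
      rw [sub_add_sub_cancel] at this
      linarith
    have h1 := HI S p e r R1 hr0 g1 ⟨hD.gp, he, fun z hz => hD.hole z (hin z hz)⟩
      (fun b hb1 hb2 z hz => hM z (by linarith [hin z hz]) b hb1 (hb2.trans g2)) hek V hV
    refine le_trans ?_ h1
    apply pr_mono
    rintro β - ⟨y, z, hy, hz, q1, q2, q3⟩
    exact ⟨y, z, hy, hz, q1, g2.trans q2, q3⟩
  -- boundary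
  have bd : 4 * h ≤ R → P ≤ 3 / 2 * ((r + h) / (R - h)) ^ c3 := by
    intro g1
    have hpx : p ≠ x0 := by
      rintro rfl
      rw [sub_self, norm_zero, sub_zero] at hh
      linarith
    have hn : 0 < ‖p - x0‖ := norm_pos_iff.2 (sub_ne_zero.2 hpx)
    obtain ⟨q, hq1, hq2⟩ := exists_pol (c := x0) hn
    set x := x0 + L * q with hx
    have H : NH S x0 L e (q * Complex.I) x := by
      refine ⟨by rw [norm_mul, hq1, Complex.norm_I, one_mul], hD, ?_⟩
      rw [hx, mul_assoc, mul_left_comm Complex.I, Complex.I_mul_I]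
      ring
    have hpx' : ‖p - x‖ ≤ h := by
      have e1 : p - x = ((‖p - x0‖ - L : ℝ) : ℂ) * q := by
        nth_rewrite 1 [hq2]
        rw [hx]
        push_cast
        ring
      rw [e1, norm_mul, hq1, mul_one, Complex.norm_real, Real.norm_eq_abs, abs_le]
      constructor <;> linarith
    have hxL : ‖x - x0‖ ≤ L := by
      rw [hx, add_sub_cancel_left, norm_mul, hq1, mul_one, Complex.norm_real, Real.norm_eq_abs,
        abs_of_pos hL]
    have h2 := HB S x0 x (q * Complex.I) L e (r + h) (R - h) (r + h) (R - h) H (by linarith)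
      (by nlinarith) (by linarith) le_rfl le_rfl
      (fun b hb1 hb2 => hM x hxL b (by nlinarith) (by linarith)) V hV hVh
    exact (pr_mono fun β _ hc => carm_move hpx' hc).trans h2
  have hsum : ∀ {y}, y ≤ B1 ∨ y ≤ B2 → y * (r / R) ^ c ≤ (B1 + B2 + B3) * (r / R) ^ c := by
    intro y hy
    apply mul_le_mul_of_nonneg_right _ htc.le
    rcases hy with hy | hy <;> linarith
  by_cases hA : R < 4 * h
  · -- far from the hull
    have hKR : r ≤ R / (8 * K) := by
      rw [le_div_iff₀ (by positivity)]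
      nlinarith
    have h1 := inter (R / (8 * K)) hKR (by
      rw [div_le_iff₀ (by positivity)]
      nlinarith) (by
      have : K * (R / (8 * K)) = R / 8 := by field_simp
      rw [this]
      have : e ≤ r := by linarith
      nlinarith)
    have h2 : r / (R / (8 * K)) = 8 * K * (r / R) := by field_simp
    rw [h2] at h1
    have h3 := rp_le (k := 8 * K) (by positivity) ht0 ht1 (show c ≤ c1 by linarith)
    refine le_trans ?_ (hsum (Or.inl le_rfl))
    rw [hB1, mul_assoc]
    exact h1.trans (mul_le_mul_of_nonneg_left h3 hC1.le)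
  push Not at hA
  have hbd := bd hA
  have hRh : 3 / 4 * R ≤ R - h := by linarith
  by_cases hBc : h ≤ (K + 1) * r
  · -- close to the hull
    have h1 : (r + h) / (R - h) ≤ 4 * (K + 2) * (r / R) := by
      rw [← mul_div_assoc, div_le_div_iff₀ (by linarith) hR0]
      have h2 : (r + h) * R ≤ (K + 2) * r * R := by
        apply mul_le_mul_of_nonneg_right _ hR0.le
        linarith
      have h3 : 4 * (K + 2) * r * (3 / 4 * R) ≤ 4 * (K + 2) * r * (R - h) :=
        mul_le_mul_of_nonneg_left hRh (by positivity)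
      have h4 : 0 ≤ (K + 2) * r * R := by positivity
      linarith
    have h2 : ((r + h) / (R - h)) ^ c3 ≤ (4 * (K + 2) * (r / R)) ^ c3 :=
      Real.rpow_le_rpow (div_nonneg (by linarith) (by linarith)) h1 hc3.le
    have h3 := rp_le (k := 4 * (K + 2)) (by positivity) ht0 ht1 (show c ≤ c3 by linarith)
    refine le_trans ?_ (hsum (Or.inr le_rfl))
    rw [hB2, mul_assoc]
    exact hbd.trans (mul_le_mul_of_nonneg_left (h2.trans h3) (by norm_num))
  · -- intermediate
    push Not at hBc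
    have her : e ≤ r := by linarith
    have hh' : 0 < h := by nlinarith
    have hKr : r < h := by nlinarith
    set R1 := (h - e) / K with hR1
    have hR1K : K * R1 = h - e := by rw [hR1]; field_simp
    have hrR1 : r ≤ R1 := by
      rw [hR1, le_div_iff₀ hK0]
      nlinarith
    have h1 := inter R1 hrR1 (by
      rw [hR1, div_le_iff₀ hK0]
      nlinarith) (by linarith)
    have hR1h : h ≤ 2 * K * R1 := by
      have : 100 * e ≤ h := by linarith
      linarith
    have hR10 : 0 < R1 := hr0.trans_le hrR1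
    have h2 : r / R1 ≤ 2 * K * (r / h) := by
      rw [← mul_div_assoc, div_le_div_iff₀ hR10 hh']
      nlinarith
    have h3 : (r / R1) ^ c1 ≤ (2 * K) ^ c1 * (r / h) ^ (2 * c) :=
      (Real.rpow_le_rpow (by positivity) h2 hc1.le).trans
        (rp_le (by positivity) (by positivity) ((div_le_one hh').2 hKr.le) hcc1)
    have h4 : (r + h) / (R - h) ≤ 4 * (h / R) := by
      rw [← mul_div_assoc, div_le_div_iff₀ (by linarith) hR0]
      nlinarith
    have hhR : h / R ≤ 1 := (div_le_one hR0).2 (by linarith)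
    have h5 : ((r + h) / (R - h)) ^ c3 ≤ 4 ^ c3 * (h / R) ^ (2 * c) :=
      (Real.rpow_le_rpow (div_nonneg (by linarith) (by linarith)) h4 hc3.le).trans
        (rp_le (by norm_num) (by positivity) hhR hcc3)
    have h6 : (r / h) ^ (2 * c) * (h / R) ^ (2 * c) = ((r / R) ^ c) ^ 2 := by
      rw [← Real.mul_rpow (by positivity) (by positivity)]
      have : r / h * (h / R) = r / R := by field_simp
      rw [this, mul_comm 2 c, Real.rpow_mul ht0.le]
      norm_num
    have h7 : P ^ 2 ≤ (B1 * (r / R) ^ c) * (B2 * (r / R) ^ c) := by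
      have a1 : P ≤ C1 * ((2 * K) ^ c1 * (r / h) ^ (2 * c)) :=
        h1.trans (mul_le_mul_of_nonneg_left h3 hC1.le)
      have a2 : P ≤ 3 / 2 * (4 ^ c3 * (h / R) ^ (2 * c)) :=
        hbd.trans (mul_le_mul_of_nonneg_left h5 (by norm_num))
      have a3 : P ^ 2 ≤ (C1 * ((2 * K) ^ c1 * (r / h) ^ (2 * c))) *
          (3 / 2 * (4 ^ c3 * (h / R) ^ (2 * c))) := by
        rw [sq]
        exact mul_le_mul a1 a2 hP0 (hP0.trans a1)
      have a4 : C1 * (2 * K) ^ c1 ≤ B1 := by
        rw [hB1]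
        apply mul_le_mul_of_nonneg_left _ hC1.le
        exact Real.rpow_le_rpow (by positivity) (by linarith) hc1.le
      have a5 : 3 / 2 * (4 : ℝ) ^ c3 ≤ B2 := by
        rw [hB2]
        apply mul_le_mul_of_nonneg_left _ (by norm_num)
        exact Real.rpow_le_rpow (by norm_num) (by linarith) hc3.le
      calc P ^ 2 ≤ (C1 * (2 * K) ^ c1) * (3 / 2 * (4 : ℝ) ^ c3) *
            ((r / h) ^ (2 * c) * (h / R) ^ (2 * c)) := by
            refine a3.trans (le_of_eq ?_)
            ring
        _ ≤ B1 * B2 * ((r / h) ^ (2 * c) * (h / R) ^ (2 * c)) := by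
            apply mul_le_mul_of_nonneg_right _ (by positivity)
            exact mul_le_mul a4 a5 (by positivity) hB10
        _ = _ := by rw [h6]; ring
    have h8 : P ≤ (B1 + B2) * (r / R) ^ c := by
      apply le_of_sq_le_sq _ (by positivity)
      refine h7.trans ?_
      have : 0 ≤ ((r / R) ^ c) ^ 2 := sq_nonneg _
      nlinarith [mul_nonneg hB10 hB20, mul_nonneg (sq_nonneg B1) this, mul_nonneg (sq_nonneg B2) this,
        mul_nonneg (mul_nonneg hB10 hB20) this]
    refine h8.trans ?_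
    apply mul_le_mul_of_nonneg_right _ htc.le
    linarith

end Crest.Agent.R143.Harmx802
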