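import Crest.Agent.R143.Mab3_377
import Crest.Agent.R143.GauC_749

/-!
# Row 143: amplitudes far from the leg, chains of sites along a leg (helper478)

* `rk k N` : the network with the marks rotated, `q_rk` : `N.Q` changes by a phase
* `Hits`, `hid` : `‖Σ_{t ∈ R} w t * N.Q t‖ ≤ √3 ‖w‖_{l2(R)} P (the leg of ex k reaches R)`
* `JA J` : adjacent sites which are not separated by `J`; `left_chain`, `right_chain` : the left
  (right) sites of a followed path form a chain; `split_chain`, `fresh_chain` : the last part of the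
  chain consists of fresh sites
* `arm_om` : one arm bound for the joins of the interface
* `hid_arm` : if the leg can reach `R` only along a chain of fresh sites across an annulus, the
  amplitudes on `R` are small
-/

set_option autoImplicit false

noncomputable section

open scoped Classical

namespace Crest.Agent.R143.Hidx478

open Crest.Agent.R143.B0x346 Crest.Agent.R143.JCardx872 Crest.Agent.R143.JWalkx872
  Crest.Agent.R143.J1x872 Crest.Agent.R143.J4x872 Crest.Agent.R143.Mabx377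

/-! ### rotated marks -/

section rot

variable {V : Type}

/-- the network with the marks `ex (· + k)` -/
def rk (k : ZMod 3) (N : Net V) : Net V where
  toTrg := N.toTrg
  kl := N.kl
  klsym := N.klsym
  ex := fun i => N.ex (i + k)

@[simp] theorem rk_trg (k : ZMod 3) (N : Net V) : (rk k N).toTrg = N.toTrg := rfl
@[simp] theorem rk_kl (k : ZMod 3) (N : Net V) : (rk k N).kl = N.kl := rfl
@[simp] theorem rk_ex (k : ZMod 3) (N : Net V) (i : ZMod 3) : (rk k N).ex i = N.ex (i + k) := rfl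

theorem rk_exS (k : ZMod 3) (N : Net V) : (rk k N).exS = N.exS := by
  unfold Net.exS
  ext x
  constructor
  · rintro ⟨i, rfl⟩
    exact ⟨i + k, rfl⟩
  · rintro ⟨i, rfl⟩
    exact ⟨i - k, by rw [rk_ex, sub_add_cancel]⟩

theorem rk_tj (k : ZMod 3) (N : Net V) (t : V × V × V) : (rk k N).tj t = N.tj t := by
  unfold Net.tj
  rw [rk_exS]
  rfl

theorem rk_tri3 (k j : ZMod 3) (N : Net V) (t : V × V × V) (J : Finset (V × V)) :
    (rk k N).Tri3 t j J ↔ N.Tri3 t (j + k) J := by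
  unfold Net.Tri3 Ends
  rw [rk_exS]
  simp only [rk_ex, rk_trg, add_assoc]

theorem rk_triA (k j : ZMod 3) (N : Net V) (t : V × V × V) :
    (rk k N).triA t j = N.triA t (j + k) := by
  unfold Net.triA
  rw [rk_tj]
  congr 2
  simp only [rk_tri3]

theorem norm_omz (k : ZMod 3) : ‖omz k‖ = 1 := by
  unfold omz om
  rw [norm_pow, Complex.norm_exp_ofReal_mul_I, one_pow]

theorem omz_add (j k : ZMod 3) : omz (j + k) = omz j * omz k := by
  have h1 : ∀ i, omz (i + 1) = om * omz i := omz_add_one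
  have e0 : omz 0 = 1 := by simp [omz]
  have e1 : omz 1 = om := by
    have := h1 0
    rw [zero_add, e0, mul_one] at this
    exact this
  rcases cases_z3 k with rfl | rfl | rfl
  · rw [add_zero, e0, mul_one]
  · rw [h1, e1, mul_comm]
  · have e2 : omz 2 = om * om := by
      have := h1 1
      rw [e1] at this
      exact this
    have e3 : j + 2 = (j + 1) + 1 := by rw [add_assoc]; rfl
    rw [e3, h1, h1, e2]
    ring

/-- the amplitude changes by a phase -/
theorem q_rk (k : ZMod 3) (N : Net V) (t : V × V × V) : omz k * (rk k N).Q t = N.Q t := by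
  unfold Net.Q
  rw [Finset.mul_sum, ← Equiv.sum_comp (Equiv.addRight k) (fun j => (N.triA t j : ℂ) * omz j)]
  refine Finset.sum_congr rfl fun j _ => ?_
  rw [rk_triA, Equiv.coe_addRight, omz_add]
  ring

theorem norm_q_rk (k : ZMod 3) (N : Net V) (t : V × V × V) : ‖(rk k N).Q t‖ = ‖N.Q t‖ := by
  rw [← q_rk k N t, norm_mul, norm_omz, one_mul]

theorem cr_rot (a b c : ℂ) : cr (c - b) (a - b) = cr (b - a) (c - a) := by
  unfold cr
  simp only [Complex.sub_re, Complex.sub_im]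
  ring

theorem hnet_rk {S : Finset ℂ} {N : Net ℂ} (h : HNet S N) (k : ZMod 3) : HNet S (rk k N) where
  gp := h.gp
  tri := h.tri
  hex := fun i => h.hex (i + k)
  live := fun i => h.live (i + k)
  ccw := by
    have h0 := h.ccw
    rcases cases_z3 k with rfl | rfl | rfl
    · simpa using h0
    · change 0 < cr (mid (N.ex (1 + 1)) - mid (N.ex (0 + 1))) (mid (N.ex (2 + 1)) - mid (N.ex (0 + 1)))
      have e1 : (1 : ZMod 3) + 1 = 2 := rfl
      have e2 : (2 : ZMod 3) + 1 = 0 := rfl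
      rw [e1, e2, zero_add, cr_rot]
      exact h0
    · change 0 < cr (mid (N.ex (1 + 2)) - mid (N.ex (0 + 2))) (mid (N.ex (2 + 2)) - mid (N.ex (0 + 2)))
      have e1 : (1 : ZMod 3) + 2 = 0 := rfl
      have e2 : (2 : ZMod 3) + 2 = 1 := rfl
      rw [e1, e2, zero_add, cr_rot, cr_rot]
      exact h0

end rot

/-! ### amplitudes on a set of triangles -/

section hid

variable {S : Finset ℂ} {N : Net ℂ}

/-- the walker is about to enter a triangle of `R` -/
def At (R : Finset (ℂ × ℂ × ℂ)) (p : ℂ × ℂ) : Prop := ∃ t ∈ R, ∃ i, p = sd t i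

/-- the leg of `J` from `ex 0` reaches `R` -/
def Hits (N : Net ℂ) (R : Finset (ℂ × ℂ × ℂ)) (J : Finset (ℂ × ℂ)) : Prop :=
  At R (nx N (At R) J).2

/-- **amplitudes on a set of triangles which is rarely reached** -/
theorem hid0 (h : HNet S N) {R : Finset (ℂ × ℂ × ℂ)} (hR : R ⊆ delT S) (w : ℂ × ℂ × ℂ → ℂ) :
    ‖∑ t ∈ R, w t * N.Q t‖ * ((Om N).card : ℝ) ≤
      √3 * √(∑ t ∈ R, ‖w t‖ ^ 2) * (((Om N).filter (Hits N R)).card : ℝ) := by
  have hg := good_of_hnet h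
  have hT : ∀ t, t ∈ delT S → t ∈ N.T := fun t ht => h.tri ▸ ht
  set s : ℝ := √3 * √(∑ t ∈ R, ‖w t‖ ^ 2) with hs
  have e1 : ((Om N).card : ℂ) * ∑ t ∈ R, w t * N.Q t =
      ∑ J ∈ Om N, ∑ t ∈ R, w t * Qx N (nx N (At R) J).1 t := by
    rw [Finset.mul_sum, Finset.sum_comm]
    refine Finset.sum_congr rfl fun t ht => ?_
    rw [← Finset.mul_sum, ← tower hg (hT t (hR ht)) (stop := At R) (fun i => ⟨t, ht, i, rfl⟩)]
    ring
  have e2 : ‖∑ t ∈ R, w t * N.Q t‖ * ((Om N).card : ℝ) =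
      ‖∑ J ∈ Om N, ∑ t ∈ R, w t * Qx N (nx N (At R) J).1 t‖ := by
    rw [← e1, norm_mul, Complex.norm_natCast, mul_comm]
  rw [e2]
  refine (norm_sum_le _ _).trans ?_
  have h1 : ∀ J ∈ Om N, ‖∑ t ∈ R, w t * Qx N (nx N (At R) J).1 t‖ ≤
      if Hits N R J then s else 0 := by
    intro J hJ
    have hok := nx_ok hg hJ (At R)
    split_ifs with hh
    · refine (norm_sum_le _ _).trans ?_
      simp only [norm_mul]
      exact cs_frame_x h hok hR w
    · refine le_of_eq ?_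
      rw [Finset.sum_eq_zero, norm_zero]
      intro t ht
      have h3 := (nx_spec hg hJ (At R)).2.2
      rcases h3 with h3 | h3 | ⟨_, c, _, h3⟩
      · exact absurd h3 hh
      · rw [qx_end (x := nx N (At R) J) hg hok (D2_sub N h3) (hT t (hR ht)), mul_zero]
      · exact h3.elim
  refine (Finset.sum_le_sum h1).trans ?_
  rw [← Finset.sum_filter, Finset.sum_const, nsmul_eq_mul, mul_comm]

theorem om_empty (h : HNet S N) (he : Om N = ∅) {t : ℂ × ℂ × ℂ} (ht : t ∈ delT S) : N.Q t = 0 := by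
  by_contra hQ
  obtain ⟨J, hJ, k, hk⟩ := exists_tri hQ
  obtain ⟨J1, hJ1⟩ := om_ne (h.tri ▸ ht : t ∈ N.T) hJ hk
  rw [he] at hJ1
  exact absurd hJ1 (Finset.notMem_empty _)

/-- the same for the leg from any mark -/
theorem hid (h : HNet S N) (k : ZMod 3) {R : Finset (ℂ × ℂ × ℂ)} (hR : R ⊆ delT S)
    (w : ℂ × ℂ × ℂ → ℂ) :
    ‖∑ t ∈ R, w t * N.Q t‖ * ((Om (rk k N)).card : ℝ) ≤
      √3 * √(∑ t ∈ R, ‖w t‖ ^ 2) * (((Om (rk k N)).filter (Hits (rk k N) R)).card : ℝ) := by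
  have h1 := hid0 (hnet_rk h k) hR w
  have e : ∑ t ∈ R, w t * N.Q t = omz k * ∑ t ∈ R, w t * (rk k N).Q t := by
    rw [Finset.mul_sum]
    refine Finset.sum_congr rfl fun t _ => ?_
    rw [← q_rk k N t]
    ring
  rw [e, norm_mul, norm_omz, one_mul]
  exact h1

/-- **with a bound for the number of joins whose leg reaches `R`** -/
theorem hid_le (h : HNet S N) (k : ZMod 3) {R : Finset (ℂ × ℂ × ℂ)} (hR : R ⊆ delT S)
    (w : ℂ × ℂ × ℂ → ℂ) {θ : ℝ} (hθ : 0 ≤ θ)
    (hh : (((Om (rk k N)).filter (Hits (rk k N) R)).card : ℝ) ≤ θ * ((Om (rk k N)).card : ℝ)) :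
    ‖∑ t ∈ R, w t * N.Q t‖ ≤ √3 * √(∑ t ∈ R, ‖w t‖ ^ 2) * θ := by
  rcases (Om (rk k N)).eq_empty_or_nonempty with he | hne
  · have : ∑ t ∈ R, w t * N.Q t = 0 := by
      refine Finset.sum_eq_zero fun t ht => ?_
      have := om_empty (hnet_rk h k) he (hR ht)
      rw [← q_rk k N t, this, mul_zero, mul_zero]
    rw [this, norm_zero]
    positivity
  · have hc : (0 : ℝ) < ((Om (rk k N)).card : ℝ) := by exact_mod_cast hne.card_pos
    have h1 := hid h k hR w
    have h2 : √3 * √(∑ t ∈ R, ‖w t‖ ^ 2) * (((Om (rk k N)).filter (Hits (rk k N) R)).card : ℝ) ≤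
        √3 * √(∑ t ∈ R, ‖w t‖ ^ 2) * (θ * ((Om (rk k N)).card : ℝ)) :=
      mul_le_mul_of_nonneg_left hh (by positivity)
    have h3 := h1.trans h2
    rw [← mul_assoc] at h3
    exact le_of_mul_le_mul_right h3 hc

/-- the `l2` form: `(Σ_{t ∈ R} |Q t|²)^{1/2} ≤ √3 θ` -/
theorem hid_l2 (h : HNet S N) (k : ZMod 3) {R : Finset (ℂ × ℂ × ℂ)} (hR : R ⊆ delT S)
    {θ : ℝ} (hθ : 0 ≤ θ)
    (hh : (((Om (rk k N)).filter (Hits (rk k N) R)).card : ℝ) ≤ θ * ((Om (rk k N)).card : ℝ)) :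
    √(∑ t ∈ R, ‖N.Q t‖ ^ 2) ≤ √3 * θ := by
  set A : ℝ := ∑ t ∈ R, ‖N.Q t‖ ^ 2 with hA
  have hA0 : 0 ≤ A := Finset.sum_nonneg fun _ _ => by positivity
  have h1 := hid_le h k hR (fun t => (starRingEnd ℂ) (N.Q t)) hθ hh
  have e1 : ∑ t ∈ R, (starRingEnd ℂ) (N.Q t) * N.Q t = ((A : ℝ) : ℂ) := by
    rw [hA]
    push_cast
    refine Finset.sum_congr rfl fun t _ => ?_
    rw [mul_comm, Complex.mul_conj, Complex.normSq_eq_norm_sq]
    push_cast
    rfl
  have e2 : ∑ t ∈ R, ‖(starRingEnd ℂ) (N.Q t)‖ ^ 2 = A := by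
    rw [hA]
    refine Finset.sum_congr rfl fun t _ => ?_
    rw [Complex.norm_conj]
  rw [e1, e2, Complex.norm_real, Real.norm_of_nonneg hA0] at h1
  rcases hA0.eq_or_lt with h0 | h0
  · rw [← h0, Real.sqrt_zero]
    positivity
  · have h2 : √A * √A ≤ (√3 * θ) * √A := by
      rw [Real.mul_self_sqrt hA0]
      calc A ≤ √3 * √A * θ := h1
        _ = (√3 * θ) * √A := by ring
    exact le_of_mul_le_mul_right h2 (Real.sqrt_pos.2 h0)

end hid

/-! ### chains of sites along a followed path -/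

section chain

variable {G : Trg ℂ} {kl : Set (ℂ × ℂ)} {O : Set (ℂ × ℂ × ℂ)} {D : Set (ℂ × ℂ)}
  {J : Finset (ℂ × ℂ)}

/-- adjacent sites which are not separated by `J` -/
def JA (G : Trg ℂ) (J : Finset (ℂ × ℂ)) (u v : ℂ) : Prop :=
  ((∃ c, (u, v, c) ∈ G.T) ∨ ∃ c, (v, u, c) ∈ G.T) ∧ (u, v) ∉ J ∧ (v, u) ∉ J

theorem JA.symm {u v : ℂ} (h : JA G J u v) : JA G J v u := ⟨h.1.symm, h.2.2, h.2.1⟩

/-- one turn of the walk: one coordinate is kept, the other one moves along an edge which is not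
occupied -/
theorem step_JA (hJ : IsJoin G kl O D J) (hb : ∀ a b : ℂ, (a, b) ∈ D → ∀ c, (b, a, c) ∉ G.T)
    {p m u : ℂ × ℂ} (hp : p ∈ J) (hu : Turn G p m u) (hs : Step G O D J p m) :
    (m.1 = p.1 ∧ JA G J p.2 m.2) ∨ (m.2 = p.2 ∧ JA G J p.1 m.1) := by
  have he := turn_empty hJ hp hu hs
  obtain ⟨c, hc, hu⟩ := hu
  have huD : u ∉ D := fun h => he (hJ.mark u.1 u.2 h).1
  rcases hu with ⟨rfl, rfl⟩ | ⟨rfl, rfl⟩
  · right
    have ht : (c, p.1, p.2) ∈ G.T := G.rot (G.rot hc)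
    have h2 : (p.1, c) ∉ D := fun h => hb _ _ h _ ht
    exact ⟨rfl, Or.inr ⟨_, ht⟩, fun h => he ((hJ.sym _ _ h2 huD).1 h), he⟩
  · left
    have ht : (p.2, c, p.1) ∈ G.T := G.rot hc
    have h2 : (c, p.2) ∉ D := fun h => hb _ _ h _ ht
    exact ⟨rfl, Or.inl ⟨_, ht⟩, he, fun h => he ((hJ.sym _ _ h2 huD).1 h)⟩

/-- left sites of a path -/
def lS (L : Pt ℂ) (q : ℂ × ℂ) : Set ℂ := {s | s = q.1 ∨ ∃ a ∈ L, s = a.1.1}

/-- right sites of a path -/
def rS (L : Pt ℂ) (q : ℂ × ℂ) : Set ℂ := {s | s = q.2 ∨ ∃ a ∈ L, s = a.1.2}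

theorem lS_cons (a : (ℂ × ℂ) × (ℂ × ℂ)) (L : Pt ℂ) (q : ℂ × ℂ) : lS L q ⊆ lS (a :: L) q := by
  rintro s (h | ⟨b, hb, h⟩)
  · exact Or.inl h
  · exact Or.inr ⟨b, List.mem_cons_of_mem _ hb, h⟩

theorem rS_cons (a : (ℂ × ℂ) × (ℂ × ℂ)) (L : Pt ℂ) (q : ℂ × ℂ) : rS L q ⊆ rS (a :: L) q := by
  rintro s (h | ⟨b, hb, h⟩)
  · exact Or.inl h
  · exact Or.inr ⟨b, List.mem_cons_of_mem _ hb, h⟩

theorem head_lS {p q : ℂ × ℂ} {L : Pt ℂ} (h : Fol G O D J p L q) : p.1 ∈ lS L q := by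
  cases L with
  | nil => exact Or.inl (congrArg Prod.fst h)
  | cons a L => exact Or.inr ⟨a, List.mem_cons_self .., congrArg Prod.fst h.1.symm⟩

theorem head_rS {p q : ℂ × ℂ} {L : Pt ℂ} (h : Fol G O D J p L q) : p.2 ∈ rS L q := by
  cases L with
  | nil => exact Or.inl (congrArg Prod.snd h)
  | cons a L => exact Or.inr ⟨a, List.mem_cons_self .., congrArg Prod.snd h.1.symm⟩

/-- chain inside a set -/
def CIn (G : Trg ℂ) (J : Finset (ℂ × ℂ)) (W : Set ℂ) (u v : ℂ) : Prop :=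
  Relation.ReflTransGen (fun x y => JA G J x y ∧ x ∈ W ∧ y ∈ W) u v

theorem CIn.mono {W W' : Set ℂ} (hW : W ⊆ W') {u v : ℂ} (h : CIn G J W u v) :
    CIn G J W' u v := by
  induction h with
  | refl => exact Relation.ReflTransGen.refl
  | tail _ h2 ih => exact ih.tail ⟨h2.1, hW h2.2.1, hW h2.2.2⟩

theorem CIn.symm {W : Set ℂ} {u v : ℂ} (h : CIn G J W u v) : CIn G J W v u := by
  induction h with
  | refl => exact Relation.ReflTransGen.refl
  | tail _ h2 ih => exact Relation.ReflTransGen.head ⟨h2.1.symm, h2.2.2, h2.2.1⟩ ih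

/-- **the left sites and the right sites of a followed path form chains** -/
theorem fol_chain (hJ : IsJoin G kl O D J)
    (hb : ∀ a b : ℂ, (a, b) ∈ D → ∀ c, (b, a, c) ∉ G.T) :
    ∀ (L : Pt ℂ) (p q : ℂ × ℂ), (p ∈ J ∨ sw p ∈ D) → Fol G O D J p L q →
      CIn G J (lS L q) p.1 q.1 ∧ CIn G J (rS L q) p.2 q.2 := by
  intro L
  induction L with
  | nil =>
    intro p q _ h
    change p = q at h
    subst h
    exact ⟨Relation.ReflTransGen.refl, Relation.ReflTransGen.refl⟩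
  | cons a L ih =>
    rintro p q hp ⟨ha, m, hm, hs, hf⟩
    have hp' : p ∈ J := by
      rcases hp with h | h
      · exact h
      · exact absurd h (step_pre hs)
    obtain ⟨h1, h2⟩ := ih m q (step_mem hJ hs) hf
    have hl := h1.mono (lS_cons a L q)
    have hr := h2.mono (rS_cons a L q)
    have ml : m.1 ∈ lS (a :: L) q := lS_cons a L q (head_lS hf)
    have mr : m.2 ∈ rS (a :: L) q := rS_cons a L q (head_rS hf)
    have pl : p.1 ∈ lS (a :: L) q := Or.inr ⟨a, List.mem_cons_self .., congrArg Prod.fst ha.symm⟩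
    have pr : p.2 ∈ rS (a :: L) q := Or.inr ⟨a, List.mem_cons_self .., congrArg Prod.snd ha.symm⟩
    rcases step_JA hJ hb hp' hm hs with ⟨e, h3⟩ | ⟨e, h3⟩
    · refine ⟨e ▸ hl, Relation.ReflTransGen.head ⟨h3, pr, mr⟩ hr⟩
    · refine ⟨Relation.ReflTransGen.head ⟨h3, pl, ml⟩ hl, e ▸ hr⟩

/-- **the last part of a chain consists of fresh sites** -/
theorem split_chain {W : Set ℂ} {F : Set ℂ} {u v : ℂ} (hu : u ∉ F) (hv : v ∈ F)
    (h : CIn G J W u v) : ∃ x y, x ∈ W ∧ x ∉ F ∧ JA G J x y ∧ CIn G J W u x ∧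
      CIn G J (W ∩ F) y v ∧ y ∈ W ∩ F := by
  induction h with
  | refl => exact absurd hv hu
  | @tail b c h1 h2 ih =>
    by_cases hb : b ∈ F
    · obtain ⟨x, y, a1, a2, a3, a4, a5, a6⟩ := ih hb
      exact ⟨x, y, a1, a2, a3, a4, a5.tail ⟨h2.1, ⟨h2.2.1, hb⟩, ⟨h2.2.2, hv⟩⟩, a6⟩
    · exact ⟨b, c, h2.2.1, hb, h2.1, h1, Relation.ReflTransGen.refl, h2.2.2, hv⟩

/-- a chain as a list -/
theorem exists_list {W : Set ℂ} {u v : ℂ} (hu : u ∈ W) (h : CIn G J W u v) :
    ∃ (l : List ℂ) (hl : l ≠ []), l.head hl = u ∧ l.getLast hl = v ∧ (∀ s ∈ l, s ∈ W) ∧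
      ∀ p ∈ ToolWx838.prs l, JA G J p.1 p.2 := by
  induction h using Relation.ReflTransGen.head_induction_on with
  | refl => exact ⟨[v], by simp, rfl, rfl, by simpa using hu, by simp [ToolWx838.prs]⟩
  | @head a c h1 h2 ih =>
    obtain ⟨l, hl, e1, e2, e3, e4⟩ := ih h1.2.2
    obtain ⟨b, l', rfl⟩ := List.exists_cons_of_ne_nil hl
    refine ⟨a :: b :: l', by simp, rfl, ?_, ?_, ?_⟩
    · rw [List.getLast_cons hl]
      exact e2
    · intro s hs
      rcases List.mem_cons.1 hs with rfl | hs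
      · exact hu
      · exact e3 s hs
    · intro p hp
      change p ∈ (a, b) :: ToolWx838.prs (b :: l') at hp
      rcases List.mem_cons.1 hp with rfl | hp
      · have : b = c := e1
        rw [this]
        exact h1.1
      · exact e4 p hp

end chain

/-! ### one arm bound for the interface -/

section arm

open Crest.Agent.R143.GauAx749 Crest.Agent.R143.GauCx749 Crest.Agent.R143.J8x872
  Crest.Agent.R143.Harx315 Crest.Agent.R143.Circ4x838 Crest.Agent.R143.CircPx838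
  Crest.Agent.R143.ToolWx838 Crest.Agent.R143.RB0x838

variable {S : Finset ℂ} {N : Net ℂ} {V : Finset ℂ}

/-- a chain in `V` from the disc of radius `r1` to the complement of the disc of radius `r2` -/
theorem xch_of_cin (hG : N.T = delT S) {J : Finset (ℂ × ℂ)} {z : ℂ} {r1 r2 : ℝ} {W : Set ℂ}
    (hW : ∀ s ∈ W, s ∈ V) {u v : ℂ} (hu : u ∈ W) (h : CIn N.toTrg J W u v)
    (h1 : ‖u - z‖ ≤ r1) (h2 : r2 ≤ ‖v - z‖) : ∃ l, XCh S V z r1 r2 J l := by
  obtain ⟨l, hl, e1, e2, e3, e4⟩ := exists_list hu h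
  refine ⟨l, hl, ?_, fun s hs => hW s (e3 s hs), ?_, by rw [e1]; exact h1, by rw [e2]; exact h2⟩
  · intro q hq
    have := (e4 q hq).1
    rw [hG] at this
    exact this
  · intro q hq
    exact ⟨(e4 q hq).2.1, (e4 q hq).2.2⟩

/-- **one arm bound for the joins of the interface** -/
theorem arm_om (h : HNet S N) (hVS : V ⊆ S) (hV : FreeS S N.kl V) {z : ℂ}
    {s R q : ℝ} (hs : 0 < s) {m : ℕ} (hR : 4 * 2 ^ m * s ≤ R)
    (hq : ∀ j < m, q ≤ pr S (fun β => ∃ c, CircC S z (2 ^ j * s) β c)) :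
    (((Om N).filter fun J => ∃ l, XCh S V z s R J l).card : ℝ) ≤
      2 * (1 - q) ^ m * ((Om N).card : ℝ) := by
  refine x_scales h.gp h.tri hVS hV ?_ ?_ hs hR hq
  · intro β hβ x hx
    exact bd_mark' h hV β hβ x (D2_sub N hx)
  · intro J hJ
    refine GauBx749.gauge_hull h.gp h.tri ?_ (mem_joins.1 hJ)
    intro x y hxy
    obtain ⟨k, hk⟩ := D2_sub N hxy
    have := h.hex k
    rw [hk] at this
    exact this

end arm

end Crest.Agent.R143.Hidx478
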