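import Crest.Agent.R143.Inv_969
import Crest.Agent.R143.CNT_930
import Crest.Agent.R143.Crs4_117

/-!
# Row 143 (S0194): CONT, the invisible case, assembly (helper776, after notes 3087, 3308, 969, 313)

`N` any network, `A i` disjoint deep parts (closed under rotations), `u` any weight. If the root block
(pattern `k i`) reaches `A i` only through a one-colour arm across one of the two annuli
`r < |z - p i| < R`, `r < |z - q i| < R`, then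

`‖∑ u t * Q t‖ ≤ √3 √(∑ shallow ‖u t‖²) + √(36 C (r/R)^c) ∑ i √(∑ t ∈ A i, ‖u t‖²)`.
-/

set_option autoImplicit false

noncomputable section

open scoped Classical

namespace Crest.Agent.R143.Hidx776

open Crest.Agent.R143.B0x346 Crest.Agent.R143.JColx54 Crest.Agent.R143.Harx315
open Crest.Agent.R143.Frame5x395 Crest.Agent.R143.Invx969 Crest.Agent.R143.CNTx930
open Crest.Agent.R143.RB0x838 (LDns Mesh)

variable {S V : Finset ℂ} {N : Net ℂ}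

/-- **invisible case**, quantitative form -/
theorem hid : ∀ C4 : ℝ, 0 ≤ C4 → ∃ C c c1 c2 K : ℝ, 0 < C ∧ 0 < c ∧ 0 < c1 ∧ 0 < c2 ∧ c2 ≤ 1 ∧
    1 ≤ K ∧ ∀ (S : Finset ℂ) (N : Net ℂ) (h : HNet S N) (V : Finset ℂ), V ⊆ S →
    ∀ (d r R : ℝ), 0 < r → r ≤ R → d ≤ c1 * r →
    ∀ {ι : Type} (s : Finset ι) (A : ι → Finset (ℂ × ℂ × ℂ)) (k : ι → ZMod 3) (p q : ι → ℂ),
    (∀ i ∈ s, A i ⊆ delT S) → (∀ i ∈ s, RotC (A i)) →
    (∀ i ∈ s, ∀ j ∈ s, i ≠ j → Disjoint (A i) (A j)) →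
    (∀ i ∈ s, LDns S (p i) (K * R) d ∧ LDns S (q i) (K * R) d) →
    (∀ i ∈ s, ∀ b, c2 * r ≤ b → b ≤ R → Mesh S (p i) (K * R) b C4 ∧ Mesh S (q i) (K * R) b C4) →
    (∀ i ∈ s, PB (cm h) (Sum.inr (k i)) (dA (A i)) ≤
      pr V (fun β => Arm2 S V (p i) r R β ∨ Arm2 S V (q i) r R β)) →
    ∀ u : ℂ × ℂ × ℂ → ℂ,
    ‖∑ t ∈ delT S, u t * N.Q t‖ ≤
      √3 * √(∑ t ∈ (delT S).filter (fun t => ∀ i ∈ s, t ∉ A i), ‖u t‖ ^ 2) +
      √(C * (r / R) ^ c) * ∑ i ∈ s, √(∑ t ∈ A i, ‖u t‖ ^ 2) := by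
  intro C4 hC4
  obtain ⟨C, c, c1, c2, K, hC, hc, hc1, hc2, hc2', hK, H⟩ := arm2 C4 hC4
  refine ⟨36 * C, c, c1, c2, K, by positivity, hc, hc1, hc2, hc2', hK, ?_⟩
  intro S N h V hV d r R hr hrR hd ι s A k p q hA hrot hdis hD hM hPB u
  refine (Q_parts h s A hA hrot hdis u k).trans ?_
  gcongr
  rw [Finset.mul_sum]
  refine Finset.sum_le_sum fun i hi => ?_
  refine mul_le_mul_of_nonneg_right (Real.sqrt_le_sqrt ?_) (Real.sqrt_nonneg _)
  have h1 := H S (p i) d r R hr hrR (hD i hi).1 (fun b hb1 hb2 => (hM i hi b hb1 hb2).1) hd V hV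
  have h2 := H S (q i) d r R hr hrR (hD i hi).2 (fun b hb1 hb2 => (hM i hi b hb1 hb2).2) hd V hV
  have h3 : pr V (fun β => Arm2 S V (p i) r R β ∨ Arm2 S V (q i) r R β) ≤
      pr V (Arm2 S V (p i) r R) + pr V (Arm2 S V (q i) r R) := pr_or_le
  have h4 := hPB i hi
  linarith

end Crest.Agent.R143.Hidx776
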