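import Crest.Agent.R143.J1_872

/-!
# Row 143, block J: leaf J4 (domain Markov)

`Turn G p q u` : the walker `p` crosses the triangle `(p.1, p.2, c)` and comes to `q`; `u` is the
side of this triangle which is not crossed (the triangle is on the left of `u`).
`Pth G p L q` : path from `p` to `q`; `L` = list of the pairs (state, uncrossed side).
`Fol G O D J p L q` : the walker in `J` follows this path.
`unc L` = the uncrossed sides (both orientations).

* `isJoin_kill`, `joins_kill` : killing a set of edges = conditioning on their being empty.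
* `joins_path` : the joins which follow `L` are the joins of the network where the uncrossed sides of
  `L` are killed (the marks do not move).
* `exists_stop`, `stop_unique` : every join follows exactly one path stopped at the first state in
  `stop` (or at the end of the leg); `stopPaths` = the finite set of all of them.
* `card_markov` : decomposition of every count of joins along the stopped leg; `tj_markov`,
  `hj_markov`, `cnt_markov`: for nets.
-/

set_option autoImplicit false

noncomputable section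

open scoped Classical

namespace Crest.Agent.R143.J4x872

open Crest.Agent.R143.B0x346 Crest.Agent.R143.JCardx872 Crest.Agent.R143.JWalkx872
  Crest.Agent.R143.J1x872

variable {V : Type} {G : Trg V} {kl : Set (V × V)} {O : Set (V × V × V)} {D : Set (V × V)}
  {J : Finset (V × V)}

/-! ### killing edges = conditioning on empty edges -/

theorem isJoin_kill (U : Set (V × V)) (hs : ∀ u, u ∈ U → sw u ∈ U)
    (hJD : ∀ u ∈ U, u ∈ D → False) :
    IsJoin G (kl ∪ U) O D J ↔ IsJoin G kl O D J ∧ ∀ u ∈ U, u ∉ J := by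
  constructor
  · intro h
    refine ⟨⟨h.sub, h.sym, h.mark, h.bdr, fun a b hk => h.kill a b (Or.inl hk), h.par⟩, ?_⟩
    rintro ⟨a, b⟩ hu
    exact (h.kill a b (Or.inr hu) (fun h' => hJD _ hu h') (fun h' => hJD _ (hs _ hu) h')).1
  · rintro ⟨h, h'⟩
    refine ⟨h.sub, h.sym, h.mark, h.bdr, ?_, h.par⟩
    rintro a b (hk | hk) h1 h2
    · exact h.kill a b hk h1 h2
    · exact ⟨h' _ hk, h' _ (hs _ hk)⟩

theorem joins_kill (U : Set (V × V)) (hs : ∀ u, u ∈ U → sw u ∈ U) (hU : ∀ u ∈ U, u ∉ D) :
    joins G (kl ∪ U) O D = (joins G kl O D).filter (fun J => ∀ u ∈ U, u ∉ J) := by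
  ext J
  rw [Finset.mem_filter, mem_joins, mem_joins]
  exact isJoin_kill U hs (fun u hu h => hU u hu h)

/-! ### paths -/

/-- one turn of the walker, `u` = the side which is not crossed -/
def Turn (G : Trg V) (p q u : V × V) : Prop :=
  ∃ c, (p.1, p.2, c) ∈ G.T ∧ ((q = (c, p.2) ∧ u = (c, p.1)) ∨ (q = (p.1, c) ∧ u = (p.2, c)))

/-- the path `L` from `p` to `q` -/
def Pth (G : Trg V) : V × V → List ((V × V) × (V × V)) → V × V → Prop
  | p, [], q => p = q
  | p, a :: L, q => a.1 = p ∧ ∃ m, Turn G p m a.2 ∧ Pth G m L q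

/-- the walker of `J` follows the path `L` from `p` to `q` -/
def Fol (G : Trg V) (O : Set (V × V × V)) (D : Set (V × V)) (J : Finset (V × V)) :
    V × V → List ((V × V) × (V × V)) → V × V → Prop
  | p, [], q => p = q
  | p, a :: L, q => a.1 = p ∧ ∃ m, Turn G p m a.2 ∧ Step G O D J p m ∧ Fol G O D J m L q

/-- uncrossed sides, both orientations -/
def unc (L : List ((V × V) × (V × V))) : Set (V × V) := {u | ∃ a ∈ L, u = a.2 ∨ u = sw a.2}

theorem unc_sw (L : List ((V × V) × (V × V))) (u : V × V) (h : u ∈ unc L) : sw u ∈ unc L := by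
  obtain ⟨a, ha, h | h⟩ := h
  · exact ⟨a, ha, Or.inr (by rw [h])⟩
  · exact ⟨a, ha, Or.inl (by rw [h, sw_sw])⟩

theorem fol_pth : ∀ (L : List ((V × V) × (V × V))) (p q : V × V), Fol G O D J p L q → Pth G p L q
  | [], _, _, h => h
  | _ :: L, _, q, ⟨h1, m, h2, _, h4⟩ => ⟨h1, m, h2, fol_pth L m q h4⟩

theorem fol_leads : ∀ (L : List ((V × V) × (V × V))) (p q : V × V), Fol G O D J p L q →
    Leads G O D J p q
  | [], _, _, h => h ▸ Relation.ReflTransGen.refl
  | _ :: L, _, q, ⟨_, m, _, h3, h4⟩ => Relation.ReflTransGen.head h3 (fol_leads L m q h4)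

/-- a turn of the walker of `J`: the uncrossed side is empty -/
theorem turn_empty (hJ : IsJoin G kl O D J) {p m u : V × V} (hp : p ∈ J) (h1 : Turn G p m u)
    (h2 : Step G O D J p m) : u ∉ J := by
  obtain ⟨c, hc, hcO, _, h2⟩ := h2
  obtain ⟨c', hc', h1⟩ := h1
  have := G.uniq hc hc'
  subst this
  have hpar := hJ.par _ _ _ hc
  rw [if_neg hcO] at hpar
  have hp' : (p.1, p.2) ∈ J := hp
  have n1 := G.ne hc
  have n2 := G.ne (G.rot hc)
  rcases h1 with ⟨rfl, rfl⟩ | ⟨rfl, rfl⟩ <;> rcases h2 with ⟨h2, e⟩ | ⟨h2, h3, e⟩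
  · intro h'
    simp only [hp', h2, h', if_true] at hpar
    omega
  · rw [Prod.mk.injEq] at e
    exact absurd e.2 n2
  · rw [Prod.mk.injEq] at e
    exact absurd e.2 n2.symm
  · exact h3

/-- conversely -/
theorem step_of_empty (hJ : IsJoin G kl O D J) {p m u : V × V} (hp : p ∈ J) (h1 : Turn G p m u)
    (hD : sw p ∉ D) (hO : ∀ c, (p.1, p.2, c) ∈ G.T → (p.1, p.2, c) ∉ O) (hu : u ∉ J) :
    Step G O D J p m := by
  obtain ⟨c, hc, h1⟩ := h1
  have hcO := hO c hc
  have hpar := hJ.par _ _ _ hc
  rw [if_neg hcO] at hpar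
  have hp' : (p.1, p.2) ∈ J := hp
  rcases h1 with ⟨rfl, rfl⟩ | ⟨rfl, rfl⟩
  · refine ⟨c, hc, hcO, hD, Or.inl ⟨?_, rfl⟩⟩
    by_contra h
    simp only [hp', h, hu, if_true, if_false] at hpar
    omega
  · refine ⟨c, hc, hcO, hD, Or.inr ⟨?_, hu, rfl⟩⟩
    by_contra h
    simp only [hp', h, hu, if_true, if_false] at hpar
    omega

/-- the path stays away from the marks and from the odd triangles -/
def Free (G : Trg V) (O : Set (V × V × V)) (D : Set (V × V)) (L : List ((V × V) × (V × V))) :
    Prop :=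
  ∀ a ∈ L, sw a.1 ∉ D ∧ ∀ c, (a.1.1, a.1.2, c) ∈ G.T → (a.1.1, a.1.2, c) ∉ O

theorem fol_free : ∀ (L : List ((V × V) × (V × V))) (p q : V × V), Fol G O D J p L q →
    Free G O D L
  | [], _, _, _ => by
    intro a ha
    simp at ha
  | b :: L, p, q, ⟨h1, m, _, h3, h4⟩ => by
    intro a ha
    rcases List.mem_cons.1 ha with rfl | ha
    · rw [h1]
      obtain ⟨c, hc, hcO, hD, _⟩ := h3
      refine ⟨hD, ?_⟩
      intro c' hc'
      have := G.uniq hc hc'
      subst this
      exact hcO
    · exact fol_free L m q h4 a ha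

/-- the walker follows the path iff the uncrossed sides are empty -/
theorem fol_iff (hJ : IsJoin G kl O D J) : ∀ (L : List ((V × V) × (V × V))) (p q : V × V),
    p ∈ J ∨ sw p ∈ D → Pth G p L q → Free G O D L →
    (Fol G O D J p L q ↔ ∀ a ∈ L, a.2 ∉ J) := by
  intro L
  induction L with
  | nil =>
    intro p q _ hL _
    constructor
    · intro _ a ha
      simp at ha
    · intro _
      exact hL
  | cons a L ih =>
    intro p q hp hL hF
    obtain ⟨h1, m, h2, h3⟩ := hL
    have hFa := hF a (List.mem_cons_self ..)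
    rw [h1] at hFa
    have hpJ : p ∈ J := by
      rcases hp with h | h
      · exact h
      · exact absurd h hFa.1
    have hF' : Free G O D L := fun b hb => hF b (List.mem_cons_of_mem _ hb)
    constructor
    · rintro ⟨_, m', h2', h4, h5⟩ b hb
      have hstep := turn_empty hJ hpJ h2' h4
      have hm : m' = m := by
        obtain ⟨c, hc, h⟩ := h2
        obtain ⟨c', hc', h'⟩ := h2'
        have := G.uniq hc hc'
        subst this
        have n2 := G.ne (G.rot hc)
        rcases h with ⟨rfl, e⟩ | ⟨rfl, e⟩ <;> rcases h' with ⟨rfl, e'⟩ | ⟨rfl, e'⟩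
        · rfl
        · rw [e] at e'
          rw [Prod.mk.injEq] at e'
          exact absurd e'.1.symm n2
        · rw [e] at e'
          rw [Prod.mk.injEq] at e'
          exact absurd e'.1 n2
        · rfl
      subst hm
      rcases List.mem_cons.1 hb with rfl | hb
      · exact hstep
      · exact (ih m' q (step_mem hJ h4) h3 hF').1 h5 b hb
    · intro h
      have hu := h a (List.mem_cons_self ..)
      have hst := step_of_empty hJ hpJ h2 hFa.1 hFa.2 hu
      exact ⟨h1, m, h2, hst, (ih m q (step_mem hJ hst) h3 hF').2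
        fun b hb => h b (List.mem_cons_of_mem _ hb)⟩

/-- **J4**: conditioning on the first steps of a leg = killing the uncrossed sides -/
theorem joins_path {p q : V × V} {L : List ((V × V) × (V × V))} (hp : p ∈ D) (hL : Pth G p L q)
    (hF : Free G O D L) (hU : ∀ a ∈ L, a.2 ∉ D) :
    joins G (kl ∪ unc L) O D = (joins G kl O D).filter (fun J => Fol G O D J p L q) := by
  ext J
  rw [Finset.mem_filter, mem_joins, mem_joins]
  have key : ∀ J, IsJoin G kl O D J → (Fol G O D J p L q ↔ ∀ a ∈ L, a.2 ∉ J) := by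
    intro J hJ
    exact fol_iff hJ L p q (Or.inl (hJ.mark p.1 p.2 hp).1) hL hF
  constructor
  · intro h
    have h0 : IsJoin G kl O D J :=
      ⟨h.sub, h.sym, h.mark, h.bdr, fun a b hk => h.kill a b (Or.inl hk), h.par⟩
    refine ⟨h0, (key J h0).2 ?_⟩
    intro a ha
    by_cases h2 : sw a.2 ∈ D
    · exact (h.mark _ _ h2).2
    · exact (h.kill a.2.1 a.2.2 (Or.inr ⟨a, ha, Or.inl rfl⟩) (hU a ha) h2).1
  · rintro ⟨h, h'⟩
    rw [key J h] at h'
    refine ⟨h.sub, h.sym, h.mark, h.bdr, ?_, h.par⟩
    rintro x y (hk | hk) h1 h2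
    · exact h.kill x y hk h1 h2
    · obtain ⟨a, ha, hk⟩ := hk
      have hs := h.sym x y h1 h2
      rcases hk with hk | hk
      · have : (x, y) ∉ J := by rw [hk]; exact h' a ha
        exact ⟨this, fun h3 => this (hs.2 h3)⟩
      · have : (y, x) ∉ J := by
          have e : (y, x) = a.2 := by
            have : sw (x, y) = sw (sw a.2) := by rw [hk]
            rw [sw_sw] at this
            exact this
          rw [e]
          exact h' a ha
        exact ⟨fun h3 => this (hs.1 h3), this⟩

/-- the uncrossed side of a path followed by a join is not a mark -/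
theorem fol_unc (hJ : IsJoin G kl O D J) {p q : V × V} {L : List ((V × V) × (V × V))}
    (hp : p ∈ J ∨ sw p ∈ D) (h : Fol G O D J p L q) : ∀ a ∈ L, a.2 ∉ D := by
  intro a ha h'
  have := (fol_iff hJ L p q hp (fol_pth L p q h) (fol_free L p q h)).1 h a ha
  exact this (hJ.mark _ _ h').1

theorem joins_path' {p q : V × V} {L : List ((V × V) × (V × V))} (hp : p ∈ D)
    (hL : ∃ J ∈ joins G kl O D, Fol G O D J p L q) :
    joins G (kl ∪ unc L) O D = (joins G kl O D).filter (fun J => Fol G O D J p L q) := by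
  obtain ⟨J, hJ, h⟩ := hL
  rw [mem_joins] at hJ
  exact joins_path hp (fol_pth L p q h) (fol_free L p q h)
    (fol_unc hJ (Or.inl (hJ.mark p.1 p.2 hp).1) h)

/-! ### stopped legs -/

theorem step_turn {p q : V × V} (h : Step G O D J p q) : ∃ u, Turn G p q u := by
  obtain ⟨c, hc, _, _, h⟩ := h
  rcases h with ⟨_, h⟩ | ⟨_, _, h⟩
  · exact ⟨(c, p.1), c, hc, Or.inl ⟨h, rfl⟩⟩
  · exact ⟨(p.2, c), c, hc, Or.inr ⟨h, rfl⟩⟩

theorem turn_unc_unique {p q u u' : V × V} (h : Turn G p q u) (h' : Turn G p q u') : u = u' := by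
  obtain ⟨c, hc, h⟩ := h
  obtain ⟨c', hc', h'⟩ := h'
  have := G.uniq hc hc'
  subst this
  have n2 := G.ne (G.rot hc)
  rcases h with ⟨e, rfl⟩ | ⟨e, rfl⟩ <;> rcases h' with ⟨e', rfl⟩ | ⟨e', rfl⟩
  · rfl
  · rw [e, Prod.mk.injEq] at e'
    exact absurd e'.2 n2
  · rw [e, Prod.mk.injEq] at e'
    exact absurd e'.2.symm n2
  · rfl

/-- the path `L` followed from `p` stops at the first state which is in `stop` or is the end of the
leg -/
def Stopped (G : Trg V) (O : Set (V × V × V)) (D : Set (V × V)) (stop : V × V → Prop)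
    (J : Finset (V × V)) (p : V × V) (L : List ((V × V) × (V × V))) (q : V × V) : Prop :=
  Fol G O D J p L q ∧ (∀ a ∈ L, ¬ stop a.1) ∧ (stop q ∨ Term G O D J q)

theorem exists_stop_of_leads {stop : V × V → Prop} {e : V × V} (he : Term G O D J e) :
    ∀ (n : ℕ) (p : V × V), LeadsN G O D J n p e → ∃ L q, Stopped G O D stop J p L q := by
  intro n
  induction n with
  | zero =>
    intro p h
    change p = e at h
    subst h
    exact ⟨[], p, rfl, by simp, Or.inr he⟩
  | succ n ih =>
    intro p h
    by_cases hs : stop p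
    · exact ⟨[], p, rfl, by simp, Or.inl hs⟩
    · obtain ⟨m, h1, h2⟩ := h
      obtain ⟨L, q, h3, h4, h5⟩ := ih m h2
      obtain ⟨u, hu⟩ := step_turn h1
      refine ⟨(p, u) :: L, q, ⟨rfl, m, hu, h1, h3⟩, ?_, h5⟩
      intro a ha
      rcases List.mem_cons.1 ha with rfl | ha
      · exact hs
      · exact h4 a ha

/-- every join follows a stopped path from the mark `p` -/
theorem exists_stop (hJ : IsJoin G kl O D J) (hO : RotInv O) {p : V × V} (hp : p ∈ D)
    (stop : V × V → Prop) : ∃ L q, Stopped G O D stop J p L q := by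
  obtain ⟨e, he, hT⟩ := exists_end hJ hO (hJ.mark p.1 p.2 hp).1 (fun q _ => mark_pre hJ hp q)
  obtain ⟨n, hn⟩ := leads_iff_leadsN.1 he
  exact exists_stop_of_leads hT n p hn

theorem stop_unique {stop : V × V → Prop} : ∀ (L L' : List ((V × V) × (V × V))) (p q q' : V × V),
    Stopped G O D stop J p L q → Stopped G O D stop J p L' q' → L = L' ∧ q = q' := by
  intro L
  induction L with
  | nil =>
    rintro L' p q q' ⟨h1, _, h3⟩ ⟨h1', h2', h3'⟩
    change p = q at h1
    subst h1
    rcases L' with _ | ⟨b, L'⟩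
    · exact ⟨rfl, h1'⟩
    · exfalso
      obtain ⟨hb, m, _, hst, _⟩ := h1'
      rcases h3 with h3 | h3
      · exact h2' b (List.mem_cons_self ..) (hb ▸ h3)
      · exact term_noStep h3 hst
  | cons a L ih =>
    rintro L' p q q' ⟨h1, h2, h3⟩ ⟨h1', h2', h3'⟩
    obtain ⟨ha, m, hm, hst, hf⟩ := h1
    rcases L' with _ | ⟨b, L'⟩
    · exfalso
      change p = q' at h1'
      subst h1'
      rcases h3' with h3' | h3'
      · exact h2 a (List.mem_cons_self ..) (ha ▸ h3')
      · exact term_noStep h3' hst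
    · obtain ⟨hb, m', hm', hst', hf'⟩ := h1'
      have e := step_det hst hst'
      subst e
      have hu := turn_unc_unique hm hm'
      have hab : a = b := Prod.ext (ha.trans hb.symm) hu
      obtain ⟨e1, e2⟩ := ih L' m q q' ⟨hf, fun c hc => h2 c (List.mem_cons_of_mem _ hc), h3⟩
        ⟨hf', fun c hc => h2' c (List.mem_cons_of_mem _ hc), h3'⟩
      exact ⟨by rw [hab, e1], e2⟩

/-- the stopped path of a join -/
def sPath (G : Trg V) (O : Set (V × V × V)) (D : Set (V × V)) (stop : V × V → Prop) (p : V × V)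
    (J : Finset (V × V)) : List ((V × V) × (V × V)) × (V × V) :=
  if h : ∃ x : List ((V × V) × (V × V)) × (V × V), Stopped G O D stop J p x.1 x.2 then h.choose
  else ([], p)

theorem sPath_spec (hJ : IsJoin G kl O D J) (hO : RotInv O) {p : V × V} (hp : p ∈ D)
    (stop : V × V → Prop) :
    Stopped G O D stop J p (sPath G O D stop p J).1 (sPath G O D stop p J).2 := by
  have h : ∃ x : List ((V × V) × (V × V)) × (V × V), Stopped G O D stop J p x.1 x.2 := by
    obtain ⟨L, q, h⟩ := exists_stop hJ hO hp stop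
    exact ⟨(L, q), h⟩
  unfold sPath
  rw [dif_pos h]
  exact h.choose_spec

/-- the stopped paths from the mark `p` -/
def stopPaths (G : Trg V) (kl : Set (V × V)) (O : Set (V × V × V)) (D : Set (V × V))
    (stop : V × V → Prop) (p : V × V) : Finset (List ((V × V) × (V × V)) × (V × V)) :=
  (joins G kl O D).image (sPath G O D stop p)

/-- for a join, "the stopped path is `x`" = "the join follows `x`", for `x` a stopped path -/
theorem sPath_eq_iff (hJ : J ∈ joins G kl O D) (hO : RotInv O) {p : V × V} (hp : p ∈ D)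
    {stop : V × V → Prop} {x : List ((V × V) × (V × V)) × (V × V)}
    (hx : x ∈ stopPaths G kl O D stop p) :
    sPath G O D stop p J = x ↔ Fol G O D J p x.1 x.2 := by
  obtain ⟨J0, hJ0, rfl⟩ := Finset.mem_image.1 hx
  rw [mem_joins] at hJ hJ0
  have h0 := sPath_spec hJ0 hO hp stop
  have h1 := sPath_spec hJ hO hp stop
  constructor
  · intro h
    rw [← h]
    exact h1.1
  · intro h
    have hS : Stopped G O D stop J p (sPath G O D stop p J0).1 (sPath G O D stop p J0).2 := by
      refine ⟨h, h0.2.1, ?_⟩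
      rcases h0.2.2 with h2 | h2
      · exact Or.inl h2
      · right
        rcases h2 with h2 | ⟨_, c, hc, hcO⟩
        · exact Or.inl h2
        · by_cases hD : sw (sPath G O D stop p J0).2 ∈ D
          · exact Or.inl hD
          · refine Or.inr ⟨?_, c, hc, hcO⟩
            rcases leads_mem hJ (hJ.mark p.1 p.2 hp).1 (fol_leads _ _ _ h) with h3 | h3
            · exact h3
            · exact absurd h3 hD
    obtain ⟨e1, e2⟩ := stop_unique _ _ _ _ _ h1 hS
    exact Prod.ext e1 e2

/-- **domain Markov**: decomposition of a count of joins along the stopped leg of the mark `p` -/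
theorem card_markov (hO : RotInv O) {p : V × V} (hp : p ∈ D) (stop : V × V → Prop)
    (P : Finset (V × V) → Prop) :
    ((joins G kl O D).filter P).card =
      ∑ x ∈ stopPaths G kl O D stop p, ((joins G (kl ∪ unc x.1) O D).filter P).card := by
  have h1 : ((joins G kl O D).filter P).card = ∑ x ∈ stopPaths G kl O D stop p,
      (((joins G kl O D).filter P).filter (fun J => sPath G O D stop p J = x)).card := by
    refine Finset.card_eq_sum_card_fiberwise ?_
    intro J hJ
    exact Finset.mem_image_of_mem _ (Finset.mem_filter.1 hJ).1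
  rw [h1]
  refine Finset.sum_congr rfl fun x hx => ?_
  have hx' : ∃ J ∈ joins G kl O D, Fol G O D J p x.1 x.2 := by
    obtain ⟨J0, hJ0, rfl⟩ := Finset.mem_image.1 hx
    exact ⟨J0, hJ0, (sPath_spec (mem_joins.1 hJ0) hO hp stop).1⟩
  rw [joins_path' hp hx']
  congr 1
  ext J
  rw [Finset.mem_filter, Finset.mem_filter, Finset.mem_filter, Finset.mem_filter]
  constructor
  · rintro ⟨⟨h2, h3⟩, h4⟩
    exact ⟨⟨h2, (sPath_eq_iff h2 hO hp hx).1 h4⟩, h3⟩
  · rintro ⟨⟨h2, h3⟩, h4⟩
    exact ⟨⟨h2, h4⟩, (sPath_eq_iff h2 hO hp hx).2 h3⟩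

/-! ### nets -/

/-- the network with the additional killed edges `U` -/
def knet (N : Net V) (L : List ((V × V) × (V × V))) : Net V where
  toTrg := N.toTrg
  kl := N.kl ∪ unc L
  klsym := by
    rintro a b (h | h)
    · exact Or.inl (N.klsym a b h)
    · exact Or.inr (unc_sw L _ h)
  ex := N.ex

theorem knet_exS (N : Net V) (L : List ((V × V) × (V × V))) : (knet N L).exS = N.exS := rfl

theorem knet_tri3 (N : Net V) (L : List ((V × V) × (V × V))) (t : V × V × V) (k : ZMod 3) :
    (knet N L).Tri3 t k = N.Tri3 t k := rfl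

theorem tj_markov (N : Net V) (t : V × V × V) (j : ZMod 3) (stop : V × V → Prop)
    (P : Finset (V × V) → Prop) :
    ((N.tj t).filter P).card =
      ∑ x ∈ stopPaths N.toTrg N.kl (rots t) N.exS stop (N.ex j),
        (((knet N x.1).tj t).filter P).card :=
  card_markov (rotInv_rots t) (mem_exS j) stop P

theorem tri_markov (N : Net V) (t : V × V × V) (j : ZMod 3) (stop : V × V → Prop) (k : ZMod 3) :
    ((N.tj t).filter (N.Tri3 t k)).card =
      ∑ x ∈ stopPaths N.toTrg N.kl (rots t) N.exS stop (N.ex j),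
        (((knet N x.1).tj t).filter ((knet N x.1).Tri3 t k)).card :=
  tj_markov N t j stop _

theorem hj_markov (N : Net V) (a b : V) (j : ZMod 3) (stop : V × V → Prop)
    (P : Finset (V × V) → Prop) :
    ((N.hj a b).filter P).card =
      ∑ x ∈ stopPaths N.toTrg N.kl ∅ (N.exS ∪ {(a, b)}) stop (N.ex j),
        (((knet N x.1).hj a b).filter P).card :=
  card_markov rotInv_empty (Or.inl (mem_exS j)) stop P

theorem cnt_markov (N : Net V) (a b : V) (j k : ZMod 3) (stop : V × V → Prop) :
    N.cnt a b k =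
      ∑ x ∈ stopPaths N.toTrg N.kl ∅ (N.exS ∪ {(a, b)}) stop (N.ex j), (knet N x.1).cnt a b k :=
  hj_markov N a b j stop _

/-- the reduced network of a followed path is again a network on the Delaunay triangulation -/
theorem hnet_knet {S : Finset ℂ} {N : Net ℂ} (h : HNet S N) {O : Set (ℂ × ℂ × ℂ)}
    {D : Set (ℂ × ℂ)} (hD : N.exS ⊆ D) {J : Finset (ℂ × ℂ)} (hJ : IsJoin N.toTrg N.kl O D J)
    {p q : ℂ × ℂ} {L : List ((ℂ × ℂ) × (ℂ × ℂ))} (hp : p ∈ J ∨ sw p ∈ D)
    (hf : Fol N.toTrg O D J p L q) : HNet S (knet N L) where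
  gp := h.gp
  tri := h.tri
  hex := h.hex
  live := by
    rintro k (hk | ⟨a, ha, hk⟩)
    · exact h.live k hk
    · change N.ex k = a.2 ∨ N.ex k = sw a.2 at hk
      rcases hk with hk | hk
      · exact fol_unc hJ hp hf a ha (hD (hk ▸ mem_exS k))
      · -- the uncrossed side has a triangle on its left
        have hpt := fol_pth L p q hf
        have htri : ∀ (L : List ((ℂ × ℂ) × (ℂ × ℂ))) (p q : ℂ × ℂ), Pth N.toTrg p L q →
            ∀ a ∈ L, ∃ c, (a.2.1, a.2.2, c) ∈ N.T := by
          intro L
          induction L with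
          | nil =>
            intro p q _ a ha
            simp at ha
          | cons b L ih =>
            rintro p q ⟨_, m, ⟨c, hc, hm⟩, hrest⟩ a ha
            rcases List.mem_cons.1 ha with rfl | ha
            · rcases hm with ⟨_, hm⟩ | ⟨_, hm⟩
              · exact ⟨p.2, by rw [hm]; exact N.rot (N.rot hc)⟩
              · exact ⟨p.1, by rw [hm]; exact N.rot hc⟩
            · exact ih m q hrest a ha
        obtain ⟨c, hc⟩ := htri L p q hpt a ha
        have hb := (good_of_hnet h).bd k c
        rw [hk] at hb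
        exact hb hc
  ccw := h.ccw

end Crest.Agent.R143.J4x872
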