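import Crest.Agent.R143.Mass_848
import Crest.Agent.R143.J4_872

/-!
# Row 143 (S0194): the hit law (helper848)

`EE N i` = the joins of the two marks `i + 1`, `i + 2`; `sta N i J` = state of the leg of the mark
`i + 2` when the triangle in front of it has, for the first time, its third vertex on the side `i`;
`tch N i J` = this vertex.

* `hit_law` : `mu N i v = P (tch = v)`
* `TT_hit` : **`TT N z = 3 * ∑ i, om ^ i * E [z (tch N i J)]`**
-/

set_option autoImplicit false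

noncomputable section

open scoped Classical

namespace Crest.Agent.R143.Hitx848

open Crest.Agent.R143.B0x346 Crest.Agent.R143.Oscx63 Crest.Agent.R143.Sidesx697
open Crest.Agent.R143.J1x872 (cases_z3 Good om_cube P1 sw sw_sw tj_join)
open Crest.Agent.R143.Bsumx848 Crest.Agent.R143.Massx848 Crest.Agent.R143.DelRx806
open Crest.Agent.R143.J4x872 Crest.Agent.R143.JCardx872
open Crest.Agent.R143.JWalkx872 (Term rotInv_empty rotInv_rots)

section gen

variable {V : Type} {N : Net V}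

/-- the two marks different from `i` -/
def Di (N : Net V) (i : ZMod 3) : Set (V × V) := N.exS \ {N.ex i}

/-- joins of the marks `i + 1` and `i + 2` -/
def EE (N : Net V) (i : ZMod 3) : Finset (Finset (V × V)) := joins N.toTrg N.kl ∅ (Di N i)

/-- the triangle in front of the state `p` has its third vertex on the side `i` -/
def stp (N : Net V) (i : ZMod 3) (p : V × V) : Prop := ∃ c, (p.1, p.2, c) ∈ N.T ∧ Side N i c

/-- the third vertex of the triangle in front of `p` -/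
def apx (N : Net V) (p : V × V) : V := if h : ∃ c, (p.1, p.2, c) ∈ N.T then h.choose else p.1

/-- state at the first touching of the side `i` by the leg of the mark `i + 2` -/
def sta (N : Net V) (i : ZMod 3) (J : Finset (V × V)) : V × V :=
  (sPath N.toTrg ∅ (Di N i) (stp N i) (N.ex (i + 2)) J).2

/-- first touched vertex of the side `i` -/
def tch (N : Net V) (i : ZMod 3) (J : Finset (V × V)) : V := apx N (sta N i J)

theorem apx_eq {p : V × V} {c : V} (h : (p.1, p.2, c) ∈ N.T) : apx N p = c := by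
  have h' : ∃ c, (p.1, p.2, c) ∈ N.T := ⟨c, h⟩
  unfold apx
  rw [dif_pos h']
  exact N.uniq h'.choose_spec h

theorem z3e : ∀ i : ZMod 3, i + 2 ≠ i ∧ i + 1 ≠ i ∧ i + 1 ≠ i + 2 ∧ i + 1 + 1 = i + 2 ∧
    i + 1 + 1 + 1 = i ∧ 1 + (i + 1) = i + 2 ∧ i + 2 + 1 = i := by decide

theorem z3f : ∀ i k : ZMod 3, k ≠ i → k = i + 1 ∨ k = i + 2 := by decide

theorem mem_Di (hg : Good N) {i k : ZMod 3} (h : k ≠ i) : N.ex k ∈ Di N i :=
  ⟨⟨k, rfl⟩, fun h' => h (hg.inj h')⟩

theorem Di_bd (hg : Good N) (i : ZMod 3) (a b : V) (h : (a, b) ∈ Di N i) (c : V) :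
    (b, a, c) ∉ N.T := by
  obtain ⟨⟨k, hk⟩, -⟩ := h
  have := hg.bd k c
  rw [hk] at this
  exact this

theorem exS_bd (hg : Good N) (a b : V) (h : (a, b) ∈ N.exS) (c : V) : (b, a, c) ∉ N.T := by
  obtain ⟨k, hk⟩ := h
  have := hg.bd k c
  rw [hk] at this
  exact this

/-! ### paths and vertices -/

theorem pth_inv {P : V → Prop} : ∀ (L : List ((V × V) × (V × V))) (p q : V × V),
    Pth N.toTrg p L q → P p.1 ∧ P p.2 → (∀ a ∈ L, ∀ c, (a.1.1, a.1.2, c) ∈ N.T → P c) →
    P q.1 ∧ P q.2 := by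
  intro L
  induction L with
  | nil =>
    intro p q h hp _
    change p = q at h
    subst h
    exact hp
  | cons a L ih =>
    rintro p q ⟨h1, m, h2, h3⟩ hp hL
    refine ih m q h3 ?_ (fun b hb => hL b (List.mem_cons_of_mem _ hb))
    obtain ⟨c, hc, h⟩ := h2
    have h4 : P c := hL a (List.mem_cons_self ..) c (by rw [h1]; exact hc)
    rcases h with ⟨rfl, -⟩ | ⟨rfl, -⟩
    · exact ⟨h4, hp.2⟩
    · exact ⟨hp.1, h4⟩

theorem pth_head {G : Trg V} : ∀ (L : List ((V × V) × (V × V))) (m q : V × V),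
    Pth G m L q → m = q ∨ ∃ a ∈ L, a.1 = m
  | [], _, _, h => Or.inl h
  | a :: _, _, _, ⟨h1, _⟩ => Or.inr ⟨a, List.mem_cons_self .., h1⟩

theorem pth_apex {P : V → Prop} : ∀ (L : List ((V × V) × (V × V))) (p q : V × V),
    Pth N.toTrg p L q → P q.1 ∧ P q.2 → (∀ a ∈ L, P a.1.1 ∧ P a.1.2) →
    ∀ a ∈ L, ∀ c, (a.1.1, a.1.2, c) ∈ N.T → P c := by
  intro L
  induction L with
  | nil =>
    intro p q _ _ _ a ha
    simp at ha
  | cons b L ih =>
    rintro p q ⟨h1, m, h2, h3⟩ hq hL a ha c hc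
    rcases List.mem_cons.1 ha with rfl | ha
    · have hm : P m.1 ∧ P m.2 := by
        rcases pth_head L m q h3 with rfl | ⟨b, hb, rfl⟩
        · exact hq
        · exact hL b (List.mem_cons_of_mem _ hb)
      obtain ⟨c', hc', h⟩ := h2
      rw [h1] at hc
      have := N.uniq hc hc'
      subst this
      rcases h with ⟨rfl, -⟩ | ⟨rfl, -⟩
      · exact hm.1
      · exact hm.2
    · exact ih m q h3 hq (fun b hb => hL b (List.mem_cons_of_mem _ hb)) a ha c hc

theorem fol_leads_mem {G : Trg V} {O : Set (V × V × V)} {D : Set (V × V)} {J : Finset (V × V)} :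
    ∀ (L : List ((V × V) × (V × V))) (p q : V × V), Fol G O D J p L q →
      ∀ a ∈ L, Leads G O D J p a.1 := by
  intro L
  induction L with
  | nil =>
    intro p q _ a ha
    simp at ha
  | cons b L ih =>
    rintro p q ⟨h1, m, h2, h3, h4⟩ a ha
    rcases List.mem_cons.1 ha with rfl | ha
    · rw [h1]
      exact Relation.ReflTransGen.refl
    · exact Relation.ReflTransGen.head h3 (ih m q h4 a ha)

/-! ### a pair join touches the side -/

theorem sta_stp (hg : Good N) (hM : Marks3 N) (hC : HasCol N) (hpr : Pairs N) {i : ZMod 3}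
    {J : Finset (V × V)} (hJ : J ∈ EE N i) : stp N i (sta N i J) := by
  have hJ' : IsJoin N.toTrg N.kl ∅ (Di N i) J := mem_joins.1 hJ
  have hp : N.ex (i + 2) ∈ Di N i := mem_Di hg (z3e i).1
  have hS := sPath_spec hJ' rotInv_empty hp (stp N i)
  change Stopped _ _ _ _ _ _ _ (sta N i J) at hS
  obtain ⟨h1, h2, h3⟩ := hS
  have hdis : ∀ {i j : ZMod 3} {v : V}, Side N i v → Side N j v → i = j := fun h1 h2 =>
    side_disj hM hC hpr h1 h2
  rcases h3 with h3 | h3
  · exact h3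
  exfalso
  have h4 := pth_inv (P := fun v => ¬ Side N i v) _ _ _ (fol_pth _ _ _ h1) (by
    constructor
    · intro h5
      have h6 := hM.next (i + 1)
      rw [(z3e i).2.2.2.1] at h6
      exact (z3e i).2.1 (hdis h6 h5)
    · intro h5
      have h6 : Side N (i + 2) (N.ex (i + 2)).2 := Relation.ReflTransGen.refl
      exact (z3e i).1 (hdis h6 h5)) (fun a ha c hc h5 => h2 a ha ⟨c, hc, h5⟩)
  rcases h3 with h3 | ⟨-, c, -, h3⟩
  · obtain ⟨⟨k, hk⟩, hk'⟩ := h3
    have hki : k ≠ i := by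
      rintro rfl
      exact hk' hk.symm
    rcases z3f i k hki with rfl | rfl
    · have h5 := hM.next i
      rw [hk] at h5
      exact h4.2 h5
    · have h5 := fol_leads _ _ _ h1
      have h6 : sta N i J = ((N.ex (i + 2)).2, (N.ex (i + 2)).1) := by
        rw [hk]
      rw [h6] at h5
      exact JWalkx872.not_leads_swap hJ' rotInv_empty (hJ'.mark _ _ hp).1 h5
  · exact h3

theorem tch_side (hg : Good N) (hM : Marks3 N) (hC : HasCol N) (hpr : Pairs N) {i : ZMod 3}
    {J : Finset (V × V)} (hJ : J ∈ EE N i) :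
    ((sta N i J).1, (sta N i J).2, tch N i J) ∈ N.T ∧ Side N i (tch N i J) := by
  obtain ⟨c, hc, h⟩ := sta_stp hg hM hC hpr hJ
  have := apx_eq hc
  unfold tch
  rw [this]
  exact ⟨hc, h⟩

/-! ### three legs from a triangle with a vertex on the side -/

section tri

variable {a b c v : V} {J : Finset (V × V)}

/-- like `pair_join0`, inside `J` -/
theorem pair_join1 (hg : Good N) (ht : (a, b, c) ∈ N.T) (hP : P1 N (a, b, c))
    (hJ : J ∈ N.tj (a, b, c)) {k : ZMod 3} (hT : N.Tri3 (a, b, c) k J) :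
    ∃ J', J' ⊆ J ∧ IsJoin N.toTrg N.kl ∅ (N.exS \ {N.ex k}) J' := by
  by_cases hm : (a, b) ∈ N.exS
  · rw [out_mark hg hT hm]
    exact ⟨_, Finset.erase_subset _ _, erase_mark ht hm (tj_join hJ)⟩
  · obtain ⟨h1, h2⟩ := out_leg hg ht hP hJ hT hm
    have h3 := leg_removed h1 (Or.inr rfl) (Or.inl ⟨k, rfl⟩) h2
    have hm' : (b, a) ∉ N.exS := by
      have := J1x872.sw_sd_notMark hg ht 0
      rw [J1x872.sd0] at this
      exact this
    have e : (N.exS ∪ {(b, a)}) \ {(b, a), N.ex k} = N.exS \ {N.ex k} := by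
      ext p
      simp only [Set.mem_sdiff, Set.mem_union, Set.mem_singleton_iff, Set.mem_insert_iff, not_or]
      constructor
      · rintro ⟨h4 | h4, h5, h6⟩
        · exact ⟨h4, h6⟩
        · exact absurd h4 h5
      · rintro ⟨h4, h5⟩
        exact ⟨Or.inl h4, fun h6 => hm' (h6 ▸ h4), h5⟩
    rw [e] at h3
    exact ⟨_, (Finset.filter_subset _ _).trans (Finset.erase_subset _ _), h3⟩

/-- **the states of a leg of the mark `i + 2` which ends inside have no vertex on the side `i`** -/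
theorem off_side (hM : Marks3 N) (hC : HasCol N) {x : V × V} (hx : x ∉ N.exS) {i : ZMod 3}
    (hJ : IsJoin N.toTrg N.kl ∅ (N.exS ∪ {x}) J)
    (hL : Leads N.toTrg ∅ (N.exS ∪ {x}) J (N.ex (i + 2)) (rev x)) {q : V × V}
    (hq : Leads N.toTrg ∅ (N.exS ∪ {x}) J (N.ex (i + 2)) q) :
    ¬ Side N i q.1 ∧ ¬ Side N i q.2 := by
  have hp : N.ex (i + 2) ∈ N.exS ∪ {x} := Or.inl ⟨_, rfl⟩
  have hJ0 := leg_removed hJ hp (Or.inr rfl) hL
  have hD' : (N.exS ∪ {x}) \ {N.ex (i + 2), x} ⊆ N.exS := by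
    rintro y ⟨h1 | h1, h2⟩
    · exact h1
    · exact absurd (Or.inr h1) h2
  obtain ⟨σ, hσ⟩ := hC _ hD' _ hJ0
  have s1 : ∀ j, σ (N.ex (j + 1)).1 = σ (N.ex j).2 := fun j => col_side hJ0 hD' hσ (hM.next j)
  have s2 : ∀ j, j ≠ i + 2 → σ (N.ex j).1 ≠ σ (N.ex j).2 := by
    intro j hj
    have h3 : ((N.ex j).1, (N.ex j).2) ∈ (N.exS ∪ {x}) \ {N.ex (i + 2), x} := by
      refine ⟨Or.inl ⟨j, rfl⟩, ?_⟩
      rintro (h4 | h4)
      · exact hM.ne j (i + 2) hj h4
      · exact hx (by rw [← (show N.ex j = x from h4)]; exact ⟨j, rfl⟩)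
    have h4 := (hJ0.mark _ _ h3).1
    exact (hσ _ _ (hJ0.sub h4)).2 (Or.inl h4)
  have h1 := s2 (i + 1) (z3e i).2.2.1
  have h2 := s1 i
  have h3 := s1 (i + 1)
  rw [(z3e i).2.2.2.1] at h3
  obtain ⟨h4, h5⟩ := col_leg hJ hp hσ hq
  constructor
  · intro h6
    have h7 := col_side hJ0 hD' hσ h6
    apply h1
    rw [h2, ← h3, ← h4, h7]
  · intro h6
    have h7 := col_side hJ0 hD' hσ h6
    apply h1
    rw [h2, ← h3, ← h5, h7]

theorem tri_path (hg : Good N) (hM : Marks3 N) (hC : HasCol N) (ht : (v, b, c) ∈ N.T)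
    (hP : P1 N (v, b, c)) {i : ZMod 3} (hi : Side N i v) (hJ : J ∈ N.tj (v, b, c))
    (hT : N.Tri3 (v, b, c) (i + 1) J) :
    ∃ L, Fol N.toTrg (rots (v, b, c)) N.exS J (N.ex (i + 2)) L (b, c) ∧
      (∀ a ∈ L, ¬ stp N i a.1) ∧
      ∃ J0 ∈ EE N i, Fol N.toTrg ∅ (Di N i) J0 (N.ex (i + 2)) L (b, c) := by
  have hJ' := tj_join hJ
  have ht1 := N.rot ht
  have ht2 := N.rot ht1
  have hP1 := J1x872.p1_rot _ _ _ hP
  have hP2 := J1x872.p1_rot _ _ _ hP1
  have hJ1 : J ∈ N.tj (b, c, v) := by rw [J1x872.tj_rot]; exact hJ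
  have hJ2 : J ∈ N.tj (c, v, b) := by rw [J1x872.tj_rot]; exact hJ1
  have hT1 : N.Tri3 (b, c, v) (i + 1 + 1) J := (J1x872.tri3_rot _ _ _ _ _).2 hT
  have hT2 : N.Tri3 (c, v, b) (i + 1 + 1 + 1) J := (J1x872.tri3_rot _ _ _ _ _).2 hT1
  rw [(z3e i).2.2.2.1] at hT1
  rw [(z3e i).2.2.2.2.1] at hT2
  have hmem : N.ex (i + 2) ∈ J := (hJ'.mark _ _ ⟨i + 2, rfl⟩).1
  have hrt : (b, c, v) ∈ rots (v, b, c) := by simp [rots]
  -- the leg of the mark comes to `(b, c)`
  have hlead : Leads N.toTrg (rots (v, b, c)) N.exS J (N.ex (i + 2)) (b, c) := by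
    by_cases hm : (b, c) ∈ N.exS
    · rw [out_mark hg hT1 hm]
      exact Relation.ReflTransGen.refl
    · have h1 : (c, b) ∈ J := by
        have h2 := J1x872.sw_mem hg ht1 (tj_join hJ1) (i := 0) (by rw [J1x872.sd0]; exact hT1.1)
          (by rw [J1x872.sd0]; exact hm)
        rw [J1x872.sd0] at h2
        exact h2
      have h2 : Ends N.toTrg (rots (v, b, c)) N.exS J (c, b) (N.ex (1 + (i + 1))) := hT.2.2.2.2.1
      rw [(z3e i).2.2.2.2.2.1] at h2
      exact JWalkx872.leads_rev hJ' (rotInv_rots _) h1 h2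
  have hterm : Term N.toTrg (rots (v, b, c)) N.exS J (b, c) := Or.inr ⟨hT.2.1, v, ht1, hrt⟩
  obtain ⟨n, hn⟩ := JWalkx872.leads_iff_leadsN.1 hlead
  obtain ⟨L, q, hF, -, hq⟩ := exists_stop_of_leads (stop := fun _ => False) hterm n _ hn
  have hq' : q = (b, c) := by
    rcases hq with hq | hq
    · exact hq.elim
    · exact JWalkx872.term_unique hq hterm (fol_leads _ _ _ hF) hlead
  subst hq'
  have hfree := fol_free _ _ _ hF
  have hpth := fol_pth _ _ _ hF
  have hunc := (fol_iff hJ' L _ _ (Or.inl hmem) hpth hfree).1 hF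
  refine ⟨L, hF, ?_, ?_⟩
  · -- no stop before
    by_cases hm : (b, c) ∈ N.exS
    · -- the path is empty
      intro a ha
      exfalso
      cases L with
      | nil => simp at ha
      | cons a' L' =>
        obtain ⟨h1, m, h2, h3, h4⟩ := hF
        rw [out_mark hg hT1 hm] at h3
        exact JWalkx872.term_noStep hterm h3
    · obtain ⟨hK, hKL⟩ := out_leg hg ht1 hP1 hJ1 hT1 hm
      have hm' : (c, b) ∉ N.exS := by
        have := J1x872.sw_sd_notMark hg ht1 0
        rw [J1x872.sd0] at this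
        exact this
      have hfree' : Free N.toTrg ∅ (N.exS ∪ {(c, b)}) L := by
        intro a ha
        refine ⟨?_, fun _ _ h => h⟩
        rintro (h1 | h1)
        · exact (hfree a ha).1 h1
        · have h2 : a.1 = (b, c) := by
            have : sw (sw a.1) = sw (c, b) := by rw [h1]
            rwa [sw_sw] at this
          have h3 := (hfree a ha).2 v
          rw [h2] at h3
          exact h3 ht1 hrt
      have hFK : Fol N.toTrg ∅ (N.exS ∪ {(c, b)}) (J.erase (b, c)) (N.ex (i + 2)) L (b, c) :=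
        (fol_iff hK L _ _ (Or.inl (hK.mark _ _ (Or.inl ⟨i + 2, rfl⟩)).1) hpth hfree').2
          (fun a ha h1 => hunc a ha (Finset.mem_of_mem_erase h1))
      have hLK := fol_leads _ _ _ hFK
      have h5 : ∀ q, Leads N.toTrg ∅ (N.exS ∪ {(c, b)}) (J.erase (b, c)) (N.ex (i + 2)) q →
          ¬ Side N i q.1 ∧ ¬ Side N i q.2 := fun q hq => off_side hM hC hm' hK hLK hq
      intro a ha
      rintro ⟨c', hc', h6⟩
      exact pth_apex (P := fun v => ¬ Side N i v) _ _ _ hpth (h5 _ hLK)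
        (fun a ha => h5 _ (fol_leads_mem _ _ _ hFK a ha)) a ha c' hc' h6
  · obtain ⟨J0, h1, h2⟩ := pair_join1 hg ht2 hP2 hJ2 hT2
    refine ⟨J0, mem_joins.2 h2, ?_⟩
    refine (fol_iff h2 L _ _ (Or.inl (h2.mark _ _ (mem_Di hg (z3e i).1)).1) hpth ?_).2
      (fun a ha h3 => hunc a ha (h1 h3))
    intro a ha
    exact ⟨fun h3 => (hfree a ha).1 h3.1, fun _ _ h => h⟩

/-- number of joins with three legs -/
theorem card_tri (hg : Good N) (hM : Marks3 N) (hC : HasCol N) (ht : (v, b, c) ∈ N.T)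
    (hP : P1 N (v, b, c)) {i : ZMod 3} (hi : Side N i v) :
    ((N.tj (v, b, c)).filter (N.Tri3 (v, b, c) (i + 1))).card ≤
      ((EE N i).filter fun J => sta N i J = (b, c)).card := by
  set A := (N.tj (v, b, c)).filter (N.Tri3 (v, b, c) (i + 1)) with hA
  set Φ : Finset (V × V) → List ((V × V) × (V × V)) × (V × V) :=
    sPath N.toTrg (rots (v, b, c)) N.exS (fun _ => False) (N.ex (i + 2)) with hΦ
  set Ψ : Finset (V × V) → List ((V × V) × (V × V)) × (V × V) :=
    sPath N.toTrg ∅ (Di N i) (stp N i) (N.ex (i + 2)) with hΨ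
  have hstp : stp N i (b, c) := ⟨v, N.rot ht, hi⟩
  have hpm : N.ex (i + 2) ∈ Di N i := mem_Di hg (z3e i).1
  -- one fiber
  have key : ∀ x ∈ A.image Φ, x.2 = (b, c) ∧
      (A.filter (fun J => Φ J = x)).card ≤ ((EE N i).filter fun J => Ψ J = x).card := by
    intro x hx
    obtain ⟨J1, hJ1, rfl⟩ := Finset.mem_image.1 hx
    rw [hA, Finset.mem_filter] at hJ1
    obtain ⟨L, h1, h2, J0, h3, h4⟩ := tri_path hg hM hC ht hP hi hJ1.1 hJ1.2
    have hterm : Term N.toTrg (rots (v, b, c)) N.exS J1 (b, c) :=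
      Or.inr ⟨hJ1.2.2.1, v, N.rot ht, by simp [rots]⟩
    have e1 : Φ J1 = (L, (b, c)) := by
      have h5 := sPath_spec (tj_join hJ1.1) (rotInv_rots _) (⟨i + 2, rfl⟩ : N.ex (i + 2) ∈ N.exS)
        (fun _ => False)
      obtain ⟨h6, h7⟩ := stop_unique _ _ _ _ _ h5 ⟨h1, fun _ _ h => h, Or.inr hterm⟩
      exact Prod.ext h6 h7
    rw [e1]
    refine ⟨rfl, ?_⟩
    have c1 : (A.filter (fun J => Φ J = (L, (b, c)))).card ≤
        (joins N.toTrg (N.kl ∪ unc L) (rots (v, b, c)) N.exS).card := by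
      rw [joins_path' (⟨i + 2, rfl⟩ : N.ex (i + 2) ∈ N.exS) ⟨J1, hJ1.1, h1⟩]
      refine Finset.card_le_card ?_
      intro J hJ
      rw [Finset.mem_filter] at hJ ⊢
      have h8 := (Finset.mem_filter.1 hJ.1).1
      refine ⟨h8, ?_⟩
      have h5 := sPath_spec (tj_join h8) (rotInv_rots _) (⟨i + 2, rfl⟩ : N.ex (i + 2) ∈ N.exS)
        (fun _ => False)
      have h9 := hJ.2
      rw [hΦ] at h9
      rw [h9] at h5
      exact h5.1
    have c2 : (joins N.toTrg (N.kl ∪ unc L) (rots (v, b, c)) N.exS).card =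
        (joins N.toTrg (N.kl ∪ unc L) ∅ ∅).card := by
      refine card_joins_bdry (exS_bd hg) ⟨J1, ?_⟩
      rw [joins_path' (⟨i + 2, rfl⟩ : N.ex (i + 2) ∈ N.exS) ⟨J1, hJ1.1, h1⟩]
      exact Finset.mem_filter.2 ⟨hJ1.1, h1⟩
    have c3 : (joins N.toTrg (N.kl ∪ unc L) ∅ (Di N i)).card =
        (joins N.toTrg (N.kl ∪ unc L) ∅ ∅).card := by
      refine card_joins_bdry (Di_bd hg i) ⟨J0, ?_⟩
      rw [joins_path' hpm ⟨J0, h3, h4⟩]
      exact Finset.mem_filter.2 ⟨h3, h4⟩
    have c4 : (joins N.toTrg (N.kl ∪ unc L) ∅ (Di N i)).card ≤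
        ((EE N i).filter fun J => Ψ J = (L, (b, c))).card := by
      rw [joins_path' hpm ⟨J0, h3, h4⟩]
      refine Finset.card_le_card ?_
      intro J hJ
      rw [Finset.mem_filter] at hJ ⊢
      refine ⟨hJ.1, ?_⟩
      have h5 := sPath_spec (mem_joins.1 hJ.1) rotInv_empty hpm (stp N i)
      obtain ⟨h6, h7⟩ := stop_unique _ _ _ _ _ h5 ⟨hJ.2, h2, Or.inl hstp⟩
      exact Prod.ext h6 h7
    omega
  rw [Finset.card_eq_sum_card_image Φ A]
  refine le_trans (Finset.sum_le_sum fun x hx => (key x hx).2) ?_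
  have h5 : ∑ x ∈ A.image Φ, ((EE N i).filter fun J => Ψ J = x).card =
      ((EE N i).filter fun J => Ψ J ∈ A.image Φ).card := by
    rw [Finset.card_eq_sum_card_fiberwise (f := Ψ) (t := A.image Φ)
      (s := (EE N i).filter fun J => Ψ J ∈ A.image Φ) (fun J hJ => (Finset.mem_filter.1 hJ).2)]
    refine Finset.sum_congr rfl fun x hx => ?_
    congr 1
    ext J
    rw [Finset.mem_filter, Finset.mem_filter, Finset.mem_filter]
    constructor
    · rintro ⟨h6, rfl⟩
      exact ⟨⟨h6, hx⟩, rfl⟩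
    · rintro ⟨⟨h6, -⟩, h7⟩
      exact ⟨h6, h7⟩
  rw [h5]
  refine Finset.card_le_card ?_
  intro J hJ
  rw [Finset.mem_filter] at hJ ⊢
  exact ⟨hJ.1, (key _ hJ.2).1⟩

theorem card_EE (hg : Good N) (hpr : Pairs N) (i : ZMod 3) :
    (EE N i).card = (joins N.toTrg N.kl ∅ ∅).card := by
  obtain ⟨J, hJ⟩ := hpr i
  exact card_joins_bdry (Di_bd hg i) ⟨J, mem_joins.2 hJ⟩

theorem EE_pos (hpr : Pairs N) (i : ZMod 3) : 0 < (EE N i).card := by
  obtain ⟨J, hJ⟩ := hpr i
  exact Finset.card_pos.2 ⟨J, mem_joins.2 hJ⟩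

theorem triA_le (hg : Good N) (hM : Marks3 N) (hC : HasCol N) (hpr : Pairs N)
    (ht : (v, b, c) ∈ N.T) (hP : P1 N (v, b, c)) {i : ZMod 3} (hi : Side N i v) :
    N.triA (v, b, c) (i + 1) ≤
      (((EE N i).filter fun J => sta N i J = (b, c)).card : ℝ) / ((EE N i).card : ℝ) := by
  unfold Net.triA
  rcases Finset.eq_empty_or_nonempty (N.tj (v, b, c)) with he | hne
  · rw [he]
    simp only [Finset.filter_empty, Finset.card_empty, Nat.cast_zero, zero_div]
    positivity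
  · have h1 : (N.tj (v, b, c)).card = (EE N i).card := by
      rw [card_EE hg hpr]
      exact card_joins_bdry (exS_bd hg) hne
    rw [h1]
    exact div_le_div_of_nonneg_right (by exact_mod_cast card_tri hg hM hC ht hP hi)
      (Nat.cast_nonneg _)

theorem mu_le (hg : Good N) (hM : Marks3 N) (hC : HasCol N) (hpr : Pairs N)
    (hP : ∀ t ∈ N.T, P1 N t) {i : ZMod 3} (hi : Side N i v) :
    mu N i v ≤ (((EE N i).filter fun J => tch N i J = v).card : ℝ) / ((EE N i).card : ℝ) := by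
  unfold mu
  have h1 : ∑ t ∈ N.T.filter (fun t => t.1 = v), N.triA t (i + 1) ≤
      ∑ t ∈ N.T.filter (fun t => t.1 = v),
        (((EE N i).filter fun J => sta N i J = t.2).card : ℝ) / ((EE N i).card : ℝ) := by
    refine Finset.sum_le_sum fun t ht => ?_
    rw [Finset.mem_filter] at ht
    obtain ⟨a, b, c⟩ := t
    obtain ⟨ht, rfl⟩ := ht
    exact triA_le hg hM hC hpr ht (hP _ ht) hi
  refine le_trans h1 ?_
  rw [← Finset.sum_div]
  refine div_le_div_of_nonneg_right ?_ (Nat.cast_nonneg _)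
  rw [← Nat.cast_sum, ← Finset.card_biUnion]
  · refine Nat.cast_le.2 (Finset.card_le_card ?_)
    intro J hJ
    rw [Finset.mem_biUnion] at hJ
    obtain ⟨⟨a, b, c⟩, ht, hJ⟩ := hJ
    rw [Finset.mem_filter] at ht hJ ⊢
    obtain ⟨ht, rfl⟩ := ht
    refine ⟨hJ.1, ?_⟩
    unfold tch
    rw [hJ.2]
    exact apx_eq (N.rot ht)
  · rintro ⟨a, b, c⟩ ht ⟨a', b', c'⟩ ht' hne
    rw [Function.onFun, Finset.disjoint_left]
    intro J hJ hJ'
    rw [Finset.mem_coe, Finset.mem_filter] at ht ht'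
    rw [Finset.mem_filter] at hJ hJ'
    apply hne
    have e := hJ.2.symm.trans hJ'.2
    exact Prod.ext (ht.2.trans ht'.2.symm) e

end tri

end gen

/-! ### networks on Delaunay triangulations -/

section hnet

variable {S : Finset ℂ} {N : Net ℂ}

theorem tch_mem (h : HNet S N) (hpr : Pairs N) {i : ZMod 3} {J : Finset (ℂ × ℂ)}
    (hJ : J ∈ EE N i) : tch N i J ∈ (N.T.image fun t => t.1).filter (Side N i) := by
  obtain ⟨h1, h2⟩ := tch_side (J1x872.good_of_hnet h) (marks3_of h) (hasCol h) hpr hJ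
  exact Finset.mem_filter.2 ⟨Finset.mem_image.2 ⟨_, N.rot (N.rot h1), rfl⟩, h2⟩

theorem sum_P (h : HNet S N) (hpr : Pairs N) (i : ZMod 3) :
    ∑ v ∈ (N.T.image fun t => t.1).filter (Side N i),
      (((EE N i).filter fun J => tch N i J = v).card : ℝ) / ((EE N i).card : ℝ) = 1 := by
  rw [← Finset.sum_div, ← Nat.cast_sum, ← Finset.card_eq_sum_card_fiberwise
    (fun J hJ => tch_mem h hpr hJ)]
  have := EE_pos hpr i
  exact div_self (by exact_mod_cast this.ne')

/-- **HIT LAW** -/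
theorem hit_law (h : HNet S N) (hR : ∀ t ∈ N.T, RelAt N t) (hpr : Pairs N) (i : ZMod 3) :
    ∀ v ∈ (N.T.image fun t => t.1).filter (Side N i),
      mu N i v = (((EE N i).filter fun J => tch N i J = v).card : ℝ) / ((EE N i).card : ℝ) := by
  have hP : ∀ t ∈ N.T, J1x872.P1 N t := fun t ht =>
    Rel2x63.p1all N S h t (by rw [← h.tri]; exact ht)
  have h1 : ∀ v ∈ (N.T.image fun t => t.1).filter (Side N i),
      mu N i v ≤ (((EE N i).filter fun J => tch N i J = v).card : ℝ) / ((EE N i).card : ℝ) :=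
    fun v hv => mu_le (J1x872.good_of_hnet h) (marks3_of h) (hasCol h) hpr hP
      (Finset.mem_filter.1 hv).2
  exact (Finset.sum_eq_sum_iff_of_le h1).1 (by rw [mass h hR hpr i, sum_P h hpr i])

/-- expectation of a field at the first touched vertex -/
def avt (N : Net ℂ) (i : ZMod 3) (z : ℂ → ℂ) : ℂ :=
  (∑ J ∈ EE N i, z (tch N i J)) / ((EE N i).card : ℂ)

theorem sum_hit (h : HNet S N) (hR : ∀ t ∈ N.T, RelAt N t) (hpr : Pairs N) (i : ZMod 3)
    (z : ℂ → ℂ) :
    ∑ v ∈ (N.T.image fun t => t.1).filter (Side N i), z v * (mu N i v : ℂ) = avt N i z := by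
  unfold avt
  rw [← Finset.sum_fiberwise_of_maps_to (g := tch N i)
    (t := (N.T.image fun t => t.1).filter (Side N i)) (fun J hJ => tch_mem h hpr hJ), Finset.sum_div]
  refine Finset.sum_congr rfl fun v hv => ?_
  rw [hit_law h hR hpr i v hv]
  have : ∑ J ∈ (EE N i).filter (fun J => tch N i J = v), z (tch N i J) =
      (((EE N i).filter fun J => tch N i J = v).card : ℂ) * z v := by
    rw [Finset.sum_congr rfl (g := fun _ => z v), Finset.sum_const, nsmul_eq_mul]
    intro J hJ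
    rw [(Finset.mem_filter.1 hJ).2]
  rw [this]
  push_cast
  ring

/-- **END POINT FORMULA with the hit law** -/
theorem TT_hit (h : HNet S N) (hR : ∀ t ∈ N.T, RelAt N t)
    (hkl : ∀ a b : ℂ, (a, b) ∈ N.kl → (a, b) ∈ N.E → ∃ i, Side N i a) (hpr : Pairs N)
    (z : ℂ → ℂ) : TT N z = 3 * ∑ i : ZMod 3, omz i * avt N i z := by
  rw [TT_eq h hR hkl z]
  congr 1
  refine Finset.sum_congr rfl fun i _ => ?_
  rw [sum_hit h hR hpr i z]

end hnet

end Crest.Agent.R143.Hitx848
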