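import Crest.Agent.R143.QuS_166
import Crest.Agent.R143.QuT_395

/-!
# Row 143 (S0194), RIG: quenched closing theorem with the frozen object `TS` (helper395)

166's `Ex M σ p N n r W` (R5q, QuS) ⟹ 778's `Ex` (QuF) ⟹ `TS` (QuT).

* `toQ` : 166's `Ex` gives 778's `Ex` for the giants `AA`
* `mu_on_EE`, `r0_mu` : the colourings `mu` (explored / fresh) in 166's language; `glue_mu`
* `close_cb`, `closeM_cb` : the closing identities with 778's coarse block `cb`
* `quenched` : on `rc0 hS`, sum over the fresh colours of the block sum of the root gap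
  `= 2 ^ #cells * (omz (-i) * TS / 3)` + sum of the outer parts
* `quenched_ends` : the touched cells are the hit vertices `hv`
-/

set_option autoImplicit false
set_option linter.unusedSectionVars false

noncomputable section

open scoped Classical

namespace Crest.Agent.R143.R5tx395

open Crest.Agent.R143.B0x346 Crest.Agent.R143.DelGx806 Crest.Agent.R143.DelRx806
  Crest.Agent.R143.JColx54 Crest.Agent.R143.RE0x723
open Crest.Agent.R143.NetUx346 (ff HitO hits exC Ey TS G3 Hex mem_ff mem_hits hv hv_eq sum_hits)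
open Crest.Agent.R143.Frame1x395 Crest.Agent.R143.Frame2x395 Crest.Agent.R143.Frame3x395
  Crest.Agent.R143.Frame4x395 Crest.Agent.R143.Frame8x395 Crest.Agent.R143.Frame9x395
  Crest.Agent.R143.Frame10x395
  Crest.Agent.R143.NonXx592 Crest.Agent.R143.Coarsex166 Crest.Agent.R143.Coarse2x166
  Crest.Agent.R143.C2Sx395 Crest.Agent.R143.C2SBx395 Crest.Agent.R143.C2SCx395
  Crest.Agent.R143.C2SDx395 Crest.Agent.R143.QuTx395
open Crest.Agent.R143.Resax778 (glue)
open Crest.Agent.R143.Flipx166 (lc)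
open Crest.Agent.R143.R5qx166 (AA EE AA_0 AA_1 AA_2 r0 r0_W r0_F tG tA tB)
open Crest.Agent.R143.QuFx778 (mu mt mt_w mt_b mt_free mu_on mu_free cb cb_eq pz cq clsCon Eo mem_Eo)
open Crest.Agent.R143.QuSx166 (kaT kbT Vr Wr fM fM' fa fb)
open Crest.Agent.R143.FinCx811 (Cs rc0 cell_mem)
open Crest.Agent.R143.Frame5x395 (sd mem_sd th th_spec)
open Splx117 (Lp InK gp)

section gen

variable {D C : Type} [Fintype D] [Fintype C] {M : CMap D C} {σ τ : C → ZMod 2} {p : D}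
  {N n r : ℕ} {W : Set C} {i : ZMod 3}

/-- **166's hypotheses give 778's** -/
theorem toQ (X : R5qx166.Ex M σ p N n r W) :
    QuFx778.Ex M (AA M σ p n r W i) i (gp M (cfg M σ) p r) σ where
  gi := X.gi
  root := X.root
  b0 := X.colA.2
  b1 := X.colA.1
  w := fun _ h1 _ h2 h3 => X.bdAd h1 h3 h2

/-- the colouring `mu` extends the explored one -/
theorem mu_on_EE (X : R5qx166.Ex M σ p N n r W) :
    ∀ c ∈ EE M (cfg M σ) p n W, mu (AA M σ p n r W i) σ τ c = σ c := by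
  intro c hc
  have h := (X.not_free (i := i)).2 hc
  unfold Free at h
  push Not at h
  obtain ⟨j, hj⟩ := h
  exact mu_on hj

/-- recoloured -/
theorem r0_mu (X : R5qx166.Ex M σ p N n r W) :
    r0 W (mu (AA M σ p n r W i) σ τ) = mt (AA M σ p n r W i) i τ := by
  funext c
  by_cases hW : c ∈ W
  · rw [r0_W hW, mt_w (by rw [AA_2]; exact hW)]
  · rw [r0_F hW]
    by_cases hf : Free (AA M σ p n r W i) c
    · rw [mu_free hf, mt_free hf]
    · unfold Free at hf
      push Not at hf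
      obtain ⟨j, hj⟩ := hf
      have hj2 : j ≠ i + 2 := by
        rintro rfl
        rw [AA_2] at hj
        exact hW hj
      rw [mu_on hj, mt_b X.gi hj hj2]
      rcases z3c i j with rfl | rfl | rfl
      · exact X.colA.2 _ hj
      · exact X.colA.1 _ hj
      · exact absurd rfl hj2

/-- the explored cells as a finite set -/
theorem glue_mu (X : R5qx166.Ex M σ p N n r W) {O : Finset C}
    (hO : ∀ c, c ∈ O ↔ c ∈ EE M (cfg M σ) p n W) :
    glue O σ τ = mu (AA M σ p n r W i) σ τ := by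
  have : O = Eo (AA M σ p n r W i) := by
    ext c
    rw [hO, mem_Eo, X.not_free]
  rw [this]
  rfl

/-- **closing with 778's coarse block** -/
theorem close_cb (X : R5qx166.Ex M σ p N n r W) {A : Type} [AddCommMonoid A] (f : D → A) :
    ∑ h ∈ blk M (cfg M (mu (AA M σ p n r W i) σ τ)) (gp M (cfg M σ) p r), f h =
      ∑ h ∈ cb M (AA M σ p n r W i) i (gp M (cfg M σ) p r) τ, f h +
        ∑ j ∈ tG M σ (mu (AA M σ p n r W i) σ τ) p n r, f (gp M (cfg M σ) p j) := by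
  rw [cb_eq (X.gi (i := i)), ← r0_mu X]
  exact X.close (hπ := clsCon X.gi) (cq X.gi) (mu_on_EE X) f

variable {T : ℕ → ℕ} {nn m : ℕ} {F : ℕ → Set D}

/-- **closing with the tiles** -/
theorem closeM_cb (X : R5qx166.Ex M σ p N n r W) (h0 : T 0 = 0)
    (hn : T nn = n) (hnn : 0 < nn) (R : Sptx169.Reg M (cfg M σ) p T nn m F) (w : D → ℂ) :
    ∑ h ∈ blk M (cfg M (mu (AA M σ p n r W i) σ τ)) (gp M (cfg M σ) p r), w h =
      ∑ h ∈ cb M (AA M σ p n r W i) i (gp M (cfg M σ) p r) τ, w h +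
      (∑ l ∈ Finset.Ico
          (fa (kaT M (mu (AA M σ p n r W i) σ τ) p n r T nn)
            (kbT M (mu (AA M σ p n r W i) σ τ) p n r T nn))
          (fb (kaT M (mu (AA M σ p n r W i) σ τ) p n r T nn)
            (kbT M (mu (AA M σ p n r W i) σ τ) p n r T nn)), Vr M σ p T nn w F l +
        fM (Wr M σ (mu (AA M σ p n r W i) σ τ) p n r T nn w F) m
          (kaT M (mu (AA M σ p n r W i) σ τ) p n r T nn)
          (kbT M (mu (AA M σ p n r W i) σ τ) p n r T nn) +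
        fM' (Wr M σ (mu (AA M σ p n r W i) σ τ) p n r T nn w F) m
          (kaT M (mu (AA M σ p n r W i) σ τ) p n r T nn)
          (kbT M (mu (AA M σ p n r W i) σ τ) p n r T nn)) := by
  rw [cb_eq (X.gi (i := i)), ← r0_mu X]
  exact X.closeM (hπ := clsCon X.gi) (cq X.gi) h0 hn hnn R (mu_on_EE X) w

end gen

variable {S : Finset ℂ} {hS : GP (S : Set ℂ)} {σ τ : Cs hS → ZMod 2} {p : D0 S}
  {N n r : ℕ} {W : Set (Cs hS)} {i : ZMod 3}

/-- sites of the explored giants -/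
abbrev sg (hS : GP (S : Set ℂ)) (σ : Cs hS → ZMod 2) (p : D0 S) (n r : ℕ) (W : Set (Cs hS))
    (i : ZMod 3) : ZMod 3 → Set ℂ := st (AA (rc0 hS) σ p n r W i)

/-- the hull cell is in the white giant -/
theorem hl_of (hW : ∀ c : Cs hS, ∀ v, OnHull S v → c.1 = Quot.mk (hullE S) v → c ∈ W) :
    Hl (AA (rc0 hS) σ p n r W i) (i + 2) := by
  intro c v hv e
  rw [AA_2]
  exact hW c v hv e

/-- the triangles with a hull vertex are inside the white giant -/
theorem far_of (hF : ∀ d : D0 S, OnHull S d.1.1 → (rc0 hS).cell d ∈ W ∧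
    (rc0 hS).cell ((rc0 hS).rho d) ∈ W ∧ (rc0 hS).cell ((rc0 hS).rho ((rc0 hS).rho d)) ∈ W) :
    Far (AA (rc0 hS) σ p n r W i) (i + 2) := by
  intro d hd
  rw [AA_2]
  exact hF d hd

/-- **QUENCHED IDENTITY** -/
theorem quenched (X : R5qx166.Ex (rc0 hS) σ p N n r W)
    (Hh : Hl (AA (rc0 hS) σ p n r W i) (i + 2)) (Fr : Far (AA (rc0 hS) σ p n r W i) (i + 2))
    (z : ℂ → ℂ) :
    ∑ τ : Cs hS → ZMod 2, ∑ h ∈ blk (rc0 hS) (cfg (rc0 hS) (mu (AA (rc0 hS) σ p n r W i) σ τ))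
        (gp (rc0 hS) (cfg (rc0 hS) σ) p r), zf S z h =
      (Fintype.card (Cs hS → ZMod 2) : ℂ) * (omz (-i) * TS S (sg hS σ p n r W i) z / 3) +
      ∑ τ : Cs hS → ZMod 2, ∑ j ∈ tG (rc0 hS) σ (mu (AA (rc0 hS) σ p n r W i) σ τ) p n r,
        zf S z (gp (rc0 hS) (cfg (rc0 hS) σ) p j) := by
  rw [← fresh_ts (toQ X) Hh Fr z, ← Finset.sum_add_distrib]
  exact Finset.sum_congr rfl fun τ _ => close_cb X (zf S z)

/-- **the touched cells are the hit vertices** -/
theorem quenched_ends (X : R5qx166.Ex (rc0 hS) σ p N n r W)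
    (Hh : Hl (AA (rc0 hS) σ p n r W i) (i + 2)) (Fr : Far (AA (rc0 hS) σ p n r W i) (i + 2))
    (z : ℂ → ℂ) :
    zc hS z (lc (rc0 hS) (cfg (rc0 hS) σ) p
        (tB (rc0 hS) (mu (AA (rc0 hS) σ p n r W i) σ τ) p n r)) =
      z (hv S (sg hS σ p n r W i) i
        (tf (AA (rc0 hS) σ p n r W i) {c | τ c = 1} : Set ℂ)) ∧
    zc hS z (lc (rc0 hS) (cfg (rc0 hS) σ) p
        (tA (rc0 hS) (mu (AA (rc0 hS) σ p n r W i) σ τ) p n r)) =
      z (hv S (sg hS σ p n r W i) (i + 1)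
        (tf (AA (rc0 hS) σ p n r W i) {c | τ c = 1}ᶜ : Set ℂ)) := by
  obtain ⟨h1, h2⟩ := X.yv_eq (cq (X.gi (i := i))) (mu_on_EE (τ := τ) X) (zc hS z)
  have c1 : ∀ c, Free (AA (rc0 hS) σ p n r W i) c →
      (c ∈ {c | mu (AA (rc0 hS) σ p n r W i) σ τ c = 1} ↔ c ∈ {c | τ c = 1}) := by
    intro c hc
    show mu (AA (rc0 hS) σ p n r W i) σ τ c = 1 ↔ τ c = 1
    rw [mu_free hc]
  have c2 : ∀ c, Free (AA (rc0 hS) σ p n r W i) c →
      (c ∈ ({c | mu (AA (rc0 hS) σ p n r W i) σ τ c = 1} : Set (Cs hS))ᶜ ↔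
        c ∈ ({c | τ c = 1} : Set (Cs hS))ᶜ) := fun c hc => not_congr (c1 c hc)
  rw [← h1, ← h2, yv_congr X.gi c1, yv_congr X.gi c2, yv_hv X.gi Hh Fr X.root,
    yv_hv X.gi Hh Fr X.root]
  exact ⟨rfl, rfl⟩

end Crest.Agent.R143.R5tx395
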