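import Crest.Agent.R143.SysS_358
import Crest.Agent.R143.SysC_166
import Crest.Agent.R143.R5t_395
import Crest.Agent.R143.RcT_422
import Crest.Agent.R143.CorEh_829

/-!
# Row 143 (S0194), RIG: `Hl` and `Far` for the white giant of the strand system (helper395)

* `OffH M H B` : the cells of `H` and their neighbours are not in `B`; `face_ext` : then every face
  at a cell of `H` is in `Ext M H Z`, `Z ⊆ B`
* `arc_Rt`, `zc_sub`, `evS_zc` : the cells of a strand in `Rt` are in `Rt`; the blocking set is in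
  `Rt ∪ R`
* `offH_rc` : `rc0 hS`, `H = Hc hS`, `B = RC hS B'` (422): no neighbour of a hull site is in `B'`;
  `offH_dns` : from `Dns S c L d` (829), `B'` in the disc of radius `L - 4 d`
* **`hl_far`** : `Hl`, `Far` for 166's giants `AA`, `W ⊇ Ext`
* **`hl_far_sys`** : for the adapted giants `gA` of a system `Sys`; **`hl_far_evS`** : for the
  strand system `EvS` of 358
* `hf_sys`, **`hf_evS`** : the same as `HF`, the latter from `Dns` and regions of sites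
* **`fresh_ts`** : the field `fresh` of 166's system with `TS`; **`ends_ts`** : sum of the displacements
  over the coarse block, in terms of the hit vertices; `yv_ts` : hit of the closed map = hit vertex
-/

set_option autoImplicit false
set_option linter.unusedSectionVars false

noncomputable section

open scoped Classical

namespace Crest.Agent.R143.HlFarx395

open Crest.Agent.R143.B0x346 Crest.Agent.R143.DelGx806 Crest.Agent.R143.DelRx806
  Crest.Agent.R143.RE0x723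
open Crest.Agent.R143.NetUx346 (ff HitO hits exC Ey TS G3 Hex mem_ff mem_hits hv hv_eq sum_hits)
open Crest.Agent.R143.Frame1x395 Crest.Agent.R143.Frame2x395 Crest.Agent.R143.Frame3x395
  Crest.Agent.R143.Frame4x395 Crest.Agent.R143.Frame8x395 Crest.Agent.R143.Frame9x395
  Crest.Agent.R143.Frame10x395
open Crest.Agent.R143.NonXx592 (P)
open Crest.Agent.R143.Gntx535 (wl wr mem_wl mem_wr)
open Crest.Agent.R143.Extx358 (Ad Ext Bd)
open Crest.Agent.R143.OutSx358 (ac zc coe_ac Sys gA gR ga gr wg rt OO)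
open Crest.Agent.R143.SysSx358 (Bs Lst pS nS EvS Good base_list)
open Crest.Agent.R143.Strandx535 (fc)
open Crest.Agent.R143.R5qx166 (AA EE AA_0 AA_1 AA_2 per tG tA tB)
open Crest.Agent.R143.C2SCx395 (Hl Far st)
open Crest.Agent.R143.C2SDx395 (zf)
open Crest.Agent.R143.QuTx395 (tf)
open Crest.Agent.R143.FinCx811 (Cs rc0)
open Crest.Agent.R143.Frame5x395 (sd mem_sd th th_spec)
open Crest.Agent.R143.RcTx422 (Hc RC Hc_one Hc_eq Hc_RC)
open Crest.Agent.R143.SysCx166 (Vg Vb mx)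

section gen

variable {D C : Type} {M : CMap D C} {H Z B R Rt : Set C}

/-- the cells of `H` and their neighbours are not in `B` -/
def OffH (M : CMap D C) (H B : Set C) : Prop :=
  (∀ c ∈ H, c ∉ B) ∧ ∀ c ∈ H, ∀ c', Ad M c c' → c' ∉ B

theorem OffH.mono {B' : Set C} (h : OffH M H B) (hB : B' ⊆ B) : OffH M H B' :=
  ⟨fun c hc h' => h.1 c hc (hB h'), fun c hc c' ha h' => h.2 c hc c' ha (hB h')⟩

theorem OffH.union {B' : Set C} (h : OffH M H B) (h' : OffH M H B') : OffH M H (B ∪ B') := by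
  refine ⟨fun c hc h1 => ?_, fun c hc c' ha h1 => ?_⟩
  · rcases h1 with h1 | h1
    · exact h.1 c hc h1
    · exact h'.1 c hc h1
  · rcases h1 with h1 | h1
    · exact h.2 c hc c' ha h1
    · exact h'.2 c hc c' ha h1

/-- **a face at a hull cell is in the exterior** -/
theorem face_ext (h : OffH M H Z) {d : D} (hd : M.cell d ∈ H) :
    Ext M H Z (M.cell d) ∧ Ext M H Z (M.cell (M.rho d)) ∧
      Ext M H Z (M.cell (M.rho (M.rho d))) := by
  have e0 : Ext M H Z (M.cell d) := Ext.hull hd (h.1 _ hd)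
  refine ⟨e0, ?_, ?_⟩
  · by_cases hl : d ∈ M.live
    · exact Ext.step e0 ⟨d, hl, rfl, rfl⟩ (h.2 _ hd _ ⟨d, hl, rfl, rfl⟩)
    · rw [← M.dead d hl]; exact e0
  · by_cases hl : M.rho (M.rho d) ∈ M.live
    · have ha : Ad M (M.cell d) (M.cell (M.rho (M.rho d))) :=
        Extx358.Ad.symm ⟨_, hl, rfl, by rw [M.rho3]⟩
      exact Ext.step e0 ha (h.2 _ hd _ ha)
    · rw [M.dead _ hl, M.rho3]; exact e0

variable [Fintype D] [Fintype C] {Q : Set D} {σ τ : C → ZMod 2} {d e : D} {n : ℕ}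
  {X : D → (C → ZMod 2) → Prop}

/-- **the cells of a strand in `Rt` are in `Rt`** -/
theorem arc_Rt (L : Lst M Rt d σ e n) (hd : cfg M σ d = 1) (hn : 0 < n) {c : C}
    (hc : c ∈ ac M e n σ) : c ∈ Rt := by
  have L' := L.move hd L.self
  rw [L'.ac_eq L.occ] at hc
  have h0 := L.inn 0 hn
  exact Strandx535.Sd_sub L.occ h0.1 h0.2.1 hc

/-- the blocking set of a strand in `Rt` -/
theorem zc_sub (L : Lst M Rt d σ e n) (hd : cfg M σ d = 1) (hn : 0 < n) :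
    zc M R e n σ ⊆ Rt ∪ R := by
  rintro c (hc | hc)
  · left
    refine arc_Rt L hd hn ?_
    rw [← Finset.mem_coe, coe_ac]
    exact hc
  · exact Or.inr hc.1

/-- the blocking set of the strand system -/
theorem evS_zc (h : EvS M H R Rt Q X d σ) :
    zc M R (pS M Rt d σ) (nS M Rt d σ) σ ⊆ Rt ∪ R := by
  obtain ⟨r, -, hr⟩ := h.2.1.ink
  exact zc_sub (base_list h.1) h.1.1 (lt_of_le_of_lt (Nat.zero_le _) hr.hi)

end gen

variable {S : Finset ℂ} {hS : GP (S : Set ℂ)}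

/-- the hull cells and their neighbours are off the cells of `B` -/
theorem offH_rc {B : Set ℂ} (h : ∀ v w, OnHull S v → JColx54.Adj S v w → w ∉ B) :
    OffH (rc0 hS) (Hc hS) (RC hS B) := by
  refine ⟨fun c hc => Hc_RC hc, fun c hc c' ha hB => ?_⟩
  obtain ⟨v, hv, e⟩ := hc
  obtain ⟨w, -, hw, hn, e'⟩ := hB
  obtain ⟨d, -, e1, e2⟩ := ha
  have h1 : (Quot.mk (hullE S) d.1.1 : Quot (hullE S)) = Quot.mk _ v := by
    rw [← e, ← e1]
    rfl
  have h2 : (Quot.mk (hullE S) d.1.2 : Quot (hullE S)) = Quot.mk _ w := by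
    rw [← e', ← e2]
    rfl
  have h3 : OnHull S d.1.1 := by
    by_contra hcon
    have h5 : v = d.1.1 := quot_inner hS hcon h1
    exact hcon (h5 ▸ hv)
  have h4 : d.1.2 = w := quot_inner hS hn h2.symm
  refine h d.1.1 w h3 (Or.inl ?_) hw
  rw [← h4]
  exact mem_sd.1 d.2

/-- **from the density of the sites** (829) -/
theorem offH_dns {c : ℂ} {L d : ℝ} (hD : DomAx722.Dns S c L d) {B : Set ℂ}
    (hB : ∀ w ∈ B, ‖w - c‖ < L - 4 * d) : OffH (rc0 hS) (Hc hS) (RC hS B) :=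
  offH_rc fun _ w hv ha hw => absurd (CorEhx829.adj_out hD ha hv) (not_le.2 (hB w hw))

variable {σ τ : Cs hS → ZMod 2} {p : D0 S} {n r : ℕ} {W Z B R Rt : Set (Cs hS)} {i : ZMod 3}
  {H : Set (Cs hS)}

/-- **`Hl` and `Far` for the giants `AA`** -/
theorem hl_far (h : OffH (rc0 hS) (Hc hS) Z) (hW : ∀ c, Ext (rc0 hS) (Hc hS) Z c → c ∈ W) :
    Hl (AA (rc0 hS) σ p n r W i) (i + 2) ∧ Far (AA (rc0 hS) σ p n r W i) (i + 2) := by
  refine ⟨R5tx395.hl_of fun c v hv e => hW c (Ext.hull ⟨v, hv, e⟩ (h.1 c ⟨v, hv, e⟩)),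
    R5tx395.far_of fun d hd => ?_⟩
  obtain ⟨h1, h2, h3⟩ := face_ext (M := rc0 hS) h (d := d) ⟨d.1.1, hd, rfl⟩
  exact ⟨hW _ h1, hW _ h2, hW _ h3⟩

section sys

variable {ι : Type} {Q : Set (D0 S)} {pa : ι → (Cs hS → ZMod 2) → D0 S}
  {na : ι → (Cs hS → ZMod 2) → ℕ} {Ev : ι → (Cs hS → ZMod 2) → Prop} {j : ι} {k : ZMod 3}
  {d₀ : D0 S}

/-- **`Hl` and `Far` for the adapted giants of a system** -/
theorem hl_far_sys (Y : Sys (rc0 hS) (Hc hS) R Q pa na Ev) (h : Ev j σ)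
    (hB : OffH (rc0 hS) (Hc hS) (zc (rc0 hS) R (pa j σ) (na j σ) σ)) :
    Hl (gA (rc0 hS) (Hc hS) R Q pa na Ev k σ) (k + 2) ∧
      Far (gA (rc0 hS) (Hc hS) R Q pa na Ev k σ) (k + 2) := by
  rw [Y.gA_eq k h]
  exact hl_far hB fun c hc => Or.inl (Or.inl hc)

/-- **`Hl` and `Far` for the strand system** -/
theorem hl_far_evS {X : D0 S → (Cs hS → ZMod 2) → Prop}
    (Y : Sys (rc0 hS) (Hc hS) R Q (pS (rc0 hS) Rt) (nS (rc0 hS) Rt)
      (EvS (rc0 hS) (Hc hS) R Rt Q X)) {d : D0 S}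
    (h : EvS (rc0 hS) (Hc hS) R Rt Q X d σ) (hB : OffH (rc0 hS) (Hc hS) (Rt ∪ R)) :
    Hl (gA (rc0 hS) (Hc hS) R Q (pS (rc0 hS) Rt) (nS (rc0 hS) Rt)
      (EvS (rc0 hS) (Hc hS) R Rt Q X) k σ) (k + 2) ∧
      Far (gA (rc0 hS) (Hc hS) R Q (pS (rc0 hS) Rt) (nS (rc0 hS) Rt)
      (EvS (rc0 hS) (Hc hS) R Rt Q X) k σ) (k + 2) :=
  hl_far_sys Y h (hB.mono (evS_zc h))

/-- giants of a good colouring -/
structure HF (A : ZMod 3 → Set (Cs hS)) (k : ZMod 3) : Prop where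
  hl : Hl A (k + 2)
  far : Far A (k + 2)

/-- `HF` for a system, the blocking sets in `B` -/
theorem hf_sys (Y : Sys (rc0 hS) (Hc hS) R Q pa na Ev) (h : Ev j σ)
    (hz : zc (rc0 hS) R (pa j σ) (na j σ) σ ⊆ B) (hB : OffH (rc0 hS) (Hc hS) B) :
    HF (gA (rc0 hS) (Hc hS) R Q pa na Ev k σ) k :=
  ⟨(hl_far_sys Y h (hB.mono hz)).1, (hl_far_sys Y h (hB.mono hz)).2⟩

/-- `HF` for the strand system with regions of sites `Bt`, `Bw`, from the density of the sites -/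
theorem hf_evS {X : D0 S → (Cs hS → ZMod 2) → Prop} {Bt Bw : Set ℂ} {c : ℂ} {L δ : ℝ}
    (Y : Sys (rc0 hS) (Hc hS) (RC hS Bw) Q (pS (rc0 hS) (RC hS Bt)) (nS (rc0 hS) (RC hS Bt))
      (EvS (rc0 hS) (Hc hS) (RC hS Bw) (RC hS Bt) Q X)) {d : D0 S}
    (h : EvS (rc0 hS) (Hc hS) (RC hS Bw) (RC hS Bt) Q X d σ)
    (hD : DomAx722.Dns S c L δ) (ht : ∀ w ∈ Bt, ‖w - c‖ < L - 4 * δ)
    (hw : ∀ w ∈ Bw, ‖w - c‖ < L - 4 * δ) :
    HF (gA (rc0 hS) (Hc hS) (RC hS Bw) Q (pS (rc0 hS) (RC hS Bt)) (nS (rc0 hS) (RC hS Bt))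
      (EvS (rc0 hS) (Hc hS) (RC hS Bw) (RC hS Bt) Q X) k σ) k :=
  hf_sys Y h (evS_zc h) ((offH_dns hD ht).union (offH_dns hD hw))

/-- **field `fresh`, with the frozen `TS`** -/
theorem fresh_ts (Y : Sys (rc0 hS) (Hc hS) R Q pa na Ev) (h : Ev j σ)
    (F : HF (gA (rc0 hS) (Hc hS) R Q pa na Ev k σ) k) (z : ℂ → ℂ) :
    ∑ τ : Cs hS → ZMod 2, Vg (rc0 hS) (Hc hS) R Q pa na Ev k d₀ (zf S z) σ τ =
      (Fintype.card (Cs hS → ZMod 2) : ℂ) *
        (omz (-k) * TS S (st (gA (rc0 hS) (Hc hS) R Q pa na Ev k σ)) z / 3) := by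
  have F1 := F.hl
  have F2 := F.far
  unfold SysCx166.Vg
  rw [Y.gA_eq k h] at F1 F2 ⊢
  rw [Y.gR_eq d₀ h]
  exact QuTx395.fresh_ts (SysCx166.exF (k := k) (Y.ex h)) F1 F2 z

/-- **the touched cells are the hit vertices** -/
theorem ends_ts (Y : Sys (rc0 hS) (Hc hS) R Q pa na Ev) (h : Ev j σ)
    (F : HF (gA (rc0 hS) (Hc hS) R Q pa na Ev k σ) k) (z : ℂ → ℂ) (τ : Cs hS → ZMod 2) :
    ∑ g ∈ QuFx778.cb (rc0 hS) (gA (rc0 hS) (Hc hS) R Q pa na Ev k σ) k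
        (gR (rc0 hS) Q pa na Ev d₀ σ) τ, (z g.1.2 - z g.1.1) =
      z (hv S (st (gA (rc0 hS) (Hc hS) R Q pa na Ev k σ)) (k + 1)
        (tf (gA (rc0 hS) (Hc hS) R Q pa na Ev k σ) {c | τ c = 1}ᶜ : Set ℂ)) -
      z (hv S (st (gA (rc0 hS) (Hc hS) R Q pa na Ev k σ)) k
        (tf (gA (rc0 hS) (Hc hS) R Q pa na Ev k σ) {c | τ c = 1} : Set ℂ)) := by
  have F1 := F.hl
  have F2 := F.far
  rw [Y.gA_eq k h] at F1 F2 ⊢
  rw [Y.gR_eq d₀ h]
  exact QuTx395.cb_ends (SysCx166.exF (k := k) (Y.ex h)) F1 F2 z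

/-- **the hit of the closed map in the system is the hit vertex** : 166's indices `ka`, `kb` are at
the hit vertices -/
theorem yv_ts (Y : Sys (rc0 hS) (Hc hS) R Q pa na Ev) (h : Ev j σ)
    (F : HF (gA (rc0 hS) (Hc hS) R Q pa na Ev k σ) k) (z : ℂ → ℂ) (l : ZMod 3)
    (T : Set (Cs hS)) :
    C2SBx395.yv (rc0 hS) (gA (rc0 hS) (Hc hS) R Q pa na Ev k σ) l T (C2SDx395.zc hS z) =
      z (hv S (st (gA (rc0 hS) (Hc hS) R Q pa na Ev k σ)) l
        (tf (gA (rc0 hS) (Hc hS) R Q pa na Ev k σ) T : Set ℂ)) := by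
  have F1 := F.hl
  have F2 := F.far
  rw [Y.gA_eq k h] at F1 F2 ⊢
  have X := SysCx166.exF (k := k) (Y.ex h)
  exact QuTx395.yv_hv X.gi F1 F2 X.root T z

end sys

end Crest.Agent.R143.HlFarx395
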