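import Crest.Agent.R143.Hq_304
import Crest.Agent.R143.PthG_765

/-!
# Row 143 (S0194), CORE-C, RIG: the windows of the fine path (helper304)

`Hqx304.Wnd` for 765's path (228's `FPath`): the window of the tile `a l` is `p l, .., q l` (tubes),
`p l + 1, .., q l` (gates), `p l < a l < q l`, `q l ≤ p l + m`; the regions `D l` are within `ρ' < ρ - d`
of `RR A B h W (a l)`, `A + B + ρ ≤ h`. `m0 = (min c 1) ^ (m + 1) (E A) ^ m`, squares of side `2 h`.
* `wnd_path`; `univ_N`, `univ_reg` : all the gates and tubes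
-/

set_option autoImplicit false

noncomputable section

namespace Crest.Agent.R143.HqPx304

open MeasureTheory Set
open Crest.ProbabilityR.Voronoi
open Crest.Agent.R143.PP0x831 Crest.Agent.R143.PWx978 Crest.Agent.R143.Tplx978
open Crest.Agent.R143.TileRx228 Crest.Agent.R143.PthFx765 Crest.Agent.R143.Hqx304
open Crest.Agent.R143.SumScx302 (sq)
open Crest.Agent.R143.Janx304 (iso)
open scoped ENNReal

variable {M : ℕ} {W : ℤ → ℤ × ℤ} {A B h ε : ℝ} {Ty : Type*} {T : Tpl ε Ty} {tu : Ty → Tn}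

/-- the constant of a window with at most `m + 1` tubes and `m` gates -/
def mm (T : Tpl ε Ty) (m : ℕ) : ℝ≥0∞ :=
  (min T.c 1) ^ (m + 1) * (∫⁻ ω, T.A (cfg ε ω) ∂sampleLaw) ^ m

theorem mm_ne (m : ℕ) (hA : ∫⁻ ω, T.A (cfg ε ω) ∂sampleLaw ≠ 0) : mm T m ≠ 0 := by
  refine mul_ne_zero (pow_ne_zero _ ?_) (pow_ne_zero _ hA)
  intro h
  rcases min_eq_bot.1 h with h1 | h1
  · exact T.c0 h1
  · exact one_ne_zero h1

/-- tubes of the window -/
def Jw (M : ℕ) [DecidableEq (ZMod M)] (p q : ℤ) : Finset (ZMod M) :=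
  (Finset.Icc p q).image fun j : ℤ => (j : ZMod M)

/-- gates of the window -/
def Iw (M : ℕ) [DecidableEq (ZMod M)] (p q : ℤ) : Finset (ZMod M) :=
  (Finset.Icc (p + 1) q).image fun j : ℤ => (j : ZMod M)

variable [DecidableEq (ZMod M)]

theorem Iw_sub (p q : ℤ) : Iw M p q ⊆ Jw M p q :=
  Finset.image_subset_image (Finset.Icc_subset_Icc (by omega) le_rfl)

theorem mem_Jw {p q j : ℤ} (h1 : p ≤ j) (h2 : j ≤ q) : ((j : ℤ) : ZMod M) ∈ Jw M p q :=
  Finset.mem_image_of_mem _ (Finset.mem_Icc.2 ⟨h1, h2⟩)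

theorem mem_Iw {p q j : ℤ} (h1 : p < j) (h2 : j ≤ q) : ((j : ℤ) : ZMod M) ∈ Iw M p q :=
  Finset.mem_image_of_mem _ (Finset.mem_Icc.2 ⟨by omega, h2⟩)

theorem card_Jw {p q : ℤ} {m : ℕ} (h : q ≤ p + m) : (Jw M p q).card ≤ m + 1 := by
  refine Finset.card_image_le.trans ?_
  rw [Int.card_Icc]
  omega

theorem card_Iw {p q : ℤ} {m : ℕ} (h : q ≤ p + m) : (Iw M p q).card ≤ m := by
  refine Finset.card_image_le.trans ?_
  rw [Int.card_Icc]
  omega

/-- a ball in a square -/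
theorem ball_sq (z : ℂ) (L : ℝ) : Metric.ball z L ⊆ sq (z - ⟨L, L⟩) (2 * L) := by
  intro w hw
  rw [Metric.mem_ball, dist_eq_norm] at hw
  have h1 := (Complex.abs_re_le_norm (w - z)).trans_lt hw
  have h2 := (Complex.abs_im_le_norm (w - z)).trans_lt hw
  rw [Complex.sub_re, abs_lt] at h1
  rw [Complex.sub_im, abs_lt] at h2
  obtain ⟨a1, a2⟩ := h1
  obtain ⟨a3, a4⟩ := h2
  refine ⟨?_, ?_, ?_, ?_⟩
  · rw [Complex.sub_re]; simp only; linarith
  · rw [Complex.sub_re]; simp only; linarith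
  · rw [Complex.sub_im]; simp only; linarith
  · rw [Complex.sub_im]; simp only; linarith

omit [DecidableEq (ZMod M)] in
/-- the tile is in a ball -/
theorem RR_ball (P : FPath M W) (hAB : A ≤ B) (a : ℤ) :
    RR A B h W a ⊆ Metric.ball (cen h W a) (A + B) := by
  intro s hs
  obtain ⟨v, hv, -, hs⟩ := mem_RR P hs
  rw [mem_arm hv] at hs
  obtain ⟨⟨h1, h2⟩, h3⟩ := hs
  rw [Metric.mem_ball, dist_eq_norm]
  have h4 := Complex.norm_le_abs_re_add_abs_im (s - cen h W a)
  set x := (s - cen h W a).re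
  set y := (s - cen h W a).im
  refine lt_of_le_of_lt h4 ?_
  have h5 : |(v.1 : ℝ) * x + v.2 * y| < B := abs_lt.2 ⟨by linarith, h2⟩
  have h6 : |x| + |y| = |(v.1 : ℝ) * x + v.2 * y| + |(v.1 : ℝ) * y - v.2 * x| := by
    rcases hv with rfl | rfl | rfl | rfl
    · simp
    · simp [add_comm]
    · simp
    · simp [add_comm]
  rw [h6]
  linarith

section path

variable (P : FPath M W) (H : Std T A B h tu) {ty : ZMod M → Ty} (hty : Typ W tu ty)

/-- **the regions off the window are far from the tile** -/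
theorem far_win (I J : Finset (ZMod M)) {p q a : ℤ} (hp : p < a) (hq : a < q) {ρ : ℝ}
    (hρ : 0 ≤ ρ) (hh : A + B + ρ ≤ h) :
    Disjoint ((pth P H ty hty).net.reg (I \ Iw M p q) (J \ Jw M p q))
      (Metric.thickening ρ (RR A B h W a)) := by
  rw [Set.disjoint_left]
  intro s hs ht
  obtain ⟨t, ht, hst⟩ := Metric.mem_thickening_iff.1 ht
  rw [dist_eq_norm] at hst
  have hB : B ≤ h := H.hB
  rcases hs with hs | hs
  · obtain ⟨i, hi, hs⟩ := mem_iUnion₂.1 hs
    have hi' := (Finset.mem_sdiff.1 hi).2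
    have hs' : s ∈ PthFx765.GB A B h W (zc i) := by
      have := net_B P H hty (zc i)
      rw [zc_cast] at this
      rwa [this] at hs
    have h1 : ¬ (M : ℤ) ∣ zc i - a := by
      intro hd
      apply hi'
      have := cast_dvd hd
      rw [zc_cast] at this
      rw [this]
      exact mem_Iw hp (by omega)
    have h2 : ¬ (M : ℤ) ∣ zc i - (a + 1) := by
      intro hd
      apply hi'
      have := cast_dvd hd
      rw [zc_cast] at this
      rw [this]
      exact mem_Iw (by omega) (by omega)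
    have h3 : s ∈ RR A B h W (zc i - 1) := by
      refine PthFx765.GB_sub' P H.hA hB (zc i - 1) ?_
      rwa [sub_add_cancel]
    have h4 := win_gap P H.hA H.hAB hρ hh h1 h2 h3 (PthFx765.GB_sub P H.hA hB (zc i) hs') ht
    linarith
  · obtain ⟨k, hk, hs⟩ := mem_iUnion₂.1 hs
    have hk' := (Finset.mem_sdiff.1 hk).2
    have hs' : s ∈ PthFx765.TB A B h W (zc k) := by
      have := net_C P H hty (zc k)
      rw [zc_cast] at this
      rwa [this] at hs
    have key : ∀ e : ℤ, p ≤ a + e → a + e ≤ q → ¬ (M : ℤ) ∣ zc k - (a + e) := by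
      intro e he1 he2 hd
      apply hk'
      have := cast_dvd hd
      rw [zc_cast] at this
      rw [this]
      exact mem_Jw he1 he2
    have h0 : ¬ (M : ℤ) ∣ zc k - a := by
      have := key 0 (by omega) (by omega)
      rwa [add_zero] at this
    have h1 := key 1 (by omega) (by omega)
    have h2 : ¬ (M : ℤ) ∣ zc k - (a - 1) := key (-1) (by omega) (by omega)
    have h3 := gap P H.hA H.hAB hρ hh h0 h1 h2 ht hs'.1
    rw [norm_sub_rev] at h3
    linarith

/-- the mass of a window -/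
theorem mass_win {p q : ℤ} {m : ℕ} (hm : q ≤ p + m) :
    mm T m ≤ (pth P H ty hty).net.c ^ (Jw M p q).card *
      ∏ i ∈ Iw M p q, ∫⁻ ω, (pth P H ty hty).net.a i (cfg ε ω) ∂sampleLaw := by
  have hA1 : ∫⁻ ω, T.A (cfg ε ω) ∂sampleLaw ≤ 1 := Win.A_le T
  have h3 : ∀ i, ∫⁻ ω, (pth P H ty hty).net.a i (cfg ε ω) ∂sampleLaw =
      ∫⁻ ω, T.A (cfg ε ω) ∂sampleLaw := by
    intro i
    exact iso ε T.eps T.Q T.Qm T.Qb ((pth P H ty hty).fr i).e.symm
      (((pth P H ty hty).fr i).mp.symm ((pth P H ty hty).fr i).e)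
      (((pth P H ty hty).fr i).bdd' _ T.Qb) T.A T.Al T.Am
  rw [Finset.prod_congr rfl fun i _ => h3 i, Finset.prod_const]
  unfold mm
  refine mul_le_mul' ?_ (pow_le_pow_right_of_le_one' hA1 (card_Iw (M := M) hm))
  refine (pow_le_pow_right_of_le_one' (min_le_right _ _) (card_Jw (M := M) hm)).trans ?_
  exact pow_le_pow_left' (min_le_left _ _) _

/-- **THE WINDOWS OF THE FINE PATH** -/
theorem wnd_path {I J : Finset (ZMod M)} (hN : ∀ k ∈ J, k ∈ I ∧ k + 1 ∈ I) {n : ℕ}
    {a p q : ℕ → ℤ} {m : ℕ} (hp : ∀ l < n, p l < a l) (hq : ∀ l < n, a l < q l)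
    (hm : ∀ l < n, q l ≤ p l + m) (hI : ∀ l < n, Iw M (p l) (q l) ⊆ I)
    (hJ : ∀ l < n, Jw M (p l) (q l) ⊆ J) {D : ℕ → Set ℂ} {d ρ' ρ : ℝ}
    (hDm : ∀ l < n, MeasurableSet (D l))
    (hD : ∀ l < n, ∀ o ∈ D l, ∃ t ∈ RR A B h W (a l), ‖o - t‖ < ρ') (hρ : ρ' + d ≤ ρ) (hρ0 : 0 ≤ ρ)
    (hh : A + B + ρ ≤ h) (hε : ε ≤ 2 * h) {X : Set ℂ} (hX : MeasurableSet X)
    (hXb : Bornology.IsBounded X) (hreg : (pth P H ty hty).net.reg I J ⊆ X)
    (hXW : ∀ l < n, Metric.thickening ρ (RR A B h W (a l)) ⊆ X)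
    (hA : ∫⁻ ω, T.A (cfg ε ω) ∂sampleLaw ≠ 0) :
    Wnd (pth P H ty hty).net I J n (fun l => Iw M (p l) (q l)) (fun l => Jw M (p l) (q l)) D d
      (2 * h) X (mm T m) where
  Bm := hX
  Bb := hXb
  reg := hreg
  es := hε
  hN := Win.hN_of hN
  hI := hI
  hJ := hJ
  hN₁ := by
    intro l hl k hk i hi
    obtain ⟨hk1, hk2⟩ := Finset.mem_sdiff.1 hk
    rw [net_N, Finset.mem_insert, Finset.mem_singleton] at hi
    rw [Finset.mem_sdiff]
    rcases hi with rfl | rfl
    · exact ⟨(hN i hk1).1, fun h => hk2 (Iw_sub _ _ h)⟩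
    · refine ⟨(hN k hk1).2, fun h => hk2 ?_⟩
      obtain ⟨j, hj, hjk⟩ := Finset.mem_image.1 h
      have hj' := Finset.mem_Icc.1 hj
      have : k = ((j - 1 : ℤ) : ZMod M) := by
        push_cast
        rw [hjk]
        ring
      rw [this]
      exact mem_Jw (by omega) (by omega)
  Dm := hDm
  W := by
    intro l hl
    refine ⟨cen h W (a l) - ⟨h, h⟩, Metric.thickening ρ (RR A B h W (a l)),
      Metric.isOpen_thickening.measurableSet, hXW l hl, ?_, ?_,
      far_win P H hty I J (hp l hl) (hq l hl) hρ0 hh⟩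
    · refine Subset.trans ?_ (ball_sq _ _)
      intro s hs
      obtain ⟨t, ht, hst⟩ := Metric.mem_thickening_iff.1 hs
      have h1 := RR_ball P H.hAB (a l) ht
      rw [Metric.mem_ball] at h1 ⊢
      have h2 := dist_triangle s t (cen h W (a l))
      linarith
    · intro o ho s hs
      obtain ⟨t, ht, hot⟩ := hD l hl o ho
      rw [Metric.mem_closedBall] at hs
      refine Metric.mem_thickening_iff.2 ⟨t, ht, ?_⟩
      rw [← dist_eq_norm] at hot
      have h2 := dist_triangle s o t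
      linarith
  pos := mm_ne m hA
  mass := fun l hl => mass_win P H hty (hm l hl)

end path

end Crest.Agent.R143.HqPx304
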