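import Crest.Agent.R143.K33D_877

/-!
# Row 143 (S0194), CONT (K7): a valid labelled polygon or a small centre (helper313, after 359)

Abstract form (sites and chains only): `Rng` = spokes `y k` round a connected free region with
labels `l k` (territory classes), room chains, ring chains and 755's SEP.

* `Cf S A B c` : the free cluster of `c` in `B`; `See` ; `ctr_of_see` : a free cluster which sees
  the three classes is a centre (`CtrX`)
* `ctr_range` : spokes `k .. k'` which carry the three labels inside a ball: centre in the ball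
* `hsc` : radius chains to three sites `a j ∈ A j`: EITHER all three labels occur OR there is a
  centre inside `closedBall (a b) (14 r)`
* `interval` : every label is one cyclic interval
* `valid` : EITHER a centre inside a ball of radius `R` OR all labels occur, each of them is one
  interval, and every range of spokes with three labels has diameter `≥ R - 2 r`
-/

set_option autoImplicit false

noncomputable section

open scoped Classical

namespace Crest.Agent.R143.Hscx313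

open Set Metric
open Crest.Agent.R143.B0x346 Crest.Agent.R143.DelGx806 Crest.Agent.R143.DelRx806
  Crest.Agent.R143.JColx54 Crest.Agent.R143.RE0x723 Crest.Agent.R143.K33x877

variable {S : Finset ℂ} {A A' : ZMod 3 → Set ℂ} {B B' W V : Set ℂ} {c x y z : ℂ} {i j : ZMod 3}

/-! ### free clusters -/

/-- the free cluster of `c` in `B` -/
def Cf (S : Finset ℂ) (A : ZMod 3 → Set ℂ) (B : Set ℂ) (c : ℂ) : Set ℂ :=
  {z | Pth S (fr S A ∩ B) c z}

/-- the free cluster of `c` in `B` is adjacent to the class `i` -/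
def See (S : Finset ℂ) (A : ZMod 3 → Set ℂ) (B : Set ℂ) (c : ℂ) (i : ZMod 3) : Prop :=
  ∃ x, Pth S (fr S A ∩ B) c x ∧ ∃ a ∈ A i, Adj S x a

theorem Cf.sub : Cf S A B c ⊆ B := fun _ h => (Pth.snd h).2

theorem ctr_of_see (h : ∀ i, See S A B c i) : CtrX S A (Cf S A B c) := by
  refine ⟨fun i => ?_, ?_, ?_⟩
  · rw [Set.disjoint_left]
    intro v hv hv'
    exact (Pth.snd hv).1.2 i hv'
  · intro x hx y hy
    have key : ∀ z, Pth S (fr S A ∩ B) c z → Pth S (Cf S A B c) c z := by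
      intro z hz
      have h1 := hz.symm.self
      refine h1.symm.mono ?_
      intro v hv
      exact hv.2.symm
    exact (key x hx).symm.trans (key y hy)
  · intro i
    obtain ⟨x, hx, a, ha, hxa⟩ := h i
    exact ⟨x, hx, a, ha, hxa⟩

/-- a chain to the class `i` whose sites are free or in the class `i` -/
theorem see_of_pth (hc : Pth S (fr S A ∩ B) c x) (h : Pth S W x z) (hWB : W ⊆ B)
    (hW : ∀ v ∈ W, v ∈ fr S A ∨ v ∈ A i) (hz : z ∈ A i) : See S A B c i := by
  have hx : x ∈ fr S A := (Pth.snd hc).1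
  obtain ⟨u, v, h1, h2, h3, h4⟩ := h.exit (Q := fun w => w ∈ fr S A) hx (fun h' => h'.2 i hz)
  refine ⟨u, hc.trans (h1.mono ?_), v, (hW v h3).resolve_left h4, h2⟩
  intro w hw
  exact ⟨hw.2, hWB hw.1⟩

theorem See.mono (h : See S A B c i) (hB : B ⊆ B') : See S A B' c i := by
  obtain ⟨x, hx, a, ha, hxa⟩ := h
  exact ⟨x, hx.mono (Set.inter_subset_inter_right _ hB), a, ha, hxa⟩

theorem See.trans (h : See S A B c i) (h' : Pth S (fr S A ∩ B) z c) : See S A B z i := by
  obtain ⟨x, hx, a, ha, hxa⟩ := h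
  exact ⟨x, h'.trans hx, a, ha, hxa⟩

/-! ### spokes -/

/-- spokes `y k` round the free region `V`, labels `l k`, room chains, ring chains, SEP -/
structure Rng (S : Finset ℂ) (A A' : ZMod 3 → Set ℂ) (V O : Set ℂ) (N : ℕ) (y c : ℕ → ℂ)
    (l : ℕ → ZMod 3) (r : ℝ) : Prop where
  tr : Tr S A
  N0 : 0 < N
  r0 : 0 ≤ r
  per : ∀ k, y (k + N) = y k
  perc : ∀ k, c (k + N) = c k
  perl : ∀ k, l (k + N) = l k
  free : V ⊆ fr S A
  sub : ∀ i, A i ⊆ A' i
  off : ∀ i, A' i ⊆ O
  disj : ∀ i j, i ≠ j → Disjoint (A' i) (A' j)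
  con : ∀ i, ∀ x ∈ A' i, ∀ y ∈ A' i, Pth S (A' i) x y
  step : ∀ k, ‖y (k + 1) - y k‖ ≤ r
  spoke : ∀ k, ∃ x, Pth S (V ∩ closedBall (y k) r) (c k) x ∧ Adj S x (y k)
  ring : ∀ k, Pth S (V ∩ closedBall (y k) r) (c k) (c (k + 1))
  room : ∀ k, ∃ a ∈ A (l k), Pth S (A' (l k) ∩ closedBall (y k) r) (y k) a
  sep : ∀ X Y : Set ℂ, X ⊆ O → Y ⊆ O → Disjoint X Y → ∀ k1 k2 k3 k4 : ℕ, k1 < k2 → k2 < k3 →
    k3 < k4 → k4 < k1 + N → Pth S X (y k1) (y k3) → Pth S Y (y k2) (y k4) →
    (∃ f f', (hullE S f f' ∨ hullE S f' f) ∧ Pth S Y (y k2) f) → False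

section rng

variable {O : Set ℂ} {N : ℕ} {y c : ℕ → ℂ} {l : ℕ → ZMod 3} {r : ℝ}

theorem Rng.yA (h : Rng S A A' V O N y c l r) (k : ℕ) : y k ∈ A' (l k) := by
  obtain ⟨a, -, ha⟩ := h.room k
  exact ha.1.1

theorem Rng.per_mul (h : Rng S A A' V O N y c l r) (k m : ℕ) :
    y (k + m * N) = y k ∧ c (k + m * N) = c k ∧ l (k + m * N) = l k := by
  induction m with
  | zero => simp
  | succ m ih =>
    have e : k + (m + 1) * N = (k + m * N) + N := by ring
    rw [e, h.per, h.perc, h.perl]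
    exact ih

theorem Rng.per_mod (h : Rng S A A' V O N y c l r) {k m : ℕ} (hkm : k % N = m % N) :
    y k = y m ∧ c k = c m ∧ l k = l m := by
  have h1 := h.per_mul (k % N) (k / N)
  have h2 := h.per_mul (m % N) (m / N)
  rw [mul_comm, Nat.mod_add_div] at h1 h2
  rw [h1.1, h1.2.1, h1.2.2, h2.1, h2.2.1, h2.2.2, hkm]
  exact ⟨rfl, rfl, rfl⟩

/-- consecutive ring chains -/
theorem Rng.ring_range (h : Rng S A A' V O N y c l r) {k k' : ℕ} (hk : k ≤ k') {z : ℂ} {R : ℝ}
    (hR : ∀ m, k ≤ m → m < k' → ‖y m - z‖ ≤ R - r) (hk0 : c k ∈ closedBall z R) :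
    Pth S (V ∩ closedBall z R) (c k) (c k') := by
  induction k', hk using Nat.le_induction with
  | base => exact Pth.refl ⟨(h.ring k).1.1, hk0⟩
  | succ m hm ih =>
    refine (ih fun q h1 h2 => hR q h1 (by omega)).trans ((h.ring m).mono ?_)
    intro v hv
    refine ⟨hv.1, ?_⟩
    have h1 := mem_closedBall_iff_norm.1 hv.2
    have h2 := hR m hm (by omega)
    rw [mem_closedBall_iff_norm]
    have : v - z = (v - y m) + (y m - z) := by ring
    rw [this]
    linarith [norm_add_le (v - y m) (y m - z)]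

/-- the ring sees the class of a spoke -/
theorem Rng.see_spoke (h : Rng S A A' V O N y c l r) {k : ℕ} {z : ℂ} {R : ℝ}
    (hk : ‖y k - z‖ ≤ R - r) : See S A (closedBall z R) (c k) (l k) := by
  have hb : closedBall (y k) r ⊆ closedBall z R := by
    intro v hv
    rw [mem_closedBall_iff_norm] at hv ⊢
    have : v - z = (v - y k) + (y k - z) := by ring
    rw [this]
    linarith [norm_add_le (v - y k) (y k - z)]
  obtain ⟨x, hx, hxy⟩ := h.spoke k
  obtain ⟨a, ha, hya⟩ := h.room k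
  have hx' : Pth S (fr S A ∩ closedBall z R) (c k) x :=
    hx.mono fun v hv => ⟨h.free hv.1, hb hv.2⟩
  by_cases hy : y k ∈ fr S A
  · refine see_of_pth (hx'.tail hxy ⟨hy, hb ?_⟩) hya (fun v hv => hb hv.2) ?_ ha
    · rw [mem_closedBall_iff_norm, sub_self, norm_zero]; exact h.r0
    · intro v hv
      by_cases hv' : v ∈ fr S A
      · exact Or.inl hv'
      · right
        have hvS : v ∈ S := by
          rcases (h.con _ v hv.1 a (h.sub _ ha)) with hp
          by_cases hva : v = a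
          · rw [hva]; exact h.tr.sub _ ha
          · obtain ⟨u, w, h1, h2, -⟩ := hp.exit (Q := fun w => w = v) rfl (fun e => hva e.symm)
            have : u = v := (Pth.snd h1).2
            rw [this] at h2
            exact h2.mem.1
        have : ∃ j, v ∈ A j := by
          by_contra hcon
          push Not at hcon
          exact hv' ⟨hvS, hcon⟩
        obtain ⟨j, hj⟩ := this
        by_cases hji : j = l k
        · rwa [hji] at hj
        · exact absurd hv.1 (Set.disjoint_left.1 (h.disj j (l k) hji) (h.sub j hj))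
  · have : ∃ j, y k ∈ A j := by
      by_contra hcon
      push Not at hcon
      exact hy ⟨hxy.mem.2, hcon⟩
    obtain ⟨j, hj⟩ := this
    have hjl : j = l k := by
      by_contra hne
      exact Set.disjoint_left.1 (h.disj j (l k) hne) (h.sub j hj) (h.yA k)
    rw [hjl] at hj
    exact ⟨x, hx', y k, hj, hxy⟩

/-- spokes `k .. k'` inside a ball which carry the three labels: a centre inside the ball -/
theorem Rng.ctr_range (h : Rng S A A' V O N y c l r) {k k' : ℕ} {z : ℂ} {R : ℝ}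
    (hR : ∀ m, k ≤ m → m ≤ k' → ‖y m - z‖ ≤ R - r) (hl : ∀ i, ∃ m, k ≤ m ∧ m ≤ k' ∧ l m = i) :
    CtrX S A (Cf S A (closedBall z R) (c k)) := by
  refine ctr_of_see fun i => ?_
  obtain ⟨m, h1, h2, rfl⟩ := hl i
  have hck : c k ∈ closedBall z R := by
    have h3 := mem_closedBall_iff_norm.1 (h.ring k).1.2
    have h4 := hR k le_rfl (by omega)
    rw [mem_closedBall_iff_norm]
    have : c k - z = (c k - y k) + (y k - z) := by ring
    rw [this]
    linarith [norm_add_le (c k - y k) (y k - z)]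
  refine (h.see_spoke (hR m h1 h2)).trans ?_
  refine (h.ring_range h1 (fun q h5 h6 => hR q h5 (by omega)) hck).mono fun v hv => ?_
  exact ⟨h.free hv.1, hv.2⟩

/-- radius chain: connected set `T` off `V` from the spoke `kk` to the site `a` of the class `j` -/
structure Rad (S : Finset ℂ) (A : ZMod 3 → Set ℂ) (O : Set ℂ) (y : ℕ → ℂ) (r : ℝ) (j : ZMod 3)
    (a : ℂ) (kk : ℕ) (T : Set ℂ) : Prop where
  mem : a ∈ A j
  off : T ⊆ O
  cls : ∀ v ∈ T, v ∈ fr S A ∨ v ∈ A j
  con : ∀ u ∈ T, ∀ v ∈ T, Pth S T u v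
  yk : y kk ∈ T
  aT : a ∈ T
  ball : T ⊆ closedBall a r

/-- a connected set `T` of free sites and of sites of the class `j` adjacent to the cluster -/
theorem see_of_T {T : Set ℂ} {c0 x w a : ℂ} (hc : Pth S (fr S A ∩ B) c0 x) (hxw : Adj S x w)
    (hw : w ∈ T) (con : ∀ u ∈ T, ∀ v ∈ T, Pth S T u v)
    (cls : ∀ v ∈ T, v ∈ fr S A ∨ v ∈ A j) (ha : a ∈ A j) (haT : a ∈ T) (hTB : T ⊆ B) :
    See S A B c0 j := by
  rcases cls w hw with h1 | h1
  · exact see_of_pth (hc.tail hxw ⟨h1, hTB hw⟩) (con w hw a haT) hTB cls ha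
  · exact ⟨x, hc, w, h1, hxw⟩

theorem exists_rep {N : ℕ} (hN : 0 < N) (k m : ℕ) : ∃ q, m ≤ q ∧ q < m + N ∧ q % N = k % N := by
  induction m with
  | zero => exact ⟨k % N, by omega, by simpa using Nat.mod_lt k hN, Nat.mod_mod k N⟩
  | succ m ih =>
    obtain ⟨q, h1, h2, h3⟩ := ih
    by_cases hq : q = m
    · exact ⟨q + N, by omega, by omega, by rw [Nat.add_mod_right]; exact h3⟩
    · exact ⟨q, by omega, by omega, h3⟩

theorem exists_up {P : ℕ → Prop} {K0 k : ℕ} (h : P k) (hk : K0 < k) :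
    ∃ m, K0 < m ∧ m ≤ k ∧ P m ∧ ∀ q, K0 < q → q < m → ¬ P q := by
  classical
  have hex : ∃ m, K0 < m ∧ P m := ⟨k, hk, h⟩
  refine ⟨Nat.find hex, (Nat.find_spec hex).1, Nat.find_min' hex ⟨hk, h⟩, (Nat.find_spec hex).2, ?_⟩
  intro q h1 h2 h3
  exact Nat.find_min hex h2 ⟨h1, h3⟩

theorem exists_down {P : ℕ → Prop} {K0 k : ℕ} (h : P k) (hk : k < K0) :
    ∃ m, m < K0 ∧ k ≤ m ∧ P m ∧ ∀ q, m < q → q < K0 → ¬ P q := by
  induction K0 with
  | zero => omega
  | succ K ih =>
    by_cases hK : P K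
    · exact ⟨K, by omega, by omega, hK, fun q h1 h2 => by omega⟩
    · have hkK : k < K := by
        rcases Nat.lt_or_ge k K with h1 | h1
        · exact h1
        · have : k = K := by omega
          exact absurd (this ▸ h) hK
      obtain ⟨m, h1, h2, h3, h4⟩ := ih hkK
      refine ⟨m, by omega, h2, h3, fun q h5 h6 => ?_⟩
      by_cases hq : q = K
      · rw [hq]; exact hK
      · exact h4 q h5 (by omega)

theorem adj_hull {p q : ℂ} (h : hullE S p q ∨ hullE S q p) : Adj S p q := by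
  rcases h with h | h
  · exact Or.inl h.1
  · exact Or.inr h.1

theorem third : ∀ b i : ZMod 3, i ≠ b → ∃ j : ZMod 3, j ≠ i ∧ j ≠ b ∧
    ∀ q, q = i ∨ q = b ∨ q = j := by decide

/-- the free room chain of the spoke `k` -/
def Rm (S : Finset ℂ) (A A' : ZMod 3 → Set ℂ) (y : ℕ → ℂ) (l : ℕ → ZMod 3) (r : ℝ) (k : ℕ) :
    Set ℂ := {v | Pth S (fr S A ∩ (A' (l k) ∩ closedBall (y k) r)) (y k) v}

theorem Rng.rm_end (h : Rng S A A' V O N y c l r) {X : Set ℂ} {k : ℕ} {i : ZMod 3}
    (hl : l k = i) (hX : A i ⊆ X) (hR : Rm S A A' y l r k ⊆ X) :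
    ∃ a ∈ A i, Pth S X (y k) a := by
  subst hl
  obtain ⟨a, ha, hp⟩ := h.room k
  have hS : ∀ v, v ∈ A' (l k) → v ∈ S := by
    intro v hv
    have hp := h.con _ v hv a (h.sub _ ha)
    by_cases hva : v = a
    · rw [hva]; exact h.tr.sub _ ha
    · obtain ⟨u, w, h1, h2, -⟩ := hp.exit (Q := fun w => w = v) rfl (fun e => hva e.symm)
      have : u = v := (Pth.snd h1).2
      rw [this] at h2
      exact h2.mem.1
  have hA : ∀ v, v ∈ A' (l k) → v ∉ fr S A → v ∈ A (l k) := by
    intro v hv hv'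
    have : ∃ j, v ∈ A j := by
      by_contra hcon
      push Not at hcon
      exact hv' ⟨hS v hv, hcon⟩
    obtain ⟨j, hj⟩ := this
    by_cases hji : j = l k
    · rwa [hji] at hj
    · exact absurd hv (Set.disjoint_left.1 (h.disj j (l k) hji) (h.sub j hj))
  by_cases hy : y k ∈ fr S A
  · obtain ⟨u, v, h1, h2, h3, h4⟩ := hp.exit (Q := fun w => w ∈ fr S A) hy
      (fun h' => h'.2 _ ha)
    have hv : v ∈ A (l k) := hA v h3.1 h4
    refine ⟨v, hv, ?_⟩
    have h5 : Pth S (fr S A ∩ (A' (l k) ∩ closedBall (y k) r)) (y k) u :=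
      h1.mono fun w hw => ⟨hw.2, hw.1⟩
    have h6 : Pth S (Rm S A A' y l r k) (y k) u := by
      refine h5.symm.self.symm.mono ?_
      intro w hw
      exact hw.2.symm
    exact (h6.mono hR).tail h2 (hX hv)
  · exact ⟨y k, hA _ (h.yA k) hy, Pth.refl (hX (hA _ (h.yA k) hy))⟩

/-- **HSC** (359): the radius chains lead to the three classes: all labels occur or there is a
small centre -/
theorem Rng.hsc (h : Rng S A A' V O N y c l r) {a : ZMod 3 → ℂ} {kk : ZMod 3 → ℕ}
    {T : ZMod 3 → Set ℂ} (hT : ∀ j, Rad S A O y r j (a j) (kk j) (T j))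
    (far : ∀ j, ∃ k, 2 * r < ‖y k - a j‖) :
    (∀ b, ∃ k, l k = b) ∨ ∃ b c', CtrX S A (Cf S A (closedBall (a b) (6 * r)) c') := by
  by_contra hcon
  push Not at hcon
  obtain ⟨⟨b, hb⟩, hctr⟩ := hcon
  have hr := h.r0
  have hN := h.N0
  obtain ⟨K0, hK0⟩ : ∃ K0, K0 = kk b + N := ⟨_, rfl⟩
  have yK0 : y K0 = y (kk b) := by rw [hK0]; exact h.per _
  have nearK0 : ‖y K0 - a b‖ ≤ r := by
    rw [yK0]
    exact mem_closedBall_iff_norm.1 ((hT b).ball (hT b).yk)
  obtain ⟨kf, hkf⟩ := far b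
  obtain ⟨k1, a1, a2, a3⟩ := exists_rep hN kf (K0 + 1)
  have fk1 : 2 * r < ‖y k1 - a b‖ := by rw [(h.per_mod a3).1]; exact hkf
  obtain ⟨kr, r1, r2, r3, r4⟩ := exists_up (P := fun k => 2 * r < ‖y k - a b‖) fk1
    (show K0 < k1 by omega)
  obtain ⟨k2, b1, b2, b3⟩ := exists_rep hN kf (kk b)
  have fk2 : 2 * r < ‖y k2 - a b‖ := by rw [(h.per_mod b3).1]; exact hkf
  have hk2 : k2 ≠ kk b := by
    rintro rfl
    rw [yK0] at nearK0
    linarith
  obtain ⟨kl, l1, l2, l3, l4⟩ := exists_down (P := fun k => 2 * r < ‖y k - a b‖) fk2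
    (show k2 < K0 by omega)
  have hkl : kk b < kl := by omega
  have hrl : kr ≤ kl + N := by
    by_contra hlt
    push Not at hlt
    refine r4 (kl + N) (by omega) hlt ?_
    rw [h.per]
    exact l3
  -- all the spokes between are near
  have near : ∀ m, kl ≤ m → m ≤ kr → ‖y m - a b‖ ≤ 3 * r := by
    have near2 : ∀ m, kl < m → m < kr → ‖y m - a b‖ ≤ 2 * r := by
      intro m h1 h2
      rcases Nat.lt_trichotomy m K0 with h3 | h3 | h3
      · exact not_lt.1 (l4 m h1 h3)
      · rw [h3]; linarith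
      · exact not_lt.1 (r4 m h3 h2)
    intro m h1 h2
    rcases eq_or_lt_of_le h1 with h3 | h3
    · subst h3
      have h4 := near2 (kl + 1) (by omega) (by omega)
      have h5 := h.step kl
      have : y kl - a b = (y (kl + 1) - a b) - (y (kl + 1) - y kl) := by ring
      rw [this]
      linarith [norm_sub_le (y (kl + 1) - a b) (y (kl + 1) - y kl)]
    rcases eq_or_lt_of_le h2 with h4 | h4
    · subst h4
      obtain ⟨q, rfl⟩ : ∃ q, m = q + 1 := ⟨m - 1, by omega⟩
      have h4 := near2 q (by omega) (by omega)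
      have h5 := h.step q
      have : y (q + 1) - a b = (y q - a b) + (y (q + 1) - y q) := by ring
      rw [this]
      linarith [norm_add_le (y q - a b) (y (q + 1) - y q)]
    · linarith [near2 m h3 h4]
  -- the base point sees every spoke of the range
  have base : ∀ m, kl ≤ m → m ≤ kr →
      Pth S (fr S A ∩ closedBall (a b) (6 * r)) (c kl) (c m) := by
    intro m h1 h2
    have hck : c kl ∈ closedBall (a b) (6 * r) := by
      have h3 := mem_closedBall_iff_norm.1 (h.ring kl).1.2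
      have h4 := near kl le_rfl (by omega)
      rw [mem_closedBall_iff_norm]
      have : c kl - a b = (c kl - y kl) + (y kl - a b) := by ring
      rw [this]
      linarith [norm_add_le (c kl - y kl) (y kl - a b)]
    refine (h.ring_range h1 (fun q h5 h6 => ?_) hck).mono fun v hv => ⟨h.free hv.1, hv.2⟩
    linarith [near q h5 (by omega)]
  have seeL : ∀ m, kl ≤ m → m ≤ kr → See S A (closedBall (a b) (6 * r)) (c kl) (l m) := by
    intro m h1 h2
    exact (h.see_spoke (by linarith [near m h1 h2])).trans (base m h1 h2)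
  -- free chain from the base point to a neighbour of the spoke site
  have toY : ∀ m, kl ≤ m → m ≤ kr → ∃ x, Pth S (fr S A ∩ closedBall (a b) (6 * r)) (c kl) x ∧
      Adj S x (y m) := by
    intro m h1 h2
    obtain ⟨x, hx, hxy⟩ := h.spoke m
    refine ⟨x, (base m h1 h2).trans (hx.mono fun v hv => ⟨h.free hv.1, ?_⟩), hxy⟩
    have h3 := mem_closedBall_iff_norm.1 hv.2
    have h4 := near m h1 h2
    rw [mem_closedBall_iff_norm]
    have : v - a b = (v - y m) + (y m - a b) := by ring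
    rw [this]
    linarith [norm_add_le (v - y m) (y m - a b)]
  have seeB : See S A (closedBall (a b) (6 * r)) (c kl) b := by
    obtain ⟨x, hx, hxy⟩ := toY K0 (by omega) (by omega)
    refine see_of_T hx hxy (by rw [yK0]; exact (hT b).yk) (hT b).con (hT b).cls (hT b).mem
      (hT b).aT ((hT b).ball.trans (closedBall_subset_closedBall (by linarith)))
  have hlK := hb K0
  obtain ⟨i, hi⟩ : ∃ i, l K0 = i := ⟨_, rfl⟩
  have hib : i ≠ b := hi ▸ hlK
  obtain ⟨j, hji, hjb, hall⟩ := third b i hib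
  -- the class `j` is not seen
  have seeJ : ¬ See S A (closedBall (a b) (6 * r)) (c kl) j := by
    intro hj
    refine hctr b (c kl) (ctr_of_see fun q => ?_)
    rcases hall q with rfl | rfl | rfl
    · have := seeL K0 (by omega) (by omega)
      rwa [hi] at this
    · exact seeB
    · exact hj
  have hlab : ∀ m, kl ≤ m → m ≤ kr → l m = i := by
    intro m h1 h2
    rcases hall (l m) with h3 | h3 | h3
    · exact h3
    · exact absurd h3 (hb m)
    · exact absurd (h3 ▸ seeL m h1 h2) seeJ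
  -- the spoke of `T j`
  obtain ⟨k4, c1, c2, c3⟩ := exists_rep hN (kk j) kl
  have yk4 : y k4 = y (kk j) := (h.per_mod c3).1
  have hTj := hT j
  have ballJ : ∀ z ∈ T j, ‖z - a b‖ ≤ 4 * r → T j ⊆ closedBall (a b) (6 * r) := by
    intro z hz hz' v hv
    have h1 := mem_closedBall_iff_norm.1 (hTj.ball hz)
    have h2 := mem_closedBall_iff_norm.1 (hTj.ball hv)
    rw [mem_closedBall_iff_norm]
    have : v - a b = (v - a j) - (z - a j) + (z - a b) := by ring
    rw [this]
    linarith [norm_add_le ((v - a j) - (z - a j)) (z - a b), norm_sub_le (v - a j) (z - a j)]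
  have hk4 : kr < k4 := by
    by_contra hlt
    push Not at hlt
    apply seeJ
    obtain ⟨x, hx, hxy⟩ := toY k4 c1 hlt
    rw [yk4] at hxy
    have h5 := near k4 c1 hlt
    rw [yk4] at h5
    exact see_of_T hx hxy hTj.yk hTj.con hTj.cls hTj.mem hTj.aT (ballJ _ hTj.yk (by linarith))
  -- `T j` does not meet the room chains
  have dT : ∀ m, kl ≤ m → m ≤ kr → ∀ z ∈ T j, z ∉ Rm S A A' y l r m := by
    intro m h1 h2 z hz hzR
    apply seeJ
    obtain ⟨x, hx, hxy⟩ := toY m h1 h2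
    have h5 := near m h1 h2
    have hin : ∀ v ∈ fr S A ∩ (A' (l m) ∩ closedBall (y m) r),
        v ∈ fr S A ∩ closedBall (a b) (6 * r) := by
      intro v hv
      refine ⟨hv.1, ?_⟩
      have h6 := mem_closedBall_iff_norm.1 hv.2.2
      rw [mem_closedBall_iff_norm]
      have : v - a b = (v - y m) + (y m - a b) := by ring
      rw [this]
      linarith [norm_add_le (v - y m) (y m - a b)]
    have h6 : Pth S (fr S A ∩ closedBall (a b) (6 * r)) (c kl) z :=
      (hx.tail hxy (hin _ hzR.1)).trans (hzR.mono hin)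
    have h7 : ‖z - a b‖ ≤ 4 * r := by
      have h8 := mem_closedBall_iff_norm.1 (Pth.snd hzR).2.2
      have : z - a b = (z - y m) + (y m - a b) := by ring
      rw [this]
      linarith [norm_add_le (z - y m) (y m - a b)]
    exact see_of_pth h6 (hTj.con z hz _ hTj.aT) (ballJ z hz h7) hTj.cls hTj.mem
  -- `T b` does not meet the room chains of the ends
  have dB : ∀ m, 2 * r < ‖y m - a b‖ → ∀ z ∈ T b, z ∉ Rm S A A' y l r m := by
    intro m h1 z hz hzR
    have h2 := mem_closedBall_iff_norm.1 ((hT b).ball hz)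
    have h3 := mem_closedBall_iff_norm.1 (Pth.snd hzR).2.2
    have : y m - a b = (z - a b) - (z - y m) := by ring
    rw [this] at h1
    linarith [norm_sub_le (z - a b) (z - y m)]
  -- the two sets
  obtain ⟨X, hX⟩ : ∃ X, X = A i ∪ Rm S A A' y l r kl ∪ Rm S A A' y l r kr := ⟨_, rfl⟩
  obtain ⟨Y, hY⟩ : ∃ Y, Y = (A b ∪ T b) ∪ (A j ∪ T j) := ⟨_, rfl⟩
  have rmA : ∀ m, Rm S A A' y l r m ⊆ A' (l m) := fun m v hv => (Pth.snd hv).2.1
  have rmF : ∀ m, Rm S A A' y l r m ⊆ fr S A := fun m v hv => (Pth.snd hv).1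
  have XO : X ⊆ O := by
    rw [hX]
    rintro v ((hv | hv) | hv)
    · exact h.off _ (h.sub _ hv)
    · exact h.off _ (rmA _ hv)
    · exact h.off _ (rmA _ hv)
  have YO : Y ⊆ O := by
    rw [hY]
    rintro v ((hv | hv) | (hv | hv))
    · exact h.off _ (h.sub _ hv)
    · exact (hT b).off hv
    · exact h.off _ (h.sub _ hv)
    · exact hTj.off hv
  have XY : Disjoint X Y := by
    rw [Set.disjoint_left, hX, hY]
    have hT' : ∀ q, q ≠ i → ∀ v ∈ T q, v ∉ A i := by
      intro q hq v hv hvi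
      rcases (hT q).cls v hv with h1 | h1
      · exact h1.2 i hvi
      · exact Set.disjoint_left.1 (h.tr.disj i q (Ne.symm hq)) hvi h1
    rintro v ((hv | hv) | hv) ((hv' | hv') | (hv' | hv'))
    · exact Set.disjoint_left.1 (h.tr.disj i b hib) hv hv'
    · exact hT' b (Ne.symm hib) v hv' hv
    · exact Set.disjoint_left.1 (h.tr.disj i j (Ne.symm hji)) hv hv'
    · exact hT' j hji v hv' hv
    · exact (rmF _ hv).2 b hv'
    · exact dB kl l3 v hv' hv
    · exact (rmF _ hv).2 j hv'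
    · exact dT kl le_rfl (by omega) v hv' hv
    · exact (rmF _ hv).2 b hv'
    · exact dB kr r3 v hv' hv
    · exact (rmF _ hv).2 j hv'
    · exact dT kr (by omega) le_rfl v hv' hv
  have pX : Pth S X (y kl) (y kr) := by
    have hAX : A i ⊆ X := by rw [hX]; exact fun v hv => Or.inl (Or.inl hv)
    obtain ⟨p, hp, pp⟩ := h.rm_end (hlab kl le_rfl (by omega)) hAX
      (by rw [hX]; exact fun v hv => Or.inl (Or.inr hv))
    obtain ⟨q, hq, pq⟩ := h.rm_end (hlab kr (by omega) le_rfl) hAX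
      (by rw [hX]; exact fun v hv => Or.inr hv)
    exact (pp.trans ((h.tr.con i p hp q hq).mono hAX)).trans pq.symm
  obtain ⟨p, q, hpq, hp, hq, -⟩ := h.tr.one b j (Ne.symm hjb)
  have yb : Pth S Y (y K0) p := by
    rw [yK0]
    refine (((hT b).con _ (hT b).yk _ (hT b).aT).mono ?_).trans
      ((h.tr.con b _ (hT b).mem p hp).mono ?_)
    · rw [hY]; exact fun v hv => Or.inl (Or.inr hv)
    · rw [hY]; exact fun v hv => Or.inl (Or.inl hv)
  have yj : Pth S Y q (y k4) := by
    rw [yk4]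
    refine ((h.tr.con j q hq _ hTj.mem).mono ?_).trans ((hTj.con _ hTj.aT _ hTj.yk).mono ?_)
    · rw [hY]; exact fun v hv => Or.inr (Or.inl hv)
    · rw [hY]; exact fun v hv => Or.inr (Or.inr hv)
  have pY : Pth S Y (y K0) (y k4) := (yb.tail (adj_hull hpq) yj.1).trans yj
  exact h.sep X Y XO YO XY kl K0 kr k4 l1 r1 hk4 c2 pX pY ⟨p, q, hpq, yb⟩

/-! ### the labels form three intervals -/

/-- **every label is one cyclic interval** -/
theorem Rng.interval (h : Rng S A A' V O N y c l r) {k1 k2 k3 k4 : ℕ} (h12 : k1 < k2)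
    (h23 : k2 < k3) (h34 : k3 < k4) (h41 : k4 < k1 + N) (e : l k3 = l k1) (n2 : l k2 ≠ l k1)
    (n4 : l k4 ≠ l k1) : False := by
  obtain ⟨b, hb⟩ : ∃ b, l k1 = b := ⟨_, rfl⟩
  obtain ⟨i, hi⟩ : ∃ i, l k2 = i := ⟨_, rfl⟩
  rw [hb] at e n2 n4
  have hib : i ≠ b := hi ▸ n2
  obtain ⟨j, hji, hjb, hall⟩ := third b i hib
  obtain ⟨p, q, hpq, hp, hq, -⟩ := h.tr.one i j (Ne.symm hji)
  have hYi : A' i ⊆ A' i ∪ A' j := Set.subset_union_left
  have hYj : A' j ⊆ A' i ∪ A' j := Set.subset_union_right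
  have hp' : p ∈ A' i := h.sub i hp
  have hq' : q ∈ A' j := h.sub j hq
  have y2 : y k2 ∈ A' i := hi ▸ h.yA k2
  have hpq' : Pth S (A' i ∪ A' j) p q := Pth.single (hYi hp') (adj_hull hpq) (hYj hq')
  have p2 : Pth S (A' i ∪ A' j) (y k2) p := (h.con i _ y2 p hp').mono hYi
  have p4 : Pth S (A' i ∪ A' j) (y k2) (y k4) := by
    rcases hall (l k4) with h4 | h4 | h4
    · exact (h.con i _ y2 _ (h4 ▸ h.yA k4)).mono hYi
    · exact absurd h4 n4
    · exact (p2.trans hpq').trans ((h.con j q hq' _ (h4 ▸ h.yA k4)).mono hYj)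
  refine h.sep (A' b) (A' i ∪ A' j) (h.off b) (Set.union_subset (h.off i) (h.off j)) ?_ k1 k2 k3 k4
    h12 h23 h34 h41 (h.con b _ (hb ▸ h.yA k1) _ (e ▸ h.yA k3)) p4 ⟨p, q, hpq, p2⟩
  rw [Set.disjoint_union_right]
  exact ⟨h.disj b i (Ne.symm hib), h.disj b j (Ne.symm hjb)⟩

/-- **three marks**: if the three labels occur, they are three consecutive intervals -/
theorem Rng.marks (h : Rng S A A' V O N y c l r) (hl : ∀ b, ∃ k, l k = b) :
    ∃ (m0 m1 m2 : ℕ) (b1 b2 : ZMod 3), m0 < m1 ∧ m1 < m2 ∧ m2 < m0 + N ∧ b1 ≠ 0 ∧ b2 ≠ 0 ∧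
      b2 ≠ b1 ∧ (∀ k, m0 ≤ k → k < m1 → l k = 0) ∧ (∀ k, m1 ≤ k → k < m2 → l k = b1) ∧
      (∀ k, m2 ≤ k → k < m0 + N → l k = b2) := by
  have hN := h.N0
  obtain ⟨K, hK⟩ := hl 1
  have hK0 : l K ≠ 0 := by rw [hK]; decide
  obtain ⟨k0, hk0⟩ := hl 0
  obtain ⟨q0, q1, q2, q3⟩ := exists_rep hN k0 (K + 1)
  obtain ⟨m0, a1, a2, a3, a4⟩ := exists_up (P := fun k => l k = 0) (k := q0)
    (by show l q0 = 0; rw [(h.per_mod q3).2.2]; exact hk0) (show K < q0 by omega)
  obtain ⟨p0, rfl⟩ : ∃ p0, m0 = p0 + 1 := ⟨m0 - 1, by omega⟩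
  have hp0 : l p0 ≠ 0 := by
    rcases Nat.lt_or_ge K p0 with h1 | h1
    · exact a4 p0 h1 (by omega)
    · have : p0 = K := by omega
      rw [this]; exact hK0
  have hpN : l (p0 + N) ≠ 0 := by rw [h.perl]; exact hp0
  have hlast : p0 + 1 < p0 + N := by
    by_contra hlt
    push Not at hlt
    have hN1 : N = 1 := by omega
    rw [hN1] at hpN
    exact hpN a3
  obtain ⟨m1, b1', b2', b3', b4'⟩ := exists_up (P := fun k => l k ≠ 0) hpN hlast
  have hm1 : ∀ k, p0 + 1 ≤ k → k < m1 → l k = 0 := by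
    intro k h1 h2
    rcases eq_or_lt_of_le h1 with h3 | h3
    · rw [← h3]; exact a3
    · exact not_not.1 (b4' k h3 h2)
  have hfull : l (p0 + 1 + N) ≠ l m1 := by
    rw [h.perl]
    have a3' : l (p0 + 1) = 0 := a3
    rw [a3']
    exact fun e => b3' e.symm
  obtain ⟨m2, c1, c2, c3, c4⟩ := exists_up (P := fun k => l k ≠ l m1) hfull
    (show m1 < p0 + 1 + N by omega)
  have hm2 : ∀ k, m1 ≤ k → k < m2 → l k = l m1 := by
    intro k h1 h2
    rcases eq_or_lt_of_le h1 with h3 | h3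
    · rw [← h3]
    · exact not_not.1 (c4 k h3 h2)
  have hm2N : m2 < p0 + 1 + N := by
    rcases eq_or_lt_of_le c2 with h1 | h1
    · exfalso
      obtain ⟨j, hj1, hj2, -⟩ := third 0 (l m1) b3'
      obtain ⟨k, hk⟩ := hl j
      obtain ⟨t, t1, t2, t3⟩ := exists_rep hN k (p0 + 1)
      have ht : l t = j := by rw [(h.per_mod t3).2.2]; exact hk
      rcases Nat.lt_or_ge t m1 with h2 | h2
      · rw [hm1 t t1 h2] at ht; exact hj2 ht.symm
      · rw [hm2 t h2 (by omega)] at ht; exact hj1 ht.symm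
    · exact h1
  have c3' : l m2 ≠ l m1 := c3
  have hm20 : l m2 ≠ 0 := by
    intro h0
    have hne : m2 ≠ p0 + N := by
      rintro rfl
      exact hpN h0
    exact h.interval (k1 := p0 + 1) (k2 := m1) (k3 := m2) (k4 := p0 + N) (by omega) c1 (by omega)
      (by omega) (by rw [h0]; exact a3.symm) (by rw [show l (p0 + 1) = 0 from a3]; exact b3')
      (by rw [show l (p0 + 1) = 0 from a3]; exact hpN)
  refine ⟨p0 + 1, m1, m2, l m1, l m2, by omega, c1, hm2N, b3', hm20, c3', hm1, hm2, ?_⟩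
  intro k h1 h2
  by_contra hne
  have hk2 : m2 ≠ k := by rintro rfl; exact hne rfl
  obtain ⟨j, -, -, hall⟩ := third 0 (l m1) b3'
  have hj : l m2 = j := by
    rcases hall (l m2) with h3 | h3 | h3
    · exact absurd h3 c3'
    · exact absurd h3 hm20
    · exact h3
  rw [← hj] at hall
  rcases hall (l k) with h3 | h3 | h3
  · exact h.interval (k1 := m1) (k2 := m2) (k3 := k) (k4 := p0 + 1 + N) c1 (by omega) (by omega)
      (by omega) h3 c3' hfull
  · have hne : k ≠ p0 + N := by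
      rintro rfl
      exact hpN h3
    exact h.interval (k1 := p0 + 1) (k2 := m1) (k3 := k) (k4 := p0 + N) (by omega) (by omega)
      (by omega) (by omega) (by rw [h3]; exact a3.symm)
      (by rw [show l (p0 + 1) = 0 from a3]; exact b3')
      (by rw [show l (p0 + 1) = 0 from a3]; exact hpN)
  · exact hne h3

/-- a range of spokes which carries the three labels is not short, unless there is a centre -/
theorem Rng.wide (h : Rng S A A' V O N y c l r) {R : ℝ} {z : ℂ}
    (hno : ∀ X, CtrX S A X → ¬ X ⊆ closedBall z R) {k k' : ℕ}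
    (hl : ∀ i, ∃ m, k ≤ m ∧ m ≤ k' ∧ l m = i) : ∃ m, k ≤ m ∧ m ≤ k' ∧ R - r < ‖y m - z‖ := by
  by_contra hcon
  push Not at hcon
  exact hno _ (h.ctr_range hcon hl) Cf.sub

/-- **a valid labelling or a small centre** -/
theorem Rng.valid (h : Rng S A A' V O N y c l r) {a : ZMod 3 → ℂ} {kk : ZMod 3 → ℕ}
    {T : ZMod 3 → Set ℂ} (hT : ∀ j, Rad S A O y r j (a j) (kk j) (T j))
    (far : ∀ j, ∃ k, 2 * r < ‖y k - a j‖) {R : ℝ} (hR : 6 * r ≤ R) :
    (∃ X z, CtrX S A X ∧ X ⊆ closedBall z R) ∨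
    ((∃ (m0 m1 m2 : ℕ) (b1 b2 : ZMod 3), m0 < m1 ∧ m1 < m2 ∧ m2 < m0 + N ∧ b1 ≠ 0 ∧ b2 ≠ 0 ∧
      b2 ≠ b1 ∧ (∀ k, m0 ≤ k → k < m1 → l k = 0) ∧ (∀ k, m1 ≤ k → k < m2 → l k = b1) ∧
      (∀ k, m2 ≤ k → k < m0 + N → l k = b2)) ∧
    ∀ z k k', (∀ i, ∃ m, k ≤ m ∧ m ≤ k' ∧ l m = i) → ∃ m, k ≤ m ∧ m ≤ k' ∧ R - r < ‖y m - z‖) := by
  by_cases hno : ∃ X z, CtrX S A X ∧ X ⊆ closedBall z R
  · exact Or.inl hno
  · right
    push Not at hno
    refine ⟨h.marks ?_, fun z k k' => h.wide (fun X hX => hno X z hX)⟩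
    rcases h.hsc hT far with h1 | ⟨b, c', h1⟩
    · exact h1
    · exact absurd (Cf.sub.trans (closedBall_subset_closedBall hR)) (hno _ (a b) h1)

end rng

end Crest.Agent.R143.Hscx313
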