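import Crest.Agent.R143.HullM_93
import Crest.Agent.R143.HullE_66

/-!
# Row 143 (S0194), leaf HULLM (helper93 + helper66): the mesh bound M4 up to the hull circle

* `hullm` : for every domain with `0 < D.L`, with probability tending to `1`, for all `z` in the
  closed disc and all `b ∈ [b0, 1]`: the energy of the Delaunay triangles of the sites which meet
  the closed ball `B(z, b)` is at most `CH * b ^ 2` (`CH` absolute)
-/

set_option autoImplicit false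

noncomputable section

namespace Crest.Agent.R143.HullFx93

open Set MeasureTheory Filter Topology
open scoped Classical ENNReal ComplexConjugate
open Crest.ProbabilityR.Voronoi
open Crest.Agent.R143.B0Dx346 Crest.Agent.R143.PP1x831 Crest.Agent.R143.HullMx93

theorem capS_of_capOK {ε L : ℝ} {c : ℂ} {ω : Sample} (hW : ε ^ (3 / 5 : ℝ) ≤ L)
    (hW0 : 0 ≤ ε ^ (3 / 5 : ℝ)) (h : HullEx66.CapOK ε c L ω) : CapS ε c L ω := by
  intro e he
  refine h e he (√(L ^ 2 - (ε ^ (3 / 5 : ℝ)) ^ 2)) (ε ^ (3 / 5 : ℝ)) ?_ le_rfl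
  rw [Real.sq_sqrt (by nlinarith)]
  ring

theorem capS (c : ℂ) {L : ℝ} (hL : 0 < L) : ∀ η : ℝ, 0 < η → ∀ᶠ ε : ℝ in 𝓝[>] 0,
    sampleLaw {ω | ¬ CapS ε c L ω} ≤ ENNReal.ofReal η := by
  intro η hη
  have l5 : Tendsto (fun ε : ℝ => ε ^ (3 / 5 : ℝ)) (𝓝[>] 0) (𝓝 0) := by
    have h0 : Tendsto (fun ε : ℝ => ε ^ (3 / 5 : ℝ)) (𝓝 0) (𝓝 (0 ^ (3 / 5 : ℝ))) :=
      (Real.continuousAt_rpow_const 0 (3 / 5 : ℝ) (Or.inr (by norm_num))).tendsto
    rw [Real.zero_rpow (by norm_num)] at h0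
    exact h0.mono_left nhdsWithin_le_nhds
  filter_upwards [HullEx66.cap_ok c hL hη, l5.eventually_le_const hL, eventually_mem_nhdsWithin]
    with ε h1 h2 h3
  refine (measure_mono ?_).trans h1
  intro ω hω hcon
  exact hω (capS_of_capOK h2 (Real.rpow_nonneg (le_of_lt h3) _) hcon)

theorem annS (c : ℂ) {L : ℝ} (hL : 0 < L) : ∀ C : ℝ, 0 < C → ∀ η : ℝ, 0 < η →
    ∀ᶠ ε : ℝ in 𝓝[>] 0, sampleLaw {ω | ¬ AnnS C ε c L ω} ≤ ENNReal.ofReal η :=
  fun C hC η hη => HullEx66.ann_ok c hL hC (A := 4) (by norm_num) hη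

/-- **HULLM** -/
theorem hullm {D : Dom} (hL : 0 < D.L) :
    ∀ b0 : ℝ, 0 < b0 → ∀ η : ℝ, 0 < η → ∀ᶠ ε : ℝ in 𝓝[>] 0,
      sampleLaw {ω | ¬ MHull D CH ε b0 ω} ≤ ENNReal.ofReal η :=
  hullm_of hL (capS D.c hL) (annS D.c hL)

end Crest.Agent.R143.HullFx93
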