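import Crest.Agent.R143.HullZ_366
import Crest.Agent.R143.CorP_503
import Crest.Agent.R143.SqP_503

/-!
# Row 143 (S0194), block H, H5 (S2), geometry: the tiles of the square ring (helper366)

* `InArc K s j a` : the index `a` of the clockwise square path `sqW K` is on the side `j` (bottom,
  right, top and left) up to `s` tiles
* `cen_sd`, **`rr_sd`** : the tile region `RR A B h (sqW K) a` is in `Sd (s h + 2 (2 A + B)) j`, `K h = 1`
* **`back_arc`** : if all the arcs between the necks go backwards, the loop goes from `p b` to `p a`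
  (`a < b`) inside the regions `a, .., b - 1`
* `back_sd` : its cells are near the side
-/

set_option autoImplicit false

noncomputable section

open scoped Classical

namespace Crest.Agent.R143.HullGx366

open Crest.Agent.R143.HullZx366
open Crest.Agent.R143.Gatex838 (X Y)
open Crest.Agent.R143.TileRx228 Crest.Agent.R143.SqPx503
open Crest.Agent.R143.Frame1x395 Crest.Agent.R143.Frame2x395 Crest.Agent.R143.Frame3x395
  Crest.Agent.R143.Frame4x395 Crest.Agent.R143.Frame10x395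
open Crest.Agent.R143.Splx117 Crest.Agent.R143.RingDx117

/-! ### lattice points -/

/-- first index of the side `j` of `sqW K` (clockwise: left `0..K`, top `K..2K`, right `2K..3K`,
bottom `3K..4K`) -/
def lo (K : ℕ) (j : ZMod 3) : ℤ := if j = 0 then 3 * K else if j = 1 then 2 * K else 0

/-- last index of the side `j` -/
def hi (K : ℕ) (j : ZMod 3) : ℤ := if j = 0 then 4 * K else if j = 1 then 3 * K else 2 * K

theorem lo0 (K : ℕ) : lo K 0 = 3 * K := rfl
theorem lo1 (K : ℕ) : lo K 1 = 2 * K := rfl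
theorem lo2 (K : ℕ) : lo K 2 = 0 := rfl
theorem hi0 (K : ℕ) : hi K 0 = 4 * K := rfl
theorem hi1 (K : ℕ) : hi K 1 = 3 * K := rfl
theorem hi2 (K : ℕ) : hi K 2 = 2 * K := rfl

/-- the index `a` is on the side `j`, up to `s` tiles -/
def InArc (K s : ℕ) (j : ZMod 3) (a : ℤ) : Prop :=
  ∃ q : ℤ, lo K j - s ≤ a - 4 * K * q ∧ a - 4 * K * q ≤ hi K j + s

/-- lattice points near the side `j` -/
def Lat (K s : ℕ) (j : ZMod 3) (u v : ℤ) : Prop :=
  if j = 0 then (-(s : ℤ) ≤ u ∧ u ≤ K + s ∧ -(s : ℤ) ≤ v ∧ v ≤ s)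
  else if j = 1 then ((K : ℤ) - s ≤ u ∧ u ≤ K + s ∧ -(s : ℤ) ≤ v ∧ v ≤ K + s)
  else (-(s : ℤ) ≤ u ∧ u ≤ K + s ∧ -(s : ℤ) ≤ v ∧ v ≤ K + s ∧ u ≤ v + s)

theorem inarc_lat {K s : ℕ} (hK : 1 ≤ K) (hs : s ≤ K) {j : ZMod 3} {a : ℤ} (h : InArc K s j a) :
    Lat K s j (sqW K a).1 (sqW K a).2 := by
  obtain ⟨q, h1, h2⟩ := h
  have hK' : (1 : ℤ) ≤ K := by exact_mod_cast hK
  have hs' : (s : ℤ) ≤ K := by exact_mod_cast hs
  have hs0 : (0 : ℤ) ≤ s := Int.natCast_nonneg s
  have hL : (4 * K : ℤ) ≠ 0 := by omega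
  have r0 := Int.emod_nonneg a hL
  have r1 := Int.emod_lt_of_pos a (show (0 : ℤ) < 4 * K by omega)
  have r2 := Int.emod_add_mul_ediv a (4 * K : ℤ)
  unfold sqW
  set r := a % (4 * (K : ℤ)) with hr
  set t := a / (4 * (K : ℤ)) - q with ht
  have e : a - 4 * K * q = r + 4 * K * t := by
    rw [ht, mul_sub]
    linarith
  rw [e] at h1 h2
  have hlo : (0 : ℤ) ≤ lo K j := by
    rcases z3 j with rfl | rfl | rfl
    · rw [lo0]; omega
    · rw [lo1]; omega
    · rw [lo2]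
  have hhi : hi K j ≤ 4 * K := by
    rcases z3 j with rfl | rfl | rfl
    · rw [hi0]
    · rw [hi1]; omega
    · rw [hi2]; omega
  have t1 : t ≤ 1 := by
    by_contra hc
    push Not at hc
    nlinarith
  have t2 : -1 ≤ t := by
    by_contra hc
    push Not at hc
    nlinarith
  have h3 : ∃ r' : ℤ, lo K j - s ≤ r' ∧ r' ≤ hi K j + s ∧
      (r = r' ∨ r = r' + 4 * K ∨ r = r' - 4 * K) := by
    refine ⟨r + 4 * K * t, h1, h2, ?_⟩
    have : t = 0 ∨ t = 1 ∨ t = -1 := by omega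
    rcases this with h | h | h
    · left; rw [h]; ring
    · right; right; rw [h]; ring
    · right; left; rw [h]; ring
  obtain ⟨r', k1, k2, k3⟩ := h3
  clear_value r t
  unfold sq0 Lat
  rcases z3 j with rfl | rfl | rfl
  · rw [if_pos rfl]
    rw [lo0] at k1
    rw [hi0] at k2
    split_ifs <;> simp only [] <;> omega
  · rw [if_neg (by decide), if_pos rfl]
    rw [lo1] at k1
    rw [hi1] at k2
    split_ifs <;> simp only [] <;> omega
  · rw [if_neg (by decide), if_neg (by decide)]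
    rw [lo2] at k1
    rw [hi2] at k2
    split_ifs <;> simp only [] <;> omega

theorem lat_sd {K s : ℕ} {h : ℝ} (h0 : 0 < h) (hh : (K : ℝ) * h = 1) {j : ZMod 3} {u : ℤ × ℤ}
    (hl : Lat K s j u.1 u.2) : (h : ℂ) * cz u ∈ Sd (s * h) j := by
  have hre : ((h : ℂ) * cz u).re = h * (u.1 : ℝ) := by
    unfold cz; simp
  have him : ((h : ℂ) * cz u).im = h * (u.2 : ℝ) := by
    unfold cz; simp
  have key1 : ∀ {x c : ℤ}, x ≤ c → h * (x : ℝ) ≤ h * (c : ℝ) := fun hx =>
    mul_le_mul_of_nonneg_left (by exact_mod_cast hx) h0.le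
  unfold Lat at hl
  rcases z3 j with rfl | rfl | rfl
  · rw [if_pos rfl] at hl
    obtain ⟨a1, a2, a3, a4⟩ := hl
    rw [sd0, hre, him]
    have b1 := key1 a1; have b2 := key1 a2; have b3 := key1 a3; have b4 := key1 a4
    push_cast at b1 b2 b3 b4
    refine ⟨?_, ?_, ?_, ?_⟩ <;> nlinarith
  · rw [if_neg (by decide), if_pos rfl] at hl
    obtain ⟨a1, a2, a3, a4⟩ := hl
    rw [sd1, hre, him]
    have b1 := key1 a1; have b2 := key1 a2; have b3 := key1 a3; have b4 := key1 a4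
    push_cast at b1 b2 b3 b4
    refine ⟨?_, ?_, ?_, ?_⟩ <;> nlinarith
  · rw [if_neg (by decide), if_neg (by decide)] at hl
    obtain ⟨a1, a2, a3, a4, a5⟩ := hl
    rw [sd2, hre, him]
    have b1 := key1 a1; have b2 := key1 a2; have b3 := key1 a3; have b4 := key1 a4
    have b5 := key1 a5
    push_cast at b1 b2 b3 b4 b5
    refine ⟨?_, ?_, ?_, ?_, ?_⟩ <;> nlinarith

/-- **the centre of a tile of the side `j`** -/
theorem cen_sd {K s : ℕ} {h : ℝ} (hK : 1 ≤ K) (hs : s ≤ K) (h0 : 0 < h) (hh : (K : ℝ) * h = 1)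
    {j : ZMod 3} {a : ℤ} (ha : InArc K s j a) : cen h (sqW K) a ∈ Sd (s * h) j :=
  lat_sd h0 hh (inarc_lat hK hs ha)

/-! ### tile regions -/

theorem cz_norm {u : ℤ × ℤ} (hu : U4 u) : ‖cz u‖ = 1 := by
  have : ‖cz u‖ ^ 2 = 1 := by
    rw [← Complex.normSq_eq_norm_sq, Complex.normSq_apply]
    rcases hu with rfl | rfl | rfl | rfl <;> simp [cz]
  nlinarith [norm_nonneg (cz u)]

theorem arm_near {A B : ℝ} {c u s : ℂ} (hA : 0 ≤ A) (hB : 0 ≤ B) (hu : ‖u‖ = 1)
    (hs : s ∈ Arm A B c u) : ‖s - c‖ ≤ 2 * A + B := by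
  obtain ⟨⟨h1, h2⟩, h3⟩ := hs
  have e : ‖s - c‖ = ‖(s - c) / u‖ := by rw [norm_div, hu, div_one]
  rw [e]
  refine (Complex.norm_le_abs_re_add_abs_im _).trans ?_
  have h4 : |((s - c) / u).re| ≤ A + B := by
    change -A < ((s - c) / u).re at h1
    change ((s - c) / u).re < B at h2
    rw [abs_le]
    constructor <;> linarith
  change |((s - c) / u).im| < A at h3
  linarith

/-- a point of a tile region is near its centre -/
theorem rr_near {A B h : ℝ} {M : ℕ} {W : ℤ → ℤ × ℤ} (F : FPath M W) (hA : 0 ≤ A) (hB : 0 ≤ B)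
    {a : ℤ} {s : ℂ} (hs : s ∈ RR A B h W a) : ‖s - cen h W a‖ ≤ 2 * A + B := by
  have h1 : ‖cz (W (a + 1) - W a)‖ = 1 := cz_norm (F.step a)
  have h2 : ‖cz (W (a - 1) - W a)‖ = 1 := by
    have h3 := cz_norm (F.step (a - 1))
    rw [sub_add_cancel] at h3
    have e : cz (W (a - 1) - W a) = -cz (W a - W (a - 1)) := by
      apply Complex.ext <;> simp [cz]
    rw [e, norm_neg, h3]
  rcases hs with hs | hs
  · exact arm_near hA hB h2 hs
  · exact arm_near hA hB h1 hs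

/-- **(S2) tile regions of the side `j` of the square ring** -/
theorem rr_sd {K s : ℕ} {A B h : ℝ} (hK : 1 ≤ K) (hs : s ≤ K) (h0 : 0 < h)
    (hh : (K : ℝ) * h = 1) (hA : 0 ≤ A) (hB : 0 ≤ B) {j : ZMod 3} {a : ℤ} (ha : InArc K s j a) :
    RR A B h (sqW K) a ⊆ Sd (s * h + 2 * (2 * A + B)) j := fun _ hx =>
  sd_near (cen_sd hK hs h0 hh ha) (rr_near (sq_fpath hK) hA hB hx)

/-! ### the loop of the ring -/

section loop

variable {D C : Type} {M : CMap D C} {x : D → ZMod 2} {p : ℕ → D} {R : ℕ → Set D}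

/-- **all arcs backwards: the loop goes from `p b` to `p a` inside the regions `a, .., b - 1`** -/
theorem back_arc (hb : ∀ k, FA M x (R k) (p (k + 1)) (p k)) {a b : ℕ} (hab : a < b) :
    ∃ m, (stp M x)^[m] (p b) = p a ∧
      ∀ i ≤ m, ∃ k, a ≤ k ∧ k < b ∧ (stp M x)^[i] (p b) ∈ R k := by
  induction b, hab using Nat.le_induction with
  | base =>
    obtain ⟨m, h1, h2⟩ := hb a
    exact ⟨m, h1, fun i hi => ⟨a, le_rfl, Nat.lt_succ_self a, h2 i hi⟩⟩
  | succ b hab ih =>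
    obtain ⟨m, h1, h2⟩ := ih
    obtain ⟨m', h3, h4⟩ := hb b
    refine ⟨m + m', by rw [Function.iterate_add_apply, h3, h1], fun i hi => ?_⟩
    rcases Nat.lt_or_ge m' i with h | h
    · obtain ⟨k, k1, k2, k3⟩ := h2 (i - m') (by omega)
      refine ⟨k, k1, by omega, ?_⟩
      have e : i = (i - m') + m' := by omega
      rw [e, Function.iterate_add_apply, h3]
      exact k3
    · exact ⟨b, by omega, Nat.lt_succ_self b, h4 i h⟩

/-- the forward version -/
theorem fwd_arc (hb : ∀ k, FA M x (R k) (p k) (p (k + 1))) {a b : ℕ} (hab : a < b) :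
    ∃ m, (stp M x)^[m] (p a) = p b ∧
      ∀ i ≤ m, ∃ k, a ≤ k ∧ k < b ∧ (stp M x)^[i] (p a) ∈ R k := by
  induction b, hab using Nat.le_induction with
  | base =>
    obtain ⟨m, h1, h2⟩ := hb a
    exact ⟨m, h1, fun i hi => ⟨a, le_rfl, Nat.lt_succ_self a, h2 i hi⟩⟩
  | succ b hab ih =>
    obtain ⟨m, h1, h2⟩ := ih
    obtain ⟨m', h3, h4⟩ := hb b
    refine ⟨m' + m, by rw [Function.iterate_add_apply, h1, h3], fun i hi => ?_⟩
    rcases Nat.lt_or_ge m i with h | h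
    · refine ⟨b, by omega, Nat.lt_succ_self b, ?_⟩
      have e : i = (i - m) + m := by omega
      rw [e, Function.iterate_add_apply, h1]
      exact h4 (i - m) (by omega)
    · obtain ⟨k, k1, k2, k3⟩ := h2 i h
      exact ⟨k, k1, by omega, k3⟩

end loop

/-- **(S2) the cells of the loop between the necks of the side `j` (up to `s` gates) are near the
side `j`** -/
theorem back_sd {S : Finset ℂ} {C : Type} {M : CMap (D0 S) C} {x : D0 S → ZMod 2}
    {p : ℕ → D0 S} {K s : ℕ} {A B h : ℝ} {o : ℤ} (hK : 1 ≤ K) (hs : s ≤ K) (h0 : 0 < h)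
    (hh : (K : ℝ) * h = 1) (hA : 0 ≤ A) (hB : 0 ≤ B)
    (hb : ∀ k : ℕ, FA M x (RD S (RR A B h (sqW K) (o + k))) (p (k + 1)) (p k)) {j : ZMod 3}
    {a b : ℕ} (hab : a < b) (hj : ∀ k : ℕ, a ≤ k → k < b → InArc K s j (o + k)) :
    ∃ m, (stp M x)^[m] (p b) = p a ∧ ∀ i ≤ m,
      ((stp M x)^[i] (p b)).1.1 ∈ Sd (s * h + 2 * (2 * A + B)) j ∧
      ((stp M x)^[i] (p b)).1.2 ∈ Sd (s * h + 2 * (2 * A + B)) j := by
  obtain ⟨m, h1, h2⟩ := back_arc hb hab
  refine ⟨m, h1, fun i hi => ?_⟩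
  obtain ⟨k, k1, k2, k3⟩ := h2 i hi
  exact ⟨rr_sd hK hs h0 hh hA hB (hj k k1 k2) k3.1, rr_sd hK hs h0 hh hA hB (hj k k1 k2) k3.2⟩

end Crest.Agent.R143.HullGx366
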