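import Crest.Agent.R143.Kin_43
import Crest.Agent.R143.Pat_828
import Crest.Agent.R143.HullG_715
import Crest.Agent.R143.RWr_355

/-!
# Row 143 (S0194), block H, H5: the marked ring loop in its tiles (helper715)

Ring loop with gate times `T k` and closed two-sided tiles `Reg k` (`TL`, from 355's `RLW`); marks =
gates `k 1 < k 2 < k 3 < n`, all after the start `p`.
* `Tc t c` : the cell `c` is touched at the time `t`; `TL.far` : cells touched in tiles which are not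
  neighbours are different
* `TL.o1`, `o2`, `o3` : the confinement of the outer arcs (after `T (k j + 1)`) for the classes
  `R(T) = Q ∪ Tch T`
* `GT` : a gap time of the block in every tile; `GT.last` : the last one before a mark
* `Rt` : range of the tiles of the arc `j`; **`gc_reg`** : the left cells of the arc `j` (828's `Gc`) are
  in the tiles of the arc `j`; **`gc_own`** : a left cell in a tile inside the arc `j` is in `Gc j` only
-/

set_option autoImplicit false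
set_option linter.unusedSectionVars false

noncomputable section

open scoped Classical

namespace Crest.Agent.R143.HullKx715

open Crest.Agent.R143.Frame1x395 Crest.Agent.R143.Frame2x395 Crest.Agent.R143.Frame3x395
  Crest.Agent.R143.Frame8x395 Crest.Agent.R143.Frame9x395 Crest.Agent.R143.Frame11x395
  Crest.Agent.R143.NonXx592 Crest.Agent.R143.Junx43 Crest.Agent.R143.Patx828
open Crest.Agent.R143.Chordx355 (lc)
open Crest.Agent.R143.RWrx355 (RLW)

variable {D C : Type} {M : CMap D C} {x : D → ZMod 2} {p : D} {N n : ℕ} {T : ℕ → ℕ}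
  {Reg : ℕ → Set C} {c : C}

/-! ### closed tiles -/

/-- gate times `T k` of a ring loop with closed two-sided tiles `Reg k` -/
structure TL (M : CMap D C) (x : D → ZMod 2) (p : D) (N n : ℕ) (T : ℕ → ℕ) (Reg : ℕ → Set C) :
    Prop where
  mono : StrictMono T
  zero : T 0 = 0
  per : ∀ k, T (k + n) = T k + N
  perR : ∀ k, Reg (k + n) = Reg k
  tile : ∀ k t, T k ≤ t → t ≤ T (k + 1) → M.cell (P M x p t) ∈ Reg k ∧
    M.cell (M.rho (P M x p t)) ∈ Reg k
  dis : ∀ k j, 2 ≤ j → j + 2 ≤ n → Disjoint (Reg k) (Reg (k + j))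

/-- 355's ring loop -/
theorem of_rlw {ψ : C → ZMod 2} (R : RLW M ψ p N n T Reg) : TL M (cfg M ψ) p N n T Reg :=
  ⟨R.mono, R.zero, R.per, R.perR, R.tile2, R.dis⟩

/-- the cell `c` is touched at the time `t` -/
def Tc (M : CMap D C) (x : D → ZMod 2) (p : D) (t : ℕ) (c : C) : Prop :=
  lc M x p t = c ∨ rc M x p t = c

theorem tch_iff {S : ℕ} : c ∈ Tch M x p S ↔ ∃ u, u ≤ S ∧ Tc M x p u c := Iff.rfl

namespace TL

theorem le (R : TL M x p N n T Reg) {a b : ℕ} (h : a ≤ b) : T a ≤ T b := R.mono.monotone h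

theorem top (R : TL M x p N n T Reg) : T n = N := by
  have h := R.per 0
  rw [zero_add, R.zero, zero_add] at h
  exact h

/-- a tile of a time between two gates -/
theorem btw (R : TL M x p N n T Reg) {a b t : ℕ} (hab : a < b) (h1 : T a ≤ t) (h2 : t ≤ T b) :
    ∃ k, a ≤ k ∧ k < b ∧ T k ≤ t ∧ t ≤ T (k + 1) := by
  induction b, hab using Nat.le_induction with
  | base => exact ⟨a, le_rfl, Nat.lt_succ_self a, h1, h2⟩
  | succ b hab ih =>
    rcases Nat.lt_or_ge (T b) t with h | h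
    · exact ⟨b, by omega, Nat.lt_succ_self b, h.le, h2⟩
    · obtain ⟨k, k1, k2, k3⟩ := ih h
      exact ⟨k, k1, by omega, k3⟩

theorem reg (R : TL M x p N n T Reg) {k t : ℕ} (h1 : T k ≤ t) (h2 : t ≤ T (k + 1))
    (h : Tc M x p t c) : c ∈ Reg k := by
  rcases h with rfl | rfl
  · exact (R.tile k t h1 h2).1
  · exact (R.tile k t h1 h2).2

/-- a cell touched between two gates is in a tile between them -/
theorem breg (R : TL M x p N n T Reg) {a b t : ℕ} (hab : a < b) (h1 : T a ≤ t) (h2 : t ≤ T b)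
    (h : Tc M x p t c) : ∃ k, a ≤ k ∧ k < b ∧ c ∈ Reg k := by
  obtain ⟨k, k1, k2, k3, k4⟩ := R.btw hab h1 h2
  exact ⟨k, k1, k2, R.reg k3 k4 h⟩

/-- two tiles with a common cell -/
theorem nb (R : TL M x p N n T Reg) {k l : ℕ} (hkl : k ≤ l) (hl : l < k + n) (h : c ∈ Reg k)
    (h' : c ∈ Reg l) : l ≤ k + 1 ∨ k + n ≤ l + 1 := by
  by_contra hc
  push Not at hc
  have h1 := R.dis k (l - k) (by omega) (by omega)
  rw [show k + (l - k) = l by omega] at h1
  exact Set.disjoint_left.1 h1 h h'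

/-- **cells touched in tiles which are not neighbours are different** -/
theorem far (R : TL M x p N n T Reg) {a b a' b' t t' : ℕ} (hab : a < b) (hb : b < a')
    (hab' : a' < b') (hn : b' + 1 ≤ a + n) (h1 : T a ≤ t) (h2 : t ≤ T b) (h1' : T a' ≤ t')
    (h2' : t' ≤ T b') (h : Tc M x p t c) (h' : Tc M x p t' c) : False := by
  obtain ⟨k, k1, k2, k3⟩ := R.breg hab h1 h2 h
  obtain ⟨l, l1, l2, l3⟩ := R.breg hab' h1' h2' h'
  rcases R.nb (by omega) (by omega) k3 l3 with h3 | h3 <;> omega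

variable {k₁ k₂ k₃ t : ℕ} {Q : Set C}

/-- **(o1)** the times `[T (k₁ + 1), T k₃]` see no cell of `Q ∪ Tch T₁` -/
theorem o1 (R : TL M x p N n T Reg) (h1 : 0 < k₁) (h13 : k₁ + 1 < k₃) (h3 : k₃ < n)
    (hQ : ∀ k, k₁ < k → k < k₃ → Disjoint (Reg k) Q) (ht : T (k₁ + 1) ≤ t) (ht' : t ≤ T k₃)
    (h : Tc M x p t c) : c ∉ Q ∪ Tch M x p (T k₁) := by
  rintro (hc | ⟨u, hu, hc⟩)
  · obtain ⟨k, a1, a2, a3⟩ := R.breg h13 ht ht' h
    exact Set.disjoint_left.1 (hQ k a1 a2) a3 hc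
  · exact R.far h1 (Nat.lt_succ_self k₁) h13 (by omega) (by rw [R.zero]; exact Nat.zero_le _) hu
      ht ht' hc h

/-- **(o2), (o3)** the times `[T (k₂ + 1), N]` see no cell which is touched for the first time
between the gates `k₁` and `k₂` -/
theorem o2 (R : TL M x p N n T Reg) (h1 : 0 < k₁) (h12 : k₁ < k₂) (h2 : k₂ + 1 < n)
    (ht : T (k₂ + 1) ≤ t) (ht' : t ≤ N) (h : Tc M x p t c) :
    c ∈ Q ∪ Tch M x p (T k₂) → c ∈ Q ∪ Tch M x p (T k₁) := by
  rintro (hc | ⟨u, hu, hc⟩)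
  · exact Or.inl hc
  · rcases le_or_gt u (T k₁) with h3 | h3
    · exact Or.inr ⟨u, h3, hc⟩
    · exfalso
      rw [← R.top] at ht'
      exact R.far h12 (Nat.lt_succ_self k₂) h2 (by omega) h3.le hu ht ht' hc h

/-- 43's (o1) for the marks `T k₁`, `T k₂`, `a₁ = T (k₁ + 1)`, `a₃ = T (n - 1)` -/
theorem jo1 (R : TL M x p N n T Reg) (h1 : 0 < k₁) (h13 : k₁ + 2 < n) (ht : T (k₁ + 1) ≤ t)
    (ht' : t ≤ T (n - 1)) : lc M x p t ∉ Tch M x p (T k₁) ∧ rc M x p t ∉ Tch M x p (T k₁) := by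
  have key : ∀ c, Tc M x p t c → c ∉ Tch M x p (T k₁) := fun c h hc =>
    R.o1 (Q := ∅) (k₃ := n - 1) h1 (by omega) (by omega) (fun _ _ _ => by simp) ht ht' h
      (Or.inr hc)
  exact ⟨key _ (Or.inl rfl), key _ (Or.inr rfl)⟩

/-- 43's (o2) -/
theorem jo2 (R : TL M x p N n T Reg) (h1 : 0 < k₁) (h12 : k₁ < k₂) (h2 : k₂ + 1 < n)
    (ht : T (k₂ + 1) ≤ t) (ht' : t < N) :
    (lc M x p t ∈ Tch M x p (T k₂) → lc M x p t ∈ Tch M x p (T k₁)) ∧
    (rc M x p t ∈ Tch M x p (T k₂) → rc M x p t ∈ Tch M x p (T k₁)) := by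
  have key : ∀ c, Tc M x p t c → c ∈ Tch M x p (T k₂) → c ∈ Tch M x p (T k₁) := fun c h hc =>
    (R.o2 (Q := ∅) h1 h12 h2 ht ht'.le h (Or.inr hc)).resolve_left fun h => h
  exact ⟨key _ (Or.inl rfl), key _ (Or.inr rfl)⟩

end TL

/-! ### gap times -/

/-- a gap time of the block in every tile -/
def GT (n : ℕ) (T : ℕ → ℕ) (S : Set ℕ) : Prop := ∀ k, k < n → ∃ s ∈ S, T k ≤ s ∧ s < T (k + 1)

variable {S : Set ℕ}

/-- **the last gap before a mark is in the last tile** -/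
theorem GT.last (G : GT n T S) {k : ℕ} (h0 : 0 < k) (hk : k ≤ n) :
    ∃ s ∈ S, T (k - 1) ≤ s ∧ s < T k ∧ ∀ s' ∈ S, s' < T k → s' ≤ s := by
  obtain ⟨s₀, a1, a2, a3⟩ := G (k - 1) (by omega)
  rw [Nat.sub_add_cancel h0] at a3
  obtain ⟨s, hs, h1, h2⟩ := lastb (S := S) (T := T k) ⟨s₀, a1, a3⟩
  exact ⟨s, hs, a2.trans (h2 s₀ a1 a3), h1, h2⟩

/-- the first gap after a mark is in the next tile -/
theorem GT.fst (G : GT n T S) {k : ℕ} (hk : k < n) :
    ∃ s ∈ S, T k ≤ s ∧ s < T (k + 1) ∧ ∀ s' ∈ S, T k ≤ s' → s ≤ s' := by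
  obtain ⟨s₀, a1, a2, a3⟩ := G k hk
  obtain ⟨s, hs, h1, h2⟩ := first (S := S) (T := T k) ⟨s₀, a1, a2⟩
  exact ⟨s, hs, h1, lt_of_le_of_lt (h2 s₀ a1 a2) a3, h2⟩

/-! ### the arcs of 828 -/

/-- the range of the tiles of the arc `j`, marks at the gates `q 0 < q 1 < q 2`, `s` tiles of slack -/
def Rt (n : ℕ) (q : ZMod 3 → ℕ) (s : ℕ) (j : ZMod 3) (k : ℕ) : Prop :=
  if j = 0 then q 0 ≤ k + s ∧ k < q 1 + s else if j = 1 then q 1 ≤ k + s ∧ k < q 2 + s else
    q 2 ≤ k + s ∧ k < n + q 0 + s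

theorem rt0 {q : ZMod 3 → ℕ} {s k : ℕ} : Rt n q s 0 k ↔ q 0 ≤ k + s ∧ k < q 1 + s := by
  unfold Rt
  rw [if_pos rfl]

theorem rt1 {q : ZMod 3 → ℕ} {s k : ℕ} : Rt n q s 1 k ↔ q 1 ≤ k + s ∧ k < q 2 + s := by
  unfold Rt
  rw [if_neg (by decide), if_pos rfl]

theorem rt2 {q : ZMod 3 → ℕ} {s k : ℕ} : Rt n q s 2 k ↔ q 2 ≤ k + s ∧ k < n + q 0 + s := by
  unfold Rt
  rw [if_neg (by decide), if_neg (by decide)]

/-- the block gaps `r j` are within `s` tiles of the marks `T (q j)` -/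
structure Mk (n : ℕ) (T : ℕ → ℕ) (q : ZMod 3 → ℕ) (s : ℕ) (r : ZMod 3 → ℕ) : Prop where
  q0 : s ≤ q 0
  q01 : q 0 + 2 * s < q 1
  q12 : q 1 + 2 * s < q 2
  q2 : q 2 + 2 * s < n
  lo : ∀ j, T (q j - s) ≤ r j
  hi : ∀ j, r j ≤ T (q j + s)

variable {q : ZMod 3 → ℕ} {s : ℕ} {r : ZMod 3 → ℕ} {j i : ZMod 3}

/-- **(S2)** the left cells of the arc `j` are in the tiles of the arc `j` -/
theorem gc_reg (R : TL M x p N n T Reg) (K : Mk n T q s r) (h : c ∈ Gc M x p N r j) :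
    ∃ k, Rt n q s j k ∧ c ∈ Reg k := by
  obtain ⟨u, hu, rfl⟩ := h
  have k0 := K.q0
  have k1 := K.q01
  have k2 := K.q12
  have k3 := K.q2
  have lo := K.lo
  have hi := K.hi
  rcases z3e j with rfl | rfl | rfl
  · rw [ti0] at hu
    obtain ⟨k, a1, a2, a3⟩ := R.breg (a := q 0 - s) (b := q 1 + s) (t := u) (by omega)
      ((lo 0).trans hu.1.le) (hu.2.trans (hi 1)) (Or.inl rfl)
    exact ⟨k, rt0.2 ⟨by omega, a2⟩, a3⟩
  · rw [ti1] at hu
    obtain ⟨k, a1, a2, a3⟩ := R.breg (a := q 1 - s) (b := q 2 + s) (t := u) (by omega)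
      ((lo 1).trans hu.1.le) (hu.2.trans (hi 2)) (Or.inl rfl)
    exact ⟨k, rt1.2 ⟨by omega, a2⟩, a3⟩
  · rw [ti2] at hu
    have h1 : T (q 0 + s + n) = T (q 0 + s) + N := R.per _
    obtain ⟨k, a1, a2, a3⟩ := R.breg (a := q 2 - s) (b := q 0 + s + n) (t := u) (by omega)
      ((lo 2).trans hu.1.le) (by have := hi 0; omega) (Or.inl rfl)
    exact ⟨k, rt2.2 ⟨by omega, by omega⟩, a3⟩

/-- **a left cell in a tile inside the arc `j` is in `Gc j` only** (`s + 1` tiles from the marks) -/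
theorem gc_own (R : TL M x p N n T Reg) (K : Mk n T q s r) (h : c ∈ Gc M x p N r i) {l : ℕ}
    (hl : c ∈ Reg l) (hj : if j = 0 then q 0 + s + 1 ≤ l ∧ l + s + 1 < q 1 else
      if j = 1 then q 1 + s + 1 ≤ l ∧ l + s + 1 < q 2 else
      q 2 + s + 1 ≤ l ∧ l + s + 1 < n + q 0) : i = j := by
  obtain ⟨k, hk, hc⟩ := gc_reg R K h
  have k0 := K.q0
  have k1 := K.q01
  have k2 := K.q12
  have k3 := K.q2
  -- shifts by one period
  have p1 : ∀ m : ℕ, c ∈ Reg m → c ∈ Reg (m + n) := fun m hm => by rw [R.perR]; exact hm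
  have nb : ∀ {a b : ℕ}, c ∈ Reg a → c ∈ Reg b → a ≤ b → b < a + n → b ≤ a + 1 ∨ a + n ≤ b + 1 :=
    fun ha hb h1 h2 => R.nb h1 h2 ha hb
  rcases z3e j with rfl | rfl | rfl <;> rcases z3e i with rfl | rfl | rfl
  · rfl
  · exfalso
    rw [if_pos rfl] at hj
    rw [rt1] at hk
    rcases nb hl hc (by omega) (by omega) with h1 | h1 <;> omega
  · exfalso
    rw [if_pos rfl] at hj
    rw [rt2] at hk
    rcases nb hl hc (by omega) (by omega) with h1 | h1 <;> omega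
  · exfalso
    rw [if_neg (by decide), if_pos rfl] at hj
    rw [rt0] at hk
    rcases nb hc hl (by omega) (by omega) with h1 | h1 <;> omega
  · rfl
  · exfalso
    rw [if_neg (by decide), if_pos rfl] at hj
    rw [rt2] at hk
    rcases nb hl hc (by omega) (by omega) with h1 | h1 <;> omega
  · exfalso
    rw [if_neg (by decide), if_neg (by decide)] at hj
    rw [rt0] at hk
    rcases nb hc hl (by omega) (by omega) with h1 | h1 <;> omega
  · exfalso
    rw [if_neg (by decide), if_neg (by decide)] at hj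
    rw [rt1] at hk
    rcases nb hc hl (by omega) (by omega) with h1 | h1 <;> omega
  · rfl

end Crest.Agent.R143.HullKx715
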