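import Crest.Agent.R143.HullG_366
import Crest.Agent.R143.Jun_43

/-!
# Row 143 (S0194), block H, H5 (S2), the loop half (helper366)

* `kj_time` : a left cell of the marked ring loop (43's classes `Dj j`) in the class `j` is the left
  cell at a time of the interval `j` (`[0, T₁]`, `(T₁, T₂]`, `(T₂, N)`)
* `Tm` : times `t k` of the gates `n, .., 0` (the loop goes backwards), the states between the
  gates `k + 1` and `k` are in `R k`; `tm_of` : from arcs `FA (R k) (p (k + 1)) (p k)`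
* `mark_time` : the first time `T` at which the loop is in a set `X` seen only by the regions
  `c - s, .., c + s - 1` is between the times of the gates `c + s` and `c`
* **`kj_side`** : a cell of the class `j` is the left cell of a state in `R k`, `k` in the range of
  the side `j` up to `s` gates; **`kj_sd`** : its site is in `Sd e j` for the square ring
-/

set_option autoImplicit false

noncomputable section

open scoped Classical

namespace Crest.Agent.R143.HullLx366

open Crest.Agent.R143.HullZx366 Crest.Agent.R143.HullGx366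
open Crest.Agent.R143.Frame1x395 Crest.Agent.R143.Frame2x395 Crest.Agent.R143.Frame3x395
  Crest.Agent.R143.Frame8x395 Crest.Agent.R143.Frame9x395 Crest.Agent.R143.Frame10x395
  Crest.Agent.R143.Frame11x395 Crest.Agent.R143.NonXx592 Crest.Agent.R143.Chordx355 Crest.Agent.R143.Chord2x355 Crest.Agent.R143.ChordCx357
open Crest.Agent.R143.Junx43
open Crest.Agent.R143.Splx117 (FA)
open Crest.Agent.R143.RingDx117 (RD)
open Crest.Agent.R143.TileRx228 Crest.Agent.R143.SqPx503

variable {D C : Type} {M : CMap D C}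

/-! ### classes and times -/

/-- the time interval `j` -/
def Iv (T₁ T₂ N : ℕ) (j : Fin 3) (u : ℕ) : Prop :=
  if j = 0 then u ≤ T₁ else if j = 1 then T₁ < u ∧ u ≤ T₂ else T₂ < u ∧ u < N

/-- **a left cell in the class `j` is the left cell at a time of the interval `j`** -/
theorem kj_time [Fintype D] {χ : C → ZMod 2} {p : D} (hp : cfg M χ p = 1) {T₁ T₂ N s : ℕ}
    (hs : s < N) {j : Fin 3} (h : lc M (cfg M χ) p s ∈ Dj M (cfg M χ) p T₁ T₂ j) :
    ∃ u, Iv T₁ T₂ N j u ∧ lc M (cfg M χ) p u = lc M (cfg M χ) p s := by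
  have h0 : j = 0 ∨ j = 1 ∨ j = 2 := by omega
  rcases h0 with rfl | rfl | rfl
  · obtain ⟨v, h1, h2⟩ := Tch.of_l hp (show lc M (cfg M χ) p s ∈ Tch M (cfg M χ) p T₁ from h)
    exact ⟨v, h1, h2⟩
  · have h' : lc M (cfg M χ) p s ∈ Tch M (cfg M χ) p T₂ \ Tch M (cfg M χ) p T₁ := h
    obtain ⟨v, h1, h2⟩ := Tch.of_l hp h'.1
    refine ⟨v, ⟨?_, h1⟩, h2⟩
    by_contra hc
    apply h'.2
    rw [← h2]
    exact Tch.l (by omega)
  · have h' : lc M (cfg M χ) p s ∈ (Tch M (cfg M χ) p T₂)ᶜ := h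
    refine ⟨s, ⟨?_, hs⟩, rfl⟩
    by_contra hc
    exact h' (Tch.l (by omega))

/-! ### times of the gates -/

/-- times of the gates `n, .., 0` of a ring passed backwards -/
structure Tm (M : CMap D C) (x : D → ZMod 2) (p : D) (n : ℕ) (t : ℕ → ℕ) (R : ℕ → Set D) :
    Prop where
  anti : ∀ k, k < n → t (k + 1) ≤ t k
  reg : ∀ k, k < n → ∀ u, t (k + 1) ≤ u → u ≤ t k → P M x p u ∈ R k

theorem Tm.mono {x : D → ZMod 2} {p : D} {n : ℕ} {t : ℕ → ℕ} {R : ℕ → Set D}
    (H : Tm M x p n t R) {a b : ℕ} (hab : a ≤ b) (hb : b ≤ n) : t b ≤ t a := by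
  induction b, hab using Nat.le_induction with
  | base => exact le_rfl
  | succ b hab ih => exact (H.anti b (by omega)).trans (ih (by omega))

/-- a time between the gates `b` and `a < b` -/
theorem Tm.find {x : D → ZMod 2} {p : D} {n : ℕ} {t : ℕ → ℕ} {R : ℕ → Set D}
    (H : Tm M x p n t R) {a b : ℕ} (hab : a < b) (hb : b ≤ n) {u : ℕ} (h1 : t b ≤ u)
    (h2 : u ≤ t a) : ∃ k, a ≤ k ∧ k < b ∧ P M x p u ∈ R k := by
  induction b, hab using Nat.le_induction with
  | base => exact ⟨a, le_rfl, Nat.lt_succ_self a, H.reg a (by omega) u h1 h2⟩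
  | succ b hab ih =>
    rcases Nat.lt_or_ge u (t b) with h | h
    · exact ⟨b, by omega, Nat.lt_succ_self b, H.reg b (by omega) u h1 h.le⟩
    · obtain ⟨k, k1, k2, k3⟩ := ih (by omega) h
      exact ⟨k, k1, by omega, k3⟩

/-- **times from the arcs** -/
theorem tm_of {x : D → ZMod 2} {p : ℕ → D} {R : ℕ → Set D} {n : ℕ}
    (hb : ∀ k, k < n → FA M x (R k) (p (k + 1)) (p k)) :
    ∃ t : ℕ → ℕ, t n = 0 ∧ Tm M x (p n) n t R ∧ ∀ k, k ≤ n → P M x (p n) (t k) = p k := by
  have key : ∀ m, m ≤ n → ∃ t : ℕ → ℕ, t n = 0 ∧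
      (∀ k, n - m ≤ k → k < n → t (k + 1) ≤ t k ∧
        ∀ u, t (k + 1) ≤ u → u ≤ t k → P M x (p n) u ∈ R k) ∧
      ∀ k, n - m ≤ k → k ≤ n → P M x (p n) (t k) = p k := by
    intro m
    induction m with
    | zero =>
      intro _
      refine ⟨fun _ => 0, rfl, fun k h1 h2 => by omega, fun k h1 h2 => ?_⟩
      have : k = n := by omega
      rw [this]
      rfl
    | succ m ih =>
      intro hm
      obtain ⟨t, t0, t1, t2⟩ := ih (by omega)
      obtain ⟨m', h1, h2⟩ := hb (n - (m + 1)) (by omega)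
      have e : n - (m + 1) + 1 = n - m := by omega
      rw [e] at h1 h2
      refine ⟨fun k => if k = n - (m + 1) then t (n - m) + m' else t k, ?_, ?_, ?_⟩
      · show (if n = n - (m + 1) then t (n - m) + m' else t n) = 0
        rw [if_neg (by omega), t0]
      · intro k k1 k2
        show (if k + 1 = n - (m + 1) then _ else t (k + 1)) ≤
            (if k = n - (m + 1) then t (n - m) + m' else t k) ∧ ∀ u,
            (if k + 1 = n - (m + 1) then _ else t (k + 1)) ≤ u →
            u ≤ (if k = n - (m + 1) then t (n - m) + m' else t k) → _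
        rw [if_neg (by omega)]
        by_cases hk : k = n - (m + 1)
        · rw [if_pos hk]
          have e2 : k + 1 = n - m := by omega
          rw [e2]
          refine ⟨Nat.le_add_right _ _, fun u u1 u2 => ?_⟩
          obtain ⟨w, rfl⟩ := Nat.exists_eq_add_of_le u1
          have e3 : P M x (p n) (t (n - m) + w) = (stp M x)^[w] (p (n - m)) := by
            rw [← t2 (n - m) le_rfl (by omega)]
            show (stp M x)^[t (n - m) + w] (p n) = _
            rw [add_comm, Function.iterate_add_apply]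
          rw [e3, hk]
          exact h2 w (by omega)
        · rw [if_neg hk]
          exact t1 k (by omega) k2
      · intro k k1 k2
        show P M x (p n) (if k = n - (m + 1) then t (n - m) + m' else t k) = p k
        by_cases hk : k = n - (m + 1)
        · rw [if_pos hk, hk, ← h1, ← t2 (n - m) le_rfl (by omega)]
          show (stp M x)^[t (n - m) + m'] (p n) = _
          rw [add_comm, Function.iterate_add_apply]
        · rw [if_neg hk]
          exact t2 k (by omega) k2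
  obtain ⟨t, t0, t1, t2⟩ := key n le_rfl
  exact ⟨t, t0, ⟨fun k hk => (t1 k (by omega) hk).1, fun k hk => (t1 k (by omega) hk).2⟩,
    fun k hk => t2 k (by omega) hk⟩

/-- **the first time at which the loop is in `X`** -/
theorem mark_time {x : D → ZMod 2} {p : D} {n : ℕ} {t : ℕ → ℕ} {R : ℕ → Set D}
    (H : Tm M x p n t R) (t0 : t n = 0) {X : Set D} {c s T : ℕ}
    (hX : P M x p (t c) ∈ X) (hR : ∀ k, c + s ≤ k → k < n → Disjoint (R k) X)
    (hT : P M x p T ∈ X) (hmin : ∀ u, u < T → P M x p u ∉ X) (hcs : c + s ≤ n) :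
    t (c + s) ≤ T ∧ T ≤ t c := by
  constructor
  · by_contra h
    push Not at h
    rcases Nat.lt_or_ge (c + s) n with h1 | h1
    · obtain ⟨k, k1, k2, k3⟩ := H.find h1 le_rfl (u := T) (by rw [t0]; exact Nat.zero_le _) h.le
      exact Set.disjoint_left.1 (hR k k1 k2) k3 hT
    · have : c + s = n := by omega
      rw [this, t0] at h
      omega
  · by_contra h
    push Not at h
    exact hmin _ h hX

/-! ### cells of the classes -/

/-- range of the gates of the side `j` up to `s` gates; `c₂ < c₁ < n` = gates of the marks -/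
def Rg (n c₁ c₂ s : ℕ) (j : Fin 3) (k : ℕ) : Prop :=
  if j = 0 then c₁ - s ≤ k ∧ k < n
  else if j = 1 then c₂ - s ≤ k ∧ k < c₁ + s else k < c₂ + s

/-- **(S2): a cell of the class `j` is the left cell of a state in a region of the side `j`** -/
theorem kj_side [Fintype D] {χ : C → ZMod 2} {p : D} (hp : cfg M χ p = 1)
    {T₁ T₂ N n c₁ c₂ s : ℕ} {t : ℕ → ℕ} {R : ℕ → Set D} (H : Tm M (cfg M χ) p n t R)
    (t0 : t n = 0) (tN : N ≤ t 0 + 1) (s0 : 0 < s) (hs2 : s ≤ c₂) (h21 : c₂ < c₁)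
    (h1n : c₁ + s ≤ n)
    (m1 : t (c₁ + s) ≤ T₁) (m1' : T₁ ≤ t (c₁ - s)) (m2 : t (c₂ + s) ≤ T₂)
    (m2' : T₂ ≤ t (c₂ - s)) {r : ℕ} (hr : r < N) {j : Fin 3}
    (h : lc M (cfg M χ) p r ∈ Dj M (cfg M χ) p T₁ T₂ j) :
    ∃ u k, Rg n c₁ c₂ s j k ∧ P M (cfg M χ) p u ∈ R k ∧
      lc M (cfg M χ) p u = lc M (cfg M χ) p r := by
  obtain ⟨u, hu, e⟩ := kj_time hp hr h
  have h0 : j = 0 ∨ j = 1 ∨ j = 2 := by omega
  rcases h0 with rfl | rfl | rfl
  · have hu' : u ≤ T₁ := hu
    obtain ⟨k, k1, k2, k3⟩ := H.find (a := c₁ - s) (b := n) (u := u) (by omega) le_rfl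
      (by rw [t0]; exact Nat.zero_le _) (by omega)
    exact ⟨u, k, ⟨k1, k2⟩, k3, e⟩
  · have hu' : T₁ < u ∧ u ≤ T₂ := hu
    obtain ⟨k, k1, k2, k3⟩ := H.find (a := c₂ - s) (b := c₁ + s) (u := u) (by omega) h1n
      (by omega) (by omega)
    exact ⟨u, k, ⟨k1, k2⟩, k3, e⟩
  · have hu' : T₂ < u ∧ u < N := hu
    obtain ⟨k, k1, k2, k3⟩ := H.find (a := 0) (b := c₂ + s) (u := u) (by omega) (by omega)
      (by omega) (by omega)
    exact ⟨u, k, k2, k3, e⟩

/-- the ranges of the square ring -/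
theorem rg_arc {K s : ℕ} {j : Fin 3} {k : ℕ} (h : Rg (4 * K) (3 * K) (2 * K) s j k) :
    InArc K s j (k : ℤ) := by
  refine ⟨0, ?_, ?_⟩ <;>
  · have h0 : j = 0 ∨ j = 1 ∨ j = 2 := by omega
    rcases h0 with rfl | rfl | rfl
    · have h' : 3 * K - s ≤ k ∧ k < 4 * K := h
      first
        | (show (3 * K : ℤ) - s ≤ _; omega)
        | (show _ ≤ (4 * K : ℤ) + s; omega)
    · have h' : 2 * K - s ≤ k ∧ k < 3 * K + s := h
      first
        | (show (2 * K : ℤ) - s ≤ _; omega)
        | (show _ ≤ (3 * K : ℤ) + s; omega)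
    · have h' : k < 2 * K + s := h
      first
        | (show (0 : ℤ) - s ≤ _; omega)
        | (show _ ≤ (2 * K : ℤ) + s; omega)

/-- **(S2) for the square ring**: the site of a cell of the class `j` is near the side `j` -/
theorem kj_sd {S : Finset ℂ} {C : Type} {M : CMap (D0 S) C} {χ : C → ZMod 2} {p : D0 S}
    (hp : cfg M χ p = 1) {T₁ T₂ N K s : ℕ} {A B h : ℝ} {t : ℕ → ℕ} {z : C → ℂ}
    (H : Tm M (cfg M χ) p (4 * K) t fun k : ℕ => RD S (RR A B h (sqW K) k))
    (hz : ∀ (k : ℕ) (d : D0 S), d ∈ RD S (RR A B h (sqW K) k) → z (M.cell d) = d.1.1)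
    (t0 : t (4 * K) = 0) (tN : N ≤ t 0 + 1) (s0 : 0 < s) (hs : s ≤ K) (h0 : 0 < h)
    (hh : (K : ℝ) * h = 1) (hA : 0 ≤ A) (hB : 0 ≤ B)
    (m1 : t (3 * K + s) ≤ T₁) (m1' : T₁ ≤ t (3 * K - s)) (m2 : t (2 * K + s) ≤ T₂)
    (m2' : T₂ ≤ t (2 * K - s)) {r : ℕ} (hr : r < N) {j : Fin 3}
    (hj : lc M (cfg M χ) p r ∈ Dj M (cfg M χ) p T₁ T₂ j) :
    z (lc M (cfg M χ) p r) ∈ Sd (s * h + 2 * (2 * A + B)) j := by
  obtain ⟨u, k, k1, k2, e⟩ := kj_side hp H t0 tN s0 (by omega) (by omega) (by omega) m1 m1' m2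
    m2' hr hj
  rw [← e]
  show z (M.cell (P M (cfg M χ) p u)) ∈ _
  rw [hz k _ k2]
  exact rr_sd (by omega) hs h0 hh hA hB (rg_arc k1) k2.1

end Crest.Agent.R143.HullLx366
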