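import Crest.Agent.R143.C2SB_395
import Crest.Agent.R143.NetU_346
import Crest.Agent.R143.Kap_709

/-!
# Row 143 (S0194), block H, H5 (S2): the mean end points are in the sides (helper366)

* `Sd e j` : `e`-neighbourhood of the side `j` of the unit square (bottom / right / hull of top and
  left); `hul_iff` : `Kapx709.Hul e 1 Z ↔ ∀ j, Z j ∈ Sd e j`; `convex_sd`
* `exC_mem` : means over the colourings stay in a convex set
* **`ey_mem`** : `Hex S A`, `A j ⊆ H`, `H` convex ==> `Ey S A id j ∈ H` (also with the hit vertices only)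
* **`hit_ex`** : a root face of three giants on a closed map ==> every colouring has a hit of every
  giant; **`ez_mem`** : `Ez M A j z ∈ H` if `z c ∈ H` for the cells `c` of `A j`
* `hul_of` : `Hul e 1 Z` from `Z j = Ez ..` in patterns
-/

set_option autoImplicit false

noncomputable section

open scoped Classical

namespace Crest.Agent.R143.HullZx366

open Crest.Agent.R143.Frame1x395 Crest.Agent.R143.Frame2x395 Crest.Agent.R143.Frame3x395
  Crest.Agent.R143.Frame4x395 Crest.Agent.R143.Frame8x395 Crest.Agent.R143.Frame9x395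
  Crest.Agent.R143.Coarsex166 Crest.Agent.R143.Coarse2x166 Crest.Agent.R143.C2Sx395
  Crest.Agent.R143.K33x137
open Crest.Agent.R143.NetUx346 (ff HitO hits exC Ey Hex mem_ff mem_hits hv hv_eq hv_mem Ey_eq)
open Crest.Agent.R143.Kapx709 (Hul)

/-! ### the sides -/

/-- `e`-neighbourhood of the side `j` of the unit square: `0` bottom, `1` right, `2` hull of the top
and of the left side (linear inequalities) -/
def Sd (e : ℝ) (j : ZMod 3) : Set ℂ :=
  if j = 0 then {z | -e ≤ z.re ∧ z.re ≤ 1 + e ∧ -e ≤ z.im ∧ z.im ≤ e}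
  else if j = 1 then {z | 1 - e ≤ z.re ∧ z.re ≤ 1 + e ∧ -e ≤ z.im ∧ z.im ≤ 1 + e}
  else {z | -e ≤ z.re ∧ z.re ≤ 1 + e ∧ -e ≤ z.im ∧ z.im ≤ 1 + e ∧ z.re ≤ z.im + e}

theorem sd0 {e : ℝ} {z : ℂ} :
    z ∈ Sd e 0 ↔ -e ≤ z.re ∧ z.re ≤ 1 + e ∧ -e ≤ z.im ∧ z.im ≤ e := by
  unfold Sd
  rw [if_pos rfl]
  exact Iff.rfl

theorem sd1 {e : ℝ} {z : ℂ} :
    z ∈ Sd e 1 ↔ 1 - e ≤ z.re ∧ z.re ≤ 1 + e ∧ -e ≤ z.im ∧ z.im ≤ 1 + e := by
  unfold Sd
  rw [if_neg (by decide), if_pos rfl]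
  exact Iff.rfl

theorem sd2 {e : ℝ} {z : ℂ} : z ∈ Sd e 2 ↔
    -e ≤ z.re ∧ z.re ≤ 1 + e ∧ -e ≤ z.im ∧ z.im ≤ 1 + e ∧ z.re ≤ z.im + e := by
  unfold Sd
  rw [if_neg (by decide), if_neg (by decide)]
  exact Iff.rfl

theorem z3 (k : ZMod 3) : k = 0 ∨ k = 1 ∨ k = 2 := by
  revert k; decide

theorem hul_iff {e : ℝ} {Z : ZMod 3 → ℂ} : Hul e 1 Z ↔ ∀ j, Z j ∈ Sd e j := by
  constructor
  · intro h j
    obtain ⟨b1, b2, b3, b4, r1, r2, r3, r4, t1, t2, t3, t4, t5⟩ := h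
    simp only [mul_one] at *
    rcases z3 j with rfl | rfl | rfl
    · exact sd0.2 ⟨b1, b2, b3, b4⟩
    · exact sd1.2 ⟨r1, r2, r3, r4⟩
    · exact sd2.2 ⟨t1, t2, t3, t4, t5⟩
  · intro h
    obtain ⟨b1, b2, b3, b4⟩ := sd0.1 (h 0)
    obtain ⟨r1, r2, r3, r4⟩ := sd1.1 (h 1)
    obtain ⟨t1, t2, t3, t4, t5⟩ := sd2.1 (h 2)
    constructor <;> simp only [mul_one] <;> assumption

theorem convex_sd (e : ℝ) (j : ZMod 3) : Convex ℝ (Sd e j) := by
  intro z hz w hw a b ha hb hab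
  have hre : (a • z + b • w).re = a * z.re + b * w.re := by simp
  have him : (a • z + b • w).im = a * z.im + b * w.im := by simp
  have hb' : b = 1 - a := by linarith
  rcases z3 j with rfl | rfl | rfl
  · rw [sd0] at hz hw ⊢
    rw [hre, him]
    obtain ⟨h1, h2, h3, h4⟩ := hz
    obtain ⟨k1, k2, k3, k4⟩ := hw
    refine ⟨?_, ?_, ?_, ?_⟩ <;> nlinarith
  · rw [sd1] at hz hw ⊢
    rw [hre, him]
    obtain ⟨h1, h2, h3, h4⟩ := hz
    obtain ⟨k1, k2, k3, k4⟩ := hw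
    refine ⟨?_, ?_, ?_, ?_⟩ <;> nlinarith
  · rw [sd2] at hz hw ⊢
    rw [hre, him]
    obtain ⟨h1, h2, h3, h4, h5⟩ := hz
    obtain ⟨k1, k2, k3, k4, k5⟩ := hw
    refine ⟨?_, ?_, ?_, ?_, ?_⟩ <;> nlinarith

theorem sd_mono {e e' : ℝ} (h : e ≤ e') (j : ZMod 3) : Sd e j ⊆ Sd e' j := by
  intro z hz
  rcases z3 j with rfl | rfl | rfl
  · rw [sd0] at hz ⊢
    obtain ⟨h1, h2, h3, h4⟩ := hz
    refine ⟨?_, ?_, ?_, ?_⟩ <;> linarith
  · rw [sd1] at hz ⊢
    obtain ⟨h1, h2, h3, h4⟩ := hz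
    refine ⟨?_, ?_, ?_, ?_⟩ <;> linarith
  · rw [sd2] at hz ⊢
    obtain ⟨h1, h2, h3, h4, h5⟩ := hz
    refine ⟨?_, ?_, ?_, ?_, ?_⟩ <;> linarith

/-- a point near a point of the side -/
theorem sd_near {e d : ℝ} {j : ZMod 3} {z w : ℂ} (hz : z ∈ Sd e j) (h : ‖w - z‖ ≤ d) :
    w ∈ Sd (e + 2 * d) j := by
  have h1 := (abs_le.1 ((Complex.abs_re_le_norm _).trans h))
  have h2 := (abs_le.1 ((Complex.abs_im_le_norm _).trans h))
  have hd : 0 ≤ d := (norm_nonneg _).trans h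
  rw [Complex.sub_re] at h1
  rw [Complex.sub_im] at h2
  obtain ⟨h1, h1'⟩ := h1
  obtain ⟨h2, h2'⟩ := h2
  rcases z3 j with rfl | rfl | rfl
  · rw [sd0] at hz ⊢
    obtain ⟨k1, k2, k3, k4⟩ := hz
    refine ⟨?_, ?_, ?_, ?_⟩ <;> linarith
  · rw [sd1] at hz ⊢
    obtain ⟨k1, k2, k3, k4⟩ := hz
    refine ⟨?_, ?_, ?_, ?_⟩ <;> linarith
  · rw [sd2] at hz ⊢
    obtain ⟨k1, k2, k3, k4, k5⟩ := hz
    refine ⟨?_, ?_, ?_, ?_, ?_⟩ <;> linarith

/-! ### means in a convex set: sites -/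

theorem mean_mem {ι : Type*} {H : Set ℂ} (hH : Convex ℝ H) (s : Finset ι) (hs : s.Nonempty)
    (f : ι → ℂ) (hf : ∀ a ∈ s, f a ∈ H) : (∑ a ∈ s, f a) / (s.card : ℂ) ∈ H := by
  have hc : (0 : ℝ) < s.card := by exact_mod_cast hs.card_pos
  have e : (∑ a ∈ s, f a) / (s.card : ℂ) = ∑ a ∈ s, ((s.card : ℝ)⁻¹) • f a := by
    rw [← Finset.smul_sum, Complex.real_smul, div_eq_inv_mul]
    push_cast
    rfl
  rw [e]
  refine hH.sum_mem (fun _ _ => by positivity) ?_ hf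
  rw [Finset.sum_const, nsmul_eq_mul]
  exact mul_inv_cancel₀ hc.ne'

theorem exC_mem {H : Set ℂ} (hH : Convex ℝ H) (V : Finset ℂ) (f : Finset ℂ → ℂ)
    (hf : ∀ T ⊆ V, f T ∈ H) : exC V f ∈ H := by
  unfold exC
  have h := mean_mem hH V.powerset ⟨∅, Finset.empty_mem_powerset V⟩ f
    fun T hT => hf T (Finset.mem_powerset.1 hT)
  rw [Finset.card_powerset] at h
  push_cast at h
  exact h

variable {S : Finset ℂ} {A : ZMod 3 → Set ℂ} {j : ZMod 3} {H : Set ℂ}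

/-- **the mean end point is in the convex set of the hit vertices** -/
theorem ey_mem_hits (hX : Hex S A) (hH : Convex ℝ H) (j : ZMod 3)
    (hA : ∀ T : Finset ℂ, T ⊆ ff S A → ∀ t, HitO S A j (T : Set ℂ) t → t.1 ∈ H) :
    Ey S A id j ∈ H := by
  rw [Ey_eq hX]
  refine exC_mem hH _ _ fun T hT => ?_
  obtain ⟨t, ht, -⟩ := hX j T hT
  show hv S A j (T : Set ℂ) ∈ H
  rw [hv_eq hX hT ht]
  exact hA T hT t ht

/-- **the mean end point is in any convex set containing the giant** -/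
theorem ey_mem (hX : Hex S A) (hH : Convex ℝ H) (j : ZMod 3) (hA : A j ⊆ H) :
    Ey S A id j ∈ H :=
  ey_mem_hits hX hH j fun _ _ _ ht => hA ht.2.1

/-! ### means in a convex set: closed maps -/

section cmap

variable {D C C' : Type} {M : CMap D C} {A : ZMod 3 → Set C} {i j : ZMod 3} {g : D}
  {π : C → C'} {z : C → ℂ}

/-- **a root face of the giants: every colouring has a hit of `A i`** -/
theorem hit_ex0 [Fintype D] (hπ : ClsCon M π) (R : C2SBx395.Root M A i g) (Q : C2SBx395.Cq π A)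
    (G : C2SBx395.Gi M A) (T : Set C) : ∃ k, C2SBx395.Hit M A i T k := by
  set χ : C' → ZMod 2 := fun c' =>
    if c' = π (M.cell g) ∨ c' = π (M.cell (M.rho g)) then 1
    else if c' = π (M.cell (M.rho (M.rho g))) then 0
    else if ∃ c ∈ T, π c = c' then 1 else 0 with hχ
  have n1 := Q.ne G R.r2 R.r0 (C2SBx395.z3a i).2.2.symm
  have n2 := Q.ne G R.r2 R.r1 (C2SBx395.z3a i).2.1.symm
  have h0 : χ (π (M.cell g)) = 1 := if_pos (Or.inl rfl)
  have h1 : χ (π (M.cell (M.rho g))) = 1 := if_pos (Or.inr rfl)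
  have h2 : χ (π (M.cell (M.rho (M.rho g)))) = 0 := by
    show (if _ then (1 : ZMod 2) else if _ then 0 else _) = 0
    rw [if_neg (by rintro (h | h); exacts [n1 h, n2 h]), if_pos rfl]
  have hit := C2SBx395.kB_hit (hπ := hπ) R Q G h0 h1 h2
  refine ⟨_, C2SBx395.Hit.congr (T' := T) (fun c hc => ?_) hit⟩
  have a0 : π c ≠ π (M.cell g) := fun e => hc _ (Q.mem G R.r0 e)
  have a1 : π c ≠ π (M.cell (M.rho g)) := fun e => hc _ (Q.mem G R.r1 e)
  have a2 : π c ≠ π (M.cell (M.rho (M.rho g))) := fun e => hc _ (Q.mem G R.r2 e)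
  have e1 : χ (π c) = if ∃ c' ∈ T, π c' = π c then 1 else 0 := by
    show (if _ then (1 : ZMod 2) else if _ then 0 else _) = _
    rw [if_neg (by rintro (h | h); exacts [a0 h, a1 h]), if_neg a2]
  show χ (π c) = 1 ↔ c ∈ T
  rw [e1]
  constructor
  · intro h
    by_cases h3 : ∃ c' ∈ T, π c' = π c
    · obtain ⟨c', h4, h5⟩ := h3
      rcases (Q.ker _ _).1 h5 with rfl | ⟨l, -, h6⟩
      · exact h4
      · exact absurd h6 (hc l)
    · rw [if_neg h3] at h
      exact absurd h (by decide)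
  · intro h
    exact if_pos ⟨c, h, rfl⟩

/-- **a root face of the giants: every colouring has a hit of every giant** -/
theorem hit_ex [Fintype D] (hπ : ClsCon M π) (R : C2SBx395.Root M A i g) (Q : C2SBx395.Cq π A)
    (G : C2SBx395.Gi M A) (j : ZMod 3) (T : Set C) : ∃ k, C2SBx395.Hit M A j T k := by
  rcases C2SBx395.z3c i j with rfl | rfl | rfl
  · exact hit_ex0 hπ R Q G T
  · have := hit_ex0 hπ R.rot.rot Q G T
    have e : i + 2 + 2 = i + 1 := (C2SBx395.z3b i).2.1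
    rwa [e] at this
  · exact hit_ex0 hπ R.rot Q G T

/-- **the mean end point is in any convex set containing the cells of the giant** -/
theorem ez_mem_of [Fintype D] [Fintype C] (G : C2SBx395.Gi M A) {H : Set ℂ} (hH : Convex ℝ H)
    (hex : ∀ T : Set C, ∃ k, C2SBx395.Hit M A j T k)
    (hA : ∀ (T : Set C) (k : D), C2SBx395.Hit M A j T k → z (M.cell k) ∈ H) :
    C2SBx395.Ez M A j z ∈ H := by
  unfold C2SBx395.Ez
  have h := mean_mem hH (Finset.univ : Finset (C → ZMod 2)) Finset.univ_nonempty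
    (fun χ => C2SBx395.yv M A j {c | χ c = 1} z) fun χ _ => by
      obtain ⟨k, hk⟩ := hex {c | χ c = 1}
      show C2SBx395.yv M A j {c | χ c = 1} z ∈ H
      rw [C2SBx395.yv_eq G hk]
      exact hA _ k hk
  rw [Finset.card_univ] at h
  exact h

/-- **(S2) on a closed map** : root face, `z` in `H` on the cells of the giant `A j` -/
theorem ez_mem [Fintype D] [Fintype C] (hπ : ClsCon M π) (R : C2SBx395.Root M A i g)
    (Q : C2SBx395.Cq π A) (G : C2SBx395.Gi M A) {H : Set ℂ} (hH : Convex ℝ H) (j : ZMod 3)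
    (hA : ∀ c ∈ A j, z c ∈ H) : C2SBx395.Ez M A j z ∈ H :=
  ez_mem_of G hH (hit_ex hπ R Q G j) fun _ _ hk => hA _ hk.tgt

/-- **(S2) for the three mean end points** : `Z j` is the mean end point on the giant `A j` in some
pattern `A = Ap k` (the outside is put into another giant), all its cells are near the side `j` -/
theorem hul_of [Fintype D] [Fintype C] {e : ℝ} {Z : ZMod 3 → ℂ}
    (h : ∀ j, ∃ (C' : Type) (π : C → C') (_ : ClsCon M π) (A : ZMod 3 → Set C) (i : ZMod 3)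
      (g : D), C2SBx395.Root M A i g ∧ C2SBx395.Cq π A ∧ C2SBx395.Gi M A ∧
      Z j = C2SBx395.Ez M A j z ∧ ∀ c ∈ A j, z c ∈ Sd e j) : Hul e 1 Z := by
  rw [hul_iff]
  intro j
  obtain ⟨C', π, hπ, A, i, g, R, Q, G, hZ, hA⟩ := h j
  rw [hZ]
  exact ez_mem hπ R Q G (convex_sd e j) j hA

end cmap

end Crest.Agent.R143.HullZx366
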