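import Crest.Agent.R143.IndLoc_279

/-!
# R143 (helper978): product weights (notes 3261 (b), 3252)

Notation of `PP0x831`, `IndLocx279` : `cfg ε ω` coloured configuration, `LocalOn B F`, `FinMeas F`,
`mu ε C`, `law ε C`.

* `Rs ε C F` : the configuration in `C` is integrated out; `Rs_meas`, `Rs_local`, `Rs_mul`,
  `Rs_tower` (`∫⁻ F (cfg) = ∫⁻ Rs ε C F (cfg)`), `Rs_le`
* `strip` : `E[(∏_{j ∈ J} e_j / π_j) H] = E[H]`, `π_j = Rs ε (C j) (e j)`, `H` does not see the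
  disjoint regions `C j`, `π_j ≠ 0` where `H ≠ 0`
* `structure Net ε ι κ` : gates `B i, a i`, tubes `C k, e k`, `N k` = gates seen by the tube,
  `c ≤ π_k` where the gates of `k` are good; `gw I J = ∏_I a_i ∏_J e_k c / π_k` (the weight g)
* `Net.gw_le_one`, `Net.gw_le`, `Net.gw_le'` : `g ≤ ∏ a ∏ e ≤ 1`
* `Net.mass` : `E g = c^{#J} ∏ E a_i`;  `Net.local_law`, `Net.ratio` : `E[g F] / E g = E[g₀ F] / E g₀`
* `Net.upper` : `c^{#J₀} ∏_{I₀} E a_i · E[g F] ≤ E g · E[∏_{I₀} a_i ∏_{J₀} e_k F]`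
* `Net.law_eq` (law of any local `f` under `g P`), `Net.mean` (mean of a vector valued local `f`)

-/

set_option autoImplicit false

noncomputable section

namespace Crest.Agent.R143.PWx978

open MeasureTheory Set ProbabilityTheory
open Crest.ProbabilityR.Voronoi
open Crest.Agent.R143.PP0x831 Crest.Agent.R143.Poisx304 Crest.Agent.R143.Janx304
open Crest.Agent.R143.IndLocx279
open scoped ENNReal Nat

/-- coloured configurations -/
abbrev Cf : Type := Set (ℂ × Bool)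

variable {ε : ℝ} {B B' C C' : Set ℂ} {F G H : Cf → ℝ≥0∞}

/-! ## restriction of a configuration -/

/-- restriction to a Borel set keeps `FinMeas` -/
theorem fm_inter (hF : FinMeas F) {D : Set ℂ} (hD : MeasurableSet D) :
    FinMeas fun X => F (X ∩ ovr D) := by
  classical
  intro n
  have hfrs : FRS fun z : Fin n → ℂ × Bool => range z ∩ ovr D := by
    have e : (fun z : Fin n → ℂ × Bool => range z ∩ ovr D) =
        fun z => ⋃ i ∈ (Finset.univ : Finset (Fin n)),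
          (if (z i).1 ∈ D then {z i} else (∅ : Set (ℂ × Bool))) := by
      funext z
      ext p
      simp only [ovr, mem_inter_iff, mem_range, mem_ofPred_eq, mem_iUnion, Finset.mem_univ,
        exists_true_left]
      constructor
      · rintro ⟨⟨i, rfl⟩, h⟩
        exact ⟨i, by rw [if_pos h]; rfl⟩
      · rintro ⟨i, h⟩
        by_cases hi : (z i).1 ∈ D
        · rw [if_pos hi] at h
          rw [mem_singleton_iff.1 h]
          exact ⟨⟨i, rfl⟩, hi⟩
        · rw [if_neg hi] at h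
          exact absurd h (notMem_empty _)
    rw [e]
    refine FRS.biUnion _ _ fun i => ?_
    refine ⟨fun z => if (z i).1 ∈ D then 1 else 0, fun _ z => z i, ?_, fun _ => by fun_prop, ?_⟩
    · refine Measurable.ite ?_ measurable_const measurable_const
      have : Measurable fun z : Fin n → ℂ × Bool => (z i).1 := by fun_prop
      exact this hD
    · intro z
      by_cases hi : (z i).1 ∈ D
      · simp only [if_pos hi]
        ext p
        simp
      · simp [if_neg hi]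
  exact hfrs.meas (G := F) hF

lemma local_eq' {X : Type*} {F : Cf → X} (h : LocalOn B F) {S T : Cf}
    (hST : S ∩ ovr B = T ∩ ovr B) : F S = F T := by
  rw [h S, h T]
  exact congrArg F hST

lemma localOn_of {X : Type*} {F : Cf → X} (h : ∀ S T : Cf, S ∩ ovr B = T ∩ ovr B → F S = F T) :
    LocalOn B F := by
  intro S
  refine h _ _ ?_
  change S ∩ ovr B = (S ∩ ovr B) ∩ ovr B
  rw [inter_assoc, inter_self]

/-! ## integrating out a region -/

/-- integrate out the configuration in `C` -/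
def Rs (ε : ℝ) (C : Set ℂ) (F : Cf → ℝ≥0∞) (S : Cf) : ℝ≥0∞ :=
  J (mu ε C) fun T => F ((S ∩ ovr Cᶜ) ∪ T)

lemma Rs_meas (hε : 0 < ε) (hC : MeasurableSet C) (hCb : Bornology.IsBounded C)
    (hF : FinMeas F) : FinMeas (Rs ε C F) := by
  have := finite_mu' hε hCb
  have h1 : FM F := hF
  exact fm_inter (F := fun S => J (mu ε C) fun T => F (S ∪ T)) h1.J hC.compl

lemma J_congr_ovr (hε : 0 < ε) (hC : MeasurableSet C) (hCb : Bornology.IsBounded C)
    {F G : Cf → ℝ≥0∞} (h : ∀ T, T ⊆ ovr C → F T = G T) : J (mu ε C) F = J (mu ε C) G := by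
  have := finite_mu' hε hCb
  exact J_congr (mu_ae hε hC hCb) h

lemma Rs_local (hε : 0 < ε) (hC : MeasurableSet C) (hCb : Bornology.IsBounded C)
    (hF : LocalOn B F) : LocalOn (B \ C) (Rs ε C F) := by
  refine localOn_of fun S T hST => ?_
  unfold Rs
  refine J_congr_ovr hε hC hCb fun X _ => local_eq' hF ?_
  ext p
  have h := Set.ext_iff.1 hST p
  simp only [ovr, mem_inter_iff, mem_union, mem_ofPred_eq, mem_sdiff, mem_compl_iff] at h ⊢
  tauto

lemma fm_union_fin (hF : FinMeas F) {S₀ : Cf} (h : S₀.Finite) : FM fun T => F (S₀ ∪ T) := by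
  have h1 : FM F := hF
  obtain ⟨n, f, rfl⟩ := h.fin_embedding
  exact h1.union_range f

lemma finite_st (x : Cn (ℂ × Bool)) : (st x).Finite := finite_range _

/-- `Rs` at a finite configuration -/
lemma Rs_eq (hF : FinMeas F) {S : Cf} (hS : S.Finite) :
    Rs ε C F S = ∫⁻ y, F ((S ∩ ovr Cᶜ) ∪ st y) ∂(law ε C) := by
  unfold Rs law
  rw [← lint_PP]
  exact fm_union_fin hF (hS.subset inter_subset_left)

lemma Rs_mul (hε : 0 < ε) (hC : MeasurableSet C) (hCb : Bornology.IsBounded C)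
    (hH : LocalOn B H) (hd : Disjoint B C) (hF : FinMeas F) {S : Cf} (hS : S.Finite) :
    Rs ε C (fun S => H S * F S) S = H S * Rs ε C F S := by
  have h1 : Rs ε C (fun S => H S * F S) S =
      J (mu ε C) fun T => H S * F ((S ∩ ovr Cᶜ) ∪ T) := by
    unfold Rs
    refine J_congr_ovr hε hC hCb fun X hX => ?_
    refine congrArg (· * F (S ∩ ovr Cᶜ ∪ X)) (local_eq' hH ?_)
    ext p
    have h1 : p.1 ∈ B → p.1 ∉ C := fun h h' => Set.disjoint_left.1 hd h h'
    have h2 : p ∈ X → p.1 ∈ C := fun h => hX h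
    simp only [ovr, mem_inter_iff, mem_union, mem_ofPred_eq, mem_compl_iff]
    tauto
  have h2 := fm_union_fin hF (hS.subset (inter_subset_left (t := ovr Cᶜ)))
  rw [h1, Rs_eq hF hS, ← lint_PP _ (h2.const_mul (H S)),
    lintegral_const_mul _ (meas_st (f := fun T => F ((S ∩ ovr Cᶜ) ∪ T)) h2)]
  rfl

lemma Rs_le (hε : 0 < ε) (hCb : Bornology.IsBounded C) {c : ℝ≥0∞} (h : ∀ S, F S ≤ c)
    (hF : FinMeas F) {S : Cf} (hS : S.Finite) : Rs ε C F S ≤ c := by
  have := prob_law hε hCb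
  rw [Rs_eq hF hS]
  calc ∫⁻ y, F ((S ∩ ovr Cᶜ) ∪ st y) ∂(law ε C) ≤ ∫⁻ _, c ∂(law ε C) :=
        lintegral_mono fun y => h _
    _ = c := by simp

/-- integrals of local functions which agree at the finite configurations in `B` -/
lemma lint_congr (hε : 0 < ε) (hB : MeasurableSet B) (hb : Bornology.IsBounded B)
    (hF : LocalOn B F) (hG : LocalOn B G) (hFm : FinMeas F) (hGm : FinMeas G)
    (h : ∀ S : Cf, S.Finite → S ⊆ ovr B → F S = G S) :
    ∫⁻ ω, F (cfg ε ω) ∂sampleLaw = ∫⁻ ω, G (cfg ε ω) ∂sampleLaw := by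
  have := finite_mu' hε hb
  have h1 : ∀ᵐ z ∂(mu ε B), z ∈ ovr B := mu_ae hε hB hb
  rw [lint_one hε hB hb hF hFm, lint_one hε hB hb hG hGm]
  unfold J Q P
  congr 1
  refine tsum_congr fun n => ?_
  congr 1
  have hae : ∀ᵐ z ∂(Measure.pi fun _ : Fin n => mu ε B), ∀ i, z i ∈ ovr B := by
    rw [ae_all_iff]
    intro i
    exact (Measure.quasiMeasurePreserving_eval (fun _ : Fin n => mu ε B) i).ae h1
  refine lintegral_congr_ae ?_
  filter_upwards [hae] with z hz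
  exact h _ (finite_range z) (by rintro _ ⟨i, rfl⟩; exact hz i)

/-- **TOWER** -/
theorem Rs_tower (hε : 0 < ε) (hB : MeasurableSet B) (hb : Bornology.IsBounded B)
    (hC : MeasurableSet C) (hCb : Bornology.IsBounded C) (hF : LocalOn B F) (hFm : FinMeas F) :
    ∫⁻ ω, F (cfg ε ω) ∂sampleLaw = ∫⁻ ω, Rs ε C F (cfg ε ω) ∂sampleLaw := by
  have hb' : Bornology.IsBounded (B \ C) := hb.subset sdiff_subset
  have hB' : MeasurableSet (B \ C) := hB.diff hC
  have := finite_mu' hε hCb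
  have := finite_mu' hε hb'
  have hd : Disjoint (B \ C) C := disjoint_sdiff_left
  have hl : LocalOn ((B \ C) ∪ C) F := LocalOn.mono (by rw [sdiff_union_self]; exact subset_union_left) hF
  have hm : FM F := hFm
  rw [lint_one hε (hB'.union hC) (hb'.union hCb) hl hFm, mu_union hε hC hb' hCb hd,
    J_add _ _ hm, lint_one hε hB' hb' (Rs_local hε hC hCb hF) (Rs_meas hε hC hCb hFm)]
  refine J_congr_ovr hε hB' hb' fun S hS => ?_
  unfold Rs
  congr 1
  funext T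
  congr 2
  ext p
  have := fun h : p ∈ S => hS h
  simp only [ovr, mem_inter_iff, mem_ofPred_eq, mem_sdiff, mem_compl_iff] at this ⊢
  tauto

/-! ## products -/

lemma fm_mul (hF : FinMeas F) (hG : FinMeas G) : FinMeas fun S => F S * G S :=
  fun n => (hF n).mul (hG n)

lemma fm_inv (hF : FinMeas F) : FinMeas fun S => (F S)⁻¹ := fun n => (hF n).inv

lemma fm_prod {ι : Type*} (J : Finset ι) {f : ι → Cf → ℝ≥0∞} (h : ∀ j ∈ J, FinMeas (f j)) :
    FinMeas fun S => ∏ j ∈ J, f j S :=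
  fun n => Finset.measurable_fun_prod J fun j hj => h j hj n

lemma local_mul (hF : LocalOn B F) (hG : LocalOn B' G) :
    LocalOn (B ∪ B') fun S => F S * G S :=
  LocalOn.mul (LocalOn.mono subset_union_left hF) (LocalOn.mono subset_union_right hG)

lemma local_prod {ι : Type*} (J : Finset ι) {f : ι → Cf → ℝ≥0∞} {D : ι → Set ℂ}
    (h : ∀ j ∈ J, LocalOn (D j) (f j)) : LocalOn (⋃ j ∈ J, D j) fun S => ∏ j ∈ J, f j S := by
  intro S
  refine Finset.prod_congr rfl fun j hj => ?_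
  exact LocalOn.mono (subset_biUnion_of_mem (u := D) hj) (h j hj) S

lemma local_prod' {ι : Type*} (J : Finset ι) {f : ι → Cf → ℝ≥0∞} {D : Set ℂ}
    (h : ∀ j ∈ J, LocalOn D (f j)) : LocalOn D fun S => ∏ j ∈ J, f j S :=
  fun S => Finset.prod_congr rfl fun j hj => h j hj S

/-- **STRIP** the normalised factors of disjoint regions -/
theorem strip (hε : 0 < ε) {κ : Type*} (J : Finset κ) (C : κ → Set ℂ) (e : κ → Cf → ℝ≥0∞)
    {A : Set ℂ} (hA : MeasurableSet A) (hAb : Bornology.IsBounded A)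
    (hC : ∀ j ∈ J, MeasurableSet (C j)) (hCb : ∀ j ∈ J, Bornology.IsBounded (C j))
    (hCd : ∀ i ∈ J, ∀ j ∈ J, i ≠ j → Disjoint (C i) (C j)) (hAC : ∀ j ∈ J, Disjoint A (C j))
    (he : ∀ j ∈ J, LocalOn (A ∪ C j) (e j)) (hem : ∀ j ∈ J, FinMeas (e j))
    (he1 : ∀ j ∈ J, ∀ S, e j S ≤ 1) (hH : LocalOn A H) (hHm : FinMeas H)
    (hpos : ∀ j ∈ J, ∀ S : Cf, S.Finite → H S ≠ 0 → Rs ε (C j) (e j) S ≠ 0) :
    ∫⁻ ω, (∏ j ∈ J, e j (cfg ε ω) * (Rs ε (C j) (e j) (cfg ε ω))⁻¹) * H (cfg ε ω) ∂sampleLaw =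
      ∫⁻ ω, H (cfg ε ω) ∂sampleLaw := by
  classical
  induction J using Finset.induction_on with
  | empty => simp
  | insert k J hk ih =>
    have hkC := hC k (Finset.mem_insert_self k J)
    have hkb := hCb k (Finset.mem_insert_self k J)
    have hke := he k (Finset.mem_insert_self k J)
    have hkm := hem k (Finset.mem_insert_self k J)
    have hk1 := he1 k (Finset.mem_insert_self k J)
    have hkA := hAC k (Finset.mem_insert_self k J)
    have hkp := hpos k (Finset.mem_insert_self k J)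
    have mem : ∀ j ∈ J, j ∈ insert k J := fun j hj => Finset.mem_insert_of_mem hj
    have hπl : ∀ j ∈ insert k J, LocalOn A (Rs ε (C j) (e j)) := by
      intro j hj
      refine LocalOn.mono ?_ (Rs_local hε (hC j hj) (hCb j hj) (he j hj))
      rw [union_sdiff_right]
      exact sdiff_subset
    have hπm : ∀ j ∈ insert k J, FinMeas (Rs ε (C j) (e j)) := fun j hj =>
      Rs_meas hε (hC j hj) (hCb j hj) (hem j hj)
    set P : Cf → ℝ≥0∞ := fun S => ∏ j ∈ J, e j S * (Rs ε (C j) (e j) S)⁻¹ with hP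
    set A' : Set ℂ := A ∪ ⋃ j ∈ J, C j with hA'
    have hPl : LocalOn A' P := by
      refine local_prod' J fun j hj => ?_
      refine LocalOn.mul (LocalOn.mono ?_ (he j (mem j hj)))
        (LocalOn.comp (LocalOn.mono ?_ (hπl j (mem j hj))) (·⁻¹))
      · exact union_subset_union_right _ (subset_biUnion_of_mem (u := C) hj)
      · exact subset_union_left
    have hPm : FinMeas P := fm_prod J fun j hj =>
      fm_mul (hem j (mem j hj)) (fm_inv (hπm j (mem j hj)))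
    have hA'm : MeasurableSet A' :=
      hA.union (Finset.measurableSet_biUnion J fun j hj => hC j (mem j hj))
    have hA'b : Bornology.IsBounded A' :=
      hAb.union ((Bornology.isBounded_biUnion_finset J).2 fun j hj => hCb j (mem j hj))
    have hA'd : Disjoint A' (C k) := by
      rw [hA', disjoint_union_left]
      refine ⟨hkA, ?_⟩
      rw [disjoint_iUnion₂_left]
      intro j hj
      refine hCd j (mem j hj) k (Finset.mem_insert_self k J) ?_
      rintro rfl; exact hk hj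
    set H' : Cf → ℝ≥0∞ := fun S => ((Rs ε (C k) (e k) S)⁻¹ * P S) * H S with hH'
    have hH'l : LocalOn A' H' :=
      LocalOn.mul (LocalOn.mul (LocalOn.comp (LocalOn.mono subset_union_left
        (hπl k (Finset.mem_insert_self k J))) (·⁻¹)) hPl) (LocalOn.mono subset_union_left hH)
    have hH'm : FinMeas H' :=
      fm_mul (fm_mul (fm_inv (hπm k (Finset.mem_insert_self k J))) hPm) hHm
    have e1 : ∀ S, (∏ j ∈ insert k J, e j S * (Rs ε (C j) (e j) S)⁻¹) * H S = H' S * e k S := by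
      intro S
      rw [Finset.prod_insert hk]
      simp only [hH', hP]
      ring
    simp only [e1]
    have hl1 : LocalOn (A' ∪ C k) fun S => H' S * e k S :=
      LocalOn.mul (LocalOn.mono subset_union_left hH'l)
        (LocalOn.mono (union_subset_union_left _ subset_union_left) hke)
    rw [Rs_tower (F := fun S => H' S * e k S) hε (hA'm.union hkC) (hA'b.union hkb) hkC hkb hl1
      (fm_mul hH'm hkm)]
    have ih' := ih (fun j hj => hC j (mem j hj)) (fun j hj => hCb j (mem j hj))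
      (fun i hi j hj => hCd i (mem i hi) j (mem j hj)) (fun j hj => hAC j (mem j hj))
      (fun j hj => he j (mem j hj)) (fun j hj => hem j (mem j hj)) (fun j hj => he1 j (mem j hj))
      (fun j hj => hpos j (mem j hj))
    rw [← ih']
    refine lint_congr (B := A' ∪ C k) (F := Rs ε (C k) fun S => H' S * e k S)
      (G := fun S => P S * H S) hε (hA'm.union hkC) (hA'b.union hkb)
      (LocalOn.mono sdiff_subset (Rs_local hε hkC hkb hl1))
      (LocalOn.mul (LocalOn.mono subset_union_left hPl)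
        (LocalOn.mono (subset_union_left.trans subset_union_left) hH))
      (Rs_meas hε hkC hkb (fm_mul hH'm hkm)) (fm_mul hPm hHm) ?_
    intro S hS _
    rw [Rs_mul hε hkC hkb hH'l hA'd hkm hS]
    simp only [hH']
    by_cases h0 : H S = 0
    · simp [h0]
    · have h1 : Rs ε (C k) (e k) S ≠ 0 := hkp S hS h0
      have h2 : Rs ε (C k) (e k) S ≠ ∞ := ne_top_of_le_ne_top ENNReal.one_ne_top
        (Rs_le hε hkb hk1 hkm hS)
      calc (Rs ε (C k) (e k) S)⁻¹ * P S * H S * Rs ε (C k) (e k) S =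
          ((Rs ε (C k) (e k) S)⁻¹ * Rs ε (C k) (e k) S) * (P S * H S) := by ring
        _ = P S * H S := by rw [ENNReal.inv_mul_cancel h1 h2, one_mul]

/-! ## the weight -/

/-- gates `B i` with weights `a i`, tubes `C k` with weights `e k`; the tube `k` sees the gates
`N k`; given good gates the mean of `e k` over the tube is at least `c` -/
structure Net (ε : ℝ) (ι κ : Type*) where
  B : ι → Set ℂ
  C : κ → Set ℂ
  a : ι → Cf → ℝ≥0∞
  e : κ → Cf → ℝ≥0∞
  N : κ → Finset ι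
  c : ℝ≥0∞
  eps : 0 < ε
  c0 : c ≠ 0
  c1 : c ≠ ∞
  Bm : ∀ i, MeasurableSet (B i)
  Bb : ∀ i, Bornology.IsBounded (B i)
  Cm : ∀ k, MeasurableSet (C k)
  Cb : ∀ k, Bornology.IsBounded (C k)
  BB : ∀ i i', i ≠ i' → Disjoint (B i) (B i')
  CC : ∀ k k', k ≠ k' → Disjoint (C k) (C k')
  BC : ∀ i k, Disjoint (B i) (C k)
  al : ∀ i, LocalOn (B i) (a i)
  am : ∀ i, FinMeas (a i)
  a1 : ∀ i S, a i S ≤ 1
  el : ∀ k, LocalOn ((⋃ i ∈ N k, B i) ∪ C k) (e k)
  em : ∀ k, FinMeas (e k)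
  e1 : ∀ k S, e k S ≤ 1
  pos : ∀ k, ∀ S : Cf, S.Finite → (∀ i ∈ N k, a i S ≠ 0) → c ≤ Rs ε (C k) (e k) S

namespace Net

variable {ι κ : Type*} (M : Net ε ι κ)

/-- the normalised tube factor `e_k c / π_k` -/
def fac (k : κ) (S : Cf) : ℝ≥0∞ := M.e k S * (M.c * (Rs ε (M.C k) (M.e k) S)⁻¹)

/-- the weight of the gates `I` and the tubes `J` -/
def gw (I : Finset ι) (J : Finset κ) (S : Cf) : ℝ≥0∞ := (∏ i ∈ I, M.a i S) * ∏ k ∈ J, M.fac k S

/-- the region of the gates `I` and the tubes `J` -/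
def reg (I : Finset ι) (J : Finset κ) : Set ℂ := (⋃ i ∈ I, M.B i) ∪ ⋃ k ∈ J, M.C k

lemma reg_meas (I : Finset ι) (J : Finset κ) : MeasurableSet (M.reg I J) :=
  (Finset.measurableSet_biUnion I fun i _ => M.Bm i).union
    (Finset.measurableSet_biUnion J fun k _ => M.Cm k)

lemma reg_bdd (I : Finset ι) (J : Finset κ) : Bornology.IsBounded (M.reg I J) :=
  ((Bornology.isBounded_biUnion_finset I).2 fun i _ => M.Bb i).union
    ((Bornology.isBounded_biUnion_finset J).2 fun k _ => M.Cb k)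

lemma reg_mono {I I' : Finset ι} {J J' : Finset κ} (h : I ⊆ I') (h' : J ⊆ J') :
    M.reg I J ⊆ M.reg I' J' :=
  union_subset_union (biUnion_subset_biUnion_left h) (biUnion_subset_biUnion_left h')

lemma pi_local (k : κ) : LocalOn (⋃ i ∈ M.N k, M.B i) (Rs ε (M.C k) (M.e k)) := by
  refine LocalOn.mono ?_ (Rs_local M.eps (M.Cm k) (M.Cb k) (M.el k))
  rw [union_sdiff_right]
  exact sdiff_subset

lemma fac_local (k : κ) : LocalOn ((⋃ i ∈ M.N k, M.B i) ∪ M.C k) (M.fac k) := by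
  refine LocalOn.mul (M.el k) ?_
  exact LocalOn.comp (LocalOn.mono subset_union_left (M.pi_local k)) (fun x => M.c * x⁻¹)

lemma fac_meas (k : κ) : FinMeas (M.fac k) := by
  refine fm_mul (M.em k) fun n => ?_
  exact (fm_inv (Rs_meas M.eps (M.Cm k) (M.Cb k) (M.em k)) n).const_mul _

lemma a_local {I : Finset ι} {J : Finset κ} : LocalOn (M.reg I J) fun S => ∏ i ∈ I, M.a i S :=
  LocalOn.mono subset_union_left (local_prod I fun i _ => M.al i)

lemma gw_local {I : Finset ι} {J : Finset κ} (h : ∀ k ∈ J, M.N k ⊆ I) :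
    LocalOn (M.reg I J) (M.gw I J) := by
  refine LocalOn.mul M.a_local (local_prod' J fun k hk => LocalOn.mono ?_ (M.fac_local k))
  exact union_subset_union (biUnion_subset_biUnion_left (h k hk))
    (subset_biUnion_of_mem (u := M.C) hk)

lemma gw_meas (I : Finset ι) (J : Finset κ) : FinMeas (M.gw I J) :=
  fm_mul (fm_prod I fun i _ => M.am i) (fm_prod J fun k _ => M.fac_meas k)

/-- `fac ≤ 1` where the gates are good -/
lemma fac_le {k : κ} {S : Cf} (hS : S.Finite) (h : ∀ i ∈ M.N k, M.a i S ≠ 0) : M.fac k S ≤ 1 := by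
  have h1 := M.pos k S hS h
  have h2 : Rs ε (M.C k) (M.e k) S ≠ 0 := fun h => M.c0 (le_zero_iff.1 (h ▸ h1))
  have h3 : Rs ε (M.C k) (M.e k) S ≠ ∞ := ne_top_of_le_ne_top ENNReal.one_ne_top
    (Rs_le M.eps (M.Cb k) (M.e1 k) (M.em k) hS)
  calc M.fac k S ≤ 1 * (Rs ε (M.C k) (M.e k) S * (Rs ε (M.C k) (M.e k) S)⁻¹) := by
        unfold fac
        gcongr
        exact M.e1 k S
    _ = 1 := by rw [ENNReal.mul_inv_cancel h2 h3, one_mul]

/-- `g ≤ ∏ a`, in particular `g ≤ 1`, at finite configurations -/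
lemma gw_le_fin {I : Finset ι} {J : Finset κ} (h : ∀ k ∈ J, M.N k ⊆ I) {S : Cf} (hS : S.Finite) :
    M.gw I J S ≤ ∏ i ∈ I, M.a i S := by
  by_cases h0 : ∏ i ∈ I, M.a i S = 0
  · unfold gw; rw [h0, zero_mul]
  · have h1 : ∀ i ∈ I, M.a i S ≠ 0 := fun i hi h => h0 (Finset.prod_eq_zero hi h)
    have h2 : ∏ k ∈ J, M.fac k S ≤ 1 :=
      Finset.prod_le_one' fun k hk => M.fac_le hS fun i hi => h1 i (h k hk hi)
    calc M.gw I J S ≤ (∏ i ∈ I, M.a i S) * 1 := by unfold gw; gcongr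
      _ = _ := mul_one _

end Net

lemma cfg_finite (hε : 0 < ε) (hb : Bornology.IsBounded B) (ω : Sample) :
    (cfg ε ω ∩ ovr B).Finite := by
  classical
  obtain ⟨K, h1, -⟩ := exists_cells hε hb
  have h2 : cfg ε ω ∩ ovr B ⊆ ⋃ k ∈ K, blk ε k (zipS ω k) := by
    rintro p ⟨hp, hB⟩
    rw [cfg_eq] at hp
    obtain ⟨k, hk⟩ := mem_iUnion.1 hp
    refine mem_iUnion₂.2 ⟨k, ?_, hk⟩
    obtain ⟨j, -, rfl⟩ := hk
    exact h1 k _ hB
  refine Set.Finite.subset (Set.Finite.biUnion K.finite_toSet fun k _ => ?_) h2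
  exact (Set.finite_lt_nat _).image _

namespace Net

variable {ι κ : Type*} (M : Net ε ι κ)

theorem gw_le {I : Finset ι} {J : Finset κ} (h : ∀ k ∈ J, M.N k ⊆ I) (ω : Sample) :
    M.gw I J (cfg ε ω) ≤ ∏ i ∈ I, M.a i (cfg ε ω) := by
  have h1 := M.gw_le_fin h (cfg_finite M.eps (M.reg_bdd I J) ω)
  have h2 := M.gw_local h (cfg ε ω)
  have h3 : ∏ i ∈ I, M.a i (cfg ε ω) = _ := M.a_local (I := I) (J := J) (cfg ε ω)
  rw [h2, h3]
  exact h1

theorem gw_le_one {I : Finset ι} {J : Finset κ} (h : ∀ k ∈ J, M.N k ⊆ I) (ω : Sample) :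
    M.gw I J (cfg ε ω) ≤ 1 :=
  (M.gw_le h ω).trans (Finset.prod_le_one' fun i _ => M.a1 i _)

/-- the gates are independent -/
lemma gates (I I₀ : Finset ι) (J₀ : Finset κ) (hI : Disjoint I I₀) (hF : LocalOn (M.reg I₀ J₀) F)
    (hFm : FinMeas F) :
    ∫⁻ ω, (∏ i ∈ I, M.a i (cfg ε ω)) * F (cfg ε ω) ∂sampleLaw =
      (∏ i ∈ I, ∫⁻ ω, M.a i (cfg ε ω) ∂sampleLaw) * ∫⁻ ω, F (cfg ε ω) ∂sampleLaw := by
  classical
  induction I using Finset.induction_on with
  | empty => simp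
  | insert k I hk ih =>
    have hkI : k ∉ I₀ := fun h => Finset.disjoint_left.1 hI (Finset.mem_insert_self k I) h
    have hI' : Disjoint I I₀ := hI.mono_left (Finset.subset_insert k I)
    simp only [Finset.prod_insert hk, mul_assoc]
    have hd : Disjoint (M.B k) (M.reg (I ∪ I₀) J₀) := by
      unfold reg
      rw [disjoint_union_right, disjoint_iUnion₂_right, disjoint_iUnion₂_right]
      refine ⟨fun i hi => M.BB k i ?_, fun j _ => M.BC k j⟩
      rintro rfl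
      rcases Finset.mem_union.1 hi with h | h
      · exact hk h
      · exact hkI h
    have hl : LocalOn (M.reg (I ∪ I₀) J₀) fun S => (∏ i ∈ I, M.a i S) * F S :=
      LocalOn.mul (LocalOn.mono (M.reg_mono Finset.subset_union_left (Finset.empty_subset J₀))
        M.a_local) (LocalOn.mono (M.reg_mono Finset.subset_union_right subset_rfl) hF)
    rw [lint_mul (F := M.a k) (G := fun S => (∏ i ∈ I, M.a i S) * F S) M.eps (M.Bm k) (M.Bb k)
      (M.reg_meas _ _) (M.reg_bdd _ _) hd (M.al k) hl (M.am k)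
      (fm_mul (fm_prod I fun i _ => M.am i) hFm), ih hI']

/-- **LOCAL LAW**: `E[g F] = E[g₀ F] · c^{#(J ∖ J₀)} ∏_{I ∖ I₀} E[a_i]` -/
theorem local_law [DecidableEq ι] [DecidableEq κ] {I I₀ : Finset ι} {J J₀ : Finset κ}
    (hI : I₀ ⊆ I) (hJ : J₀ ⊆ J) (hN : ∀ k ∈ J, M.N k ⊆ I) (hN₀ : ∀ k ∈ J₀, M.N k ⊆ I₀)
    (hF : LocalOn (M.reg I₀ J₀) F) (hFm : FinMeas F) :
    ∫⁻ ω, M.gw I J (cfg ε ω) * F (cfg ε ω) ∂sampleLaw =
      M.c ^ (J \ J₀).card * (∏ i ∈ I \ I₀, ∫⁻ ω, M.a i (cfg ε ω) ∂sampleLaw) *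
        ∫⁻ ω, M.gw I₀ J₀ (cfg ε ω) * F (cfg ε ω) ∂sampleLaw := by
  set H : Cf → ℝ≥0∞ := fun S => (∏ i ∈ I \ I₀, M.a i S) * (M.gw I₀ J₀ S * F S) with hH
  have hgl : LocalOn (M.reg I₀ J₀) fun S => M.gw I₀ J₀ S * F S := LocalOn.mul (M.gw_local hN₀) hF
  have hgm : FinMeas fun S => M.gw I₀ J₀ S * F S := fm_mul (M.gw_meas I₀ J₀) hFm
  have e1 : ∀ S, M.gw I J S * F S = M.c ^ (J \ J₀).card *
      ((∏ k ∈ J \ J₀, M.e k S * (Rs ε (M.C k) (M.e k) S)⁻¹) * H S) := by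
    intro S
    have h1 : ∏ i ∈ I, M.a i S = (∏ i ∈ I \ I₀, M.a i S) * ∏ i ∈ I₀, M.a i S :=
      (Finset.prod_sdiff hI).symm
    have h2 : ∏ k ∈ J, M.fac k S = (∏ k ∈ J \ J₀, M.fac k S) * ∏ k ∈ J₀, M.fac k S :=
      (Finset.prod_sdiff hJ).symm
    have h3 : ∏ k ∈ J \ J₀, M.fac k S = M.c ^ (J \ J₀).card *
        ∏ k ∈ J \ J₀, M.e k S * (Rs ε (M.C k) (M.e k) S)⁻¹ := by
      rw [← Finset.prod_const, ← Finset.prod_mul_distrib]
      refine Finset.prod_congr rfl fun k _ => ?_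
      unfold fac; ring
    rw [hH]
    unfold gw
    rw [h1, h2, h3]
    ring
  have hHl : LocalOn (M.reg I J₀) H :=
    LocalOn.mul (LocalOn.mono (M.reg_mono Finset.sdiff_subset (Finset.empty_subset J₀)) M.a_local)
      (LocalOn.mono (M.reg_mono hI subset_rfl) hgl)
  have hHm : FinMeas H := fm_mul (fm_prod _ fun i _ => M.am i) hgm
  simp only [e1]
  rw [lintegral_const_mul']
  swap
  · exact ENNReal.pow_ne_top M.c1
  rw [strip M.eps (J \ J₀) M.C M.e (M.reg_meas I J₀) (M.reg_bdd I J₀) (fun k _ => M.Cm k)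
    (fun k _ => M.Cb k) (fun k _ k' _ => M.CC k k') ?_ ?_ (fun k _ => M.em k)
    (fun k _ => M.e1 k) hHl hHm ?_, hH]
  · rw [M.gates (I \ I₀) I₀ J₀ Finset.sdiff_disjoint hgl hgm]
    ring
  · intro k hk
    unfold reg
    rw [disjoint_union_left, disjoint_iUnion₂_left, disjoint_iUnion₂_left]
    refine ⟨fun i _ => M.BC i k, fun k' hk' => M.CC k' k ?_⟩
    rintro rfl
    exact (Finset.mem_sdiff.1 hk).2 hk'
  · intro k hk
    refine LocalOn.mono (union_subset_union_left _ ?_) (M.el k)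
    exact (biUnion_subset_biUnion_left (hN k (Finset.mem_sdiff.1 hk).1)).trans subset_union_left
  · intro k hk S hS h0 h
    have h1 : ∀ i ∈ I, M.a i S ≠ 0 := by
      intro i hi h2
      refine h0 ?_
      simp only [hH]
      by_cases hi0 : i ∈ I₀
      · unfold gw
        rw [Finset.prod_eq_zero hi0 h2]; simp
      · rw [Finset.prod_eq_zero (Finset.mem_sdiff.2 ⟨hi, hi0⟩) h2, zero_mul]
    have h3 := M.pos k S hS fun i hi => h1 i (hN k (Finset.mem_sdiff.1 hk).1 hi)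
    rw [h] at h3
    exact M.c0 (le_zero_iff.1 h3)

/-- **MASS** of the weight -/
theorem mass {I : Finset ι} {J : Finset κ} (hN : ∀ k ∈ J, M.N k ⊆ I) :
    ∫⁻ ω, M.gw I J (cfg ε ω) ∂sampleLaw =
      M.c ^ J.card * ∏ i ∈ I, ∫⁻ ω, M.a i (cfg ε ω) ∂sampleLaw := by
  classical
  have : IsProbabilityMeasure sampleLaw := by unfold sampleLaw; infer_instance
  have h := M.local_law (F := fun _ => 1) (I₀ := ∅) (J₀ := ∅) (Finset.empty_subset I)
    (Finset.empty_subset J) hN (by simp) (fun _ => rfl) (fun n => measurable_const)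
  simpa [gw] using h

/-- the ratio form: `E[g F] / E[g] = E[g₀ F] / E[g₀]` -/
theorem ratio {I I₀ : Finset ι} {J J₀ : Finset κ}
    (hI : I₀ ⊆ I) (hJ : J₀ ⊆ J) (hN : ∀ k ∈ J, M.N k ⊆ I) (hN₀ : ∀ k ∈ J₀, M.N k ⊆ I₀)
    (hF : LocalOn (M.reg I₀ J₀) F) (hFm : FinMeas F) :
    (∫⁻ ω, M.gw I J (cfg ε ω) * F (cfg ε ω) ∂sampleLaw) *
        ∫⁻ ω, M.gw I₀ J₀ (cfg ε ω) ∂sampleLaw =
      (∫⁻ ω, M.gw I J (cfg ε ω) ∂sampleLaw) *
        ∫⁻ ω, M.gw I₀ J₀ (cfg ε ω) * F (cfg ε ω) ∂sampleLaw := by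
  classical
  rw [M.local_law hI hJ hN hN₀ hF hFm, M.mass hN, M.mass hN₀]
  have h1 : J.card = (J \ J₀).card + J₀.card := (Finset.card_sdiff_add_card_eq_card hJ).symm
  have h2 : ∏ i ∈ I, ∫⁻ ω, M.a i (cfg ε ω) ∂sampleLaw =
      (∏ i ∈ I \ I₀, ∫⁻ ω, M.a i (cfg ε ω) ∂sampleLaw) *
        ∏ i ∈ I₀, ∫⁻ ω, M.a i (cfg ε ω) ∂sampleLaw := (Finset.prod_sdiff hI).symm
  rw [h1, h2, pow_add]
  ring

/-- the weight is at most `∏ a ∏ e` -/
lemma gw_le_fin' {I : Finset ι} {J : Finset κ} (h : ∀ k ∈ J, M.N k ⊆ I) {S : Cf} (hS : S.Finite) :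
    M.gw I J S ≤ (∏ i ∈ I, M.a i S) * ∏ k ∈ J, M.e k S := by
  by_cases h0 : ∏ i ∈ I, M.a i S = 0
  · unfold gw; rw [h0, zero_mul, zero_mul]
  · have h1 : ∀ i ∈ I, M.a i S ≠ 0 := fun i hi h => h0 (Finset.prod_eq_zero hi h)
    unfold gw
    gcongr with k hk
    have h1 := M.pos k S hS fun i hi => h1 i (h k hk hi)
    have h2 : Rs ε (M.C k) (M.e k) S ≠ 0 := fun h => M.c0 (le_zero_iff.1 (h ▸ h1))
    have h3 : Rs ε (M.C k) (M.e k) S ≠ ∞ := ne_top_of_le_ne_top ENNReal.one_ne_top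
      (Rs_le M.eps (M.Cb k) (M.e1 k) (M.em k) hS)
    calc M.fac k S ≤ M.e k S * (Rs ε (M.C k) (M.e k) S * (Rs ε (M.C k) (M.e k) S)⁻¹) := by
          unfold fac
          gcongr
      _ = M.e k S := by rw [ENNReal.mul_inv_cancel h2 h3, mul_one]

theorem gw_le' {I : Finset ι} {J : Finset κ} (h : ∀ k ∈ J, M.N k ⊆ I) (ω : Sample) :
    M.gw I J (cfg ε ω) ≤ (∏ i ∈ I, M.a i (cfg ε ω)) * ∏ k ∈ J, M.e k (cfg ε ω) := by
  have h1 := M.gw_le_fin' h (cfg_finite M.eps (M.reg_bdd I J) ω)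
  have h2 := M.gw_local h (cfg ε ω)
  have h4 : LocalOn (M.reg I J) fun S => (∏ i ∈ I, M.a i S) * ∏ k ∈ J, M.e k S := by
    refine LocalOn.mul M.a_local (local_prod' J fun k hk => LocalOn.mono ?_ (M.el k))
    exact union_subset_union (biUnion_subset_biUnion_left (h k hk))
      (subset_biUnion_of_mem (u := M.C) hk)
  rw [h2]
  exact h1.trans_eq (h4 (cfg ε ω)).symm

/-- **UPPER BOUND**: `c^{#J₀} ∏_{I₀} E[a_i] · E[g F] ≤ E[g] · E[∏_{I₀} a_i ∏_{J₀} e_k F]` -/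
theorem upper {I I₀ : Finset ι} {J J₀ : Finset κ}
    (hI : I₀ ⊆ I) (hJ : J₀ ⊆ J) (hN : ∀ k ∈ J, M.N k ⊆ I) (hN₀ : ∀ k ∈ J₀, M.N k ⊆ I₀)
    (hF : LocalOn (M.reg I₀ J₀) F) (hFm : FinMeas F) :
    (M.c ^ J₀.card * ∏ i ∈ I₀, ∫⁻ ω, M.a i (cfg ε ω) ∂sampleLaw) *
        (∫⁻ ω, M.gw I J (cfg ε ω) * F (cfg ε ω) ∂sampleLaw) ≤
      (∫⁻ ω, M.gw I J (cfg ε ω) ∂sampleLaw) *
        ∫⁻ ω, ((∏ i ∈ I₀, M.a i (cfg ε ω)) * ∏ k ∈ J₀, M.e k (cfg ε ω)) * F (cfg ε ω)
          ∂sampleLaw := by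
  rw [← M.mass hN₀, mul_comm, M.ratio hI hJ hN hN₀ hF hFm]
  gcongr with ω
  exact M.gw_le' hN₀ ω

/-- **LOCAL LAW**, measure form -/
theorem law_eq {X : Type*} [MeasurableSpace X] {I I₀ : Finset ι} {J J₀ : Finset κ}
    (hI : I₀ ⊆ I) (hJ : J₀ ⊆ J) (hN : ∀ k ∈ J, M.N k ⊆ I) (hN₀ : ∀ k ∈ J₀, M.N k ⊆ I₀)
    {f : Cf → X} (hf : LocalOn (M.reg I₀ J₀) f) (hfm : FinMeas f) :
    (∫⁻ ω, M.gw I₀ J₀ (cfg ε ω) ∂sampleLaw) •
        (sampleLaw.withDensity fun ω => M.gw I J (cfg ε ω)).map (fun ω => f (cfg ε ω)) =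
      (∫⁻ ω, M.gw I J (cfg ε ω) ∂sampleLaw) •
        (sampleLaw.withDensity fun ω => M.gw I₀ J₀ (cfg ε ω)).map fun ω => f (cfg ε ω) := by
  have hfM : Measurable fun ω => f (cfg ε ω) :=
    meas_fun M.eps (M.reg_meas I₀ J₀) (M.reg_bdd I₀ J₀) hf hfm
  have key : ∀ (I : Finset ι) (J : Finset κ), (∀ k ∈ J, M.N k ⊆ I) → ∀ s : Set X, MeasurableSet s →
      (sampleLaw.withDensity fun ω => M.gw I J (cfg ε ω)).map (fun ω => f (cfg ε ω)) s =
        ∫⁻ ω, M.gw I J (cfg ε ω) * s.indicator (fun _ => (1 : ℝ≥0∞)) (f (cfg ε ω))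
          ∂sampleLaw := by
    intro I J _ s hs
    rw [Measure.map_apply hfM hs, withDensity_apply _ (hfM hs), ← lintegral_indicator (hfM hs)]
    refine lintegral_congr fun ω => ?_
    classical
    by_cases h : f (cfg ε ω) ∈ s
    · simp [h]
    · simp [h]
  ext s hs
  have h := M.ratio (F := fun S => s.indicator (fun _ => (1 : ℝ≥0∞)) (f S)) hI hJ hN hN₀
    (LocalOn.comp hf _) (fun n => (measurable_const.indicator hs).comp (hfm n))
  rw [Measure.smul_apply, Measure.smul_apply, key I J hN s hs, key I₀ J₀ hN₀ s hs, smul_eq_mul,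
    smul_eq_mul, mul_comm]
  exact h

/-- **LOCAL MEAN** of a vector valued function:
`E[g₀] E[g V] = E[g] E[g₀ V]` -/
theorem mean {X : Type*} [NormedAddCommGroup X] [NormedSpace ℝ X] [MeasurableSpace X]
    [BorelSpace X] [SecondCountableTopology X] {I I₀ : Finset ι} {J J₀ : Finset κ}
    (hI : I₀ ⊆ I) (hJ : J₀ ⊆ J) (hN : ∀ k ∈ J, M.N k ⊆ I) (hN₀ : ∀ k ∈ J₀, M.N k ⊆ I₀)
    {f : Cf → X} (hf : LocalOn (M.reg I₀ J₀) f) (hfm : FinMeas f) :
    (∫⁻ ω, M.gw I₀ J₀ (cfg ε ω) ∂sampleLaw).toReal •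
        ∫ ω, (M.gw I J (cfg ε ω)).toReal • f (cfg ε ω) ∂sampleLaw =
      (∫⁻ ω, M.gw I J (cfg ε ω) ∂sampleLaw).toReal •
        ∫ ω, (M.gw I₀ J₀ (cfg ε ω)).toReal • f (cfg ε ω) ∂sampleLaw := by
  have hfM : Measurable fun ω => f (cfg ε ω) :=
    meas_fun M.eps (M.reg_meas I₀ J₀) (M.reg_bdd I₀ J₀) hf hfm
  have key : ∀ (I : Finset ι) (J : Finset κ), (∀ k ∈ J, M.N k ⊆ I) →
      ∫ ω, (M.gw I J (cfg ε ω)).toReal • f (cfg ε ω) ∂sampleLaw =
        ∫ x, x ∂((sampleLaw.withDensity fun ω => M.gw I J (cfg ε ω)).map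
          (fun ω => f (cfg ε ω))) := by
    intro I J hN
    have hg : Measurable fun ω => M.gw I J (cfg ε ω) :=
      meas_fun M.eps (M.reg_meas I J) (M.reg_bdd I J) (M.gw_local hN) (M.gw_meas I J)
    rw [integral_map (f := fun x : X => x) hfM.aemeasurable (measurable_id.aestronglyMeasurable),
      integral_withDensity_eq_integral_toReal_smul hg]
    refine Filter.Eventually.of_forall fun ω => ?_
    exact lt_of_le_of_lt (M.gw_le_one hN ω) ENNReal.one_lt_top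
  rw [key I J hN, key I₀ J₀ hN₀, ← integral_smul_measure, ← integral_smul_measure,
    M.law_eq hI hJ hN hN₀ hf hfm]

end Net

end Crest.Agent.R143.PWx978
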