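import Crest.Agent.R143.Dbl_609
import Crest.Agent.R143.PolyA_970
import Crest.Agent.R143.PW_978

/-!
# Row 143 (S0194), box R8: the fields of `PolyAx970.Cor` which come from independence (helper149)

* `Ind P g V T T' one M` : weight `g ≤ 1`, charges `V k` (corridor), totals `T, T'` and indicators
  `one k` (inside), independence; `ν = P.withDensity g`, `mass P g = (∫⁻ g).toReal`
* `Ind.iT`, `Ind.iT'`, `Ind.i1` : integrability under `ν`
* `Ind.indT` (error `0`), `Ind.mean`, `Ind.corner`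
* `Ind.rep` : functions measurable for `comap (T, T')` are functions `φ (T, T')`
* `ind_of`, `ind_of2`, `ind_pts` : the literal case on the `Sample` : corridor functionals of
  `cfg ε ω` local on `C`, inside functionals of `dcf ε ω` (in particular of `cfg2 ε ω`, of the
  points) local on `U`
-/

set_option autoImplicit false

noncomputable section

namespace Crest.Agent.R143.Ind8x149

open MeasureTheory Set ProbabilityTheory
open Crest.ProbabilityR.Voronoi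
open Crest.Agent.R143.PP0x831 Crest.Agent.R143.Poisx304 Crest.Agent.R143.Janx304
open Crest.Agent.R143.Prodx609 Crest.Agent.R143.Dblx609
open scoped ENNReal

/-! ### abstract part -/

section abs

variable {Ω : Type*} {m0 : MeasurableSpace Ω} {P : Measure Ω}

/-- the mass of the weight -/
def mass (P : Measure Ω) (g : Ω → ℝ≥0∞) : ℝ := (∫⁻ ω, g ω ∂P).toReal

/-- corridor | inside -/
structure Ind {ι : Type*} (P : Measure Ω) (g : Ω → ℝ≥0∞) (V : ι → Ω → ℂ) (T T' : Ω → ℂ)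
    (one : ι → Ω → ℝ) (M : ℝ) : Prop where
  gm : Measurable g
  g1 : ∀ ω, g ω ≤ 1
  Vm : ∀ k, Measurable (V k)
  Tm : Measurable T
  Tm' : Measurable T'
  om : ∀ k, Measurable (one k)
  T1 : ∀ ω, ‖T ω‖ ≤ M
  T1' : ∀ ω, ‖T' ω‖ ≤ M
  o1 : ∀ k ω, ‖one k ω‖ ≤ 1
  ind0 : IndepFun g (fun ω => (T ω, T' ω)) P
  ind : ∀ k, IndepFun (fun ω => (g ω, V k ω)) (fun ω => ((T ω, T' ω), one k ω)) P

theorem int_wd {g : Ω → ℝ≥0∞} (hg : Measurable g) (g1 : ∀ ω, g ω ≤ 1) (h : Ω → ℂ) :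
    ∫ ω, h ω ∂(P.withDensity g) = ∫ ω, ((g ω).toReal : ℂ) * h ω ∂P := by
  rw [integral_withDensity_eq_integral_toReal_smul hg
    (ae_of_all _ fun ω => lt_of_le_of_lt (g1 ω) ENNReal.one_lt_top)]
  refine integral_congr_ae (ae_of_all _ fun ω => ?_)
  simp only [Complex.real_smul]

theorem int_wdR {g : Ω → ℝ≥0∞} (hg : Measurable g) (g1 : ∀ ω, g ω ≤ 1) (h : Ω → ℝ) :
    ∫ ω, h ω ∂(P.withDensity g) = ∫ ω, (g ω).toReal * h ω ∂P := by
  rw [integral_withDensity_eq_integral_toReal_smul hg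
    (ae_of_all _ fun ω => lt_of_le_of_lt (g1 ω) ENNReal.one_lt_top)]
  rfl

theorem mass_eq {g : Ω → ℝ≥0∞} (hg : Measurable g) (g1 : ∀ ω, g ω ≤ 1) :
    (mass P g : ℂ) = ∫ ω, ((g ω).toReal : ℂ) ∂P := by
  unfold mass
  rw [← integral_toReal hg.aemeasurable
    (ae_of_all _ fun ω => lt_of_le_of_lt (g1 ω) ENNReal.one_lt_top)]
  exact (integral_ofReal (𝕜 := ℂ)).symm

theorem mass_univ (g : Ω → ℝ≥0∞) : ((P.withDensity g) univ).toReal = mass P g := by
  rw [withDensity_apply _ MeasurableSet.univ, Measure.restrict_univ]; rfl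

theorem fin_wd [IsFiniteMeasure P] {g : Ω → ℝ≥0∞} (g1 : ∀ ω, g ω ≤ 1) :
    IsFiniteMeasure (P.withDensity g) := by
  refine isFiniteMeasure_withDensity (ne_top_of_le_ne_top (measure_ne_top P univ) ?_)
  calc ∫⁻ ω, g ω ∂P ≤ ∫⁻ _, 1 ∂P := lintegral_mono g1
    _ = P univ := by simp

/-- functions measurable for the totals are functions of the totals -/
theorem rep {T T' : Ω → ℂ} {f : Ω → ℂ}
    (hf : Measurable[MeasurableSpace.comap (fun ω => (T ω, T' ω)) inferInstance] f) :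
    ∃ φ : ℂ × ℂ → ℂ, Measurable φ ∧ ∀ ω, f ω = φ (T ω, T' ω) := by
  obtain ⟨h, mh, hh⟩ := hf.exists_eq_measurable_comp
  exact ⟨h, mh, fun ω => by rw [hh]; rfl⟩

/-- one may also take `‖φ‖ ≤ 1` -/
theorem rep1 {T T' : Ω → ℂ} {f : Ω → ℂ}
    (hf : Measurable[MeasurableSpace.comap (fun ω => (T ω, T' ω)) inferInstance] f)
    (h1 : ∀ ω, ‖f ω‖ ≤ 1) :
    ∃ φ : ℂ × ℂ → ℂ, Measurable φ ∧ (∀ x, ‖φ x‖ ≤ 1) ∧ ∀ ω, f ω = φ (T ω, T' ω) := by
  obtain ⟨φ, hφ, e⟩ := rep hf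
  have hS : MeasurableSet {x | ‖φ x‖ ≤ 1} := measurableSet_le hφ.norm measurable_const
  refine ⟨{x | ‖φ x‖ ≤ 1}.indicator φ, hφ.indicator hS, fun x => ?_, fun ω => ?_⟩
  · by_cases hx : x ∈ {x | ‖φ x‖ ≤ 1}
    · rw [indicator_of_mem hx]; exact hx
    · rw [indicator_of_notMem hx, norm_zero]; exact zero_le_one
  · rw [indicator_of_mem (by show ‖φ (T ω, T' ω)‖ ≤ 1; rw [← e]; exact h1 ω), e]

namespace Ind

variable {ι : Type*} {g : Ω → ℝ≥0∞} {V : ι → Ω → ℂ} {T T' : Ω → ℂ} {one : ι → Ω → ℝ} {M : ℝ}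

theorem iTP [IsFiniteMeasure P] (h : Ind P g V T T' one M) : Integrable T P :=
  (integrable_const M).mono' h.Tm.aestronglyMeasurable (ae_of_all _ h.T1)

theorem iTP' [IsFiniteMeasure P] (h : Ind P g V T T' one M) : Integrable T' P :=
  (integrable_const M).mono' h.Tm'.aestronglyMeasurable (ae_of_all _ h.T1')

theorem iT [IsFiniteMeasure P] (h : Ind P g V T T' one M) : Integrable T (P.withDensity g) := by
  have := fin_wd (P := P) h.g1
  exact (integrable_const M).mono' h.Tm.aestronglyMeasurable (ae_of_all _ h.T1)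

theorem iT' [IsFiniteMeasure P] (h : Ind P g V T T' one M) : Integrable T' (P.withDensity g) := by
  have := fin_wd (P := P) h.g1
  exact (integrable_const M).mono' h.Tm'.aestronglyMeasurable (ae_of_all _ h.T1')

theorem i1 (h : Ind P g V T T' one M) {k : ι} (hV : Integrable (V k) (P.withDensity g)) :
    Integrable (fun ω => V k ω * (one k ω : ℂ)) (P.withDensity g) := by
  have e : (fun ω => V k ω * (one k ω : ℂ)) = fun ω => (one k ω : ℂ) * V k ω := by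
    funext ω; ring
  rw [e]
  refine hV.bdd_mul (c := 1) (Complex.measurable_ofReal.comp (h.om k)).aestronglyMeasurable
    (ae_of_all _ fun ω => ?_)
  rw [Complex.norm_real]
  exact h.o1 k ω

/-- independence of the weight and a function of the totals -/
theorem split0 (h : Ind P g V T T' one M) {ψ : ℂ × ℂ → ℂ} (hψ : Measurable ψ) :
    ∫ ω, ψ (T ω, T' ω) ∂(P.withDensity g) = mass P g * ∫ ω, ψ (T ω, T' ω) ∂P := by
  rw [int_wd h.gm h.g1, mass_eq h.gm h.g1]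
  have hi : IndepFun (fun ω => ((g ω).toReal : ℂ)) (fun ω => ψ (T ω, T' ω)) P :=
    h.ind0.comp (φ := fun x : ℝ≥0∞ => ((x.toReal : ℝ) : ℂ)) (ψ := ψ)
      (Complex.measurable_ofReal.comp ENNReal.measurable_toReal) hψ
  exact hi.integral_fun_mul_eq_mul_integral
    (Complex.measurable_ofReal.comp (ENNReal.measurable_toReal.comp h.gm)).aestronglyMeasurable
    (hψ.comp (h.Tm.prodMk h.Tm')).aestronglyMeasurable

/-- **indT**, exact -/
theorem indT_eq (h : Ind P g V T T' one M) {φ : ℂ × ℂ → ℂ} (hφ : Measurable φ) :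
    ∫ ω, φ (T ω, T' ω) * T ω ∂(P.withDensity g) = mass P g * ∫ ω, φ (T ω, T' ω) * T ω ∂P :=
  h.split0 (ψ := fun x => φ x * x.1) (hφ.mul measurable_fst)

theorem indT'_eq (h : Ind P g V T T' one M) {φ : ℂ × ℂ → ℂ} (hφ : Measurable φ) :
    ∫ ω, φ (T ω, T' ω) * T' ω ∂(P.withDensity g) = mass P g * ∫ ω, φ (T ω, T' ω) * T' ω ∂P :=
  h.split0 (ψ := fun x => φ x * x.2) (hφ.mul measurable_snd)

/-- field `indT` of `Cor` with `a3 = 0` -/
theorem indT (h : Ind P g V T T' one M) {φ : ℂ × ℂ → ℂ} (hφ : Measurable φ) :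
    ‖∫ ω, φ (T ω, T' ω) * T ω ∂(P.withDensity g) - mass P g * ∫ ω, φ (T ω, T' ω) * T ω ∂P‖ ≤
      0 * mass P g := by
  rw [h.indT_eq hφ, sub_self, norm_zero, zero_mul]

theorem indT' (h : Ind P g V T T' one M) {φ : ℂ × ℂ → ℂ} (hφ : Measurable φ) :
    ‖∫ ω, φ (T ω, T' ω) * T' ω ∂(P.withDensity g) - mass P g * ∫ ω, φ (T ω, T' ω) * T' ω ∂P‖ ≤
      0 * mass P g := by
  rw [h.indT'_eq hφ, sub_self, norm_zero, zero_mul]

/-- product of a corridor functional and a function of the inside -/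
theorem split1 (h : Ind P g V T T' one M) (k : ι) {ψ : (ℂ × ℂ) × ℝ → ℂ} (hψ : Measurable ψ) :
    ∫ ω, V k ω * ψ ((T ω, T' ω), one k ω) ∂(P.withDensity g) =
      (∫ ω, V k ω ∂(P.withDensity g)) * ∫ ω, ψ ((T ω, T' ω), one k ω) ∂P := by
  rw [int_wd h.gm h.g1, int_wd h.gm h.g1]
  have hi : IndepFun (fun ω => ((g ω).toReal : ℂ) * V k ω)
      (fun ω => ψ ((T ω, T' ω), one k ω)) P :=
    (h.ind k).comp (φ := fun x : ℝ≥0∞ × ℂ => ((x.1.toReal : ℝ) : ℂ) * x.2) (ψ := ψ)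
      ((Complex.measurable_ofReal.comp (ENNReal.measurable_toReal.comp measurable_fst)).mul
        measurable_snd) hψ
  have e := hi.integral_fun_mul_eq_mul_integral
    ((Complex.measurable_ofReal.comp (ENNReal.measurable_toReal.comp h.gm)).mul
      (h.Vm k)).aestronglyMeasurable
    (hψ.comp ((h.Tm.prodMk h.Tm').prodMk (h.om k))).aestronglyMeasurable
  rw [← e]
  refine integral_congr_ae (ae_of_all _ fun ω => ?_)
  simp only
  ring

/-- the mean of the charge of the tile `k`, weighted -/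
theorem mean_eq (h : Ind P g V T T' one M) (k : ι) {φ : ℂ × ℂ → ℂ} (hφ : Measurable φ) :
    ∫ ω, φ (T ω, T' ω) * (V k ω * (one k ω : ℂ)) ∂(P.withDensity g) =
      (∫ ω, V k ω ∂(P.withDensity g)) * ∫ ω, φ (T ω, T' ω) * (one k ω : ℂ) ∂P := by
  rw [← h.split1 k (ψ := fun x => φ x.1 * ((x.2 : ℝ) : ℂ))
    ((hφ.comp measurable_fst).mul (Complex.measurable_ofReal.comp measurable_snd))]
  refine integral_congr_ae (ae_of_all _ fun ω => ?_)
  simp only
  ring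

/-- field `mean` of `Cor` -/
theorem mean (h : Ind P g V T T' one M) {k : ι} {c : ℂ}
    (hc : ∫ ω, V k ω ∂(P.withDensity g) = mass P g * c) {φ : ℂ × ℂ → ℂ} (hφ : Measurable φ) :
    ∫ ω, φ (T ω, T' ω) * (V k ω * (one k ω : ℂ)) ∂(P.withDensity g) =
      mass P g * c * ∫ ω, φ (T ω, T' ω) * (one k ω : ℂ) ∂P := by
  rw [h.mean_eq k hφ, hc]

/-- one tile of the field `corner` -/
theorem corner1 (h : Ind P g V T T' one M) {k : ι} (hV : Integrable (V k) (P.withDensity g)) :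
    ∫ ω, ‖V k ω * (one k ω : ℂ)‖ ∂(P.withDensity g) ≤ ∫ ω, ‖V k ω‖ ∂(P.withDensity g) := by
  refine integral_mono_of_nonneg (ae_of_all _ fun _ => norm_nonneg _) hV.norm
    (ae_of_all _ fun ω => ?_)
  simp only
  rw [norm_mul, Complex.norm_real]
  exact mul_le_of_le_one_right (norm_nonneg _) (h.o1 k ω)

/-- an `L²` bound relative to the mass gives an `L¹` bound relative to the mass -/
theorem l1_of_l2 [IsFiniteMeasure P] (g1 : ∀ ω, g ω ≤ 1)
    {X : Ω → ℂ} (hX : AEStronglyMeasurable X (P.withDensity g)) {s : ℝ} (hs : 0 ≤ s)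
    (h2 : ∫⁻ ω, ‖X ω‖ₑ ^ 2 ∂(P.withDensity g) ≤ ENNReal.ofReal (s ^ 2 * mass P g)) :
    Integrable X (P.withDensity g) ∧ ∫ ω, ‖X ω‖ ∂(P.withDensity g) ≤ s * mass P g := by
  have := fin_wd (P := P) g1
  set ν := P.withDensity g
  have hm : 0 ≤ mass P g := ENNReal.toReal_nonneg
  have h1 : ∫⁻ ω, ‖X ω‖ₑ ∂ν ≤ ENNReal.ofReal (s * mass P g) := by
    have hH := ENNReal.lintegral_mul_le_Lp_mul_Lq ν (p := 2) (q := 2)
      (Real.HolderConjugate.two_two) (f := fun ω => ‖X ω‖ₑ) (g := fun _ => 1)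
      hX.enorm aemeasurable_const
    simp only [Pi.mul_apply, mul_one, ENNReal.one_rpow, lintegral_const, one_mul] at hH
    refine hH.trans ?_
    have e1 : ∫⁻ ω, ‖X ω‖ₑ ^ (2 : ℝ) ∂ν = ∫⁻ ω, ‖X ω‖ₑ ^ 2 ∂ν := by
      refine lintegral_congr fun ω => ?_
      exact ENNReal.rpow_two _
    have e2 : ν univ = ENNReal.ofReal (mass P g) := by
      rw [← mass_univ (P := P) g, ENNReal.ofReal_toReal (measure_ne_top _ _)]
    rw [e1, e2]
    calc (∫⁻ ω, ‖X ω‖ₑ ^ 2 ∂ν) ^ (1 / (2 : ℝ)) * ENNReal.ofReal (mass P g) ^ (1 / (2 : ℝ))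
        ≤ ENNReal.ofReal (s ^ 2 * mass P g) ^ (1 / (2 : ℝ)) *
          ENNReal.ofReal (mass P g) ^ (1 / (2 : ℝ)) := by gcongr
      _ = ENNReal.ofReal (s * mass P g) := by
          rw [ENNReal.ofReal_rpow_of_nonneg (by positivity) (by norm_num),
            ENNReal.ofReal_rpow_of_nonneg hm (by norm_num),
            ← ENNReal.ofReal_mul (by positivity)]
          congr 1
          rw [← Real.sqrt_eq_rpow, ← Real.sqrt_eq_rpow, Real.sqrt_mul (by positivity),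
            Real.sqrt_sq hs, mul_assoc, Real.mul_self_sqrt hm]
  have hI : Integrable X ν := ⟨hX, lt_of_le_of_lt h1 ENNReal.ofReal_lt_top⟩
  refine ⟨hI, ?_⟩
  rw [integral_norm_eq_lintegral_enorm hX]
  exact ENNReal.toReal_le_of_le_ofReal (by positivity) h1

end Ind

end abs

/-! ### literal part: the corridor `C` (first colouring, weight `γ`, charges `v k`), the inside `U`
(both colourings: totals `τ, τ'`, indicators `o k`) -/

section lit

variable {ι : Type*} {ε : ℝ} {C U : Set ℂ} {M : ℝ}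

/-- **`Ind` on the `Sample`** : everything is a functional of the corridor part of `cfg` and of the
inside part of `dcf` -/
theorem ind_of (hε : 0 < ε) (hC : MeasurableSet C) (hbC : Bornology.IsBounded C)
    (hU : MeasurableSet U) (hbU : Bornology.IsBounded U) (hdis : Disjoint C U)
    {γ : Set (ℂ × Bool) → ℝ≥0∞} {v : ι → Set (ℂ × Bool) → ℂ}
    {τ τ' : Set (ℂ × (Bool × Bool)) → ℂ} {o : ι → Set (ℂ × (Bool × Bool)) → ℝ}
    (hγ : FMe γ) (hv : ∀ k, FMe (v k)) (hτ : FMe τ) (hτ' : FMe τ') (ho : ∀ k, FMe (o k))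
    (γ1 : ∀ X, γ X ≤ 1) (τ1 : ∀ X, ‖τ X‖ ≤ M) (τ1' : ∀ X, ‖τ' X‖ ≤ M) (o1 : ∀ k X, ‖o k X‖ ≤ 1) :
    Ind sampleLaw (fun ω => γ (cfg ε ω ∩ ovr C)) (fun k ω => v k (cfg ε ω ∩ ovr C))
      (fun ω => τ (dcf ε ω ∩ ovM _ U)) (fun ω => τ' (dcf ε ω ∩ ovM _ U))
      (fun k ω => o k (dcf ε ω ∩ ovM _ U)) M where
  gm := meas_mcf measurable_dec hε hC hbC hγ
  g1 := fun ω => γ1 _
  Vm := fun k => meas_mcf measurable_dec hε hC hbC (hv k)
  Tm := meas_mcf measurable_dd hε hU hbU hτ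
  Tm' := meas_mcf measurable_dd hε hU hbU hτ'
  om := fun k => meas_mcf measurable_dd hε hU hbU (ho k)
  T1 := fun ω => τ1 _
  T1' := fun ω => τ1' _
  o1 := fun k ω => o1 k _
  ind0 := by
    have h := R8_indep hε hC hbC hU hbU hdis (fme_p1 hγ)
      (G := fun X => (τ X, τ' X)) (fun n => (hτ n).prodMk (hτ' n))
    simpa only [p1_inter, p1_dcf] using h
  ind := fun k => by
    have h := R8_indep hε hC hbC hU hbU hdis (fme_p1 (F := fun X => (γ X, v k X))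
      (fun n => (hγ n).prodMk (hv k n)))
      (G := fun X => ((τ X, τ' X), o k X)) (fun n => ((hτ n).prodMk (hτ' n)).prodMk (ho k n))
    simpa only [p1_inter, p1_dcf] using h

/-- a functional of `M`-marked sets depends only on the part over `B` -/
def LocM {N E : Type*} (B : Set ℂ) (F : Set (ℂ × N) → E) : Prop := ∀ X, F X = F (X ∩ ovM N B)

theorem locM_of {E : Type*} {B : Set ℂ} {F : Set (ℂ × Bool) → E} (h : LocalOn B F) :
    LocM B F := h

theorem locM_p1 {E : Type*} {B : Set ℂ} {F : Set (ℂ × Bool) → E} (h : LocalOn B F) :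
    LocM B fun X : Set (ℂ × (Bool × Bool)) => F (p1 X) := fun X => by
  show F (p1 X) = F (p1 (X ∩ ovM _ B))
  rw [p1_inter]
  exact h _

theorem locM_p2 {E : Type*} {B : Set ℂ} {F : Set (ℂ × Bool) → E} (h : LocalOn B F) :
    LocM B fun X : Set (ℂ × (Bool × Bool)) => F (p2 X) := fun X => by
  show F (p2 X) = F (p2 (X ∩ ovM _ B))
  rw [p2_inter]
  exact h _

/-- `ind_of` with local functionals instead of the intersections -/
theorem ind_loc (hε : 0 < ε) (hC : MeasurableSet C) (hbC : Bornology.IsBounded C)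
    (hU : MeasurableSet U) (hbU : Bornology.IsBounded U) (hdis : Disjoint C U)
    {γ : Set (ℂ × Bool) → ℝ≥0∞} {v : ι → Set (ℂ × Bool) → ℂ}
    {τ τ' : Set (ℂ × (Bool × Bool)) → ℂ} {o : ι → Set (ℂ × (Bool × Bool)) → ℝ}
    (hγ : FMe γ) (hv : ∀ k, FMe (v k)) (hτ : FMe τ) (hτ' : FMe τ') (ho : ∀ k, FMe (o k))
    (lγ : LocalOn C γ) (lv : ∀ k, LocalOn C (v k)) (lτ : LocM U τ) (lτ' : LocM U τ')
    (lo : ∀ k, LocM U (o k))
    (γ1 : ∀ X, γ X ≤ 1) (τ1 : ∀ X, ‖τ X‖ ≤ M) (τ1' : ∀ X, ‖τ' X‖ ≤ M) (o1 : ∀ k X, ‖o k X‖ ≤ 1) :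
    Ind sampleLaw (fun ω => γ (cfg ε ω)) (fun k ω => v k (cfg ε ω)) (fun ω => τ (dcf ε ω))
      (fun ω => τ' (dcf ε ω)) (fun k ω => o k (dcf ε ω)) M := by
  have e1 : (fun ω => γ (cfg ε ω)) = fun ω => γ (cfg ε ω ∩ ovr C) := funext fun ω => lγ _
  have e2 : (fun k ω => v k (cfg ε ω)) = fun k ω => v k (cfg ε ω ∩ ovr C) :=
    funext fun k => funext fun ω => lv k _
  have e3 : (fun ω => τ (dcf ε ω)) = fun ω => τ (dcf ε ω ∩ ovM _ U) := funext fun ω => lτ _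
  have e4 : (fun ω => τ' (dcf ε ω)) = fun ω => τ' (dcf ε ω ∩ ovM _ U) := funext fun ω => lτ' _
  have e5 : (fun k ω => o k (dcf ε ω)) = fun k ω => o k (dcf ε ω ∩ ovM _ U) :=
    funext fun k => funext fun ω => lo k _
  rw [e1, e2, e3, e4, e5]
  exact ind_of hε hC hbC hU hbU hdis hγ hv hτ hτ' ho γ1 τ1 τ1' o1

/-- the inside read off the SECOND colouring only -/
theorem ind_loc2 (hε : 0 < ε) (hC : MeasurableSet C) (hbC : Bornology.IsBounded C)
    (hU : MeasurableSet U) (hbU : Bornology.IsBounded U) (hdis : Disjoint C U)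
    {γ : Set (ℂ × Bool) → ℝ≥0∞} {v : ι → Set (ℂ × Bool) → ℂ}
    {τ τ' : Set (ℂ × Bool) → ℂ} {o : ι → Set (ℂ × Bool) → ℝ}
    (hγ : FMe γ) (hv : ∀ k, FMe (v k)) (hτ : FMe τ) (hτ' : FMe τ') (ho : ∀ k, FMe (o k))
    (lγ : LocalOn C γ) (lv : ∀ k, LocalOn C (v k)) (lτ : LocalOn U τ) (lτ' : LocalOn U τ')
    (lo : ∀ k, LocalOn U (o k))
    (γ1 : ∀ X, γ X ≤ 1) (τ1 : ∀ X, ‖τ X‖ ≤ M) (τ1' : ∀ X, ‖τ' X‖ ≤ M) (o1 : ∀ k X, ‖o k X‖ ≤ 1) :
    Ind sampleLaw (fun ω => γ (cfg ε ω)) (fun k ω => v k (cfg ε ω)) (fun ω => τ (cfg2 ε ω))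
      (fun ω => τ' (cfg2 ε ω)) (fun k ω => o k (cfg2 ε ω)) M := by
  have h := ind_loc (M := M) hε hC hbC hU hbU hdis hγ hv (fme_p2 hτ) (fme_p2 hτ')
    (fun k => fme_p2 (ho k)) lγ lv (locM_p2 lτ) (locM_p2 lτ') (fun k => locM_p2 (lo k))
    γ1 (fun X => τ1 _) (fun X => τ1' _) fun k X => o1 k _
  simpa only [p2_dcf] using h

/-- the inside read off the FIRST colouring only -/
theorem ind_loc1 (hε : 0 < ε) (hC : MeasurableSet C) (hbC : Bornology.IsBounded C)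
    (hU : MeasurableSet U) (hbU : Bornology.IsBounded U) (hdis : Disjoint C U)
    {γ : Set (ℂ × Bool) → ℝ≥0∞} {v : ι → Set (ℂ × Bool) → ℂ}
    {τ τ' : Set (ℂ × Bool) → ℂ} {o : ι → Set (ℂ × Bool) → ℝ}
    (hγ : FMe γ) (hv : ∀ k, FMe (v k)) (hτ : FMe τ) (hτ' : FMe τ') (ho : ∀ k, FMe (o k))
    (lγ : LocalOn C γ) (lv : ∀ k, LocalOn C (v k)) (lτ : LocalOn U τ) (lτ' : LocalOn U τ')
    (lo : ∀ k, LocalOn U (o k))
    (γ1 : ∀ X, γ X ≤ 1) (τ1 : ∀ X, ‖τ X‖ ≤ M) (τ1' : ∀ X, ‖τ' X‖ ≤ M) (o1 : ∀ k X, ‖o k X‖ ≤ 1) :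
    Ind sampleLaw (fun ω => γ (cfg ε ω)) (fun k ω => v k (cfg ε ω)) (fun ω => τ (cfg ε ω))
      (fun ω => τ' (cfg ε ω)) (fun k ω => o k (cfg ε ω)) M := by
  have h := ind_loc (M := M) hε hC hbC hU hbU hdis hγ hv (fme_p1 hτ) (fme_p1 hτ')
    (fun k => fme_p1 (ho k)) lγ lv (locM_p1 lτ) (locM_p1 lτ') (fun k => locM_p1 (lo k))
    γ1 (fun X => τ1 _) (fun X => τ1' _) fun k X => o1 k _
  simpa only [p1_dcf] using h

end lit

end Crest.Agent.R143.Ind8x149
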