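import Crest.Agent.R143.InnP_643
import Crest.Agent.R143.CurG_496

/-!
# Row 143 (S0194), LOCX: the inner path in the closed curtain (helper643)

* **`zn_off`** : the sites of `Zn` (`InnP_643`) are in `Off` or in the lower windows of the two gates
  (`CurG_496`)
* `zn_kin` : they are in `Kin (h - A - κ)` or at height `> -(A + κ)` in a column
-/

set_option autoImplicit false
set_option linter.unusedVariables false

noncomputable section

open scoped Classical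

namespace Crest.Agent.R143.InnZx643

open Set
open Crest.Agent.R158.Sp896
open Crest.Agent.R143.Tenx416 (Pg)
open Crest.Agent.R143.TileRx228
open Crest.Agent.R143.Gatex838 (X Y)
open Crest.Agent.R143.Finex422 (Fine)
open Crest.Agent.R143.RegEx523 (Kin Kin_mono sub_Kin RR_Kin)
open Crest.Agent.R143.InnPx643
open Crest.Agent.R143.CurGx496 (Off WinN)

variable {h : ℝ} {F : Set V} {n M m : ℕ} {p W : ℤ → V} {a₀ : ℤ → ℤ}
variable {S : Finset ℂ} {A B κ δ d : ℝ} {k g : ℤ} {s t : ℂ}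

/-- a site of a column, low part -/
theorem col_low (hF : Fine F n (m : ℤ) p M W a₀) (hh : 0 < h) (hm : 0 < m) (h1 : a₀ k + 4 ≤ g)
    (h2 : g + 3 ≤ a₀ (k + 1)) (hdh : d ≤ h) {x : ℝ} (hx : |x| ≤ h / 8)
    (k1 : |X (gz h W g) (ge W g) t - x| < d) (k2 : -h - d < Y (gz h W g) (ge W g) t) {r : ℝ}
    (hr : 0 ≤ r) (k3 : Y (gz h W g) (ge W g) t ≤ r - h) : t ∈ Kin r (Pg (m * h) F) := by
  have hX : |X (gz h W g) (ge W g) t| ≤ 5 / 2 * h := by
    have e : X (gz h W g) (ge W g) t = (X (gz h W g) (ge W g) t - x) + x := by ring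
    rw [e]
    refine (abs_add_le _ _).trans ?_
    linarith
  rcases le_or_gt (-h) (Y (gz h W g) (ge W g) t) with hY | hY
  · exact Kin_mono (by linarith) (foot_mem hF hh h1 h2 hX hY)
  · have hm1 : (1 : ℝ) ≤ m := by exact_mod_cast hm
    have h3 := below_pt hF hh h1 h2 (y := Y (gz h W g) (ge W g) t) hX (by nlinarith) hY.le
    rw [pt_eq hF.fpath g t] at h3
    exact sub_Kin hr h3

theorem zn_kin (hF : Fine F n (m : ℤ) p M W a₀) (hh : 0 < h) (hm : 0 < m) {k1 g1 k2 g2 : ℤ}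
    (a1 : a₀ k1 + 4 ≤ g1) (b1 : g1 + 3 ≤ a₀ (k1 + 1)) (a2 : a₀ k2 + 4 ≤ g2)
    (b2 : g2 + 3 ≤ a₀ (k2 + 1)) (hd : 0 < d) (hdh : d ≤ h) {r : ℝ} (hr : d ≤ r) {s1 s2 : ℂ}
    (hx1 : |X (gz h W g1) (ge W g1) s1| ≤ h / 8) (hx2 : |X (gz h W g2) (ge W g2) s2| ≤ h / 8)
    (hs : s ∈ Zn S (Pg (m * h) F) h d W g1 g2 s1 s2) :
    s ∈ Kin r (Pg (m * h) F) ∨
      (|X (gz h W g1) (ge W g1) s - X (gz h W g1) (ge W g1) s1| < d ∧
        Y (gz h W g1) (ge W g1) s ≤ Y (gz h W g1) (ge W g1) s1 ∧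
        r - h < Y (gz h W g1) (ge W g1) s) ∨
      (|X (gz h W g2) (ge W g2) s - X (gz h W g2) (ge W g2) s2| < d ∧
        Y (gz h W g2) (ge W g2) s ≤ Y (gz h W g2) (ge W g2) s2 ∧
        r - h < Y (gz h W g2) (ge W g2) s) := by
  obtain ⟨hsS, ⟨x, hx, hxd⟩ | ⟨c1, c2, c3⟩ | ⟨c1, c2, c3⟩⟩ := hs
  · left
    refine ⟨x, hx, ?_, ?_⟩
    · rw [← Complex.sub_re]; exact (Complex.abs_re_le_norm _).trans (hxd.le.trans hr)
    · rw [← Complex.sub_im]; exact (Complex.abs_im_le_norm _).trans (hxd.le.trans hr)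
  · rcases le_or_gt (Y (gz h W g1) (ge W g1) s) (r - h) with h5 | h5
    · exact Or.inl (col_low hF hh hm a1 b1 hdh hx1 c1 c3 (hd.le.trans hr) h5)
    · exact Or.inr (Or.inl ⟨c1, c2, h5⟩)
  · rcases le_or_gt (Y (gz h W g2) (ge W g2) s) (r - h) with h5 | h5
    · exact Or.inl (col_low hF hh hm a2 b2 hdh hx2 c1 c3 (hd.le.trans hr) h5)
    · exact Or.inr (Or.inr ⟨c1, c2, h5⟩)

/-- the points of `Kin` are off the tiles -/
theorem kin_off (hF : Fine F n (m : ℤ) p M W a₀) (hh : 0 < h) (hm : 0 < m) (hB : 0 ≤ B + δ)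
    (hBh : B + δ ≤ h) {r : ℝ} (hr : r ≤ h - (A + δ)) (hs : s ∈ Kin r (Pg (m * h) F)) :
    s ∈ Off A B h W δ := fun _ hj => RR_Kin hF hm hh hB hBh hr hj hs

/-- **the inner path is off the tiles or in the lower windows** -/
theorem zn_off (hF : Fine F n (m : ℤ) p M W a₀) (hh : 0 < h) (hm : 0 < m) {k1 g1 k2 g2 : ℤ}
    (a1 : a₀ k1 + 4 ≤ g1) (b1 : g1 + 3 ≤ a₀ (k1 + 1)) (a2 : a₀ k2 + 4 ≤ g2)
    (b2 : g2 + 3 ≤ a₀ (k2 + 1)) (hA : 0 < A) (hAB : A ≤ B) (hδ : 0 ≤ δ) (hδκ : δ ≤ κ)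
    (hK : A + B + 2 * κ < h) (hd : 0 < d) (hdh : d ≤ h - A - κ) {s1 s2 : ℂ}
    (hx1 : |X (gz h W g1) (ge W g1) s1| ≤ h / 8) (hy1 : Y (gz h W g1) (ge W g1) s1 < 0)
    (hx2 : |X (gz h W g2) (ge W g2) s2| ≤ h / 8) (hy2 : Y (gz h W g2) (ge W g2) s2 < 0)
    (hs : s ∈ Zn S (Pg (m * h) F) h d W g1 g2 s1 s2) :
    s ∈ Off A B h W δ ∨ s ∈ WinN h W A κ g1 ∨ s ∈ WinN h W A κ g2 := by
  have win : ∀ {x y : ℝ}, |x| ≤ h / 8 → |y - x| < d → |y| < 3 * h / 2 := by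
    intro x y h1 h2
    have e : y = (y - x) + x := by ring
    rw [e]
    refine (abs_add_le _ _).trans_lt ?_
    linarith
  rcases zn_kin hF hh hm a1 b1 a2 b2 hd (by linarith) (r := h - A - κ) hdh hx1 hx2 hs with h3 | h3 | h3
  · exact Or.inl (kin_off hF hh hm (by linarith) (by linarith) (by linarith) h3)
  · refine Or.inr (Or.inl ⟨win hx1 h3.1, by linarith [h3.2.2], h3.2.1.trans_lt hy1⟩)
  · refine Or.inr (Or.inr ⟨win hx2 h3.1, by linarith [h3.2.2], h3.2.1.trans_lt hy2⟩)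

end Crest.Agent.R143.InnZx643
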