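import Crest.Agent.R143.Expl_253
import Crest.Agent.R143.Frame7_395

/-!
# Row 143 (S0194): the local frame, "invisible case" of 660's note 3308 (helper969)

* `PB M o A` : probability (given the gap `o`) that the root block meets the set `A` of darts
* `rs_loc`, `EV_loc` : `‖EV M u o‖² ≤ PB M o A * ∑ ‖u g‖²` for a spin field `u` supported in `A`
* `EV_parts` : the same for a partition of the darts
* `Q_loc` : `∑_{t ∈ A} ‖N.Q t‖² ≤ 18 * PB (cm h) (Sum.inr k) (dA A)` for every net and every `k`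
  (triangles with their rotations)
* `Q_parts` : `‖∑ u t * N.Q t‖ ≤ √3 √(∑_{shallow} ‖u t‖²) + ∑_j √(18 PB_j) √(∑_{A_j} ‖u t‖²)`
-/

set_option autoImplicit false

noncomputable section

open scoped Classical

namespace Crest.Agent.R143.Invx969

open Crest.Agent.R143.B0x346 Crest.Agent.R143.DelGx806 Crest.Agent.R143.DelRx806
  Crest.Agent.R143.JColx54 Crest.Agent.R143.JCardx872 Crest.Agent.R143.Planarx54
  Crest.Agent.R143.Sidesx697
open Crest.Agent.R143.Frame1x395 Crest.Agent.R143.Frame2x395 Crest.Agent.R143.Frame3x395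
  Crest.Agent.R143.Frame4x395 Crest.Agent.R143.Frame5x395 Crest.Agent.R143.Frame6x395
  Crest.Agent.R143.Frame7x395 Crest.Agent.R143.Frame8x395 Crest.Agent.R143.DefsNx346
  Crest.Agent.R143.Explx253

section abstractpart

variable {D C : Type} [Fintype D] {M : CMap D C}

/-- the configurations with the gap `o` whose root block meets `A` -/
def XA (M : CMap D C) (o : D) (A : Set D) : Finset (D → ZMod 2) :=
  (A0 M o).filter fun x => ∃ g ∈ blk M x o, g ∈ A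

/-- probability that the root block meets `A`, given the gap `o` -/
def PB (M : CMap D C) (o : D) (A : Set D) : ℝ := ((XA M o A).card : ℝ) / (nG M o : ℝ)

theorem PB_nonneg (o : D) (A : Set D) : 0 ≤ PB M o A := by unfold PB; positivity

theorem XA_mono {o : D} {A B : Set D} (h : A ⊆ B) : XA M o A ⊆ XA M o B := by
  intro x hx
  obtain ⟨h1, g, h2, h3⟩ := Finset.mem_filter.1 hx
  exact Finset.mem_filter.2 ⟨h1, g, h2, h h3⟩

theorem PB_mono {o : D} {A B : Set D} (h : A ⊆ B) : PB M o A ≤ PB M o B := by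
  unfold PB
  gcongr
  exact XA_mono h

theorem XA_le (o : D) (A : Set D) : (XA M o A).card ≤ nG M o := by
  rw [← card_A0]
  exact Finset.card_le_card (Finset.filter_subset _ _)

theorem PB_le_one (o : D) (A : Set D) : PB M o A ≤ 1 := by
  unfold PB
  exact div_le_one_of_le₀ (by exact_mod_cast XA_le o A) (Nat.cast_nonneg _)

theorem card_XA (o : D) (A : Set D) : ((XA M o A).card : ℝ) = PB M o A * (nG M o : ℝ) := by
  unfold PB
  rcases Nat.eq_zero_or_pos (nG M o) with h | h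
  · have := XA_le (M := M) o A
    rw [h] at this ⊢
    have : (XA M o A).card = 0 := by omega
    rw [this]; simp
  · have h1 : (nG M o : ℝ) ≠ 0 := by exact_mod_cast h.ne'
    field_simp

theorem bs_zero {u : D → ℂ} {A : Set D} (hA : ∀ g, u g ≠ 0 → g ∈ A) {o : D} {x : D → ZMod 2}
    (hx : x ∈ A0 M o) (h : x ∉ XA M o A) : bs M x u o = 0 := by
  unfold bs
  refine Finset.sum_eq_zero fun g hg => ?_
  by_contra hc
  exact h (Finset.mem_filter.2 ⟨hx, g, hg, hA g hc⟩)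

/-- **local frame** for the root block -/
theorem rs_loc {w : ℂ} (w3 : w ^ 3 = 1) (w1 : w ≠ 1) (wc : (starRingEnd ℂ) w = w ^ 2)
    {u : D → ℂ} (hs : Spin M w u) {A : Set D} (hA : ∀ g, u g ≠ 0 → g ∈ A) (o : D) :
    ‖rs M u o‖ ^ 2 ≤ ((XA M o A).card : ℝ) * ((nE M : ℝ) / 4 * ∑ g, ‖u g‖ ^ 2) := by
  have e1 : rs M u o = ∑ x ∈ XA M o A, bs M x u o := by
    symm
    refine Finset.sum_subset (Finset.filter_subset _ _) fun x hx hx' => ?_
    exact bs_zero hA hx hx'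
  have h1 := (rs_bound w3 w1 wc hs o).trans (spin_sum w3 hs)
  have h2 : ∑ x ∈ XA M o A, ‖bs M x u o‖ ^ 2 ≤ (nE M : ℝ) / 4 * ∑ g, ‖u g‖ ^ 2 := by
    refine le_trans ?_ h1
    exact Finset.sum_le_sum_of_subset_of_nonneg (Finset.filter_subset _ _)
      fun _ _ _ => by positivity
  calc ‖rs M u o‖ ^ 2 ≤ (∑ x ∈ XA M o A, ‖bs M x u o‖) ^ 2 := by
        rw [e1]
        exact pow_le_pow_left₀ (norm_nonneg _) (norm_sum_le _ _) 2
    _ ≤ ((XA M o A).card : ℝ) * ∑ x ∈ XA M o A, ‖bs M x u o‖ ^ 2 :=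
        sq_sum_le_card_mul_sum_sq
    _ ≤ _ := mul_le_mul_of_nonneg_left h2 (Nat.cast_nonneg _)

theorem EV_loc_sq {w : ℂ} (w3 : w ^ 3 = 1) (w1 : w ≠ 1) (wc : (starRingEnd ℂ) w = w ^ 2)
    {u : D → ℂ} (hs : Spin M w u) {A : Set D} (hA : ∀ g, u g ≠ 0 → g ∈ A) (o : D) :
    ‖EV M u o‖ ^ 2 ≤ PB M o A * ∑ g, ‖u g‖ ^ 2 := by
  have hB : 0 ≤ ∑ g, ‖u g‖ ^ 2 := Finset.sum_nonneg fun g _ => by positivity
  have hP := PB_nonneg (M := M) o A
  rcases Finset.eq_empty_or_nonempty (A0 M o) with h0 | ⟨x, hx⟩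
  · have h1 : nG M o = 0 := by rw [← card_A0, h0]; rfl
    have h2 : EV M u o = 0 := by unfold EV; rw [h1]; simp
    rw [h2, norm_zero]
    have := mul_nonneg hP hB
    simpa using this
  · have h1 := rs_loc w3 w1 wc hs hA o
    obtain ⟨h2, h3⟩ := mem_A0.1 hx
    have h4 := nE_max h2 h3
    have h5 : (0 : ℝ) < nG M o := by
      rw [← card_A0]
      exact_mod_cast Finset.card_pos.2 ⟨x, hx⟩
    unfold EV
    rw [norm_div, div_pow, Complex.norm_natCast, div_le_iff₀ (by positivity)]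
    calc ‖rs M u o‖ ^ 2 ≤ _ := h1
      _ = PB M o A * (nG M o : ℝ) * ((nE M : ℝ) / 4) * ∑ g, ‖u g‖ ^ 2 := by
          rw [card_XA]; ring
      _ ≤ PB M o A * (nG M o : ℝ) * (nG M o : ℝ) * ∑ g, ‖u g‖ ^ 2 := by
          gcongr
          linarith
      _ = _ := by ring

/-- **local frame**, expectation form -/
theorem EV_loc {w : ℂ} (w3 : w ^ 3 = 1) (w1 : w ≠ 1) (wc : (starRingEnd ℂ) w = w ^ 2)
    {u : D → ℂ} (hs : Spin M w u) {A : Set D} (hA : ∀ g, u g ≠ 0 → g ∈ A) (o : D) :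
    ‖EV M u o‖ ≤ √(PB M o A) * √(∑ g, ‖u g‖ ^ 2) := by
  rw [← Real.sqrt_mul (PB_nonneg o A)]
  exact Real.le_sqrt_of_sq_le (EV_loc_sq w3 w1 wc hs hA o)

theorem rs_sum {ι : Type} (s : Finset ι) (u : ι → D → ℂ) (o : D) :
    rs M (fun g => ∑ i ∈ s, u i g) o = ∑ i ∈ s, rs M (u i) o := by
  unfold rs bs
  rw [Finset.sum_comm]
  refine Finset.sum_congr rfl fun x _ => ?_
  exact Finset.sum_comm

theorem EV_sum {ι : Type} (s : Finset ι) (u : ι → D → ℂ) (o : D) :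
    EV M (fun g => ∑ i ∈ s, u i g) o = ∑ i ∈ s, EV M (u i) o := by
  unfold EV
  rw [rs_sum, Finset.sum_div]

/-- **local frame for a partition of the faces** -/
theorem EV_parts {w : ℂ} (w3 : w ^ 3 = 1) (w1 : w ≠ 1) (wc : (starRingEnd ℂ) w = w ^ 2)
    {u : D → ℂ} (hs : Spin M w u) {ι : Type} (s : Finset ι) (c : D → ι)
    (hc : ∀ g, c (M.rho g) = c g) (hsup : ∀ g, u g ≠ 0 → c g ∈ s) (o : D) :
    ‖EV M u o‖ ≤ ∑ i ∈ s, √(PB M o {g | c g = i}) *
      √(∑ g ∈ Finset.univ.filter (fun g => c g = i), ‖u g‖ ^ 2) := by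
  set v : ι → D → ℂ := fun i g => if c g = i then u g else 0 with hv
  have e1 : u = fun g => ∑ i ∈ s, v i g := by
    funext g
    simp only [hv]
    by_cases h : u g = 0
    · rw [h]; simp
    · rw [Finset.sum_ite_eq s (c g)]
      rw [if_pos (hsup g h)]
  have e2 : ∀ i, ∑ g, ‖v i g‖ ^ 2 =
      ∑ g ∈ Finset.univ.filter (fun g => c g = i), ‖u g‖ ^ 2 := by
    intro i
    rw [Finset.sum_filter]
    refine Finset.sum_congr rfl fun g _ => ?_
    simp only [hv]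
    split_ifs
    · rfl
    · simp
  have hvs : ∀ i, Spin M w (v i) := by
    intro i g
    simp only [hv]
    rw [hc, hs g]
    split_ifs
    · rfl
    · rw [mul_zero]
  have hEV : EV M u o = ∑ i ∈ s, EV M (v i) o := by
    conv_lhs => rw [e1]
    exact EV_sum s v o
  rw [hEV]
  refine (norm_sum_le _ _).trans (Finset.sum_le_sum fun i _ => ?_)
  rw [← e2 i]
  refine EV_loc w3 w1 wc (hvs i) (fun g hg => ?_) o
  simp only [hv] at hg
  by_contra h
  exact hg (if_neg h)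

/-! ### theta sums -/

/-- the spin projection of the numbers of thetas -/
def fT (M : CMap D C) (w : ℂ) (o b : D) : ℂ :=
  (nT M o b : ℂ) + w * nT M o (M.rho b) + w ^ 2 * nT M o (M.rho (M.rho b))

theorem fT_rho {w : ℂ} (w3 : w ^ 3 = 1) (o b : D) : fT M w o (M.rho b) = w ^ 2 * fT M w o b := by
  unfold fT
  rw [M.rho3]
  linear_combination (-(nT M o (M.rho b) : ℂ) - w * (nT M o (M.rho (M.rho b)) : ℂ)) * w3

theorem fT_root (w : ℂ) (o b : D) : fT M w (M.rho o) b = fT M w o (M.rho b) := by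
  have e : ∀ g, nT M (M.rho o) g = nT M o (M.rho g) := by
    intro g
    rw [← nT_rot (g := o) (h := M.rho g), M.rho3]
  unfold fT
  rw [e, e, e]

theorem norm_fT_root {w : ℂ} (w3 : w ^ 3 = 1) (o b : D) :
    ‖fT M w (M.rho o) b‖ = ‖fT M w o b‖ := by
  have hw : ‖w‖ = 1 := by
    have h1 : ‖w‖ ^ 3 = 1 := by rw [← norm_pow, w3, norm_one]
    exact (pow_eq_one_iff_of_nonneg (norm_nonneg _) (by norm_num)).1 h1
  rw [fT_root, fT_rho w3, norm_mul, norm_pow, hw, one_pow, one_mul]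

/-- **local energy of the spin projection** -/
theorem fT_loc {w : ℂ} (w3 : w ^ 3 = 1) (w1 : w ≠ 1) (wc : (starRingEnd ℂ) w = w ^ 2)
    {o : D} {A : Set D} (hA : ∀ g, M.rho g ∈ A ↔ g ∈ A) (ho : ∀ d ∈ Fa M o, d ∉ A) :
    ∑ g ∈ Finset.univ.filter (fun g => g ∈ A), ‖fT M w o g‖ ^ 2 ≤
      9 * (((XA M o A).card : ℝ) * ((nE M : ℝ) / 4)) := by
  set u : D → ℂ := fun g => if g ∈ A then (starRingEnd ℂ) (fT M w o g) else 0 with hu
  have hs : Spin M w u := by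
    intro g
    simp only [hu]
    rw [fT_rho w3, map_mul, map_pow, wc]
    by_cases h : g ∈ A
    · rw [if_pos ((hA g).2 h), if_pos h]
      linear_combination (w * (starRingEnd ℂ) (fT M w o g)) * w3
    · rw [if_neg (fun h' => h ((hA g).1 h')), if_neg h, mul_zero]
  have h0 : ∀ d ∈ Fa M o, u d = 0 := fun d hd => by
    simp only [hu]
    rw [if_neg (ho d hd)]
  have hsupp : ∀ g, u g ≠ 0 → g ∈ A := by
    intro g hg
    by_contra h
    exact hg (if_neg h)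
  set E : ℝ := ∑ g ∈ Finset.univ.filter (fun g => g ∈ A), ‖fT M w o g‖ ^ 2 with hE
  have eE : ∑ g, ‖u g‖ ^ 2 = E := by
    rw [hE, Finset.sum_filter]
    refine Finset.sum_congr rfl fun g _ => ?_
    simp only [hu]
    split_ifs
    · rw [RCLike.norm_conj]
    · simp
  have hE0 : 0 ≤ E := Finset.sum_nonneg fun g _ => by positivity
  have er : 3 * rs M u o = (E : ℂ) := by
    have r0 := rs_pairT (M := M) h0
    have r1 : rs M u o = ∑ g, w * (u g * (nT M o (M.rho g) : ℂ)) := by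
      rw [r0]
      symm
      refine Fintype.sum_equiv (rhoE M) _ _ fun g => ?_
      show w * (u g * (nT M o (M.rho g) : ℂ)) = u (M.rho g) * (nT M o (M.rho g) : ℂ)
      rw [hs]; ring
    have r2 : rs M u o = ∑ g, w ^ 2 * (u g * (nT M o (M.rho (M.rho g)) : ℂ)) := by
      rw [r0]
      symm
      refine Fintype.sum_equiv ((rhoE M).trans (rhoE M)) _ _ fun g => ?_
      show w ^ 2 * (u g * (nT M o (M.rho (M.rho g)) : ℂ)) =
        u (M.rho (M.rho g)) * (nT M o (M.rho (M.rho g)) : ℂ)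
      rw [hs, hs]; ring
    have e3 : 3 * rs M u o = ∑ g, u g * fT M w o g := by
      calc 3 * rs M u o = rs M u o + rs M u o + rs M u o := by ring
        _ = ∑ g, u g * (nT M o g : ℂ) + ∑ g, w * (u g * (nT M o (M.rho g) : ℂ)) +
            ∑ g, w ^ 2 * (u g * (nT M o (M.rho (M.rho g)) : ℂ)) := by
            rw [← r0, ← r1, ← r2]
        _ = _ := by
            rw [← Finset.sum_add_distrib, ← Finset.sum_add_distrib]
            refine Finset.sum_congr rfl fun g _ => ?_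
            unfold fT
            ring
    rw [e3, hE, Finset.sum_filter]
    push_cast
    refine Finset.sum_congr rfl fun g _ => ?_
    simp only [hu]
    split_ifs
    · rw [mul_comm, Complex.mul_conj, Complex.normSq_eq_norm_sq, Complex.ofReal_pow]
    · simp
  have h1 := rs_loc w3 w1 wc hs hsupp o
  rw [eE] at h1
  have h2 : (3 * ‖rs M u o‖) = E := by
    have := congrArg norm er
    rw [norm_mul, Complex.norm_real, Real.norm_of_nonneg hE0] at this
    simpa using this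
  have h3 : E ^ 2 ≤ 9 * (((XA M o A).card : ℝ) * ((nE M : ℝ) / 4)) * E := by
    calc E ^ 2 = 9 * ‖rs M u o‖ ^ 2 := by rw [← h2]; ring
      _ ≤ 9 * (((XA M o A).card : ℝ) * ((nE M : ℝ) / 4 * E)) := by linarith
      _ = _ := by ring
  rcases hE0.eq_or_lt with h | h
  · rw [← h]; positivity
  · have : E * E ≤ 9 * (((XA M o A).card : ℝ) * ((nE M : ℝ) / 4)) * E := by
      rw [← pow_two]; exact h3
    exact le_of_mul_le_mul_right this h

theorem nG_half (o : D) : 2 * nG M o ≤ nE M := by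
  have h1 := nG_le (M := M) o
  have h2 := nE_eq (M := M) o
  omega

end abstractpart

/-! ### networks -/

variable {S : Finset ℂ} {N : Net ℂ}

/-- the darts of the triangles of `A` -/
def dA (A : Finset (ℂ × ℂ × ℂ)) : Set (Dt S) :=
  {d | ∃ e : {e : ℂ × ℂ // e ∈ sd S}, d = Sum.inl e ∧ (e.1.1, e.1.2, th S e.1) ∈ A}

/-- closed under rotations -/
def RotC (A : Finset (ℂ × ℂ × ℂ)) : Prop := ∀ t ∈ A, (t.2.1, t.2.2, t.1) ∈ A

theorem dA_rho (h : HNet S N) {A : Finset (ℂ × ℂ × ℂ)} (hr : RotC A) (g : Dt S) :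
    (cm h).rho g ∈ (dA A : Set (Dt S)) ↔ g ∈ (dA A : Set (Dt S)) := by
  have key : ∀ g : Dt S, g ∈ (dA A : Set (Dt S)) → (cm h).rho g ∈ (dA A : Set (Dt S)) := by
    rintro g ⟨⟨⟨a, b⟩, he⟩, rfl, hg⟩
    have h1 : (a, b, th S (a, b)) ∈ delT S := th_spec he
    refine ⟨⟨(b, th S (a, b)), nx_mem h ⟨(a, b), he⟩⟩, rfl, ?_⟩
    show (b, th S (a, b), th S (b, th S (a, b))) ∈ A
    rw [th_eq h (rot_mem h h1)]
    exact hr _ hg
  refine ⟨fun hg => ?_, key g⟩
  have := key _ (key _ hg)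
  rwa [(cm h).rho3] at this

theorem dA_root (h : HNet S N) {A : Finset (ℂ × ℂ × ℂ)} (k : ZMod 3) :
    ∀ d ∈ Fa (cm h) (Sum.inr k : Dt S), d ∉ (dA A : Set (Dt S)) := by
  rintro d (rfl | rfl | rfl) ⟨e, he, -⟩ <;> exact absurd he (by exact fun h => by cases h)

theorem norm_fT_src (h : HNet S N) (w : ℂ) (w3 : w ^ 3 = 1) (k : ZMod 3) (b : Dt S) :
    ‖fT (cm h) w (Sum.inr k) b‖ = ‖fT (cm h) w (Sum.inr 0) b‖ := by
  have step : ∀ k : ZMod 3, ‖fT (cm h) w (Sum.inr (k - 1)) b‖ = ‖fT (cm h) w (Sum.inr k) b‖ :=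
    fun k => norm_fT_root (M := cm h) w3 (Sum.inr k) b
  have h0 := step 0
  have h2 := step 2
  rcases z3 k with rfl | rfl | rfl
  · rfl
  · exact h2.trans h0
  · exact h0

theorem Q_one (h : HNet S N) {t : ℂ × ℂ × ℂ} (ht : t ∈ delT S) :
    ‖N.Q t‖ ^ 2 * ((nE (cm h) : ℝ) / 4) ^ 2 ≤
      ‖fT (cm h) (om ^ 2) (Sum.inr 0) (sdt h ht 0)‖ ^ 2 := by
  have hE := nE_pos h
  rcases (N.tj t).eq_empty_or_nonempty with he | hne
  · have hQ : N.Q t = 0 := by
      unfold Net.Q Net.triA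
      rw [he]
      simp
    rw [hQ, norm_zero]
    simp
  · have h1 := card_tj h ht hne
    have h2 : ‖fT (cm h) (om ^ 2) (Sum.inr 0) (sdt h ht 0)‖ ^ 2 =
        ‖N.Q t‖ ^ 2 * ((N.tj t).card : ℝ) ^ 2 := by
      unfold fT
      rw [← Q_eq h ht hne, norm_mul, mul_pow]
      simp
    rw [h2]
    apply mul_le_mul_of_nonneg_left _ (by positivity)
    exact pow_le_pow_left₀ (by positivity) h1 2

/-- **LOCAL FRAME in nets** -/
theorem Q_loc (h : HNet S N) {A : Finset (ℂ × ℂ × ℂ)} (hA : A ⊆ delT S) (hr : RotC A)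
    (k : ZMod 3) :
    ∑ t ∈ A, ‖N.Q t‖ ^ 2 ≤ 18 * PB (cm h) (Sum.inr k) (dA A) := by
  have hE := nE_pos h
  have h3 := Oscx63.om_pow_three
  have w3 : (om ^ 2) ^ 3 = 1 := om23
  have main := fT_loc (M := cm h) w3 om2_ne om2_conj (o := (Sum.inr k : Dt S))
    (A := (dA A : Set (Dt S))) (dA_rho h hr) (dA_root h k)
  set E : ℝ := ∑ g ∈ Finset.univ.filter (fun g : Dt S => g ∈ (dA A : Set (Dt S))),
    ‖fT (cm h) (om ^ 2) (Sum.inr k) g‖ ^ 2 with hE'
  have h1 : (∑ t ∈ A, ‖N.Q t‖ ^ 2) * ((nE (cm h) : ℝ) / 4) ^ 2 ≤ E := by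
    rw [Finset.sum_mul]
    set G : {t // t ∈ A} → Dt S := fun t => sdt h (hA t.2) 0 with hG
    have hGinj : Function.Injective G := by
      intro s t e
      have e1 : (s.1.1, s.1.2.1) = (t.1.1, t.1.2.1) := congrArg Subtype.val (Sum.inl_injective e)
      obtain ⟨⟨a, b, c⟩, hs⟩ := s
      obtain ⟨⟨a', b', c'⟩, ht⟩ := t
      simp only [Prod.mk.injEq] at e1
      obtain ⟨rfl, rfl⟩ := e1
      have e2 := th_eq h (hA hs)
      have e3 := th_eq h (hA ht)
      rw [e2] at e3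
      subst e3
      rfl
    rw [← Finset.sum_coe_sort A]
    calc ∑ t : {t // t ∈ A}, ‖N.Q t.1‖ ^ 2 * ((nE (cm h) : ℝ) / 4) ^ 2
        ≤ ∑ t : {t // t ∈ A}, ‖fT (cm h) (om ^ 2) (Sum.inr k) (G t)‖ ^ 2 := by
          refine Finset.sum_le_sum fun t _ => ?_
          rw [norm_fT_src h _ w3]
          exact Q_one h (hA t.2)
      _ = ∑ g ∈ Finset.univ.image G, ‖fT (cm h) (om ^ 2) (Sum.inr k) g‖ ^ 2 := by
          rw [Finset.sum_image fun x _ y _ e => hGinj e]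
      _ ≤ E := by
          refine Finset.sum_le_sum_of_subset_of_nonneg ?_ fun _ _ _ => by positivity
          intro g hg
          obtain ⟨t, -, rfl⟩ := Finset.mem_image.1 hg
          refine Finset.mem_filter.2 ⟨mu _, ⟨(t.1.1, t.1.2.1), _⟩, rfl, ?_⟩
          show (t.1.1, t.1.2.1, th S (t.1.1, t.1.2.1)) ∈ A
          rw [th_eq h (a := t.1.1) (b := t.1.2.1) (c := t.1.2.2) (hA t.2)]
          exact t.2
  have h2 : ((XA (cm h) (Sum.inr k) (dA A)).card : ℝ) ≤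
      PB (cm h) (Sum.inr k) (dA A) * ((nE (cm h) : ℝ) / 2) := by
    rw [card_XA]
    have h4 : (2 : ℝ) * (nG (cm h) (Sum.inr k : Dt S) : ℝ) ≤ (nE (cm h) : ℝ) := by
      exact_mod_cast nG_half (M := cm h) (Sum.inr k : Dt S)
    exact mul_le_mul_of_nonneg_left (by linarith) (PB_nonneg _ _)
  have h5 : (∑ t ∈ A, ‖N.Q t‖ ^ 2) * ((nE (cm h) : ℝ) / 4) ^ 2 ≤
      (18 * PB (cm h) (Sum.inr k) (dA A)) * ((nE (cm h) : ℝ) / 4) ^ 2 := by
    calc _ ≤ E := h1
      _ ≤ _ := main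
      _ ≤ 9 * (PB (cm h) (Sum.inr k) (dA A) * ((nE (cm h) : ℝ) / 2) * ((nE (cm h) : ℝ) / 4)) := by
          gcongr
      _ = _ := by ring
  exact le_of_mul_le_mul_right h5 (by positivity)

/-- Cauchy-Schwarz on one part -/
theorem part_le {A : Finset (ℂ × ℂ × ℂ)} (u : ℂ × ℂ × ℂ → ℂ) {P : ℝ}
    (hP : ∑ t ∈ A, ‖N.Q t‖ ^ 2 ≤ P) :
    ‖∑ t ∈ A, u t * N.Q t‖ ≤ √P * √(∑ t ∈ A, ‖u t‖ ^ 2) := by
  have hP0 : 0 ≤ P := le_trans (Finset.sum_nonneg fun _ _ => by positivity) hP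
  rw [← Real.sqrt_mul hP0]
  refine Real.le_sqrt_of_sq_le ?_
  calc ‖∑ t ∈ A, u t * N.Q t‖ ^ 2 ≤ (∑ t ∈ A, ‖u t‖ * ‖N.Q t‖) ^ 2 := by
        refine pow_le_pow_left₀ (norm_nonneg _) ((norm_sum_le _ _).trans ?_) 2
        exact Finset.sum_le_sum fun t _ => (norm_mul _ _).le
    _ ≤ (∑ t ∈ A, ‖u t‖ ^ 2) * ∑ t ∈ A, ‖N.Q t‖ ^ 2 := Finset.sum_mul_sq_le_sq_mul_sq _ _ _
    _ ≤ (∑ t ∈ A, ‖u t‖ ^ 2) * P := by gcongr
    _ = _ := mul_comm _ _

/-- **partition of the triangles in a shallow part and deep parts** -/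
theorem Q_parts (h : HNet S N) {ι : Type} (s : Finset ι) (A : ι → Finset (ℂ × ℂ × ℂ))
    (hA : ∀ i ∈ s, A i ⊆ delT S) (hr : ∀ i ∈ s, RotC (A i))
    (hd : ∀ i ∈ s, ∀ j ∈ s, i ≠ j → Disjoint (A i) (A j)) (u : ℂ × ℂ × ℂ → ℂ) (k : ι → ZMod 3) :
    ‖∑ t ∈ delT S, u t * N.Q t‖ ≤
      √3 * √(∑ t ∈ (delT S).filter (fun t => ∀ i ∈ s, t ∉ A i), ‖u t‖ ^ 2) +
      ∑ i ∈ s, √(18 * PB (cm h) (Sum.inr (k i)) (dA (A i))) * √(∑ t ∈ A i, ‖u t‖ ^ 2) := by
  have e1 : ∑ t ∈ delT S, u t * N.Q t =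
      ∑ t ∈ (delT S).filter (fun t => ∀ i ∈ s, t ∉ A i), u t * N.Q t +
      ∑ i ∈ s, ∑ t ∈ A i, u t * N.Q t := by
    rw [← Finset.sum_biUnion (fun i hi j hj hij => hd i hi j hj hij)]
    rw [← Finset.sum_filter_add_sum_filter_not (delT S) (fun t => ∀ i ∈ s, t ∉ A i)]
    congr 1
    refine Finset.sum_congr ?_ fun _ _ => rfl
    ext t
    simp only [Finset.mem_filter, Finset.mem_biUnion, not_forall, not_not]
    constructor
    · rintro ⟨-, i, hi, ht⟩
      exact ⟨i, hi, ht⟩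
    · rintro ⟨i, hi, ht⟩
      exact ⟨hA i hi ht, i, hi, ht⟩
  rw [e1]
  refine (norm_add_le _ _).trans (add_le_add ?_ ?_)
  · exact part_le u (frame3 h (Finset.filter_subset _ _))
  · refine (norm_sum_le _ _).trans (Finset.sum_le_sum fun i hi => ?_)
    exact part_le u (Q_loc h (hA i hi) (hr i hi) (k i))

end Crest.Agent.R143.Invx969
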