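import Crest.Agent.R143.LabB2_951
import Crest.Agent.R143.Brk_478
import Crest.Agent.R143.Lab_755

/-!
# Row 143 (S0194), CONT (K7), MARK: the shape of a brick polygon at a vertex of its boundary
(helper165)

Frame of the incoming edge `k` at the vertex `v (k + 1)`: `w = pt s (v (k + 1)) + ζ * ev v k`.
* `quad_of` : the four cells at a vertex
* `shape` : straight: `0 ≤ im`; left turn: `re ≤ 0 ≤ im`; right turn: `0 ≤ im` or `0 ≤ re`
-/

set_option autoImplicit false

noncomputable section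

namespace Crest.Agent.R143.Inwx165

open Set Complex
open Crest.Agent.R158 Crest.Agent.R158.Sp896
open Crest.Agent.R143.Tenx416 (Pg)
open Crest.Agent.R143.LabDx755
open Crest.Agent.R143.LabBx951
open Crest.Agent.R143.TentMx951 (mem_sq)
open Crest.Agent.R143.Brkx478 (Bk cells no_pinch)

theorem cell1 {s t : ℝ} (hs : 0 < s) {m n : ℤ} (h : |t| < s) (h1 : s * n ≤ s * m + t)
    (h2 : s * m + t ≤ s * (n + 1)) : (n = m ∧ 0 ≤ t) ∨ (n = m - 1 ∧ t ≤ 0) := by
  obtain ⟨h3, h4⟩ := abs_lt.1 h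
  have a1 : (n : ℝ) < m + 1 := by
    have : s * (n : ℝ) < s * (m + 1) := by linarith
    exact lt_of_mul_lt_mul_left this hs.le
  have a2 : (m : ℝ) - 2 < n := by
    have : s * ((m : ℝ) - 2) < s * n := by linarith
    exact lt_of_mul_lt_mul_left this hs.le
  have b1 : n < m + 1 := by exact_mod_cast a1
  have b2 : m - 2 < n := by exact_mod_cast a2
  have : n = m ∨ n = m - 1 := by omega
  rcases this with rfl | rfl
  · exact Or.inl ⟨rfl, by linarith⟩
  · refine Or.inr ⟨rfl, ?_⟩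
    push_cast at h2
    linarith

/-- **the cells at a vertex** in the frame of an edge -/
theorem quad_of {s : ℝ} (hs : 0 < s) {a p : V} (h : Adj a p) {w ζ : ℂ}
    (hw : w = pt s p + ζ * cv a p) (h1 : |ζ.re| < s) (h2 : |ζ.im| < s) {q : V}
    (hq : w ∈ sq s q) :
    (q = lc a p ∧ ζ.re ≤ 0 ∧ 0 ≤ ζ.im) ∨ (q = rc a p ∧ ζ.re ≤ 0 ∧ ζ.im ≤ 0) ∨
    (q = lc p (fw a p) ∧ 0 ≤ ζ.re ∧ 0 ≤ ζ.im) ∨ (q = rc p (fw a p) ∧ 0 ≤ ζ.re ∧ ζ.im ≤ 0) := by
  obtain ⟨e1, e2⟩ := lin_mul hw
  rw [mem_sq, e1, e2] at hq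
  obtain ⟨g1, g2, g3, g4⟩ := hq
  obtain ⟨a1, a2⟩ := a
  obtain ⟨p1, p2⟩ := p
  obtain ⟨q1, q2⟩ := q
  have h1' : |-ζ.re| < s := by rwa [abs_neg]
  have h2' : |-ζ.im| < s := by rwa [abs_neg]
  simp only at g1 g2 g3 g4
  rcases h with ⟨k1, k2⟩ | ⟨k1, k2⟩ | ⟨k1, k2⟩ | ⟨k1, k2⟩ <;> simp only at k1 k2 <;> subst k1 k2
  · -- `(1, 0)`
    push_cast at g1 g2 g3 g4
    have c1 := cell1 (m := a1 + 1) hs h1 (n := q1) (by push_cast; linarith) (by push_cast; linarith)
    have c2 := cell1 (m := p2) hs h2 (n := q2) (by linarith) (by linarith)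
    rcases c1 with ⟨d1, d2⟩ | ⟨d1, d2⟩ <;> rcases c2 with ⟨d3, d4⟩ | ⟨d3, d4⟩
    · right; right; left
      refine ⟨?_, d2, d4⟩
      unfold lc fw; ext <;> simp only <;> omega
    · right; right; right
      refine ⟨?_, d2, d4⟩
      unfold rc fw; ext <;> simp only <;> omega
    · left
      refine ⟨?_, d2, d4⟩
      unfold lc; ext <;> simp only <;> omega
    · right; left
      refine ⟨?_, d2, d4⟩
      unfold rc; ext <;> simp only <;> omega
  · -- `(-1, 0)`
    push_cast at g1 g2 g3 g4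
    have c1 := cell1 (m := a1 - 1) hs h1' (n := q1) (by push_cast; linarith)
      (by push_cast; linarith)
    have c2 := cell1 (m := p2) hs h2' (n := q2) (by linarith) (by linarith)
    rcases c1 with ⟨d1, d2⟩ | ⟨d1, d2⟩ <;> rcases c2 with ⟨d3, d4⟩ | ⟨d3, d4⟩
    · right; left
      refine ⟨?_, by linarith, by linarith⟩
      unfold rc; ext <;> simp only <;> omega
    · left
      refine ⟨?_, by linarith, by linarith⟩
      unfold lc; ext <;> simp only <;> omega
    · right; right; right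
      refine ⟨?_, by linarith, by linarith⟩
      unfold rc fw; ext <;> simp only <;> omega
    · right; right; left
      refine ⟨?_, by linarith, by linarith⟩
      unfold lc fw; ext <;> simp only <;> omega
  · -- `(0, 1)`
    push_cast at g1 g2 g3 g4
    have c1 := cell1 (m := p1) hs h2' (n := q1) (by linarith) (by linarith)
    have c2 := cell1 (m := a2 + 1) hs h1 (n := q2) (by push_cast; linarith)
      (by push_cast; linarith)
    rcases c1 with ⟨d1, d2⟩ | ⟨d1, d2⟩ <;> rcases c2 with ⟨d3, d4⟩ | ⟨d3, d4⟩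
    · right; right; right
      refine ⟨?_, by linarith, by linarith⟩
      unfold rc fw; ext <;> simp only <;> omega
    · right; left
      refine ⟨?_, by linarith, by linarith⟩
      unfold rc; ext <;> simp only <;> omega
    · right; right; left
      refine ⟨?_, by linarith, by linarith⟩
      unfold lc fw; ext <;> simp only <;> omega
    · left
      refine ⟨?_, by linarith, by linarith⟩
      unfold lc; ext <;> simp only <;> omega
  · -- `(0, -1)`
    push_cast at g1 g2 g3 g4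
    have c1 := cell1 (m := p1) hs h2 (n := q1) (by linarith) (by linarith)
    have c2 := cell1 (m := a2 - 1) hs h1' (n := q2) (by push_cast; linarith)
      (by push_cast; linarith)
    rcases c1 with ⟨d1, d2⟩ | ⟨d1, d2⟩ <;> rcases c2 with ⟨d3, d4⟩ | ⟨d3, d4⟩
    · left
      refine ⟨?_, by linarith, by linarith⟩
      unfold lc; ext <;> simp only <;> omega
    · right; right; left
      refine ⟨?_, by linarith, by linarith⟩
      unfold lc fw; ext <;> simp only <;> omega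
    · right; left
      refine ⟨?_, by linarith, by linarith⟩
      unfold rc; ext <;> simp only <;> omega
    · right; right; right
      refine ⟨?_, by linarith, by linarith⟩
      unfold rc fw; ext <;> simp only <;> omega

/-- a left turn goes to the left neighbour -/
theorem lt_of_cv {a p b : V} (h : cv p b = I * cv a p) : b = lt a p := by
  have e1 := congrArg Complex.re h
  have e2 := congrArg Complex.im h
  unfold cv at e1 e2
  simp at e1 e2
  have f1 : b.1 - p.1 = -(p.2 - a.2) := by exact_mod_cast (by linarith : ((b.1 : ℝ) - p.1) = -(p.2 - a.2))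
  have f2 : b.2 - p.2 = p.1 - a.1 := by exact_mod_cast (by linarith : ((b.2 : ℝ) - p.2) = p.1 - a.1)
  unfold lt
  ext <;> simp only <;> omega

/-- no checkerboard pattern in the frame of an edge -/
theorem no_pinch' {U : Set Bk} {a p : V} (h : Adj a p) (h1 : lc a p ∈ cells U)
    (h2 : rc a p ∉ cells U) (h3 : lc p (fw a p) ∉ cells U) : rc p (fw a p) ∉ cells U := by
  obtain ⟨a1, a2⟩ := a
  obtain ⟨p1, p2⟩ := p
  intro h4
  have key := no_pinch U p1 p2
  rcases h with ⟨k1, k2⟩ | ⟨k1, k2⟩ | ⟨k1, k2⟩ | ⟨k1, k2⟩ <;> simp only at k1 k2 <;> subst k1 k2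
  · refine key.2 ⟨?_, ?_, ?_, ?_⟩
    · intro h'; apply h2; convert h' using 1; unfold rc; ext <;> simp only <;> omega
    · intro h'; apply h3; convert h' using 1; unfold lc fw; ext <;> simp only <;> omega
    · convert h4 using 1; unfold rc fw; ext <;> simp only <;> omega
    · convert h1 using 1; unfold lc; ext <;> simp only <;> omega
  · refine key.2 ⟨?_, ?_, ?_, ?_⟩
    · intro h'; apply h3; convert h' using 1; unfold lc fw; ext <;> simp only <;> omega
    · intro h'; apply h2; convert h' using 1; unfold rc; ext <;> simp only <;> omega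
    · convert h1 using 1; unfold lc; ext <;> simp only <;> omega
    · convert h4 using 1; unfold rc fw; ext <;> simp only <;> omega
  · refine key.1 ⟨?_, ?_, ?_, ?_⟩
    · convert h1 using 1; unfold lc; ext <;> simp only <;> omega
    · convert h4 using 1; unfold rc fw; ext <;> simp only <;> omega
    · intro h'; apply h2; convert h' using 1; unfold rc; ext <;> simp only <;> omega
    · intro h'; apply h3; convert h' using 1; unfold lc fw; ext <;> simp only <;> omega
  · refine key.1 ⟨?_, ?_, ?_, ?_⟩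
    · convert h4 using 1; unfold rc fw; ext <;> simp only <;> omega
    · convert h1 using 1; unfold lc; ext <;> simp only <;> omega
    · intro h'; apply h3; convert h' using 1; unfold lc fw; ext <;> simp only <;> omega
    · intro h'; apply h2; convert h' using 1; unfold rc; ext <;> simp only <;> omega

/-- `P` has the shape `Q` in the box of size `s` around `p`, frame `c` -/
def Shape (s : ℝ) (P : Set ℂ) (p c : ℂ) (Q : ℂ → Prop) : Prop :=
  ∀ ζ : ℂ, |ζ.re| < s → |ζ.im| < s → (p + ζ * c ∈ P ↔ Q ζ)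

/-- **the shape at a vertex** -/
theorem shape {s : ℝ} (hs : 0 < s) {U : Set Bk} {N : ℕ} {v : ℕ → V} (hc : Cyc (cells U) N v)
    (k : ℕ) :
    (ev v (k + 1) = ev v k ∧
      Shape s (Pg s (cells U)) (pt s (v (k + 1))) (ev v k) fun ζ => 0 ≤ ζ.im) ∨
    (ev v (k + 1) = I * ev v k ∧
      Shape s (Pg s (cells U)) (pt s (v (k + 1))) (ev v k) fun ζ => ζ.re ≤ 0 ∧ 0 ≤ ζ.im) ∨
    (ev v (k + 1) = -I * ev v k ∧
      Shape s (Pg s (cells U)) (pt s (v (k + 1))) (ev v k) fun ζ => 0 ≤ ζ.im ∨ 0 ≤ ζ.re) := by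
  have hA := hc.step k
  have hB := hc.step (k + 1)
  have L := hc.left k
  have R := hc.right k
  have L' := hc.left (k + 1)
  have R' := hc.right (k + 1)
  have m1 : ∀ ζ : ℂ, ∀ q ∈ cells U, pt s (v (k + 1)) + ζ * ev v k ∈ sq s q →
      pt s (v (k + 1)) + ζ * ev v k ∈ Pg s (cells U) := fun ζ q hq h => mem_Pg hq h
  rcases turn hA hB L R' with ⟨h1, h2⟩ | ⟨h1, h2⟩ | ⟨h1, h2, h3⟩
  · refine Or.inl ⟨h1, fun ζ z1 z2 => ⟨fun h => ?_, fun h => ?_⟩⟩
    · obtain ⟨q, hq, hz⟩ := mem_iUnion₂.1 h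
      rcases quad_of hs hA rfl z1 z2 hz with ⟨e, -, h'⟩ | ⟨e, -, -⟩ | ⟨e, -, h'⟩ | ⟨e, -, -⟩
      · exact h'
      · exact absurd (e ▸ hq) R
      · exact h'
      · rw [← h2] at e
        exact absurd (e ▸ hq) R'
    · obtain ⟨a1, a2⟩ := abs_lt.1 z1
      obtain ⟨a3, a4⟩ := abs_lt.1 z2
      rcases le_total ζ.re 0 with h' | h'
      · exact m1 ζ _ L (quadLB hA rfl a1.le h' h a4.le)
      · refine m1 ζ _ ?_ (quadLF hA rfl h' a2.le h a4.le)
        rw [← h2]; exact L'
  · have hb : v (k + 1 + 1) = lt (v k) (v (k + 1)) := lt_of_cv h1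
    obtain ⟨-, -, e3⟩ := adj_lt hA
    rw [hb, e3] at R'
    have R2 := no_pinch' hA L R R'
    refine Or.inr (Or.inl ⟨h1, fun ζ z1 z2 => ⟨fun h => ?_, fun h => ?_⟩⟩)
    · obtain ⟨q, hq, hz⟩ := mem_iUnion₂.1 h
      rcases quad_of hs hA rfl z1 z2 hz with ⟨e, h4, h'⟩ | ⟨e, -, -⟩ | ⟨e, -, h'⟩ | ⟨e, -, -⟩
      · exact ⟨h4, h'⟩
      · exact absurd (e ▸ hq) R
      · exact absurd (e ▸ hq) R'
      · exact absurd (e ▸ hq) R2
    · obtain ⟨a1, a2⟩ := abs_lt.1 z1
      obtain ⟨a3, a4⟩ := abs_lt.1 z2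
      exact m1 ζ _ L (quadLB hA rfl a1.le h.1 h.2 a4.le)
  · have D := diag hc k h3
    rw [h2] at L'
    refine Or.inr (Or.inr ⟨h1, fun ζ z1 z2 => ⟨fun h => ?_, fun h => ?_⟩⟩)
    · obtain ⟨q, hq, hz⟩ := mem_iUnion₂.1 h
      rcases quad_of hs hA rfl z1 z2 hz with ⟨e, h4, h'⟩ | ⟨e, -, -⟩ | ⟨e, -, h'⟩ | ⟨e, h', -⟩
      · exact Or.inl h'
      · exact absurd (e ▸ hq) R
      · exact Or.inl h'
      · exact Or.inr h'
    · obtain ⟨a1, a2⟩ := abs_lt.1 z1
      obtain ⟨a3, a4⟩ := abs_lt.1 z2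
      rcases h with h | h
      · rcases le_total ζ.re 0 with h' | h'
        · exact m1 ζ _ L (quadLB hA rfl a1.le h' h a4.le)
        · exact m1 ζ _ D (quadLF hA rfl h' a2.le h a4.le)
      · rcases le_total 0 ζ.im with h' | h'
        · exact m1 ζ _ D (quadLF hA rfl h a2.le h' a4.le)
        · exact m1 ζ _ L' (quadRF hA rfl h a2.le a3.le h')

/-! ### balls in the frame -/

section frame

variable {s r : ℝ} {P : Set ℂ} {p c ζ : ℂ} {Q : ℂ → Prop}

theorem ball_in (hS : Shape s P p c Q) (hc : ‖c‖ = 1) (hr : ‖ζ‖ + r < s)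
    (h : ∀ ζ', ‖ζ' - ζ‖ ≤ r → Q ζ') : Metric.closedBall (p + ζ * c) r ⊆ P := by
  intro w hw
  have c0 : c ≠ 0 := by rw [← norm_pos_iff, hc]; norm_num
  have e : w = p + ((w - p) / c) * c := by field_simp; ring
  have h1 : ‖(w - p) / c - ζ‖ ≤ r := by
    have : (w - p) / c - ζ = (w - (p + ζ * c)) / c := by field_simp; ring
    rw [this, norm_div, hc, div_one]
    exact mem_closedBall_iff_norm.1 hw
  have h2 : ‖(w - p) / c‖ < s := by
    have := norm_add_le ((w - p) / c - ζ) ζ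
    rw [sub_add_cancel] at this
    linarith
  rw [e]
  exact (hS _ ((Complex.abs_re_le_norm _).trans_lt h2) ((Complex.abs_im_le_norm _).trans_lt h2)).2
    (h _ h1)

theorem ball_out (hS : Shape s P p c Q) (hc : ‖c‖ = 1) (hr : ‖ζ‖ + r < s)
    (h : Metric.closedBall (p + ζ * c) r ⊆ P) : ∀ ζ', ‖ζ' - ζ‖ ≤ r → Q ζ' := by
  intro ζ' h1
  have h2 : ‖ζ'‖ < s := by
    have := norm_add_le (ζ' - ζ) ζ
    rw [sub_add_cancel] at this
    linarith
  refine (hS _ ((Complex.abs_re_le_norm _).trans_lt h2) ((Complex.abs_im_le_norm _).trans_lt h2)).1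
    (h ?_)
  rw [mem_closedBall_iff_norm]
  have : p + ζ' * c - (p + ζ * c) = (ζ' - ζ) * c := by ring
  rw [this, norm_mul, hc, mul_one]
  exact h1

theorem im_ge {ζ' : ℂ} (h : ‖ζ' - ζ‖ ≤ r) : ζ.im - r ≤ ζ'.im := by
  have := (abs_le.1 ((Complex.abs_im_le_norm _).trans h)).1
  rw [Complex.sub_im] at this
  linarith

theorem re_ge {ζ' : ℂ} (h : ‖ζ' - ζ‖ ≤ r) : ζ.re - r ≤ ζ'.re := by
  have := (abs_le.1 ((Complex.abs_re_le_norm _).trans h)).1
  rw [Complex.sub_re] at this
  linarith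

theorem re_le {ζ' : ℂ} (h : ‖ζ' - ζ‖ ≤ r) : ζ'.re ≤ ζ.re + r := by
  have := (abs_le.1 ((Complex.abs_re_le_norm _).trans h)).2
  rw [Complex.sub_re] at this
  linarith

/-- a point outside the missing quadrant of a right turn -/
theorem quadrant {d : ℝ} (hd : 0 < d) (h : ∀ ζ', ‖ζ' - ζ‖ ≤ 2 * d → 0 ≤ ζ'.im ∨ 0 ≤ ζ'.re)
    (h1 : ζ.im < 2 * d) (h2 : ζ.re < 2 * d) : 0 < ζ.re ∧ 0 < ζ.im ∧ 2 * d ≤ ‖ζ‖ := by
  have key : ∀ x y : ℝ, 0 ≤ x → 0 ≤ y → x + y ≤ 2 * d → ζ.re - x < 0 → ζ.im - y < 0 → False := by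
    intro x y hx hy hxy h3 h4
    have := h (ζ - ⟨x, y⟩) (by
      rw [sub_sub_cancel_left, norm_neg]
      refine (Complex.norm_le_abs_re_add_abs_im _).trans ?_
      show |x| + |y| ≤ 2 * d
      rw [abs_of_nonneg hx, abs_of_nonneg hy]
      exact hxy)
    simp only [Complex.sub_im, Complex.sub_re] at this
    rcases this with h5 | h5 <;> linarith
  refine ⟨?_, ?_, ?_⟩
  · by_contra hcon
    push Not at hcon
    rcases le_total 0 ζ.im with h3 | h3
    · exact key (2 * d - (ζ.im + 2 * d) / 2) ((ζ.im + 2 * d) / 2) (by linarith) (by linarith)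
        (by linarith) (by linarith) (by linarith)
    · exact key d d hd.le hd.le (by linarith) (by linarith) (by linarith)
  · by_contra hcon
    push Not at hcon
    rcases le_total 0 ζ.re with h3 | h3
    · exact key ((ζ.re + 2 * d) / 2) (2 * d - (ζ.re + 2 * d) / 2) (by linarith) (by linarith)
        (by linarith) (by linarith) (by linarith)
    · exact key d d hd.le hd.le (by linarith) (by linarith) (by linarith)
  · by_contra hcon
    push Not at hcon
    set δ := (2 * d - ‖ζ‖) / 2 with hδ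
    have := h ⟨-δ, -δ⟩ (by
      have h3 : ‖(⟨-δ, -δ⟩ : ℂ)‖ ≤ 2 * δ := by
        refine (Complex.norm_le_abs_re_add_abs_im _).trans ?_
        show |-δ| + |-δ| ≤ 2 * δ
        rw [abs_neg, abs_of_pos (by linarith)]
        linarith
      have := norm_sub_le (⟨-δ, -δ⟩ : ℂ) ζ
      linarith)
    simp only at this
    rcases this with h5 | h5 <;> linarith

/-- a ball in the positive quadrant far from the origin misses the negative quadrant -/
theorem far_quadrant {R : ℝ} (h1 : 0 < ζ.re) (h2 : 0 < ζ.im) (h3 : R ≤ ‖ζ‖) :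
    ∀ ζ', ‖ζ' - ζ‖ ≤ R → 0 ≤ ζ'.im ∨ 0 ≤ ζ'.re := by
  intro ζ' h
  by_contra hcon
  push Not at hcon
  obtain ⟨h4, h5⟩ := hcon
  have e1 : ‖ζ' - ζ‖ ^ 2 = (ζ'.re - ζ.re) ^ 2 + (ζ'.im - ζ.im) ^ 2 := by
    rw [← Complex.normSq_eq_norm_sq, Complex.normSq_apply]
    simp only [Complex.sub_re, Complex.sub_im]
    ring
  have e2 : ‖ζ‖ ^ 2 = ζ.re ^ 2 + ζ.im ^ 2 := by
    rw [← Complex.normSq_eq_norm_sq, Complex.normSq_apply]
    ring
  have e3 : ‖ζ‖ ^ 2 < ‖ζ' - ζ‖ ^ 2 := by
    rw [e1, e2]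
    nlinarith
  have e4 := lt_of_pow_lt_pow_left₀ 2 (norm_nonneg _) e3
  linarith

end frame

/-! ### the way inwards -/

/-- way from `w` inwards to the point `G` -/
def Way (P : Set ℂ) (d : ℝ) (w G : ℂ) : Prop :=
  ∃ (e : ℂ) (T : ℝ), ‖e‖ = 1 ∧ d ≤ T ∧ T ≤ 3 * d ∧
    (∀ t, d ≤ t → t ≤ T → Metric.closedBall (w + t * e) (3 * d) ⊆ P) ∧
    ∀ z ∈ segment ℝ (w + T * e) G, Metric.closedBall z (3 * d) ⊆ P

section way

variable {s d : ℝ} {P : Set ℂ} {p c ζ g : ℂ} {Q : ℂ → Prop}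

/-- transport of a way from the frame -/
theorem way_of (hS : Shape s P p c Q) (hc : ‖c‖ = 1) (hd : 0 < d) {T : ℝ} {e : ℂ} (he : ‖e‖ = 1)
    (hT : d ≤ T) (hT3 : T ≤ 3 * d) (hζ : ‖ζ‖ + 6 * d < s) (hg : ‖g‖ + 6 * d < s)
    (h1 : ∀ t, d ≤ t → t ≤ T → ∀ ζ', ‖ζ' - (ζ + t * e)‖ ≤ 3 * d → Q ζ')
    (h2 : ∀ z ∈ segment ℝ (ζ + T * e) g, ∀ ζ', ‖ζ' - z‖ ≤ 3 * d → Q ζ') :
    Way P d (p + ζ * c) (p + g * c) := by
  have n1 : ∀ t, 0 ≤ t → t ≤ 3 * d → ‖ζ + t * e‖ + 3 * d < s := by
    intro t h0 h3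
    have := norm_add_le ζ (t * e)
    rw [norm_mul, he, mul_one, Complex.norm_real, Real.norm_of_nonneg h0] at this
    linarith
  refine ⟨e * c, T, by rw [norm_mul, he, hc, one_mul], hT, hT3, ?_, ?_⟩
  · intro t ht0 ht1
    have e1 : p + ζ * c + t * (e * c) = p + (ζ + t * e) * c := by ring
    rw [e1]
    exact ball_in hS hc (n1 t (by linarith) (by linarith)) (h1 t ht0 ht1)
  · intro z hz
    have e1 : p + ζ * c + T * (e * c) = p + (ζ + T * e) * c := by ring
    rw [e1, segment_eq_image'] at hz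
    obtain ⟨θ, hθ, rfl⟩ := hz
    set y : ℂ := (ζ + T * e) + θ • (g - (ζ + T * e)) with hy
    have e2 : p + (ζ + T * e) * c + θ • (p + g * c - (p + (ζ + T * e) * c)) = p + y * c := by
      rw [hy]
      simp only [Complex.real_smul]
      ring
    have hyseg : y ∈ segment ℝ (ζ + T * e) g := by
      rw [segment_eq_image']
      exact ⟨θ, hθ, rfl⟩
    have hyn : ‖y‖ + 3 * d < s := by
      have h3 := n1 T (by linarith) hT3
      have h4 : y ∈ Metric.closedBall (0 : ℂ) (s - 3 * d - min (s - 3 * d - ‖ζ + T * e‖)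
          (s - 3 * d - ‖g‖)) := by
        refine (convex_closedBall (0 : ℂ) _).segment_subset ?_ ?_ hyseg
        · rw [mem_closedBall_zero_iff]
          have := min_le_left (s - 3 * d - ‖ζ + T * e‖) (s - 3 * d - ‖g‖)
          linarith
        · rw [mem_closedBall_zero_iff]
          have := min_le_right (s - 3 * d - ‖ζ + T * e‖) (s - 3 * d - ‖g‖)
          linarith
      rw [mem_closedBall_zero_iff] at h4
      have : 0 < min (s - 3 * d - ‖ζ + T * e‖) (s - 3 * d - ‖g‖) :=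
        lt_min (by linarith) (by linarith)
      linarith
    beta_reduce
    rw [e2]
    exact ball_in hS hc hyn (h2 y hyseg)

theorem seg_im {a b z : ℂ} {r : ℝ} (ha : r ≤ a.im) (hb : r ≤ b.im) (hz : z ∈ segment ℝ a b) :
    r ≤ z.im := by
  obtain ⟨t, t', ht, ht', htt, rfl⟩ := hz
  simp only [Complex.add_im, Complex.real_smul, Complex.mul_im, Complex.ofReal_re,
    Complex.ofReal_im, zero_mul, add_zero]
  have e : t * r + t' * r = r := by rw [← add_mul, htt, one_mul]
  linarith [mul_le_mul_of_nonneg_left ha ht, mul_le_mul_of_nonneg_left hb ht']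

theorem seg_re {a b z : ℂ} {r : ℝ} (ha : r ≤ a.re) (hb : r ≤ b.re) (hz : z ∈ segment ℝ a b) :
    r ≤ z.re := by
  obtain ⟨t, t', ht, ht', htt, rfl⟩ := hz
  simp only [Complex.add_re, Complex.real_smul, Complex.mul_re, Complex.ofReal_re,
    Complex.ofReal_im, zero_mul, sub_zero]
  have e : t * r + t' * r = r := by rw [← add_mul, htt, one_mul]
  linarith [mul_le_mul_of_nonneg_left ha ht, mul_le_mul_of_nonneg_left hb ht']

theorem seg_re' {a b z : ℂ} {r : ℝ} (ha : a.re ≤ r) (hb : b.re ≤ r) (hz : z ∈ segment ℝ a b) :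
    z.re ≤ r := by
  obtain ⟨t, t', ht, ht', htt, rfl⟩ := hz
  simp only [Complex.add_re, Complex.real_smul, Complex.mul_re, Complex.ofReal_re,
    Complex.ofReal_im, zero_mul, sub_zero]
  have e : t * r + t' * r = r := by rw [← add_mul, htt, one_mul]
  linarith [mul_le_mul_of_nonneg_left ha ht, mul_le_mul_of_nonneg_left hb ht']

/-- straight boundary -/
theorem way0 (hS : Shape s P p c fun ζ => 0 ≤ ζ.im) (hc : ‖c‖ = 1) (hd : 0 < d)
    (hζ : ‖ζ‖ + 6 * d < s) (hg : ‖g‖ + 6 * d < s) (hgi : 3 * d ≤ g.im)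
    (h : Metric.closedBall (p + ζ * c) (2 * d) ⊆ P) : Way P d (p + ζ * c) (p + g * c) := by
  have h1 := ball_out hS hc (by linarith) h (ζ - (2 * d : ℝ) * I) (by
    rw [sub_sub_cancel_left, norm_neg, norm_mul, Complex.norm_I, mul_one, Complex.norm_real,
      Real.norm_of_nonneg (by linarith)])
  simp at h1
  refine way_of hS hc hd (T := d) (e := I) Complex.norm_I le_rfl (by linarith) hζ hg ?_ ?_
  · intro t ht0 ht1 ζ' h3
    have := im_ge h3
    simp at this
    linarith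
  · intro z hz ζ' h3
    have h4 : 3 * d ≤ z.im := seg_im (by simp; linarith) hgi hz
    have := im_ge h3
    linarith

/-- left turn -/
theorem way1 (hS : Shape s P p c fun ζ => ζ.re ≤ 0 ∧ 0 ≤ ζ.im) (hc : ‖c‖ = 1) (hd : 0 < d)
    (hζ : ‖ζ‖ + 6 * d < s) (hg : ‖g‖ + 6 * d < s) (hgi : 3 * d ≤ g.im) (hgr : g.re ≤ -(3 * d))
    (h : Metric.closedBall (p + ζ * c) (2 * d) ⊆ P) :
    Way P d (p + ζ * c) (p + g * c) ∨ ‖ζ‖ ≤ 6 * d := by
  have h1 := ball_out hS hc (by linarith) h (ζ - (2 * d : ℝ) * I) (by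
    rw [sub_sub_cancel_left, norm_neg, norm_mul, Complex.norm_I, mul_one, Complex.norm_real,
      Real.norm_of_nonneg (by linarith)])
  have h2 := ball_out hS hc (by linarith) h (ζ + (2 * d : ℝ)) (by
    rw [add_sub_cancel_left, Complex.norm_real, Real.norm_of_nonneg (by linarith)])
  simp at h1 h2
  rcases le_or_gt ζ.re (-(3 * d)) with h3 | h3
  · left
    refine way_of hS hc hd (T := d) (e := I) Complex.norm_I le_rfl (by linarith) hζ hg ?_ ?_
    · intro t ht0 ht1 ζ' h4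
      have e1 := im_ge h4
      have e2 := re_le h4
      simp at e1 e2
      exact ⟨by linarith, by linarith⟩
    · intro z hz ζ' h4
      have e1 := im_ge h4
      have e2 := re_le h4
      have e3 : 3 * d ≤ z.im := seg_im (by simp; linarith) hgi hz
      have e4 : z.re ≤ -(3 * d) := seg_re' (by simp; linarith) hgr hz
      exact ⟨by linarith, by linarith⟩
  rcases le_or_gt (3 * d) ζ.im with h4 | h4
  · left
    refine way_of hS hc hd (T := d) (e := -1) (by simp) le_rfl (by linarith) hζ hg ?_ ?_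
    · intro t ht0 ht1 ζ' h5
      have e1 := im_ge h5
      have e2 := re_le h5
      simp at e1 e2
      exact ⟨by linarith, by linarith⟩
    · intro z hz ζ' h5
      have e1 := im_ge h5
      have e2 := re_le h5
      have e3 : 3 * d ≤ z.im := seg_im (by simp; linarith) hgi hz
      have e4 : z.re ≤ -(3 * d) := seg_re' (by simp; linarith) hgr hz
      exact ⟨by linarith, by linarith⟩
  · right
    refine (Complex.norm_le_abs_re_add_abs_im _).trans ?_
    rw [abs_of_neg (by linarith [h2.1]), abs_of_nonneg (by linarith [h1.2])]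
    linarith

/-- right turn -/
theorem way2 (hS : Shape s P p c fun ζ => 0 ≤ ζ.im ∨ 0 ≤ ζ.re) (hc : ‖c‖ = 1) (hd : 0 < d)
    (hζ : ‖ζ‖ + 6 * d < s) (hg : ‖g‖ + 6 * d < s) (hgi : 3 * d ≤ g.im) (hgr : 3 * d ≤ g.re)
    (h : Metric.closedBall (p + ζ * c) (2 * d) ⊆ P) : Way P d (p + ζ * c) (p + g * c) := by
  have hb := ball_out hS hc (by linarith) h
  rcases le_or_gt (2 * d) ζ.im with h1 | h1
  · refine way_of hS hc hd (T := d) (e := I) Complex.norm_I le_rfl (by linarith) hζ hg ?_ ?_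
    · intro t ht0 ht1 ζ' h3
      have := im_ge h3
      simp at this
      exact Or.inl (by linarith)
    · intro z hz ζ' h3
      have h4 : 3 * d ≤ z.im := seg_im (by simp; linarith) hgi hz
      have := im_ge h3
      exact Or.inl (by linarith)
  rcases le_or_gt (2 * d) ζ.re with h2 | h2
  · refine way_of hS hc hd (T := d) (e := 1) (by simp) le_rfl (by linarith) hζ hg ?_ ?_
    · intro t ht0 ht1 ζ' h3
      have := re_ge h3
      simp at this
      exact Or.inr (by linarith)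
    · intro z hz ζ' h3
      have h4 : 3 * d ≤ z.re := seg_re (by simp; linarith) hgr hz
      have := re_ge h3
      exact Or.inr (by linarith)
  obtain ⟨q1, q2, q3⟩ := quadrant hd hb h1 h2
  have hn : 0 < ‖ζ‖ := by linarith
  have hn0 : (‖ζ‖ : ℂ) ≠ 0 := by exact_mod_cast hn.ne'
  have hsc : ∀ t : ℝ, ζ + t * (ζ / (‖ζ‖ : ℂ)) = ((1 + t / ‖ζ‖ : ℝ) : ℂ) * ζ := by
    intro t
    push_cast
    field_simp
  have hpos : ∀ t : ℝ, 0 ≤ t → 0 < 1 + t / ‖ζ‖ := fun t ht => by positivity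
  have hre : ∀ t : ℝ, (ζ + t * (ζ / (‖ζ‖ : ℂ))).re = (1 + t / ‖ζ‖) * ζ.re := fun t => by
    rw [hsc, Complex.re_ofReal_mul]
  have him : ∀ t : ℝ, (ζ + t * (ζ / (‖ζ‖ : ℂ))).im = (1 + t / ‖ζ‖) * ζ.im := fun t => by
    rw [hsc, Complex.im_ofReal_mul]
  have hnorm : ∀ t : ℝ, 0 ≤ t → ‖ζ + t * (ζ / (‖ζ‖ : ℂ))‖ = ‖ζ‖ + t := fun t ht => by
    rw [hsc, norm_mul, Complex.norm_real, Real.norm_of_nonneg (hpos t ht).le]
    field_simp
  refine way_of hS hc hd (T := 3 * d) (e := ζ / (‖ζ‖ : ℂ)) ?_ (by linarith) le_rfl hζ hg ?_ ?_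
  · rw [norm_div, Complex.norm_real, Real.norm_of_nonneg hn.le, div_self hn.ne']
  · intro t ht0 ht1
    have ht : 0 ≤ t := by linarith
    refine far_quadrant ?_ ?_ ?_
    · rw [hre]; exact mul_pos (hpos t ht) q1
    · rw [him]; exact mul_pos (hpos t ht) q2
    · rw [hnorm t ht]; linarith
  · have h3 : (0 : ℝ) ≤ 3 * d := by linarith
    have f1 : 0 < (ζ + (3 * d : ℝ) * (ζ / (‖ζ‖ : ℂ))).re := by
      rw [hre]; exact mul_pos (hpos _ h3) q1
    have f2 : 0 < (ζ + (3 * d : ℝ) * (ζ / (‖ζ‖ : ℂ))).im := by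
      rw [him]; exact mul_pos (hpos _ h3) q2
    have f3 : 5 * d ≤ ‖ζ + (3 * d : ℝ) * (ζ / (‖ζ‖ : ℂ))‖ := by
      rw [hnorm _ h3]; linarith
    set y : ℂ := ζ + (3 * d : ℝ) * (ζ / (‖ζ‖ : ℂ)) with hy
    intro z hz ζ' h4
    have key : 3 * d ≤ y.im ∨ 3 * d ≤ y.re := by
      by_contra hcon
      push Not at hcon
      have e2 : ‖y‖ ^ 2 = y.re ^ 2 + y.im ^ 2 := by
        rw [← Complex.normSq_eq_norm_sq, Complex.normSq_apply]
        ring
      nlinarith [norm_nonneg y]
    rcases key with h5 | h5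
    · have e4 : 3 * d ≤ z.im := seg_im h5 hgi hz
      have := im_ge h4
      exact Or.inl (by linarith)
    · have e4 : 3 * d ≤ z.re := seg_re h5 hgr hz
      have := re_ge h4
      exact Or.inr (by linarith)

end way

/-- **the alternative**: a deep point near the vertex has a way inwards to the inner corner of the
ring, or it is within `6 d` of the vertex -/
theorem dich {s d : ℝ} {U : Set Bk} {N : ℕ} {v : ℕ → V} (hs : 0 < s) (hd : 0 < d)
    (hds : 2 ^ 6 * d ≤ s) (hc : Cyc (cells U) N v) (k : ℕ) {w : ℂ}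
    (hw : Metric.closedBall w (2 * d) ⊆ Pg s (cells U))
    (hn : ‖w - pt s (v (k + 1))‖ ≤ 3 / 4 * s) :
    Way (Pg s (cells U)) d w (W s (s / 16) v k) ∨ ‖w - pt s (v (k + 1))‖ ≤ 6 * d := by
  have hcn : ‖ev v k‖ = 1 := Labx755.ev_norm hc k
  have c0 : ev v k ≠ 0 := by rw [← norm_pos_iff, hcn]; norm_num
  set p := pt s (v (k + 1)) with hp
  set ζ : ℂ := (w - p) / ev v k with hζ
  have ew : w = p + ζ * ev v k := by rw [hζ]; field_simp; ring
  have enz : ‖ζ‖ = ‖w - p‖ := by rw [hζ, norm_div, hcn, div_one]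
  have hζs : ‖ζ‖ + 6 * d < s := by rw [enz]; linarith
  rw [← enz]
  rw [ew] at hw ⊢
  rcases shape hs hc k with ⟨h1, h2⟩ | ⟨h1, h2⟩ | ⟨h1, h2⟩
  · left
    have eg : W s (s / 16) v k = p + ((s / 8 : ℝ) * I) * ev v k := by
      unfold W
      rw [h1, hp]
      push_cast
      ring
    rw [eg]
    refine way0 h2 hcn hd hζs ?_ ?_ hw
    · rw [norm_mul, Complex.norm_I, mul_one, Complex.norm_real, Real.norm_of_nonneg (by linarith)]
      linarith
    · simp
      linarith
  · have eg : W s (s / 16) v k = p + ((s / 16 : ℝ) * (I - 1)) * ev v k := by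
      unfold W
      rw [h1, hp]
      push_cast
      linear_combination (s / 16 * ev v k) * Complex.I_mul_I
    rw [eg]
    refine way1 h2 hcn hd hζs ?_ ?_ ?_ hw
    · have : ‖(I - 1 : ℂ)‖ ≤ 2 := by
        refine (norm_sub_le _ _).trans ?_
        rw [Complex.norm_I, norm_one]; norm_num
      rw [norm_mul, Complex.norm_real, Real.norm_of_nonneg (by linarith)]
      nlinarith
    · simp
      linarith
    · simp
      linarith
  · left
    have eg : W s (s / 16) v k = p + ((s / 16 : ℝ) * (I + 1)) * ev v k := by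
      unfold W
      rw [h1, hp]
      push_cast
      linear_combination (-(s / 16 * ev v k)) * Complex.I_mul_I
    rw [eg]
    refine way2 h2 hcn hd hζs ?_ ?_ ?_ hw
    · have : ‖(I + 1 : ℂ)‖ ≤ 2 := by
        refine (norm_add_le _ _).trans ?_
        rw [Complex.norm_I, norm_one]; norm_num
      rw [norm_mul, Complex.norm_real, Real.norm_of_nonneg (by linarith)]
      nlinarith
    · simp
      linarith
    · simp
      linarith

end Crest.Agent.R143.Inwx165
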