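import Crest.Agent.R143.Seg_991
import Crest.Agent.R143.Ten_416
import Crest.Agent.R158.Tj1_656
import Crest.Agent.R143.LabD_755

/-!
# Row 143 (S0194), CONT (K7): inward joining of deep sites, dead corner sites (helper741)

`P = Pg s F` (closed cells), `deep S P ρ` = sites `w` with `closedBall w ρ ⊆ P`, holes of radius `d`
on `P`, `4 (ρ + d) ≤ s`.
* `off_in`, `off_in2` : cells met by `[w, w1]`, `closedBall w1 (‖w - w1‖ + ρ) ⊆ P`, are deep; cells
  met by a set with `closedBall q (d + ρ) ⊆ P` are deep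
* `lp s q a b X Y` : the point with inward coordinates `X, Y` at the corner `(a, b)` of the cell `q`
* `inward` : a deep site `w ∈ sq s q`, `q ∈ F`, can go straight to the centre of `q`, or it is in the
  corner box `[ρ, ρ + d)²` of a convex corner (`Dead`)
* `inw_chain` : the chain
-/

set_option autoImplicit false

noncomputable section

open scoped Classical

namespace Crest.Agent.R143.Inwx741

open Set
open Crest.ProbabilityR.Voronoi
open Crest.Agent.R158 Crest.Agent.R158.Sp896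
open Crest.Agent.R143.B0x346 Crest.Agent.R143.DelGx806 Crest.Agent.R143.B0Dx346
  Crest.Agent.R143.RE0x723 Crest.Agent.R143.G6Wx723 Crest.Agent.R143.Segx991
open Crest.Agent.R143.Tenx416 (Pg)

variable {S : Finset ℂ} {P C : Set ℂ} {w w1 z c : ℂ} {ρ d s : ℝ}

/-! ### cells on the way are deep -/

/-- first leg -/
theorem off_in (hw : w ∈ S) (h : Metric.closedBall w1 (‖w - w1‖ + ρ) ⊆ P)
    (hz : z ∈ Clm S (segment ℝ w w1)) : z ∈ deep S P ρ := by
  refine mem_deep.2 ⟨hz.1, fun y hy => h ?_⟩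
  have h1 := seg_ball hw hz
  rw [Metric.mem_closedBall, dist_eq_norm] at hy ⊢
  have h2 : ‖y - w1‖ ≤ ‖y - z‖ + ‖z - w1‖ := by
    have := norm_add_le (y - z) (z - w1)
    rwa [sub_add_sub_cancel] at this
  linarith

/-- second leg -/
theorem off_in2 (hH : Hl S C d) (h : ∀ q ∈ C, Metric.closedBall q (d + ρ) ⊆ P)
    (hz : z ∈ Clm S C) : z ∈ deep S P ρ := by
  obtain ⟨q, hq, h1⟩ := near hH hz
  refine mem_deep.2 ⟨hz.1, fun y hy => h q hq ?_⟩
  rw [Metric.mem_closedBall, dist_eq_norm] at hy ⊢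
  have h2 : ‖y - q‖ ≤ ‖y - z‖ + ‖z - q‖ := by
    have := norm_add_le (y - z) (z - q)
    rwa [sub_add_sub_cancel] at this
  rw [norm_sub_rev z q] at h2
  linarith

/-- the two legs -/
theorem pth_in (hS : GP (S : Set ℂ)) (h3 : 3 ≤ S.card) (hw : w ∈ S)
    (h1 : Metric.closedBall w1 (‖w - w1‖ + ρ) ⊆ P) (hH : Hl S (segment ℝ w1 c) d)
    (h2 : ∀ q ∈ segment ℝ w1 c, Metric.closedBall q (d + ρ) ⊆ P) {y : ℂ} (hy : y ∈ S)
    (hc : c ∈ voronoiCell (S : Set ℂ) y) :
    Pth S {z | z ∈ deep S P ρ ∧ (‖z - w‖ ≤ 2 * ‖w - w1‖ ∨ ∃ q ∈ segment ℝ w1 c, ‖q - z‖ ≤ d)}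
      w y := by
  obtain ⟨u, hu, huc⟩ := exists_cell (S := S) ⟨w, hw⟩ w1
  have e1 : Pth S (Clm S (segment ℝ w w1)) w u :=
    pth_conn hS h3 (convex_segment w w1).isPreconnected (mem_clm hw (left_mem_segment ℝ w w1))
      ⟨hu, w1, right_mem_segment ℝ w w1, huc⟩
  have e2 : Pth S (Clm S (segment ℝ w1 c)) u y :=
    pth_conn hS h3 (convex_segment w1 c).isPreconnected ⟨hu, w1, left_mem_segment ℝ w1 c, huc⟩
      ⟨hy, c, right_mem_segment ℝ w1 c, hc⟩
  refine (e1.mono ?_).trans (e2.mono ?_)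
  · intro z hz
    refine ⟨off_in hw h1 hz, Or.inl ?_⟩
    have h4 := seg_ball hw hz
    have h5 : ‖z - w‖ ≤ ‖z - w1‖ + ‖w1 - w‖ := by
      have := norm_add_le (z - w1) (w1 - w)
      rwa [sub_add_sub_cancel] at this
    rw [norm_sub_rev w1 w] at h5
    linarith
  · intro z hz
    exact ⟨off_in2 hH h2 hz, Or.inr (near hH hz)⟩

/-! ### inward coordinates at a corner of a cell -/

/-- sign -/
def Sg (a : ℤ) : Prop := a = 1 ∨ a = -1

/-- the point with inward coordinates `X, Y` at the corner `(a, b)` of the cell `q` -/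
def lp (s : ℝ) (q : V) (a b : ℤ) (X Y : ℝ) : ℂ :=
  ⟨s * (q.1 + (1 - a) / 2) + a * X, s * (q.2 + (1 - b) / 2) + b * Y⟩

theorem lp_sub {q : V} {a b : ℤ} {X Y X' Y' : ℝ} :
    lp s q a b X Y - lp s q a b X' Y' = ⟨a * (X - X'), b * (Y - Y')⟩ := by
  unfold lp
  apply Complex.ext
  · simp only [Complex.sub_re]; ring
  · simp only [Complex.sub_im]; ring

theorem sg_sq {a : ℤ} (h : Sg a) : (a : ℝ) * a = 1 := by
  rcases h with rfl | rfl <;> norm_num

theorem lp_norm {q : V} {a b : ℤ} (ha : Sg a) (hb : Sg b) {X Y X' Y' : ℝ} :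
    ‖lp s q a b X Y - lp s q a b X' Y'‖ ^ 2 = (X - X') ^ 2 + (Y - Y') ^ 2 := by
  rw [lp_sub, Complex.sq_norm, Complex.normSq_mk]
  have e1 := sg_sq ha
  have e2 := sg_sq hb
  linear_combination (X - X') ^ 2 * e1 + (Y - Y') ^ 2 * e2

/-- every point has inward coordinates at the corner -/
theorem exists_lp (q : V) {a b : ℤ} (ha : Sg a) (hb : Sg b) (y : ℂ) :
    ∃ X Y, y = lp s q a b X Y := by
  refine ⟨a * (y.re - s * (q.1 + (1 - a) / 2)), b * (y.im - s * (q.2 + (1 - b) / 2)), ?_⟩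
  have e1 := sg_sq ha
  have e2 := sg_sq hb
  unfold lp
  apply Complex.ext
  · simp only
    linear_combination (-(y.re - s * (q.1 + (1 - a) / 2))) * e1
  · simp only
    linear_combination (-(y.im - s * (q.2 + (1 - b) / 2))) * e2

theorem mem_q {q : V} {a b : ℤ} (ha : Sg a) (hb : Sg b) {X Y : ℝ} (h1 : 0 ≤ X) (h2 : X ≤ s)
    (h3 : 0 ≤ Y) (h4 : Y ≤ s) : lp s q a b X Y ∈ sq s q := by
  rcases ha with rfl | rfl <;> rcases hb with rfl | rfl <;>
  · unfold lp Crest.Agent.R158.Sp896.sq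
    simp only [mem_ofPred_eq]
    push_cast
    refine ⟨?_, ?_, ?_, ?_⟩ <;> nlinarith

theorem mem_h {q : V} {a b : ℤ} (ha : Sg a) (hb : Sg b) {X Y : ℝ} (h1 : X ≤ 0) (h2 : -s ≤ X)
    (h3 : 0 ≤ Y) (h4 : Y ≤ s) : lp s q a b X Y ∈ sq s (q.1 - a, q.2) := by
  rcases ha with rfl | rfl <;> rcases hb with rfl | rfl <;>
  · unfold lp Crest.Agent.R158.Sp896.sq
    simp only [mem_ofPred_eq]
    push_cast
    refine ⟨?_, ?_, ?_, ?_⟩ <;> nlinarith

theorem mem_v {q : V} {a b : ℤ} (ha : Sg a) (hb : Sg b) {X Y : ℝ} (h1 : 0 ≤ X) (h2 : X ≤ s)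
    (h3 : Y ≤ 0) (h4 : -s ≤ Y) : lp s q a b X Y ∈ sq s (q.1, q.2 - b) := by
  rcases ha with rfl | rfl <;> rcases hb with rfl | rfl <;>
  · unfold lp Crest.Agent.R158.Sp896.sq
    simp only [mem_ofPred_eq]
    push_cast
    refine ⟨?_, ?_, ?_, ?_⟩ <;> nlinarith

theorem mem_d {q : V} {a b : ℤ} (ha : Sg a) (hb : Sg b) {X Y : ℝ} (h1 : X ≤ 0) (h2 : -s ≤ X)
    (h3 : Y ≤ 0) (h4 : -s ≤ Y) : lp s q a b X Y ∈ sq s (q.1 - a, q.2 - b) := by
  rcases ha with rfl | rfl <;> rcases hb with rfl | rfl <;>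
  · unfold lp Crest.Agent.R158.Sp896.sq
    simp only [mem_ofPred_eq]
    push_cast
    refine ⟨?_, ?_, ?_, ?_⟩ <;> nlinarith

theorem only_h (hs : 0 < s) {q : V} {a b : ℤ} (ha : Sg a) (hb : Sg b) {X Y : ℝ} (h1 : X < 0)
    (h2 : -s < X) (h3 : 0 < Y) (h4 : Y < s) {q' : V} (h : lp s q a b X Y ∈ sq s q') :
    q' = (q.1 - a, q.2) := by
  rcases ha with rfl | rfl <;> rcases hb with rfl | rfl <;>
  · refine Tj656.cell_unique hs (z := lp s q _ _ X Y) ?_ ?_ ?_ ?_ h <;>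
    · unfold lp
      simp only
      push_cast
      nlinarith

theorem only_v (hs : 0 < s) {q : V} {a b : ℤ} (ha : Sg a) (hb : Sg b) {X Y : ℝ} (h1 : 0 < X)
    (h2 : X < s) (h3 : Y < 0) (h4 : -s < Y) {q' : V} (h : lp s q a b X Y ∈ sq s q') :
    q' = (q.1, q.2 - b) := by
  rcases ha with rfl | rfl <;> rcases hb with rfl | rfl <;>
  · refine Tj656.cell_unique hs (z := lp s q _ _ X Y) ?_ ?_ ?_ ?_ h <;>
    · unfold lp
      simp only
      push_cast
      nlinarith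

theorem only_d (hs : 0 < s) {q : V} {a b : ℤ} (ha : Sg a) (hb : Sg b) {X Y : ℝ} (h1 : X < 0)
    (h2 : -s < X) (h3 : Y < 0) (h4 : -s < Y) {q' : V} (h : lp s q a b X Y ∈ sq s q') :
    q' = (q.1 - a, q.2 - b) := by
  rcases ha with rfl | rfl <;> rcases hb with rfl | rfl <;>
  · refine Tj656.cell_unique hs (z := lp s q _ _ X Y) ?_ ?_ ?_ ?_ h <;>
    · unfold lp
      simp only
      push_cast
      nlinarith

variable {F : Set V} {q : V} {a b : ℤ} {κ X Y X' Y' : ℝ}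

/-- neighbour across the side `X = 0` -/
def qH (q : V) (a : ℤ) : V := (q.1 - a, q.2)
/-- neighbour across the side `Y = 0` -/
def qV (q : V) (b : ℤ) : V := (q.1, q.2 - b)
/-- neighbour across the corner -/
def qD (q : V) (a b : ℤ) : V := (q.1 - a, q.2 - b)

theorem mem_pg (ha : Sg a) (hb : Sg b) (hq : q ∈ F) (hX1 : -s ≤ X) (hX2 : X ≤ s) (hY1 : -s ≤ Y)
    (hY2 : Y ≤ s) (hH : X < 0 → 0 ≤ Y → qH q a ∈ F) (hV : 0 ≤ X → Y < 0 → qV q b ∈ F)
    (hD : X < 0 → Y < 0 → qD q a b ∈ F) : lp s q a b X Y ∈ Pg s F := by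
  unfold Tenx416.Pg
  rcases lt_or_ge X 0 with h1 | h1 <;> rcases lt_or_ge Y 0 with h2 | h2
  · exact mem_iUnion₂.2 ⟨_, hD h1 h2, mem_d ha hb h1.le hX1 h2.le hY1⟩
  · exact mem_iUnion₂.2 ⟨_, hH h1 h2, mem_h ha hb h1.le hX1 h2 hY2⟩
  · exact mem_iUnion₂.2 ⟨_, hV h1 h2, mem_v ha hb h1 hX2 h2.le hY1⟩
  · exact mem_iUnion₂.2 ⟨_, hq, mem_q ha hb h1 hX2 h2 hY2⟩

/-- the ball of radius `κ` round the point with coordinates `X, Y` is in the region -/
structure G (F : Set V) (q : V) (a b : ℤ) (κ X Y : ℝ) : Prop where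
  h : κ ≤ X ∨ qH q a ∈ F
  v : κ ≤ Y ∨ qV q b ∈ F
  d : κ ^ 2 ≤ X ^ 2 + Y ^ 2 ∨ qD q a b ∈ F

theorem G.mono (h : G F q a b κ X Y) (h1 : 0 ≤ X) (h2 : 0 ≤ Y) (h3 : X ≤ X') (h4 : Y ≤ Y') :
    G F q a b κ X' Y' := by
  refine ⟨h.h.imp (fun e => e.trans h3) id, h.v.imp (fun e => e.trans h4) id,
    h.d.imp (fun e => e.trans ?_) id⟩
  have e1 : X ^ 2 ≤ X' ^ 2 := pow_le_pow_left₀ h1 h3 2
  have e2 : Y ^ 2 ≤ Y' ^ 2 := pow_le_pow_left₀ h2 h4 2
  linarith

theorem ball_lp (ha : Sg a) (hb : Sg b) {P : Set ℂ}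
    (h : ∀ X' Y', (X' - X) ^ 2 + (Y' - Y) ^ 2 ≤ κ ^ 2 → lp s q a b X' Y' ∈ P) :
    Metric.closedBall (lp s q a b X Y) κ ⊆ P := by
  intro y hy
  obtain ⟨X', Y', rfl⟩ := exists_lp (s := s) q ha hb y
  refine h _ _ ?_
  rw [Metric.mem_closedBall, dist_eq_norm] at hy
  rw [← lp_norm ha hb (s := s) (q := q)]
  exact pow_le_pow_left₀ (norm_nonneg _) hy 2

theorem G.ball (h : G F q a b κ X Y) (ha : Sg a) (hb : Sg b) (hq : q ∈ F) (hκ : 0 ≤ κ)
    (h1 : 0 ≤ X) (h2 : 0 ≤ Y) (h3 : X + κ ≤ s) (h4 : Y + κ ≤ s) :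
    Metric.closedBall (lp s q a b X Y) κ ⊆ Pg s F := by
  refine ball_lp ha hb fun X' Y' hn => ?_
  have k1 : |X' - X| ≤ κ := abs_le_of_sq_le_sq (by nlinarith [sq_nonneg (Y' - Y)]) hκ
  have k2 : |Y' - Y| ≤ κ := abs_le_of_sq_le_sq (by nlinarith [sq_nonneg (X' - X)]) hκ
  rw [abs_le] at k1 k2
  refine mem_pg ha hb hq (by linarith) (by linarith) (by linarith) (by linarith) ?_ ?_ ?_
  · intro e1 _
    refine h.h.resolve_left fun e2 => ?_
    linarith
  · intro _ e1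
    refine h.v.resolve_left fun e2 => ?_
    linarith
  · intro e1 e2
    refine h.d.resolve_left fun e3 => ?_
    nlinarith

theorem not_h (hs : 0 < s) (ha : Sg a) (hb : Sg b) (hρ : 0 < ρ) (hρs : 2 * ρ ≤ s) (h0 : 0 ≤ X)
    (h1 : 0 ≤ Y) (h2 : Y ≤ s / 2)
    (hw : Metric.closedBall (lp s q a b X Y) ρ ⊆ Pg s F) (h : qH q a ∉ F) : ρ ≤ X := by
  by_contra hX
  push Not at hX
  have h3 : lp s q a b ((X - ρ) / 2) (Y + (ρ - X) / 2) ∈ Pg s F := by
    refine hw ?_
    rw [Metric.mem_closedBall, dist_eq_norm]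
    refine abs_le_of_sq_le_sq' ?_ hρ.le |>.2
    rw [lp_norm ha hb]
    nlinarith
  unfold Tenx416.Pg at h3
  obtain ⟨q', h4, h5⟩ := mem_iUnion₂.1 h3
  have := only_h hs ha hb (by linarith) (by linarith) (by linarith) (by linarith) h5
  rw [this] at h4
  exact h h4

theorem not_v (hs : 0 < s) (ha : Sg a) (hb : Sg b) (hρ : 0 < ρ) (hρs : 2 * ρ ≤ s) (h0 : 0 ≤ Y)
    (h1 : 0 ≤ X) (h2 : X ≤ s / 2)
    (hw : Metric.closedBall (lp s q a b X Y) ρ ⊆ Pg s F) (h : qV q b ∉ F) : ρ ≤ Y := by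
  by_contra hX
  push Not at hX
  have h3 : lp s q a b (X + (ρ - Y) / 2) ((Y - ρ) / 2) ∈ Pg s F := by
    refine hw ?_
    rw [Metric.mem_closedBall, dist_eq_norm]
    refine abs_le_of_sq_le_sq' ?_ hρ.le |>.2
    rw [lp_norm ha hb]
    nlinarith
  unfold Tenx416.Pg at h3
  obtain ⟨q', h4, h5⟩ := mem_iUnion₂.1 h3
  have := only_v hs ha hb (by linarith) (by linarith) (by linarith) (by linarith) h5
  rw [this] at h4
  exact h h4

theorem not_d (hs : 0 < s) (ha : Sg a) (hb : Sg b) (hρ : 0 < ρ) (hρs : 2 * ρ ≤ s) (h0 : 0 ≤ X)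
    (h1 : 0 ≤ Y) (hw : Metric.closedBall (lp s q a b X Y) ρ ⊆ Pg s F) (h : qD q a b ∉ F) :
    ρ ≤ √(X ^ 2 + Y ^ 2) := by
  by_contra hX
  push Not at hX
  set n := √(X ^ 2 + Y ^ 2) with hn
  have hn0 : 0 ≤ n := Real.sqrt_nonneg _
  have hn2 : n ^ 2 = X ^ 2 + Y ^ 2 := Real.sq_sqrt (by positivity)
  have hXn : X ≤ n := Real.le_sqrt_of_sq_le (by nlinarith [sq_nonneg Y])
  have hYn : Y ≤ n := Real.le_sqrt_of_sq_le (by nlinarith [sq_nonneg X])
  set e := (ρ - n) / 4 with he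
  have he0 : 0 < e := by rw [he]; linarith
  have h3 : lp s q a b (-e) (-e) ∈ Pg s F := by
    refine hw ?_
    rw [Metric.mem_closedBall, dist_eq_norm]
    refine abs_le_of_sq_le_sq' ?_ hρ.le |>.2
    rw [lp_norm ha hb]
    nlinarith
  unfold Tenx416.Pg at h3
  obtain ⟨q', h4, h5⟩ := mem_iUnion₂.1 h3
  have := only_d hs ha hb (by linarith) (by linarith) (by linarith) (by linarith) h5
  rw [this] at h4
  exact h h4

/-- **dead corner site**: in the box `[ρ, κ)²` at a convex corner `(a, b)` of the cell `q` -/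
structure Dead (s ρ κ : ℝ) (F : Set V) (q : V) (a b : ℤ) (w : ℂ) : Prop where
  ha : Sg a
  hb : Sg b
  hq : q ∈ F
  hH : qH q a ∉ F
  hV : qV q b ∉ F
  ex : ∃ X Y, w = lp s q a b X Y ∧ ρ ≤ X ∧ X < κ ∧ ρ ≤ Y ∧ Y < κ

/-- **good site**: it can go straight to the centre of the cell `q` -/
def Good (s ρ d : ℝ) (F : Set V) (q : V) (w : ℂ) : Prop :=
  ∃ w1, ‖w - w1‖ ≤ d ∧ Metric.closedBall w1 (‖w - w1‖ + ρ) ⊆ Pg s F ∧
    ∀ z ∈ segment ℝ w1 (LabDx755.ctr s q), Metric.closedBall z (d + ρ) ⊆ Pg s F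

theorem ctr_lp (q : V) (ha : Sg a) (hb : Sg b) :
    LabDx755.ctr s q = lp s q a b (s / 2) (s / 2) := by
  unfold LabDx755.ctr lp
  apply Complex.ext
  · simp only
    rcases ha with rfl | rfl <;> push_cast <;> ring
  · simp only
    rcases hb with rfl | rfl <;> push_cast <;> ring

/-- the nearest corner -/
theorem exists_corner (hw : w ∈ Crest.Agent.R158.Sp896.sq s q) : ∃ a b, Sg a ∧ Sg b ∧ ∃ X Y,
    w = lp s q a b X Y ∧ 0 ≤ X ∧ X ≤ s / 2 ∧ 0 ≤ Y ∧ Y ≤ s / 2 := by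
  obtain ⟨h1, h2, h3, h4⟩ := hw
  obtain ⟨a, ha, X, hX, hX0, hX1⟩ : ∃ a, Sg a ∧ ∃ X : ℝ, w.re = s * (q.1 + (1 - a) / 2) + a * X ∧
      0 ≤ X ∧ X ≤ s / 2 := by
    rcases le_total w.re (s * (q.1 + 1 / 2)) with h | h
    · refine ⟨1, Or.inl rfl, w.re - s * q.1, ?_, by linarith, by linarith⟩
      push_cast
      ring
    · refine ⟨-1, Or.inr rfl, s * (q.1 + 1) - w.re, ?_, by linarith, by linarith⟩
      push_cast
      ring
  obtain ⟨b, hb, Y, hY, hY0, hY1⟩ : ∃ b, Sg b ∧ ∃ Y : ℝ, w.im = s * (q.2 + (1 - b) / 2) + b * Y ∧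
      0 ≤ Y ∧ Y ≤ s / 2 := by
    rcases le_total w.im (s * (q.2 + 1 / 2)) with h | h
    · refine ⟨1, Or.inl rfl, w.im - s * q.2, ?_, by linarith, by linarith⟩
      push_cast
      ring
    · refine ⟨-1, Or.inr rfl, s * (q.2 + 1) - w.im, ?_, by linarith, by linarith⟩
      push_cast
      ring
  exact ⟨a, b, ha, hb, X, Y, Complex.ext hX hY, hX0, hX1, hY0, hY1⟩

/-- convex combination in coordinates -/
theorem seg_lp (ha : Sg a) (hb : Sg b) (h1 : X ≤ s / 2) (h2 : Y ≤ s / 2)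
    (hz : z ∈ segment ℝ (lp s q a b X Y) (LabDx755.ctr s q)) :
    ∃ X' Y', z = lp s q a b X' Y' ∧ X ≤ X' ∧ X' ≤ s / 2 ∧ Y ≤ Y' ∧ Y' ≤ s / 2 := by
  rw [ctr_lp q ha hb] at hz
  obtain ⟨u, v, hu, hv, huv, rfl⟩ := hz
  refine ⟨u * X + v * (s / 2), u * Y + v * (s / 2), ?_, ?_, ?_, ?_, ?_⟩
  · unfold lp
    apply Complex.ext
    · simp only [Complex.add_re, Complex.real_smul, Complex.mul_re, Complex.ofReal_re,
        Complex.ofReal_im, zero_mul, sub_zero]
      have e : v = 1 - u := by linarith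
      subst e
      ring
    · simp only [Complex.add_im, Complex.real_smul, Complex.mul_im, Complex.ofReal_re,
        Complex.ofReal_im, zero_mul, add_zero]
      have e : v = 1 - u := by linarith
      subst e
      ring
  · have e : u = 1 - v := by linarith
    subst e
    nlinarith
  · have e : u = 1 - v := by linarith
    subst e
    nlinarith
  · have e : u = 1 - v := by linarith
    subst e
    nlinarith
  · have e : u = 1 - v := by linarith
    subst e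
    nlinarith

/-- good, from the coordinates of `w1` -/
theorem good_of (ha : Sg a) (hb : Sg b) (hq : q ∈ F) (hd : 0 ≤ d) (hρ : 0 < ρ)
    (hs4 : 4 * (ρ + d) ≤ s) (h1 : 0 ≤ X) (h2 : 0 ≤ Y) (h3 : X ≤ s / 2) (h4 : Y ≤ s / 2)
    (hG : G F q a b (ρ + d) X Y) (h5 : ‖w - lp s q a b X Y‖ ≤ d)
    (h6 : Metric.closedBall (lp s q a b X Y) (‖w - lp s q a b X Y‖ + ρ) ⊆ Pg s F) :
    Good s ρ d F q w := by
  refine ⟨_, h5, h6, fun z hz => ?_⟩
  obtain ⟨X', Y', rfl, k1, k2, k3, k4⟩ := seg_lp ha hb h3 h4 hz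
  rw [add_comm d ρ]
  exact (hG.mono h1 h2 k1 k3).ball ha hb hq (by linarith) (by linarith) (by linarith)
    (by linarith) (by linarith)

/-- **(I2)** a deep site goes straight to the centre of its cell, or it is a dead corner site -/
theorem inward (hs : 0 < s) (hρ : 0 < ρ) (hd : 0 ≤ d) (hs4 : 4 * (ρ + d) ≤ s) (hq : q ∈ F)
    (hwq : w ∈ Crest.Agent.R158.Sp896.sq s q) (hw : Metric.closedBall w ρ ⊆ Pg s F) :
    Good s ρ d F q w ∨ ∃ a b, Dead s ρ (ρ + d) F q a b w := by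
  obtain ⟨a, b, ha, hb, X, Y, rfl, hX0, hX1, hY0, hY1⟩ := exists_corner hwq
  have e1 := not_h (F := F) hs ha hb hρ (by linarith) hX0 hY0 hY1 hw
  have e2 := not_v (F := F) hs ha hb hρ (by linarith) hY0 hX0 hX1 hw
  have e3 := not_d (F := F) hs ha hb hρ (by linarith) hX0 hY0 hw
  have hκ : 0 < ρ + d := by linarith
  by_cases hA : ρ + d ≤ X ∨ qH q a ∈ F
  · by_cases hB : ρ + d ≤ Y ∨ qV q b ∈ F
    · by_cases hC : (ρ + d) ^ 2 ≤ X ^ 2 + Y ^ 2 ∨ qD q a b ∈ F
      · left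
        refine good_of ha hb hq hd hρ hs4 hX0 hY0 hX1 hY1 ⟨hA, hB, hC⟩ ?_ ?_
        · rw [sub_self, norm_zero]; exact hd
        · rw [sub_self, norm_zero, zero_add]; exact hw
      · -- missing diagonal cell
        left
        push Not at hC
        obtain ⟨hC1, hC2⟩ := hC
        have hn := e3 hC2
        set n := √(X ^ 2 + Y ^ 2) with hn'
        have hn0 : 0 < n := lt_of_lt_of_le hρ hn
        have hn2 : n ^ 2 = X ^ 2 + Y ^ 2 := Real.sq_sqrt (by positivity)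
        have hXk : X < ρ + d := by nlinarith [sq_nonneg Y]
        have hYk : Y < ρ + d := by nlinarith [sq_nonneg X]
        have hHF : qH q a ∈ F := hA.resolve_left (by linarith)
        have hVF : qV q b ∈ F := hB.resolve_left (by linarith)
        have hXn : X ≤ n := Real.le_sqrt_of_sq_le (by nlinarith [sq_nonneg Y])
        have hYn : Y ≤ n := Real.le_sqrt_of_sq_le (by nlinarith [sq_nonneg X])
        have hr : 0 ≤ d / n := div_nonneg hd hn0.le
        have hXd : X * (d / n) ≤ d := by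
          have : X * (d / n) = d * (X / n) := by ring
          rw [this]
          exact mul_le_of_le_one_right hd ((div_le_one hn0).2 hXn)
        have hYd : Y * (d / n) ≤ d := by
          have : Y * (d / n) = d * (Y / n) := by ring
          rw [this]
          exact mul_le_of_le_one_right hd ((div_le_one hn0).2 hYn)
        have hXd0 : 0 ≤ X * (d / n) := mul_nonneg hX0 hr
        have hYd0 : 0 ≤ Y * (d / n) := mul_nonneg hY0 hr
        have hG : G F q a b (ρ + d) (X + X * (d / n)) (Y + Y * (d / n)) := by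
          refine ⟨Or.inr hHF, Or.inr hVF, Or.inl ?_⟩
          have e4 : (X + X * (d / n)) ^ 2 + (Y + Y * (d / n)) ^ 2 = (n + d) ^ 2 := by
            have e5 : n * (d / n) = d := by field_simp
            calc (X + X * (d / n)) ^ 2 + (Y + Y * (d / n)) ^ 2
                = (X ^ 2 + Y ^ 2) * (1 + d / n) ^ 2 := by ring
              _ = n ^ 2 * (1 + d / n) ^ 2 := by rw [hn2]
              _ = (n + n * (d / n)) ^ 2 := by ring
              _ = (n + d) ^ 2 := by rw [e5]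
          rw [e4]
          exact pow_le_pow_left₀ hκ.le (by linarith) 2
        have hdist : ‖lp s q a b X Y - lp s q a b (X + X * (d / n)) (Y + Y * (d / n))‖ = d := by
          have e5 : n * (d / n) = d := by field_simp
          have e6 : ‖lp s q a b X Y - lp s q a b (X + X * (d / n)) (Y + Y * (d / n))‖ ^ 2
              = d ^ 2 := by
            rw [lp_norm ha hb]
            calc (X - (X + X * (d / n))) ^ 2 + (Y - (Y + Y * (d / n))) ^ 2
                = (X ^ 2 + Y ^ 2) * (d / n) ^ 2 := by ring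
              _ = n ^ 2 * (d / n) ^ 2 := by rw [hn2]
              _ = (n * (d / n)) ^ 2 := by ring
              _ = d ^ 2 := by rw [e5]
          exact (pow_left_inj₀ (norm_nonneg _) hd two_ne_zero).1 e6
        refine good_of ha hb hq hd hρ hs4 (X := X + X * (d / n)) (Y := Y + Y * (d / n))
          (by linarith) (by linarith) (by linarith) (by linarith) hG hdist.le ?_
        rw [hdist, add_comm d ρ]
        exact hG.ball ha hb hq hκ.le (by linarith) (by linarith) (by linarith) (by linarith)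
    · -- only the side `Y = 0`
      left
      push Not at hB
      obtain ⟨hB1, hB2⟩ := hB
      have hn := e2 hB2
      have hG : G F q a b (ρ + d) X (Y + d) := by
        refine ⟨hA, Or.inl (by linarith), Or.inl ?_⟩
        nlinarith [sq_nonneg X]
      have hdist : ‖lp s q a b X Y - lp s q a b X (Y + d)‖ = d := by
        have e6 : ‖lp s q a b X Y - lp s q a b X (Y + d)‖ ^ 2 = d ^ 2 := by
          rw [lp_norm ha hb]
          ring
        exact (pow_left_inj₀ (norm_nonneg _) hd two_ne_zero).1 e6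
      refine good_of ha hb hq hd hρ hs4 (X := X) (Y := Y + d)
        (by linarith) (by linarith) (by linarith) (by linarith) hG hdist.le ?_
      rw [hdist, add_comm d ρ]
      exact hG.ball ha hb hq hκ.le (by linarith) (by linarith) (by linarith) (by linarith)
  · push Not at hA
    obtain ⟨hA1, hA2⟩ := hA
    have hn := e1 hA2
    by_cases hB : ρ + d ≤ Y ∨ qV q b ∈ F
    · left
      have hG : G F q a b (ρ + d) (X + d) Y := by
        refine ⟨Or.inl (by linarith), hB, Or.inl ?_⟩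
        nlinarith [sq_nonneg Y]
      have hdist : ‖lp s q a b X Y - lp s q a b (X + d) Y‖ = d := by
        have e6 : ‖lp s q a b X Y - lp s q a b (X + d) Y‖ ^ 2 = d ^ 2 := by
          rw [lp_norm ha hb]
          ring
        exact (pow_left_inj₀ (norm_nonneg _) hd two_ne_zero).1 e6
      refine good_of ha hb hq hd hρ hs4 (X := X + d) (Y := Y)
        (by linarith) (by linarith) (by linarith) (by linarith) hG hdist.le ?_
      rw [hdist, add_comm d ρ]
      exact hG.ball ha hb hq hκ.le (by linarith) (by linarith) (by linarith) (by linarith)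
    · right
      push Not at hB
      obtain ⟨hB1, hB2⟩ := hB
      exact ⟨a, b, ha, hb, hq, hA2, hB2, X, Y, rfl, hn, hA1, e2 hB2, hB1⟩

/-- **a good site is joined inside the deep sites to the site of the centre of its cell** -/
theorem good_pth (hS : GP (S : Set ℂ)) (h3 : 3 ≤ S.card) (hw : w ∈ S) (h : Good s ρ d F q w)
    (hρ : 0 ≤ ρ) (hd : 0 ≤ d) (hH : Hl S (Pg s F) d) {y : ℂ} (hy : y ∈ S)
    (hc : LabDx755.ctr s q ∈ voronoiCell (S : Set ℂ) y) :
    Pth S {z | z ∈ deep S (Pg s F) ρ ∧ ‖z - w‖ ≤ ‖LabDx755.ctr s q - w‖ + 3 * d} w y := by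
  obtain ⟨w1, h1, h2, h4⟩ := h
  refine (pth_in hS h3 hw h2 (hH.mono fun z hz => h4 z hz
    (Metric.mem_closedBall_self (by linarith))) h4 hy hc).mono ?_
  rintro z ⟨k1, k2⟩
  refine ⟨k1, ?_⟩
  rcases k2 with k2 | ⟨p, hp, k2⟩
  · have := norm_nonneg (LabDx755.ctr s q - w)
    linarith
  · have k3 : ‖p - w1‖ ≤ ‖LabDx755.ctr s q - w1‖ := by
      have := Nearx440.seg_add hp
      have k4 := norm_nonneg (p - LabDx755.ctr s q)
      rw [norm_sub_rev p w1, norm_sub_rev _ w1]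
      linarith
    have k5 : ‖LabDx755.ctr s q - w1‖ ≤ ‖LabDx755.ctr s q - w‖ + ‖w - w1‖ := by
      have := norm_add_le (LabDx755.ctr s q - w) (w - w1)
      rwa [sub_add_sub_cancel] at this
    have k6 : ‖z - w‖ ≤ ‖z - p‖ + (‖p - w1‖ + ‖w1 - w‖) := by
      have := norm_add_le (z - p) (p - w)
      have k7 := norm_add_le (p - w1) (w1 - w)
      rw [sub_add_sub_cancel] at this k7
      linarith
    rw [norm_sub_rev z p, norm_sub_rev w1 w] at k6
    linarith

end Crest.Agent.R143.Inwx741
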