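import Crest.Agent.R143.J9_872
import Crest.Agent.R143.X0C_683
import Crest.Agent.R143.Loc_922

/-!
# Row 143, block X: two worlds with the same inside (helper872)

* `loc_col2` : the colouring of a join through a cut (all edges)
* `pair_tri` : the same triangles in the disc; `pair_agr` : two joins of the two worlds differ in the
  disc by the boundary of a set of sites
* `HI_congr2`, `GI_congr2`, `h_indep2`, `g_indep2`
* `step_XK'`, `step_X1'`, `step_h'`, `step_g'` : the steps `Rj j → Rj (j + 1)` as sums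
-/

set_option autoImplicit false

noncomputable section

open scoped Classical

namespace Crest.Agent.R143.J10x872

open Crest.Agent.R143.B0x346 Crest.Agent.R143.DelGx806 Crest.Agent.R143.DelRx806
  Crest.Agent.R143.JColx54 Crest.Agent.R143.JCol2x54 Crest.Agent.R143.Planarx54
  Crest.Agent.R143.Planar2x54 Crest.Agent.R143.Harx315 Crest.Agent.R143.J8x872
  Crest.Agent.R143.J9x872
open Crest.Agent.R143.X0Bx683 (OutP LeadsO LegTip Tips TipsS HO GO HI GI Dsc Fs Ann Fc World Rj)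
open Crest.Agent.R143.X0Cx683 (Pair)

local notation "flp" => Crest.Agent.R143.X0Bx683.flip
local notation "bdy" => Crest.Agent.R143.X0Bx683.bd
local notation "eex" => Crest.Agent.R143.XW1x315.ex
local notation "AgrJ" => Crest.Agent.R143.J9x872.Agr

variable {S S' : Finset ℂ} {N N' : Net ℂ} {G G' : Trg ℂ} {kl : Set (ℂ × ℂ)} {O : Set (ℂ × ℂ × ℂ)}
  {D D' : Set (ℂ × ℂ)} {J J' : Finset (ℂ × ℂ)} {V β β' : Finset ℂ} {z0 : ℂ} {W : Set ℂ}

/-! ### the colouring of a join through a cut -/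

/-- the edge crosses the cut of the branch `B` an even number of times -/
def Ev (x : ℂ) (B : ℂ → ℝ) (a b : ℂ) : Prop :=
  ∃ k : ℤ, ang x a b = B b - B a + (2 * k : ℤ) * (2 * Real.pi)

/-- **colouring through a cut** -/
theorem loc_col2 (H : HNet S N) {t : ℂ × ℂ × ℂ} (ht : t ∈ delT S) {x : ℂ} (hx : InO' x t)
    (hJ : J ∈ N.tj t) (B : ℂ → ℝ)
    (hB : ∀ a b, Adj S a b → ∃ k : ℤ, ang x a b = B b - B a + k * (2 * Real.pi)) :
    ∃ τ : ℂ → Bool, ∀ a b, Adj S a b →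
      (τ a = τ b ↔ (((a, b) ∈ J ∨ (b, a) ∈ J) ↔ ¬ Ev x B a b)) := by
  have hJ' : IsJoin N.toTrg N.kl (rots t) N.exS J := JCardx872.mem_joins.1 hJ
  have hpi := Real.pi_pos
  choose! n hn using hB
  have hadd : ∀ a b, Adj S a b → n b a = - n a b := by
    intro a b hab
    have h1 := hn a b hab
    have h2 := hn b a hab.symm
    have h3 := adj_anti H.gp ht hx hab
    have h4 : ((n b a + n a b : ℤ) : ℝ) * (2 * Real.pi) = 0 := by
      push_cast
      linarith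
    have h5 : ((n b a + n a b : ℤ) : ℝ) = 0 := by
      rcases mul_eq_zero.1 h4 with h | h
      · exact h
      · exact absurd h (by positivity)
    have h6 : n b a + n a b = 0 := by exact_mod_cast h5
    omega
  have hev : ∀ a b, Adj S a b → (Ev x B a b ↔ ((n a b : ℤ) : ZMod 2) = 0) := by
    intro a b hab
    have h1 := hn a b hab
    rw [ZMod.intCast_zmod_eq_zero_iff_dvd]
    constructor
    · rintro ⟨k, hk⟩
      refine ⟨k, ?_⟩
      have h2 : ((n a b - 2 * k : ℤ) : ℝ) * (2 * Real.pi) = 0 := by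
        push_cast at hk ⊢
        linarith
      have h3 : ((n a b - 2 * k : ℤ) : ℝ) = 0 := by
        rcases mul_eq_zero.1 h2 with h | h
        · exact h
        · exact absurd h (by positivity)
      have h4 : n a b - 2 * k = 0 := by exact_mod_cast h3
      push_cast
      omega
    · rintro ⟨k, hk⟩
      refine ⟨k, ?_⟩
      rw [h1, hk]
      push_cast
      ring
  have htri : ∀ a b c, (a, b, c) ∈ delT S →
      n a b + n b c + n c a = if (a, b, c) ∈ rots t then 1 else 0 := by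
    intro a b c h
    have h1 := hn a b (adj_tri h)
    have h2 := hn b c (adj_tri' H.gp h)
    have h3 := hn c a (adj_tri'' H.gp h)
    have h4 := ang_tri H.gp ht hx h
    have h5 : ((n a b + n b c + n c a : ℤ) : ℝ) * (2 * Real.pi) =
        (if (a, b, c) ∈ rots t then 1 else 0) * (2 * Real.pi) := by
      push_cast
      split_ifs at h4 ⊢ <;> linarith
    have h6 : ((n a b + n b c + n c a : ℤ) : ℝ) = if (a, b, c) ∈ rots t then 1 else 0 :=
      mul_right_cancel₀ (by positivity) h5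
    split_ifs at h6 ⊢ <;> exact_mod_cast h6
  obtain ⟨σ, hσ⟩ := exact H.gp (A := ZMod 2)
    (f := fun a b => (if (a, b) ∈ J ∨ (b, a) ∈ J then 1 else 0) + (n a b : ZMod 2))
    (by
      intro a b hab
      have e : ((b, a) ∈ J ∨ (a, b) ∈ J) ↔ ((a, b) ∈ J ∨ (b, a) ∈ J) := or_comm
      simp only [e, hadd a b hab]
      push_cast
      generalize ((n a b : ℤ) : ZMod 2) = u
      split_ifs <;> revert u <;> decide)
    (by
      intro a b c h
      have hG' : (a, b, c) ∈ N.T := by rw [H.tri]; exact h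
      have h1 := occ_iff H.tri (exS_hull H) hJ' h
      have h2 := occ_iff H.tri (exS_hull H) hJ' (delT_rot H.gp h)
      have h3 := occ_iff H.tri (exS_hull H) hJ' (delT_rot H.gp (delT_rot H.gp h))
      have hp := hJ'.par a b c hG'
      have hk := congrArg (fun z : ℤ => (z : ZMod 2)) (htri a b c h)
      simp only [h1, h2, h3]
      push_cast at hk
      generalize ((n a b : ℤ) : ZMod 2) = u at hk ⊢
      generalize ((n b c : ℤ) : ZMod 2) = v at hk ⊢
      generalize ((n c a : ℤ) : ZMod 2) = w at hk ⊢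
      by_cases hr : (a, b, c) ∈ rots t
      · simp only [hr, if_true] at hp hk
        by_cases x1 : (a, b) ∈ J <;> by_cases x2 : (b, c) ∈ J <;> by_cases x3 : (c, a) ∈ J <;>
          simp only [x1, x2, x3, if_true, if_false] at hp ⊢ <;>
          first
            | omega
            | (revert hk; revert u v w; decide)
      · simp only [hr, if_false] at hp hk
        by_cases x1 : (a, b) ∈ J <;> by_cases x2 : (b, c) ∈ J <;> by_cases x3 : (c, a) ∈ J <;>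
          simp only [x1, x2, x3, if_true, if_false] at hp ⊢ <;>
          first
            | omega
            | (revert hk; revert u v w; decide))
  refine ⟨fun a => decide (σ a = 1), fun a b hab => ?_⟩
  have h := hσ a b hab
  rw [hev a b hab]
  rw [decide_eq_decide]
  generalize ((n a b : ℤ) : ZMod 2) = m at h ⊢
  by_cases hx : (a, b) ∈ J ∨ (b, a) ∈ J
  · simp only [hx, if_true] at h
    simp only [hx, true_iff]
    generalize σ a = u at h ⊢
    generalize σ b = v at h ⊢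
    revert u v m
    decide
  · simp only [hx, if_false] at h
    simp only [hx, false_iff, not_not]
    generalize σ a = u at h ⊢
    generalize σ b = v at h ⊢
    revert u v m
    decide

/-! ### two worlds -/

section pair

variable {R R1 d b0 C4 r : ℝ} {f : Fc S N z0 r} {f' : Fc S' N' z0 r}

theorem hol_ball (h : RB0x838.LDns S z0 R1 d) (hR : R + d ≤ R1) :
    Locx922.Hol (S : Set ℂ) (Metric.closedBall z0 R) d := by
  intro w hw z hz
  rw [Metric.mem_closedBall, dist_eq_norm] at hw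
  refine h.hole z ?_
  have e : z - z0 = (z - w) + (w - z0) := by ring
  rw [e]
  exact (norm_add_le _ _).trans (by linarith)

/-- **the same triangles in the disc** -/
theorem pair_tri (P : Pair S S' N N' z0 R R1 d b0 C4 r f f') (hd : 2 * d ≤ R) (hR1 : R + d ≤ R1)
    {a b c : ℂ} (ha : ‖a - z0‖ < R) : (a, b, c) ∈ delT S ↔ (a, b, c) ∈ delT S' := by
  refine Locx922.delT_vertex (W := Metric.closedBall z0 R) P.w.dns.dpos (hol_ball P.w.dns hR1)
    ?_ ?_
  · intro w hw s hs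
    rw [Metric.mem_closedBall, dist_eq_norm] at hw
    apply P.same
    have e : s - z0 = (s - w) + (w - z0) := by ring
    rw [e]
    exact lt_of_le_of_lt (norm_add_le _ _) (by linarith)
  · rw [Metric.mem_closedBall, dist_eq_norm]; exact ha.le

theorem pair_adj (P : Pair S S' N N' z0 R R1 d b0 C4 r f f') (hd : 2 * d ≤ R) (hR1 : R + d ≤ R1)
    {a b : ℂ} (ha : ‖a - z0‖ < R) (hb : ‖b - z0‖ < R) : Adj S a b ↔ Adj S' a b := by
  unfold JColx54.Adj
  simp only [pair_tri P hd hR1 ha, pair_tri P hd hR1 hb]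

theorem pair_fs (P : Pair S S' N N' z0 R R1 d b0 C4 r f f') {ρ : ℝ} (hρ : ρ ≤ R) :
    Fs S z0 ρ = Fs S' z0 ρ := by
  ext s
  unfold X0Bx683.Fs
  rw [Finset.mem_filter, Finset.mem_filter]
  have hR := P.w.Rpos
  constructor
  · rintro ⟨h1, h2⟩
    exact ⟨(P.same s (by linarith)).1 h1, h2⟩
  · rintro ⟨h1, h2⟩
    exact ⟨(P.same s (by linarith)).2 h1, h2⟩

theorem pair_ann (P : Pair S S' N N' z0 R R1 d b0 C4 r f f') {ρ' ρ : ℝ} (hρ : ρ ≤ R) :
    Ann S z0 ρ' ρ = Ann S' z0 ρ' ρ := by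
  ext s
  unfold X0Bx683.Ann
  rw [Finset.mem_filter, Finset.mem_filter]
  have hR := P.w.Rpos
  constructor
  · rintro ⟨h1, h2⟩
    exact ⟨(P.same s (by linarith [h2.2])).1 h1, h2⟩
  · rintro ⟨h1, h2⟩
    exact ⟨(P.same s (by linarith [h2.2])).2 h1, h2⟩

/-- on the edges of the disc the joins of a standard world are symmetric -/
theorem world_sym (hw : World S N z0 R R1 d b0 C4) (hJ : IsJoin N.toTrg N.kl O N.exS J) {a b : ℂ}
    (ha : ‖a - z0‖ < R) : (a, b) ∈ J ↔ (b, a) ∈ J := by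
  have h1 := hw.inner a b ha
  refine hJ.sym a b ?_ ?_
  · rintro ⟨k, hk⟩
    have := hw.hnet.hex k
    rw [hk] at this
    exact h1.1 this
  · rintro ⟨k, hk⟩
    have := hw.hnet.hex k
    rw [hk] at this
    exact h1.2 this

theorem world_noD (hw : World S N z0 R R1 d b0 C4) {a b : ℂ} (ha : ‖a - z0‖ < R) :
    (a, b) ∉ N.exS ∧ (b, a) ∉ N.exS := by
  have h1 := hw.inner a b ha
  constructor
  · rintro ⟨k, hk⟩
    have := hw.hnet.hex k
    rw [hk] at this
    exact h1.1 this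
  · rintro ⟨k, hk⟩
    have := hw.hnet.hex k
    rw [hk] at this
    exact h1.2 this

/-- **two joins of the two worlds differ in the disc by the boundary of a set of sites** -/
theorem pair_agr (P : Pair S S' N N' z0 R R1 d b0 C4 r f f') (hd : 2 * d ≤ R) (hR1 : R + d ≤ R1)
    (hJ : J ∈ N.tj f.s0) (hJ' : J' ∈ N'.tj f'.s0) :
    ∃ τ : Finset ℂ, τ ⊆ Fs S z0 R ∧ AgrJ (Dsc z0 R)ᶜ J' (flp N.toTrg J τ) := by
  have H := P.w.hnet
  have H' := P.w'.hnet
  have hs0 : f.s0 ∈ delT S := f.sub _ f.s0m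
  have hs0' : f'.s0 ∈ delT S' := f'.sub _ f'.s0m
  have hx : InO' (f.pt f.s0) f.s0 := f.inn _ f.s0m
  have hx' : InO' (f.pt f.s0) f'.s0 := by
    rw [← P.s0]; exact hx
  obtain ⟨σ, hσ⟩ := loc_col2 H hs0 hx hJ (L 1 (f.pt f.s0))
    (fun a b h => branch_L H.gp hs0 hx one_ne_zero h)
  obtain ⟨σ', hσ'⟩ := loc_col2 H' hs0' hx' hJ' (L 1 (f.pt f.s0))
    (fun a b h => branch_L H'.gp hs0' hx' one_ne_zero h)
  have hJ1 := JCardx872.mem_joins.1 hJ
  have hJ1' := JCardx872.mem_joins.1 hJ'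
  refine ⟨(Fs S z0 R).filter fun s => σ s ≠ σ' s, Finset.filter_subset _ _, ?_⟩
  intro a b ha hb
  have ha' : ‖a - z0‖ < R := not_not.1 ha
  have hb' : ‖b - z0‖ < R := not_not.1 hb
  unfold X0Bx683.flip
  rw [Finset.mem_symmDiff, mem_bd H.tri]
  by_cases hab : Adj S a b
  · have hab' := (pair_adj P hd hR1 ha' hb').1 hab
    have e1 := hσ a b hab
    have e2 := hσ' a b hab'
    have s1 := world_sym P.w hJ1 (b := b) ha'
    have s2 := world_sym P.w' hJ1' (b := b) ha'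
    rw [← s1, or_self] at e1
    rw [← s2, or_self] at e2
    have fa : a ∈ (Fs S z0 R).filter (fun s => σ s ≠ σ' s) ↔ σ a ≠ σ' a := by
      rw [Finset.mem_filter]
      exact ⟨fun h => h.2, fun h => ⟨Finset.mem_filter.2 ⟨hab.mem.1, ha'⟩, h⟩⟩
    have fb : b ∈ (Fs S z0 R).filter (fun s => σ s ≠ σ' s) ↔ σ b ≠ σ' b := by
      rw [Finset.mem_filter]
      exact ⟨fun h => h.2, fun h => ⟨Finset.mem_filter.2 ⟨hab.mem.2, hb'⟩, h⟩⟩
    rw [fa, fb]
    clear fa fb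
    simp only [hab, true_and]
    generalize σ a = u at *
    generalize σ b = v at *
    generalize σ' a = u' at *
    generalize σ' b = v' at *
    generalize Ev (f.pt f.s0) (L 1 (f.pt f.s0)) a b = E at *
    by_cases x1 : (a, b) ∈ J <;> by_cases x2 : (a, b) ∈ J' <;> by_cases x3 : E <;>
      simp only [x1, x2, x3, not_true, not_false_iff, iff_true, iff_false, true_iff, false_iff,
        true_and, false_and, and_true, and_false, or_false, false_or, not_not] at e1 e2 ⊢ <;>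
      revert u v u' v' <;> decide
  · have hab' : ¬ Adj S' a b := fun h => hab ((pair_adj P hd hR1 ha' hb').2 h)
    have n1 : (a, b) ∉ J := fun h => hab ((mem_E H.tri).1 (hJ1.sub h))
    have n2 : (a, b) ∉ J' := fun h => hab' ((mem_E H'.tri).1 (hJ1'.sub h))
    simp only [n1, n2, hab, false_and, not_false_iff, and_true, or_self]

/-! ### legs in two worlds -/

theorem step_congr2 (h : AgrJ W J J')
    (hT : ∀ a b c, a ∉ W → b ∉ W → (a, b, c) ∈ G.T → (a, b, c) ∈ G'.T)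
    (hD : ∀ a b, a ∉ W → b ∉ W → (a, b) ∉ D') {p q : ℂ × ℂ} (hp : OutP W p) (hq : OutP W q)
    (hs : Step G O D J p q) : Step G' O D' J' p q := by
  obtain ⟨c, h1, h2, h3, h4⟩ := hs
  refine ⟨c, hT _ _ _ hp.1 hp.2 h1, h2, hD _ _ hp.2 hp.1, ?_⟩
  rcases h4 with ⟨h5, rfl⟩ | ⟨h5, h6, rfl⟩
  · exact Or.inl ⟨(h _ _ hp.2 hq.1).1 h5, rfl⟩
  · exact Or.inr ⟨(h _ _ hq.2 hp.1).1 h5, fun h7 => h6 ((h _ _ hp.2 hq.2).2 h7), rfl⟩

theorem legTip_congr2 (h : AgrJ W J J')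
    (hT : ∀ a b c, a ∉ W → b ∉ W → (a, b, c) ∈ G.T → (a, b, c) ∈ G'.T)
    (hD : ∀ a b, a ∉ W → b ∉ W → (a, b) ∉ D') {p q : ℂ × ℂ} (hl : LegTip G O D J W p q) :
    LegTip G' O D' J' W p q := by
  obtain ⟨⟨hp, hl⟩, c, hc, hct⟩ := hl
  have key : LeadsO G' O D' J' W p q ∧ OutP W q := by
    clear hct
    induction hl with
    | refl => exact ⟨⟨hp, Relation.ReflTransGen.refl⟩, hp⟩
    | tail _ h2 ih =>
      exact ⟨⟨hp, ih.1.2.tail ⟨step_congr2 h hT hD ih.2 h2.2 h2.1, h2.2⟩⟩, h2.2⟩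
  exact ⟨key.1, c, hc, hT _ _ _ key.2.1 key.2.2 hct⟩

theorem pair_pair (P : Pair S S' N N' z0 R R1 d b0 C4 r f f') :
    Pair S' S N' N z0 R R1 d b0 C4 r f' f :=
  ⟨P.w', P.w, fun s hs => (P.same s hs).symm, P.T.symm, P.s0.symm, P.gam.symm, P.pt.symm,
    P.a0.symm⟩

private theorem out_in {ρ : ℝ} {a : ℂ} (ha : a ∉ (Dsc z0 ρ)ᶜ) (hρ : ρ ≤ R) : ‖a - z0‖ < R :=
  lt_of_lt_of_le (not_not.1 ha : ‖a - z0‖ < ρ) hρ

theorem HI_congr2_imp (P : Pair S S' N N' z0 R R1 d b0 C4 r f f') (hd : 2 * d ≤ R)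
    (hR1 : R + d ≤ R1) {ρ : ℝ} (hρ : ρ ≤ R) {t : ℂ × ℂ × ℂ} (h : AgrJ (Dsc z0 ρ)ᶜ J J')
    (hJ : HI N t z0 ρ J) : HI N' t z0 ρ J' := by
  refine ⟨fun i => ?_, fun i => ?_⟩
  · have ho := tips_out hJ.2 i
    exact (h _ _ ho.2 ho.1).1 (hJ.1 i)
  · obtain ⟨q, hq⟩ := hJ.2 i
    refine ⟨q, legTip_congr2 h (fun a b c ha _ hT => ?_) (fun a b ha _ => ?_) hq⟩
    · rw [P.w'.hnet.tri, ← pair_tri P hd hR1 (out_in ha hρ), ← P.w.hnet.tri]
      exact hT
    · exact (world_noD P.w' (out_in ha hρ)).1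

theorem HI_congr2 (P : Pair S S' N N' z0 R R1 d b0 C4 r f f') (hd : 2 * d ≤ R)
    (hR1 : R + d ≤ R1) {ρ : ℝ} (hρ : ρ ≤ R) {t : ℂ × ℂ × ℂ} (h : AgrJ (Dsc z0 ρ)ᶜ J J') :
    HI N t z0 ρ J ↔ HI N' t z0 ρ J' :=
  ⟨HI_congr2_imp P hd hR1 hρ h, HI_congr2_imp (pair_pair P) hd hR1 hρ h.symm⟩

theorem GI_congr2_imp (P : Pair S S' N N' z0 R R1 d b0 C4 r f f') (hd : 2 * d ≤ R)
    (hR1 : R + d ≤ R1) {ρ δ : ℝ} (hρ : ρ ≤ R) {t : ℂ × ℂ × ℂ} (h : AgrJ (Dsc z0 ρ)ᶜ J J')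
    (hJ : GI N t z0 ρ δ J) : GI N' t z0 ρ δ J' := by
  refine ⟨fun i => ?_, ?_⟩
  · have ho := tips_out (tipsS_tips hJ.2) i
    exact (h _ _ ho.2 ho.1).1 (hJ.1 i)
  · obtain ⟨q, hq, hsep⟩ := hJ.2
    refine ⟨q, fun i => legTip_congr2 h (fun a b c ha _ hT => ?_) (fun a b ha _ => ?_) (hq i),
      hsep⟩
    · rw [P.w'.hnet.tri, ← pair_tri P hd hR1 (out_in ha hρ), ← P.w.hnet.tri]
      exact hT
    · exact (world_noD P.w' (out_in ha hρ)).1

theorem GI_congr2 (P : Pair S S' N N' z0 R R1 d b0 C4 r f f') (hd : 2 * d ≤ R)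
    (hR1 : R + d ≤ R1) {ρ δ : ℝ} (hρ : ρ ≤ R) {t : ℂ × ℂ × ℂ} (h : AgrJ (Dsc z0 ρ)ᶜ J J') :
    GI N t z0 ρ δ J ↔ GI N' t z0 ρ δ J' :=
  ⟨GI_congr2_imp P hd hR1 hρ h, GI_congr2_imp (pair_pair P) hd hR1 hρ h.symm⟩

/-- **the law of the inside is the same in the two worlds**: an event `E` of the first and an event
`E'` of the second world which look at the same edges inside the disc -/
theorem pair_pr (P : Pair S S' N N' z0 R R1 d b0 C4 r f f') (hd : 2 * d ≤ R) (hR1 : R + d ≤ R1)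
    (hJ : J ∈ N.tj f.s0) (hJ' : J' ∈ N'.tj f'.s0) {ρ : ℝ} (hρ : ρ ≤ R)
    {E E' : Finset (ℂ × ℂ) → Prop} (hE : ∀ K K', AgrJ (Dsc z0 ρ)ᶜ K K' → (E K ↔ E' K')) :
    pr (Fs S' z0 ρ) (fun β => E' (flp N'.toTrg J' β)) =
      pr (Fs S z0 ρ) (fun β => E (flp N.toTrg J β)) := by
  obtain ⟨τ, hτ, hag⟩ := pair_agr P hd hR1 hJ hJ'
  have H := P.w.hnet
  have H' := P.w'.hnet
  set τ' := τ.filter fun s => ‖s - z0‖ < ρ with hτ'
  have hsub : τ' ⊆ Fs S' z0 ρ := by
    intro s hs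
    have := Finset.mem_filter.1 hs
    rw [← pair_fs P hρ]
    exact Finset.mem_filter.2 ⟨(Finset.mem_filter.1 (hτ this.1)).1, this.2⟩
  rw [← XW1x315.ex_ind, ← XW1x315.ex_ind, ← XW1x315.ex_symm hsub, pair_fs P hρ]
  refine XW1x315.ex_congr fun β hβ => ?_
  have e : E (flp N.toTrg J β) ↔ E' (flp N'.toTrg J' (symmDiff β τ')) := by
    apply hE
    intro a b ha hb
    have ha' : ‖a - z0‖ < ρ := not_not.1 ha
    have hb' : ‖b - z0‖ < ρ := not_not.1 hb
    have haR : a ∉ (Dsc z0 R)ᶜ := fun h => h (lt_of_lt_of_le ha' hρ)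
    have hbR : b ∉ (Dsc z0 R)ᶜ := fun h => h (lt_of_lt_of_le hb' hρ)
    have h1 := hag a b haR hbR
    unfold X0Bx683.flip at h1 ⊢
    rw [Finset.mem_symmDiff, mem_bd H.tri] at h1
    rw [Finset.mem_symmDiff, Finset.mem_symmDiff, mem_bd H.tri, mem_bd H'.tri,
      ← pair_adj P hd hR1 (lt_of_lt_of_le ha' hρ) (lt_of_lt_of_le hb' hρ)]
    have h2 : a ∈ τ' ↔ a ∈ τ := by
      rw [hτ', Finset.mem_filter]
      exact ⟨fun h => h.1, fun h => ⟨h, ha'⟩⟩
    have h3 : b ∈ τ' ↔ b ∈ τ := by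
      rw [hτ', Finset.mem_filter]
      exact ⟨fun h => h.1, fun h => ⟨h, hb'⟩⟩
    rw [Finset.mem_symmDiff, Finset.mem_symmDiff, h2, h3]
    clear h2 h3
    generalize (a ∈ τ) = A1 at *
    generalize (b ∈ τ) = B1 at *
    generalize (a ∈ β) = A2 at *
    generalize (b ∈ β) = B2 at *
    generalize (Adj S a b) = A3 at *
    generalize ((a, b) ∈ J) = A4 at *
    generalize ((a, b) ∈ J') = A5 at *
    clear hag hsub hβ hτ' hτ
    by_cases y1 : A1 <;> by_cases y2 : B1 <;> by_cases y3 : A2 <;> by_cases y4 : B2 <;>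
      by_cases y5 : A3 <;> by_cases y6 : A4 <;> by_cases y7 : A5 <;>
      simp only [y1, y2, y3, y4, y5, y6, y7, not_true, not_false_iff, iff_true, iff_false,
        true_iff, false_iff, true_and, false_and, and_true, and_false, or_false, false_or,
        not_not] at h1 ⊢
  simp only [e]

/-- **(L3) for two worlds** -/
theorem h_indep2 (P : Pair S S' N N' z0 R R1 d b0 C4 r f f') (hd : 2 * d ≤ R) (hR1 : R + d ≤ R1)
    (hJ : J ∈ N.tj f.s0) (hJ' : J' ∈ N'.tj f'.s0) {t : ℂ × ℂ × ℂ} {R' ρ : ℝ}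
    (hρ : ρ ≤ R') (hR' : R' ≤ R) : f'.h R' ρ J' t = f.h R' ρ J t := by
  rw [h_marg f' (le_refl ρ) hρ, h_marg f (le_refl ρ) hρ]
  unfold X0Bx683.Fc.h
  refine pair_pr P hd hR1 hJ hJ' (hρ.trans hR') (E := fun K => HI N t z0 ρ (f.at' K t))
    (E' := fun K => HI N' t z0 ρ (f'.at' K t)) fun K K' hK => HI_congr2 P hd hR1 (hρ.trans hR') ?_
  intro a b ha hb
  unfold X0Bx683.Fc.at'
  rw [Finset.mem_symmDiff, Finset.mem_symmDiff, hK a b ha hb, P.gam]

/-- **(L3) for two worlds** -/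
theorem g_indep2 (P : Pair S S' N N' z0 R R1 d b0 C4 r f f') (hd : 2 * d ≤ R) (hR1 : R + d ≤ R1)
    (hJ : J ∈ N.tj f.s0) (hJ' : J' ∈ N'.tj f'.s0) {t : ℂ × ℂ × ℂ} {R' ρ δ : ℝ}
    (hρ : ρ ≤ R') (hR' : R' ≤ R) : f'.g R' ρ δ J' t = f.g R' ρ δ J t := by
  rw [g_marg f' (le_refl ρ) hρ, g_marg f (le_refl ρ) hρ]
  unfold X0Bx683.Fc.g
  refine pair_pr P hd hR1 hJ hJ' (hρ.trans hR') (E := fun K => GI N t z0 ρ δ (f.at' K t))
    (E' := fun K => GI N' t z0 ρ δ (f'.at' K t))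
    fun K K' hK => GI_congr2 P hd hR1 (hρ.trans hR') ?_
  intro a b ha hb
  unfold X0Bx683.Fc.at'
  rw [Finset.mem_symmDiff, Finset.mem_symmDiff, hK a b ha hb, P.gam]

end pair

/-! ### steps between the scales as sums -/

section steps

variable {r R : ℝ} {t : ℂ × ℂ × ℂ}

theorem rj_le (hR : 0 ≤ R) (j : ℕ) : Rj R (j + 1) ≤ Rj R j := by
  unfold X0Bx683.Rj
  rw [pow_succ, ← div_div]
  exact div_le_self (by positivity) (by norm_num)

theorem rj_le' (hR : 0 ≤ R) {i j : ℕ} (h : i ≤ j) : Rj R j ≤ Rj R i := by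
  induction h with
  | refl => exact le_rfl
  | step _ ih => exact (rj_le hR _).trans ih

theorem rj_zero : Rj R 0 = R := by
  unfold X0Bx683.Rj
  rw [pow_zero, div_one]

theorem step_XK' (f : Fc S N z0 r) (hR : 0 ≤ R) (j : ℕ) (J : Finset (ℂ × ℂ)) (k : ℤ) :
    f.XK (Rj R j) J t k = ∑ β ∈ (Ann S z0 (Rj R (j + 1)) (Rj R j)).powerset,
      (1 / 2 ^ (Ann S z0 (Rj R (j + 1)) (Rj R j)).card) *
        f.XK (Rj R (j + 1)) (flp N.toTrg J β) t k := by
  rw [step_XK f (rj_le hR j), ex_eq_sum]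

theorem step_X1' (f : Fc S N z0 r) (hR : 0 ≤ R) (j : ℕ) (J : Finset (ℂ × ℂ)) :
    f.X1 (Rj R j) J t = ∑ β ∈ (Ann S z0 (Rj R (j + 1)) (Rj R j)).powerset,
      (1 / 2 ^ (Ann S z0 (Rj R (j + 1)) (Rj R j)).card) *
        f.X1 (Rj R (j + 1)) (flp N.toTrg J β) t := by
  rw [step_X1 f (rj_le hR j), ex_eq_sum]

theorem step_h' (f : Fc S N z0 r) (hR : 0 ≤ R) (j : ℕ) (ρ : ℝ) (J : Finset (ℂ × ℂ)) :
    f.h (Rj R j) ρ J t = ∑ β ∈ (Ann S z0 (Rj R (j + 1)) (Rj R j)).powerset,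
      (1 / 2 ^ (Ann S z0 (Rj R (j + 1)) (Rj R j)).card) *
        f.h (Rj R (j + 1)) ρ (flp N.toTrg J β) t := by
  rw [step_h f (rj_le hR j), ex_eq_sum]

theorem step_g' (f : Fc S N z0 r) (hR : 0 ≤ R) (j : ℕ) (ρ δ : ℝ) (J : Finset (ℂ × ℂ)) :
    f.g (Rj R j) ρ δ J t = ∑ β ∈ (Ann S z0 (Rj R (j + 1)) (Rj R j)).powerset,
      (1 / 2 ^ (Ann S z0 (Rj R (j + 1)) (Rj R j)).card) *
        f.g (Rj R (j + 1)) ρ δ (flp N.toTrg J β) t := by
  rw [step_g f (rj_le hR j), ex_eq_sum]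

/-- the weights have the sum one -/
theorem weights_sum (V : Finset ℂ) : ∑ _β ∈ V.powerset, (1 / 2 ^ V.card : ℝ) = 1 := by
  rw [Finset.sum_const, Finset.card_powerset, nsmul_eq_mul]
  push_cast
  field_simp

end steps

end Crest.Agent.R143.J10x872
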