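import Crest.Agent.R143.J8_872

/-!
# Row 143, block X, averaging and locality (helper872)

* `step_congr`, `leadsO_congr`, `legTip_congr`, `tips_congr`, `tipsS_congr` : legs followed outside `W`
  only look at the edges with both ends outside `W`; `HO_congr`, `GO_congr`, `HI_congr`, `GI_congr`,
  `HO_flip`, `GO_flip`, `HI_flip`, `GI_flip`, `HO_dep`, `GO_dep`, `HI_dep`, `GI_dep`
* `at_flip`, `at_mem`, `card_at`, `sum_at` : joins read at the face `t`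
* `pr_step`, `step_XK`, `step_X1`, `step_h`, `step_g` : fix the colours of an annulus
* `cntK_avg`, `X_avg`, `tri_avg` : counts and winding polynomial as averages of `XK`
* `XK_fin`, `X1_eq` ; `h_indep`, `g_indep`
-/

set_option autoImplicit false

noncomputable section

open scoped Classical

namespace Crest.Agent.R143.J9x872

open Crest.Agent.R143.B0x346 Crest.Agent.R143.DelGx806 Crest.Agent.R143.DelRx806
  Crest.Agent.R143.JColx54 Crest.Agent.R143.JCol2x54 Crest.Agent.R143.Planarx54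
  Crest.Agent.R143.Planar2x54 Crest.Agent.R143.Harx315 Crest.Agent.R143.J8x872
open Crest.Agent.R143.X0Bx683 (OutP LeadsO LegTip Tips TipsS HO GO HI GI Dsc Fs Ann Fc World)

local notation "flp" => Crest.Agent.R143.X0Bx683.flip
local notation "bdy" => Crest.Agent.R143.X0Bx683.bd
local notation "eex" => Crest.Agent.R143.XW1x315.ex

variable {S : Finset ℂ} {N : Net ℂ} {G : Trg ℂ} {kl : Set (ℂ × ℂ)} {O : Set (ℂ × ℂ × ℂ)}
  {D : Set (ℂ × ℂ)} {J J' : Finset (ℂ × ℂ)} {V β β' : Finset ℂ} {z0 : ℂ} {W : Set ℂ}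

/-! ### locality -/

/-- the two joins agree on the edges with both ends outside `W` -/
def Agr (W : Set ℂ) (J J' : Finset (ℂ × ℂ)) : Prop :=
  ∀ a b : ℂ, a ∉ W → b ∉ W → ((a, b) ∈ J ↔ (a, b) ∈ J')

theorem Agr.symm (h : Agr W J J') : Agr W J' J := fun a b ha hb => (h a b ha hb).symm

theorem step_congr (h : Agr W J J') {p q : ℂ × ℂ} (hp : OutP W p) (hq : OutP W q)
    (hs : Step G O D J p q) : Step G O D J' p q := by
  obtain ⟨c, h1, h2, h3, h4⟩ := hs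
  refine ⟨c, h1, h2, h3, ?_⟩
  rcases h4 with ⟨h5, rfl⟩ | ⟨h5, h6, rfl⟩
  · exact Or.inl ⟨(h _ _ hp.2 hq.1).1 h5, rfl⟩
  · exact Or.inr ⟨(h _ _ hq.2 hp.1).1 h5, fun h7 => h6 ((h _ _ hp.2 hq.2).2 h7), rfl⟩

theorem leadsO_congr (h : Agr W J J') {p q : ℂ × ℂ} (hl : LeadsO G O D J W p q) :
    LeadsO G O D J' W p q ∧ OutP W q := by
  obtain ⟨hp, hl⟩ := hl
  induction hl with
  | refl => exact ⟨⟨hp, Relation.ReflTransGen.refl⟩, hp⟩
  | tail _ h2 ih =>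
    refine ⟨⟨hp, ih.1.2.tail ⟨step_congr h ih.2 h2.2 h2.1, h2.2⟩⟩, h2.2⟩

theorem legTip_congr (h : Agr W J J') {p q : ℂ × ℂ} :
    LegTip G O D J W p q ↔ LegTip G O D J' W p q :=
  ⟨fun hl => ⟨(leadsO_congr h hl.1).1, hl.2⟩, fun hl => ⟨(leadsO_congr h.symm hl.1).1, hl.2⟩⟩

theorem tips_congr (h : Agr W J J') {st0 : ZMod 3 → ℂ × ℂ} :
    Tips G O D J W st0 ↔ Tips G O D J' W st0 := by
  unfold X0Bx683.Tips
  simp only [legTip_congr h]

theorem tipsS_congr (h : Agr W J J') {st0 : ZMod 3 → ℂ × ℂ} {η : ℝ} :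
    TipsS G O D J W st0 η ↔ TipsS G O D J' W st0 η := by
  unfold X0Bx683.TipsS
  simp only [legTip_congr h]

theorem HO_congr {s0 : ℂ × ℂ × ℂ} {ρ : ℝ} (h : Agr (Dsc z0 ρ) J J') :
    HO N s0 z0 ρ J ↔ HO N s0 z0 ρ J' := tips_congr h

theorem GO_congr {s0 : ℂ × ℂ × ℂ} {ρ δ : ℝ} (h : Agr (Dsc z0 ρ) J J') :
    GO N s0 z0 ρ δ J ↔ GO N s0 z0 ρ δ J' := tipsS_congr h

theorem tips_out {st0 : ZMod 3 → ℂ × ℂ} (h : Tips G O D J W st0) (i : ZMod 3) : OutP W (st0 i) := by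
  obtain ⟨q, hq⟩ := h i
  exact hq.1.1

theorem tipsS_tips {st0 : ZMod 3 → ℂ × ℂ} {η : ℝ} (h : TipsS G O D J W st0 η) :
    Tips G O D J W st0 := by
  obtain ⟨q, hq, -⟩ := h
  exact fun i => ⟨q i, hq i⟩

theorem GO.ho {s0 : ℂ × ℂ × ℂ} {ρ δ : ℝ} (h : GO N s0 z0 ρ δ J) : HO N s0 z0 ρ J := tipsS_tips h

theorem GI.hi {t : ℂ × ℂ × ℂ} {ρ δ : ℝ} (h : GI N t z0 ρ δ J) : HI N t z0 ρ J :=
  ⟨h.1, tipsS_tips h.2⟩

private theorem sides_congr {t : ℂ × ℂ × ℂ} (h : Agr W J J')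
    (ho : ∀ i, OutP W (Planarx54.st t i)) (hs : ∀ i, (vt t i, vt t (i + 1)) ∈ J) :
    ∀ i, (vt t i, vt t (i + 1)) ∈ J' := fun i =>
  (h _ _ (ho i).2 (ho i).1).1 (hs i)

theorem HI_congr {t : ℂ × ℂ × ℂ} {ρ : ℝ} (h : Agr (Dsc z0 ρ)ᶜ J J') :
    HI N t z0 ρ J ↔ HI N t z0 ρ J' := by
  have key : ∀ J J', Agr (Dsc z0 ρ)ᶜ J J' → HI N t z0 ρ J → HI N t z0 ρ J' := fun J J' h hJ =>
    ⟨sides_congr h (tips_out hJ.2) hJ.1, (tips_congr h).1 hJ.2⟩
  exact ⟨key _ _ h, key _ _ h.symm⟩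

theorem GI_congr {t : ℂ × ℂ × ℂ} {ρ δ : ℝ} (h : Agr (Dsc z0 ρ)ᶜ J J') :
    GI N t z0 ρ δ J ↔ GI N t z0 ρ δ J' := by
  have key : ∀ J J', Agr (Dsc z0 ρ)ᶜ J J' → GI N t z0 ρ δ J → GI N t z0 ρ δ J' := fun J J' h hJ =>
    ⟨sides_congr h (tips_out (tipsS_tips hJ.2)) hJ.1, (tipsS_congr h).1 hJ.2⟩
  exact ⟨key _ _ h, key _ _ h.symm⟩

/-- flips inside `W` -/
theorem agr_flip (h : ∀ s ∈ β, s ∈ W) : Agr W (flp G J β) J := by
  intro a b ha hb
  unfold X0Bx683.flip X0Bx683.bd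
  have h1 : a ∉ β := fun h' => ha (h a h')
  have h2 : b ∉ β := fun h' => hb (h b h')
  rw [Finset.mem_symmDiff, Finset.mem_filter]
  simp only [h1, h2, iff_self, not_true, and_false, not_false_eq_true, and_true, false_and, or_false]

/-- two sets which are equal outside `W` -/
theorem agr_flip₂ (h : ∀ s, s ∉ W → (s ∈ β ↔ s ∈ β')) : Agr W (flp G J β) (flp G J β') := by
  intro a b ha hb
  unfold X0Bx683.flip X0Bx683.bd
  rw [Finset.mem_symmDiff, Finset.mem_filter, Finset.mem_symmDiff, Finset.mem_filter]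
  simp only [h a ha, h b hb]

theorem HO_flip {s0 : ℂ × ℂ × ℂ} {ρ : ℝ} (h : ∀ s ∈ β, ‖s - z0‖ < ρ) :
    HO N s0 z0 ρ (flp G J β) ↔ HO N s0 z0 ρ J := HO_congr (agr_flip h)

theorem GO_flip {s0 : ℂ × ℂ × ℂ} {ρ δ : ℝ} (h : ∀ s ∈ β, ‖s - z0‖ < ρ) :
    GO N s0 z0 ρ δ (flp G J β) ↔ GO N s0 z0 ρ δ J := GO_congr (agr_flip h)

theorem HI_flip {t : ℂ × ℂ × ℂ} {ρ : ℝ} (h : ∀ s ∈ β, ρ ≤ ‖s - z0‖) :
    HI N t z0 ρ (flp G J β) ↔ HI N t z0 ρ J :=
  HI_congr (agr_flip fun s hs h' => absurd h' (not_lt.2 (h s hs)))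

theorem GI_flip {t : ℂ × ℂ × ℂ} {ρ δ : ℝ} (h : ∀ s ∈ β, ρ ≤ ‖s - z0‖) :
    GI N t z0 ρ δ (flp G J β) ↔ GI N t z0 ρ δ J :=
  GI_congr (agr_flip fun s hs h' => absurd h' (not_lt.2 (h s hs)))

/-- the sites outside `B(z0, ρ)` -/
def outF (V : Finset ℂ) (z0 : ℂ) (ρ : ℝ) : Finset ℂ := V.filter fun s => ρ ≤ ‖s - z0‖

/-- the sites inside `B(z0, ρ)` -/
def inF (V : Finset ℂ) (z0 : ℂ) (ρ : ℝ) : Finset ℂ := V.filter fun s => ‖s - z0‖ < ρ

theorem disj_out_in (V : Finset ℂ) (z0 : ℂ) {ρ ρ' : ℝ} (h : ρ' ≤ ρ) :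
    Disjoint (outF V z0 ρ) (inF V z0 ρ') := by
  rw [Finset.disjoint_left]
  intro s h1 h2
  have h3 := (Finset.mem_filter.1 h1).2
  have h4 := (Finset.mem_filter.1 h2).2
  linarith

private theorem out_iff {ρ : ℝ} (hβ : β ⊆ V) (s : ℂ) (hs : s ∉ Dsc z0 ρ) :
    (s ∈ β ↔ s ∈ β ∩ outF V z0 ρ) := by
  rw [Finset.mem_inter]
  exact ⟨fun h => ⟨h, Finset.mem_filter.2 ⟨hβ h, not_lt.1 hs⟩⟩, fun h => h.1⟩

private theorem in_iff {ρ : ℝ} (hβ : β ⊆ V) (s : ℂ) (hs : s ∉ (Dsc z0 ρ)ᶜ) :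
    (s ∈ β ↔ s ∈ β ∩ inF V z0 ρ) := by
  rw [Finset.mem_inter]
  exact ⟨fun h => ⟨h, Finset.mem_filter.2 ⟨hβ h, not_not.1 hs⟩⟩, fun h => h.1⟩

theorem HO_dep {s0 : ℂ × ℂ × ℂ} {ρ : ℝ} :
    Dep V (outF V z0 ρ) (fun β => HO N s0 z0 ρ (flp G J β)) := fun _ hβ =>
  HO_congr (agr_flip₂ (out_iff hβ))

theorem GO_dep {s0 : ℂ × ℂ × ℂ} {ρ δ : ℝ} :
    Dep V (outF V z0 ρ) (fun β => GO N s0 z0 ρ δ (flp G J β)) := fun _ hβ =>
  GO_congr (agr_flip₂ (out_iff hβ))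

theorem HI_dep {t : ℂ × ℂ × ℂ} {ρ : ℝ} :
    Dep V (inF V z0 ρ) (fun β => HI N t z0 ρ (flp G J β)) := fun _ hβ =>
  HI_congr (agr_flip₂ (in_iff hβ))

theorem GI_dep {t : ℂ × ℂ × ℂ} {ρ δ : ℝ} :
    Dep V (inF V z0 ρ) (fun β => GI N t z0 ρ δ (flp G J β)) := fun _ hβ =>
  GI_congr (agr_flip₂ (in_iff hβ))

/-! ### joins read at a face -/

variable {r : ℝ} {t : ℂ × ℂ × ℂ}

theorem at_at (f : Fc S N z0 r) : f.at' (f.at' J t) t = J := by
  unfold X0Bx683.Fc.at'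
  exact symmDiff_symmDiff_cancel_right _ _

theorem at_flip (f : Fc S N z0 r) : f.at' (flp G J β) t = flp G (f.at' J t) β := by
  unfold X0Bx683.Fc.at' X0Bx683.flip
  rw [symmDiff_assoc, symmDiff_assoc, symmDiff_comm (bdy G β)]

theorem at_isJoin (H : HNet S N) (f : Fc S N z0 r) (ht : t ∈ f.T)
    (hJ : IsJoin N.toTrg N.kl (rots f.s0) N.exS J) :
    IsJoin N.toTrg N.kl (rots t) N.exS (f.at' J t) := by
  have h := JCardx872.xor_isJoin (f.pth t ht) (D := N.exS) (fun x hx => by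
    obtain ⟨k, rfl⟩ := hx
    refine JCardx872.avoid_bdry (f.pth t ht) _ _ fun c => ?_
    rw [H.tri]
    exact (H.hex k).2 c) hJ
  rw [symmDiff_symmDiff_cancel_left, symmDiff_comm] at h
  exact h

theorem at_isJoin' (H : HNet S N) (f : Fc S N z0 r) (ht : t ∈ f.T)
    (hJ : IsJoin N.toTrg N.kl (rots t) N.exS J) :
    IsJoin N.toTrg N.kl (rots f.s0) N.exS (f.at' J t) := by
  have h := JCardx872.xor_isJoin (f.pth t ht) (D := N.exS) (fun x hx => by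
    obtain ⟨k, rfl⟩ := hx
    refine JCardx872.avoid_bdry (f.pth t ht) _ _ fun c => ?_
    rw [H.tri]
    exact (H.hex k).2 c) hJ
  rw [symmDiff_comm (rots f.s0), symmDiff_symmDiff_cancel_left, symmDiff_comm] at h
  exact h

theorem at_mem (H : HNet S N) (f : Fc S N z0 r) (ht : t ∈ f.T) :
    f.at' J t ∈ N.tj t ↔ J ∈ N.tj f.s0 := by
  unfold Net.tj
  rw [JCardx872.mem_joins, JCardx872.mem_joins]
  refine ⟨fun h => ?_, at_isJoin H f ht⟩
  have := at_isJoin' H f ht h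
  rwa [at_at] at this

theorem sum_at (H : HNet S N) (f : Fc S N z0 r) (ht : t ∈ f.T) (g : Finset (ℂ × ℂ) → ℝ) :
    ∑ J ∈ N.tj t, g J = ∑ J ∈ N.tj f.s0, g (f.at' J t) := by
  refine Finset.sum_bij' (fun J _ => f.at' J t) (fun J _ => f.at' J t) ?_ ?_ ?_ ?_ ?_
  · intro J hJ
    rw [← at_mem H f ht, at_at]
    exact hJ
  · intro J hJ
    exact (at_mem H f ht).2 hJ
  · intro J _
    exact at_at f
  · intro J _
    exact at_at f
  · intro J _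
    simp only [at_at]

theorem card_at (H : HNet S N) (f : Fc S N z0 r) (ht : t ∈ f.T) :
    (N.tj t).card = (N.tj f.s0).card := by
  have h := sum_at H f ht (fun _ => 1)
  simpa using h

/-! ### monotonicity in the radius -/

/-- the walk stops at its first tip of a larger set -/
theorem legTip_mono {W' : Set ℂ} (hW : W' ⊆ W) {p q : ℂ × ℂ} (h0 : OutP W p)
    (h : LegTip G O D J W' p q) : ∃ q', LegTip G O D J W p q' := by
  by_contra hcon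
  push Not at hcon
  obtain ⟨⟨-, hl⟩, c, hc, hct⟩ := h
  have key : LeadsO G O D J W p q ∧ OutP W q := by
    clear hct
    induction hl with
    | refl => exact ⟨⟨h0, Relation.ReflTransGen.refl⟩, h0⟩
    | @tail b e _ h2 ih =>
      obtain ⟨k1, k2⟩ := ih
      have h3 : OutP W e := by
        by_contra h4
        obtain ⟨c', h5, -, -, h6⟩ := h2.1
        refine hcon b ⟨k1, c', ?_, h5⟩
        by_contra h7
        apply h4
        rcases h6 with ⟨-, rfl⟩ | ⟨-, -, rfl⟩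
        · exact ⟨h7, k2.2⟩
        · exact ⟨k2.1, h7⟩
      exact ⟨⟨h0, k1.2.tail ⟨h2.1, h3⟩⟩, h3⟩
  exact hcon q ⟨key.1, c, hW hc, hct⟩

/-- **(L1)** -/
theorem tips_mono {W' : Set ℂ} (hW : W' ⊆ W) {st0 : ZMod 3 → ℂ × ℂ} (h0 : ∀ i, OutP W (st0 i))
    (h : Tips G O D J W' st0) : Tips G O D J W st0 := fun i => by
  obtain ⟨q, hq⟩ := h i
  exact legTip_mono hW (h0 i) hq

/-- **(L1)** outer legs -/
theorem HO_mono {s0 : ℂ × ℂ × ℂ} {ρ ρ' : ℝ} (hρ : ρ' ≤ ρ)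
    (h0 : ∀ i, ρ ≤ ‖(N.ex i).1 - z0‖ ∧ ρ ≤ ‖(N.ex i).2 - z0‖) (h : HO N s0 z0 ρ' J) :
    HO N s0 z0 ρ J :=
  tips_mono (fun _ hs => lt_of_lt_of_le hs hρ) (fun i => ⟨not_lt.2 (h0 i).1, not_lt.2 (h0 i).2⟩) h

/-- the marks of a standard world are outside the disc -/
theorem ex_far {R R1 d b0 C4 : ℝ} (h : World S N z0 R R1 d b0 C4) {ρ : ℝ} (hρ : ρ ≤ R)
    (i : ZMod 3) : ρ ≤ ‖(N.ex i).1 - z0‖ ∧ ρ ≤ ‖(N.ex i).2 - z0‖ := by
  have h1 := h.hnet.hex i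
  constructor
  · by_contra h2
    push Not at h2
    exact (h.inner (N.ex i).1 (N.ex i).2 (by linarith)).1 h1
  · by_contra h2
    push Not at h2
    exact (h.inner (N.ex i).2 (N.ex i).1 (by linarith)).2 h1

/-- **(L1)** outer legs in a standard world -/
theorem HO_mono' {R R1 d b0 C4 : ℝ} (hw : World S N z0 R R1 d b0 C4) {s0 : ℂ × ℂ × ℂ} {ρ ρ' : ℝ}
    (hρ : ρ' ≤ ρ) (hR : ρ ≤ R) (h : HO N s0 z0 ρ' J) : HO N s0 z0 ρ J :=
  HO_mono hρ (ex_far hw hR) h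

/-- **(L1)** inner legs -/
theorem HI_mono {ρ ρ' : ℝ} (hρ : ρ' ≤ ρ) (h0 : ∀ i, ‖vt t i - z0‖ < ρ') (h : HI N t z0 ρ J) :
    HI N t z0 ρ' J :=
  ⟨h.1, tips_mono (W' := (Dsc z0 ρ)ᶜ)
    (fun _ hs hs' => hs (lt_of_lt_of_le hs' hρ))
    (fun i => ⟨fun h' => h' (h0 (i + 1)), fun h' => h' (h0 i)⟩) h.2⟩

/-! ### fixing the colours of an annulus -/

theorem fs_sdiff (S : Finset ℂ) (z0 : ℂ) {ρ ρ' : ℝ} (h : ρ' ≤ ρ) :
    Fs S z0 ρ \ Ann S z0 ρ' ρ = Fs S z0 ρ' := by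
  ext s
  unfold X0Bx683.Fs X0Bx683.Ann
  rw [Finset.mem_sdiff, Finset.mem_filter, Finset.mem_filter, Finset.mem_filter]
  constructor
  · rintro ⟨⟨h1, h2⟩, h3⟩
    refine ⟨h1, ?_⟩
    by_contra h4
    exact h3 ⟨h1, not_lt.1 h4, h2⟩
  · rintro ⟨h1, h2⟩
    exact ⟨⟨h1, lt_of_lt_of_le h2 h⟩, fun h3 => absurd h2 (not_lt.2 h3.2.1)⟩

theorem ann_sub (S : Finset ℂ) (z0 : ℂ) (ρ' ρ : ℝ) : Ann S z0 ρ' ρ ⊆ Fs S z0 ρ := by
  intro s
  unfold X0Bx683.Fs X0Bx683.Ann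
  rw [Finset.mem_filter, Finset.mem_filter]
  exact fun h => ⟨h.1, h.2.2⟩

theorem fs_sub (S : Finset ℂ) (z0 : ℂ) {ρ ρ' : ℝ} (h : ρ' ≤ ρ) : Fs S z0 ρ' ⊆ Fs S z0 ρ := by
  intro s
  unfold X0Bx683.Fs
  rw [Finset.mem_filter, Finset.mem_filter]
  exact fun h' => ⟨h'.1, lt_of_lt_of_le h'.2 h⟩

theorem flip_union (h : Disjoint β β') : flp G J (β' ∪ β) = flp G (flp G J β) β' := by
  rw [J8x872.flip_flip]
  congr 1
  rw [Finset.union_comm]
  exact (Disjoint.symmDiff_eq_sup h).symm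

/-- **step** for functions of the flipped join -/
theorem ex_step {ρ ρ' : ℝ} (h : ρ' ≤ ρ) (g : Finset (ℂ × ℂ) → ℝ) :
    eex (Fs S z0 ρ) (fun β => g (flp G J β)) =
      eex (Ann S z0 ρ' ρ) (fun β => eex (Fs S z0 ρ') (fun γ => g (flp G (flp G J β) γ))) := by
  rw [XW1x315.ex_split (ann_sub S z0 ρ' ρ), fs_sdiff S z0 h]
  refine XW1x315.ex_congr fun β hβ => XW1x315.ex_congr fun γ hγ => ?_
  rw [flip_union]
  rw [Finset.disjoint_left]
  intro s h1 h2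
  have h3 := (Finset.mem_filter.1 (hβ h1)).2.1
  have h4 := (Finset.mem_filter.1 (hγ h2)).2
  linarith

/-- **step** for events of the flipped join -/
theorem pr_step {ρ ρ' : ℝ} (h : ρ' ≤ ρ) (P : Finset (ℂ × ℂ) → Prop) :
    pr (Fs S z0 ρ) (fun β => P (flp G J β)) =
      eex (Ann S z0 ρ' ρ) (fun β => pr (Fs S z0 ρ') (fun γ => P (flp G (flp G J β) γ))) := by
  rw [← XW1x315.ex_ind, ex_step h (fun K => if P K then 1 else 0)]
  refine XW1x315.ex_congr fun β _ => ?_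
  exact XW1x315.ex_ind _

/-- the average as a sum with weights `2 ^ (- #V)` -/
theorem ex_eq_sum (V : Finset ℂ) (g : Finset ℂ → ℝ) :
    eex V g = ∑ β ∈ V.powerset, (1 / 2 ^ V.card) * g β := by
  unfold XW1x315.ex
  rw [← Finset.mul_sum, one_div, div_eq_inv_mul]

theorem step_XK (f : Fc S N z0 r) {ρ ρ' : ℝ} (h : ρ' ≤ ρ) (J : Finset (ℂ × ℂ)) (k : ℤ) :
    f.XK ρ J t k = eex (Ann S z0 ρ' ρ) (fun β => f.XK ρ' (flp N.toTrg J β) t k) :=
  pr_step h (fun K => N.TriK t (f.pt t) (f.lf t) (f.a0 t) k (f.at' K t))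

theorem step_X1 (f : Fc S N z0 r) {ρ ρ' : ℝ} (h : ρ' ≤ ρ) (J : Finset (ℂ × ℂ)) :
    f.X1 ρ J t = eex (Ann S z0 ρ' ρ) (fun β => f.X1 ρ' (flp N.toTrg J β) t) :=
  pr_step h (fun K => ∃ k, N.Tri3 t k (f.at' K t))

theorem step_h (f : Fc S N z0 r) {R' R'' ρ : ℝ} (h : R'' ≤ R') (J : Finset (ℂ × ℂ)) :
    f.h R' ρ J t = eex (Ann S z0 R'' R') (fun β => f.h R'' ρ (flp N.toTrg J β) t) :=
  pr_step h (fun K => HI N t z0 ρ (f.at' K t))

theorem step_g (f : Fc S N z0 r) {R' R'' ρ δ : ℝ} (h : R'' ≤ R') (J : Finset (ℂ × ℂ)) :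
    f.g R' ρ δ J t = eex (Ann S z0 R'' R') (fun β => f.g R'' ρ δ (flp N.toTrg J β) t) :=
  pr_step h (fun K => GI N t z0 ρ δ (f.at' K t))

/-! ### the inner probabilities do not depend on the outside -/

/-- only the colours of `B(z0, ρ)` matter -/
theorem h_marg (f : Fc S N z0 r) {R' R'' ρ : ℝ} (h1 : ρ ≤ R'') (h2 : R'' ≤ R')
    (J : Finset (ℂ × ℂ)) : f.h R' ρ J t = f.h R'' ρ J t := by
  unfold X0Bx683.Fc.h
  simp only [at_flip]
  refine pr_dep (fs_sub S z0 h2) ((HI_dep (V := Fs S z0 R')).mono ?_)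
  intro s hs
  have := Finset.mem_filter.1 hs
  exact Finset.mem_filter.2 ⟨(Finset.mem_filter.1 this.1).1, lt_of_lt_of_le this.2 h1⟩

theorem g_marg (f : Fc S N z0 r) {R' R'' ρ δ : ℝ} (h1 : ρ ≤ R'') (h2 : R'' ≤ R')
    (J : Finset (ℂ × ℂ)) : f.g R' ρ δ J t = f.g R'' ρ δ J t := by
  unfold X0Bx683.Fc.g
  simp only [at_flip]
  refine pr_dep (fs_sub S z0 h2) ((GI_dep (V := Fs S z0 R')).mono ?_)
  intro s hs
  have := Finset.mem_filter.1 hs
  exact Finset.mem_filter.2 ⟨(Finset.mem_filter.1 this.1).1, lt_of_lt_of_le this.2 h1⟩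

/-- two joins with the same odd triangle and the same marks differ by the boundary of a set -/
theorem exists_flip (H : HNet S N) (hJ : IsJoin N.toTrg N.kl O N.exS J)
    (hJ' : IsJoin N.toTrg N.kl O N.exS J') : ∃ τ : Finset ℂ, τ ⊆ S ∧ J' = flp N.toTrg J τ := by
  have h1 := (JCardx872.xor_same hJ hJ').1
  have h1' := (JCardx872.xor_same hJ hJ').2
  rw [symmDiff_self] at h1
  obtain ⟨σ, hσ⟩ := join_col H.gp H.tri (D := ∅) (fun a b h => absurd h (Set.notMem_empty _)) h1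
  refine ⟨S.filter fun s => σ s = true, Finset.filter_subset _ _, ?_⟩
  have e : symmDiff J J' = bdy N.toTrg (S.filter fun s => σ s = true) := by
    ext ⟨a, b⟩
    rw [mem_bd H.tri]
    have hsym := h1.sym a b (by simp) (by simp)
    constructor
    · intro h
      have hab : Adj S a b := (mem_E H.tri).1 (h1.sub h)
      refine ⟨hab, ?_⟩
      have h2 := (hσ a b hab).2 (Or.inl h)
      rw [Finset.mem_filter, Finset.mem_filter]
      simp only [hab.mem.1, hab.mem.2, true_and]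
      generalize σ a = u at h2 ⊢
      generalize σ b = v at h2 ⊢
      revert u v
      decide
    · rintro ⟨hab, h⟩
      have h2 : σ a ≠ σ b := by
        rw [Finset.mem_filter, Finset.mem_filter] at h
        simp only [hab.mem.1, hab.mem.2, true_and] at h
        generalize σ a = u at h ⊢
        generalize σ b = v at h ⊢
        revert u v
        decide
      rcases (hσ a b hab).1 h2 with h3 | h3
      · exact h3
      · exact hsym.2 h3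
  unfold X0Bx683.flip
  rw [← e, symmDiff_symmDiff_cancel_left]

/-- the same for `tj` -/
theorem exists_flip' (H : HNet S N) (hJ : J ∈ N.tj t) (hJ' : J' ∈ N.tj t) :
    ∃ τ : Finset ℂ, τ ⊆ S ∧ J' = flp N.toTrg J τ :=
  exists_flip H (JCardx872.mem_joins.1 hJ) (JCardx872.mem_joins.1 hJ')

/-- an event which only looks at the edges inside the disc `W` does not depend on the outside -/
theorem pr_indep_out (H : HNet S N) {P : Finset (ℂ × ℂ) → Prop} {ρ : ℝ}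
    (hP : ∀ K K', Agr (Dsc z0 ρ)ᶜ K K' → (P K ↔ P K'))
    (hJ : IsJoin N.toTrg N.kl O N.exS J) (hJ' : IsJoin N.toTrg N.kl O N.exS J') :
    pr (Fs S z0 ρ) (fun β => P (flp N.toTrg J' β)) =
      pr (Fs S z0 ρ) (fun β => P (flp N.toTrg J β)) := by
  obtain ⟨τ, hτ, rfl⟩ := exists_flip H hJ hJ'
  set τ' := τ.filter fun s => ‖s - z0‖ < ρ with hτ'
  have hsub : τ' ⊆ Fs S z0 ρ := by
    intro s hs
    have := Finset.mem_filter.1 hs
    exact Finset.mem_filter.2 ⟨hτ this.1, this.2⟩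
  rw [← XW1x315.ex_ind, ← XW1x315.ex_ind, ← XW1x315.ex_symm hsub]
  refine XW1x315.ex_congr fun β hβ => ?_
  have e : P (flp N.toTrg (flp N.toTrg J τ) (symmDiff β τ')) ↔ P (flp N.toTrg J β) := by
    rw [J8x872.flip_flip]
    apply hP
    apply agr_flip₂
    intro s hs
    have hs' : ‖s - z0‖ < ρ := not_not.1 hs
    rw [Finset.mem_symmDiff, Finset.mem_symmDiff]
    have h1 : s ∈ τ' ↔ s ∈ τ := by
      rw [hτ', Finset.mem_filter]
      exact ⟨fun h => h.1, fun h => ⟨h, hs'⟩⟩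
    tauto
  simp only [e]

/-- **(L3)** -/
theorem h_indep (H : HNet S N) (f : Fc S N z0 r) (ht : t ∈ f.T) {R' ρ : ℝ} (hρ : ρ ≤ R')
    (hJ : J ∈ N.tj f.s0) (hJ' : J' ∈ N.tj f.s0) : f.h R' ρ J' t = f.h R' ρ J t := by
  rw [h_marg f (le_refl ρ) hρ, h_marg f (le_refl ρ) hρ]
  unfold X0Bx683.Fc.h
  simp only [at_flip]
  exact pr_indep_out H (fun K K' h => HI_congr h)
    (at_isJoin H f ht (JCardx872.mem_joins.1 hJ)) (at_isJoin H f ht (JCardx872.mem_joins.1 hJ'))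

/-- **(L3)** -/
theorem g_indep (H : HNet S N) (f : Fc S N z0 r) (ht : t ∈ f.T) {R' ρ δ : ℝ} (hρ : ρ ≤ R')
    (hJ : J ∈ N.tj f.s0) (hJ' : J' ∈ N.tj f.s0) : f.g R' ρ δ J' t = f.g R' ρ δ J t := by
  rw [g_marg f (le_refl ρ) hρ, g_marg f (le_refl ρ) hρ]
  unfold X0Bx683.Fc.g
  simp only [at_flip]
  exact pr_indep_out H (fun K K' h => GI_congr h)
    (at_isJoin H f ht (JCardx872.mem_joins.1 hJ)) (at_isJoin H f ht (JCardx872.mem_joins.1 hJ'))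

/-- the outer events do not depend on the colours inside -/
theorem HO_pr {s0 : ℂ × ℂ × ℂ} {ρ : ℝ} (V : Finset ℂ) (hV : ∀ s ∈ V, ‖s - z0‖ < ρ) :
    pr V (fun β => HO N s0 z0 ρ (flp G J β)) = if HO N s0 z0 ρ J then 1 else 0 := by
  rw [← XW1x315.ex_ind, ← XW1x315.ex_const V (if HO N s0 z0 ρ J then (1 : ℝ) else 0)]
  refine XW1x315.ex_congr fun β hβ => ?_
  have := HO_flip (N := N) (s0 := s0) (G := G) (J := J) (β := β) (fun s hs => hV s (hβ hs))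
  simp only [this]

/-! ### averages over the joins -/

section avg

variable {R R1 d b0 C4 : ℝ}

/-- events at the face `t` as averages over the joins with the odd triangle `s0` -/
theorem card_avg (hw : World S N z0 R R1 d b0 C4) (f : Fc S N z0 r) (ht : t ∈ f.T) {ρ : ℝ}
    (hρ : ρ ≤ R) (P : Finset (ℂ × ℂ) → Prop) :
    (((N.tj t).filter P).card : ℝ) =
      ∑ J ∈ N.tj f.s0, pr (Fs S z0 ρ) (fun β => P (f.at' (flp N.toTrg J β) t)) := by
  rw [Finset.card_filter]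
  push_cast
  rw [sum_at hw.hnet f ht, sum_tj hw.hnet (free_world hw hρ)]
  refine Finset.sum_congr rfl fun J _ => ?_
  exact XW1x315.ex_ind _

theorem cntK_avg (hw : World S N z0 R R1 d b0 C4) (f : Fc S N z0 r) (ht : t ∈ f.T) {ρ : ℝ}
    (hρ : ρ ≤ R) (k : ℤ) :
    (N.cntK t (f.pt t) (f.lf t) (f.a0 t) k : ℝ) = ∑ J ∈ N.tj f.s0, f.XK ρ J t k :=
  card_avg hw f ht hρ _

theorem tri_avg (hw : World S N z0 R R1 d b0 C4) (f : Fc S N z0 r) (ht : t ∈ f.T) {ρ : ℝ}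
    (hρ : ρ ≤ R) :
    (((N.tj t).filter fun J => ∃ k, N.Tri3 t k J).card : ℝ) = ∑ J ∈ N.tj f.s0, f.X1 ρ J t := by
  have h := card_avg hw f ht hρ (fun J => ∃ k, N.Tri3 t k J)
  have e : ∀ J, f.X1 ρ J t =
      pr (Fs S z0 ρ) (fun β => ∃ k, N.Tri3 t k (f.at' (flp N.toTrg J β) t)) := fun J => rfl
  simp only [e]
  rw [← h]
  congr 2
  ext J
  simp only [Finset.mem_filter]

/-- **the winding polynomial as an average of `XK`** -/
theorem X_avg (hw : World S N z0 R R1 d b0 C4) (f : Fc S N z0 r) (ht : t ∈ f.T) {ρ : ℝ}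
    (hρ : ρ ≤ R) (z : ℂ) :
    N.X t (f.pt t) (f.lf t) (f.a0 t) z =
      (∑ᶠ k : ℤ, ((∑ J ∈ N.tj f.s0, f.XK ρ J t k : ℝ) : ℂ) * z ^ k) /
        ((N.tj f.s0).card : ℂ) := by
  have e : ∀ k : ℤ, ((N.cntK t (f.pt t) (f.lf t) (f.a0 t) k : ℕ) : ℂ) * z ^ k =
      ((∑ J ∈ N.tj f.s0, f.XK ρ J t k : ℝ) : ℂ) * z ^ k := by
    intro k
    rw [← cntK_avg hw f ht hρ k, Complex.ofReal_natCast]
  unfold Net.X
  rw [card_at hw.hnet f ht, finsum_congr e]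

theorem XK_nonneg (f : Fc S N z0 r) (ρ : ℝ) (J : Finset (ℂ × ℂ)) (k : ℤ) : 0 ≤ f.XK ρ J t k := by
  unfold X0Bx683.Fc.XK
  rw [← XW1x315.ex_ind]
  exact XW1x315.ex_nonneg fun β _ => by split_ifs <;> norm_num

theorem XK_fin (f : Fc S N z0 r) (ht : t ∈ f.T) (ρ : ℝ) (J : Finset (ℂ × ℂ)) :
    (Function.support (f.XK ρ J t)).Finite := by
  have h1 : (⋃ β ∈ (Fs S z0 ρ).powerset,
      {k : ℤ | N.TriK t (f.pt t) (f.lf t) (f.a0 t) k (f.at' (flp N.toTrg J β) t)}).Finite := by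
    refine Set.Finite.biUnion (Finset.finite_toSet _) fun β _ => ?_
    refine Set.Subsingleton.finite fun k hk k' hk' => ?_
    exact triK_unique (f.lift t ht) hk hk'
  refine h1.subset fun k hk => ?_
  rw [Function.mem_support] at hk
  by_contra hcon
  apply hk
  have h2 : ∀ β, β ⊆ Fs S z0 ρ →
      ¬ N.TriK t (f.pt t) (f.lf t) (f.a0 t) k (f.at' (flp N.toTrg J β) t) := by
    intro β hβ h3
    apply hcon
    rw [Set.mem_iUnion₂]
    exact ⟨β, Finset.mem_powerset.2 hβ, h3⟩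
  unfold X0Bx683.Fc.XK
  rw [← XW1x315.ex_ind]
  exact (XW1x315.ex_congr (g := fun _ => (0 : ℝ)) fun β hβ => if_neg (h2 β hβ)).trans
    (XW1x315.ex_const _ _)

/-- the total value is the probability of three legs -/
theorem X1_eq (hw : World S N z0 R R1 d b0 C4) (f : Fc S N z0 r) (ht : t ∈ f.T) {ρ : ℝ}
    (hρ : ρ ≤ R) (hJ : J ∈ N.tj f.s0) : ∑ᶠ k, f.XK ρ J t k = f.X1 ρ J t := by
  have H := hw.hnet
  have hx : InO' (f.pt t) t := f.inn t ht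
  have e1 : ∀ k, f.XK ρ J t k = ∑ β ∈ (Fs S z0 ρ).powerset,
      (if N.TriK t (f.pt t) (f.lf t) (f.a0 t) k (f.at' (flp N.toTrg J β) t) then (1 : ℝ) else 0) /
        2 ^ (Fs S z0 ρ).card := by
    intro k
    unfold X0Bx683.Fc.XK
    rw [← XW1x315.ex_ind]
    unfold XW1x315.ex
    rw [Finset.sum_div]
  have hfin : ∀ β ∈ (Fs S z0 ρ).powerset, (Function.support fun k : ℤ =>
      (if N.TriK t (f.pt t) (f.lf t) (f.a0 t) k (f.at' (flp N.toTrg J β) t) then (1 : ℝ) else 0) /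
        2 ^ (Fs S z0 ρ).card).Finite := by
    intro β _
    refine Set.Subsingleton.finite fun k hk k' hk' => ?_
    rw [Function.mem_support] at hk hk'
    have h1 : N.TriK t (f.pt t) (f.lf t) (f.a0 t) k (f.at' (flp N.toTrg J β) t) := by
      by_contra h; exact hk (by rw [if_neg h, zero_div])
    have h2 : N.TriK t (f.pt t) (f.lf t) (f.a0 t) k' (f.at' (flp N.toTrg J β) t) := by
      by_contra h; exact hk' (by rw [if_neg h, zero_div])
    exact triK_unique (f.lift t ht) h1 h2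
  rw [finsum_congr e1, finsum_sum_comm _ _ hfin]
  unfold X0Bx683.Fc.X1
  rw [← XW1x315.ex_ind]
  unfold XW1x315.ex
  rw [Finset.sum_div]
  refine Finset.sum_congr rfl fun β hβ => ?_
  rw [Finset.mem_powerset] at hβ
  have hm : f.at' (flp N.toTrg J β) t ∈ N.tj t :=
    (at_mem H f ht).2 ((flip_mem H ((free_world hw hρ).mono hβ)).2 hJ)
  have hiff := ex_triK_iff H (f.sub t ht) hx (f.lift t ht) (f.dir t ht) hm
  by_cases h : ∃ k, N.TriK t (f.pt t) (f.lf t) (f.a0 t) k (f.at' (flp N.toTrg J β) t)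
  · rw [if_pos (hiff.1 h)]
    obtain ⟨k0, hk0⟩ := h
    rw [finsum_eq_single _ k0]
    · rw [if_pos hk0]
    · intro k hk
      rw [if_neg fun h' => hk (triK_unique (f.lift t ht) h' hk0), zero_div]
  · rw [if_neg fun h' => h (hiff.2 h')]
    push Not at h
    rw [finsum_congr (g := fun _ => (0 : ℝ)) fun k => by rw [if_neg (h k), zero_div], finsum_zero,
      zero_div]

end avg

end Crest.Agent.R143.J9x872
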