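import Mathlib

/-!
# Row 143 (S0194): John-Nirenberg / Garsia for explorations (helper168, after helper779's note 2823 (1))

`F` filtration, `X n` adapted, `Y` a final variable.
* `Fr F μ X Y C` : for every `n` and every `F n`-measurable set `A`,
  `∫_A ‖Y - X n‖² ≤ C μ A` (the frame of the explored net)
* `osc` : `μ (A ∩ {some later X j is at distance > Λ from X n}) ≤ μ A / 2` if `16 C ≤ Λ²`
* `tail` : exponential tail of the oscillation
* `mom4` : fourth moment of the maximal oscillation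
* `stop_ex` : the same at a stopping time given by disjoint sets `B n ∈ F n`
-/

set_option autoImplicit false
set_option linter.unusedSectionVars false

open MeasureTheory Set
open scoped ENNReal

namespace Crest.Agent.R143.JNx168

variable {Ω E : Type*} {mΩ : MeasurableSpace Ω} [NormedAddCommGroup E] [MeasurableSpace E]
  [BorelSpace E] [SecondCountableTopology E]
variable {F : Filtration ℕ mΩ} {μ : Measure Ω} {X : ℕ → Ω → E} {Y : Ω → E} {C Λ m : ℝ}

/-- the conditional energy bound at all times -/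
def Fr (F : Filtration ℕ mΩ) (μ : Measure Ω) (X : ℕ → Ω → E) (Y : Ω → E) (C : ℝ) : Prop :=
  ∀ n : ℕ, ∀ A : Set Ω, MeasurableSet[F n] A →
    ∫⁻ ω in A, ‖Y ω - X n ω‖ₑ ^ 2 ∂μ ≤ ENNReal.ofReal C * μ A

/-- first exit time is `j` (starting at time `n`) -/
def Ex (X : ℕ → Ω → E) (Λ : ℝ) (n j : ℕ) : Set Ω :=
  {ω | n ≤ j ∧ Λ < ‖X j ω - X n ω‖ ∧ ∀ i, n ≤ i → i < j → ‖X i ω - X n ω‖ ≤ Λ}

/-- the oscillation after time `n` exceeds `Λ` -/
def Os (X : ℕ → Ω → E) (Λ : ℝ) (n : ℕ) : Set Ω := {ω | ∃ j, n ≤ j ∧ Λ < ‖X j ω - X n ω‖}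

theorem os_eq (n : ℕ) : Os X Λ n = ⋃ j, Ex X Λ n j := by
  classical
  ext ω
  simp only [Os, Ex, mem_ofPred_eq, mem_iUnion]
  constructor
  · rintro h
    refine ⟨Nat.find h, (Nat.find_spec h).1, (Nat.find_spec h).2, fun i hi hij => ?_⟩
    by_contra hc
    exact Nat.find_min h hij ⟨hi, not_le.1 hc⟩
  · rintro ⟨j, h1, h2, _⟩
    exact ⟨j, h1, h2⟩

theorem ex_disj (n : ℕ) : Pairwise (Function.onFun Disjoint (Ex X Λ n)) := by
  intro i j hij
  rw [Function.onFun, Set.disjoint_left]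
  rintro ω ⟨h1, h2, h3⟩ ⟨h4, h5, h6⟩
  rcases lt_or_gt_of_ne hij with h | h
  · exact absurd (h6 i h1 h) (not_le.2 h2)
  · exact absurd (h3 j h4 h) (not_le.2 h5)

theorem meas_norm_aux {Ω' : Type*} [MeasurableSpace Ω'] {f g : Ω' → E} (hf : Measurable f)
    (hg : Measurable g) : Measurable (fun ω => ‖f ω - g ω‖) := (hf.sub hg).norm

theorem meas_norm (hX : ∀ n, Measurable[F n] (X n)) {i j n : ℕ} (hi : i ≤ n) (hj : j ≤ n) :
    Measurable[F n] (fun ω => ‖X i ω - X j ω‖) := by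
  have h1 : Measurable[F n] (X i) := (hX i).mono (F.mono hi) le_rfl
  have h2 : Measurable[F n] (X j) := (hX j).mono (F.mono hj) le_rfl
  exact @meas_norm_aux _ _ _ _ _ _ (F n) _ _ h1 h2

theorem ex_meas (hX : ∀ n, Measurable[F n] (X n)) (n j : ℕ) (hnj : n ≤ j) :
    MeasurableSet[F j] (Ex X Λ n j) := by
  have e : Ex X Λ n j = {ω | Λ < ‖X j ω - X n ω‖} ∩
      ⋂ i : ℕ, ⋂ (_ : n ≤ i), ⋂ (_ : i < j), {ω | ‖X i ω - X n ω‖ ≤ Λ} := by
    ext ω
    simp only [Ex, mem_ofPred_eq, mem_inter_iff, mem_iInter]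
    constructor
    · rintro ⟨_, h2, h3⟩
      exact ⟨h2, h3⟩
    · rintro ⟨h2, h3⟩
      exact ⟨hnj, h2, h3⟩
  rw [e]
  refine MeasurableSet.inter ?_ ?_
  · exact measurableSet_lt (@measurable_const _ _ _ (F j) Λ) (meas_norm hX le_rfl hnj)
  · refine MeasurableSet.iInter fun i => MeasurableSet.iInter fun hi => MeasurableSet.iInter fun hij => ?_
    exact measurableSet_le (meas_norm hX hij.le hnj) (@measurable_const _ _ _ (F j) Λ)

theorem ex_empty {n j : ℕ} (h : ¬ n ≤ j) : Ex X Λ n j = ∅ := by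
  ext ω
  simp only [Ex, mem_ofPred_eq, mem_empty_iff_false, iff_false]
  rintro ⟨h1, _⟩
  exact h h1

/-- Chebyshev for a fixed set -/
theorem cheb (hfr : Fr F μ X Y C) [IsFiniteMeasure μ] (hX : ∀ n, Measurable[F n] (X n))
    (hY : Measurable Y) (hL : 0 < Λ) (hC : 16 * C ≤ Λ ^ 2) (n : ℕ) (A : Set Ω)
    (hA : MeasurableSet[F n] A) :
    4 * μ (A ∩ {ω | Λ / 2 ≤ ‖Y ω - X n ω‖}) ≤ μ A := by
  have hXm : Measurable (X n) := (hX n).mono (F.le n) le_rfl
  have hAm : MeasurableSet A := F.le n _ hA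
  have hs : MeasurableSet {ω | Λ / 2 ≤ ‖Y ω - X n ω‖} :=
    measurableSet_le measurable_const (hY.sub hXm).norm
  have hm : AEMeasurable (fun ω => ‖Y ω - X n ω‖ₑ ^ 2) (μ.restrict A) :=
    ((hY.sub hXm).enorm.pow_const 2).aemeasurable
  have h1 := mul_meas_ge_le_lintegral₀ hm (ENNReal.ofReal (Λ ^ 2 / 4))
  have h2 := h1.trans (hfr n A hA)
  have h3 : μ (A ∩ {ω | Λ / 2 ≤ ‖Y ω - X n ω‖}) ≤
      (μ.restrict A) {ω | ENNReal.ofReal (Λ ^ 2 / 4) ≤ ‖Y ω - X n ω‖ₑ ^ 2} := by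
    rw [Measure.restrict_apply' hAm, inter_comm]
    apply measure_mono
    apply inter_subset_inter_left
    intro ω hω
    simp only [mem_ofPred_eq] at hω ⊢
    rw [← ofReal_norm, ← ENNReal.ofReal_pow (norm_nonneg _)]
    apply ENNReal.ofReal_le_ofReal
    nlinarith
  have h4 : ENNReal.ofReal (Λ ^ 2 / 16) * (4 * μ (A ∩ {ω | Λ / 2 ≤ ‖Y ω - X n ω‖})) ≤
      ENNReal.ofReal (Λ ^ 2 / 16) * μ A := by
    have e4 : ENNReal.ofReal (Λ ^ 2 / 16) * 4 = ENNReal.ofReal (Λ ^ 2 / 4) := by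
      have : (4 : ℝ≥0∞) = ENNReal.ofReal 4 := by norm_num
      rw [this, ← ENNReal.ofReal_mul (by positivity)]
      congr 1
      ring
    rw [← mul_assoc, e4]
    calc ENNReal.ofReal (Λ ^ 2 / 4) * μ (A ∩ {ω | Λ / 2 ≤ ‖Y ω - X n ω‖})
        ≤ ENNReal.ofReal (Λ ^ 2 / 4) *
          (μ.restrict A) {ω | ENNReal.ofReal (Λ ^ 2 / 4) ≤ ‖Y ω - X n ω‖ₑ ^ 2} := by gcongr
      _ ≤ ENNReal.ofReal C * μ A := h2
      _ ≤ ENNReal.ofReal (Λ ^ 2 / 16) * μ A := by
          gcongr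
          linarith
  refine (ENNReal.mul_le_mul_iff_right ?_ ENNReal.ofReal_ne_top).1 h4
  simp only [ne_eq, ENNReal.ofReal_eq_zero, not_le]
  positivity

/-- the oscillation after time `n` on `F n`-sets -/
theorem osc (hfr : Fr F μ X Y C) [IsFiniteMeasure μ] (hX : ∀ n, Measurable[F n] (X n))
    (hY : Measurable Y) (hL : 0 < Λ) (hC : 16 * C ≤ Λ ^ 2) (n : ℕ) (A : Set Ω)
    (hA : MeasurableSet[F n] A) :
    3 * μ (A ∩ Os X Λ n) ≤ μ A := by
  have hXm : ∀ j, Measurable (X j) := fun j => (hX j).mono (F.le j) le_rfl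
  have hAm : MeasurableSet A := F.le n _ hA
  have hS : ∀ j, MeasurableSet {ω | Λ / 2 ≤ ‖Y ω - X j ω‖} := fun j =>
    measurableSet_le measurable_const (hY.sub (hXm j)).norm
  have hB : ∀ j, n ≤ j → MeasurableSet[F j] (A ∩ Ex X Λ n j) := fun j hj =>
    MeasurableSet.inter (F.mono hj _ hA) (ex_meas hX n j hj)
  have hBm : ∀ j, MeasurableSet (A ∩ Ex X Λ n j) := by
    intro j
    by_cases hj : n ≤ j
    · exact F.le j _ (hB j hj)
    · rw [ex_empty hj, inter_empty]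
      exact MeasurableSet.empty
  have hd : Pairwise (Function.onFun Disjoint fun j => A ∩ Ex X Λ n j) := fun i j hij =>
    (ex_disj n hij).mono inter_subset_right inter_subset_right
  have e1 : μ (A ∩ Os X Λ n) = ∑' j, μ (A ∩ Ex X Λ n j) := by
    rw [os_eq, inter_iUnion, measure_iUnion hd hBm]
  have key : ∀ j, 3 * μ (A ∩ Ex X Λ n j) ≤
      4 * μ ((A ∩ Ex X Λ n j) \ {ω | Λ / 2 ≤ ‖Y ω - X j ω‖}) := by
    intro j
    by_cases hj : n ≤ j
    · have h1 := cheb hfr hX hY hL hC j _ (hB j hj)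
      have h2 := measure_inter_add_sdiff (μ := μ) (A ∩ Ex X Λ n j) (hS j)
      have hf : μ (A ∩ Ex X Λ n j) ≠ ∞ := measure_ne_top μ _
      have h3 : μ (A ∩ Ex X Λ n j) + 3 * μ (A ∩ Ex X Λ n j) ≤
          μ (A ∩ Ex X Λ n j) + 4 * μ ((A ∩ Ex X Λ n j) \ {ω | Λ / 2 ≤ ‖Y ω - X j ω‖}) := by
        calc μ (A ∩ Ex X Λ n j) + 3 * μ (A ∩ Ex X Λ n j) = 4 * μ (A ∩ Ex X Λ n j) := by ring
          _ = 4 * (μ ((A ∩ Ex X Λ n j) ∩ {ω | Λ / 2 ≤ ‖Y ω - X j ω‖}) +
              μ ((A ∩ Ex X Λ n j) \ {ω | Λ / 2 ≤ ‖Y ω - X j ω‖})) := by rw [h2]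
          _ = 4 * μ ((A ∩ Ex X Λ n j) ∩ {ω | Λ / 2 ≤ ‖Y ω - X j ω‖}) +
              4 * μ ((A ∩ Ex X Λ n j) \ {ω | Λ / 2 ≤ ‖Y ω - X j ω‖}) := by ring
          _ ≤ _ := by gcongr
      exact (ENNReal.add_le_add_iff_left hf).1 h3
    · rw [ex_empty hj, inter_empty]
      simp
  have hsub : (⋃ j, (A ∩ Ex X Λ n j) \ {ω | Λ / 2 ≤ ‖Y ω - X j ω‖}) ⊆
      A ∩ {ω | Λ / 2 ≤ ‖Y ω - X n ω‖} := by
    intro ω hω
    obtain ⟨j, ⟨⟨h1, h2⟩, h3⟩⟩ := mem_iUnion.1 hω
    refine ⟨h1, ?_⟩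
    simp only [Ex, mem_ofPred_eq, not_le] at h2 h3 ⊢
    have h4 : ‖X j ω - X n ω‖ ≤ ‖Y ω - X n ω‖ + ‖Y ω - X j ω‖ := by
      have : X j ω - X n ω = (Y ω - X n ω) - (Y ω - X j ω) := by abel
      rw [this]
      exact norm_sub_le _ _
    linarith [h2.2.1]
  have hd' : Pairwise (Function.onFun Disjoint
      fun j => (A ∩ Ex X Λ n j) \ {ω | Λ / 2 ≤ ‖Y ω - X j ω‖}) := fun i j hij =>
    (hd hij).mono sdiff_subset sdiff_subset
  calc 3 * μ (A ∩ Os X Λ n) = ∑' j, 3 * μ (A ∩ Ex X Λ n j) := by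
        rw [e1, ENNReal.tsum_mul_left]
    _ ≤ ∑' j, 4 * μ ((A ∩ Ex X Λ n j) \ {ω | Λ / 2 ≤ ‖Y ω - X j ω‖}) :=
        ENNReal.tsum_le_tsum key
    _ = 4 * μ (⋃ j, (A ∩ Ex X Λ n j) \ {ω | Λ / 2 ≤ ‖Y ω - X j ω‖}) := by
        rw [ENNReal.tsum_mul_left, measure_iUnion hd' fun j => (hBm j).diff (hS j)]
    _ ≤ 4 * μ (A ∩ {ω | Λ / 2 ≤ ‖Y ω - X n ω‖}) := by gcongr
    _ ≤ μ A := cheb hfr hX hY hL hC n A hA

/-- exponential tail of the oscillation after time `n`; jumps are at most `m` -/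
theorem tail (hfr : Fr F μ X Y C) [IsFiniteMeasure μ] (hX : ∀ n, Measurable[F n] (X n))
    (hY : Measurable Y) (hL : 0 < Λ) (hm : 0 ≤ m) (hC : 16 * C ≤ Λ ^ 2)
    (hj : ∀ j ω, ‖X (j + 1) ω - X j ω‖ ≤ m) (k : ℕ) : ∀ (n : ℕ) (A : Set Ω),
    MeasurableSet[F n] A → 3 ^ k * μ (A ∩ Os X (k * (Λ + m)) n) ≤ μ A := by
  induction k with
  | zero =>
    intro n A hA
    simp only [pow_zero, one_mul]
    exact measure_mono inter_subset_left
  | succ k ih =>
    intro n A hA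
    have hXm : ∀ j, Measurable (X j) := fun j => (hX j).mono (F.le j) le_rfl
    have hB : ∀ j, n ≤ j → MeasurableSet[F j] (A ∩ Ex X Λ n j) := fun j hj =>
      MeasurableSet.inter (F.mono hj _ hA) (ex_meas hX n j hj)
    have hBm : ∀ j, MeasurableSet (A ∩ Ex X Λ n j) := by
      intro j
      by_cases hj : n ≤ j
      · exact F.le j _ (hB j hj)
      · rw [ex_empty hj, inter_empty]
        exact MeasurableSet.empty
    have hd : Pairwise (Function.onFun Disjoint fun j => A ∩ Ex X Λ n j) := fun i j hij =>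
      (ex_disj n hij).mono inter_subset_right inter_subset_right
    have e1 : μ (A ∩ Os X Λ n) = ∑' j, μ (A ∩ Ex X Λ n j) := by
      rw [os_eq, inter_iUnion, measure_iUnion hd hBm]
    have hsub : A ∩ Os X ((k + 1 : ℕ) * (Λ + m)) n ⊆
        ⋃ j, (A ∩ Ex X Λ n j) ∩ Os X (k * (Λ + m)) j := by
      rintro ω ⟨hωA, j', hj', hlt⟩
      have hk : Λ ≤ (k + 1 : ℕ) * (Λ + m) := by
        push_cast
        nlinarith [mul_nonneg (Nat.cast_nonneg (α := ℝ) k) (add_nonneg hL.le hm)]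
      have hO : ω ∈ Os X Λ n := ⟨j', hj', lt_of_le_of_lt hk hlt⟩
      rw [os_eq] at hO
      obtain ⟨j, hjω⟩ := mem_iUnion.1 hO
      obtain ⟨h1, h2, h3⟩ := id hjω
      refine mem_iUnion.2 ⟨j, ⟨hωA, hjω⟩, j', ?_, ?_⟩
      · by_contra hc
        exact absurd (h3 j' hj' (not_le.1 hc)) (not_le.2 (lt_of_le_of_lt hk hlt))
      · -- the jump into the exit is small
        have hnj : n < j := by
          rcases h1.lt_or_eq with h | h
          · exact h
          · subst h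
            simp at h2
            linarith
        have h4 : ‖X j ω - X n ω‖ ≤ Λ + m := by
          obtain ⟨i, rfl⟩ : ∃ i, j = i + 1 := ⟨j - 1, by omega⟩
          have h5 := h3 i (by omega) (by omega)
          have h6 := hj i ω
          calc ‖X (i + 1) ω - X n ω‖ = ‖(X i ω - X n ω) + (X (i + 1) ω - X i ω)‖ := by
                congr 1
                abel
            _ ≤ ‖X i ω - X n ω‖ + ‖X (i + 1) ω - X i ω‖ := norm_add_le _ _
            _ ≤ Λ + m := by linarith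
        have h7 : ‖X j' ω - X n ω‖ ≤ ‖X j' ω - X j ω‖ + ‖X j ω - X n ω‖ := by
          have : X j' ω - X n ω = (X j' ω - X j ω) + (X j ω - X n ω) := by abel
          rw [this]
          exact norm_add_le _ _
        push_cast at hlt
        linarith
    calc 3 ^ (k + 1) * μ (A ∩ Os X ((k + 1 : ℕ) * (Λ + m)) n)
        ≤ 3 ^ (k + 1) * ∑' j, μ ((A ∩ Ex X Λ n j) ∩ Os X (k * (Λ + m)) j) := by
          gcongr
          exact (measure_mono hsub).trans (measure_iUnion_le _)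
      _ = 3 * ∑' j, 3 ^ k * μ ((A ∩ Ex X Λ n j) ∩ Os X (k * (Λ + m)) j) := by
          rw [ENNReal.tsum_mul_left]
          ring
      _ ≤ 3 * ∑' j, μ (A ∩ Ex X Λ n j) := by
          gcongr with j
          by_cases hnj : n ≤ j
          · exact ih j _ (hB j hnj)
          · rw [ex_empty hnj, inter_empty, empty_inter]
            simp
      _ = 3 * μ (A ∩ Os X Λ n) := by rw [e1]
      _ ≤ μ A := osc hfr hX hY hL hC n A hA

/-- the same at a stopping time `T` (`B j = A ∩ {T = j}`) -/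
theorem tail_stop (hfr : Fr F μ X Y C) [IsFiniteMeasure μ] (hX : ∀ n, Measurable[F n] (X n))
    (hY : Measurable Y) (hL : 0 < Λ) (hm : 0 ≤ m) (hC : 16 * C ≤ Λ ^ 2)
    (hj : ∀ j ω, ‖X (j + 1) ω - X j ω‖ ≤ m) (k : ℕ) (B : ℕ → Set Ω)
    (hB : ∀ j, MeasurableSet[F j] (B j)) (hd : Pairwise (Function.onFun Disjoint B)) :
    3 ^ k * μ (⋃ j, B j ∩ Os X (k * (Λ + m)) j) ≤ μ (⋃ j, B j) := by
  calc 3 ^ k * μ (⋃ j, B j ∩ Os X (k * (Λ + m)) j)
      ≤ 3 ^ k * ∑' j, μ (B j ∩ Os X (k * (Λ + m)) j) := by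
        gcongr
        exact measure_iUnion_le _
    _ = ∑' j, 3 ^ k * μ (B j ∩ Os X (k * (Λ + m)) j) := by rw [ENNReal.tsum_mul_left]
    _ ≤ ∑' j, μ (B j) := ENNReal.tsum_le_tsum fun j => tail hfr hX hY hL hm hC hj k j _ (hB j)
    _ = μ (⋃ j, B j) := (measure_iUnion hd fun j => F.le j _ (hB j)).symm

theorem pow4_le (k : ℕ) : (k + 1) ^ 4 ≤ 41 * 2 ^ k := by
  rcases lt_or_ge k 5 with h | h
  · interval_cases k <;> norm_num
  · induction k, h using Nat.le_induction with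
    | base => norm_num
    | succ k hk ih =>
      have h1 : (k + 1 + 1) ^ 4 ≤ 2 * (k + 1) ^ 4 := by
        obtain ⟨j, rfl⟩ := Nat.exists_eq_add_of_le hk
        ring_nf
        nlinarith [sq_nonneg j, pow_nonneg (Nat.zero_le j) 3, pow_nonneg (Nat.zero_le j) 4]
      calc (k + 1 + 1) ^ 4 ≤ 2 * (k + 1) ^ 4 := h1
        _ ≤ 2 * (41 * 2 ^ k) := by gcongr
        _ = 41 * 2 ^ (k + 1) := by ring

/-- fourth moment of the maximal oscillation after time `n` on `F n`-sets -/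
theorem mom4 (hfr : Fr F μ X Y C) [IsFiniteMeasure μ] (hX : ∀ n, Measurable[F n] (X n))
    (hY : Measurable Y) (hL : 0 < Λ) (hm : 0 ≤ m) (hC : 16 * C ≤ Λ ^ 2)
    (hj : ∀ j ω, ‖X (j + 1) ω - X j ω‖ ≤ m) (n : ℕ) (A : Set Ω) (hA : MeasurableSet[F n] A) :
    ∫⁻ ω in A, (⨆ j : ℕ, ⨆ _ : n ≤ j, ‖X j ω - X n ω‖ₑ ^ 4) ∂μ ≤
      ENNReal.ofReal (123 * (Λ + m) ^ 4) * μ A := by
  classical
  have hXm : ∀ j, Measurable (X j) := fun j => (hX j).mono (F.le j) le_rfl
  have hAm : MeasurableSet A := F.le n _ hA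
  have hOm : ∀ (a : ℝ), MeasurableSet (Os X a n) := by
    intro a
    have : Os X a n = ⋃ j : ℕ, ⋃ _ : n ≤ j, {ω | a < ‖X j ω - X n ω‖} := by
      ext ω
      simp [Os]
    rw [this]
    exact MeasurableSet.iUnion fun j => MeasurableSet.iUnion fun _ =>
      measurableSet_lt measurable_const ((hXm j).sub (hXm n)).norm
  set L : ℝ := Λ + m with hLdef
  have hLp : 0 < L := by positivity
  have hpt : ∀ ω, (⨆ j : ℕ, ⨆ _ : n ≤ j, ‖X j ω - X n ω‖ₑ ^ 4) ≤
      ∑' k : ℕ, (Os X (k * L) n).indicator (fun _ => ENNReal.ofReal (((k + 1 : ℕ) * L) ^ 4)) ω := by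
    intro ω
    refine iSup_le fun j => iSup_le fun hnj => ?_
    rcases (norm_nonneg (X j ω - X n ω)).eq_or_lt with h0 | h0
    · have : ‖X j ω - X n ω‖ₑ = 0 := by
        rw [← ofReal_norm, ← h0, ENNReal.ofReal_zero]
      rw [this]
      simp
    · set x := ‖X j ω - X n ω‖ with hx
      obtain ⟨k, hk1, hk2⟩ : ∃ k : ℕ, (k : ℝ) * L < x ∧ x ≤ (k + 1 : ℕ) * L := by
        have hc : 0 < ⌈x / L⌉₊ := Nat.ceil_pos.2 (by positivity)
        refine ⟨⌈x / L⌉₊ - 1, ?_, ?_⟩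
        · have h1 : ((⌈x / L⌉₊ - 1 : ℕ) : ℝ) < x / L := by
            by_contra hcon
            have := Nat.ceil_le.2 (not_lt.1 hcon)
            omega
          exact (lt_div_iff₀ hLp).1 h1
        · have h2 : x / L ≤ (⌈x / L⌉₊ : ℝ) := Nat.le_ceil _
          have e : ⌈x / L⌉₊ - 1 + 1 = ⌈x / L⌉₊ := by omega
          rw [e]
          exact (div_le_iff₀ hLp).1 h2
      refine le_trans ?_ (ENNReal.le_tsum k)
      rw [indicator_of_mem (show ω ∈ Os X (k * L) n from ⟨j, hnj, hk1⟩)]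
      rw [← ofReal_norm, ← hx, ← ENNReal.ofReal_pow h0.le]
      apply ENNReal.ofReal_le_ofReal
      gcongr
  calc ∫⁻ ω in A, (⨆ j : ℕ, ⨆ _ : n ≤ j, ‖X j ω - X n ω‖ₑ ^ 4) ∂μ
      ≤ ∫⁻ ω in A, ∑' k : ℕ, (Os X (k * L) n).indicator
          (fun _ => ENNReal.ofReal (((k + 1 : ℕ) * L) ^ 4)) ω ∂μ := lintegral_mono hpt
    _ = ∑' k : ℕ, ∫⁻ ω in A, (Os X (k * L) n).indicator
          (fun _ => ENNReal.ofReal (((k + 1 : ℕ) * L) ^ 4)) ω ∂μ := by
        rw [lintegral_tsum fun k => (measurable_const.indicator (hOm _)).aemeasurable]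
    _ = ∑' k : ℕ, ENNReal.ofReal (((k + 1 : ℕ) * L) ^ 4) * μ (A ∩ Os X (k * L) n) := by
        congr 1
        ext k
        rw [lintegral_indicator_const (hOm _), Measure.restrict_apply (hOm _), inter_comm]
    _ ≤ ∑' k : ℕ, (ENNReal.ofReal (41 * L ^ 4) * μ A) * ENNReal.ofReal ((2 / 3) ^ k) := by
        refine ENNReal.tsum_le_tsum fun k => ?_
        have ht := tail hfr hX hY hL hm hC hj k n A hA
        have h41 : ENNReal.ofReal (((k + 1 : ℕ) * L) ^ 4) ≤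
            ENNReal.ofReal (41 * L ^ 4) * ENNReal.ofReal (2 ^ k) := by
          rw [← ENNReal.ofReal_mul (by positivity)]
          apply ENNReal.ofReal_le_ofReal
          have := pow4_le k
          have h' : ((k + 1 : ℕ) : ℝ) ^ 4 ≤ 41 * 2 ^ k := by exact_mod_cast this
          rw [mul_pow]
          nlinarith [pow_pos hLp 4]
        have e3 : ENNReal.ofReal ((2 / 3) ^ k) * 3 ^ k = ENNReal.ofReal (2 ^ k) := by
          have : (3 : ℝ≥0∞) ^ k = ENNReal.ofReal (3 ^ k) := by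
            rw [ENNReal.ofReal_pow (by norm_num)]
            norm_num
          rw [this, ← ENNReal.ofReal_mul (by positivity), ← mul_pow]
          norm_num
        calc ENNReal.ofReal (((k + 1 : ℕ) * L) ^ 4) * μ (A ∩ Os X (k * L) n)
            ≤ (ENNReal.ofReal (41 * L ^ 4) * ENNReal.ofReal (2 ^ k)) *
              μ (A ∩ Os X (k * L) n) := by gcongr
          _ = ENNReal.ofReal (41 * L ^ 4) * ENNReal.ofReal ((2 / 3) ^ k) *
              (3 ^ k * μ (A ∩ Os X (k * L) n)) := by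
              rw [← e3]
              ring
          _ ≤ ENNReal.ofReal (41 * L ^ 4) * ENNReal.ofReal ((2 / 3) ^ k) * μ A := by
              gcongr
          _ = _ := by ring
    _ = (ENNReal.ofReal (41 * L ^ 4) * μ A) * ENNReal.ofReal 3 := by
        rw [ENNReal.tsum_mul_left]
        congr 1
        rw [← ENNReal.ofReal_tsum_of_nonneg (fun k => by positivity)
          (summable_geometric_of_lt_one (by norm_num) (by norm_num)),
          tsum_geometric_of_lt_one (by norm_num) (by norm_num)]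
        norm_num
    _ = ENNReal.ofReal (123 * L ^ 4) * μ A := by
        rw [mul_right_comm, ← ENNReal.ofReal_mul (by positivity)]
        congr 2
        ring

/-- **Pinch lemma** (note 2823 (2)), abstract form. `B j` : the first pinch time is `j` and the
value of the strand is too big; `K j` : the block closes near the pinch; `Z j` : the extra value. -/
theorem pinch {μ : Measure Ω} [IsFiniteMeasure μ] {B K : ℕ → Set Ω} {Z : ℕ → Ω → E} {G : Set Ω}
    {c t : ℝ} (ht : 0 < t)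
    (hB : ∀ j, MeasurableSet (B j)) (hd : Pairwise (Function.onFun Disjoint B))
    (hKm : ∀ j, MeasurableSet (K j)) (hZm : ∀ j, Measurable (Z j))
    (hK : ∀ j, ENNReal.ofReal c * μ (B j) ≤ μ (B j ∩ K j))
    (hZ : ∀ j, ∫⁻ ω in B j, ‖Z j ω‖ₑ ^ 2 ∂μ ≤ ENNReal.ofReal (c / 2 * t ^ 2) * μ (B j))
    (hG : ∀ j, ∀ ω ∈ B j ∩ K j, ‖Z j ω‖ < t → ω ∈ G) :
    ENNReal.ofReal (c / 2) * μ (⋃ j, B j) ≤ μ G := by
  have hs : ∀ j, MeasurableSet {ω | t ≤ ‖Z j ω‖} := fun j =>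
    measurableSet_le measurable_const (hZm j).norm
  have hch : ∀ j, μ (B j ∩ {ω | t ≤ ‖Z j ω‖}) ≤ ENNReal.ofReal (c / 2) * μ (B j) := by
    intro j
    have hm : AEMeasurable (fun ω => ‖Z j ω‖ₑ ^ 2) (μ.restrict (B j)) :=
      ((hZm j).enorm.pow_const 2).aemeasurable
    have h1 := mul_meas_ge_le_lintegral₀ hm (ENNReal.ofReal (t ^ 2))
    have h2 := h1.trans (hZ j)
    have h3 : μ (B j ∩ {ω | t ≤ ‖Z j ω‖}) ≤
        (μ.restrict (B j)) {ω | ENNReal.ofReal (t ^ 2) ≤ ‖Z j ω‖ₑ ^ 2} := by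
      rw [Measure.restrict_apply' (hB j), inter_comm]
      apply measure_mono
      apply inter_subset_inter_left
      intro ω hω
      simp only [mem_ofPred_eq] at hω ⊢
      rw [← ofReal_norm, ← ENNReal.ofReal_pow (norm_nonneg _)]
      apply ENNReal.ofReal_le_ofReal
      nlinarith
    have h4 : ENNReal.ofReal (t ^ 2) * μ (B j ∩ {ω | t ≤ ‖Z j ω‖}) ≤
        ENNReal.ofReal (t ^ 2) * (ENNReal.ofReal (c / 2) * μ (B j)) := by
      calc ENNReal.ofReal (t ^ 2) * μ (B j ∩ {ω | t ≤ ‖Z j ω‖})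
          ≤ ENNReal.ofReal (t ^ 2) *
            (μ.restrict (B j)) {ω | ENNReal.ofReal (t ^ 2) ≤ ‖Z j ω‖ₑ ^ 2} := by gcongr
        _ ≤ _ := h2
        _ = ENNReal.ofReal (t ^ 2) * (ENNReal.ofReal (c / 2) * μ (B j)) := by
          rw [← mul_assoc, ← ENNReal.ofReal_mul (by positivity), mul_comm (t ^ 2)]
    refine (ENNReal.mul_le_mul_iff_right ?_ ENNReal.ofReal_ne_top).1 h4
    simp only [ne_eq, ENNReal.ofReal_eq_zero, not_le]
    positivity
  have hstep : ∀ j, ENNReal.ofReal (c / 2) * μ (B j) ≤ μ ((B j ∩ K j) \ {ω | t ≤ ‖Z j ω‖}) := by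
    intro j
    have hf : ENNReal.ofReal (c / 2) * μ (B j) ≠ ∞ :=
      ENNReal.mul_ne_top ENNReal.ofReal_ne_top (measure_ne_top μ _)
    have h1 : ENNReal.ofReal (c / 2) * μ (B j) + ENNReal.ofReal (c / 2) * μ (B j) ≤
        ENNReal.ofReal (c / 2) * μ (B j) + μ ((B j ∩ K j) \ {ω | t ≤ ‖Z j ω‖}) := by
      calc ENNReal.ofReal (c / 2) * μ (B j) + ENNReal.ofReal (c / 2) * μ (B j)
          = ENNReal.ofReal c * μ (B j) := by
            rcases le_or_gt 0 c with h | h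
            · rw [← add_mul, ← ENNReal.ofReal_add (by positivity) (by positivity)]
              congr 2
              ring
            · rw [ENNReal.ofReal_of_nonpos h.le, ENNReal.ofReal_of_nonpos (by linarith)]
              simp
        _ ≤ μ (B j ∩ K j) := hK j
        _ = μ ((B j ∩ K j) ∩ {ω | t ≤ ‖Z j ω‖}) + μ ((B j ∩ K j) \ {ω | t ≤ ‖Z j ω‖}) :=
            (measure_inter_add_sdiff _ (hs j)).symm
        _ ≤ μ (B j ∩ {ω | t ≤ ‖Z j ω‖}) + μ ((B j ∩ K j) \ {ω | t ≤ ‖Z j ω‖}) := by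
            gcongr
            exact inter_subset_left
        _ ≤ _ := by
            gcongr
            exact hch j
    exact (ENNReal.add_le_add_iff_left hf).1 h1
  have hsub : (⋃ j, (B j ∩ K j) \ {ω | t ≤ ‖Z j ω‖}) ⊆ G := by
    intro ω hω
    obtain ⟨j, h1, h2⟩ := mem_iUnion.1 hω
    exact hG j ω h1 (not_le.1 h2)
  have hd' : Pairwise (Function.onFun Disjoint fun j => (B j ∩ K j) \ {ω | t ≤ ‖Z j ω‖}) :=
    fun i j hij => (hd hij).mono (sdiff_subset.trans inter_subset_left)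
      (sdiff_subset.trans inter_subset_left)
  calc ENNReal.ofReal (c / 2) * μ (⋃ j, B j) = ∑' j, ENNReal.ofReal (c / 2) * μ (B j) := by
        rw [measure_iUnion hd hB, ENNReal.tsum_mul_left]
    _ ≤ ∑' j, μ ((B j ∩ K j) \ {ω | t ≤ ‖Z j ω‖}) := ENNReal.tsum_le_tsum hstep
    _ = μ (⋃ j, (B j ∩ K j) \ {ω | t ≤ ‖Z j ω‖}) :=
        (measure_iUnion hd' fun j => ((hB j).inter (hKm j)).diff (hs j)).symm
    _ ≤ μ G := measure_mono hsub

end Crest.Agent.R143.JNx168
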