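import Crest.Agent.R143.LdC_715

/-!
# Row 143 (S0194), block H, H5: three windows ⟹ the periodic data (helper715)

* `ex3 f n k = f (k % 3) + n (k / 3)` : periodic extension of three numbers; `t_ex` : gate times
* **`jn_ex`** : starts in three windows, three tiles ⟹ `Jn`
* **`cor_ex`** : marks near the corners
-/

set_option autoImplicit false
set_option linter.unusedSectionVars false

noncomputable section

open scoped Classical

namespace Crest.Agent.R143.JnEx715

open Crest.Agent.R143.Frame1x395 Crest.Agent.R143.Frame2x395 Crest.Agent.R143.NonXx592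
  Crest.Agent.R143.HullKx715 Crest.Agent.R143.RingTx715 Crest.Agent.R143.RingUx715
  Crest.Agent.R143.LdCx715

/-- periodic extension of three numbers -/
def ex3 (f : ℕ → ℕ) (n k : ℕ) : ℕ := f (k % 3) + n * (k / 3)

theorem ex_add (f : ℕ → ℕ) (n k : ℕ) : ex3 f n (k + 3) = ex3 f n k + n := by
  unfold ex3
  rw [show (k + 3) % 3 = k % 3 by omega, show (k + 3) / 3 = k / 3 + 1 by omega, Nat.mul_add,
    Nat.mul_one, Nat.add_assoc]

theorem ex_lt (f : ℕ → ℕ) (n : ℕ) {k : ℕ} (h : k < 3) : ex3 f n k = f k := by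
  unfold ex3
  rw [Nat.mod_eq_of_lt h, Nat.div_eq_of_lt h, Nat.mul_zero, Nat.add_zero]

variable {D C : Type} {M : CMap D C} {x : D → ZMod 2} {p : D} {N n : ℕ} {T : ℕ → ℕ}
  {Reg : ℕ → Set C} {m a b j : ℕ → ℕ} {K o s : ℕ}

theorem t_mul (R : TL M x p N n T Reg) (k i : ℕ) : T (k + n * i) = T k + N * i := by
  induction i with
  | zero => rfl
  | succ i ih =>
    rw [Nat.mul_succ, ← Nat.add_assoc, R.per, ih, Nat.mul_succ, Nat.add_assoc]

theorem t_ex (R : TL M x p N n T Reg) (f : ℕ → ℕ) (k : ℕ) :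
    T (ex3 f n k) = T (f (k % 3)) + N * (k / 3) := t_mul R _ _

/-- three windows and three tiles -/
structure W3 (n : ℕ) (T : ℕ → ℕ) (m a b j : ℕ → ℕ) : Prop where
  ma : ∀ k < 3, T (a k) ≤ m k
  mb : ∀ k < 3, m k ≤ T (b k)
  bj : ∀ k < 3, b k + 2 ≤ j k
  j0 : j 0 + 1 ≤ a 1
  j1 : j 1 + 1 ≤ a 2
  j2 : j 2 + 1 ≤ a 0 + n

/-- **the periodic data** -/
theorem jn_ex (R : TL M x p N n T Reg) (H : W3 n T m a b j) :
    Jn N n T (ex3 m N) (ex3 a n) (ex3 b n) (ex3 j n) where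
  mN := ex_add m N
  aN := ex_add a n
  ma k := by
    rw [t_ex R]
    exact Nat.add_le_add_right (H.ma _ (Nat.mod_lt _ (by omega))) _
  mb k := by
    rw [t_ex R]
    exact Nat.add_le_add_right (H.mb _ (Nat.mod_lt _ (by omega))) _
  bj k := by
    have h1 := H.bj (k % 3) (Nat.mod_lt _ (by omega))
    unfold ex3
    omega
  ja k := by
    have h0 := H.j0
    have h1 := H.j1
    have h2 := H.j2
    have h3 : k % 3 < 3 := Nat.mod_lt _ (by omega)
    unfold ex3
    rcases (show k % 3 = 0 ∨ k % 3 = 1 ∨ k % 3 = 2 by omega) with h | h | h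
    · rw [h, show (k + 1) % 3 = 1 by omega, show (k + 1) / 3 = k / 3 by omega]
      omega
    · rw [h, show (k + 1) % 3 = 2 by omega, show (k + 1) / 3 = k / 3 by omega]
      omega
    · rw [h, show (k + 1) % 3 = 0 by omega, show (k + 1) / 3 = k / 3 + 1 by omega, Nat.mul_add,
        Nat.mul_one]
      omega

/-- the three marks are near the corners -/
theorem cor_ex (ho : s ≤ o) (hs : 2 * s < K) (j0 : o + 1 ≤ j 0 + s) (j0' : j 0 + 1 ≤ o + s)
    (j1 : o + K + 1 ≤ j 1 + s) (j1' : j 1 + 1 ≤ o + K + s)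
    (j2 : o + 2 * K + 1 ≤ j 2 + s) (j2' : j 2 + 1 ≤ o + 2 * K + s) :
    Cor K o s (fun k => ex3 j n k - 1) (ex3 j n) := by
  have e0 : ex3 j n 0 = j 0 := ex_lt j n (by omega)
  have e1 : ex3 j n 1 = j 1 := ex_lt j n (by omega)
  have e2 : ex3 j n 2 = j 2 := ex_lt j n (by omega)
  refine ⟨ho, hs, ?_, ?_, ?_, ?_, ?_, ?_⟩ <;> simp only [e0, e1, e2] <;> omega

end Crest.Agent.R143.JnEx715
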