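import Crest.Agent.R143.NetU_346
import Crest.Agent.R143.K33R_877

/-!
# Row 143 (S0194), CONT / RIG: the joining lemma (helper848)

`B` three classes (territories of the walls off `V ∪ L`), `L 0, L 1, L 2` labels of a thin layer
around the free sites `V`. If every `L j` is connected and has a site adjacent to a site of `B j`
(a CONTACT) then `jn B L j = B j ∪ L j` are three classes again; the free sites lose the layer.

* `Lay S B L` : the layer; `g3`, `tr` : `G3` / `Tr` for `jn B L`; `fr_jn`, `ff_jn`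
* `lk` : links: chain in the layer, contact, chain in `B j`
* `con_of_roots` : the layer is given by chains to connected roots
* **`LayK`, `jnK`, `clsK`, `famK`, `trK`, `fr_jnK`, `fr_jnK'`** : the same for a layer of pieces
  `L k` with labels `l k` (583's form): every site of `L k` is joined inside `L k` to a site next to
  `B (l k)`
-/

set_option autoImplicit false

noncomputable section

open scoped Classical

namespace Crest.Agent.R143.Joinx848

open Crest.Agent.R143.B0x346 Crest.Agent.R143.DelGx806 Crest.Agent.R143.DelRx806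
open Crest.Agent.R143.JColx54 (Adj)
open Crest.Agent.R143.RE0x723 (Pth)
open Crest.Agent.R143.K33x877 (Clu Hit fr Tr Cls Fam fam_hull)
open Crest.Agent.R143.NetUx346 (G3 ff mem_ff)

variable {S : Finset ℂ} {A B L : ZMod 3 → Set ℂ}

/-- joined classes -/
def jn (B L : ZMod 3 → Set ℂ) (i : ZMod 3) : Set ℂ := B i ∪ L i

/-- the layer -/
structure Lay (S : Finset ℂ) (B L : ZMod 3 → Set ℂ) : Prop where
  sub : ∀ i, L i ⊆ (S : Set ℂ)
  disj : ∀ i j, i ≠ j → Disjoint (L i) (L j)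
  off : ∀ i j, Disjoint (L i) (B j)
  con : ∀ i, ∀ x ∈ L i, ∀ y ∈ L i, Pth S (L i) x y
  /-- contacts -/
  cnt : ∀ i, ∃ a ∈ L i, ∃ b ∈ B i, Adj S a b

theorem sub_jn (i : ZMod 3) : B i ⊆ jn B L i := fun _ h => Or.inl h

theorem lay_jn (i : ZMod 3) : L i ⊆ jn B L i := fun _ h => Or.inr h

/-- **classes stay classes** -/
theorem g3 (h : G3 S B) (l : Lay S B L) : G3 S (jn B L) where
  gp := h.gp
  sub := fun i x hx => hx.elim (fun h' => h.sub i h') (fun h' => l.sub i h')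
  disj := by
    intro i j hij
    rw [Set.disjoint_left]
    rintro x (h1 | h1) (h2 | h2)
    · exact Set.disjoint_left.1 (h.disj i j hij) h1 h2
    · exact Set.disjoint_left.1 (l.off j i) h2 h1
    · exact Set.disjoint_left.1 (l.off i j) h1 h2
    · exact Set.disjoint_left.1 (l.disj i j hij) h1 h2
  con := by
    intro i
    obtain ⟨a, ha, b, hb, hab⟩ := l.cnt i
    have hB : ∀ x ∈ B i, Pth S (jn B L i) x b := fun x hx =>
      (h.con i x hx b hb).mono (sub_jn i)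
    have hL : ∀ x ∈ L i, Pth S (jn B L i) x b := fun x hx =>
      ((l.con i x hx a ha).mono (lay_jn i)).tail hab (Or.inl hb)
    have hall : ∀ x ∈ jn B L i, Pth S (jn B L i) x b := fun x hx => hx.elim (hB x) (hL x)
    exact fun x hx y hy => (hall x hx).trans (hall y hy).symm

theorem g3_of_tr (h : Tr S A) : G3 S A := ⟨h.gp, h.sub, h.disj, h.con⟩

theorem cls (h : Cls S B) (l : Lay S B L) : Cls S (jn B L) :=
  let g := g3 ⟨h.gp, h.sub, h.disj, h.con⟩ l
  ⟨g.gp, g.sub, g.disj, g.con⟩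

/-- **any family** (`fam_hull` : `Tr`; `fam_root` : root face) -/
theorem fam {P : (ZMod 3 → Set ℂ) → Prop} {O : Set (ℂ × ℂ × ℂ)} (F : Fam S P O) (h : P B)
    (l : Lay S B L) : P (jn B L) :=
  F.up B _ h sub_jn (cls (F.cls B h) l)

/-- **with hull arcs** -/
theorem tr (h : Tr S B) (l : Lay S B L) : Tr S (jn B L) := fam (fam_hull S) h l

/-- the free sites -/
theorem fr_jn : fr S (jn B L) = {v | v ∈ fr S B ∧ ∀ i, v ∉ L i} := by
  ext v
  constructor
  · rintro ⟨h1, h2⟩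
    exact ⟨⟨h1, fun i h => h2 i (Or.inl h)⟩, fun i h => h2 i (Or.inr h)⟩
  · rintro ⟨⟨h1, h2⟩, h3⟩
    exact ⟨h1, fun i h => h.elim (h2 i) (h3 i)⟩

/-- the layer and `V` are the free sites of `B` -/
theorem fr_jn' {V : Set ℂ} (h : fr S B = V ∪ ⋃ i, L i) (hV : ∀ i, Disjoint V (L i)) :
    fr S (jn B L) = V := by
  rw [fr_jn, h]
  ext v
  simp only [Set.mem_ofPred_eq, Set.mem_union, Set.mem_iUnion]
  constructor
  · rintro ⟨h1 | ⟨i, h1⟩, h2⟩
    · exact h1
    · exact absurd h1 (h2 i)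
  · intro h1
    exact ⟨Or.inl h1, fun i h2 => Set.disjoint_left.1 (hV i) h1 h2⟩

/-- **links**: chain in the layer, contact, chain in `B i` -/
theorem lk {i : ZMod 3} {x a b y : ℂ} {P : Set ℂ} (h1 : Pth S (L i ∩ P) x a) (hab : Adj S a b)
    (h2 : Pth S (B i ∩ P) b y) : Pth S (jn B L i ∩ P) x y := by
  have e1 : Pth S (jn B L i ∩ P) x a := h1.mono fun z hz => ⟨Or.inr hz.1, hz.2⟩
  have e2 : Pth S (jn B L i ∩ P) b y := h2.mono fun z hz => ⟨Or.inl hz.1, hz.2⟩
  exact (e1.tail hab e2.1).trans e2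

/-- the classes of the layer are connected if their sites are joined to connected roots -/
theorem con_of_roots {i : ZMod 3} {R : Set ℂ} (hR : R ⊆ L i) (hc : ∀ x ∈ R, ∀ y ∈ R, Pth S R x y)
    (h : ∀ x ∈ L i, ∃ y ∈ R, Pth S (L i) x y) : ∀ x ∈ L i, ∀ y ∈ L i, Pth S (L i) x y := by
  intro x hx y hy
  obtain ⟨x', hx', h1⟩ := h x hx
  obtain ⟨y', hy', h2⟩ := h y hy
  exact (h1.trans ((hc x' hx' y' hy').mono hR)).trans h2.symm

/-! ### pieces -/

variable {K : Type*} {P : K → Set ℂ} {l : K → ZMod 3}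

/-- joined classes: pieces `P k` with labels `l k` -/
def jnK (B : ZMod 3 → Set ℂ) (P : K → Set ℂ) (l : K → ZMod 3) (i : ZMod 3) : Set ℂ :=
  {x | x ∈ B i ∨ ∃ k, l k = i ∧ x ∈ P k}

/-- **a layer of pieces** (several pieces may have the same label and overlap) -/
structure LayK (S : Finset ℂ) (B : ZMod 3 → Set ℂ) (P : K → Set ℂ) (l : K → ZMod 3) : Prop where
  sub : ∀ k, P k ⊆ (S : Set ℂ)
  disj : ∀ k k', l k ≠ l k' → Disjoint (P k) (P k')
  off : ∀ k i, Disjoint (P k) (B i)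
  /-- every site is joined inside its piece to a contact -/
  cnt : ∀ k, ∀ x ∈ P k, ∃ a b, Pth S (P k) x a ∧ Adj S a b ∧ b ∈ B (l k)

/-- connected pieces with one contact -/
theorem LayK.of_con (sub : ∀ k, P k ⊆ (S : Set ℂ))
    (disj : ∀ k k', l k ≠ l k' → Disjoint (P k) (P k')) (off : ∀ k i, Disjoint (P k) (B i))
    (con : ∀ k, ∀ x ∈ P k, ∀ y ∈ P k, Pth S (P k) x y)
    (cnt : ∀ k, (P k).Nonempty → ∃ a ∈ P k, ∃ b ∈ B (l k), Adj S a b) : LayK S B P l := by
  refine ⟨sub, disj, off, fun k x hx => ?_⟩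
  obtain ⟨a, ha, b, hb, hab⟩ := cnt k ⟨x, hx⟩
  exact ⟨a, b, con k x hx a ha, hab, hb⟩

theorem sub_jnK (i : ZMod 3) : B i ⊆ jnK B P l i := fun _ h => Or.inl h

theorem piece_jnK (k : K) : P k ⊆ jnK B P l (l k) := fun _ h => Or.inr ⟨k, rfl, h⟩

theorem clsK (h : Cls S B) (y : LayK S B P l) : Cls S (jnK B P l) where
  gp := h.gp
  sub := fun i x hx => hx.elim (fun h' => h.sub i h') (fun ⟨k, _, h'⟩ => y.sub k h')
  disj := by
    intro i j hij
    rw [Set.disjoint_left]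
    rintro x (h1 | ⟨k, rfl, h1⟩) (h2 | ⟨k', rfl, h2⟩)
    · exact Set.disjoint_left.1 (h.disj i j hij) h1 h2
    · exact Set.disjoint_left.1 (y.off k' i) h2 h1
    · exact Set.disjoint_left.1 (y.off k j) h1 h2
    · exact Set.disjoint_left.1 (y.disj k k' hij) h1 h2
  con := by
    have hall : ∀ i, ∀ x ∈ jnK B P l i, ∃ b ∈ B i, Pth S (jnK B P l i) x b := by
      rintro i x (h1 | ⟨k, rfl, h1⟩)
      · exact ⟨x, h1, Pth.refl (Or.inl h1)⟩
      · obtain ⟨a, b, h2, h3, h4⟩ := y.cnt k x h1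
        exact ⟨b, h4, (h2.mono (piece_jnK k)).tail h3 (Or.inl h4)⟩
    intro i x hx x' hx'
    obtain ⟨b, hb, h1⟩ := hall i x hx
    obtain ⟨b', hb', h2⟩ := hall i x' hx'
    exact (h1.trans ((h.con i b hb b' hb').mono (sub_jnK i))).trans h2.symm

/-- **any family** -/
theorem famK {Q : (ZMod 3 → Set ℂ) → Prop} {O : Set (ℂ × ℂ × ℂ)} (F : Fam S Q O) (h : Q B)
    (y : LayK S B P l) : Q (jnK B P l) :=
  F.up B _ h sub_jnK (clsK (F.cls B h) y)

/-- **with hull arcs** -/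
theorem trK (h : Tr S B) (y : LayK S B P l) : Tr S (jnK B P l) := famK (fam_hull S) h y

theorem fr_jnK : fr S (jnK B P l) = {v | v ∈ fr S B ∧ ∀ k, v ∉ P k} := by
  ext v
  constructor
  · rintro ⟨h1, h2⟩
    exact ⟨⟨h1, fun i h => h2 i (Or.inl h)⟩, fun k h => h2 (l k) (Or.inr ⟨k, rfl, h⟩)⟩
  · rintro ⟨⟨h1, h2⟩, h3⟩
    exact ⟨h1, fun i h => h.elim (h2 i) (fun ⟨k, _, h'⟩ => h3 k h')⟩

/-- the pieces and `V` are the free sites of `B` -/
theorem fr_jnK' {V : Set ℂ} (h : fr S B = V ∪ ⋃ k, P k) (hV : ∀ k, Disjoint V (P k)) :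
    fr S (jnK B P l) = V := by
  rw [fr_jnK, h]
  ext v
  simp only [Set.mem_ofPred_eq, Set.mem_union, Set.mem_iUnion]
  constructor
  · rintro ⟨h1 | ⟨i, h1⟩, h2⟩
    · exact h1
    · exact absurd h1 (h2 i)
  · intro h1
    exact ⟨Or.inl h1, fun i h2 => Set.disjoint_left.1 (hV i) h1 h2⟩

/-- **links**: chain in the piece, contact, chain in `B` -/
theorem lkK {k : K} {x a b y : ℂ} {Q : Set ℂ} (h1 : Pth S (P k ∩ Q) x a) (hab : Adj S a b)
    (h2 : Pth S (B (l k) ∩ Q) b y) : Pth S (jnK B P l (l k) ∩ Q) x y := by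
  have e1 : Pth S (jnK B P l (l k) ∩ Q) x a := h1.mono fun z hz => ⟨piece_jnK k hz.1, hz.2⟩
  have e2 : Pth S (jnK B P l (l k) ∩ Q) b y := h2.mono fun z hz => ⟨Or.inl hz.1, hz.2⟩
  exact (e1.tail hab e2.1).trans e2

end Crest.Agent.R143.Joinx848
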