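import Crest.Agent.R143.Kin_43

/-!
# Row 143 (S0194), block H, H5 (b): the junction lemma with the start in the middle of an arc
(helper43; after helper565's objection to the closing junction)

The walk starts in the middle of the arc of class 2; `t₀ < t₁ < t₂ < N` are the three marks.
* classes of the touched cells (labels of helper828): `Cj 0 = Tch t₁ \ Tch t₀`,
  `Cj 1 = Tch t₂ \ Tch t₁`, `Cj 2 = Tch t₀ ∪ (Tch t₂)ᶜ`
* `Ring3` : the data; `a_i` = one unit after `t_i`; outer arcs `[a₁, N + t₀]`, `[a₂, N + t₁]`,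
  `[a₀, t₂]`
* `Ring3.two` : **for every colouring at least two of the three patterns are joined**
* `Ring3.arc`, `Ring3.oa` : the outer arc of the inverted colouring has the same states; 355's `Oa`
* `Blk.kin`, `Ring3.kin` : a free connected set next to the three classes is next to cells of the
  block only (`Blk`, `Fs` only: no confinement, so it applies to helper565's `Ring3` as well)
* `Blk.kg` : the cells of the block in `Cj k` are its cells at the gap times in `(s_k, s_(k+1)]`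
  (cyclic), `s_k` = first gap of the block after `t_k`
-/

set_option autoImplicit false
set_option linter.unusedSectionVars false

noncomputable section

open scoped Classical

namespace Crest.Agent.R143.Jun2x43

open Crest.Agent.R143.Frame1x395 Crest.Agent.R143.Frame2x395 Crest.Agent.R143.Frame3x395
  Crest.Agent.R143.Frame8x395 Crest.Agent.R143.Frame9x395 Crest.Agent.R143.Frame11x395
  Crest.Agent.R143.NonXx592 Crest.Agent.R143.Chordx355 Crest.Agent.R143.ChordCx357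
  Crest.Agent.R143.Chord2x355 Crest.Agent.R143.Junx43

variable {D C : Type} {M : CMap D C}

/-- the classes of the touched cells -/
def Cj (M : CMap D C) (x : D → ZMod 2) (p : D) (t₀ t₁ t₂ : ℕ) (j : Fin 3) : Set C :=
  if j = 0 then Tch M x p t₁ \ Tch M x p t₀ else if j = 1 then Tch M x p t₂ \ Tch M x p t₁
  else {c | c ∈ Tch M x p t₂ → c ∈ Tch M x p t₀}

/-- start of the outer arc of the pattern `j` -/
def ast (a₀ a₁ a₂ : ℕ) (j : Fin 3) : ℕ := if j = 0 then a₁ else if j = 1 then a₂ else a₀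

/-- number of steps of the outer arc of the pattern `j` -/
def aln (N t₀ t₁ t₂ a₀ a₁ a₂ : ℕ) (j : Fin 3) : ℕ :=
  if j = 0 then N + t₀ - a₁ else if j = 1 then N + t₁ - a₂ else t₂ - a₀

/-- `χ'` is `χ` with the touched cells in `Cj j` inverted -/
def Fl (M : CMap D C) (χ : C → ZMod 2) (p : D) (t₀ t₁ t₂ : ℕ) (j : Fin 3) (χ' : C → ZMod 2) :
    Prop :=
  ∀ u, (χ' (lc M (cfg M χ) p u) = χ (lc M (cfg M χ) p u) +
      if lc M (cfg M χ) p u ∈ Cj M (cfg M χ) p t₀ t₁ t₂ j then 1 else 0) ∧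
    (χ' (rc M (cfg M χ) p u) = χ (rc M (cfg M χ) p u) +
      if rc M (cfg M χ) p u ∈ Cj M (cfg M χ) p t₀ t₁ t₂ j then 1 else 0)

/-- loop with the gap times `S` of one block -/
structure Blk (M : CMap D C) (χ : C → ZMod 2) (p : D) (N : ℕ) (S : Set ℕ) : Prop where
  lp : Lp M (cfg M χ) p N
  sN : ∀ s ∈ S, s < N
  sep : ∀ s ∈ S, ∀ s' ∈ S, s < s' → Sep (lc M (cfg M χ) p) N s s'
  nxt : ∀ s ∈ S, ∃ s' ∈ S, lc M (cfg M χ) p s' = lc M (cfg M χ) p (s + 1)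
  prv : ∀ s ∈ S, ∃ s' ∈ S, lc M (cfg M χ) p (s' + 1) = lc M (cfg M χ) p s

/-- marks -/
structure Mks (N t₀ t₁ t₂ a₀ a₁ a₂ : ℕ) (S : Set ℕ) : Prop where
  e0 : ∃ s ∈ S, s < t₀
  e1 : ∃ s ∈ S, t₀ ≤ s ∧ s < t₁
  e2 : ∃ s ∈ S, t₁ ≤ s ∧ s < t₂
  e3 : ∃ s ∈ S, t₂ ≤ s
  h0 : t₀ ≤ a₀
  h1 : a₀ ≤ t₁
  h2 : t₁ ≤ a₁
  h3 : a₁ ≤ t₂
  h4 : t₂ ≤ a₂
  h5 : a₂ ≤ N

/-- the marked ring loop -/
structure Ring3 (M : CMap D C) (χ : C → ZMod 2) (p : D) (N t₀ t₁ t₂ a₀ a₁ a₂ : ℕ) (S : Set ℕ) :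
    Prop extends Blk M χ p N S, Mks N t₀ t₁ t₂ a₀ a₁ a₂ S where
  o0 : ∀ n, a₀ ≤ n → n ≤ t₂ → lc M (cfg M χ) p n ∉ Tch M (cfg M χ) p t₀ ∧
    rc M (cfg M χ) p n ∉ Tch M (cfg M χ) p t₀
  o1 : ∀ n, a₁ ≤ n → n < N →
    (lc M (cfg M χ) p n ∈ Tch M (cfg M χ) p t₁ → lc M (cfg M χ) p n ∈ Tch M (cfg M χ) p t₀) ∧
    (rc M (cfg M χ) p n ∈ Tch M (cfg M χ) p t₁ → rc M (cfg M χ) p n ∈ Tch M (cfg M χ) p t₀)
  o2 : ∀ n, a₂ ≤ n → n < N →
    (lc M (cfg M χ) p n ∈ Tch M (cfg M χ) p t₂ → lc M (cfg M χ) p n ∈ Tch M (cfg M χ) p t₁) ∧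
    (rc M (cfg M χ) p n ∈ Tch M (cfg M χ) p t₂ → rc M (cfg M χ) p n ∈ Tch M (cfg M χ) p t₁)
  o3 : ∀ n, t₂ ≤ n → n < N → ∀ u, t₀ < u → u < a₀ → rc M (cfg M χ) p n ≠ rc M (cfg M χ) p u

variable [Fintype D] {χ : C → ZMod 2} {p : D} {N t₀ t₁ t₂ a₀ a₁ a₂ : ℕ} {S : Set ℕ}

/-! ### the block -/

/-- `Sep` with `v ≤ N` -/
theorem Blk.sep' (R : Blk M χ p N S) {s s' : ℕ} (hs : s ∈ S) (hs' : s' ∈ S)
    (h : s < s') {u v : ℕ} (h1 : s < u) (h2 : u ≤ s') (hv : v ≤ N) (h3 : v ≤ s ∨ s' < v) :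
    lc M (cfg M χ) p u ≠ lc M (cfg M χ) p v := by
  rcases Nat.lt_or_ge v N with h4 | h4
  · exact R.sep s hs s' hs' h u h1 h2 v h4 h3
  · have : v = N + 0 := by omega
    rw [this, lc_per R.lp]
    exact R.sep s hs s' hs' h u h1 h2 0 R.lp.pos (Or.inl (Nat.zero_le _))

/-- the cell before the first gap after a mark is touched before the mark, after the gap before -/
theorem Blk.old (R : Blk M χ p N S) {T s₀ s : ℕ} (h0 : s₀ ∈ S) (h0T : s₀ < T)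
    (hs : s ∈ S) (hT : T ≤ s) (hmin : ∀ s' ∈ S, T ≤ s' → s ≤ s') :
    ∃ s' ∈ S, s₀ ≤ s' ∧ s' < T ∧ lc M (cfg M χ) p (s' + 1) = lc M (cfg M χ) p s := by
  obtain ⟨s', hs', e⟩ := R.prv s hs
  have h3 := R.sN s' hs'
  have h4 := R.sN s hs
  rcases Nat.lt_or_ge s' T with h1 | h1
  · rcases Nat.lt_or_ge s' s₀ with h2 | h2
    · exact absurd e.symm (R.sep' h0 hs (by omega) (u := s) (v := s' + 1) (by omega) le_rfl
        (by omega) (Or.inl (by omega)))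
    · exact ⟨s', hs', h2, h1, e⟩
  · have h2 := hmin s' hs' h1
    exact absurd e.symm (R.sep' h0 hs (by omega) (u := s) (v := s' + 1) (by omega) le_rfl
      (by omega) (Or.inr (by omega)))

theorem Blk.old' (R : Blk M χ p N S) {T s₀ s : ℕ} (h0 : s₀ ∈ S) (h0T : s₀ < T)
    (hs : s ∈ S) (hT : T ≤ s) (hmin : ∀ s' ∈ S, T ≤ s' → s ≤ s') :
    lc M (cfg M χ) p s ∈ Tch M (cfg M χ) p T := by
  obtain ⟨s', -, -, h1, e⟩ := R.old h0 h0T hs hT hmin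
  rw [← e]
  exact Tch.l (by omega)

/-- the left cells between two gaps of the block after a mark are new -/
theorem Blk.new (R : Blk M χ p N S) {T s s' m : ℕ} (hs : s ∈ S) (hT : T ≤ s)
    (hs' : s' ∈ S) (h1 : s < m) (h2 : m ≤ s') :
    lc M (cfg M χ) p m ∉ Tch M (cfg M χ) p T := by
  intro hc
  obtain ⟨v, hv, e⟩ := Tch.of_l R.lp.occ hc
  have h3 := R.sN s' hs'
  exact R.sep' hs hs' (by omega) h1 h2 (by omega) (Or.inl (by omega)) e.symm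

/-- the cells of the block which are touched first between two marks -/
theorem Blk.kc (R : Blk M χ p N S) {T T' sb s₁ : ℕ} (hb : sb ∈ S) (hbT : sb < T) (hs₁ : s₁ ∈ S)
    (hT₁ : T ≤ s₁) (hmin : ∀ s' ∈ S, T ≤ s' → s₁ ≤ s') {s : ℕ} (hs : s ∈ S)
    (h : lc M (cfg M χ) p s ∈ Tch M (cfg M χ) p T' \ Tch M (cfg M χ) p T) :
    ∃ m, s₁ < m ∧ m ≤ T' ∧ lc M (cfg M χ) p m = lc M (cfg M χ) p s := by
  obtain ⟨u, hu, e⟩ := Tch.of_l R.lp.occ h.1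
  have hu1 : T < u := by
    by_contra hc
    apply h.2
    rw [← e]
    exact Tch.l (by omega)
  rcases Nat.lt_or_ge s₁ u with h1 | h1
  · exact ⟨u, h1, hu, e⟩
  · exfalso
    obtain ⟨s', hs', e'⟩ := R.prv s hs
    have h2 : T ≤ s' := by
      by_contra hc
      apply h.2
      rw [← e']
      exact Tch.l (by omega)
    have h3 := hmin s' hs' h2
    have h5 := R.sN s' hs'
    refine R.sep' hb hs₁ (by omega) (u := u) (v := s' + 1) (by omega) h1 (by omega)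
      (Or.inr (by omega)) ?_
    rw [e, e']

/-- the gap at the end of an interval keeps the right cell -/
theorem Blk.rstep (R : Blk M χ p N S) {s₀ s : ℕ} (h0 : s₀ ∈ S) (hs : s ∈ S) (h : s₀ < s) :
    rc M (cfg M χ) p (s + 1) = rc M (cfg M χ) p s := by
  have h4 := R.sN s hs
  have hne : lc M (cfg M χ) p (s + 1) ≠ lc M (cfg M χ) p s := fun e =>
    R.sep' h0 hs h (u := s) (v := s + 1) (by omega) le_rfl (by omega) (Or.inr (by omega)) e.symm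
  rcases step R.lp.ev R.lp.occ s with ⟨-, -, e⟩ | ⟨-, -, e⟩
  · exact e
  · exact absurd e hne

/-- the left cells after the first gap after a mark are new or touched before an earlier mark -/
theorem Blk.wr (R : Blk M χ p N S) {sb T T' s₂ m : ℕ} (hb : sb ∈ S) (hbT : sb < T)
    (hs₂ : s₂ ∈ S) (hT' : T' ≤ s₂) (hTT : T ≤ T') (h1 : s₂ < m) (h2 : m ≤ N)
    (h : lc M (cfg M χ) p m ∈ Tch M (cfg M χ) p T') :
    lc M (cfg M χ) p m ∈ Tch M (cfg M χ) p T := by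
  obtain ⟨sl, hsl, hmax⟩ := last R.sN ⟨s₂, hs₂⟩
  have h3 := hmax s₂ hs₂
  rcases Nat.lt_or_ge sl m with h4 | h4
  · obtain ⟨u, hu, e⟩ := Tch.of_l R.lp.occ h
    rcases Nat.lt_or_ge T u with h5 | h5
    · exfalso
      exact R.sep' hb hsl (by omega) (u := u) (v := m) (by omega) (by omega) h2 (Or.inr h4) e
    · rw [← e]
      exact Tch.l h5
  · exact absurd h (R.new hs₂ hT' hsl h1 h4)

variable {χ' : C → ZMod 2}

/-! ### inverted colours -/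

theorem fl_l {j : Fin 3} (F : Fl M χ p t₀ t₁ t₂ j χ') {u : ℕ} (hp : cfg M χ p = 1)
    (h : lc M (cfg M χ) p u ∈ Cj M (cfg M χ) p t₀ t₁ t₂ j) :
    χ' (lc M (cfg M χ) p u) = χ (M.cell p) + 1 := by
  rw [(F u).1, if_pos h, col_l hp]

theorem fl_r {j : Fin 3} (F : Fl M χ p t₀ t₁ t₂ j χ') {u : ℕ} (hp : cfg M χ p = 1)
    (h : rc M (cfg M χ) p u ∉ Cj M (cfg M χ) p t₀ t₁ t₂ j) :
    χ' (rc M (cfg M χ) p u) = χ (M.cell p) + 1 := by
  rw [(F u).2, if_neg h, col_r hp, add_zero]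

/-- the pattern `j` is joined: in the inverted colouring every cell of the block in `Cj j` is
connected with the right cell of the first state of the outer arc -/
def Jd (M : CMap D C) (χ : C → ZMod 2) (p : D) (t₀ t₁ t₂ a₀ a₁ a₂ : ℕ) (S : Set ℕ) (j : Fin 3)
    (χ' : C → ZMod 2) : Prop :=
  ∀ s ∈ S, lc M (cfg M χ) p s ∈ Cj M (cfg M χ) p t₀ t₁ t₂ j →
    Con M (cfg M χ') (rc M (cfg M χ) p (ast a₀ a₁ a₂ j)) (lc M (cfg M χ) p s)

/-- case A at the mark `T`: a right cell after the first gap, up to the time `T'`, is old -/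
def PA (M : CMap D C) (χ : C → ZMod 2) (p : D) (T T' : ℕ) (S : Set ℕ) : Prop :=
  ∃ s ∈ S, T ≤ s ∧ ∃ n, s < n ∧ n ≤ T' ∧ rc M (cfg M χ) p n ∈ Tch M (cfg M χ) p T

/-- case A at the last mark -/
def PZ (M : CMap D C) (χ : C → ZMod 2) (p : D) (N t₀ t₂ : ℕ) (S : Set ℕ) : Prop :=
  ∃ s ∈ S, t₂ ≤ s ∧ ∃ n, s < n ∧ n ≤ N ∧ rc M (cfg M χ) p n ∈ Tch M (cfg M χ) p t₂ ∧
    rc M (cfg M χ) p n ∉ Tch M (cfg M χ) p t₀

/-- first gaps after the marks -/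
structure Fs (S : Set ℕ) (t₀ t₁ t₂ sb s₀ s₁ s₂ : ℕ) : Prop where
  b : sb ∈ S
  bt : sb < t₀
  m0 : s₀ ∈ S
  m1 : s₁ ∈ S
  m2 : s₂ ∈ S
  l0 : t₀ ≤ s₀
  u0 : s₀ < t₁
  l1 : t₁ ≤ s₁
  u1 : s₁ < t₂
  l2 : t₂ ≤ s₂
  f0 : ∀ s' ∈ S, t₀ ≤ s' → s₀ ≤ s'
  f1 : ∀ s' ∈ S, t₁ ≤ s' → s₁ ≤ s'
  f2 : ∀ s' ∈ S, t₂ ≤ s' → s₂ ≤ s'

theorem Mks.fs (R : Mks N t₀ t₁ t₂ a₀ a₁ a₂ S) : ∃ sb s₀ s₁ s₂, Fs S t₀ t₁ t₂ sb s₀ s₁ s₂ := by
  obtain ⟨sb, h1, h2⟩ := R.e0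
  obtain ⟨x0, y0, z0, w0⟩ := R.e1
  obtain ⟨x1, y1, z1, w1⟩ := R.e2
  obtain ⟨s₀, b1, b2, b3⟩ := first (T := t₀) (S := S) ⟨x0, y0, z0⟩
  obtain ⟨s₁, c1, c2, c3⟩ := first (T := t₁) (S := S) ⟨x1, y1, z1⟩
  obtain ⟨s₂, d1, d2, d3⟩ := first (T := t₂) (S := S) R.e3
  have k0 := b3 x0 y0 z0
  have k1 := c3 x1 y1 z1
  exact ⟨sb, s₀, s₁, s₂, h1, h2, b1, c1, d1, b2, by omega, c2, by omega, d2, b3, c3, d3⟩

section

variable {sb s₀ s₁ s₂ : ℕ}

/-- the left cells of the class 0 form a chain -/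
theorem Ring3.l0 (R : Ring3 M χ p N t₀ t₁ t₂ a₀ a₁ a₂ S) (Q : Fs S t₀ t₁ t₂ sb s₀ s₁ s₂)
    (F : Fl M χ p t₀ t₁ t₂ 0 χ') (u : ℕ) (h1 : s₀ + 1 ≤ u) (h2 : u ≤ t₁) :
    χ' (lc M (cfg M χ) p u) = χ (M.cell p) + 1 :=
  fl_l F R.lp.occ ⟨Tch.l h2, R.new Q.m0 Q.l0 Q.m1 (by omega) (h2.trans Q.l1)⟩

/-- the left cells of the class 1 form a chain -/
theorem Ring3.l1 (R : Ring3 M χ p N t₀ t₁ t₂ a₀ a₁ a₂ S) (Q : Fs S t₀ t₁ t₂ sb s₀ s₁ s₂)
    (F : Fl M χ p t₀ t₁ t₂ 1 χ') (u : ℕ) (h1 : s₁ + 1 ≤ u) (h2 : u ≤ t₂) :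
    χ' (lc M (cfg M χ) p u) = χ (M.cell p) + 1 :=
  fl_l F R.lp.occ ⟨Tch.l h2, R.new Q.m1 Q.l1 Q.m2 (by omega) (h2.trans Q.l2)⟩

/-- the left cells of the class 2 form a chain (through the start) -/
theorem Ring3.l2 (R : Ring3 M χ p N t₀ t₁ t₂ a₀ a₁ a₂ S) (Q : Fs S t₀ t₁ t₂ sb s₀ s₁ s₂)
    (F : Fl M χ p t₀ t₁ t₂ 2 χ') (u : ℕ) (h1 : s₂ + 1 ≤ u) (h2 : u ≤ N + t₀) :
    χ' (lc M (cfg M χ) p u) = χ (M.cell p) + 1 := by
  have ht : t₀ ≤ t₂ := by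
    have := Q.l0; have := Q.u0; have := Q.l1; have := Q.u1; omega
  rcases Nat.lt_or_ge N u with h3 | h3
  · obtain ⟨w, rfl⟩ := Nat.exists_eq_add_of_le h3.le
    rw [lc_per R.lp]
    exact fl_l F R.lp.occ fun _ => Tch.l (by omega)
  · exact fl_l F R.lp.occ fun h => R.wr Q.b Q.bt Q.m2 Q.l2 ht (by omega) h3 h

/-- right cells of the outer arcs -/
theorem Ring3.r0 (R : Ring3 M χ p N t₀ t₁ t₂ a₀ a₁ a₂ S)
    (F : Fl M χ p t₀ t₁ t₂ 0 χ') (u : ℕ) (h1 : a₁ ≤ u) (h2 : u ≤ N + t₀) :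
    χ' (rc M (cfg M χ) p u) = χ (M.cell p) + 1 := by
  refine fl_r F R.lp.occ ?_
  rintro ⟨h3, h4⟩
  rcases Nat.lt_or_ge u N with h5 | h5
  · exact h4 ((R.o1 u h1 h5).2 h3)
  · obtain ⟨w, rfl⟩ := Nat.exists_eq_add_of_le h5
    rw [rc_per R.lp] at h4
    exact h4 (Tch.r (by omega))

theorem Ring3.r1 (R : Ring3 M χ p N t₀ t₁ t₂ a₀ a₁ a₂ S)
    (F : Fl M χ p t₀ t₁ t₂ 1 χ') (u : ℕ) (h1 : a₂ ≤ u) (h2 : u ≤ N + t₁) :
    χ' (rc M (cfg M χ) p u) = χ (M.cell p) + 1 := by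
  refine fl_r F R.lp.occ ?_
  rintro ⟨h3, h4⟩
  rcases Nat.lt_or_ge u N with h5 | h5
  · exact h4 ((R.o2 u h1 h5).2 h3)
  · obtain ⟨w, rfl⟩ := Nat.exists_eq_add_of_le h5
    rw [rc_per R.lp] at h4
    exact h4 (Tch.r (by omega))

theorem Ring3.r2 (R : Ring3 M χ p N t₀ t₁ t₂ a₀ a₁ a₂ S)
    (F : Fl M χ p t₀ t₁ t₂ 2 χ') (u : ℕ) (h1 : a₀ ≤ u) (h2 : u ≤ t₂) :
    χ' (rc M (cfg M χ) p u) = χ (M.cell p) + 1 :=
  fl_r F R.lp.occ fun h => (R.o0 u h1 h2).2 (h (Tch.r h2))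

/-- the cells of the block in the class 2 -/
theorem Ring3.k2 (R : Ring3 M χ p N t₀ t₁ t₂ a₀ a₁ a₂ S) (Q : Fs S t₀ t₁ t₂ sb s₀ s₁ s₂) {s : ℕ}
    (hs : s ∈ S) (h : lc M (cfg M χ) p s ∈ Cj M (cfg M χ) p t₀ t₁ t₂ 2) :
    ∃ m, s₂ + 1 ≤ m ∧ m ≤ N + t₀ ∧ lc M (cfg M χ) p m = lc M (cfg M χ) p s := by
  have h' : lc M (cfg M χ) p s ∈ Tch M (cfg M χ) p t₂ → lc M (cfg M χ) p s ∈ Tch M (cfg M χ) p t₀ :=
    h
  have h2N := R.sN _ Q.m2
  have hl0 := Q.l0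
  have hu0 := Q.u0
  have hl1 := Q.l1
  have hu1 := Q.u1
  have hl2 := Q.l2
  by_cases h1 : lc M (cfg M χ) p s ∈ Tch M (cfg M χ) p t₂
  · obtain ⟨v, hv, e⟩ := Tch.of_l R.lp.occ (h' h1)
    exact ⟨N + v, by omega, by omega, by rw [lc_per R.lp, e]⟩
  · have h3 : t₂ < s := by
      by_contra hc
      exact h1 (Tch.l (by omega))
    have h4 := Q.f2 s hs (by omega)
    have h5 := R.sN s hs
    rcases Nat.eq_or_lt_of_le h4 with h6 | h6
    · exfalso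
      apply h1
      rw [← h6]
      exact R.old' Q.b (by have := Q.bt; omega) Q.m2 Q.l2 Q.f2
    · exact ⟨s, by omega, by omega, rfl⟩

/-- junction through a gap: the black cell before the gap, its third cell -/
theorem Ring3.gap (R : Ring3 M χ p N t₀ t₁ t₂ a₀ a₁ a₂ S) {s sa : ℕ} (ha : sa ∈ S) (hs : s ∈ S)
    (h : sa < s) (h1 : χ' (lc M (cfg M χ) p s) = χ (M.cell p) + 1)
    (h2 : χ' (rc M (cfg M χ) p (s + 1)) = χ (M.cell p) + 1) :
    Con M (cfg M χ') (rc M (cfg M χ) p (s + 1)) (lc M (cfg M χ) p s) := by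
  have e := R.rstep ha hs h
  rw [e] at h2 ⊢
  refine con_symm (con_lr s ?_)
  rw [h1, h2]

/-- **case A at the mark 0: the pattern 0 is joined** -/
theorem Ring3.a0 (R : Ring3 M χ p N t₀ t₁ t₂ a₀ a₁ a₂ S) (F : Fl M χ p t₀ t₁ t₂ 0 χ')
    (H : PA M χ p t₀ t₁ S) : Jd M χ p t₀ t₁ t₂ a₀ a₁ a₂ S 0 χ' := by
  obtain ⟨sb, s₀, s₁, s₂, Q⟩ := R.fs
  obtain ⟨s', hs', hT', n, hn1, hn2, hn3⟩ := H
  have h1 := Q.f0 s' hs' hT'
  obtain ⟨u, hu, e⟩ := Tch.of_r R.lp.occ hn3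
  have k1 := R.h3
  have k2 := R.h4
  have k3 := R.h5
  intro s hs hsD
  obtain ⟨m, hm1, hm2, em⟩ := R.kc Q.b Q.bt Q.m0 Q.l0 Q.f0 hs hsD
  rw [← em]
  show Con M (cfg M χ') (rc M (cfg M χ) p a₁) _
  refine con_trans (con_r' R.lp.occ (R.r0 F) (u := a₁) (v := N + u) le_rfl (by omega) (by omega)
    (by omega)) ?_
  rw [rc_per R.lp, e]
  refine con_trans (con_symm (con_lr n ?_)) (con_l' R.lp.occ (R.l0 Q F) (by omega) hn2 (by omega)
    hm2)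
  rw [R.l0 Q F n (by omega) hn2, ← e, ← rc_per R.lp, R.r0 F (N + u) (by omega) (by omega)]

/-- **case B at the mark 0: the pattern 2 is joined** -/
theorem Ring3.b0 (R : Ring3 M χ p N t₀ t₁ t₂ a₀ a₁ a₂ S) (F : Fl M χ p t₀ t₁ t₂ 2 χ')
    (H : ¬ PA M χ p t₀ t₁ S) : Jd M χ p t₀ t₁ t₂ a₀ a₁ a₂ S 2 χ' := by
  obtain ⟨sb, s₀, s₁, s₂, Q⟩ := R.fs
  have k0 := R.h0
  have k1 := R.h1
  have k2 := R.h2
  have k3 := R.h3
  have hl0 := Q.l0
  have hu0 := Q.u0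
  have hl2 := Q.l2
  have h2N := R.sN _ Q.m2
  have hbt := Q.bt
  have hr : ∀ v, min a₀ (s₀ + 1) ≤ v → v ≤ t₂ →
      χ' (rc M (cfg M χ) p v) = χ (M.cell p) + 1 := by
    intro v hv1 hv2
    rcases Nat.lt_or_ge v a₀ with h1 | h1
    · refine fl_r F R.lp.occ fun h => H ⟨s₀, Q.m0, Q.l0, v, by omega, by omega, h (Tch.r hv2)⟩
    · exact R.r2 F v h1 hv2
  obtain ⟨w, hw, ew⟩ := Tch.of_l R.lp.occ (R.old' Q.b Q.bt Q.m0 Q.l0 Q.f0)
  intro s hs hsD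
  obtain ⟨m, hm1, hm2, em⟩ := R.k2 Q hs hsD
  rw [← em]
  show Con M (cfg M χ') (rc M (cfg M χ) p a₀) _
  refine con_trans (con_r' R.lp.occ hr (u := a₀) (v := s₀ + 1) (by omega) (by omega) (by omega)
    (by omega)) ?_
  have hw' : χ' (lc M (cfg M χ) p s₀) = χ (M.cell p) + 1 := by
    rw [← ew, ← lc_per R.lp]
    exact R.l2 Q F (N + w) (by omega) (by omega)
  refine con_trans (R.gap Q.b Q.m0 (by omega) hw' (hr (s₀ + 1) (by omega) (by omega))) ?_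
  rw [← ew, ← lc_per R.lp w]
  exact con_l' R.lp.occ (R.l2 Q F) (by omega) (by omega) hm1 hm2

/-- **case A at the mark 1: the pattern 1 is joined** -/
theorem Ring3.a1 (R : Ring3 M χ p N t₀ t₁ t₂ a₀ a₁ a₂ S) (F : Fl M χ p t₀ t₁ t₂ 1 χ')
    (H : PA M χ p t₁ t₂ S) : Jd M χ p t₀ t₁ t₂ a₀ a₁ a₂ S 1 χ' := by
  obtain ⟨sb, s₀, s₁, s₂, Q⟩ := R.fs
  obtain ⟨s', hs', hT', n, hn1, hn2, hn3⟩ := H
  have h1 := Q.f1 s' hs' hT'
  obtain ⟨u, hu, e⟩ := Tch.of_r R.lp.occ hn3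
  have k2 := R.h4
  have k3 := R.h5
  have hbt := Q.bt
  have hl0 := Q.l0
  have hu0 := Q.u0
  intro s hs hsD
  obtain ⟨m, hm1, hm2, em⟩ := R.kc Q.b (by omega) Q.m1 Q.l1 Q.f1 hs hsD
  rw [← em]
  show Con M (cfg M χ') (rc M (cfg M χ) p a₂) _
  refine con_trans (con_r' R.lp.occ (R.r1 F) (u := a₂) (v := N + u) le_rfl (by omega) (by omega)
    (by omega)) ?_
  rw [rc_per R.lp, e]
  refine con_trans (con_symm (con_lr n ?_)) (con_l' R.lp.occ (R.l1 Q F) (by omega) hn2 (by omega)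
    hm2)
  rw [R.l1 Q F n (by omega) hn2, ← e, ← rc_per R.lp, R.r1 F (N + u) (by omega) (by omega)]

/-- **case B at the mark 1: the pattern 0 is joined** -/
theorem Ring3.b1 (R : Ring3 M χ p N t₀ t₁ t₂ a₀ a₁ a₂ S) (F : Fl M χ p t₀ t₁ t₂ 0 χ')
    (H : ¬ PA M χ p t₁ t₂ S) : Jd M χ p t₀ t₁ t₂ a₀ a₁ a₂ S 0 χ' := by
  obtain ⟨sb, s₀, s₁, s₂, Q⟩ := R.fs
  have k2 := R.h2
  have k3 := R.h3
  have k4 := R.h4
  have k5 := R.h5
  have hbt := Q.bt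
  have hl0 := Q.l0
  have hu0 := Q.u0
  have hl1 := Q.l1
  have hu1 := Q.u1
  have hr : ∀ v, min a₁ (s₁ + 1) ≤ v → v ≤ N + t₀ →
      χ' (rc M (cfg M χ) p v) = χ (M.cell p) + 1 := by
    intro v hv1 hv2
    rcases Nat.lt_or_ge v a₁ with h1 | h1
    · refine fl_r F R.lp.occ fun h => H ⟨s₁, Q.m1, Q.l1, v, by omega, by omega, h.1⟩
    · exact R.r0 F v h1 hv2
  obtain ⟨s', hs', h1, h2, e⟩ := R.old Q.m0 Q.u0 Q.m1 Q.l1 Q.f1
  intro s hs hsD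
  obtain ⟨m, hm1, hm2, em⟩ := R.kc Q.b Q.bt Q.m0 Q.l0 Q.f0 hs hsD
  rw [← em]
  show Con M (cfg M χ') (rc M (cfg M χ) p a₁) _
  refine con_trans (con_r' R.lp.occ hr (u := a₁) (v := s₁ + 1) (by omega) (by omega) (by omega)
    (by omega)) ?_
  have hw' : χ' (lc M (cfg M χ) p s₁) = χ (M.cell p) + 1 := by
    rw [← e]
    exact R.l0 Q F (s' + 1) (by omega) (by omega)
  refine con_trans (R.gap Q.m0 Q.m1 (by omega) hw' (hr (s₁ + 1) (by omega) (by omega))) ?_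
  rw [← e]
  exact con_l' R.lp.occ (R.l0 Q F) (by omega) (by omega) (by omega) hm2

/-- **case A at the mark 2: the pattern 2 is joined** -/
theorem Ring3.a2 (R : Ring3 M χ p N t₀ t₁ t₂ a₀ a₁ a₂ S) (F : Fl M χ p t₀ t₁ t₂ 2 χ')
    (H : PZ M χ p N t₀ t₂ S) : Jd M χ p t₀ t₁ t₂ a₀ a₁ a₂ S 2 χ' := by
  obtain ⟨sb, s₀, s₁, s₂, Q⟩ := R.fs
  obtain ⟨s', hs', hT', n, hn1, hn2, hn3, hn4⟩ := H
  have h1 := Q.f2 s' hs' hT'
  obtain ⟨u, hu, e⟩ := Tch.of_r R.lp.occ hn3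
  have hl2 := Q.l2
  have hu1 : t₀ < u := by
    by_contra hc
    apply hn4
    rw [← e]
    exact Tch.r (by omega)
  have hnN : n < N := by
    by_contra hc
    apply hn4
    rw [show n = N + 0 by omega, rc_per R.lp]
    exact Tch.r (Nat.zero_le _)
  have hua : a₀ ≤ u := by
    by_contra hc
    exact R.o3 n (by omega) hnN u hu1 (by omega) e.symm
  intro s hs hsD
  obtain ⟨m, hm1, hm2, em⟩ := R.k2 Q hs hsD
  rw [← em]
  show Con M (cfg M χ') (rc M (cfg M χ) p a₀) _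
  refine con_trans (con_r' R.lp.occ (R.r2 F) (u := a₀) (v := u) le_rfl (by omega) hua hu) ?_
  rw [e]
  refine con_trans (con_symm (con_lr n ?_)) (con_l' R.lp.occ (R.l2 Q F) (by omega) (by omega) hm1
    hm2)
  rw [R.l2 Q F n (by omega) (by omega), ← e, R.r2 F u hua hu]

/-- **case B at the mark 2: the pattern 1 is joined** -/
theorem Ring3.b2 (R : Ring3 M χ p N t₀ t₁ t₂ a₀ a₁ a₂ S) (F : Fl M χ p t₀ t₁ t₂ 1 χ')
    (H : ¬ PZ M χ p N t₀ t₂ S) : Jd M χ p t₀ t₁ t₂ a₀ a₁ a₂ S 1 χ' := by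
  obtain ⟨sb, s₀, s₁, s₂, Q⟩ := R.fs
  have k4 := R.h4
  have k5 := R.h5
  have hbt := Q.bt
  have hl0 := Q.l0
  have hu0 := Q.u0
  have hl1 := Q.l1
  have hu1 := Q.u1
  have hl2 := Q.l2
  have h2N := R.sN _ Q.m2
  have hr : ∀ v, min a₂ (s₂ + 1) ≤ v → v ≤ N + t₁ →
      χ' (rc M (cfg M χ) p v) = χ (M.cell p) + 1 := by
    intro v hv1 hv2
    rcases Nat.lt_or_ge v a₂ with h1 | h1
    · refine fl_r F R.lp.occ fun h => H ⟨s₂, Q.m2, Q.l2, v, by omega, by omega, h.1, fun h' => ?_⟩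
      exact h.2 (Tch.mono (by omega) h')
    · exact R.r1 F v h1 hv2
  obtain ⟨s', hs', h1, h2, e⟩ := R.old Q.m1 Q.u1 Q.m2 Q.l2 Q.f2
  intro s hs hsD
  obtain ⟨m, hm1, hm2, em⟩ := R.kc Q.b (by omega) Q.m1 Q.l1 Q.f1 hs hsD
  rw [← em]
  show Con M (cfg M χ') (rc M (cfg M χ) p a₂) _
  refine con_trans (con_r' R.lp.occ hr (u := a₂) (v := s₂ + 1) (by omega) (by omega) (by omega)
    (by omega)) ?_
  have hw' : χ' (lc M (cfg M χ) p s₂) = χ (M.cell p) + 1 := by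
    rw [← e]
    exact R.l1 Q F (s' + 1) (by omega) (by omega)
  refine con_trans (R.gap Q.m1 Q.m2 (by omega) hw' (hr (s₂ + 1) (by omega) (by omega))) ?_
  rw [← e]
  exact con_l' R.lp.occ (R.l1 Q F) (by omega) (by omega) (by omega) hm2

end

/-- the pattern `j` is joined for every colouring of the untouched cells -/
def Jn (M : CMap D C) (χ : C → ZMod 2) (p : D) (t₀ t₁ t₂ a₀ a₁ a₂ : ℕ) (S : Set ℕ) (j : Fin 3) :
    Prop := ∀ χ', Fl M χ p t₀ t₁ t₂ j χ' → Jd M χ p t₀ t₁ t₂ a₀ a₁ a₂ S j χ'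

/-- **H5 (b): at least two of the three patterns are joined** -/
theorem Ring3.two (R : Ring3 M χ p N t₀ t₁ t₂ a₀ a₁ a₂ S) :
    ∃ i j : Fin 3, i ≠ j ∧ Jn M χ p t₀ t₁ t₂ a₀ a₁ a₂ S i ∧ Jn M χ p t₀ t₁ t₂ a₀ a₁ a₂ S j := by
  by_cases h0 : PA M χ p t₀ t₁ S <;> by_cases h1 : PA M χ p t₁ t₂ S <;>
    by_cases h2 : PZ M χ p N t₀ t₂ S
  · exact ⟨0, 1, by decide, fun _ F => R.a0 F h0, fun _ F => R.a1 F h1⟩
  · exact ⟨0, 1, by decide, fun _ F => R.a0 F h0, fun _ F => R.a1 F h1⟩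
  · exact ⟨0, 2, by decide, fun _ F => R.a0 F h0, fun _ F => R.a2 F h2⟩
  · exact ⟨0, 1, by decide, fun _ F => R.a0 F h0, fun _ F => R.b2 F h2⟩
  · exact ⟨2, 1, by decide, fun _ F => R.b0 F h0, fun _ F => R.a1 F h1⟩
  · exact ⟨2, 1, by decide, fun _ F => R.b0 F h0, fun _ F => R.a1 F h1⟩
  · exact ⟨2, 0, by decide, fun _ F => R.b0 F h0, fun _ F => R.b1 F h1⟩
  · exact ⟨2, 0, by decide, fun _ F => R.b0 F h0, fun _ F => R.b1 F h1⟩

/-! ### the outer arcs -/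

/-- the cells touched by the outer arc are not inverted -/
theorem Ring3.arc_off (R : Ring3 M χ p N t₀ t₁ t₂ a₀ a₁ a₂ S) (j : Fin 3) {u : ℕ}
    (hu : u ≤ aln N t₀ t₁ t₂ a₀ a₁ a₂ j) :
    lc M (cfg M χ) p (ast a₀ a₁ a₂ j + u) ∉ Cj M (cfg M χ) p t₀ t₁ t₂ j ∧
      rc M (cfg M χ) p (ast a₀ a₁ a₂ j + u) ∉ Cj M (cfg M χ) p t₀ t₁ t₂ j := by
  have h0 : j = 0 ∨ j = 1 ∨ j = 2 := by omega
  have k1 := R.h1
  have k2 := R.h2
  have k3 := R.h3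
  have k4 := R.h4
  have k5 := R.h5
  rcases h0 with rfl | rfl | rfl
  · have hu' : u ≤ N + t₀ - a₁ := hu
    show lc M (cfg M χ) p (a₁ + u) ∉ Tch M (cfg M χ) p t₁ \ Tch M (cfg M χ) p t₀ ∧
      rc M (cfg M χ) p (a₁ + u) ∉ Tch M (cfg M χ) p t₁ \ Tch M (cfg M χ) p t₀
    rcases Nat.lt_or_ge (a₁ + u) N with h2 | h2
    · obtain ⟨h3, h4⟩ := R.o1 (a₁ + u) (by omega) h2
      exact ⟨fun h => h.2 (h3 h.1), fun h => h.2 (h4 h.1)⟩
    · obtain ⟨w, hw⟩ := Nat.exists_eq_add_of_le h2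
      rw [hw, lc_per R.lp, rc_per R.lp]
      exact ⟨fun h => h.2 (Tch.l (by omega)), fun h => h.2 (Tch.r (by omega))⟩
  · have hu' : u ≤ N + t₁ - a₂ := hu
    show lc M (cfg M χ) p (a₂ + u) ∉ Tch M (cfg M χ) p t₂ \ Tch M (cfg M χ) p t₁ ∧
      rc M (cfg M χ) p (a₂ + u) ∉ Tch M (cfg M χ) p t₂ \ Tch M (cfg M χ) p t₁
    rcases Nat.lt_or_ge (a₂ + u) N with h2 | h2
    · obtain ⟨h3, h4⟩ := R.o2 (a₂ + u) (by omega) h2
      exact ⟨fun h => h.2 (h3 h.1), fun h => h.2 (h4 h.1)⟩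
    · obtain ⟨w, hw⟩ := Nat.exists_eq_add_of_le h2
      rw [hw, lc_per R.lp, rc_per R.lp]
      exact ⟨fun h => h.2 (Tch.l (by omega)), fun h => h.2 (Tch.r (by omega))⟩
  · have hu' : u ≤ t₂ - a₀ := hu
    have h3 := R.o0 (a₀ + u) (by omega) (by omega)
    have h4 : lc M (cfg M χ) p (a₀ + u) ∈ Tch M (cfg M χ) p t₂ := Tch.l (by omega)
    have h5 : rc M (cfg M χ) p (a₀ + u) ∈ Tch M (cfg M χ) p t₂ := Tch.r (by omega)
    exact ⟨fun h => h3.1 (h h4), fun h => h3.2 (h h5)⟩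

/-- **the outer arc has the same states in the inverted colouring** -/
theorem Ring3.arc (R : Ring3 M χ p N t₀ t₁ t₂ a₀ a₁ a₂ S) {j : Fin 3}
    (F : Fl M χ p t₀ t₁ t₂ j χ') {u : ℕ} (hu : u ≤ aln N t₀ t₁ t₂ a₀ a₁ a₂ j) :
    P M (cfg M χ') (P M (cfg M χ) p (ast a₀ a₁ a₂ j)) u =
      P M (cfg M χ) (P M (cfg M χ) p (ast a₀ a₁ a₂ j)) u := by
  refine same (P_occ R.lp.ev R.lp.occ _) (m := aln N t₀ t₁ t₂ a₀ a₁ a₂ j) (fun v hv => ?_) u hu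
  rw [lc_shift, rc_shift]
  obtain ⟨h1, h2⟩ := R.arc_off j hv
  rw [(F _).1, (F _).2, if_neg h1, if_neg h2, add_zero, add_zero]
  exact ⟨rfl, rfl⟩

/-- **355's outer arc in the inverted colouring** -/
theorem Ring3.oa (R : Ring3 M χ p N t₀ t₁ t₂ a₀ a₁ a₂ S) {j : Fin 3}
    (F : Fl M χ p t₀ t₁ t₂ j χ') {Rv : Set C} (hRv : ∀ u, u ≤ aln N t₀ t₁ t₂ a₀ a₁ a₂ j →
      rc M (cfg M χ) p (ast a₀ a₁ a₂ j + u) ∈ Rv) :
    Oa M (cfg M χ') (P M (cfg M χ) p (ast a₀ a₁ a₂ j)) (aln N t₀ t₁ t₂ a₀ a₁ a₂ j + 1) Rv := by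
  refine ⟨cfg_isC χ', ?_, fun a ha => ?_⟩
  · obtain ⟨h1, h2⟩ := R.arc_off j (u := 0) (Nat.zero_le _)
    rw [Nat.add_zero] at h1 h2
    have h5 := P_occ R.lp.ev R.lp.occ (ast a₀ a₁ a₂ j)
    show χ' (lc M (cfg M χ) p (ast a₀ a₁ a₂ j)) +
      χ' (rc M (cfg M χ) p (ast a₀ a₁ a₂ j)) = 1
    rw [(F _).1, (F _).2, if_neg h1, if_neg h2, add_zero, add_zero]
    exact h5
  · rw [R.arc F (by omega)]
    have := hRv a (by omega)
    rw [← rc_shift] at this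
    exact this

/-! ### the classes of the cells of the block -/

/-- **the static giants and the inverted classes have the same cells of the block** -/
theorem Blk.kg (R : Blk M χ p N S) {sb s₀ s₁ s₂ : ℕ}
    (Q : Fs S t₀ t₁ t₂ sb s₀ s₁ s₂) {s : ℕ} (hs : s ∈ S) :
    (lc M (cfg M χ) p s ∈ Cj M (cfg M χ) p t₀ t₁ t₂ 0 ↔ s₀ < s ∧ s ≤ s₁) ∧
    (lc M (cfg M χ) p s ∈ Cj M (cfg M χ) p t₀ t₁ t₂ 1 ↔ s₁ < s ∧ s ≤ s₂) ∧
    (lc M (cfg M χ) p s ∈ Cj M (cfg M χ) p t₀ t₁ t₂ 2 ↔ s ≤ s₀ ∨ s₂ < s) := by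
  have hbt := Q.bt
  have hl0 := Q.l0
  have hu0 := Q.u0
  have hl1 := Q.l1
  have hu1 := Q.u1
  have hl2 := Q.l2
  have hsN := R.sN s hs
  -- touched before a mark iff at most the first gap after the mark
  have key : ∀ T f, f ∈ S → T ≤ f → (∀ s' ∈ S, T ≤ s' → f ≤ s') → sb < T →
      (lc M (cfg M χ) p s ∈ Tch M (cfg M χ) p T ↔ s ≤ f) := by
    intro T f hf hTf hmin hbT
    constructor
    · intro h
      by_contra hc
      exact R.new hf hTf hs (by omega) le_rfl h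
    · intro h
      rcases Nat.lt_or_ge s T with h1 | h1
      · exact Tch.l h1.le
      · have : s = f := le_antisymm h (hmin s hs h1)
        rw [this]
        exact R.old' Q.b hbT hf hTf hmin
  have key0 := key t₀ s₀ Q.m0 Q.l0 Q.f0 hbt
  have key1 := key t₁ s₁ Q.m1 Q.l1 Q.f1 (by omega)
  have key2 := key t₂ s₂ Q.m2 Q.l2 Q.f2 (by omega)
  refine ⟨?_, ?_, ?_⟩
  · show (lc M (cfg M χ) p s ∈ Tch M (cfg M χ) p t₁ ∧ lc M (cfg M χ) p s ∉ Tch M (cfg M χ) p t₀) ↔ _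
    rw [key0, key1]
    omega
  · show (lc M (cfg M χ) p s ∈ Tch M (cfg M χ) p t₂ ∧ lc M (cfg M χ) p s ∉ Tch M (cfg M χ) p t₁) ↔ _
    rw [key1, key2]
    omega
  · show (lc M (cfg M χ) p s ∈ Tch M (cfg M χ) p t₂ → lc M (cfg M χ) p s ∈ Tch M (cfg M χ) p t₀) ↔ _
    rw [key0, key2]
    omega

/-! ### the inside sees cells of the block only -/

/-- **a free connected set next to the three classes is next to cells of the block only** -/
theorem Blk.kin (R : Blk M χ p N S) {sb s₀ s₁ s₂ : ℕ}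
    (Q : Fs S t₀ t₁ t₂ sb s₀ s₁ s₂) {F : Set C} (hF : Cn M F)
    (hl : ∀ u, lc M (cfg M χ) p u ∉ F) (hr : ∀ u, rc M (cfg M χ) p u ∉ F)
    (hn : ∀ j : Fin 3, ∃ u, Nt M F (lc M (cfg M χ) p u) ∧
      lc M (cfg M χ) p u ∈ Cj M (cfg M χ) p t₀ t₁ t₂ j)
    {u : ℕ} (hu : Nt M F (lc M (cfg M χ) p u)) :
    ∃ s ∈ S, lc M (cfg M χ) p s = lc M (cfg M χ) p u := by
  have L := R.lp
  have hp := L.occ
  have md : ∀ u, lc M (cfg M χ) p u = lc M (cfg M χ) p (u % N) := by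
    intro u
    unfold lc
    rw [L.mod u]
  by_contra hno
  push Not at hno
  rw [md u] at hu hno
  obtain ⟨u', hu', hu'N⟩ : ∃ u', u % N = u' ∧ u' < N := ⟨_, rfl, Nat.mod_lt _ L.pos⟩
  rw [hu'] at hu hno
  have hbt := Q.bt
  have hl0 := Q.l0
  have hu0 := Q.u0
  have hl1 := Q.l1
  have hu1 := Q.u1
  have hl2 := Q.l2
  have h2N := R.sN _ Q.m2
  -- a cell of the class 0 at a time in `(t₀, t₁]`
  obtain ⟨v0, hv0, hv0', nv0⟩ : ∃ v, t₀ < v ∧ v ≤ t₁ ∧ Nt M F (lc M (cfg M χ) p v) := by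
    obtain ⟨w, nw, tw⟩ := hn 0
    have tw' : lc M (cfg M χ) p w ∈ Tch M (cfg M χ) p t₁ ∧
      lc M (cfg M χ) p w ∉ Tch M (cfg M χ) p t₀ := tw
    obtain ⟨v, hv, e⟩ := Tch.of_l hp tw'.1
    refine ⟨v, ?_, hv, by rw [e]; exact nw⟩
    by_contra hc
    apply tw'.2
    rw [← e]
    exact Tch.l (by omega)
  -- a cell of the class 1 at a time in `(t₁, t₂]`
  obtain ⟨v1, hv1, hv1', nv1⟩ : ∃ v, t₁ < v ∧ v ≤ t₂ ∧ Nt M F (lc M (cfg M χ) p v) := by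
    obtain ⟨w, nw, tw⟩ := hn 1
    have tw' : lc M (cfg M χ) p w ∈ Tch M (cfg M χ) p t₂ ∧
      lc M (cfg M χ) p w ∉ Tch M (cfg M χ) p t₁ := tw
    obtain ⟨v, hv, e⟩ := Tch.of_l hp tw'.1
    refine ⟨v, ?_, hv, by rw [e]; exact nw⟩
    by_contra hc
    apply tw'.2
    rw [← e]
    exact Tch.l (by omega)
  -- a cell of the class 2 at a time `≤ t₀` or `> t₂`
  obtain ⟨v2, hv2, hv2', nv2⟩ : ∃ v, v < N ∧ (v ≤ t₀ ∨ t₂ < v) ∧ Nt M F (lc M (cfg M χ) p v) := by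
    obtain ⟨w, nw, tw⟩ := hn 2
    have tw' : lc M (cfg M χ) p w ∈ Tch M (cfg M χ) p t₂ →
      lc M (cfg M χ) p w ∈ Tch M (cfg M χ) p t₀ := tw
    rw [md w] at nw tw'
    rcases Nat.lt_or_ge t₂ (w % N) with h | h
    · exact ⟨_, Nat.mod_lt _ L.pos, Or.inr h, nw⟩
    · obtain ⟨v, hv, e⟩ := Tch.of_l hp (tw' (Tch.l h))
      exact ⟨v, by omega, Or.inl hv, by rw [e]; exact nw⟩
  -- first and last gap
  obtain ⟨sf, hsf, -, hfmin⟩ := first (T := 0) (S := S) ⟨sb, Q.b, Nat.zero_le _⟩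
  obtain ⟨sl, hsl, hlmax⟩ := last R.sN ⟨sb, Q.b⟩
  have hf0 := hfmin sb Q.b (Nat.zero_le _)
  have hl2' := hlmax s₂ Q.m2
  have hlN := R.sN sl hsl
  -- the cell of the last gap is the cell of the first gap
  have hwrap : lc M (cfg M χ) p sf = lc M (cfg M χ) p (sl + 1) := by
    obtain ⟨s', hs', e'⟩ := R.nxt sl hsl
    rcases lt_or_eq_of_le (hfmin s' hs' (Nat.zero_le _)) with h3 | h3
    · exfalso
      exact R.sep' hsf hsl (by omega) (u := s') (v := sl + 1) h3 (hlmax s' hs') (by omega)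
        (Or.inr (by omega)) e'
    · rw [h3]; exact e'
  have hsep : lc M (cfg M χ) p sf ≠ lc M (cfg M χ) p v0 := fun e =>
    R.sep' hsf hsl (by omega) (u := v0) (v := sf) (by omega) (by omega) (by omega)
      (Or.inl le_rfl) e.symm
  by_cases hA : ∃ s ∈ S, u' ≤ s
  · obtain ⟨sp, hsp, hsp1, hspmin⟩ := first hA
    by_cases hB : ∃ s ∈ S, s < u'
    · -- between two gaps
      obtain ⟨sm, hsm, hsm1, hsmmax⟩ := lastb hB
      have hlt : sm < sp := by omega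
      have hspN := R.sN sp hsp
      have hc : lc M (cfg M χ) p sp = lc M (cfg M χ) p (sm + 1) := by
        obtain ⟨s', hs', e'⟩ := R.nxt sm hsm
        have hs'N := R.sN s' hs'
        rcases Nat.lt_or_ge s' u' with h3 | h3
        · exfalso
          have := hsmmax s' hs' h3
          exact R.sep' hsm hsp hlt (u := sm + 1) (v := s') (by omega) (by omega) (by omega)
            (Or.inl (by omega)) e'.symm
        · rcases lt_or_eq_of_le (hspmin s' hs' h3) with h4 | h4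
          · exfalso
            exact R.sep' hsm hsp hlt (u := sm + 1) (v := s') (by omega) (by omega) (by omega)
              (Or.inr h4) e'.symm
          · rw [h4]; exact e'
      have hne1 : u' ≠ sp := fun e => hno sp hsp (by rw [e])
      have hne2 : u' ≠ sm + 1 := fun e => hno sp hsp (by rw [e, hc])
      have key : ∀ v, v < N → Nt M F (lc M (cfg M χ) p v) → sm < v ∧ v ≤ sp := by
        intro v hv nv
        by_contra hcon
        rcases Nat.lt_or_ge sm v with h3 | h3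
        · have h4 : sp < v := by omega
          rcases nc_a L hF hl hr (i := sm + 1) (j := u') (k := sp) (l := v) (by omega) (by omega)
            h4 hv hu nv hc.symm with h5 | h5
          · exact hno sp hsp (hc.trans h5)
          · exact R.sep' hsm hsp hlt (u := sm + 1) (v := v) (by omega) (by omega) hv.le
              (Or.inr h4) h5
        · rcases nc_b L hF hl hr (i := v) (j := sm + 1) (k := u') (l := sp) (by omega) (by omega)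
            (by omega) hspN nv hu hc.symm with h5 | h5
          · exact R.sep' hsm hsp hlt (u := sm + 1) (v := v) (by omega) (by omega) hv.le
              (Or.inl h3) h5
          · exact hno sp hsp (hc.trans h5)
      have k0 := key v0 (by omega) nv0
      have k1 := key v1 (by omega) nv1
      have k2 := key v2 hv2 nv2
      rcases hv2' with h3 | h3
      · -- the gap `s₀` is strictly between
        rcases Nat.lt_or_ge s₀ u' with h4 | h4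
        · have := hsmmax s₀ Q.m0 h4
          omega
        · have := hspmin s₀ Q.m0 h4
          omega
      · -- the gap `s₁` is strictly between
        rcases Nat.lt_or_ge s₁ u' with h4 | h4
        · have := hsmmax s₁ Q.m1 h4
          omega
        · have := hspmin s₁ Q.m1 h4
          omega
    · -- before the first gap
      have h3 : u' ≤ sf := by
        by_contra hcon
        exact hB ⟨sf, hsf, by omega⟩
      have hne1 : u' ≠ sf := fun e => hno sf hsf (by rw [e])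
      rcases Nat.lt_or_ge (sl + 1) N with h4 | h4
      · rcases nc_b L hF hl hr (i := u') (j := sf) (k := v0) (l := sl + 1) (by omega) (by omega)
          (by omega) h4 hu nv0 hwrap with h5 | h5
        · exact hno sf hsf h5
        · exact hsep h5
      · have hw0 : lc M (cfg M χ) p 0 = lc M (cfg M χ) p sf := by
          rw [hwrap, show sl + 1 = N + 0 by omega, lc_per L]
        have hu0 : u' ≠ 0 := fun e => hno sf hsf (by rw [e, hw0])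
        rcases nc_a L hF hl hr (i := 0) (j := u') (k := sf) (l := v0) (by omega) (by omega)
          (by omega) (by omega) hu nv0 hw0 with h5 | h5
        · exact hno sf hsf (hw0.symm.trans h5)
        · exact hsep (hw0.symm.trans h5)
  · -- after the last gap
    have h3 : sl < u' := by
      by_contra hcon
      exact hA ⟨sl, hsl, by omega⟩
    have hne1 : u' ≠ sl + 1 := fun e => hno sf hsf (by rw [e, hwrap])
    rcases nc_a L hF hl hr (i := sf) (j := v0) (k := sl + 1) (l := u') (by omega) (by omega)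
      (by omega) hu'N nv0 hu hwrap with h5 | h5
    · exact hsep h5
    · exact hno sf hsf h5

/-- **a free connected set next to the three classes is next to cells of the block only** -/
theorem Ring3.kin (R : Ring3 M χ p N t₀ t₁ t₂ a₀ a₁ a₂ S) {F : Set C} (hF : Cn M F)
    (hl : ∀ u, lc M (cfg M χ) p u ∉ F) (hr : ∀ u, rc M (cfg M χ) p u ∉ F)
    (hn : ∀ j : Fin 3, ∃ u, Nt M F (lc M (cfg M χ) p u) ∧
      lc M (cfg M χ) p u ∈ Cj M (cfg M χ) p t₀ t₁ t₂ j)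
    {u : ℕ} (hu : Nt M F (lc M (cfg M χ) p u)) :
    ∃ s ∈ S, lc M (cfg M χ) p s = lc M (cfg M χ) p u := by
  obtain ⟨sb, s₀, s₁, s₂, Q⟩ := R.fs
  exact R.toBlk.kin Q hF hl hr hn hu

/-- the data of one block of a loop -/
theorem blk_of (L : Lp M (cfg M χ) p N) {g₀ : D} (hg₀ : Gp M (cfg M χ) g₀) :
    Blk M χ p N (St M (cfg M χ) p N g₀) :=
  ⟨L, fun _ h => h.1, fun _ h _ h' hlt => St.sep L hg₀ h h' hlt, fun _ h => St.nxt L hg₀ h,
    fun _ h => St.prv L hg₀ h⟩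

end Crest.Agent.R143.Jun2x43
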