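import Crest.Agent.R143.K33D_877
import Crest.Agent.R143.Bsum_848

/-!
# Row 143 (S0194), CONT (K6): networks give three classes (helper723)

* `sd N i` = the side `i` of the network `N` (joined to the head of the mark `i` by walls)
* `dich` : all amplitudes vanish, or the three sides are disjoint
* `tr` : `HNet S N`, disjoint sides: `K33x877.Tr S (sd N)`
* `pg` : the polygon `RE0x723.Pg S n w 2 p A`
-/

set_option autoImplicit false

noncomputable section

open scoped Classical

namespace Crest.Agent.R143.K6x723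

open Set
open Crest.Agent.R143.B0x346 Crest.Agent.R143.DelGx806 Crest.Agent.R143.DelRx806
  Crest.Agent.R143.JColx54 Crest.Agent.R143.RE0x723 Crest.Agent.R143.Sidesx697
open Crest.Agent.R143.J1x872 (cases_z3 Good)
open Crest.Agent.R143.Bsumx848 (wall_hull exists_side side_hull side_disj pair_join z3c)

variable {S : Finset ℂ} {N : Net ℂ} {v x y : ℂ} {i j : ZMod 3}

/-- the side `i` as a set -/
def sd (N : Net ℂ) (i : ZMod 3) : Set ℂ := {v | Side N i v}

/-- the sides are disjoint -/
def DS (N : Net ℂ) : Prop := ∀ i j v, Side N i v → Side N j v → i = j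

/-- **all amplitudes vanish, or the sides are disjoint** -/
theorem dich (h : HNet S N) : (∀ t ∈ N.T, N.Q t = 0) ∨ DS N := by
  by_cases h0 : ∀ t ∈ N.T, N.Q t = 0
  · exact Or.inl h0
  refine Or.inr ?_
  push Not at h0
  obtain ⟨⟨a, b, c⟩, ht, hQ⟩ := h0
  have hg := J1x872.good_of_hnet h
  have hP : J1x872.P1 N (a, b, c) := Rel2x63.p1all N S h _ (by rw [← h.tri]; exact ht)
  have hex : ∃ k, ∃ J ∈ N.tj (a, b, c), N.Tri3 (a, b, c) k J := by
    by_contra hn
    push Not at hn
    apply hQ
    unfold Net.Q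
    refine Finset.sum_eq_zero fun k _ => ?_
    have : N.triA (a, b, c) k = 0 := by
      unfold Net.triA
      rw [Finset.filter_false_of_mem fun J hJ => hn k J hJ]
      simp
    rw [this]
    simp
  obtain ⟨k, J, hJ, hT⟩ := hex
  intro i j v h1 h2
  exact side_disj (marks3_of h) (hasCol h) (pair_join hg ht hP hJ hT) h1 h2

theorem adj_of_E (h : HNet S N) (hxy : (x, y) ∈ N.E) : Adj S x y := by
  unfold Trg.E at hxy
  rw [Finset.mem_union, Finset.mem_image, Finset.mem_image] at hxy
  rcases hxy with ⟨⟨a, b, c⟩, ht, he⟩ | ⟨⟨a, b, c⟩, ht, he⟩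
  · obtain ⟨rfl, rfl⟩ := Prod.mk.inj he
    rw [h.tri] at ht
    exact Or.inl ⟨c, ht⟩
  · obtain ⟨rfl, rfl⟩ := Prod.mk.inj he
    rw [h.tri] at ht
    exact Or.inr ⟨c, ht⟩

theorem adj_wall (h : HNet S N) (hw : Wall N x y) : Adj S x y := adj_of_E h hw.1

theorem wall_symm (hw : Wall N x y) : Wall N y x := by
  obtain ⟨h1, h2, h3, h4⟩ := hw
  refine ⟨?_, h3, h2, ?_⟩
  · unfold Trg.E at h1 ⊢
    rw [Finset.mem_union, Finset.mem_image, Finset.mem_image] at h1 ⊢
    rcases h1 with ⟨t, ht, he⟩ | ⟨t, ht, he⟩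
    · exact Or.inr ⟨t, ht, by obtain ⟨rfl, rfl⟩ := Prod.mk.inj he; rfl⟩
    · exact Or.inl ⟨t, ht, by obtain ⟨rfl, rfl⟩ := Prod.mk.inj he; rfl⟩
  · rcases h4 with h4 | h4 | h4
    · exact Or.inl (N.klsym _ _ h4)
    · exact Or.inr (Or.inr h4)
    · exact Or.inr (Or.inl h4)

theorem side_tail (h1 : Side N i x) (hw : Wall N x y) : Side N i y :=
  Relation.ReflTransGen.tail h1 hw

theorem head_mem (h : HNet S N) (i : ZMod 3) : (N.ex i).2 ∈ S := (hullE.mem (h.hex i)).2

theorem sub (h : HNet S N) (i : ZMod 3) : sd N i ⊆ (S : Set ℂ) := by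
  intro v hv
  have hv' : Side N i v := hv
  unfold Side at hv'
  induction hv' with
  | refl => exact Finset.mem_coe.2 (head_mem h i)
  | tail _ hw _ => exact Finset.mem_coe.2 (adj_wall h hw).mem.2

theorem pth_head (h : HNet S N) (hv : v ∈ sd N i) : Pth S (sd N i) (N.ex i).2 v := by
  have hv' : Side N i v := hv
  unfold Side at hv'
  have h0 : (N.ex i).2 ∈ sd N i := Relation.ReflTransGen.refl
  clear hv
  induction hv' with
  | refl => exact Pth.refl h0
  | @tail b c h1 hw ih => exact ih.tail (adj_wall h hw) (Relation.ReflTransGen.tail h1 hw)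

theorem con (h : HNet S N) (i : ZMod 3) : ∀ x ∈ sd N i, ∀ y ∈ sd N i, Pth S (sd N i) x y :=
  fun _ hx _ hy => (pth_head h hx).symm.trans (pth_head h hy)

/-- a hull edge which is not a mark joins two sites of the same side -/
theorem hull_mark (h : HNet S N) (hd : DS N) (hE : hullE S x y) (hx : x ∈ sd N i)
    (hy : y ∈ sd N j) (hij : i ≠ j) : ∃ k, N.ex k = (x, y) ∧ j = k ∧ k = i + 1 := by
  by_cases hm : (x, y) ∈ N.exS
  · obtain ⟨k, hk⟩ := hm
    have h1 : Side N k y := by
      have : (N.ex k).2 = y := by rw [hk]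
      rw [← this]
      exact Relation.ReflTransGen.refl
    have h2 : Side N (k + 2) x := by
      have h3 := (marks3_of h).next (k + 2)
      have e : k + 2 + 1 = k := by
        have : ∀ k : ZMod 3, k + 2 + 1 = k := by decide
        exact this k
      rw [e, hk] at h3
      exact h3
    have e1 := hd _ _ _ hy h1
    have e2 := hd _ _ _ hx h2
    refine ⟨k, hk, e1, ?_⟩
    rw [e2]
    have : ∀ k : ZMod 3, k = k + 2 + 1 := by decide
    exact this k
  · exact absurd (hd _ _ _ (side_tail hx (wall_hull h hE hm)) hy) hij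

/-- **three classes** -/
theorem tr (h : HNet S N) (hd : DS N) : K33x877.Tr S (sd N) where
  gp := h.gp
  sub := sub h
  disj := by
    intro i j hij
    rw [Set.disjoint_left]
    exact fun v h1 h2 => hij (hd _ _ _ h1 h2)
  con := con h
  hull := by
    intro a b hE
    obtain ⟨i, hi⟩ := exists_side h hE
    exact ⟨i, hi⟩
  one := by
    intro i j hij
    have hM := marks3_of h
    have nx : ∀ k : ZMod 3, (N.ex (k + 1)).1 ∈ sd N k := fun k => hM.next k
    have hd' : ∀ k : ZMod 3, (N.ex k).2 ∈ sd N k := fun k => Relation.ReflTransGen.refl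
    rcases z3c i j hij with e | e
    · -- j = i + 1
      subst e
      refine ⟨(N.ex (i + 1)).1, (N.ex (i + 1)).2, Or.inl (h.hex _), nx i, hd' _, ?_⟩
      rintro a' b' (hE | hE) ha hb
      · obtain ⟨k, hk, e1, -⟩ := hull_mark h hd hE ha hb hij
        rw [e1, hk]
        exact ⟨rfl, rfl⟩
      · obtain ⟨k, hk, e1, e2⟩ := hull_mark h hd hE hb ha hij.symm
        exfalso
        rw [← e1] at e2
        have : ∀ i : ZMod 3, i ≠ i + 1 + 1 := by decide
        exact this i e2
    · -- i = j + 1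
      subst e
      refine ⟨(N.ex (j + 1)).2, (N.ex (j + 1)).1, Or.inr (h.hex _), hd' _, nx j, ?_⟩
      rintro a' b' (hE | hE) ha hb
      · obtain ⟨k, hk, e1, e2⟩ := hull_mark h hd hE ha hb hij
        exfalso
        rw [← e1] at e2
        have : ∀ i : ZMod 3, i ≠ i + 1 + 1 := by decide
        exact this j e2
      · obtain ⟨k, hk, e1, -⟩ := hull_mark h hd hE hb ha hij.symm
        rw [e1, hk]
        exact ⟨rfl, rfl⟩

/-- **the polygon** -/
theorem pg (h : HNet S N) (hd : DS N) : ∃ n w m, HullCyc S n w ∧ Pos N n w m ∧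
    Pg S n w 2 (fun j => m j) (fun j => S.filter (Side N (j : ZMod 3))) := by
  obtain ⟨n, w, H⟩ := hull_cycle h.gp (card3 h)
  obtain ⟨m, P⟩ := exists_pos h H
  have m3 : m 3 = m 0 + n := by have := P.per 0; simpa using this
  have coe : ∀ i : ZMod 3, ((S.filter (Side N i) : Finset ℂ) : Set ℂ) = sd N i := by
    intro i
    ext v
    rw [Finset.mem_coe, Finset.mem_filter]
    exact ⟨fun h => h.2, fun h' => ⟨Finset.mem_coe.1 (sub h i h'), h'⟩⟩
  have arc : ∀ (j : ℕ) (l : ℤ), m j < l → l ≤ m (j + 1) → w l ∈ S.filter (Side N (j : ZMod 3)) := by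
    intro j l h1 h2
    have h3 := side_hull h H P j (l - (m j + 1)).toNat (by omega)
    rw [show m j + 1 + ((l - (m j + 1)).toNat : ℤ) = l by omega] at h3
    rw [Finset.mem_filter]
    exact ⟨(hullE.mem (H.edge l)).1, by simpa using h3⟩
  refine ⟨n, w, m, H, P, ⟨h.gp, H, fun j _ => P.mono (by push_cast; omega), ?_, fun _ _ =>
    Finset.filter_subset _ _, ?_, ?_, ?_, ?_⟩⟩
  · have := P.mono (show (2 : ℤ) < 3 by norm_num)
    simp only [Nat.cast_ofNat, Nat.cast_zero]
    omega
  · intro i j hi hj hij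
    rw [Finset.disjoint_left]
    intro v h1 h2
    have h3 := hd _ _ _ (Finset.mem_filter.1 h1).2 (Finset.mem_filter.1 h2).2
    interval_cases i <;> interval_cases j <;> first | exact hij rfl | exact absurd h3 (by decide)
  · intro j _ x hx y hy
    rw [coe]
    exact con h _ x (Finset.mem_filter.1 hx).2 y (Finset.mem_filter.1 hy).2
  · intro j _ l h1 h2
    exact arc j l h1 (by push_cast at h2; exact h2)
  · intro l h1 h2
    have := arc 2 l h1 (by
      simp only [Nat.cast_zero] at h2
      have e : m ((2 : ℕ) + 1) = m 3 := by norm_num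
      rw [e, m3]
      exact h2)
    exact this

/-- free sites -/
theorem mem_fr (h : HNet S N) : v ∈ K33x877.fr S (sd N) ↔ v ∈ S ∧ ∀ i, ¬ Side N i v := Iff.rfl

end Crest.Agent.R143.K6x723
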