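import Crest.Agent.R143.LocC_873

/-!
# Row 143, leaf LOC, part D: the exploration with a history dependent rule

`rl x` = stopping set of the step which starts at the state `x` (path followed so far, tip).
* `nx x J` = next state; `st n x J` = state after `n` steps; `cost` = sum of `F` over the steps.
* `tower` : for `f`, `r` : triangles → ℂ, `ψ` : states → ℂ,
  `nf M * ‖aQ M ((f - ψ x) r)‖ ≤ ∑ J ∈ wj M d, (cost n x J + ‖X (st n x J)‖)`, `M = knet N x.1`.
-/

set_option autoImplicit false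

noncomputable section

open scoped Classical

namespace Crest.Agent.R143.LocDx873

open Crest.Agent.R143.B0x346 Crest.Agent.R143.JCardx872 Crest.Agent.R143.JWalkx872
  Crest.Agent.R143.J1x872 Crest.Agent.R143.J4x872 Crest.Agent.R143.LocAx873
  Crest.Agent.R143.LocBx873 Crest.Agent.R143.LocCx873

section comb

variable {V : Type} {d s : ZMod 3} {J : Finset (V × V)} {N : Net V} {t : V × V × V}

/-- next state -/
def nx (N : Net V) (d s : ZMod 3) (rl : Sta V → V × V → Prop) (x : Sta V) (J : Finset (V × V)) :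
    Sta V := sPath N.toTrg ∅ (Dd N d) (rl x) (N.ex s) J

/-- state after `n` steps -/
def st (N : Net V) (d s : ZMod 3) (rl : Sta V → V × V → Prop) : ℕ → Sta V → Finset (V × V) → Sta V
  | 0, x, _ => x
  | n + 1, x, J => st N d s rl n (nx N d s rl x J) J

/-- sum of `F` over the first `n` steps -/
def cost (N : Net V) (d s : ZMod 3) (rl : Sta V → V × V → Prop) (F : Sta V → Sta V → ℝ) :
    ℕ → Sta V → Finset (V × V) → ℝ
  | 0, _, _ => 0
  | n + 1, x, J => F x (nx N d s rl x J) + cost N d s rl F n (nx N d s rl x J) J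

theorem cost_eq (rl : Sta V → V × V → Prop) (F : Sta V → Sta V → ℝ) : ∀ (n : ℕ) (x : Sta V),
    cost N d s rl F n x J =
      ∑ j ∈ Finset.range n, F (st N d s rl j x J) (st N d s rl (j + 1) x J)
  | 0, x => by simp [cost]
  | n + 1, x => by
    rw [Finset.sum_range_succ', cost, cost_eq rl F n (nx N d s rl x J), add_comm]
    rfl

theorem st_succ (rl : Sta V → V × V → Prop) : ∀ (n : ℕ) (x : Sta V),
    st N d s rl (n + 1) x J = nx N d s rl (st N d s rl n x J) J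
  | 0, x => rfl
  | n + 1, x => by
    rw [st, st_succ rl n (nx N d s rl x J)]
    rfl

/-- the state is reached by some join -/
def Vd (N : Net V) (d s : ZMod 3) (x : Sta V) : Prop :=
  ∃ J ∈ wj N d, Fol N.toTrg ∅ (Dd N d) J (N.ex s) x.1 x.2

/-- the rule avoids the past -/
def Avo (rl : Sta V → V × V → Prop) : Prop := ∀ x : Sta V, ∀ a ∈ x.1, ¬ rl x a.1

theorem nx_stopped (hg : Good N) (hds : s ≠ d) {rl : Sta V → V × V → Prop} {x : Sta V}
    (hJ : J ∈ wj N d) : Stopped N.toTrg ∅ (Dd N d) (rl x) J (N.ex s) (nx N d s rl x J).1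
      (nx N d s rl x J).2 :=
  sPath_spec (mem_joins.1 hJ) rotInv_empty (ex_Dd hg hds) (rl x)

theorem nx_vd (hg : Good N) (hds : s ≠ d) {rl : Sta V → V × V → Prop} {x : Sta V}
    (hJ : J ∈ wj N d) : Vd N d s (nx N d s rl x J) :=
  ⟨J, hJ, (nx_stopped hg hds hJ).1⟩

theorem mem_wj_knet (hg : Good N) (hds : s ≠ d) {x : Sta V} (hx : Vd N d s x) :
    J ∈ wj (knet N x.1) d ↔ J ∈ wj N d ∧ Fol N.toTrg ∅ (Dd N d) J (N.ex s) x.1 x.2 := by
  rw [wj_knet_eq hg hds hx, Finset.mem_filter]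

theorem card_vd (hg : Good N) (hds : s ≠ d) {x : Sta V} (hx : Vd N d s x) :
    (wj (knet N x.1) d).card = nf (knet N x.1) := by
  obtain ⟨J, hJ, hf⟩ := hx
  exact bd_knet hg x.1 Dd_sub ⟨J, (mem_wj_knet hg hds ⟨J, hJ, hf⟩).2 ⟨hJ, hf⟩⟩

/-- the next state extends the state -/
theorem nx_prefix (hg : Good N) (hds : s ≠ d) {rl : Sta V → V × V → Prop} (hrl : Avo rl)
    {x : Sta V} (hJ : J ∈ wj N d) (hf : Fol N.toTrg ∅ (Dd N d) J (N.ex s) x.1 x.2) :
    ∃ K, (nx N d s rl x J).1 = x.1 ++ K ∧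
      Stopped N.toTrg ∅ (Dd N d) (rl x) J x.2 K (nx N d s rl x J).2 :=
  prefix_stop _ _ _ _ _ hf (hrl x) (nx_stopped hg hds hJ)

theorem nx_unc (hg : Good N) (hds : s ≠ d) {rl : Sta V → V × V → Prop} (hrl : Avo rl)
    {x : Sta V} (hJ : J ∈ wj N d) (hf : Fol N.toTrg ∅ (Dd N d) J (N.ex s) x.1 x.2) :
    unc x.1 ⊆ unc (nx N d s rl x J).1 := by
  obtain ⟨K, hK, _⟩ := nx_prefix hg hds hrl hJ hf
  rw [hK, unc_append]
  exact Set.subset_union_left

end comb

section frame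

variable {S : Finset ℂ} {N : Net ℂ} {d s : ZMod 3}

/-- `aQ` in the net of the path `L` (zero if a mark is cut off) -/
def aX (N : Net ℂ) (u : ℂ × ℂ × ℂ → ℂ) (L : List ((ℂ × ℂ) × (ℂ × ℂ))) : ℂ :=
  if Lv N L then aQ (knet N L) u else 0

/-- there is a three leg join in the net of the path -/
def Al (N : Net ℂ) (L : List ((ℂ × ℂ) × (ℂ × ℂ))) : Prop :=
  Lv N L ∧ ∃ t ∈ N.T, ∃ k, ∃ J ∈ (knet N L).tj t, N.Tri3 t k J

theorem aX_dead {L : List ((ℂ × ℂ) × (ℂ × ℂ))} (h : ¬ Al N L) (u : ℂ × ℂ × ℂ → ℂ) :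
    aX N u L = 0 := by
  unfold aX
  split_ifs with hL
  · refine Finset.sum_eq_zero fun t ht => ?_
    have : (knet N L).Q t = 0 := by
      by_contra hq
      obtain ⟨k, J, hJ, h3⟩ := exists_tri3 hq
      exact h ⟨hL, t, ht, k, J, hJ, h3⟩
    rw [this, mul_zero]
  · rfl

theorem aX_add (u v : ℂ × ℂ × ℂ → ℂ) (L : List ((ℂ × ℂ) × (ℂ × ℂ))) :
    aX N (fun t => u t + v t) L = aX N u L + aX N v L := by
  unfold aX aQ
  split_ifs
  · rw [← Finset.sum_add_distrib]
    exact Finset.sum_congr rfl fun t _ => add_mul _ _ _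
  · simp

theorem aX_smul (c : ℂ) (u : ℂ × ℂ × ℂ → ℂ) (L : List ((ℂ × ℂ) × (ℂ × ℂ))) :
    aX N (fun t => c * u t) L = c * aX N u L := by
  unfold aX aQ
  split_ifs
  · rw [Finset.mul_sum]
    exact Finset.sum_congr rfl fun t _ => mul_assoc _ _ _
  · simp

/-- one step of the exploration, averaged over the joins -/
theorem step_avg (h : HNet S N) (hds : s ≠ d) {rl : Sta ℂ → ℂ × ℂ → Prop} (hrl : Avo rl)
    {x : Sta ℂ} (hx : Vd N d s x) (hLv : Lv N x.1) (u : ℂ × ℂ × ℂ → ℂ) :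
    ‖(nf (knet N x.1) : ℂ) * aX N u x.1 -
      ∑ J ∈ wj (knet N x.1) d, aX N u (nx N d s rl x J).1‖ ≤
      (nf (knet N x.1) : ℝ) * (2 * √3 * √(∑ t ∈ Bs (knet N x.1) (rl x), ‖u t‖ ^ 2)) := by
  have hg := good_of_hnet h
  set M := knet N x.1 with hM
  have hHM : HNet S M := hnet_knet' h hLv
  have hgM := good_of_hnet hHM
  have h1 := one_step hHM hds (rl x) u
  -- the sum over the joins
  have e1 : ∑ J ∈ wj M d, aX N u (nx N d s rl x J).1 =
      ∑ J ∈ wj M d, (fun y : Sta ℂ => if Lv M y.1 then aQ (knet M y.1) u else 0)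
        (sPath M.toTrg ∅ (Dd M d) (rl x) (M.ex s) J) := by
    refine Finset.sum_congr rfl fun J hJ => ?_
    have hJ' := (mem_wj_knet hg hds hx).1 hJ
    have hk := knet_knet (N := N) (nx_unc hg hds hrl hJ'.1 hJ'.2)
    change aX N u (nx N d s rl x J).1 =
      if Lv N (nx N d s rl x J).1 then aQ (knet M (nx N d s rl x J).1) u else 0
    rw [hM, hk]
    rfl
  have e2 : ∑ J ∈ wj M d, aX N u (nx N d s rl x J).1 =
      (nf M : ℂ) * ∑ y ∈ LP M d s (rl x), (pw M y.1 : ℂ) * aQ (knet M y.1) u := by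
    rw [e1, sum_joins_sta hgM hds (rl x)
      (fun y : Sta ℂ => if Lv M y.1 then aQ (knet M y.1) u else 0)]
    unfold LP
    rw [Finset.sum_filter, Finset.mul_sum]
    refine Finset.sum_congr rfl fun y _ => ?_
    have hn : (nf M : ℂ) ≠ 0 := by
      have := nf_pos M
      exact_mod_cast this.ne'
    split_ifs
    · rw [nsmul_eq_mul]
      unfold pw
      push_cast
      field_simp
    · simp
  have e3 : aX N u x.1 = aQ M u := if_pos hLv
  rw [e2, e3, ← mul_sub, norm_mul, Complex.norm_natCast]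
  exact mul_le_mul_of_nonneg_left h1 (Nat.cast_nonneg _)

/-- the error of a step -/
def err (N : Net ℂ) (rl : Sta ℂ → ℂ × ℂ → Prop) (f r : ℂ × ℂ × ℂ → ℂ) (ψ : Sta ℂ → ℂ)
    (x : Sta ℂ) : ℝ :=
  2 * √3 * √(∑ t ∈ Bs (knet N x.1) (rl x), ‖(f t - ψ x) * r t‖ ^ 2)

/-- the cost of a step -/
def Fc (N : Net ℂ) (rl : Sta ℂ → ℂ × ℂ → Prop) (f r : ℂ × ℂ × ℂ → ℂ) (ψ : Sta ℂ → ℂ)
    (x y : Sta ℂ) : ℝ :=
  if Al N x.1 then err N rl f r ψ x + ‖ψ y - ψ x‖ * ‖aX N r y.1‖ else 0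

theorem err_nonneg (rl : Sta ℂ → ℂ × ℂ → Prop) (f r : ℂ × ℂ × ℂ → ℂ) (ψ : Sta ℂ → ℂ)
    (x : Sta ℂ) : 0 ≤ err N rl f r ψ x := by
  unfold err
  positivity

theorem Fc_nonneg (rl : Sta ℂ → ℂ × ℂ → Prop) (f r : ℂ × ℂ × ℂ → ℂ) (ψ : Sta ℂ → ℂ)
    (x y : Sta ℂ) : 0 ≤ Fc N rl f r ψ x y := by
  unfold Fc
  split_ifs
  · have := err_nonneg (N := N) rl f r ψ x
    positivity
  · exact le_refl _

/-- centred sum in the net of a state -/
def Xc (N : Net ℂ) (f r : ℂ × ℂ × ℂ → ℂ) (ψ : Sta ℂ → ℂ) (x : Sta ℂ) : ℂ :=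
  aX N (fun t => (f t - ψ x) * r t) x.1

theorem cost_nonneg (rl : Sta ℂ → ℂ × ℂ → Prop) (f r : ℂ × ℂ × ℂ → ℂ) (ψ : Sta ℂ → ℂ) (n : ℕ)
    (x : Sta ℂ) (J : Finset (ℂ × ℂ)) : 0 ≤ cost N d s rl (Fc N rl f r ψ) n x J := by
  rw [cost_eq]
  exact Finset.sum_nonneg fun j _ => Fc_nonneg rl f r ψ _ _

/-- **the tower** -/
theorem tower (h : HNet S N) (hds : s ≠ d) {rl : Sta ℂ → ℂ × ℂ → Prop} (hrl : Avo rl)
    (f r : ℂ × ℂ × ℂ → ℂ) (ψ : Sta ℂ → ℂ) : ∀ (n : ℕ) (x : Sta ℂ), Vd N d s x →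
    (nf (knet N x.1) : ℝ) * ‖Xc N f r ψ x‖ ≤
      ∑ J ∈ wj (knet N x.1) d,
        (cost N d s rl (Fc N rl f r ψ) n x J + ‖Xc N f r ψ (st N d s rl n x J)‖) := by
  have hg := good_of_hnet h
  intro n
  induction n with
  | zero =>
    intro x hx
    simp only [cost, st, zero_add]
    rw [Finset.sum_const, card_vd hg hds hx, nsmul_eq_mul]
  | succ n ih =>
    intro x hx
    by_cases hAl : Al N x.1
    swap
    · have : Xc N f r ψ x = 0 := aX_dead hAl _
      rw [this, norm_zero, mul_zero]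
      refine Finset.sum_nonneg fun J _ => ?_
      exact add_nonneg (cost_nonneg rl f r ψ _ _ _) (norm_nonneg _)
    have hLv := hAl.1
    have hHM : HNet S (knet N x.1) := hnet_knet' h hLv
    have hgM := good_of_hnet hHM
    set u : ℂ × ℂ × ℂ → ℂ := fun t => (f t - ψ x) * r t with hu
    have h1 := step_avg h hds hrl hx hLv u
    have h2 : (nf (knet N x.1) : ℝ) * ‖Xc N f r ψ x‖ ≤
        ‖∑ J ∈ wj (knet N x.1) d, aX N u (nx N d s rl x J).1‖ +
          (nf (knet N x.1) : ℝ) * err N rl f r ψ x := by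
      have e : (nf (knet N x.1) : ℝ) * ‖Xc N f r ψ x‖ =
          ‖(nf (knet N x.1) : ℂ) * aX N u x.1‖ := by
        rw [norm_mul, Complex.norm_natCast]
        rfl
      rw [e]
      have := norm_sub_norm_le ((nf (knet N x.1) : ℂ) * aX N u x.1)
        (∑ J ∈ wj (knet N x.1) d, aX N u (nx N d s rl x J).1)
      have h1' : ‖(nf (knet N x.1) : ℂ) * aX N u x.1 -
        ∑ J ∈ wj (knet N x.1) d, aX N u (nx N d s rl x J).1‖ ≤
          (nf (knet N x.1) : ℝ) * err N rl f r ψ x := h1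
      linarith
    -- split of the field at the next state
    have h3 : ∀ y : Sta ℂ, ‖aX N u y.1‖ ≤ ‖Xc N f r ψ y‖ + ‖ψ y - ψ x‖ * ‖aX N r y.1‖ := by
      intro y
      have e : aX N u y.1 = Xc N f r ψ y + (ψ y - ψ x) * aX N r y.1 := by
        unfold Xc
        rw [← aX_smul, ← aX_add]
        congr 1
        funext t
        rw [hu]
        ring
      rw [e, ← norm_mul]
      exact norm_add_le _ _
    have h4 : ‖∑ J ∈ wj (knet N x.1) d, aX N u (nx N d s rl x J).1‖ ≤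
        ∑ J ∈ wj (knet N x.1) d, (‖Xc N f r ψ (nx N d s rl x J)‖ +
          ‖ψ (nx N d s rl x J) - ψ x‖ * ‖aX N r (nx N d s rl x J).1‖) :=
      (norm_sum_le _ _).trans (Finset.sum_le_sum fun J _ => h3 _)
    -- induction hypothesis
    have h5 : ∑ J ∈ wj (knet N x.1) d, ‖Xc N f r ψ (nx N d s rl x J)‖ ≤
        ∑ J ∈ wj (knet N x.1) d,
          (cost N d s rl (Fc N rl f r ψ) n (nx N d s rl x J) J +
            ‖Xc N f r ψ (st N d s rl n (nx N d s rl x J) J)‖) := by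
      have e1 := sum_joins_sta (N := knet N x.1) hgM hds (rl x)
        (fun y : Sta ℂ => ‖Xc N f r ψ y‖)
      have e2 := sum_joins (N := knet N x.1) hgM hds (rl x)
        (fun J => cost N d s rl (Fc N rl f r ψ) n (nx N d s rl x J) J +
            ‖Xc N f r ψ (st N d s rl n (nx N d s rl x J) J)‖)
      have e1' : ∑ J ∈ wj (knet N x.1) d, ‖Xc N f r ψ (nx N d s rl x J)‖ =
          ∑ y ∈ SP (knet N x.1) d s (rl x), nf (knet (knet N x.1) y.1) • ‖Xc N f r ψ y‖ := e1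
      rw [e1', e2]
      refine Finset.sum_le_sum fun y hy => ?_
      obtain ⟨J0, hJ0, hJy⟩ := Finset.mem_image.1 hy
      have hJ0' := (mem_wj_knet hg hds hx).1 hJ0
      have hy' : nx N d s rl x J0 = y := hJy
      have hyv : Vd N d s y := hy' ▸ nx_vd hg hds hJ0'.1
      have hkk : knet (knet N x.1) y.1 = knet N y.1 :=
        knet_knet (hy' ▸ nx_unc hg hds hrl hJ0'.1 hJ0'.2)
      rw [hkk, nsmul_eq_mul]
      refine (ih y hyv).trans (le_of_eq ?_)
      refine Finset.sum_congr rfl fun J hJ => ?_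
      have hJf : J ∈ (wj (knet N x.1) d).filter (fun J => sPath (knet N x.1).toTrg ∅
          (Dd (knet N x.1) d) (rl x) ((knet N x.1).ex s) J = y) := by
        rw [fiber hgM hds hy, hkk]
        exact hJ
      have e3 : nx N d s rl x J = y := (Finset.mem_filter.1 hJf).2
      rw [e3]
    -- assembly
    have hc := card_vd hg hds hx
    have e6 : (nf (knet N x.1) : ℝ) * err N rl f r ψ x =
        ∑ J ∈ wj (knet N x.1) d, err N rl f r ψ x := by
      rw [Finset.sum_const, hc, nsmul_eq_mul]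
    refine h2.trans ?_
    rw [e6]
    refine (add_le_add h4 (le_refl _)).trans ?_
    rw [Finset.sum_add_distrib]
    refine (add_le_add (add_le_add h5 (le_refl _)) (le_refl _)).trans (le_of_eq ?_)
    rw [← Finset.sum_add_distrib, ← Finset.sum_add_distrib]
    refine Finset.sum_congr rfl fun J _ => ?_
    change _ = (Fc N rl f r ψ x (nx N d s rl x J) +
      cost N d s rl (Fc N rl f r ψ) n (nx N d s rl x J) J) +
        ‖Xc N f r ψ (st N d s rl n (nx N d s rl x J) J)‖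
    have : Fc N rl f r ψ x (nx N d s rl x J) = err N rl f r ψ x +
        ‖ψ (nx N d s rl x J) - ψ x‖ * ‖aX N r (nx N d s rl x J).1‖ := if_pos hAl
    rw [this]
    ring

end frame

end Crest.Agent.R143.LocDx873
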