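import Crest.Agent.R143.K6_723
import Crest.Agent.R143.LocD_873

/-!
# Row 143 (S0194), CONT (K6), explored networks (helper723)

`L` = path from the mark `s` to the tip `q` which does not kill a mark (`Lv`)
* `lef L q`, `rig L q` : left and right sites of the path
* `lef_side`, `rig_side` : they are on the sides `s + 2` and `s` of `knet N L`
* `side_iff` : the sides of `knet N L`
* `hkl_knet` : the killed edges of `knet N L` are joined to the sides
* `tr_knet`, `fr_knet`
-/

set_option autoImplicit false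

noncomputable section

open scoped Classical

namespace Crest.Agent.R143.K6bx723

open Set
open Crest.Agent.R143.B0x346 Crest.Agent.R143.DelGx806 Crest.Agent.R143.DelRx806
  Crest.Agent.R143.JColx54 Crest.Agent.R143.Sidesx697 Crest.Agent.R143.K6x723
open Crest.Agent.R143.J1x872 (cases_z3 Good sw sw_sw)
open Crest.Agent.R143.J4x872 (Turn unc knet Fol fol_pth unc_sw)

/-- every killed edge is joined to a side -/
def HK (N : Net ℂ) : Prop := ∀ a b : ℂ, (a, b) ∈ N.kl → (a, b) ∈ N.E → ∃ i, Side N i a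

/-- left sites of the path -/
def lef (L : List ((ℂ × ℂ) × (ℂ × ℂ))) (q : ℂ × ℂ) : Set ℂ := {v | (∃ a ∈ L, v = a.1.1) ∨ v = q.1}

/-- right sites of the path -/
def rig (L : List ((ℂ × ℂ) × (ℂ × ℂ))) (q : ℂ × ℂ) : Set ℂ := {v | (∃ a ∈ L, v = a.1.2) ∨ v = q.2}

variable {S : Finset ℂ} {N : Net ℂ} {v x y : ℂ} {i s : ZMod 3} {G : Trg ℂ}
  {L : List ((ℂ × ℂ) × (ℂ × ℂ))} {p q : ℂ × ℂ}

theorem start_lef (h : J4x872.Pth G p L q) : p.1 ∈ lef L q ∧ p.2 ∈ rig L q := by
  cases L with
  | nil =>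
    have h' : p = q := h
    subst h'
    exact ⟨Or.inr rfl, Or.inr rfl⟩
  | cons a L =>
    obtain ⟨h1, -⟩ := h
    exact ⟨Or.inl ⟨a, List.mem_cons_self, by rw [h1]⟩, Or.inl ⟨a, List.mem_cons_self, by rw [h1]⟩⟩

theorem lef_cons {a : (ℂ × ℂ) × (ℂ × ℂ)} (h : v ∈ lef L q) : v ∈ lef (a :: L) q := by
  rcases h with ⟨b, hb, h⟩ | h
  · exact Or.inl ⟨b, List.mem_cons_of_mem _ hb, h⟩
  · exact Or.inr h

theorem rig_cons {a : (ℂ × ℂ) × (ℂ × ℂ)} (h : v ∈ rig L q) : v ∈ rig (a :: L) q := by
  rcases h with ⟨b, hb, h⟩ | h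
  · exact Or.inl ⟨b, List.mem_cons_of_mem _ hb, h⟩
  · exact Or.inr h

/-- the uncrossed sides join two left sites or two right sites -/
theorem unc_lr : ∀ (L : List ((ℂ × ℂ) × (ℂ × ℂ))) (p : ℂ × ℂ), J4x872.Pth G p L q →
    ∀ a ∈ L, (a.2.1 ∈ lef L q ∧ a.2.2 ∈ lef L q) ∨ (a.2.1 ∈ rig L q ∧ a.2.2 ∈ rig L q)
  | [], _, _, a, ha => by simp at ha
  | b :: L, p, ⟨h1, m, ⟨c, hc, h2⟩, h3⟩, a, ha => by
    have hs := start_lef h3
    have hp : p.1 ∈ lef (b :: L) q ∧ p.2 ∈ rig (b :: L) q :=
      ⟨Or.inl ⟨b, List.mem_cons_self, by rw [h1]⟩, Or.inl ⟨b, List.mem_cons_self, by rw [h1]⟩⟩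
    rcases List.mem_cons.1 ha with rfl | ha
    · rcases h2 with ⟨e1, e2⟩ | ⟨e1, e2⟩
      · left
        rw [e2]
        rw [e1] at hs
        exact ⟨lef_cons hs.1, hp.1⟩
      · right
        rw [e2]
        rw [e1] at hs
        exact ⟨hp.2, rig_cons hs.2⟩
    · rcases unc_lr L m h3 a ha with h | h
      · exact Or.inl ⟨lef_cons h.1, lef_cons h.2⟩
      · exact Or.inr ⟨rig_cons h.1, rig_cons h.2⟩

theorem wall_mono (h : Wall N x y) : Wall (knet N L) x y := by
  obtain ⟨h1, h2, h3, h4⟩ := h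
  refine ⟨h1, h2, h3, ?_⟩
  rcases h4 with h4 | h4
  · exact Or.inl (Or.inl h4)
  · exact Or.inr h4

theorem side_mono (h : Side N i v) : Side (knet N L) i v := by
  have h' := h
  unfold Side at h' ⊢
  exact Relation.ReflTransGen.mono (fun a b hab => wall_mono hab) _ _ h'

/-- a side of the triangle which is not crossed is a wall -/
theorem wall_unc {u : ℂ × ℂ} (hE : u ∈ N.E) (hu : u ∈ unc L) (hL : ∀ k, N.ex k ∉ unc L) :
    Wall (knet N L) u.1 u.2 := by
  refine ⟨hE, ?_, ?_, Or.inl (Or.inr hu)⟩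
  · rintro ⟨k, hk⟩
    exact hL k (by rw [show N.ex k = u from hk]; exact hu)
  · rintro ⟨k, hk⟩
    have := unc_sw L u hu
    exact hL k (by rw [show N.ex k = sw u from hk]; exact this)

/-- the sites of a followed path are on the sides (generalised start) -/
theorem lr_side {k : List ((ℂ × ℂ) × (ℂ × ℂ))} (hk : ∀ j, N.ex j ∉ unc k) :
    ∀ (L : List ((ℂ × ℂ) × (ℂ × ℂ))) (p : ℂ × ℂ), J4x872.Pth N.toTrg p L q → (∀ a ∈ L, a ∈ k) →
    ∀ i j, Side (knet N k) i p.1 → Side (knet N k) j p.2 →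
    (∀ v ∈ lef L q, Side (knet N k) i v) ∧ ∀ v ∈ rig L q, Side (knet N k) j v
  | [], p, h, _, i, j, h1, h2 => by
    have h' : p = q := h
    subst h'
    constructor
    · rintro v (⟨a, ha, -⟩ | rfl)
      · simp at ha
      · exact h1
    · rintro v (⟨a, ha, -⟩ | rfl)
      · simp at ha
      · exact h2
  | a :: L, p, ⟨e, m, ⟨c, hc, ht⟩, h3⟩, hsub, i, j, h1, h2 => by
    have hau : a.2 ∈ unc k := ⟨a, hsub a List.mem_cons_self, Or.inl rfl⟩
    have key : Side (knet N k) i m.1 ∧ Side (knet N k) j m.2 := by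
      rcases ht with ⟨e1, e2⟩ | ⟨e1, e2⟩
      · rw [e1]
        refine ⟨?_, h2⟩
        have hw : Wall (knet N k) c p.1 := by
          have := wall_unc (N := N) (u := (c, p.1)) (JCardx872.mem_E_of_tri (N.rot (N.rot hc))).1
            (by rw [← e2]; exact hau) hk
          exact this
        exact Relation.ReflTransGen.tail h1 (wall_symm hw)
      · rw [e1]
        refine ⟨h1, ?_⟩
        have hw : Wall (knet N k) p.2 c := by
          have := wall_unc (N := N) (u := (p.2, c)) (JCardx872.mem_E_of_tri (N.rot hc)).1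
            (by rw [← e2]; exact hau) hk
          exact this
        exact Relation.ReflTransGen.tail h2 hw
    obtain ⟨g1, g2⟩ := lr_side hk L m h3 (fun b hb => hsub b (List.mem_cons_of_mem _ hb)) i j
      key.1 key.2
    constructor
    · rintro v (⟨b, hb, rfl⟩ | rfl)
      · rcases List.mem_cons.1 hb with rfl | hb
        · rw [e]; exact h1
        · exact g1 _ (Or.inl ⟨b, hb, rfl⟩)
      · exact g1 _ (Or.inr rfl)
    · rintro v (⟨b, hb, rfl⟩ | rfl)
      · rcases List.mem_cons.1 hb with rfl | hb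
        · rw [e]; exact h2
        · exact g2 _ (Or.inl ⟨b, hb, rfl⟩)
      · exact g2 _ (Or.inr rfl)

theorem s21 : ∀ s : ZMod 3, s + 2 + 1 = s := by decide

/-- **the path is on the sides `s + 2` (left) and `s` (right)** -/
theorem path_side (h : HNet S N) (hP : J4x872.Pth N.toTrg (N.ex s) L q)
    (hL : ∀ k, N.ex k ∉ unc L) :
    (∀ v ∈ lef L q, Side (knet N L) (s + 2) v) ∧ ∀ v ∈ rig L q, Side (knet N L) s v := by
  refine lr_side hL L _ hP (fun _ h => h) (s + 2) s ?_ Relation.ReflTransGen.refl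
  have := (marks3_of h).next (s + 2)
  rw [s21] at this
  exact side_mono this

/-- **the sides of the explored network** -/
theorem side_iff (h : HNet S N) (hk : HK N) (hP : J4x872.Pth N.toTrg (N.ex s) L q)
    (hL : ∀ k, N.ex k ∉ unc L) (hd : DS (knet N L)) : Side (knet N L) i v ↔
      Side N i v ∨ (i = s + 2 ∧ v ∈ lef L q) ∨ (i = s ∧ v ∈ rig L q) := by
  obtain ⟨p1, p2⟩ := path_side h hP hL
  constructor
  · intro hv
    have hv' := hv
    unfold Side at hv'
    induction hv' with
    | refl => exact Or.inl Relation.ReflTransGen.refl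
    | @tail x y h1 hw ih =>
      have hx : Side (knet N L) i x := h1
      have ih' := ih hx
      obtain ⟨w1, w2, w3, w4⟩ := hw
      -- an old wall at `x`
      have old : Wall N x y → (Side N i y ∨ (i = s + 2 ∧ y ∈ lef L q) ∨ (i = s ∧ y ∈ rig L q)) := by
        intro hwo
        have hxi : ∃ j, Side N j x := by
          rcases hwo.2.2.2 with h4 | h4 | h4
          · exact hk x y h4 hwo.1
          · -- `(x, y)` has no triangle on the other side
            have hT : ∃ c, (x, y, c) ∈ N.T := by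
              have := K6x723.adj_of_E h hwo.1
              rcases this with ⟨c, hc⟩ | ⟨c, hc⟩
              · exact ⟨c, by rw [h.tri]; exact hc⟩
              · exact absurd (by rw [h.tri]; exact hc) (h4 c)
            obtain ⟨c, hc⟩ := hT
            exact Bsumx848.exists_side h (b := y) ⟨⟨c, by rw [← h.tri]; exact hc⟩, fun c' hc' =>
              h4 c' (by rw [h.tri]; exact hc')⟩
          · have hT : ∃ c, (y, x, c) ∈ N.T := by
              have := K6x723.adj_of_E h hwo.1
              rcases this with ⟨c, hc⟩ | ⟨c, hc⟩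
              · exact absurd (by rw [h.tri]; exact hc) (h4 c)
              · exact ⟨c, by rw [h.tri]; exact hc⟩
            obtain ⟨c, hc⟩ := hT
            obtain ⟨c', hc', -⟩ := DelRx806.hull_succ h.gp (a := y) (b := x)
              ⟨⟨c, by rw [← h.tri]; exact hc⟩, fun c' hc' => h4 c' (by rw [h.tri]; exact hc')⟩
            exact Bsumx848.exists_side h hc'
        obtain ⟨j, hj⟩ := hxi
        have e := hd _ _ _ (side_mono (L := L) hj) hx
        subst e
        exact Or.inl (side_tail hj hwo)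
      rcases w4 with (w4 | w4) | w4
      · exact old ⟨w1, w2, w3, Or.inl w4⟩
      · obtain ⟨a, ha, he⟩ := w4
        have hlr := unc_lr L _ hP a ha
        have hxy : (x ∈ lef L q ∧ y ∈ lef L q) ∨ (x ∈ rig L q ∧ y ∈ rig L q) := by
          rcases he with he | he
          · rw [← he] at hlr
            exact hlr
          · have e1 : a.2 = (y, x) := by
              have : sw (x, y) = sw (sw a.2) := by rw [he]
              rw [sw_sw] at this
              exact this.symm
            rw [e1] at hlr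
            rcases hlr with ⟨h5, h6⟩ | ⟨h5, h6⟩
            · exact Or.inl ⟨h6, h5⟩
            · exact Or.inr ⟨h6, h5⟩
        rcases hxy with ⟨h5, h6⟩ | ⟨h5, h6⟩
        · exact Or.inr (Or.inl ⟨hd _ _ _ hx (p1 x h5), h6⟩)
        · exact Or.inr (Or.inr ⟨hd _ _ _ hx (p2 x h5), h6⟩)
      · exact old ⟨w1, w2, w3, Or.inr w4⟩
  · rintro (h1 | ⟨rfl, h1⟩ | ⟨rfl, h1⟩)
    · exact side_mono h1
    · exact p1 v h1
    · exact p2 v h1

/-- **the killed edges of the explored network are joined to the sides** -/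
theorem hk_knet (h : HNet S N) (hk : HK N) (hP : J4x872.Pth N.toTrg (N.ex s) L q)
    (hL : ∀ k, N.ex k ∉ unc L) : HK (knet N L) := by
  obtain ⟨p1, p2⟩ := path_side h hP hL
  rintro a b (hab | hab) hE
  · obtain ⟨i, hi⟩ := hk a b hab hE
    exact ⟨i, side_mono hi⟩
  · obtain ⟨c, hc, he⟩ := hab
    have ha : a ∈ lef L q ∨ a ∈ rig L q := by
      have hlr := unc_lr L _ hP c hc
      rcases he with he | he
      · rw [← he] at hlr
        rcases hlr with ⟨h5, -⟩ | ⟨h5, -⟩
        · exact Or.inl h5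
        · exact Or.inr h5
      · have e1 : c.2 = (b, a) := by
          have : sw (a, b) = sw (sw c.2) := by rw [he]
          rw [sw_sw] at this
          exact this.symm
        rw [e1] at hlr
        rcases hlr with ⟨-, h5⟩ | ⟨-, h5⟩
        · exact Or.inl h5
        · exact Or.inr h5
    rcases ha with ha | ha
    · exact ⟨_, p1 a ha⟩
    · exact ⟨_, p2 a ha⟩

/-- the free sites of the explored network -/
theorem fr_knet (h : HNet S N) (hk : HK N) (hP : J4x872.Pth N.toTrg (N.ex s) L q)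
    (hL : ∀ k, N.ex k ∉ unc L) (hd : DS (knet N L)) :
    K33x877.fr S (sd (knet N L)) = K33x877.fr S (sd N) \ (lef L q ∪ rig L q) := by
  ext v
  constructor
  · rintro ⟨h1, h2⟩
    refine ⟨⟨h1, fun i hi => h2 i (side_mono hi)⟩, ?_⟩
    rintro (h3 | h3)
    · exact h2 (s + 2) ((path_side h hP hL).1 v h3)
    · exact h2 s ((path_side h hP hL).2 v h3)
  · rintro ⟨⟨h1, h2⟩, h3⟩
    refine ⟨h1, fun i hi => ?_⟩
    rcases (side_iff h hk hP hL hd).1 hi with h4 | ⟨-, h4⟩ | ⟨-, h4⟩
    · exact h2 i h4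
    · exact h3 (Or.inl h4)
    · exact h3 (Or.inr h4)

end Crest.Agent.R143.K6bx723
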