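import Crest.Agent.R143.Alg4_133
import Crest.Agent.R143.NetU_346

/-!
# Row 143 (S0194), block H, H5 route 1: algebra of the brick (helper99)

Brick `[0,2] × [0,1]`, marks `(1/2, 0)`, `(2, 1/2)`, `(1/2, 1)`; `H0`, `H1`, `H2` = hulls of the three
arcs.
* `brick_lower` : `‖Σ omz j ^ 2 * m j‖ ≥ 3/8 - 3 e` if `m j` is within `e` of a point of `H j`;
* `exC_mem` : a mean over colourings stays in a convex set;
* `Ey_near` : the mean hit vertex is near the hull of the arc.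
-/

set_option autoImplicit false

noncomputable section

open scoped Classical

namespace Crest.Agent.R143.KapAx99

open Crest.Agent.R143.B0x346 Crest.Agent.R143.NetUx346
open Crest.Agent.R143.Alg4x133 (Pf Pf_ge)

/-- hull of the arc `0` -/
def H0 : Set ℂ := {z | 0 ≤ z.im ∧ z.re ≤ 2 ∧ 3 * z.im ≤ z.re - 1 / 2}

/-- hull of the arc `1` -/
def H1 : Set ℂ := {z | z.im ≤ 1 ∧ z.re ≤ 2 ∧ 3 * (1 - z.im) ≤ z.re - 1 / 2}

/-- hull of the arc `2` -/
def H2 : Set ℂ := {z | 0 ≤ z.re ∧ z.re ≤ 1 / 2 ∧ 0 ≤ z.im ∧ z.im ≤ 1}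

/-- the hulls -/
def Hj (j : ZMod 3) : Set ℂ := if j = 0 then H0 else if j = 1 then H1 else H2

theorem cr_nonneg {m : ZMod 3 → ℂ} (h0 : m 0 ∈ H0) (h1 : m 1 ∈ H1) (h2 : m 2 ∈ H2) :
    0 ≤ cr (m 1 - m 0) (m 2 - m 0) := by
  obtain ⟨a1, a2, a3⟩ := h0
  obtain ⟨b1, b2, b3⟩ := h1
  obtain ⟨c1, c2, c3, c4⟩ := h2
  unfold cr
  simp only [Complex.sub_re, Complex.sub_im]
  set x0 := (m 0).re
  set y0 := (m 0).im
  set x1 := (m 1).re
  set y1 := (m 1).im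
  set x2 := (m 2).re
  set y2 := (m 2).im
  have e1 : (x1 - x0) * (y2 - y0) - (y1 - y0) * (x2 - x0) =
      (x0 - 1 / 2) * (y1 - y2) + (x1 - 1 / 2) * (y2 - y0) + (1 / 2 - x2) * (y1 - y0) := by ring
  rw [e1]
  have ha : 0 ≤ x0 - 1 / 2 := by linarith
  have hb : 0 ≤ x1 - 1 / 2 := by linarith
  have hc : 0 ≤ 1 / 2 - x2 := by linarith
  have hy0 : y0 ≤ 1 / 2 := by linarith
  have hy1 : 1 / 2 ≤ y1 := by linarith
  have hC : 0 ≤ (1 / 2 - x2) * (y1 - y0) := mul_nonneg hc (by linarith)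
  have h1' : 0 ≤ (x0 - 1 / 2) * (y1 - 1) + (x1 - 1 / 2) * (1 - y0) := by
    nlinarith [mul_nonneg ha hb, mul_nonneg ha (sub_nonneg.2 b1),
      mul_nonneg hb (show (0 : ℝ) ≤ (x0 - 1 / 2) - 3 * y0 by linarith),
      mul_nonneg ha (show (0 : ℝ) ≤ (x1 - 1 / 2) - 3 * (1 - y1) by linarith),
      mul_nonneg hb (show (0 : ℝ) ≤ 3 / 2 - (x0 - 1 / 2) by linarith)]
  have h0' : 0 ≤ (x0 - 1 / 2) * y1 + (x1 - 1 / 2) * (0 - y0) := by
    nlinarith [mul_nonneg ha hb,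
      mul_nonneg hb (show (0 : ℝ) ≤ (x0 - 1 / 2) - 3 * y0 by linarith),
      mul_nonneg ha (show (0 : ℝ) ≤ (x1 - 1 / 2) - 3 * (1 - y1) by linarith),
      mul_nonneg ha (show (0 : ℝ) ≤ 3 / 2 - (x1 - 1 / 2) by linarith)]
  have e2 : (x0 - 1 / 2) * (y1 - y2) + (x1 - 1 / 2) * (y2 - y0) =
      y2 * ((x0 - 1 / 2) * (y1 - 1) + (x1 - 1 / 2) * (1 - y0)) +
        (1 - y2) * ((x0 - 1 / 2) * y1 + (x1 - 1 / 2) * (0 - y0)) := by ring
  have h3 := mul_nonneg c3 h1'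
  have h4 := mul_nonneg (sub_nonneg.2 c4) h0'
  linarith

theorem far {m : ZMod 3 → ℂ} (h0 : m 0 ∈ H0) (h1 : m 1 ∈ H1) (h2 : m 2 ∈ H2) :
    1 / 2 ≤ ‖m 0 - m 1‖ ∨ 1 / 2 ≤ ‖m 2 - m 0‖ := by
  by_contra hcon
  push Not at hcon
  obtain ⟨k1, k2⟩ := hcon
  obtain ⟨a1, a2, a3⟩ := h0
  obtain ⟨b1, b2, b3⟩ := h1
  obtain ⟨c1, c2, c3, c4⟩ := h2
  have r1 := (Complex.abs_re_le_norm (m 0 - m 1)).trans_lt k1
  have r2 := (Complex.abs_im_le_norm (m 0 - m 1)).trans_lt k1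
  have r3 := (Complex.abs_re_le_norm (m 2 - m 0)).trans_lt k2
  simp only [Complex.sub_re, Complex.sub_im, abs_lt] at r1 r2 r3
  linarith [r1.1, r1.2, r2.1, r2.2, r3.1, r3.2]

/-- **lower bound of the big field on the brick** -/
theorem brick_lower {m m' : ZMod 3 → ℂ} {e : ℝ} (h : ∀ j, m' j ∈ Hj j)
    (he : ∀ j, ‖m j - m' j‖ ≤ e) : 3 / 8 - 3 * e ≤ ‖∑ j, omz j ^ 2 * m j‖ := by
  have h0 : m' 0 ∈ H0 := by have := h 0; unfold Hj at this; rwa [if_pos rfl] at this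
  have h1 : m' 1 ∈ H1 := by
    have := h 1; unfold Hj at this; rwa [if_neg (by decide), if_pos rfl] at this
  have h2 : m' 2 ∈ H2 := by
    have := h 2; unfold Hj at this; rwa [if_neg (by decide), if_neg (by decide)] at this
  have h3 := Pf_ge m' (cr_nonneg h0 h1 h2) (far h0 h1 h2)
  unfold Pf at h3
  have h4 : ‖∑ j, omz j ^ 2 * m' j‖ ≤ ‖∑ j, omz j ^ 2 * m j‖ + 3 * e := by
    have e1 : ∑ j, omz j ^ 2 * m' j = ∑ j, omz j ^ 2 * m j - ∑ j, omz j ^ 2 * (m j - m' j) := by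
      rw [← Finset.sum_sub_distrib]
      exact Finset.sum_congr rfl fun j _ => by ring
    rw [e1]
    refine (norm_sub_le _ _).trans (add_le_add le_rfl ?_)
    refine (norm_sum_le _ _).trans ?_
    have : ∀ j ∈ (Finset.univ : Finset (ZMod 3)), ‖omz j ^ 2 * (m j - m' j)‖ ≤ e := fun j _ => by
      rw [norm_mul, norm_pow, norm_omz, one_pow, one_mul]; exact he j
    refine (Finset.sum_le_sum this).trans ?_
    simp [ZMod.card]
  linarith

theorem convex_Hj (j : ZMod 3) : Convex ℝ (Hj j) := by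
  unfold Hj
  have lin : ∀ (p q r : ℝ), Convex ℝ {z : ℂ | 0 ≤ p * z.re + q * z.im + r} := by
    intro p q r z hz w hw a b ha hb hab
    simp only [Set.mem_ofPred_eq] at hz hw ⊢
    simp only [Complex.add_re, Complex.add_im, Complex.real_smul, Complex.mul_re, Complex.mul_im,
      Complex.ofReal_re, Complex.ofReal_im, zero_mul, sub_zero, add_zero]
    have h1 := mul_nonneg ha hz
    have h2 := mul_nonneg hb hw
    have e : p * (a * z.re + b * w.re) + q * (a * z.im + b * w.im) + r =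
        a * (p * z.re + q * z.im + r) + b * (p * w.re + q * w.im + r) + r * (1 - (a + b)) := by ring
    rw [e, hab]
    linarith
  split_ifs
  · have e : H0 = {z : ℂ | 0 ≤ 0 * z.re + 1 * z.im + 0} ∩ {z : ℂ | 0 ≤ -1 * z.re + 0 * z.im + 2} ∩
        {z : ℂ | 0 ≤ 1 * z.re + -3 * z.im + -(1 / 2)} := by
      ext z
      unfold H0
      simp only [Set.mem_inter_iff, Set.mem_ofPred_eq]
      constructor
      · rintro ⟨a, b, c⟩; exact ⟨⟨by linarith, by linarith⟩, by linarith⟩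
      · rintro ⟨⟨a, b⟩, c⟩; exact ⟨by linarith, by linarith, by linarith⟩
    rw [e]
    exact ((lin _ _ _).inter (lin _ _ _)).inter (lin _ _ _)
  · have e : H1 = {z : ℂ | 0 ≤ 0 * z.re + -1 * z.im + 1} ∩ {z : ℂ | 0 ≤ -1 * z.re + 0 * z.im + 2} ∩
        {z : ℂ | 0 ≤ 1 * z.re + 3 * z.im + -(7 / 2)} := by
      ext z
      unfold H1
      simp only [Set.mem_inter_iff, Set.mem_ofPred_eq]
      constructor
      · rintro ⟨a, b, c⟩; exact ⟨⟨by linarith, by linarith⟩, by linarith⟩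
      · rintro ⟨⟨a, b⟩, c⟩; exact ⟨by linarith, by linarith, by linarith⟩
    rw [e]
    exact ((lin _ _ _).inter (lin _ _ _)).inter (lin _ _ _)
  · have e : H2 = ({z : ℂ | 0 ≤ 1 * z.re + 0 * z.im + 0} ∩ {z : ℂ | 0 ≤ -1 * z.re + 0 * z.im + 1 / 2})
        ∩ ({z : ℂ | 0 ≤ 0 * z.re + 1 * z.im + 0} ∩ {z : ℂ | 0 ≤ 0 * z.re + -1 * z.im + 1}) := by
      ext z
      unfold H2
      simp only [Set.mem_inter_iff, Set.mem_ofPred_eq]
      constructor
      · rintro ⟨a, b, c, d⟩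
        exact ⟨⟨by linarith, by linarith⟩, ⟨by linarith, by linarith⟩⟩
      · rintro ⟨⟨a, b⟩, ⟨c, d⟩⟩
        exact ⟨by linarith, by linarith, by linarith, by linarith⟩
    rw [e]
    exact ((lin _ _ _).inter (lin _ _ _)).inter ((lin _ _ _).inter (lin _ _ _))

/-- **means stay in convex sets** -/
theorem exC_mem {K : Set ℂ} (hK : Convex ℝ K) {V : Finset ℂ} {f : Finset ℂ → ℂ}
    (h : ∀ T ⊆ V, f T ∈ K) : exC V f ∈ K := by
  have e : exC V f = ∑ T ∈ V.powerset, ((1 / 2 ^ V.card : ℝ) • f T) := by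
    unfold exC
    rw [Finset.sum_div]
    refine Finset.sum_congr rfl fun T _ => ?_
    rw [Complex.real_smul]
    push_cast
    ring
  rw [e]
  refine hK.sum_mem (fun T _ => by positivity) ?_ (fun T hT => h T (Finset.mem_powerset.1 hT))
  rw [Finset.sum_const, Finset.card_powerset, nsmul_eq_mul]
  push_cast
  field_simp

/-- **mean hit vertex near a convex set** -/
theorem exC_near {K : Set ℂ} (hK : Convex ℝ K) {V : Finset ℂ} {f : Finset ℂ → ℂ} {e : ℝ}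
    (h : ∀ T ⊆ V, ∃ p ∈ K, ‖f T - p‖ ≤ e) : ∃ p ∈ K, ‖exC V f - p‖ ≤ e := by
  choose! g hg using h
  refine ⟨exC V g, exC_mem hK fun T hT => (hg T hT).1, ?_⟩
  rw [← exC_sub]
  exact norm_exC V _ fun T hT => (hg T hT).2

end Crest.Agent.R143.KapAx99
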