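import Crest.Agent.R143.KapA_690

/-!
# Row 143 (S0194), block H, H5 = KAPPA, the end of route 2, second form (helper690)

The weight is `g = E[g₀ | outside]` (`g₀` the ring weight, `Jf` the stopping set of the outside): a
functional of the painted configuration which need not be measurable as a functional of the
configuration; only the quenched mean `mq ε B g = mq ε B g₀` is measurable.
* `Mm ε B g` : the mass `∫ mq ε B g`; `mm_fm` : `= ∫ g (cfg)` for `FM g`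
* `avJ`, `mq_avJ` : `mq` of a conditional mean (`Jf` may depend on the set of points)
* `kap_mm`, `Ring2'`, `Ring2'.small`, `kapH_of_ring'`
-/

set_option autoImplicit false

noncomputable section

open scoped Classical

namespace Crest.Agent.R143.KapBx690

open MeasureTheory Filter Topology Complex ComplexConjugate
open Crest.ProbabilityR.Voronoi
open Crest.Agent.R143.B0x346 Crest.Agent.R143.Mass1x302 Crest.Agent.R143.Mass2x302
  Crest.Agent.R143.Mass3x302 Crest.Agent.R143.Mass4x302 Crest.Agent.R143.Mass5x302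
open Crest.Agent.R143.Dblx609 Crest.Agent.R143.Dbl2x609 Crest.Agent.R143.HGluex136
  Crest.Agent.R143.Trix106 Crest.Agent.R143.KapAx690 Crest.Agent.R143.Harx315
open scoped ENNReal

/-- the mass of a weight -/
def Mm (ε : ℝ) (B : Set ℂ) (g : Set (ℂ × Bool) → ℝ≥0∞) : ℝ≥0∞ := ∫⁻ ω, mq ε B g ω ∂sampleLaw

theorem mm_fm {ε : ℝ} (hε : 0 < ε) {B : Set ℂ} (hBm : MeasurableSet B)
    (hB : Bornology.IsBounded B) {g : Set (ℂ × Bool) → ℝ≥0∞} (hg : Poisx304.FM g) :
    Mm ε B g = ∫⁻ ω, g (PP0x831.cfg ε ω ∩ ovM Bool B) ∂sampleLaw :=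
  lint_eq_mq hε hBm hB hg

theorem mq_le_one {ε : ℝ} {B : Set ℂ} {g : Set (ℂ × Bool) → ℝ≥0∞} (hg : ∀ X, g X ≤ 1)
    (ω : Sample) : mq ε B g ω ≤ 1 := by
  unfold mq
  calc ((2 : ℝ≥0∞) ^ (Ap ε B ω).card)⁻¹ * ∑ β ∈ (Ap ε B ω).powerset, g (paint (Ap ε B ω) β)
      ≤ ((2 : ℝ≥0∞) ^ (Ap ε B ω).card)⁻¹ * ∑ _β ∈ (Ap ε B ω).powerset, 1 := by
        gcongr with β hβ; exact hg _
    _ = 1 := by
        rw [Finset.sum_const, Finset.card_powerset, nsmul_eq_mul, mul_one]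
        push_cast
        exact ENNReal.inv_mul_cancel (by positivity) (ENNReal.pow_ne_top (by norm_num))

theorem mm_le_one {ε : ℝ} {B : Set ℂ} {g : Set (ℂ × Bool) → ℝ≥0∞} (hg : ∀ X, g X ≤ 1) :
    Mm ε B g ≤ 1 := by
  unfold Mm
  calc ∫⁻ ω, mq ε B g ω ∂sampleLaw ≤ ∫⁻ _, 1 ∂sampleLaw := lintegral_mono fun ω => mq_le_one hg ω
    _ = 1 := by simp

/-! ### conditional means as functionals of the painted configuration -/

/-- the sites of a configuration -/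
def sits (X : Set (ℂ × Bool)) : Set ℂ := Prod.fst '' X

/-- the black sites of a configuration -/
def blks (X : Set (ℂ × Bool)) : Set ℂ := {v | (v, true) ∈ X}

/-- the finite set of sites -/
def fs (X : Set (ℂ × Bool)) : Finset ℂ := if h : (sits X).Finite then h.toFinset else ∅

/-- the finite set of black sites -/
def fb (X : Set (ℂ × Bool)) : Finset ℂ := if h : (blks X).Finite then h.toFinset else ∅

theorem mem_paint {A β : Finset ℂ} {v : ℂ} {u : Bool} :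
    (v, u) ∈ paint A β ↔ v ∈ A ∧ (u = true ↔ v ∈ β) := Iff.rfl

theorem sits_paint (A β : Finset ℂ) : sits (paint A β) = (A : Set ℂ) := by
  ext v
  constructor
  · rintro ⟨⟨w, u⟩, h, rfl⟩
    exact (mem_paint.1 h).1
  · intro h
    by_cases hv : v ∈ β
    · exact ⟨(v, true), mem_paint.2 ⟨h, by simpa using hv⟩, rfl⟩
    · exact ⟨(v, false), mem_paint.2 ⟨h, by simpa using hv⟩, rfl⟩

theorem blks_paint {A β : Finset ℂ} (h : β ⊆ A) : blks (paint A β) = (β : Set ℂ) := by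
  ext v
  show (v, true) ∈ paint A β ↔ _
  rw [mem_paint]
  constructor
  · rintro ⟨-, h2⟩
    exact h2.1 rfl
  · intro h2
    exact ⟨h h2, by simpa using h2⟩

theorem fs_paint (A β : Finset ℂ) : fs (paint A β) = A := by
  have h : (sits (paint A β)).Finite := by rw [sits_paint]; exact A.finite_toSet
  unfold fs
  rw [dif_pos h]
  ext v
  rw [Set.Finite.mem_toFinset, sits_paint, Finset.mem_coe]

theorem fb_paint {A β : Finset ℂ} (hβ : β ⊆ A) : fb (paint A β) = β := by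
  have h : (blks (paint A β)).Finite := by rw [blks_paint hβ]; exact β.finite_toSet
  unfold fb
  rw [dif_pos h]
  ext v
  rw [Set.Finite.mem_toFinset, blks_paint hβ, Finset.mem_coe]

/-- a functional of (sites, black sites) as a functional of the configuration -/
def fun2 {E : Type*} (Ψ : Finset ℂ → Finset ℂ → E) (X : Set (ℂ × Bool)) : E := Ψ (fs X) (fb X)

theorem fun2_paint {E : Type*} (Ψ : Finset ℂ → Finset ℂ → E) {A β : Finset ℂ} (hβ : β ⊆ A) :
    fun2 Ψ (paint A β) = Ψ A β := by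
  unfold fun2
  rw [fs_paint, fb_paint hβ]

/-- the conditional mean of `g` given the exploration `Jf A` (`A` = the set of the sites) -/
def avJ (Jf : Finset ℂ → Finset ℂ → Finset ℂ) (g : Set (ℂ × Bool) → ℝ≥0∞) :
    Set (ℂ × Bool) → ℝ≥0∞ := fun2 fun A β => av A (Jf A β) (fun b => g (paint A b)) β

theorem avJ_paint (Jf : Finset ℂ → Finset ℂ → Finset ℂ) (g : Set (ℂ × Bool) → ℝ≥0∞)
    {A β : Finset ℂ} (hβ : β ⊆ A) :
    avJ Jf g (paint A β) = av A (Jf A β) (fun b => g (paint A b)) β := fun2_paint _ hβ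

/-- **the quenched mean of a conditional mean** -/
theorem mq_avJ {ε : ℝ} {B : Set ℂ} {ω : Sample} {Jf : Finset ℂ → Finset ℂ → Finset ℂ}
    (hJ : IsStop (Ap ε B ω) (Jf (Ap ε B ω))) (g : Set (ℂ × Bool) → ℝ≥0∞) :
    mq ε B (avJ Jf g) ω = mq ε B g ω := by
  unfold mq
  congr 1
  rw [← sum_av hJ fun b => g (paint (Ap ε B ω) b)]
  refine Finset.sum_congr rfl fun β hβ => ?_
  rw [avJ_paint Jf g (Finset.mem_powerset.1 hβ)]

theorem av_le_one {α : Type*} {V R : Finset α} {H : Finset α → ℝ≥0∞} (h : ∀ b, H b ≤ 1)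
    (b : Finset α) : av V R H b ≤ 1 := by
  unfold av
  calc ((2 : ℝ≥0∞) ^ (V \ R).card)⁻¹ * ∑ b' ∈ (V \ R).powerset, H (b' ∪ (b ∩ R))
      ≤ ((2 : ℝ≥0∞) ^ (V \ R).card)⁻¹ * ∑ _b' ∈ (V \ R).powerset, 1 := by
        gcongr with b' hb'; exact h _
    _ = 1 := by
        rw [Finset.sum_const, Finset.card_powerset, nsmul_eq_mul, mul_one]
        push_cast
        exact ENNReal.inv_mul_cancel (by positivity) (ENNReal.pow_ne_top (by norm_num))

theorem avJ_le_one (Jf : Finset ℂ → Finset ℂ → Finset ℂ) {g : Set (ℂ × Bool) → ℝ≥0∞}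
    (h : ∀ X, g X ≤ 1) (X : Set (ℂ × Bool)) : avJ Jf g X ≤ 1 := av_le_one (fun _ => h _) _

section dec

variable {α : Type*} {V : Finset α} {J : Finset α → Finset α}

/-- the conditional mean is decided by the exploration -/
theorem av_dec (hJ : IsStop V J) (H : Finset α → ℝ≥0∞) {b b' : Finset α} (hb : b ⊆ V)
    (hb' : b' ⊆ V) (e : b' ∩ J b = b ∩ J b) : av V (J b') H b' = av V (J b) H b := by
  have h1 : J b' = J b := hJ.stop b b' hb hb' e.symm
  unfold av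
  rw [h1, e]

/-- where the conditional mean is not zero there is a colouring with the same outcome and a weight
which is not zero -/
theorem av_ne (H : Finset α → ℝ≥0∞) {b R : Finset α} (hb : b ⊆ V) (h : av V R H b ≠ 0) :
    ∃ b', b' ⊆ V ∧ b' ∩ R = b ∩ R ∧ H b' ≠ 0 := by
  unfold av at h
  have h1 : ∑ b' ∈ (V \ R).powerset, H (b' ∪ (b ∩ R)) ≠ 0 := right_ne_zero_of_mul h
  obtain ⟨b', h2, h3⟩ := Finset.exists_ne_zero_of_sum_ne_zero h1
  rw [Finset.mem_powerset] at h2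
  refine ⟨b' ∪ (b ∩ R), Finset.union_subset (h2.trans Finset.sdiff_subset)
    (Finset.inter_subset_left.trans hb), ?_, h3⟩
  ext y
  simp only [Finset.mem_inter, Finset.mem_union]
  constructor
  · rintro ⟨h4 | h4, h5⟩
    · exact absurd h5 (Finset.mem_sdiff.1 (h2 h4)).2
    · exact h4
  · exact fun h4 => ⟨Or.inr h4, h4.2⟩

/-- **weights against a decided function** : `Σ E[g | J] X = Σ g X` -/
theorem sum_av_dec (hJ : IsStop V J) (g X : Finset α → ℝ≥0∞)
    (hX : ∀ b, b ⊆ V → ∀ b', b' ⊆ V → b' ∩ J b = b ∩ J b → X b' = X b) :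
    ∑ b ∈ V.powerset, av V (J b) g b * X b = ∑ b ∈ V.powerset, g b * X b := by
  rw [← sum_av hJ fun b => g b * X b]
  refine Finset.sum_congr rfl fun b hb => ?_
  rw [Finset.mem_powerset] at hb
  unfold av
  rw [mul_assoc, Finset.sum_mul]
  congr 1
  refine Finset.sum_congr rfl fun b' hb' => ?_
  rw [Finset.mem_powerset] at hb'
  show g (b' ∪ b ∩ J b) * X b = g (b' ∪ b ∩ J b) * X (b' ∪ b ∩ J b)
  rw [hX b hb (b' ∪ (b ∩ J b)) (Finset.union_subset (hb'.trans Finset.sdiff_subset)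
    (Finset.inter_subset_left.trans hb)) ?_]
  ext y
  simp only [Finset.mem_inter, Finset.mem_union]
  constructor
  · rintro ⟨h4 | h4, h5⟩
    · exact absurd h5 (Finset.mem_sdiff.1 (hb' h4)).2
    · exact h4
  · exact fun h4 => ⟨Or.inr h4, h4.2⟩

/-- the same with the mean of `X` : `Σ E[g | J] X = Σ g E[X | J]` -/
theorem sum_av_comm (hJ : IsStop V J) (g X : Finset α → ℝ≥0∞) :
    ∑ b ∈ V.powerset, av V (J b) g b * X b = ∑ b ∈ V.powerset, g b * av V (J b) X b := by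
  have h1 := sum_av_dec hJ X (fun b => av V (J b) g b) fun b hb b' hb' e => av_dec hJ g hb hb' e
  have h2 := sum_av_dec hJ g (fun b => av V (J b) X b) fun b hb b' hb' e => av_dec hJ X hb hb' e
  rw [← h2]
  have h3 : ∀ b, av V (J b) g b * X b = X b * av V (J b) g b := fun b => mul_comm _ _
  rw [Finset.sum_congr rfl fun b _ => h3 b, ← h1]
  exact Finset.sum_congr rfl fun b _ => mul_comm _ _

end dec

/-- **`mq` with a conditional mean as weight, decided functional** -/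
theorem mq_avJ_mul {ε : ℝ} {B : Set ℂ} {ω : Sample} {Jf : Finset ℂ → Finset ℂ → Finset ℂ}
    (hJ : IsStop (Ap ε B ω) (Jf (Ap ε B ω))) (g X : Set (ℂ × Bool) → ℝ≥0∞)
    (hX : ∀ b, b ⊆ Ap ε B ω → ∀ b', b' ⊆ Ap ε B ω → b' ∩ Jf (Ap ε B ω) b = b ∩ Jf (Ap ε B ω) b →
      X (paint (Ap ε B ω) b') = X (paint (Ap ε B ω) b)) :
    mq ε B (fun Y => avJ Jf g Y * X Y) ω = mq ε B (fun Y => g Y * X Y) ω := by
  unfold mq
  congr 1
  rw [← sum_av_dec hJ (fun b => g (paint (Ap ε B ω) b)) (fun b => X (paint (Ap ε B ω) b)) hX]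
  refine Finset.sum_congr rfl fun β hβ => ?_
  show avJ Jf g (paint (Ap ε B ω) β) * _ = _
  rw [avJ_paint Jf g (Finset.mem_powerset.1 hβ)]

/-! ### the end of route 2 -/

/-- **quenched form** -/
theorem kap_mm {om : ℂ} (h : om ^ 2 + om + 1 = 0) (him : 0 < om.im) {z0 : ℂ} {b r : ℝ} (hb : 0 < b)
    (hr : r ≤ b / 200) {κ : ℂ} {ε : ℝ} {B : Set ℂ} {g : Set (ℂ × Bool) → ℝ≥0∞}
    (hg : AEMeasurable (mq ε B g) sampleLaw)
    {t : Set (ℂ × Bool) → ℂ} {Z : Set (ℂ × Bool) → Fin 3 → ℂ} {J : Set (ℂ × Bool) → Fin 3 → Prop}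
    (H : ∀ᵐ ω ∂sampleLaw, ∀ β ∈ (Ap ε B ω).powerset, g (paint (Ap ε B ω) β) ≠ 0 →
      Hl z0 b r (Z (paint (Ap ε B ω) β)) ∧
        ∃ i j, i ≠ j ∧ J (paint (Ap ε B ω) β) i ∧ J (paint (Ap ε B ω) β) j)
    {R : Sample → ℝ≥0∞}
    (hR : ∀ᵐ ω ∂sampleLaw, mq ε B (fun X => g X * ErJ om κ (t X) (Z X) (J X)) ω ≤ R ω) :
    ENNReal.ofReal (‖κ‖ * b) * Mm ε B g ≤ 60 * ∫⁻ ω, R ω ∂sampleLaw := by
  unfold Mm
  rw [← lintegral_const_mul'' _ hg, ← lintegral_const_mul' _ _ (by norm_num)]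
  refine lintegral_mono_ae ?_
  filter_upwards [H, hR] with ω h1 h2
  calc ENNReal.ofReal (‖κ‖ * b) * mq ε B g ω
      = mq ε B (fun X => ENNReal.ofReal (‖κ‖ * b) * g X) ω := (mq_mul ε B _ g ω).symm
    _ ≤ mq ε B (fun X => 60 * (g X * ErJ om κ (t X) (Z X) (J X))) ω := by
        refine mq_mono fun β hβ => ?_
        by_cases h0 : g (paint (Ap ε B ω) β) = 0
        · rw [h0, mul_zero]; exact zero_le
        · obtain ⟨h3, h4⟩ := h1 β hβ h0
          have h5 := two (κ := κ) (t := t (paint (Ap ε B ω) β)) h him hb hr h3 h4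
          calc ENNReal.ofReal (‖κ‖ * b) * g (paint (Ap ε B ω) β)
              ≤ (60 * ErJ om κ (t (paint (Ap ε B ω) β)) (Z (paint (Ap ε B ω) β))
                  (J (paint (Ap ε B ω) β))) * g (paint (Ap ε B ω) β) := by gcongr
            _ = _ := by ring
    _ = 60 * mq ε B (fun X => g X * ErJ om κ (t X) (Z X) (J X)) ω := mq_mul ε B _ _ ω
    _ ≤ 60 * R ω := by gcongr

/-- **the inputs of route 2** for one mesh `ε` and one ring, precision `δ`; `g` need not be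
measurable, only its quenched mean -/
def Ring2' (om κ z0 : ℂ) (b ε δ : ℝ) : Prop :=
  ∃ (r : ℝ) (B : Set ℂ) (g : Set (ℂ × Bool) → ℝ≥0∞) (t : Set (ℂ × Bool) → ℂ)
    (Z : Set (ℂ × Bool) → Fin 3 → ℂ) (J : Set (ℂ × Bool) → Fin 3 → Prop) (R : Sample → ℝ≥0∞),
    r ≤ b / 200 ∧ AEMeasurable (mq ε B g) sampleLaw ∧ (∀ X, g X ≤ 1) ∧
    (∀ᵐ ω ∂sampleLaw, ∀ β ∈ (Ap ε B ω).powerset, g (paint (Ap ε B ω) β) ≠ 0 →
      Hl z0 b r (Z (paint (Ap ε B ω) β)) ∧
        ∃ i j, i ≠ j ∧ J (paint (Ap ε B ω) β) i ∧ J (paint (Ap ε B ω) β) j) ∧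
    (∀ᵐ ω ∂sampleLaw, mq ε B (fun X => g X * ErJ om κ (t X) (Z X) (J X)) ω ≤ R ω) ∧
    0 < Mm ε B g ∧ ∫⁻ ω, R ω ∂sampleLaw ≤ ENNReal.ofReal δ * Mm ε B g

theorem Ring2'.small {om κ z0 : ℂ} (h : om ^ 2 + om + 1 = 0) (him : 0 < om.im) {b ε δ : ℝ}
    (hb : 0 < b) (hδ : 0 ≤ δ) (H : Ring2' om κ z0 b ε δ) : ‖κ‖ * b ≤ 60 * δ := by
  obtain ⟨r, B, g, t, Z, J, R, hr, hgm, hg1, h1, h2, h3, h4⟩ := H
  have h5 := kap_mm h him hb hr hgm h1 h2
  have hGt : Mm ε B g ≠ ∞ := ne_top_of_le_ne_top ENNReal.one_ne_top (mm_le_one hg1)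
  have h6 : ENNReal.ofReal (‖κ‖ * b) * Mm ε B g ≤ ENNReal.ofReal (60 * δ) * Mm ε B g := by
    refine h5.trans ?_
    calc 60 * ∫⁻ ω, R ω ∂sampleLaw ≤ 60 * (ENNReal.ofReal δ * Mm ε B g) := by gcongr
      _ = ENNReal.ofReal (60 * δ) * Mm ε B g := by
          rw [ENNReal.ofReal_mul (by norm_num), ← mul_assoc]
          norm_num
  have h7 := (ENNReal.mul_le_mul_iff_left h3.ne' hGt).1 h6
  exact (ENNReal.ofReal_le_ofReal_iff (by positivity)).1 h7

/-- **route 2** -/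
theorem kapH_of_ring' {om z0 : ℂ} (h : om ^ 2 + om + 1 = 0) (him : 0 < om.im) {b : ℝ} (hb : 0 < b)
    {κ : ℕ → ℝ → ℂ} (H : ∀ δ : ℝ, 0 < δ → ∀ᶠ N : ℕ in atTop, ∀ᶠ ε : ℝ in 𝓝[>] 0,
      Ring2' om (κ N ε) z0 b ε δ) : KapH κ := by
  intro δ hδ
  filter_upwards [H (δ * b / 60) (by positivity)] with N h1
  filter_upwards [h1] with ε h2
  have h3 := h2.small h him hb (by positivity)
  have h4 : 60 * (δ * b / 60) = δ * b := by ring
  rw [h4] at h3
  exact le_of_mul_le_mul_right h3 hb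

end Crest.Agent.R143.KapBx690
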