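import Crest.Agent.R143.Far_832
import Crest.Agent.R143.K33R_877

/-!
# Row 143 (S0194), block H, H5 route 1: three far sites, their hull (helper99)

* `Far3 S0 S p` : `S` = `S0` and three far sites `p 0, p 1, p 2` (directions `1 - i`, `1 + i`, `-1`) in
  general position, `S0` in the disc of radius `24`;
* `exists_far3`;
* `Far3.hull_p`, `Far3.hull_only` : the hull edges are `(p j, p (j + 1))`.
-/

set_option autoImplicit false

noncomputable section

open scoped Classical

namespace Crest.Agent.R143.KapBx99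

open Set
open Crest.Agent.R143.B0x346 Crest.Agent.R143.DelGx806 Crest.Agent.R143.DelRx806
open Crest.Agent.R143.Farx832 (gp_add abs_cr_le)

/-- the directions of the far sites -/
def dir (j : ZMod 3) : ℂ := if j = 0 then 1 - Complex.I else if j = 1 then 1 + Complex.I else -1

theorem dir0 : dir 0 = 1 - Complex.I := if_pos rfl
theorem dir1 : dir 1 = 1 + Complex.I := by unfold dir; rw [if_neg (by decide), if_pos rfl]
theorem dir2 : dir 2 = -1 := by unfold dir; rw [if_neg (by decide), if_neg (by decide)]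

theorem z3 {P : ZMod 3 → Prop} (h0 : P 0) (h1 : P 1) (h2 : P 2) (j : ZMod 3) : P j := by
  have : ∀ j : ZMod 3, j = 0 ∨ j = 1 ∨ j = 2 := by decide
  rcases this j with rfl | rfl | rfl <;> assumption

/-- three far sites -/
structure Far3 (S0 S : Finset ℂ) (p : ZMod 3 → ℂ) : Prop where
  gp : GP (S : Set ℂ)
  mem : ∀ x, x ∈ S ↔ x ∈ S0 ∨ ∃ j, x = p j
  small : ∀ x ∈ S0, ‖x‖ ≤ 24
  pos : ∀ j, ‖p j - 1000 * dir j‖ < 1

theorem exists_far3 {S0 : Finset ℂ} (hS : GP (S0 : Set ℂ)) (h : ∀ x ∈ S0, ‖x‖ ≤ 24) :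
    ∃ S p, Far3 S0 S p := by
  obtain ⟨p0, u0, n0, g0⟩ := gp_add hS (U := Metric.ball (1000 * dir 0) 1) Metric.isOpen_ball
    ⟨_, Metric.mem_ball_self one_pos⟩
  obtain ⟨p1, u1, n1, g1⟩ := gp_add g0 (U := Metric.ball (1000 * dir 1) 1) Metric.isOpen_ball
    ⟨_, Metric.mem_ball_self one_pos⟩
  obtain ⟨p2, u2, n2, g2⟩ := gp_add g1 (U := Metric.ball (1000 * dir 2) 1) Metric.isOpen_ball
    ⟨_, Metric.mem_ball_self one_pos⟩
  rw [Metric.mem_ball, dist_eq_norm] at u0 u1 u2
  refine ⟨insert p2 (insert p1 (insert p0 S0)),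
    fun j => if j = 0 then p0 else if j = 1 then p1 else p2, g2, ?_, h, ?_⟩
  · intro x
    simp only [Finset.mem_insert]
    constructor
    · rintro (rfl | rfl | rfl | hx)
      · exact Or.inr ⟨2, by rw [if_neg (by decide), if_neg (by decide)]⟩
      · exact Or.inr ⟨1, by rw [if_neg (by decide), if_pos rfl]⟩
      · exact Or.inr ⟨0, by rw [if_pos rfl]⟩
      · exact Or.inl hx
    · rintro (hx | ⟨j, rfl⟩)
      · tauto
      · split_ifs <;> tauto
  · refine z3 ?_ ?_ ?_
    · simp only [if_pos]; exact u0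
    · rw [if_neg (by decide), if_pos rfl]; exact u1
    · rw [if_neg (by decide), if_neg (by decide)]; exact u2

variable {S0 S : Finset ℂ} {p : ZMod 3 → ℂ} {a b : ℂ}

theorem Far3.pS (H : Far3 S0 S p) (j : ZMod 3) : p j ∈ S := (H.mem _).2 (Or.inr ⟨j, rfl⟩)

theorem dir_norm : ∀ j, ‖dir j‖ ≤ 2 := by
  refine z3 ?_ ?_ ?_
  · rw [dir0]
    refine (norm_sub_le _ _).trans ?_
    rw [norm_one, Complex.norm_I]; norm_num
  · rw [dir1]
    refine (norm_add_le _ _).trans ?_
    rw [norm_one, Complex.norm_I]; norm_num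
  · rw [dir2, norm_neg, norm_one]; norm_num

/-- bilinear perturbation -/
theorem cr_pert {u v u0 v0 : ℂ} {a b c d : ℝ} (h1 : ‖u - u0‖ ≤ a) (h2 : ‖v - v0‖ ≤ b)
    (h3 : ‖u0‖ ≤ c) (h4 : ‖v0‖ ≤ d) : cr u0 v0 - (a * d + c * b + a * b) ≤ cr u v := by
  have e : cr u v = cr u0 v0 + cr (u - u0) v0 + cr u0 (v - v0) + cr (u - u0) (v - v0) := by
    unfold cr
    simp only [Complex.sub_re, Complex.sub_im]
    ring
  have a0 : 0 ≤ a := (norm_nonneg _).trans h1
  have b0 : 0 ≤ b := (norm_nonneg _).trans h2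
  have c0 : 0 ≤ c := (norm_nonneg _).trans h3
  have k1 := (abs_cr_le (u - u0) v0).trans (mul_le_mul h1 h4 (norm_nonneg _) a0)
  have k2 := (abs_cr_le u0 (v - v0)).trans (mul_le_mul h3 h2 (norm_nonneg _) c0)
  have k3 := (abs_cr_le (u - u0) (v - v0)).trans (mul_le_mul h1 h2 (norm_nonneg _) a0)
  rw [e]
  linarith [(abs_le.1 k1).1, (abs_le.1 k2).1, (abs_le.1 k3).1]

theorem cr_dir0 : ∀ j : ZMod 3, 1 ≤ cr (dir (j + 1) - dir j) (0 - dir j) := by
  refine z3 ?_ ?_ ?_
  · rw [zero_add, dir0, dir1]; unfold cr; norm_num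
  · rw [show (1 : ZMod 3) + 1 = 2 by decide, dir1, dir2]; unfold cr; norm_num
  · rw [show (2 : ZMod 3) + 1 = 0 by decide, dir2, dir0]; unfold cr; simp

theorem cr_dir1 : ∀ j : ZMod 3, 1 ≤ cr (dir (j + 1) - dir j) (dir (j + 2) - dir j) := by
  refine z3 ?_ ?_ ?_
  · rw [zero_add, zero_add, dir0, dir1, dir2]; unfold cr; simp; norm_num
  · rw [show (1 : ZMod 3) + 1 = 2 by decide, show (1 : ZMod 3) + 2 = 0 by decide, dir1, dir2, dir0]
    unfold cr; norm_num
  · rw [show (2 : ZMod 3) + 1 = 0 by decide, show (2 : ZMod 3) + 2 = 1 by decide, dir2, dir0, dir1]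
    unfold cr; norm_num

theorem cr_scale (t : ℝ) (u v : ℂ) : cr (t * u) (t * v) = t ^ 2 * cr u v := by
  unfold cr
  simp only [Complex.mul_re, Complex.mul_im, Complex.ofReal_re, Complex.ofReal_im]
  ring

/-- all the sites are on the left of `(p j, p (j + 1))` -/
theorem Far3.left (H : Far3 S0 S p) (j : ZMod 3) {s : ℂ} (hs : s ∈ S) :
    0 ≤ cr (p (j + 1) - p j) (s - p j) := by
  have key : ∀ (σ : ℂ) (r : ℝ), ‖s - 1000 * σ‖ ≤ r → r ≤ 24 → ‖σ‖ ≤ 2 →
      1 ≤ cr (dir (j + 1) - dir j) (σ - dir j) → 0 ≤ cr (p (j + 1) - p j) (s - p j) := by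
    intro σ r h1 h2 h3 h4
    have hp := H.pos j
    have hq := H.pos (j + 1)
    have n1 := dir_norm j
    have n2 := dir_norm (j + 1)
    have k1 : ‖p (j + 1) - p j - 1000 * (dir (j + 1) - dir j)‖ ≤ 2 := by
      have e : p (j + 1) - p j - 1000 * (dir (j + 1) - dir j) =
          (p (j + 1) - 1000 * dir (j + 1)) - (p j - 1000 * dir j) := by ring
      rw [e]
      exact (norm_sub_le _ _).trans (by linarith)
    have k2 : ‖s - p j - 1000 * (σ - dir j)‖ ≤ 25 := by
      have e : s - p j - 1000 * (σ - dir j) = (s - 1000 * σ) - (p j - 1000 * dir j) := by ring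
      rw [e]
      exact (norm_sub_le _ _).trans (by linarith)
    have k3 : ‖(1000 : ℂ) * (dir (j + 1) - dir j)‖ ≤ 4000 := by
      rw [norm_mul]
      have := norm_sub_le (dir (j + 1)) (dir j)
      rw [show ‖(1000 : ℂ)‖ = 1000 by simp]
      linarith
    have k4 : ‖(1000 : ℂ) * (σ - dir j)‖ ≤ 4000 := by
      rw [norm_mul]
      have := norm_sub_le σ (dir j)
      rw [show ‖(1000 : ℂ)‖ = 1000 by simp]
      linarith
    have k5 := cr_pert k1 k2 k3 k4
    have k6 := cr_scale 1000 (dir (j + 1) - dir j) (σ - dir j)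
    push_cast at k6
    rw [k6] at k5
    linarith
  rcases (H.mem s).1 hs with h | ⟨k, rfl⟩
  · refine key 0 24 ?_ le_rfl (by rw [norm_zero]; norm_num) (cr_dir0 j)
    rw [mul_zero, sub_zero]
    exact H.small s h
  · have hk : k = j ∨ k = j + 1 ∨ k = j + 2 := by
      clear * -
      revert k j
      decide
    rcases hk with rfl | rfl | rfl
    · rw [sub_self]; unfold cr; simp
    · unfold cr; nlinarith
    · exact key (dir (j + 2)) 1 (H.pos _).le (by norm_num) (dir_norm _) (cr_dir1 j)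

theorem Far3.p_big (H : Far3 S0 S p) (j : ZMod 3) : 900 ≤ ‖p j‖ := by
  have h1 : 1 ≤ ‖dir j‖ := by
    refine z3 (P := fun j => 1 ≤ ‖dir j‖) ?_ ?_ ?_ j
    · show 1 ≤ ‖dir 0‖
      rw [dir0]
      have := Complex.abs_re_le_norm (1 - Complex.I)
      simpa using this
    · show 1 ≤ ‖dir 1‖
      rw [dir1]
      have := Complex.abs_re_le_norm (1 + Complex.I)
      simpa using this
    · show 1 ≤ ‖dir 2‖
      rw [dir2, norm_neg, norm_one]
  have h2 := H.pos j
  have h3 : ‖(1000 : ℂ) * dir j‖ ≤ ‖p j‖ + ‖p j - 1000 * dir j‖ := by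
    have := norm_sub_le (p j) (p j - 1000 * dir j)
    rwa [sub_sub_cancel] at this
  rw [norm_mul, show ‖(1000 : ℂ)‖ = 1000 by simp] at h3
  linarith

theorem Far3.p_inj (H : Far3 S0 S p) {i j : ZMod 3} (h : p i = p j) : i = j := by
  by_contra hne
  have h1 := H.pos i
  have h2 := H.pos j
  have h3 : ‖(1000 : ℂ) * (dir i - dir j)‖ ≤ 2 := by
    have e : (1000 : ℂ) * (dir i - dir j) = (p j - 1000 * dir j) - (p i - 1000 * dir i) := by
      rw [h]; ring
    rw [e]
    exact (norm_sub_le _ _).trans (by linarith)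
  rw [norm_mul, show ‖(1000 : ℂ)‖ = 1000 by simp] at h3
  have h4 : ∀ i j : ZMod 3, i ≠ j → 1 ≤ ‖dir i - dir j‖ := by
    have a1 : 1 ≤ ‖dir 0 - dir 1‖ := by
      have e : (dir 0 - dir 1).im = -2 := by rw [dir0, dir1]; simp; norm_num
      have := Complex.abs_im_le_norm (dir 0 - dir 1)
      rw [e] at this
      norm_num at this
      linarith
    have a2 : 1 ≤ ‖dir 1 - dir 2‖ := by
      have e : (dir 1 - dir 2).re = 2 := by rw [dir1, dir2]; simp; norm_num
      have := Complex.abs_re_le_norm (dir 1 - dir 2)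
      rw [e] at this
      norm_num at this
      linarith
    have a3 : 1 ≤ ‖dir 0 - dir 2‖ := by
      have e : (dir 0 - dir 2).re = 2 := by rw [dir0, dir2]; simp; norm_num
      have := Complex.abs_re_le_norm (dir 0 - dir 2)
      rw [e] at this
      norm_num at this
      linarith
    refine z3 (z3 ?_ ?_ ?_) (z3 ?_ ?_ ?_) (z3 ?_ ?_ ?_) <;> intro h <;>
      first
      | exact absurd rfl h
      | exact a1
      | exact a2
      | exact a3
      | (rw [norm_sub_rev]; exact a1)
      | (rw [norm_sub_rev]; exact a2)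
      | (rw [norm_sub_rev]; exact a3)
  have := h4 i j hne
  linarith

theorem Far3.hull_p (H : Far3 S0 S p) (j : ZMod 3) : hullE S (p j) (p (j + 1)) := by
  have hne : p j ≠ p (j + 1) := fun h => by
    have := H.p_inj h
    revert this; clear * -; revert j; decide
  have h2 : p (j + 2) ≠ p j := fun h => by
    have := H.p_inj h
    revert this; clear * -; revert j; decide
  have h3 : p (j + 2) ≠ p (j + 1) := fun h => by
    have := H.p_inj h
    revert this; clear * -; revert j; decide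
  exact (hull_iff H.gp (H.pS j) (H.pS _) hne ⟨_, H.pS (j + 2), h2, h3⟩).2 fun s hs => H.left j hs

/-- **the hull** -/
theorem Far3.hull_only (H : Far3 S0 S p) (h : hullE S a b) : ∃ j, a = p j ∧ b = p (j + 1) := by
  have haS := (hullE.mem h).1
  rcases (H.mem a).1 haS with ha | ⟨j, rfl⟩
  · exfalso
    have hA := H.small a ha
    set d : ℂ := b - a with hd
    have hne : a ≠ b := hullE.ne h
    have hd0 : 0 < ‖d‖ := norm_pos_iff.2 (sub_ne_zero.2 hne.symm)
    have key : ∀ j, -(25 * ‖d‖) ≤ 1000 * cr d (dir j) := by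
      intro j
      have k1 : 0 ≤ cr (b - a) (p j - a) := hull_side h (p j) (H.pS j)
      have k2 : cr (b - a) (p j - a) = 1000 * cr d (dir j) + cr d ((p j - 1000 * dir j) - a) := by
        rw [hd]
        unfold cr
        simp only [Complex.sub_re, Complex.sub_im, Complex.mul_re, Complex.mul_im,
          Complex.re_ofNat, Complex.im_ofNat]
        ring
      have k3 : |cr d ((p j - 1000 * dir j) - a)| ≤ 25 * ‖d‖ := by
        refine (abs_cr_le _ _).trans ?_
        rw [mul_comm 25]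
        refine mul_le_mul_of_nonneg_left ?_ hd0.le
        exact (norm_sub_le _ _).trans (by linarith [H.pos j])
      have k4 := (abs_le.1 k3).2
      linarith
    have e0 := key 0
    have e1 := key 1
    have e2 := key 2
    have c0 : cr d (dir 0) = -d.re - d.im := by rw [dir0]; unfold cr; simp
    have c1 : cr d (dir 1) = d.re - d.im := by rw [dir1]; unfold cr; simp
    have c2 : cr d (dir 2) = d.im := by rw [dir2]; unfold cr; simp
    rw [c0] at e0
    rw [c1] at e1
    rw [c2] at e2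
    have f3 : ‖d‖ ≤ |d.re| + |d.im| := Complex.norm_le_abs_re_add_abs_im d
    have g1 : |d.im| ≤ ‖d‖ / 10 := by
      rw [abs_le]
      constructor <;> linarith
    have g1' := abs_le.1 g1
    have g2 : |d.re| ≤ ‖d‖ / 2 := by
      rw [abs_le]
      constructor <;> linarith [g1'.1, g1'.2]
    linarith
  · refine ⟨j, rfl, ?_⟩
    obtain ⟨c, -, hc⟩ := hull_succ H.gp (H.hull_p (j - 1))
    rw [sub_add_cancel] at hc
    exact (hc b h).trans (hc _ (H.hull_p j)).symm

end Crest.Agent.R143.KapBx99
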