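import Crest.Agent.R143.G6W_723
import Crest.Agent.R143.Room_991
import Crest.Agent.R143.K33R_877
import Crest.Agent.R143.NetU_346
import Crest.Agent.R143.Loc_922

/-!
# Row 143 (S0194), box R10g: geometric half of CONT for `U_K`, generic part (helper969)

Giants `A` (`K33x877.Cls`), fresh polygon `F` (closed), `V` = sites deep in `F`.
* `cl S C` : sites whose cells meet `C`; connected if `C` is preconnected (`cl_con`)
* `Deep S V F d` : `V = {s ∈ S | closedBall s (2 d) ⊆ F}`; `off_V`, `cell_V`, `foot`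
* `Zf` : thin families: connected sets of sites off `V`, of diameter `≤ R`, which meet `A i`
* `grow` : `B i = A i ∪ ⋃ (Z i)` : disjoint, connected, every site of `B i` is joined to `A i` inside
  `B i` and the ball of radius `R`
* `joined` : every site off `V` is joined to the giants off `V` (`Fᶜ` preconnected)
* `extend` : classes `A'` which cover `S \ V`, with labels and thin links
-/

set_option autoImplicit false

noncomputable section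

open scoped Classical

namespace Crest.Agent.R143.UKx969

open Set
open Crest.ProbabilityR.Voronoi
open Crest.Agent.R143.B0x346 Crest.Agent.R143.DelGx806 Crest.Agent.R143.DelRx806
  Crest.Agent.R143.B0Dx346 Crest.Agent.R143.JColx54 Crest.Agent.R143.RE0x723
  Crest.Agent.R143.G6Wx723
open Crest.Agent.R143.K33x877 (Cls fr)
open Crest.Agent.R143.Locx922 (Hol)

variable {S V : Finset ℂ} {A B : ZMod 3 → Set ℂ} {F C B' : Set ℂ} {d R δ : ℝ} {a b x y v w p q : ℂ}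

/-! ### cells of a connected set -/

/-- sites whose cells meet `C` -/
def cl (S : Finset ℂ) (C : Set ℂ) : Set ℂ :=
  {s | s ∈ S ∧ (C ∩ voronoiCell (S : Set ℂ) s).Nonempty}

theorem cl_mono {C C' : Set ℂ} (h : C ⊆ C') : cl S C ⊆ cl S C' := fun _ h1 =>
  ⟨h1.1, h1.2.mono (inter_subset_inter_left _ h)⟩

theorem self_cell (a : ℂ) : a ∈ voronoiCell (S : Set ℂ) a := fun s _ => by
  rw [sub_self, norm_zero]; exact norm_nonneg _

theorem mem_cl_self (ha : a ∈ S) (h : a ∈ C) : a ∈ cl S C := ⟨ha, a, h, self_cell a⟩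

/-- **the cells of a preconnected set are connected** -/
theorem cl_con (hS : GP (S : Set ℂ)) (h3 : 3 ≤ S.card) (hC : IsPreconnected C) (ha : a ∈ cl S C)
    (hb : b ∈ cl S C) : Pth S (cl S C) a b := by
  refine ⟨ha, Relation.ReflTransGen.mono ?_ _ _ (chain_of_conn_fin hS h3 hC ha.1 hb.1 ha.2 hb.2)⟩
  rintro u w ⟨h1, z, hz1, hz2⟩
  refine ⟨h1, h1.mem.2, z, hz2, ?_⟩
  have := (inter_cell (Finset.mem_coe.2 h1.mem.1) (Finset.mem_coe.2 h1.mem.2)).symm ▸ hz1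
  exact this.2

/-! ### deep sites of the polygon -/

/-- `V` = sites deep in `F` -/
def Deep (S V : Finset ℂ) (F : Set ℂ) (d : ℝ) : Prop :=
  ∀ s, s ∈ V ↔ s ∈ S ∧ Metric.closedBall s (2 * d) ⊆ F

theorem Deep.sub (h : Deep S V F d) : V ⊆ S := fun _ hs => ((h _).1 hs).1

theorem Deep.out (h : Deep S V F d) (hx : x ∈ S) (hV : x ∉ V) : ∃ w, w ∉ F ∧ ‖w - x‖ ≤ 2 * d := by
  by_contra hcon
  push Not at hcon
  apply hV
  rw [h]
  refine ⟨hx, fun z hz => ?_⟩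
  by_contra hzF
  have := hcon z hzF
  rw [Metric.mem_closedBall, dist_eq_norm] at hz
  linarith

/-- a site near a point off `F` is off `V` -/
theorem Deep.off (h : Deep S V F d) (hw : w ∉ F) (hs : ‖w - x‖ ≤ 2 * d) : x ∉ V := by
  intro hx
  apply hw
  refine ((h x).1 hx).2 ?_
  rw [Metric.mem_closedBall, dist_eq_norm]
  exact hs

/-- a site near a point off the interior of `F` is off `V` -/
theorem Deep.off' (h : Deep S V F d) (hw : w ∉ interior F) (hs : ‖w - x‖ < 2 * d) : x ∉ V := by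
  intro hx
  apply hw
  have h1 := ((h x).1 hx).2
  rw [mem_interior]
  exact ⟨Metric.ball x (2 * d), (Metric.ball_subset_closedBall).trans h1, Metric.isOpen_ball, by
    rw [Metric.mem_ball, dist_eq_norm]; exact hs⟩

/-- the cells of `V` are inside `F` -/
theorem Deep.cell (h : Deep S V F d) (hd : 0 < d) (hH : Hol (S : Set ℂ) F d) (hv : v ∈ V)
    (hz : w ∈ voronoiCell (S : Set ℂ) v) : w ∈ F ∧ ‖w - v‖ < d := by
  have h1 := ((h v).1 hv).2
  have h2 : v ∈ F := h1 (Metric.mem_closedBall_self (by linarith))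
  have h3 := Locx922.cell_sub_ball hd hH h2 hz
  refine ⟨h1 ?_, h3⟩
  rw [Metric.mem_closedBall, dist_eq_norm]
  linarith

/-- a neighbour of `V` is in `F` -/
theorem Deep.nb (h : Deep S V F d) (hS : GP (S : Set ℂ)) (h3 : 3 ≤ S.card) (hd : 0 < d)
    (hH : Hol (S : Set ℂ) F d) (hv : v ∈ V) (ha : Adj S x v) : x ∈ F := by
  obtain ⟨z, hz1, hz2⟩ := (adj_iff hS h3 ha.mem.1 ha.mem.2 ha.ne).1 ha
  have h1 := h.cell hd hH hv hz2
  have h2 : ‖z - x‖ ≤ ‖z - v‖ := hz1 v (Finset.mem_coe.2 ha.mem.2)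
  refine ((h v).1 hv).2 ?_
  rw [Metric.mem_closedBall, dist_eq_norm]
  have := norm_add_le (x - z) (z - v)
  rw [sub_add_sub_cancel, norm_sub_rev x z] at this
  linarith [h1.2]

/-- a preconnected set which meets `F` and its complement meets the frontier -/
theorem meet_frontier {t : Set ℂ} (ht : IsPreconnected t) (h1 : (t ∩ F).Nonempty)
    (h2 : (t ∩ Fᶜ).Nonempty) : (t ∩ frontier F).Nonempty := by
  by_contra hcon
  rw [Set.not_nonempty_iff_eq_empty] at hcon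
  have hno : ∀ z ∈ t, z ∉ frontier F := fun z hz hf => by
    have : z ∈ t ∩ frontier F := ⟨hz, hf⟩
    rw [hcon] at this
    exact this
  obtain ⟨x, hx, hxF⟩ := h1
  obtain ⟨y, hy, hyF⟩ := h2
  have hx' : x ∈ interior F := by
    by_contra hi
    exact hno x hx ⟨subset_closure hxF, hi⟩
  have hy' : y ∈ (closure F)ᶜ := by
    intro hc
    exact hno y hy ⟨hc, fun hi => hyF (interior_subset hi)⟩
  obtain ⟨z, _, hz1, hz2⟩ := ht (interior F) (closure F)ᶜ isOpen_interior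
    isClosed_closure.isOpen_compl (fun z hz => by
      by_cases hc : z ∈ closure F
      · left
        by_contra hi
        exact hno z hz ⟨hc, hi⟩
      · exact Or.inr hc) ⟨x, hx, hx'⟩ ⟨y, hy, hy'⟩
  exact hz2 (subset_closure (interior_subset hz1))

/-- **foot** of a site off `V` in `F` -/
theorem Deep.foot (h : Deep S V F d) (hx : x ∈ S) (hV : x ∉ V) (hxF : x ∈ F) :
    ∃ w, w ∉ F ∧ ‖w - x‖ ≤ 2 * d ∧ ∃ p ∈ frontier F, p ∈ segment ℝ x w := by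
  obtain ⟨w, hw, hwx⟩ := h.out hx hV
  obtain ⟨p, h1, h2⟩ := meet_frontier (t := segment ℝ x w) (convex_segment x w).isPreconnected
    ⟨x, left_mem_segment ℝ x w, hxF⟩ ⟨w, right_mem_segment ℝ x w, hw⟩
  exact ⟨w, hw, hwx, p, h2, h1⟩

theorem seg_add (hq : q ∈ segment ℝ p b) : ‖p - q‖ + ‖q - b‖ = ‖p - b‖ := by
  have := dist_add_dist_of_mem_segment hq
  simpa [dist_eq_norm] using this

/-- the sites whose cells meet `[x, w]` are in the ball of radius `‖x - w‖` round `w` -/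
theorem cl_seg (hx : x ∈ S) (hs : a ∈ cl S (segment ℝ x w)) : ‖w - a‖ ≤ ‖x - w‖ := by
  obtain ⟨_, q, hq, hc⟩ := hs
  have h1 : ‖q - a‖ ≤ ‖q - x‖ := hc x (Finset.mem_coe.2 hx)
  have h2 := seg_add hq
  have h3 := norm_add_le (w - q) (q - a)
  rw [sub_add_sub_cancel] at h3
  rw [norm_sub_rev x q] at h2
  rw [norm_sub_rev w q] at h3
  linarith

/-! ### growing the giants by thin families -/

/-- connected set of sites off `V`, of diameter `≤ R`, which meets the giant `i` and no other -/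
structure Zf (S V : Finset ℂ) (A : ZMod 3 → Set ℂ) (R : ℝ) (i : ZMod 3) (Z : Set ℂ) : Prop where
  sub : ∀ z ∈ Z, z ∈ S ∧ z ∉ V
  con : ∀ x ∈ Z, ∀ y ∈ Z, Pth S Z x y
  meet : ∃ a ∈ A i, a ∈ Z
  oth : ∀ j, j ≠ i → ∀ z ∈ Z, z ∉ A j
  diam : ∀ x ∈ Z, ∀ y ∈ Z, ‖x - y‖ ≤ R

/-- the giants grown by the families -/
def gr (A : ZMod 3 → Set ℂ) (Z : ZMod 3 → Set (Set ℂ)) (i : ZMod 3) : Set ℂ := A i ∪ ⋃₀ Z i

variable {Z : ZMod 3 → Set (Set ℂ)} {i j : ZMod 3}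

theorem gr_sub : A i ⊆ gr A Z i := fun _ h => Or.inl h

/-- **thin** -/
theorem gr_thin (hR : 0 ≤ R) (hZ : ∀ i, ∀ Y ∈ Z i, Zf S V A R i Y) (hx : x ∈ gr A Z i) :
    ∃ a ∈ A i, Pth S {z | z ∈ gr A Z i ∧ ‖z - x‖ ≤ R} x a := by
  rcases hx with hx | ⟨Y, hY, hxY⟩
  · exact ⟨x, hx, Pth.refl ⟨Or.inl hx, by rw [sub_self, norm_zero]; exact hR⟩⟩
  · have h := hZ i Y hY
    obtain ⟨a, ha, haY⟩ := h.meet
    refine ⟨a, ha, (h.con x hxY a haY).mono fun z hz => ⟨Or.inr ⟨Y, hY, hz⟩, h.diam z hz x hxY⟩⟩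

/-- **the grown classes are disjoint and connected** -/
theorem gr_cls (hA : Cls S A) (hR : 0 ≤ R) (hZ : ∀ i, ∀ Y ∈ Z i, Zf S V A R i Y)
    (hd : ∀ i j, i ≠ j → ∀ Y ∈ Z i, ∀ Y' ∈ Z j, Disjoint Y Y') : Cls S (gr A Z) where
  gp := hA.gp
  sub := fun i => by
    rintro x (hx | ⟨Y, hY, hx⟩)
    · exact hA.sub i hx
    · exact Finset.mem_coe.2 ((hZ i Y hY).sub x hx).1
  disj := fun i j hij => by
    rw [Set.disjoint_left]
    rintro x (hx | ⟨Y, hY, hx⟩) (hx' | ⟨Y', hY', hx'⟩)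
    · exact Set.disjoint_left.1 (hA.disj i j hij) hx hx'
    · exact (hZ j Y' hY').oth i hij x hx' hx
    · exact (hZ i Y hY).oth j (Ne.symm hij) x hx hx'
    · exact Set.disjoint_left.1 (hd i j hij Y hY Y' hY') hx hx'
  con := fun i x hx y hy => by
    obtain ⟨a, ha, h1⟩ := gr_thin (S := S) (V := V) hR hZ hx
    obtain ⟨b, hb, h2⟩ := gr_thin (S := S) (V := V) hR hZ hy
    exact ((h1.mono fun z hz => hz.1).trans ((hA.con i a ha b hb).mono gr_sub)).trans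
      (h2.mono fun z hz => hz.1).symm

theorem gr_off (hA : ∀ i, ∀ x ∈ A i, x ∉ V) (hZ : ∀ i, ∀ Y ∈ Z i, Zf S V A R i Y)
    (hx : x ∈ gr A Z i) : x ∉ V := by
  rcases hx with hx | ⟨Y, hY, hx⟩
  · exact hA i x hx
  · exact ((hZ i Y hY).sub x hx).2

/-! ### extension to all the sites off `V` -/

/-- every site off `V` is joined to the giants off `V` -/
theorem joined (hS : GP (S : Set ℂ)) (h3 : 3 ≤ S.card) (hD : Deep S V F d) (hd : 0 < d)
    (hH : Hol (S : Set ℂ) F d) (hF : IsPreconnected Fᶜ) (ha : a ∈ cl S Fᶜ) (hx : x ∈ S)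
    (hV : x ∉ V) : Pth S {z | z ∈ S ∧ z ∉ V} x a := by
  obtain ⟨w, hw, hwx⟩ := hD.out hx hV
  obtain ⟨s, hs, hsw⟩ := exists_cell (S := S) ⟨x, hx⟩ w
  have h1 : Pth S {z | z ∈ S ∧ z ∉ V} x s := by
    refine (cl_con hS h3 (C := segment ℝ x w) (convex_segment x w).isPreconnected
      (mem_cl_self hx (left_mem_segment ℝ x w))
      ⟨hs, w, right_mem_segment ℝ x w, hsw⟩).mono fun z hz => ⟨hz.1, hD.off hw ?_⟩
    have := cl_seg hx hz
    rw [norm_sub_rev x w] at this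
    linarith
  refine h1.trans ((cl_con hS h3 hF ⟨hs, w, hw, hsw⟩ ha).mono fun z hz => ⟨hz.1, fun hzV => ?_⟩)
  obtain ⟨_, q, hq, hc⟩ := hz
  exact hq (hD.cell hd hH hzV hc).1

/-- **extension** -/
theorem extend (hB : Cls S B) (hBV : ∀ i, ∀ x ∈ B i, x ∉ V)
    (hJ : ∀ x ∈ S, x ∉ V → ∃ i, ∃ y ∈ B i, Pth S {z | z ∈ S ∧ z ∉ V} x y) (hδ : 0 < δ) :
    ∃ A' : ZMod 3 → Set ℂ, Cls S A' ∧ (∀ i, B i ⊆ A' i) ∧ (∀ i, ∀ x ∈ A' i, x ∉ V) ∧
      (∀ x ∈ S, x ∉ V → ∃ i, x ∈ A' i) ∧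
      ∀ i, ∀ x ∈ A' i, (∃ j, ∃ y ∈ B j, Pth S {z | (z ∈ S ∧ z ∉ V) ∧ ‖z - x‖ ≤ δ} x y) →
        ∃ y ∈ B i, Pth S {z | z ∈ A' i ∧ ‖z - x‖ ≤ 200 * δ} x y := by
  set K : ZMod 3 → Finset ℂ := fun i => S.filter fun x => x ∈ B i with hK
  have mK : ∀ {i x}, x ∈ K i ↔ x ∈ B i := by
    intro i x
    rw [hK, Finset.mem_filter]
    exact ⟨fun h => h.2, fun h => ⟨Finset.mem_coe.1 (hB.sub i h), h⟩⟩
  set X : Finset ℂ := Finset.univ.biUnion K with hX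
  have mX : ∀ {x}, x ∈ X ↔ ∃ i, x ∈ B i := by
    intro x
    rw [hX, Finset.mem_biUnion]
    exact ⟨fun ⟨i, _, h⟩ => ⟨i, mK.1 h⟩, fun ⟨i, h⟩ => ⟨i, Finset.mem_univ i, mK.2 h⟩⟩
  have hXS : X ⊆ S \ V := by
    intro x hx
    obtain ⟨i, hi⟩ := mX.1 hx
    exact Finset.mem_sdiff.2 ⟨Finset.mem_coe.1 (hB.sub i hi), hBV i x hi⟩
  have hKX : ∀ i, K i ⊆ X := fun i x hx => mX.2 ⟨i, mK.1 hx⟩
  obtain ⟨ρ, hρ, hl⟩ := Roomx991.exists_rt hXS (fun x hx hV => by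
    obtain ⟨i, y, hy, hp⟩ := hJ x hx hV
    exact ⟨y, mX.2 ⟨i, hy⟩, hp⟩) hδ
  have kdisj : ∀ i j, i ≠ j → Disjoint (K i) (K j) := by
    intro i j hij
    rw [Finset.disjoint_left]
    intro x hx hx'
    exact Set.disjoint_left.1 (hB.disj i j hij) (mK.1 hx) (mK.1 hx')
  have kcon : ∀ i, ∀ x ∈ K i, ∀ y ∈ K i, Pth S (K i : Set ℂ) x y := by
    intro i x hx y hy
    exact (hB.con i x (mK.1 hx) y (mK.1 hy)).mono fun z hz => Finset.mem_coe.2 (mK.2 hz)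
  refine ⟨fun i => (Roomx991.ter S V ρ (K i) : Set ℂ), ⟨hB.gp, ?_, ?_, ?_⟩, ?_, ?_, ?_, ?_⟩
  · intro i x hx
    exact Finset.mem_coe.2 (Roomx991.ter_subS (Finset.mem_coe.1 hx))
  · intro i j hij
    rw [Finset.disjoint_coe]
    exact Roomx991.ter_disj (kdisj i j hij)
  · intro i x hx y hy
    exact Roomx991.ter_con hρ (hKX i) (kcon i) x (Finset.mem_coe.1 hx) y (Finset.mem_coe.1 hy)
  · intro i x hx
    exact Finset.mem_coe.2 (Roomx991.ter_sub hρ (hKX i) (mK.2 hx))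
  · intro i x hx
    exact Roomx991.ter_notV (Finset.mem_coe.1 hx)
  · intro x hx hV
    obtain ⟨i, hi⟩ := mX.1 (hρ.mem x hx hV)
    exact ⟨i, Finset.mem_coe.2 (Roomx991.mem_ter.2 ⟨⟨hx, hV⟩, mK.2 hi⟩)⟩
  · rintro i x hx ⟨j, y, hy, hp⟩
    obtain ⟨y', h1, -, h2⟩ := Roomx991.ter_thin hρ hl (Finset.mem_coe.1 hx)
      ⟨y, mX.2 ⟨j, hy⟩, hp⟩
    exact ⟨y', mK.1 h1, h2.mono fun z hz => ⟨Finset.mem_coe.2 hz.1, hz.2⟩⟩

/-- free sites of a cover -/
theorem ff_of_cover (hVS : V ⊆ S) (h1 : ∀ i, ∀ x ∈ A i, x ∉ V)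
    (h2 : ∀ x ∈ S, x ∉ V → ∃ i, x ∈ A i) : NetUx346.ff S A = V := by
  ext x
  rw [NetUx346.mem_ff]
  constructor
  · rintro ⟨hx, hx'⟩
    by_contra hV
    obtain ⟨i, hi⟩ := h2 x hx hV
    exact hx' i hi
  · intro hx
    exact ⟨hVS hx, fun i hi => h1 i x hi hx⟩

/-! ### connectors -/

/-- site off `V`, next to `V` -/
def Nxt (S V : Finset ℂ) (x : ℂ) : Prop := x ∈ S ∧ x ∉ V ∧ ∃ v ∈ V, Adj S x v

/-- `p` is a foot of `x` on the boundary of `F` -/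
def Ft (F : Set ℂ) (d : ℝ) (x p : ℂ) : Prop :=
  ∃ w, w ∉ F ∧ ‖w - x‖ ≤ 2 * d ∧ p ∈ frontier F ∧ p ∈ segment ℝ x w

theorem Ft.le (h : Ft F d x p) : ‖x - p‖ ≤ 2 * d := by
  obtain ⟨w, -, h1, -, h2⟩ := h
  have := seg_add h2
  have h3 := norm_nonneg (p - w)
  rw [norm_sub_rev w x] at h1
  linarith

theorem seg_sub (h : p ∈ segment ℝ x w) : segment ℝ x p ⊆ segment ℝ x w :=
  (convex_segment x w).segment_subset (left_mem_segment ℝ x w) h

/-- sites of `[x, p]` : off `V`, near `p` -/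
theorem Ft.site (h : Ft F d x p) (hD : Deep S V F d) (hx : x ∈ S)
    (ha : a ∈ cl S (segment ℝ x p)) : a ∉ V ∧ ‖a - p‖ ≤ 4 * d := by
  obtain ⟨w, h0, h1, -, h2⟩ := h
  have h3 := cl_seg hx (cl_mono (seg_sub h2) ha)
  have h4 := seg_add h2
  have h5 := norm_nonneg (x - p)
  rw [norm_sub_rev w x] at h1
  refine ⟨hD.off h0 (by linarith), ?_⟩
  have h6 := norm_add_le (a - w) (w - p)
  rw [sub_add_sub_cancel, norm_sub_rev a w, norm_sub_rev w p] at h6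
  linarith

theorem exists_ft (hS : GP (S : Set ℂ)) (h3 : 3 ≤ S.card) (hD : Deep S V F d) (hd : 0 < d)
    (hH : Hol (S : Set ℂ) F d) (hx : Nxt S V x) : ∃ p, Ft F d x p := by
  obtain ⟨h1, h2, v, hv, ha⟩ := hx
  obtain ⟨w, h4, h5, p, h6, h7⟩ := hD.foot h1 h2 (hD.nb hS h3 hd hH hv ha)
  exact ⟨p, w, h4, h5, h6, h7⟩

/-- **connector** of label `i`: a connected set `C` off the interior of `F` and a connected set `E`
of sites attached to `C`, which contains a site of the giant `i` -/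
structure Con (S V : Finset ℂ) (A : ZMod 3 → Set ℂ) (F : Set ℂ) (d R : ℝ) (i : ZMod 3)
    (C E : Set ℂ) : Prop where
  pre : IsPreconnected C
  out : ∀ c ∈ C, c ∉ interior F
  cov : ∀ c ∈ C, ∃ s ∈ S, ‖s - c‖ < d
  eS : ∀ z ∈ E, z ∈ S ∧ z ∉ V
  eC : ∀ x ∈ E, ∀ y ∈ E, Pth S E x y
  ce : ∃ e ∈ E, e ∈ cl S C
  meet : ∃ a ∈ A i, a ∈ E
  oth : ∀ j, j ≠ i → ∀ z ∈ A j, z ∉ E ∧ z ∉ cl S C
  diam : ∀ x ∈ C ∪ E, ∀ y ∈ C ∪ E, ‖x - y‖ ≤ R

/-- `C` with the segments from the sites next to `V` to their feet in `C` -/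
def Ch (S V : Finset ℂ) (F : Set ℂ) (d : ℝ) (C : Set ℂ) : Set ℂ :=
  C ∪ ⋃ x ∈ {x | Nxt S V x}, ⋃ p ∈ {p | Ft F d x p ∧ p ∈ C}, segment ℝ x p

theorem ch_pre (hC : IsPreconnected C) : IsPreconnected (Ch S V F d C) := by
  by_cases hne : C.Nonempty
  · obtain ⟨c, hc⟩ := hne
    refine isPreconnected_of_forall c fun y hy => ?_
    rcases hy with hy | hy
    · exact ⟨C, fun z hz => Or.inl hz, hc, hy, hC⟩
    · simp only [mem_iUnion, mem_ofPred_eq, exists_prop] at hy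
      obtain ⟨x, hx, p, ⟨h1, h2⟩, h3⟩ := hy
      refine ⟨C ∪ segment ℝ x p, ?_, Or.inl hc, Or.inr h3,
        hC.union p h2 (right_mem_segment ℝ x p) (convex_segment x p).isPreconnected⟩
      rintro z (hz | hz)
      · exact Or.inl hz
      · right
        simp only [mem_iUnion, mem_ofPred_eq, exists_prop]
        exact ⟨x, hx, p, ⟨h1, h2⟩, hz⟩
  · rw [Set.not_nonempty_iff_eq_empty] at hne
    have : Ch S V F d C = ∅ := by
      unfold Ch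
      rw [hne]
      simp
    rw [this]
    exact isPreconnected_empty

/-- the cells of `Ch` -/
theorem cl_ch (ha : a ∈ cl S (Ch S V F d C)) : a ∈ cl S C ∨
    ∃ x, Nxt S V x ∧ ∃ p, Ft F d x p ∧ p ∈ C ∧ a ∈ cl S (segment ℝ x p) := by
  obtain ⟨h1, q, hq, hc⟩ := ha
  rcases hq with hq | hq
  · exact Or.inl ⟨h1, q, hq, hc⟩
  · simp only [mem_iUnion, mem_ofPred_eq, exists_prop] at hq
    obtain ⟨x, hx, p, ⟨h2, h3⟩, h4⟩ := hq
    exact Or.inr ⟨x, hx, p, h2, h3, h1, q, h4, hc⟩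

/-- the thin set of a connector -/
def Zc (S V : Finset ℂ) (F : Set ℂ) (d : ℝ) (c : Set ℂ × Set ℂ) : Set ℂ :=
  cl S (Ch S V F d c.1) ∪ c.2

theorem Con.near (h : Con S V A F d R i C B') (ha : a ∈ cl S C) :
    ∃ c ∈ C, ‖c - a‖ < d := by
  obtain ⟨h1, q, hq, hc⟩ := ha
  obtain ⟨s, hs, hsq⟩ := h.cov q hq
  refine ⟨q, hq, lt_of_le_of_lt (hc s (Finset.mem_coe.2 hs)) ?_⟩
  rw [norm_sub_rev]; exact hsq

/-- the sites of the thin set are near the connector -/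
theorem Con.zc_near (h : Con S V A F d R i C B') (hD : Deep S V F d) (hd : 0 < d)
    (ha : a ∈ Zc S V F d (C, B')) : ∃ q ∈ C ∪ B', ‖a - q‖ ≤ 4 * d := by
  rcases ha with ha | ha
  · rcases cl_ch ha with ha | ⟨x, hx, p, h1, h2, h3⟩
    · obtain ⟨c, hc, h1⟩ := h.near ha
      refine ⟨c, Or.inl hc, ?_⟩
      rw [norm_sub_rev]
      linarith
    · exact ⟨p, Or.inl h2, (h1.site hD hx.1 h3).2⟩
  · refine ⟨a, Or.inr ha, ?_⟩
    rw [sub_self, norm_zero]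
    linarith

/-- **the thin set of a connector is a thin family** -/
theorem Con.zf (h : Con S V A F d R i C B') (hS : GP (S : Set ℂ)) (h3 : 3 ≤ S.card)
    (hD : Deep S V F d) (hd : 0 < d)
    (hgap : ∀ j, ∀ z ∈ A j, ∀ p ∈ frontier F, 4 * d < ‖z - p‖) :
    Zf S V A (R + 8 * d) i (Zc S V F d (C, B')) where
  sub := fun z hz => by
    rcases hz with hz | hz
    · refine ⟨hz.1, ?_⟩
      rcases cl_ch hz with hz | ⟨x, hx, p, h1, h2, h3⟩
      · obtain ⟨c, hc, h1⟩ := h.near hz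
        exact hD.off' (h.out c hc) (by linarith)
      · exact (h1.site hD hx.1 h3).1
    · exact h.eS z hz
  con := fun x hx y hy => by
    obtain ⟨e, he, hec⟩ := h.ce
    have key : ∀ z ∈ Zc S V F d (C, B'), Pth S (Zc S V F d (C, B')) z e := by
      rintro z (hz | hz)
      · exact (cl_con hS h3 (ch_pre h.pre) hz (cl_mono (fun _ h => Or.inl h) hec)).mono
          fun _ h => Or.inl h
      · exact (h.eC z hz e he).mono fun _ h => Or.inr h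
    exact (key x hx).trans (key y hy).symm
  meet := by
    obtain ⟨a, h1, h2⟩ := h.meet
    exact ⟨a, h1, Or.inr h2⟩
  oth := fun j hj z hz hA => by
    rcases hz with hz | hz
    · rcases cl_ch hz with hz | ⟨x, hx, p, h1, h2, h3⟩
      · exact (h.oth j hj z hA).2 hz
      · have h4 := hgap j z hA p (by obtain ⟨_, _, _, h5, _⟩ := h1; exact h5)
        linarith [(h1.site hD hx.1 h3).2]
    · exact (h.oth j hj z hA).1 hz
  diam := fun x hx y hy => by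
    obtain ⟨p, hp, h1⟩ := h.zc_near hD hd hx
    obtain ⟨q, hq, h2⟩ := h.zc_near hD hd hy
    have h4 := h.diam p hp q hq
    have h5 := norm_add_le (x - p) (p - y)
    have h6 := norm_add_le (p - q) (q - y)
    rw [sub_add_sub_cancel] at h5 h6
    rw [norm_sub_rev q y] at h6
    linarith

/-- the families of the connectors -/
def Fm (S V : Finset ℂ) (F : Set ℂ) (d : ℝ) (K : ZMod 3 → Set (Set ℂ × Set ℂ)) (i : ZMod 3) :
    Set (Set ℂ) := {Z | ∃ c ∈ K i, Z = Zc S V F d c}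

/-- **GEOMETRIC HALF OF CONT FOR `U_K`** : `K i` = connectors of label `i`; every site next to `V`
has a foot on a connector, or is joined to a connector by a short curve off the interior of `F` -/
theorem uk (hS : GP (S : Set ℂ)) (h3 : 3 ≤ S.card) (hA : Cls S A) (hAV : ∀ i, ∀ x ∈ A i, x ∉ V)
    (hD : Deep S V F d) (hd : 0 < d) (hH : Hol (S : Set ℂ) F d) (hF : IsPreconnected Fᶜ)
    (ha : a ∈ cl S Fᶜ) {i₀ : ZMod 3} (haA : a ∈ A i₀)
    (hgap : ∀ j, ∀ z ∈ A j, ∀ p ∈ frontier F, 4 * d < ‖z - p‖) (hR : 0 ≤ R)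
    (K : ZMod 3 → Set (Set ℂ × Set ℂ)) (hK : ∀ i, ∀ c ∈ K i, Con S V A F d R i c.1 c.2)
    (hfar : ∀ i j, i ≠ j → ∀ c ∈ K i, ∀ c' ∈ K j, ∀ q ∈ c.1 ∪ c.2, ∀ q' ∈ c'.1 ∪ c'.2,
      8 * d < ‖q - q'‖) {r : ℝ} (hr : 0 ≤ r)
    (hN : ∀ x, Nxt S V x → ∃ p, Ft F d x p ∧ ((∃ i, ∃ c ∈ K i, p ∈ c.1) ∨
      ∃ C' : Set ℂ, IsPreconnected C' ∧ (∀ c ∈ C', c ∉ interior F ∧ ∃ s ∈ S, ‖s - c‖ < d) ∧ p ∈ C' ∧
        (∀ c ∈ C', ‖c - p‖ ≤ r) ∧ ∃ i, ∃ c ∈ K i, (C' ∩ c.1).Nonempty)) :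
    ∃ A' : ZMod 3 → Set ℂ, Cls S A' ∧ (∀ i, A i ⊆ A' i) ∧ NetUx346.ff S A' = V ∧
      (∀ i, ∀ c ∈ K i, ∀ x p, Nxt S V x → Ft F d x p → p ∈ c.1 → x ∈ A' i) ∧
      (∀ i, ∀ x ∈ A' i, Nxt S V x → ∃ y, ‖y - x‖ ≤ 200 * (r + 5 * d) ∧
        (y ∈ A i ∨ ∃ c ∈ K i, ∃ q ∈ c.1 ∪ c.2, ‖y - q‖ ≤ 4 * d)) ∧
      ∀ i, ∀ x ∈ A' i, Nxt S V x → ∃ b ∈ A i,
        Pth S {z | z ∈ A' i ∧ ‖z - x‖ ≤ R + 8 * d + 200 * (r + 5 * d)} x b := by
  have hR' : 0 ≤ R + 8 * d := by linarith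
  have hδ : 0 < r + 5 * d := by linarith
  set Z := Fm S V F d K with hZ
  have hZf : ∀ i, ∀ Y ∈ Z i, Zf S V A (R + 8 * d) i Y := by
    rintro i Y ⟨c, hc, rfl⟩
    exact (hK i c hc).zf hS h3 hD hd hgap
  have hdis : ∀ i j, i ≠ j → ∀ Y ∈ Z i, ∀ Y' ∈ Z j, Disjoint Y Y' := by
    rintro i j hij Y ⟨c, hc, rfl⟩ Y' ⟨c', hc', rfl⟩
    rw [Set.disjoint_left]
    intro z hz hz'
    obtain ⟨q, hq, h1⟩ := (hK i c hc).zc_near hD hd hz
    obtain ⟨q', hq', h2⟩ := (hK j c' hc').zc_near hD hd hz'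
    have h4 := hfar i j hij c hc c' hc' q hq q' hq'
    have h5 := norm_add_le (q - z) (z - q')
    rw [sub_add_sub_cancel, norm_sub_rev q z] at h5
    linarith
  have hB := gr_cls hA hR' hZf hdis
  have hBV : ∀ i, ∀ x ∈ gr A Z i, x ∉ V := fun i x hx => gr_off hAV hZf hx
  have hloc : ∀ x, Nxt S V x → ∃ j, ∃ y ∈ gr A Z j,
      Pth S {z | (z ∈ S ∧ z ∉ V) ∧ ‖z - x‖ ≤ r + 5 * d} x y := by
    intro x hx
    obtain ⟨p, hp, h⟩ := hN x hx
    rcases h with ⟨i, c, hc, hpc⟩ | ⟨C', h1, h2, h4, h5, i, c, hc, q, hq1, hq2⟩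
    · have hxZ : x ∈ Zc S V F d c := Or.inl (mem_cl_self hx.1 (Or.inr (by
        simp only [mem_iUnion, mem_ofPred_eq, exists_prop]
        exact ⟨x, hx, p, ⟨hp, hpc⟩, left_mem_segment ℝ x p⟩)))
      exact ⟨i, x, Or.inr ⟨_, ⟨c, hc, rfl⟩, hxZ⟩, Pth.refl ⟨⟨hx.1, hx.2.1⟩, by
        rw [sub_self, norm_zero]; exact hδ.le⟩⟩
    · obtain ⟨sp, hsp, hsp'⟩ := exists_cell (S := S) ⟨x, hx.1⟩ p
      obtain ⟨sq, hsq, hsq'⟩ := exists_cell (S := S) ⟨x, hx.1⟩ q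
      have hxp := hp.le
      have k1 : Pth S {z | (z ∈ S ∧ z ∉ V) ∧ ‖z - x‖ ≤ r + 5 * d} x sp := by
        refine (cl_con hS h3 (C := segment ℝ x p) (convex_segment x p).isPreconnected
          (mem_cl_self hx.1 (left_mem_segment ℝ x p))
          ⟨hsp, p, right_mem_segment ℝ x p, hsp'⟩).mono fun z hz => ?_
        have h6 := hp.site hD hx.1 hz
        refine ⟨⟨hz.1, h6.1⟩, ?_⟩
        have h7 := cl_seg hx.1 hz
        have h8 := norm_add_le (z - p) (p - x)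
        rw [sub_add_sub_cancel, norm_sub_rev z p, norm_sub_rev p x] at h8
        linarith
      have k2 : Pth S {z | (z ∈ S ∧ z ∉ V) ∧ ‖z - x‖ ≤ r + 5 * d} sp sq := by
        refine (cl_con hS h3 h1 ⟨hsp, p, h4, hsp'⟩ ⟨hsq, q, hq1, hsq'⟩).mono fun z hz => ?_
        obtain ⟨h6, c', h7, h8⟩ := hz
        obtain ⟨h9, s, hs, h10⟩ := h2 c' h7
        have h11 : ‖c' - z‖ < d := by
          refine lt_of_le_of_lt (h8 s (Finset.mem_coe.2 hs)) ?_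
          rw [norm_sub_rev]; exact h10
        refine ⟨⟨h6, hD.off' h9 (by linarith)⟩, ?_⟩
        have h12 := h5 c' h7
        have h13 := norm_add_le (z - c') (c' - x)
        have h14 := norm_add_le (c' - p) (p - x)
        rw [sub_add_sub_cancel] at h13 h14
        rw [norm_sub_rev z c'] at h13
        rw [norm_sub_rev p x] at h14
        linarith
      refine ⟨i, sq, Or.inr ⟨_, ⟨c, hc, rfl⟩, Or.inl (cl_mono (fun _ h => Or.inl h)
        ⟨hsq, q, hq2, hsq'⟩)⟩, k1.trans k2⟩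
  obtain ⟨A', h1, h2, h4, h5, h6⟩ := extend hB hBV (fun x hx hV =>
    ⟨i₀, a, gr_sub haA, joined hS h3 hD hd hH hF ha hx hV⟩) hδ
  have hthin : ∀ i, ∀ x ∈ A' i, Nxt S V x → ∃ y ∈ gr A Z i,
      Pth S {z | z ∈ A' i ∧ ‖z - x‖ ≤ 200 * (r + 5 * d)} x y := fun i x hx hx' =>
    h6 i x hx (hloc x hx')
  refine ⟨A', h1, fun i => gr_sub.trans (h2 i), ff_of_cover hD.sub h4 h5, ?_, ?_, ?_⟩
  · intro i c hc x p hx hp hpc
    refine h2 i (Or.inr ⟨_, ⟨c, hc, rfl⟩, Or.inl (mem_cl_self hx.1 (Or.inr ?_))⟩)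
    simp only [mem_iUnion, mem_ofPred_eq, exists_prop]
    exact ⟨x, hx, p, ⟨hp, hpc⟩, left_mem_segment ℝ x p⟩
  · intro i x hx hx'
    obtain ⟨y, hy, hp⟩ := hthin i x hx hx'
    refine ⟨y, hp.snd.2, ?_⟩
    rcases hy with hy | ⟨Y, ⟨c, hc, rfl⟩, hy⟩
    · exact Or.inl hy
    · obtain ⟨q, hq, h7⟩ := (hK i c hc).zc_near hD hd hy
      exact Or.inr ⟨c, hc, q, hq, h7⟩
  · intro i x hx hx'
    obtain ⟨y, hy, hp⟩ := hthin i x hx hx'
    obtain ⟨b, hb, hq⟩ := gr_thin (S := S) (V := V) hR' hZf hy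
    have h7 : ‖y - x‖ ≤ 200 * (r + 5 * d) := hp.snd.2
    have k1 : Pth S {z | z ∈ A' i ∧ ‖z - x‖ ≤ R + 8 * d + 200 * (r + 5 * d)} x y := by
      refine hp.mono fun z hz => ?_
      obtain ⟨h8, h9⟩ := hz
      exact ⟨h8, by linarith⟩
    have k2 : Pth S {z | z ∈ A' i ∧ ‖z - x‖ ≤ R + 8 * d + 200 * (r + 5 * d)} y b := by
      refine hq.mono fun z hz => ?_
      obtain ⟨h8, h9⟩ := hz
      refine ⟨h2 i h8, ?_⟩
      have h10 := norm_add_le (z - y) (y - x)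
      rw [sub_add_sub_cancel] at h10
      linarith
    exact ⟨b, hb, k1.trans k2⟩

end Crest.Agent.R143.UKx969
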