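import Crest.Agent.R143.KapB_99
import Crest.Agent.R143.UK_969
import Crest.Agent.R143.Hex_877

/-!
# Row 143 (S0194), block H, H5 route 1: giants round the brick (helper99)

`Rr` = `[0,2] × [0,1]`, `Ar j` = its arcs (marks `(1/2,0)`, `(2,1/2)`, `(1/2,1)`), `Nn τ j` = paths round
`Rr` at distance `τ`, `Cc τ p j` = `Nn τ j` and a segment to the far site `p j`.
* `far_site` : the cells met by the far segment belong to sites in the direction `dir j`;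
* `cl_reg` : the giants `cl S (Cc τ p j)` are in the disjoint regions `Eg j`;
* `arc_near` : a point of `Rr` near the giant `j` is near the arc `j`.
-/

set_option autoImplicit false

noncomputable section

open scoped Classical

namespace Crest.Agent.R143.KapCx99

open Set
open Crest.ProbabilityR.Voronoi
open Crest.Agent.R143.B0x346 Crest.Agent.R143.DelGx806 Crest.Agent.R143.DelRx806
open Crest.Agent.R143.B0Dx346 Crest.Agent.R143.JColx54 Crest.Agent.R143.RE0x723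
  Crest.Agent.R143.G6Wx723
open Crest.Agent.R143.UKx969 (cl cl_con cl_mono mem_cl_self)
open Crest.Agent.R143.KapBx99

/-! ### scalar product -/

def ip (u v : ℂ) : ℝ := u.re * v.re + u.im * v.im

theorem sq_n (z : ℂ) : ‖z‖ ^ 2 = z.re ^ 2 + z.im ^ 2 := by
  rw [← Complex.normSq_eq_norm_sq, Complex.normSq_apply]; ring

theorem ip_self (u : ℂ) : ip u u = ‖u‖ ^ 2 := by rw [sq_n]; unfold ip; ring

theorem ip_sub (u v : ℂ) : ‖u - v‖ ^ 2 = ‖u‖ ^ 2 - 2 * ip u v + ‖v‖ ^ 2 := by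
  rw [sq_n, sq_n, sq_n]; unfold ip; simp only [Complex.sub_re, Complex.sub_im]; ring

theorem ip_le (u v : ℂ) : |ip u v| ≤ ‖u‖ * ‖v‖ := by
  have h1 : ip u v ^ 2 ≤ (‖u‖ * ‖v‖) ^ 2 := by
    rw [mul_pow, sq_n, sq_n]
    unfold ip
    nlinarith [sq_nonneg (u.re * v.im - u.im * v.re)]
  exact abs_le_of_sq_le_sq h1 (by positivity)

theorem ip_le' {u v : ℂ} {a b : ℝ} (h1 : ‖u‖ ≤ a) (h2 : ‖v‖ ≤ b) : |ip u v| ≤ a * b :=
  (ip_le u v).trans (mul_le_mul h1 h2 (norm_nonneg _) ((norm_nonneg _).trans h1))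

/-! ### the sets -/

/-- the brick -/
def Rr : Set ℂ := {z | 0 ≤ z.re ∧ z.re ≤ 2 ∧ 0 ≤ z.im ∧ z.im ≤ 1}

/-- the arcs -/
def Ar (j : ZMod 3) : Set ℂ :=
  if j = 0 then {z | (z.im = 0 ∧ 1 / 2 ≤ z.re ∧ z.re ≤ 2) ∨ (z.re = 2 ∧ 0 ≤ z.im ∧ z.im ≤ 1 / 2)}
  else if j = 1 then
    {z | (z.re = 2 ∧ 1 / 2 ≤ z.im ∧ z.im ≤ 1) ∨ (z.im = 1 ∧ 1 / 2 ≤ z.re ∧ z.re ≤ 2)}
  else {z | (z.im = 1 ∧ 0 ≤ z.re ∧ z.re ≤ 1 / 2) ∨ (z.re = 0 ∧ 0 ≤ z.im ∧ z.im ≤ 1) ∨
    (z.im = 0 ∧ 0 ≤ z.re ∧ z.re ≤ 1 / 2)}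

theorem ar0 {z : ℂ} : z ∈ Ar 0 ↔
    (z.im = 0 ∧ 1 / 2 ≤ z.re ∧ z.re ≤ 2) ∨ (z.re = 2 ∧ 0 ≤ z.im ∧ z.im ≤ 1 / 2) := by
  unfold Ar; rw [if_pos rfl]; rfl

theorem ar1 {z : ℂ} : z ∈ Ar 1 ↔
    (z.re = 2 ∧ 1 / 2 ≤ z.im ∧ z.im ≤ 1) ∨ (z.im = 1 ∧ 1 / 2 ≤ z.re ∧ z.re ≤ 2) := by
  unfold Ar; rw [if_neg (by decide), if_pos rfl]; rfl

theorem ar2 {z : ℂ} : z ∈ Ar 2 ↔ (z.im = 1 ∧ 0 ≤ z.re ∧ z.re ≤ 1 / 2) ∨
    (z.re = 0 ∧ 0 ≤ z.im ∧ z.im ≤ 1) ∨ (z.im = 0 ∧ 0 ≤ z.re ∧ z.re ≤ 1 / 2) := by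
  unfold Ar; rw [if_neg (by decide), if_neg (by decide)]; rfl

/-- boxes -/
def bx (a b c d : ℝ) : Set ℂ := {z | a ≤ z.re ∧ z.re ≤ b ∧ c ≤ z.im ∧ z.im ≤ d}

theorem bx_pre (a b c d : ℝ) : IsPreconnected (bx a b c d) := by
  have e : bx a b c d = ({z : ℂ | a ≤ z.re} ∩ {z : ℂ | z.re ≤ b}) ∩
      ({z : ℂ | c ≤ z.im} ∩ {z : ℂ | z.im ≤ d}) := by
    ext z
    unfold bx
    simp only [mem_inter_iff, mem_ofPred_eq]
    tauto
  rw [e]
  exact (((convex_halfSpace_re_ge a).inter (convex_halfSpace_re_le b)).inter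
    ((convex_halfSpace_im_ge c).inter (convex_halfSpace_im_le d))).isPreconnected

/-- the paths round the brick -/
def Np (τ : ℝ) (j : ZMod 3) : Set ℂ :=
  if j = 0 then bx (1 / 2 + τ) (2 + τ) (-τ) (-τ) ∪ bx (2 + τ) (2 + τ) (-τ) (1 / 2 - τ)
  else if j = 1 then bx (2 + τ) (2 + τ) (1 / 2 + τ) (1 + τ) ∪ bx (1 / 2 + τ) (2 + τ) (1 + τ) (1 + τ)
  else (bx (-τ) (1 / 2 - τ) (1 + τ) (1 + τ) ∪ bx (-τ) (-τ) (-τ) (1 + τ)) ∪
    bx (-τ) (1 / 2 - τ) (-τ) (-τ)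

/-- start of the segment -/
def zz (τ : ℝ) (j : ZMod 3) : ℂ :=
  if j = 0 then ⟨2 + τ, -τ⟩ else if j = 1 then ⟨2 + τ, 1 + τ⟩ else ⟨-τ, 1 / 2⟩

theorem np0 (τ : ℝ) : Np τ 0 = bx (1 / 2 + τ) (2 + τ) (-τ) (-τ) ∪
    bx (2 + τ) (2 + τ) (-τ) (1 / 2 - τ) := if_pos rfl
theorem np1 (τ : ℝ) : Np τ 1 = bx (2 + τ) (2 + τ) (1 / 2 + τ) (1 + τ) ∪
    bx (1 / 2 + τ) (2 + τ) (1 + τ) (1 + τ) := by
  unfold Np; rw [if_neg (by decide), if_pos rfl]
theorem np2 (τ : ℝ) : Np τ 2 = (bx (-τ) (1 / 2 - τ) (1 + τ) (1 + τ) ∪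
    bx (-τ) (-τ) (-τ) (1 + τ)) ∪ bx (-τ) (1 / 2 - τ) (-τ) (-τ) := by
  unfold Np; rw [if_neg (by decide), if_neg (by decide)]
theorem zz0 (τ : ℝ) : zz τ 0 = ⟨2 + τ, -τ⟩ := if_pos rfl
theorem zz1 (τ : ℝ) : zz τ 1 = ⟨2 + τ, 1 + τ⟩ := by
  unfold zz; rw [if_neg (by decide), if_pos rfl]
theorem zz2 (τ : ℝ) : zz τ 2 = ⟨-τ, 1 / 2⟩ := by
  unfold zz; rw [if_neg (by decide), if_neg (by decide)]

/-- the curve of the giant `j` -/
def Cc (τ : ℝ) (p : ZMod 3 → ℂ) (j : ZMod 3) : Set ℂ := Np τ j ∪ segment ℝ (zz τ j) (p j)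

theorem zz_mem {τ : ℝ} (h0 : 0 ≤ τ) (h1 : τ ≤ 1 / 4) : ∀ j, zz τ j ∈ Np τ j := by
  refine z3 ?_ ?_ ?_
  · rw [zz0, np0]
    right
    exact ⟨le_rfl, le_rfl, le_rfl, by show -τ ≤ 1 / 2 - τ; linarith⟩
  · rw [zz1, np1]
    left
    exact ⟨le_rfl, le_rfl, by show 1 / 2 + τ ≤ 1 + τ; linarith, le_rfl⟩
  · rw [zz2, np2]
    left; right
    exact ⟨le_rfl, le_rfl, by show -τ ≤ 1 / 2; linarith, by show 1 / 2 ≤ 1 + τ; linarith⟩

theorem np_pre {τ : ℝ} (h0 : 0 ≤ τ) (h1 : τ ≤ 1 / 4) : ∀ j, IsPreconnected (Np τ j) := by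
  refine z3 ?_ ?_ ?_
  · rw [np0]
    refine (bx_pre _ _ _ _).union ⟨2 + τ, -τ⟩ ?_ ?_ (bx_pre _ _ _ _)
    · exact ⟨by show 1 / 2 + τ ≤ 2 + τ; linarith, le_rfl, le_rfl, le_rfl⟩
    · exact ⟨le_rfl, le_rfl, le_rfl, by show -τ ≤ 1 / 2 - τ; linarith⟩
  · rw [np1]
    refine (bx_pre _ _ _ _).union ⟨2 + τ, 1 + τ⟩ ?_ ?_ (bx_pre _ _ _ _)
    · exact ⟨le_rfl, le_rfl, by show 1 / 2 + τ ≤ 1 + τ; linarith, le_rfl⟩
    · exact ⟨by show 1 / 2 + τ ≤ 2 + τ; linarith, le_rfl, le_rfl, le_rfl⟩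
  · rw [np2]
    refine ((bx_pre _ _ _ _).union ⟨-τ, 1 + τ⟩ ?_ ?_ (bx_pre _ _ _ _)).union ⟨-τ, -τ⟩ ?_ ?_
      (bx_pre _ _ _ _)
    · exact ⟨le_rfl, by show -τ ≤ 1 / 2 - τ; linarith, le_rfl, le_rfl⟩
    · exact ⟨le_rfl, le_rfl, by show -τ ≤ 1 + τ; linarith, le_rfl⟩
    · right
      exact ⟨le_rfl, le_rfl, le_rfl, by show -τ ≤ 1 + τ; linarith⟩
    · exact ⟨le_rfl, by show -τ ≤ 1 / 2 - τ; linarith, le_rfl, le_rfl⟩

theorem cc_pre {τ : ℝ} (h0 : 0 ≤ τ) (h1 : τ ≤ 1 / 4) (p : ZMod 3 → ℂ) (j : ZMod 3) :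
    IsPreconnected (Cc τ p j) :=
  (np_pre h0 h1 j).union _ (zz_mem h0 h1 j) (left_mem_segment ℝ _ _)
    (convex_segment _ _).isPreconnected

/-! ### the environment -/

variable {S0 S : Finset ℂ} {p : ZMod 3 → ℂ} {d τ : ℝ}

/-- environment -/
structure Ev (S0 S : Finset ℂ) (p : ZMod 3 → ℂ) (d τ : ℝ) : Prop where
  far : Far3 S0 S p
  d0 : 0 < d
  dt : 100 * d ≤ τ
  t1 : τ ≤ 1 / 100000
  dns : ∀ w : ℂ, ‖w‖ ≤ 22 → ∃ s ∈ S, ‖s - w‖ < d

theorem Ev.t0 (H : Ev S0 S p d τ) : 0 < τ := by linarith [H.d0, H.dt]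

theorem Ev.near (H : Ev S0 S p d τ) {c s : ℂ} (hc : ‖c‖ ≤ 22)
    (h : c ∈ voronoiCell (S : Set ℂ) s) : ‖c - s‖ < d := by
  obtain ⟨s', hs', h1⟩ := H.dns c hc
  have h2 : ‖c - s‖ ≤ ‖c - s'‖ := h s' (Finset.mem_coe.2 hs')
  rw [norm_sub_rev s' c] at h1
  linarith

theorem dir_one : ∀ j, 1 ≤ ‖dir j‖ := by
  refine z3 ?_ ?_ ?_
  · rw [dir0]
    have := Complex.abs_re_le_norm (1 - Complex.I)
    simpa using this
  · rw [dir1]
    have := Complex.abs_re_le_norm (1 + Complex.I)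
    simpa using this
  · rw [dir2, norm_neg, norm_one]

theorem ip_dir : ∀ j k : ZMod 3, k ≠ j → ip (dir j) (dir k) ≤ 0 := by
  have a1 : ip (dir 0) (dir 1) ≤ 0 := by rw [dir0, dir1]; unfold ip; norm_num
  have a2 : ip (dir 1) (dir 2) ≤ 0 := by rw [dir1, dir2]; unfold ip; norm_num
  have a3 : ip (dir 0) (dir 2) ≤ 0 := by rw [dir0, dir2]; unfold ip; norm_num
  have b1 : ip (dir 1) (dir 0) ≤ 0 := by rw [dir0, dir1]; unfold ip; norm_num
  have b2 : ip (dir 2) (dir 1) ≤ 0 := by rw [dir1, dir2]; unfold ip; norm_num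
  have b3 : ip (dir 2) (dir 0) ≤ 0 := by rw [dir0, dir2]; unfold ip; norm_num
  refine z3 (z3 ?_ ?_ ?_) (z3 ?_ ?_ ?_) (z3 ?_ ?_ ?_) <;> intro h <;>
    first
    | exact absurd rfl h
    | assumption

set_option maxHeartbeats 1000000 in
/-- **the far segment** -/
theorem far_site (H : Ev S0 S p d τ) {j : ZMod 3} {z c s : ℂ} (hz : ‖z‖ ≤ 3)
    (hz' : 0 ≤ ip z (dir j)) (hc : c ∈ segment ℝ z (p j)) (hc' : 22 < ‖c‖) (hs : s ∈ S)
    (h : c ∈ voronoiCell (S : Set ℂ) s) :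
    35 / 2 * ‖dir j‖ ≤ ip s (dir j) ∧ (s ∈ S0 ∨ s = p j) := by
  have hd0 := H.d0
  have hd1 : d ≤ 1 / 100 := by linarith [H.dt, H.t1]
  rw [segment_eq_image'] at hc
  obtain ⟨t, ⟨ht0, ht1⟩, rfl⟩ := hc
  simp only at hc' h
  set w : ℂ := p j - z with hw
  set W : ℝ := ‖w‖ with hW
  have hpb := H.far.p_big j
  have hpp := H.far.pos j
  set δ : ℂ := p j - 1000 * dir j with hδ
  have hWb : 890 ≤ W := by
    have := norm_sub_norm_le (p j) z
    rw [← hw, ← hW] at this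
    linarith
  have hW0 : 0 < W := by linarith
  have htW : 19 < t * W := by
    have h1 := norm_add_le z (t • w)
    rw [norm_smul, Real.norm_eq_abs, abs_of_nonneg ht0, ← hW] at h1
    linarith
  set y : ℂ := z + (18 / W : ℝ) • w with hy
  have hyn : ‖y‖ ≤ 22 := by
    have h1 := norm_add_le z ((18 / W : ℝ) • w)
    rw [norm_smul, Real.norm_eq_abs, abs_of_nonneg (by positivity), ← hW,
      div_mul_cancel₀ _ hW0.ne'] at h1
    rw [hy]
    linarith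
  obtain ⟨s', hs', h1⟩ := H.dns y hyn
  set b : ℝ := t * W - 18 with hb
  have hb1 : 1 ≤ b := by rw [hb]; linarith
  have hcy : z + t • w - y = (b / W : ℝ) • w := by
    rw [hy, hb]
    have : (t * W - 18) / W = t - 18 / W := by field_simp
    rw [this, sub_smul]
    ring
  have hcyn : ‖z + t • w - y‖ = b := by
    rw [hcy, norm_smul, Real.norm_eq_abs, abs_of_nonneg (by positivity), ← hW,
      div_mul_cancel₀ _ hW0.ne']
  have h2 : ‖z + t • w - s‖ ≤ ‖z + t • w - s'‖ := h s' (Finset.mem_coe.2 hs')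
  have h3 : ‖z + t • w - s'‖ ≤ b + d := by
    have := norm_sub_le (z + t • w - y) (s' - y)
    rw [sub_sub_sub_cancel_right, hcyn] at this
    linarith
  have h4 : ‖(z + t • w - y) - (s - y)‖ ≤ b + d := by
    rw [sub_sub_sub_cancel_right]
    linarith
  have h5 := ip_sub (z + t • w - y) (s - y)
  have h6 : ‖(z + t • w - y) - (s - y)‖ ^ 2 ≤ (b + d) ^ 2 := by
    have := norm_nonneg ((z + t • w - y) - (s - y))
    nlinarith
  have h7 : ip (z + t • w - y) (s - y) = b / W * ip w (s - y) := by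
    rw [hcy]
    unfold ip
    simp only [Complex.real_smul, Complex.mul_re, Complex.mul_im, Complex.ofReal_re,
      Complex.ofReal_im]
    ring
  rw [hcyn, h7] at h5
  have h8 : -(2 * d * W) ≤ ip w (s - y) := by
    have h9 : -(2 * b * d) - d ^ 2 ≤ 2 * (b / W * ip w (s - y)) := by
      nlinarith [sq_nonneg ‖s - y‖]
    have h10 : -(4 * b * d) ≤ 2 * (b / W * ip w (s - y)) := by nlinarith
    have h11 : -(2 * d) ≤ ip w (s - y) / W := by
      have e : 2 * (b / W * ip w (s - y)) = 2 * b * (ip w (s - y) / W) := by ring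
      rw [e] at h10
      by_contra hcon
      push Not at hcon
      nlinarith
    rw [le_div_iff₀ hW0] at h11
    linarith
  have h12 : ip w s = ip w (s - y) + ip w z + 18 * W := by
    have e1 : ip w s = ip w (s - y) + ip w y := by
      unfold ip; simp only [Complex.sub_re, Complex.sub_im]; ring
    have e2 : ip w y = ip w z + 18 / W * ip w w := by
      rw [hy]
      unfold ip
      simp only [Complex.add_re, Complex.add_im, Complex.real_smul, Complex.mul_re,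
        Complex.mul_im, Complex.ofReal_re, Complex.ofReal_im]
      ring
    rw [e1, e2, ip_self, ← hW]
    field_simp
    ring
  have hwd : w = 1000 * dir j + (δ - z) := by rw [hw, hδ]; ring
  have hδz : ‖δ - z‖ ≤ 4 := (norm_sub_le _ _).trans (by linarith)
  have h13 : -12 ≤ ip w z := by
    have e : ip w z = 1000 * ip z (dir j) + ip (δ - z) z := by
      rw [hwd]
      unfold ip
      simp only [Complex.add_re, Complex.add_im, Complex.mul_re, Complex.mul_im,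
        Complex.re_ofNat, Complex.im_ofNat]
      ring
    have := (abs_le.1 (ip_le' hδz hz)).1
    rw [e]
    linarith
  have h14 : (18 - 2 * d) * W - 12 ≤ ip w s := by rw [h12]; linarith
  have h15 : 179 / 10 * W - 12 ≤ ip w s := by nlinarith
  have e16 : ip w s = 1000 * ip s (dir j) + ip (δ - z) s := by
    rw [hwd]
    unfold ip
    simp only [Complex.add_re, Complex.add_im, Complex.mul_re, Complex.mul_im,
      Complex.re_ofNat, Complex.im_ofNat]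
    ring
  have hd1' := dir_one j
  have hd2' := dir_norm j
  have hWd : 1000 * ‖dir j‖ - 4 ≤ W := by
    have h1 : ‖(1000 : ℂ) * dir j‖ ≤ ‖w‖ + ‖δ - z‖ := by
      have := norm_sub_le w (δ - z)
      rwa [show w - (δ - z) = 1000 * dir j by rw [hwd]; ring] at this
    rw [norm_mul, show ‖(1000 : ℂ)‖ = 1000 by simp, ← hW] at h1
    linarith
  rcases (H.far.mem s).1 hs with hs0 | ⟨k, rfl⟩
  · refine ⟨?_, Or.inl hs0⟩
    have h17 := (abs_le.1 (ip_le' hδz (H.far.small s hs0))).2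
    linarith
  · by_cases hk : k = j
    · subst hk
      refine ⟨?_, Or.inr rfl⟩
      have e : ip (p k) (dir k) = 1000 * ‖dir k‖ ^ 2 + ip δ (dir k) := by
        rw [← ip_self, show p k = 1000 * dir k + δ by rw [hδ]; ring]
        unfold ip
        simp only [Complex.add_re, Complex.add_im, Complex.mul_re, Complex.mul_im,
          Complex.re_ofNat, Complex.im_ofNat]
        ring
      have h18 := (abs_le.1 (ip_le' hpp.le le_rfl : |ip δ (dir k)| ≤ 1 * ‖dir k‖)).1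
      rw [e]
      have h19 : ‖dir k‖ ≤ ‖dir k‖ ^ 2 := by nlinarith
      linarith
    · exfalso
      have h19 := H.far.pos k
      have h20 := ip_dir j k hk
      have h21 := dir_norm k
      have e : ip w (p k) = 1000000 * ip (dir j) (dir k) + 1000 * ip (dir j) (p k - 1000 * dir k) +
          ip (δ - z) (p k) := by
        rw [hwd]
        unfold ip
        simp only [Complex.add_re, Complex.add_im, Complex.mul_re, Complex.mul_im,
          Complex.re_ofNat, Complex.im_ofNat, Complex.sub_re, Complex.sub_im]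
        ring
      have h22 := (abs_le.1 (ip_le' hd2' h19.le)).2
      have h23 : ‖p k‖ ≤ 2001 := by
        have := norm_add_le (p k - 1000 * dir k) (1000 * dir k)
        rw [sub_add_cancel, norm_mul, show ‖(1000 : ℂ)‖ = 1000 by simp] at this
        linarith
      have h24 := (abs_le.1 (ip_le' hδz h23)).2
      linarith

end Crest.Agent.R143.KapCx99
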