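import Crest.Agent.R143.PolyU_346

/-!
# Row 143 (S0194), block H, H5 route 1 : the polygon `u*` = one brick (helper366, for 99's KapU)

* `exists_brick` : a labelled brick polygon (346's `Poly`) with region `[0,2] × [0,1]`, marks
  `(1/2, 0)`, `(2, 1/2)`, `(1/2, 1)`, and its three arcs
-/

set_option autoImplicit false

noncomputable section

open scoped Classical

namespace Crest.Agent.R143.KapDx366

open Crest.Agent.R143.PolyUx346
open Crest.Agent.R143.Brkx478 (Bk cells Conn Cn Nb nb_iff bk)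
open Crest.Agent.R143.Tenx416 (Pg)
open Crest.Agent.R158.Sp896

/-! ### connectivity -/

theorem cn_symm {U : Set Bk} {b c : Bk} (h : Cn U b c) : Cn U c b := by
  induction h with
  | refl => exact Relation.ReflTransGen.refl
  | tail _ h2 ih => exact Relation.ReflTransGen.head ⟨h2.2.1, h2.1, h2.2.2.symm⟩ ih

theorem conn_one (b : Bk) : Conn ({b} : Set Bk) := by
  intro x hx y hy
  rw [Set.mem_singleton_iff] at hx hy
  rw [hx, hy]
  exact Relation.ReflTransGen.refl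

theorem row_up {y : ℤ} (hy : y ≠ 0) (x : ℤ) (n : ℕ) : Cn ({(0, 0)} : Set Bk)ᶜ (x, y) (x + n, y) := by
  induction n with
  | zero =>
    rw [Nat.cast_zero, add_zero]
    exact Relation.ReflTransGen.refl
  | succ n ih =>
    refine ih.tail ⟨?_, ?_, ?_⟩
    · intro h
      exact hy (Prod.mk.inj h).2
    · intro h
      exact hy (Prod.mk.inj h).2
    · rw [nb_iff]
      left
      push_cast
      exact ⟨by ring, rfl⟩

theorem row {y : ℤ} (hy : y ≠ 0) (x x' : ℤ) : Cn ({(0, 0)} : Set Bk)ᶜ (x, y) (x', y) := by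
  rcases le_total x x' with h | h
  · have := row_up hy x (x' - x).toNat
    rwa [Int.toNat_of_nonneg (by omega), add_sub_cancel] at this
  · have := row_up hy x' (x - x').toNat
    rw [Int.toNat_of_nonneg (by omega), add_sub_cancel] at this
    exact cn_symm this

theorem col_up (y : ℤ) (n : ℕ) : Cn ({(0, 0)} : Set Bk)ᶜ (5, y) (5, y + n) := by
  induction n with
  | zero =>
    rw [Nat.cast_zero, add_zero]
    exact Relation.ReflTransGen.refl
  | succ n ih =>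
    refine ih.tail ⟨?_, ?_, ?_⟩
    · intro h
      exact absurd (Prod.mk.inj h).1 (by norm_num)
    · intro h
      exact absurd (Prod.mk.inj h).1 (by norm_num)
    · rw [nb_iff]
      right; left
      refine ⟨rfl, ?_⟩
      push_cast
      ring

theorem col (y y' : ℤ) : Cn ({(0, 0)} : Set Bk)ᶜ (5, y) (5, y') := by
  rcases le_total y y' with h | h
  · have := col_up y (y' - y).toNat
    rwa [Int.toNat_of_nonneg (by omega), add_sub_cancel] at this
  · have := col_up y' (y - y').toNat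
    rw [Int.toNat_of_nonneg (by omega), add_sub_cancel] at this
    exact cn_symm this

theorem to5 {b : Bk} (hb : b ∈ ({(0, 0)} : Set Bk)ᶜ) : Cn ({(0, 0)} : Set Bk)ᶜ b (5, 0) := by
  obtain ⟨x, y⟩ := b
  by_cases hy : y = 0
  · subst hy
    have h1 : Cn ({(0, 0)} : Set Bk)ᶜ (x, 0) (x, 1) := by
      refine Relation.ReflTransGen.single ⟨hb, ?_, ?_⟩
      · intro h
        exact absurd (Prod.mk.inj h).2 (by norm_num)
      · rw [nb_iff]
        right; left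
        exact ⟨rfl, rfl⟩
    exact (h1.trans (row one_ne_zero x 5)).trans (col 1 0)
  · exact (row hy x 5).trans (col y 0)

theorem conn_compl : Conn ({(0, 0)} : Set Bk)ᶜ := fun _ hb _ hc => (to5 hb).trans (cn_symm (to5 hc))

/-! ### the walk -/

/-- the walk -/
def w (i : ℕ) : V := match i with
  | 0 => (0, 0)
  | 1 => (1, 0)
  | 2 => (2, 0)
  | 3 => (2, 1)
  | 4 => (1, 1)
  | _ => (0, 1)

theorem six {P : ℕ → Prop} (h0 : P 0) (h1 : P 1) (h2 : P 2) (h3 : P 3) (h4 : P 4) (h5 : P 5) :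
    ∀ r < 6, P r := by
  intro r hr
  interval_cases r <;> assumption

theorem next6 (i : ℕ) : (i + 1) % 6 = (i % 6 + 1) % 6 := by omega

theorem mem_c {q : V} : q ∈ cells ({(0, 0)} : Set Bk) ↔ q = (0, 0) ∨ q = (1, 0) := by
  obtain ⟨x, y⟩ := q
  show ((x - y) / 2, y) = ((0 : ℤ), (0 : ℤ)) ↔ _
  simp only [Prod.mk.injEq]
  omega

theorem cyc_w : Cyc (cells ({(0, 0)} : Set Bk)) 6 (fun i => w (i % 6)) where
  four_le := by norm_num
  per := fun i => by
    show w ((i + 6) % 6) = w (i % 6)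
    rw [Nat.add_mod_right]
  inj := by
    intro i hi j hj h
    simp only [Nat.mod_eq_of_lt hi, Nat.mod_eq_of_lt hj] at h
    revert h
    interval_cases i <;> interval_cases j <;> simp [w]
  step := by
    intro i
    show Adj (w (i % 6)) (w ((i + 1) % 6))
    rw [next6]
    have h := Nat.mod_lt i (show 0 < 6 by norm_num)
    revert h
    generalize i % 6 = r
    revert r
    refine six ?_ ?_ ?_ ?_ ?_ ?_ <;> simp [w, Adj]
  left := by
    intro i
    show lc (w (i % 6)) (w ((i + 1) % 6)) ∈ _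
    rw [next6]
    have h := Nat.mod_lt i (show 0 < 6 by norm_num)
    revert h
    generalize i % 6 = r
    revert r
    refine six ?_ ?_ ?_ ?_ ?_ ?_ <;> rw [mem_c] <;> simp [w, lc]
  right := by
    intro i
    show rc (w (i % 6)) (w ((i + 1) % 6)) ∉ _
    rw [next6]
    have h := Nat.mod_lt i (show 0 < 6 by norm_num)
    revert h
    generalize i % 6 = r
    revert r
    refine six ?_ ?_ ?_ ?_ ?_ ?_ <;> rw [mem_c] <;> simp [w, rc]
  all := by
    rintro ⟨a1, a2⟩ ⟨b1, b2⟩ hab hl hr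
    rw [mem_c] at hl hr
    simp only [lc, rc, Adj, Prod.mk.injEq, not_or, not_and] at hab hl hr
    rcases hab with ⟨h1, h2⟩ | ⟨h1, h2⟩ | ⟨h1, h2⟩ | ⟨h1, h2⟩ <;> subst h1 <;> subst h2
    · have key : (a1 = 0 ∧ b2 = 0) ∨ (a1 = 1 ∧ b2 = 0) := by omega
      rcases key with ⟨rfl, rfl⟩ | ⟨rfl, rfl⟩
      · exact ⟨0, by norm_num, rfl, rfl⟩
      · exact ⟨1, by norm_num, rfl, rfl⟩
    · have key : (a1 = 1 ∧ b2 = 1) ∨ (a1 = 2 ∧ b2 = 1) := by omega
      rcases key with ⟨rfl, rfl⟩ | ⟨rfl, rfl⟩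
      · exact ⟨4, by norm_num, rfl, rfl⟩
      · exact ⟨3, by norm_num, rfl, rfl⟩
    · have key : b1 = 2 ∧ a2 = 0 := by omega
      obtain ⟨rfl, rfl⟩ := key
      exact ⟨2, by norm_num, rfl, rfl⟩
    · have key : b1 = 0 ∧ a2 = 1 := by omega
      obtain ⟨rfl, rfl⟩ := key
      exact ⟨5, by norm_num, rfl, rfl⟩

/-- the polygon -/
def br : Poly where
  n := 0
  U := {(0, 0)}
  L := 6
  v := fun i => w (i % 6)
  k := fun j => if j = 0 then 0 else if j = 1 then 2 else 4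
  con := by
    rw [Finset.coe_singleton]
    exact conn_one _
  con' := by
    rw [Finset.coe_singleton]
    exact conn_compl
  cyc := by
    rw [Finset.coe_singleton]
    exact cyc_w
  k01 := by simp
  k12 := by simp
  k20 := by simp

/-! ### segments -/

theorem seg_h {a b c : ℝ} (hab : a < b) (z : ℂ) :
    z ∈ segment ℝ (⟨a, c⟩ : ℂ) ⟨b, c⟩ ↔ z.im = c ∧ a ≤ z.re ∧ z.re ≤ b := by
  have h4 : 0 < b - a := by linarith
  constructor
  · rintro ⟨p, q, hp, hq, hpq, rfl⟩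
    have hp' : p = 1 - q := by linarith
    subst hp'
    refine ⟨?_, ?_, ?_⟩
    · simp; ring
    · simp
      nlinarith
    · simp
      nlinarith
  · rintro ⟨h1, h2, h3⟩
    refine ⟨(b - z.re) / (b - a), (z.re - a) / (b - a), div_nonneg (by linarith) h4.le,
      div_nonneg (by linarith) h4.le, ?_, ?_⟩
    · rw [← add_div, show b - z.re + (z.re - a) = b - a by ring, div_self h4.ne']
    · apply Complex.ext
      · rw [Complex.add_re, Complex.smul_re, Complex.smul_re, smul_eq_mul, smul_eq_mul]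
        show (b - z.re) / (b - a) * a + (z.re - a) / (b - a) * b = z.re
        field_simp
        ring
      · rw [Complex.add_im, Complex.smul_im, Complex.smul_im, smul_eq_mul, smul_eq_mul, h1]
        show (b - z.re) / (b - a) * c + (z.re - a) / (b - a) * c = c
        field_simp
        ring

theorem seg_v {a b c : ℝ} (hab : a < b) (z : ℂ) :
    z ∈ segment ℝ (⟨c, a⟩ : ℂ) ⟨c, b⟩ ↔ z.re = c ∧ a ≤ z.im ∧ z.im ≤ b := by
  have h4 : 0 < b - a := by linarith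
  constructor
  · rintro ⟨p, q, hp, hq, hpq, rfl⟩
    have hp' : p = 1 - q := by linarith
    subst hp'
    refine ⟨?_, ?_, ?_⟩
    · simp; ring
    · simp
      nlinarith
    · simp
      nlinarith
  · rintro ⟨h1, h2, h3⟩
    refine ⟨(b - z.im) / (b - a), (z.im - a) / (b - a), div_nonneg (by linarith) h4.le,
      div_nonneg (by linarith) h4.le, ?_, ?_⟩
    · rw [← add_div, show b - z.im + (z.im - a) = b - a by ring, div_self h4.ne']
    · apply Complex.ext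
      · rw [Complex.add_re, Complex.smul_re, Complex.smul_re, smul_eq_mul, smul_eq_mul, h1]
        show (b - z.im) / (b - a) * c + (z.im - a) / (b - a) * c = c
        field_simp
        ring
      · rw [Complex.add_im, Complex.smul_im, Complex.smul_im, smul_eq_mul, smul_eq_mul]
        show (b - z.im) / (b - a) * a + (z.im - a) / (b - a) * b = z.im
        field_simp
        ring

theorem seg_h' {a b c : ℝ} (hab : b < a) (z : ℂ) :
    z ∈ segment ℝ (⟨a, c⟩ : ℂ) ⟨b, c⟩ ↔ z.im = c ∧ b ≤ z.re ∧ z.re ≤ a := by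
  rw [segment_symm, seg_h hab]

theorem seg_v' {a b c : ℝ} (hab : b < a) (z : ℂ) :
    z ∈ segment ℝ (⟨c, a⟩ : ℂ) ⟨c, b⟩ ↔ z.re = c ∧ b ≤ z.im ∧ z.im ≤ a := by
  rw [segment_symm, seg_v hab]

/-! ### the region and the arcs -/

theorem br_s : br.s = 1 := by
  show ((1 : ℝ) / 2) ^ 0 = 1
  norm_num

theorem pt1 (x y : ℤ) : pt 1 ((x, y) : V) = ⟨(x : ℝ), (y : ℝ)⟩ := by
  unfold pt
  simp

theorem br_P : br.P = {z | 0 ≤ z.re ∧ z.re ≤ 2 ∧ 0 ≤ z.im ∧ z.im ≤ 1} := by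
  unfold Poly.P
  rw [br_s]
  have hU : ((br.U : Finset Bk) : Set Bk) = {(0, 0)} := Finset.coe_singleton _
  rw [hU]
  ext z
  unfold Pg
  simp only [Set.mem_iUnion, mem_c, exists_prop]
  constructor
  · rintro ⟨q, rfl | rfl, h1, h2, h3, h4⟩ <;> push_cast at h1 h2 h3 h4 <;>
      refine ⟨?_, ?_, ?_, ?_⟩ <;> linarith
  · rintro ⟨h1, h2, h3, h4⟩
    rcases le_total z.re 1 with h | h
    · exact ⟨(0, 0), Or.inl rfl, by push_cast; linarith, by push_cast; linarith,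
        by push_cast; linarith, by push_cast; linarith⟩
    · exact ⟨(1, 0), Or.inr rfl, by push_cast; linarith, by push_cast; linarith,
        by push_cast; linarith, by push_cast; linarith⟩

theorem mid0 : br.mid 0 = ⟨1 / 2, 0⟩ := by
  unfold Poly.mid
  rw [br_s]
  show (pt 1 ((0, 0) : V) + pt 1 ((1, 0) : V)) / 2 = _
  rw [pt1, pt1]
  apply Complex.ext <;> simp

theorem mid2 : br.mid 2 = ⟨2, 1 / 2⟩ := by
  unfold Poly.mid
  rw [br_s]
  show (pt 1 ((2, 0) : V) + pt 1 ((2, 1) : V)) / 2 = _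
  rw [pt1, pt1]
  apply Complex.ext <;> simp

theorem mid4 : br.mid 4 = ⟨1 / 2, 1⟩ := by
  unfold Poly.mid
  rw [br_s]
  show (pt 1 ((1, 1) : V) + pt 1 ((0, 1) : V)) / 2 = _
  rw [pt1, pt1]
  apply Complex.ext <;> simp

theorem mid6 : br.mid 6 = ⟨1 / 2, 0⟩ := by
  unfold Poly.mid
  rw [br_s]
  show (pt 1 ((0, 0) : V) + pt 1 ((1, 0) : V)) / 2 = _
  rw [pt1, pt1]
  apply Complex.ext <;> simp

theorem un1 {a : ℕ} (f : ℕ → Set ℂ) : (⋃ i ∈ Set.Ioo a (a + 2), f i) = f (a + 1) := by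
  ext z
  simp only [Set.mem_iUnion, Set.mem_Ioo, exists_prop]
  constructor
  · rintro ⟨i, hi, hz⟩
    have : i = a + 1 := by omega
    rwa [← this]
  · intro hz
    exact ⟨a + 1, by omega, hz⟩

theorem arc0 (z : ℂ) : z ∈ br.Arc 0 ↔ (z.im = 0 ∧ 1 / 2 ≤ z.re ∧ z.re ≤ 2) ∨
    (z.re = 2 ∧ 0 ≤ z.im ∧ z.im ≤ 1 / 2) := by
  have e1 : br.Arc 0 = segment ℝ (br.mid 0) (pt 1 ((1, 0) : V)) ∪
      ed 1 ((1, 0) : V) ((2, 0) : V) ∪ segment ℝ (pt 1 ((2, 0) : V)) (br.mid 2) := by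
    unfold Poly.Arc
    rw [br_s]
    have h : (⋃ i ∈ Set.Ioo (br.k 0) (br.k' 0), ed 1 (br.v i) (br.v (i + 1))) =
        ed 1 ((1, 0) : V) ((2, 0) : V) := un1 (a := 0) fun i => ed 1 (br.v i) (br.v (i + 1))
    rw [h]
    rfl
  rw [e1, mid0, mid2]
  unfold ed
  rw [pt1, pt1, Set.mem_union, Set.mem_union]
  push_cast
  rw [seg_h (by norm_num), seg_h (by norm_num), seg_v (by norm_num)]
  constructor
  · rintro ((⟨h1, h2, h3⟩ | ⟨h1, h2, h3⟩) | h)
    · exact Or.inl ⟨h1, h2, by linarith⟩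
    · exact Or.inl ⟨h1, by linarith, h3⟩
    · exact Or.inr h
  · rintro (⟨h1, h2, h3⟩ | h)
    · rcases le_total z.re 1 with h | h
      · exact Or.inl (Or.inl ⟨h1, h2, h⟩)
      · exact Or.inl (Or.inr ⟨h1, h, h3⟩)
    · exact Or.inr h

theorem arc1 (z : ℂ) : z ∈ br.Arc 1 ↔ (z.re = 2 ∧ 1 / 2 ≤ z.im ∧ z.im ≤ 1) ∨
    (z.im = 1 ∧ 1 / 2 ≤ z.re ∧ z.re ≤ 2) := by
  have e1 : br.Arc 1 = segment ℝ (br.mid 2) (pt 1 ((2, 1) : V)) ∪
      ed 1 ((2, 1) : V) ((1, 1) : V) ∪ segment ℝ (pt 1 ((1, 1) : V)) (br.mid 4) := by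
    unfold Poly.Arc
    rw [br_s]
    have h : (⋃ i ∈ Set.Ioo (br.k 1) (br.k' 1), ed 1 (br.v i) (br.v (i + 1))) =
        ed 1 ((2, 1) : V) ((1, 1) : V) := un1 (a := 2) fun i => ed 1 (br.v i) (br.v (i + 1))
    rw [h]
    rfl
  rw [e1, mid2, mid4]
  unfold ed
  rw [pt1, pt1, Set.mem_union, Set.mem_union]
  push_cast
  rw [seg_v (by norm_num), seg_h' (by norm_num), seg_h' (by norm_num)]
  constructor
  · rintro ((h | ⟨h1, h2, h3⟩) | ⟨h1, h2, h3⟩)
    · exact Or.inl h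
    · exact Or.inr ⟨h1, by linarith, h3⟩
    · exact Or.inr ⟨h1, h2, by linarith⟩
  · rintro (h | ⟨h1, h2, h3⟩)
    · exact Or.inl (Or.inl h)
    · rcases le_total z.re 1 with h | h
      · exact Or.inr ⟨h1, h2, h⟩
      · exact Or.inl (Or.inr ⟨h1, h, h3⟩)

theorem arc2 (z : ℂ) : z ∈ br.Arc 2 ↔ (z.im = 1 ∧ 0 ≤ z.re ∧ z.re ≤ 1 / 2) ∨
    (z.re = 0 ∧ 0 ≤ z.im ∧ z.im ≤ 1) ∨ (z.im = 0 ∧ 0 ≤ z.re ∧ z.re ≤ 1 / 2) := by
  have e1 : br.Arc 2 = segment ℝ (br.mid 4) (pt 1 ((0, 1) : V)) ∪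
      ed 1 ((0, 1) : V) ((0, 0) : V) ∪ segment ℝ (pt 1 ((0, 0) : V)) (br.mid 6) := by
    unfold Poly.Arc
    rw [br_s]
    have h : (⋃ i ∈ Set.Ioo (br.k 2) (br.k' 2), ed 1 (br.v i) (br.v (i + 1))) =
        ed 1 ((0, 1) : V) ((0, 0) : V) := un1 (a := 4) fun i => ed 1 (br.v i) (br.v (i + 1))
    rw [h]
    rfl
  rw [e1, mid4, mid6]
  unfold ed
  rw [pt1, pt1, Set.mem_union, Set.mem_union]
  push_cast
  rw [seg_h' (by norm_num), seg_v' (by norm_num), seg_h (by norm_num), or_assoc]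

/-- **the polygon of one brick, marks `(1/2, 0)`, `(2, 1/2)`, `(1/2, 1)`** -/
theorem exists_brick : ∃ u : Poly,
    u.P = {z | 0 ≤ z.re ∧ z.re ≤ 2 ∧ 0 ≤ z.im ∧ z.im ≤ 1} ∧
    (∀ z, z ∈ u.Arc 0 ↔ (z.im = 0 ∧ 1 / 2 ≤ z.re ∧ z.re ≤ 2) ∨
      (z.re = 2 ∧ 0 ≤ z.im ∧ z.im ≤ 1 / 2)) ∧
    (∀ z, z ∈ u.Arc 1 ↔ (z.re = 2 ∧ 1 / 2 ≤ z.im ∧ z.im ≤ 1) ∨
      (z.im = 1 ∧ 1 / 2 ≤ z.re ∧ z.re ≤ 2)) ∧
    (∀ z, z ∈ u.Arc 2 ↔ (z.im = 1 ∧ 0 ≤ z.re ∧ z.re ≤ 1 / 2) ∨
      (z.re = 0 ∧ 0 ≤ z.im ∧ z.im ≤ 1) ∨ (z.im = 0 ∧ 0 ≤ z.re ∧ z.re ≤ 1 / 2)) :=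
  ⟨br, br_P, arc0, arc1, arc2⟩

end Crest.Agent.R143.KapDx366
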