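import Crest.Agent.R143.KapA_690

/-!
# Row 143 (S0194), block H, box H5 (A2): the error of a pattern (helper306)

Everything is linear in the error functional `X` (no Cauchy-Schwarz over the environment).

* `norm_avc_le` : norm of a conditional mean; `rel_of_mean` : the relation of one pattern
* `mq_le_av` : `Er ≤ (conditional mean of X)` where `g ≠ 0`, `g` decided: `mq (g Er) ≤ mq (g X)`
* `exists_good` : `∫ mq (g * X) ≤ e * ∫ mq g`, `e < e1` : there is a configuration with `g ≠ 0`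
  where the conditional mean of `X` given the exploration is `< e1`
* `le_am_sum`, `le_mark`, `le_Xf` : linear form of Cauchy-Schwarz: off the mark event the error is
  at most the sum of `n` terms, always at most `‖V‖ + K`
* `mq_ErJ`, `mq_split` : quenched sums over the joined patterns
* **`ring2_of`** : everything ⟹ `Ring2` of `KapA_690` with
  `δ' = 3 n δ + q / δ + τ w + (1 / τ + K) m`
* `num_ev` : choice of the parameters, `q, m = C h ^ c + e`
-/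

set_option autoImplicit false

noncomputable section

open scoped Classical

namespace Crest.Agent.R143.KapEx306

open MeasureTheory Filter Topology
open Crest.ProbabilityR.Voronoi
open Crest.Agent.R143.B0x346 Crest.Agent.R143.DefsNx346
open Crest.Agent.R143.Harx315 Crest.Agent.R143.Histx389 Crest.Agent.R143.HGluex136
open Crest.Agent.R143.Dblx609 Crest.Agent.R143.Dbl2x609
open scoped ENNReal

section coins

variable {α : Type*} {V : Finset α}

/-- conditional mean of a complex function over the fresh coins -/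
def avc (V R : Finset α) (F : Finset α → ℂ) (b : Finset α) : ℂ :=
  (∑ b' ∈ (V \ R).powerset, F (b' ∪ (b ∩ R))) / 2 ^ (V \ R).card

theorem avc_sub (R : Finset α) (F G : Finset α → ℂ) (b : Finset α) :
    avc V R (fun b => F b - G b) b = avc V R F b - avc V R G b := by
  unfold avc
  rw [Finset.sum_sub_distrib, sub_div]

theorem avc_mul (R : Finset α) (c : ℂ) (F : Finset α → ℂ) (b : Finset α) :
    avc V R (fun b => c * F b) b = c * avc V R F b := by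
  unfold avc
  rw [← Finset.mul_sum, mul_div_assoc]

theorem avc_conj (R : Finset α) (F : Finset α → ℂ) (b : Finset α) :
    avc V R (fun b => (starRingEnd ℂ) (F b)) b = (starRingEnd ℂ) (avc V R F b) := by
  unfold avc
  rw [map_div₀, map_sum, map_pow, map_ofNat]

/-- the norm of a conditional mean -/
theorem norm_avc_le (R : Finset α) {F : Finset α → ℂ} {X : Finset α → ℝ≥0∞} {b : Finset α}
    (h : ∀ b' ∈ (V \ R).powerset, ENNReal.ofReal ‖F (b' ∪ (b ∩ R))‖ ≤ X (b' ∪ (b ∩ R))) :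
    ENNReal.ofReal ‖avc V R F b‖ ≤ av V R X b := by
  unfold avc av
  rw [norm_div, norm_pow, Complex.norm_ofNat]
  have h1 : ‖∑ b' ∈ (V \ R).powerset, F (b' ∪ (b ∩ R))‖ / 2 ^ (V \ R).card ≤
      (2 ^ (V \ R).card)⁻¹ * ∑ b' ∈ (V \ R).powerset, ‖F (b' ∪ (b ∩ R))‖ := by
    rw [div_eq_inv_mul]
    gcongr
    exact norm_sum_le _ _
  refine (ENNReal.ofReal_le_ofReal h1).trans ?_
  have h2 : ENNReal.ofReal (∑ b' ∈ (V \ R).powerset, ‖F (b' ∪ (b ∩ R))‖) =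
      ∑ b' ∈ (V \ R).powerset, ENNReal.ofReal ‖F (b' ∪ (b ∩ R))‖ :=
    ENNReal.ofReal_sum_of_nonneg fun _ _ => norm_nonneg _
  have h3 : ENNReal.ofReal ((2 : ℝ) ^ (V \ R).card)⁻¹ = ((2 : ℝ≥0∞) ^ (V \ R).card)⁻¹ := by
    rw [ENNReal.ofReal_inv_of_pos (by positivity), ENNReal.ofReal_pow (by norm_num)]
    norm_num
  rw [ENNReal.ofReal_mul (by positivity), h2, h3]
  exact mul_le_mul_right (Finset.sum_le_sum fun b' hb' => h b' hb') _

/-- the conditional mean of `g * X`, `g` decided -/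
theorem av_dec {Jf : Finset α → Finset α} {g X : Finset α → ℝ≥0∞} (hg : DecF V Jf g)
    {b : Finset α} (hb : b ⊆ V) :
    av V (Jf b) (fun b => g b * X b) b = g b * av V (Jf b) X b := by
  unfold av
  have e : ∑ b' ∈ (V \ Jf b).powerset, g (b' ∪ (b ∩ Jf b)) * X (b' ∪ (b ∩ Jf b)) =
      g b * ∑ b' ∈ (V \ Jf b).powerset, X (b' ∪ (b ∩ Jf b)) := by
    rw [Finset.mul_sum]
    refine Finset.sum_congr rfl fun b' hb' => ?_
    rw [hg.outc hb (Finset.mem_powerset.1 hb')]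
  rw [e, mul_left_comm]

/-- mean of `g * X` -/
theorem sum_dec {Jf : Finset α → Finset α} (hJ : IsStop V Jf) {g X : Finset α → ℝ≥0∞}
    (hg : DecF V Jf g) :
    ∑ b ∈ V.powerset, g b * X b = ∑ b ∈ V.powerset, g b * av V (Jf b) X b := by
  rw [← sum_av hJ]
  exact Finset.sum_congr rfl fun b hb => av_dec hg (Finset.mem_powerset.1 hb)

end coins

/-- **quenched (A2)**: if `Er ≤ (conditional mean of X)` wherever `g ≠ 0`, then
`mq (g * Er) ≤ mq (g * X)` -/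
theorem mq_le_av {ε : ℝ} {B : Set ℂ} {g Er X : Set (ℂ × Bool) → ℝ≥0∞} {ω : Sample}
    {Jf : Finset ℂ → Finset ℂ} (hJ : IsStop (Ap ε B ω) Jf)
    (hD : DecF (Ap ε B ω) Jf (fun β => g (paint (Ap ε B ω) β)))
    (h : ∀ β, β ⊆ Ap ε B ω → g (paint (Ap ε B ω) β) ≠ 0 → Er (paint (Ap ε B ω) β) ≤
      av (Ap ε B ω) (Jf β) (fun β => X (paint (Ap ε B ω) β)) β) :
    mq ε B (fun Y => g Y * Er Y) ω ≤ mq ε B (fun Y => g Y * X Y) ω := by
  unfold mq
  have e2 := sum_dec (X := fun β => X (paint (Ap ε B ω) β)) hJ hD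
  show ((2 : ℝ≥0∞) ^ (Ap ε B ω).card)⁻¹ *
        ∑ β ∈ (Ap ε B ω).powerset, g (paint (Ap ε B ω) β) * Er (paint (Ap ε B ω) β) ≤
      ((2 : ℝ≥0∞) ^ (Ap ε B ω).card)⁻¹ *
        ∑ β ∈ (Ap ε B ω).powerset, g (paint (Ap ε B ω) β) * X (paint (Ap ε B ω) β)
  rw [e2]
  refine mul_le_mul_right (Finset.sum_le_sum fun β hβ => ?_) _
  by_cases hz : g (paint (Ap ε B ω) β) = 0
  · rw [hz, zero_mul]; exact zero_le
  · exact mul_le_mul_right (h β (Finset.mem_powerset.1 hβ) hz) _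

/-- **one good configuration**. `G ω Jf` : what is known of the exploration `Jf` at `ω`. -/
theorem exists_good {ε : ℝ} {B : Set ℂ} {g X : Set (ℂ × Bool) → ℝ≥0∞} {e e1 : ℝ≥0∞} (he : e < e1)
    (h0 : ∫⁻ ω, mq ε B g ω ∂sampleLaw ≠ 0) (ht : ∫⁻ ω, mq ε B g ω ∂sampleLaw ≠ ∞)
    (h : ∫⁻ ω, mq ε B (fun Y => g Y * X Y) ω ∂sampleLaw ≤ e * ∫⁻ ω, mq ε B g ω ∂sampleLaw)
    {G : Sample → (Finset ℂ → Finset ℂ) → Prop}
    (hG : ∀ᵐ ω ∂sampleLaw, ∃ Jf : Finset ℂ → Finset ℂ, IsStop (Ap ε B ω) Jf ∧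
      DecF (Ap ε B ω) Jf (fun β => g (paint (Ap ε B ω) β)) ∧ G ω Jf) :
    ∃ (ω : Sample) (Jf : Finset ℂ → Finset ℂ) (β : Finset ℂ), G ω Jf ∧
      IsStop (Ap ε B ω) Jf ∧ DecF (Ap ε B ω) Jf (fun β => g (paint (Ap ε B ω) β)) ∧
      β ⊆ Ap ε B ω ∧ g (paint (Ap ε B ω) β) ≠ 0 ∧
      av (Ap ε B ω) (Jf β) (fun β => X (paint (Ap ε B ω) β)) β < e1 := by
  by_contra hcon
  push Not at hcon
  have key : ∀ᵐ ω ∂sampleLaw, e1 * mq ε B g ω ≤ mq ε B (fun Y => g Y * X Y) ω := by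
    filter_upwards [hG] with ω hω
    obtain ⟨Jf, hJ, hD, hg⟩ := hω
    unfold mq
    have e2 := sum_dec (X := fun β => X (paint (Ap ε B ω) β)) hJ hD
    show e1 * (((2 : ℝ≥0∞) ^ (Ap ε B ω).card)⁻¹ *
        ∑ β ∈ (Ap ε B ω).powerset, g (paint (Ap ε B ω) β)) ≤
      ((2 : ℝ≥0∞) ^ (Ap ε B ω).card)⁻¹ *
        ∑ β ∈ (Ap ε B ω).powerset, g (paint (Ap ε B ω) β) * X (paint (Ap ε B ω) β)
    rw [e2, mul_left_comm, Finset.mul_sum]
    refine mul_le_mul_right (Finset.sum_le_sum fun β hβ => ?_) _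
    rw [mul_comm]
    by_cases hz : g (paint (Ap ε B ω) β) = 0
    · rw [hz, zero_mul]; exact zero_le
    · exact mul_le_mul_right (hcon ω Jf β hg hJ hD (Finset.mem_powerset.1 hβ) hz) _
  have h1 : e1 * ∫⁻ ω, mq ε B g ω ∂sampleLaw ≤ e * ∫⁻ ω, mq ε B g ω ∂sampleLaw := by
    by_cases hi : e1 = ∞
    · subst hi
      rw [ENNReal.top_mul h0]
      by_contra hlt
      have hfin : (e * ∫⁻ ω, mq ε B g ω ∂sampleLaw) < ∞ :=
        ENNReal.mul_lt_top (lt_of_lt_of_le he le_top) (lt_top_iff_ne_top.2 ht)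
      have h2 : ∫⁻ ω, mq ε B (fun Y => g Y * X Y) ω ∂sampleLaw < ∞ := h.trans_lt hfin
      have h3 : ∫⁻ ω, ∞ * mq ε B g ω ∂sampleLaw < ∞ := (lintegral_mono_ae key).trans_lt h2
      -- `∞ * x` is a majorant of `c * x`
      have h4 : ∀ n : ℕ, (n : ℝ≥0∞) * ∫⁻ ω, mq ε B g ω ∂sampleLaw ≤
          ∫⁻ ω, ∞ * mq ε B g ω ∂sampleLaw := by
        intro n
        rw [← lintegral_const_mul' _ _ (ENNReal.natCast_ne_top n)]
        exact lintegral_mono fun ω => mul_le_mul_left le_top _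
      obtain ⟨n, hn⟩ := ENNReal.exists_nat_mul_gt h0 h3.ne
      exact absurd (h4 n) (not_le.2 hn)
    · rw [← lintegral_const_mul' _ _ hi]
      exact (lintegral_mono_ae key).trans h
  exact absurd ((ENNReal.mul_le_mul_iff_left h0 ht).1 h1) (not_le.2 he)

/-! ### one pattern -/

/-- relation of one pattern from the conditional means: `Vk` the charge of the root block, `y`, `x`
its ends -/
theorem rel_of_mean {α : Type*} {V R : Finset α} {κ T D : ℂ} {u : ℂ}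
    {Vk Δ : Finset α → ℂ} {X : Finset α → ℝ≥0∞} {b : Finset α}
    (hT : avc V R Vk b = u * T) (hD : avc V R Δ b = D)
    (h : ∀ b' ∈ (V \ R).powerset, ENNReal.ofReal
      ‖κ * (starRingEnd ℂ) (Δ (b' ∪ (b ∩ R))) - Vk (b' ∪ (b ∩ R))‖ ≤ X (b' ∪ (b ∩ R))) :
    ENNReal.ofReal ‖κ * (starRingEnd ℂ) D - u * T‖ ≤ av V R X b := by
  have e1 : avc V R (fun b => κ * (starRingEnd ℂ) (Δ b) - Vk b) b =
      κ * (starRingEnd ℂ) D - u * T := by
    rw [avc_sub, avc_mul, avc_conj, hT, hD]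
  rw [← e1]
  exact norm_avc_le R h

/-! ### linear form of the Cauchy-Schwarz inequality -/

theorem le_am {a δ : ℝ} (ha : 0 ≤ a) (hδ : 0 < δ) : a ≤ δ + a ^ 2 / δ := by
  rcases le_total a δ with h | h
  · have : 0 ≤ a ^ 2 / δ := by positivity
    linarith
  · have : a ≤ a ^ 2 / δ := by
      rw [le_div_iff₀ hδ]
      nlinarith
    linarith

/-- on the mark event `‖V‖ + K ≤ t ‖V‖ ^ 2 + (1 / t + K)` -/
theorem le_mark {a t K : ℝ} (ha : 0 ≤ a) (ht : 0 < t) : a + K ≤ t * a ^ 2 + (1 / t + K) := by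
  have h := le_am (δ := 1 / t) ha (by positivity)
  have e : a ^ 2 / (1 / t) = t * a ^ 2 := by
    field_simp
  rw [e] at h
  linarith

/-- finitely many error terms -/
theorem le_am_sum {ι : Type*} (I : Finset ι) {a : ι → ℝ} {δ : ℝ} (ha : ∀ i ∈ I, 0 ≤ a i)
    (hδ : 0 < δ) : ∑ i ∈ I, a i ≤ I.card * δ + (∑ i ∈ I, a i ^ 2) / δ := by
  calc ∑ i ∈ I, a i ≤ ∑ i ∈ I, (δ + a i ^ 2 / δ) :=
        Finset.sum_le_sum fun i hi => le_am (ha i hi) hδ
    _ = I.card * δ + (∑ i ∈ I, a i ^ 2) / δ := by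
        rw [Finset.sum_add_distrib, Finset.sum_const, nsmul_eq_mul, Finset.sum_div]

/-- the linear error functional of one pattern: `Q` = sum of the squares of the error terms (number
`n`), `W` = square of the charge of the root block, `N` = indicator of the mark event -/
def Xf (n : ℕ) (δ t K : ℝ) (Q W N : ℝ≥0∞) : ℝ≥0∞ :=
  ENNReal.ofReal (n * δ) + ENNReal.ofReal (1 / δ) * Q + ENNReal.ofReal t * W +
    ENNReal.ofReal (1 / t + K) * N

/-- **pointwise split** : off the mark event (`N < 1`) the error is at most the sum of the `n` terms,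
always at most `v + K` -/
theorem le_Xf {ι : Type*} (I : Finset ι) {a : ι → ℝ} {x v K δ t : ℝ} {Q W N : ℝ≥0∞}
    (ha : ∀ i ∈ I, 0 ≤ a i) (hδ : 0 < δ) (ht : 0 < t) (hK : 0 ≤ K) (hv : 0 ≤ v)
    (h1 : N < 1 → x ≤ ∑ i ∈ I, a i) (h2 : x ≤ v + K)
    (hQ : ENNReal.ofReal (∑ i ∈ I, a i ^ 2) ≤ Q) (hW : ENNReal.ofReal (v ^ 2) ≤ W) :
    ENNReal.ofReal x ≤ Xf I.card δ t K Q W N := by
  unfold Xf
  by_cases hN : N < 1
  · have h3 := (h1 hN).trans (le_am_sum I ha hδ)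
    have h4 : ENNReal.ofReal x ≤ ENNReal.ofReal (I.card * δ) + ENNReal.ofReal (1 / δ) * Q := by
      refine (ENNReal.ofReal_le_ofReal h3).trans ?_
      have e : ENNReal.ofReal ((∑ i ∈ I, a i ^ 2) / δ) =
          ENNReal.ofReal (1 / δ) * ENNReal.ofReal (∑ i ∈ I, a i ^ 2) := by
        rw [← ENNReal.ofReal_mul (by positivity)]
        congr 1
        ring
      rw [ENNReal.ofReal_add (by positivity)
        (div_nonneg (Finset.sum_nonneg fun i _ => sq_nonneg _) hδ.le), e]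
      exact add_le_add_right (mul_le_mul_right hQ _) _
    calc ENNReal.ofReal x ≤ _ := h4
      _ ≤ _ := le_add_right (le_add_right le_rfl)
  · push Not at hN
    have h3 : x ≤ t * v ^ 2 + (1 / t + K) := h2.trans (le_mark hv ht)
    have h4 : ENNReal.ofReal x ≤ ENNReal.ofReal t * W + ENNReal.ofReal (1 / t + K) * N := by
      refine (ENNReal.ofReal_le_ofReal h3).trans ?_
      rw [ENNReal.ofReal_add (by positivity) (by positivity), ENNReal.ofReal_mul ht.le]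
      refine add_le_add (mul_le_mul_right hW _) ?_
      calc ENNReal.ofReal (1 / t + K) = ENNReal.ofReal (1 / t + K) * 1 := (mul_one _).symm
        _ ≤ _ := mul_le_mul_right hN _
    calc ENNReal.ofReal x ≤ _ := h4
      _ ≤ _ := by
        rw [add_assoc (ENNReal.ofReal (I.card * δ) + ENNReal.ofReal (1 / δ) * Q)]
        exact le_add_left le_rfl

/-- quenched mean of the linear error functional -/
theorem mq_Xf {ε : ℝ} {B : Set ℂ} {g Q W N : Set (ℂ × Bool) → ℝ≥0∞} {ω : Sample} (n : ℕ)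
    (δ t K : ℝ) :
    mq ε B (fun Y => g Y * Xf n δ t K (Q Y) (W Y) (N Y)) ω =
      ENNReal.ofReal (n * δ) * mq ε B g ω +
      ENNReal.ofReal (1 / δ) * mq ε B (fun Y => g Y * Q Y) ω +
      ENNReal.ofReal t * mq ε B (fun Y => g Y * W Y) ω +
      ENNReal.ofReal (1 / t + K) * mq ε B (fun Y => g Y * N Y) ω := by
  have e : (fun Y => g Y * Xf n δ t K (Q Y) (W Y) (N Y)) = fun Y =>
      ((ENNReal.ofReal (n * δ) * g Y + ENNReal.ofReal (1 / δ) * (g Y * Q Y)) +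
        ENNReal.ofReal t * (g Y * W Y)) + ENNReal.ofReal (1 / t + K) * (g Y * N Y) := by
    funext Y
    unfold Xf
    ring
  rw [e, mq_add, mq_add, mq_add, mq_mul, mq_mul, mq_mul, mq_mul]

/-! ### the input of `KapA_690` -/

open Crest.Agent.R143.KapAx690 Crest.Agent.R143.Trix106

/-- sum over the joined patterns -/
def SJ (J : Fin 3 → Prop) (x : Fin 3 → ℝ≥0∞) : ℝ≥0∞ := ∑ k : Fin 3, if J k then x k else 0

theorem SJ_mono {J : Fin 3 → Prop} {x y : Fin 3 → ℝ≥0∞} (h : ∀ k, J k → x k ≤ y k) :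
    SJ J x ≤ SJ J y := by
  unfold SJ
  refine Finset.sum_le_sum fun k _ => ?_
  split_ifs with hk
  · exact h k hk
  · exact le_rfl

theorem SJ_Xf (J : Fin 3 → Prop) (n : ℕ) {δ t K : ℝ} (Q W N : Fin 3 → ℝ≥0∞) :
    SJ J (fun k => Xf n δ t K (Q k) (W k) (N k)) ≤
      3 * ENNReal.ofReal (n * δ) + ENNReal.ofReal (1 / δ) * SJ J Q + ENNReal.ofReal t * SJ J W +
        ENNReal.ofReal (1 / t + K) * SJ J N := by
  unfold SJ
  rw [Finset.mul_sum, Finset.mul_sum, Finset.mul_sum]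
  have e3 : 3 * ENNReal.ofReal (n * δ) = ∑ _k : Fin 3, ENNReal.ofReal (n * δ) := by
    rw [Finset.sum_const, Finset.card_univ, Fintype.card_fin, nsmul_eq_mul]
    norm_num
  rw [e3, ← Finset.sum_add_distrib, ← Finset.sum_add_distrib, ← Finset.sum_add_distrib]
  refine Finset.sum_le_sum fun k _ => ?_
  by_cases hk : J k
  · simp only [if_pos hk]
    unfold Xf
    exact le_rfl
  · simp only [if_neg hk]
    exact zero_le

/-- sums over the joined patterns and conditional means -/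
theorem av_SJ {α : Type*} {V R : Finset α} {b : Finset α} {J : Fin 3 → Prop}
    {X : Finset α → Fin 3 → ℝ≥0∞} {J' : Finset α → Fin 3 → Prop}
    (hJ : ∀ b' ∈ (V \ R).powerset, J' (b' ∪ (b ∩ R)) = J) :
    av V R (fun b => SJ (J' b) (X b)) b = SJ J fun k => av V R (fun b => X b k) b := by
  unfold av SJ
  have e1 : ∑ b' ∈ (V \ R).powerset, (∑ k : Fin 3, if J' (b' ∪ (b ∩ R)) k then
      X (b' ∪ (b ∩ R)) k else 0) = ∑ k : Fin 3, if J k then
      ∑ b' ∈ (V \ R).powerset, X (b' ∪ (b ∩ R)) k else 0 := by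
    rw [Finset.sum_comm]
    refine Finset.sum_congr rfl fun k _ => ?_
    by_cases hk : J k
    · rw [if_pos hk]
      refine Finset.sum_congr rfl fun b' hb' => ?_
      rw [hJ b' hb', if_pos hk]
    · rw [if_neg hk]
      refine Finset.sum_eq_zero fun b' hb' => ?_
      rw [hJ b' hb', if_neg hk]
  rw [e1, Finset.mul_sum]
  refine Finset.sum_congr rfl fun k _ => ?_
  split_ifs <;> simp

/-- **quenched (A2)** : the mean of `g * (errors of the joined patterns)` -/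
theorem mq_ErJ {ε : ℝ} {B : Set ℂ} {g : Set (ℂ × Bool) → ℝ≥0∞} {om κ : ℂ}
    {t : Set (ℂ × Bool) → ℂ} {Z : Set (ℂ × Bool) → Fin 3 → ℂ} {J : Set (ℂ × Bool) → Fin 3 → Prop}
    {X : Set (ℂ × Bool) → Fin 3 → ℝ≥0∞} {ω : Sample}
    {Jf : Finset ℂ → Finset ℂ} (hJ : IsStop (Ap ε B ω) Jf)
    (hD : DecF (Ap ε B ω) Jf (fun β => g (paint (Ap ε B ω) β)))
    (hDJ : DecF (Ap ε B ω) Jf (fun β => J (paint (Ap ε B ω) β)))
    (h : ∀ β, β ⊆ Ap ε B ω → g (paint (Ap ε B ω) β) ≠ 0 → ∀ k, J (paint (Ap ε B ω) β) k →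
      ENNReal.ofReal (Er om κ (t (paint (Ap ε B ω) β)) (Z (paint (Ap ε B ω) β)) k) ≤
        av (Ap ε B ω) (Jf β) (fun β => X (paint (Ap ε B ω) β) k) β) :
    mq ε B (fun Y => g Y * ErJ om κ (t Y) (Z Y) (J Y)) ω ≤
      mq ε B (fun Y => g Y * SJ (J Y) (X Y)) ω := by
  refine mq_le_av (Er := fun Y => ErJ om κ (t Y) (Z Y) (J Y)) (X := fun Y => SJ (J Y) (X Y))
    hJ hD fun β hβ h0 => ?_
  rw [av_SJ (J := J (paint (Ap ε B ω) β)) (X := fun β => X (paint (Ap ε B ω) β))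
    (J' := fun β => J (paint (Ap ε B ω) β)) fun b' hb' =>
    hDJ.outc hβ (Finset.mem_powerset.1 hb')]
  exact SJ_mono fun k hk => h β hβ h0 k hk

/-- quenched split -/
theorem mq_split {ε : ℝ} {B : Set ℂ} {g : Set (ℂ × Bool) → ℝ≥0∞}
    {J : Set (ℂ × Bool) → Fin 3 → Prop} {Q W N : Set (ℂ × Bool) → Fin 3 → ℝ≥0∞} {ω : Sample}
    (n : ℕ) (δ t K : ℝ) :
    mq ε B (fun Y => g Y * SJ (J Y) fun k => Xf n δ t K (Q Y k) (W Y k) (N Y k)) ω ≤
      3 * ENNReal.ofReal (n * δ) * mq ε B g ω +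
      ENNReal.ofReal (1 / δ) * mq ε B (fun Y => g Y * SJ (J Y) (Q Y)) ω +
      ENNReal.ofReal t * mq ε B (fun Y => g Y * SJ (J Y) (W Y)) ω +
      ENNReal.ofReal (1 / t + K) * mq ε B (fun Y => g Y * SJ (J Y) (N Y)) ω := by
  rw [← mq_mul, ← mq_mul, ← mq_mul, ← mq_mul, ← mq_add, ← mq_add, ← mq_add]
  refine mq_mono fun β _ => ?_
  set Y := paint (Ap ε B ω) β
  calc g Y * SJ (J Y) (fun k => Xf n δ t K (Q Y k) (W Y k) (N Y k))
      ≤ g Y * (3 * ENNReal.ofReal (n * δ) + ENNReal.ofReal (1 / δ) * SJ (J Y) (Q Y) +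
        ENNReal.ofReal t * SJ (J Y) (W Y) + ENNReal.ofReal (1 / t + K) * SJ (J Y) (N Y)) :=
        mul_le_mul_right (SJ_Xf _ _ _ _ _) _
    _ = _ := by ring

theorem lint4 {Ω : Type*} [MeasurableSpace Ω] {μ : Measure Ω} {f1 f2 f3 f4 : Ω → ℝ≥0∞}
    (m1 : AEMeasurable f1 μ) (m2 : AEMeasurable f2 μ) (m3 : AEMeasurable f3 μ)
    (m4 : AEMeasurable f4 μ) (c1 c2 c3 c4 : ℝ≥0∞) :
    ∫⁻ ω, (c1 * f1 ω + c2 * f2 ω + c3 * f3 ω + c4 * f4 ω) ∂μ =
      c1 * ∫⁻ ω, f1 ω ∂μ + c2 * ∫⁻ ω, f2 ω ∂μ + c3 * ∫⁻ ω, f3 ω ∂μ + c4 * ∫⁻ ω, f4 ω ∂μ := by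
  rw [lintegral_add_left' (f := fun ω => c1 * f1 ω + c2 * f2 ω + c3 * f3 ω)
      (((m1.const_mul _).add (m2.const_mul _)).add (m3.const_mul _)),
    lintegral_add_left' (f := fun ω => c1 * f1 ω + c2 * f2 ω)
      ((m1.const_mul _).add (m2.const_mul _)),
    lintegral_add_left' (f := fun ω => c1 * f1 ω) (m1.const_mul _), lintegral_const_mul'' _ m1,
    lintegral_const_mul'' _ m2, lintegral_const_mul'' _ m3, lintegral_const_mul'' _ m4]

/-- **the ring for one mesh** (route 2): hypotheses (A2) with the functionals `t, Z, J` and the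
error functionals `Q` (sum of the squares of the `n` error terms), `W` (square of the charge),
`N` (mark event); everything for the joined patterns only -/
theorem ring2_of {om κ z0 : ℂ} {b r ε : ℝ} (hε : 0 < ε) (hr : r ≤ b / 200) {B : Set ℂ}
    (hBm : MeasurableSet B) (hB : Bornology.IsBounded B)
    {g : Set (ℂ × Bool) → ℝ≥0∞} (hg : Poisx304.FM g) (hg1 : ∀ X, g X ≤ 1)
    {t : Set (ℂ × Bool) → ℂ} {Z : Set (ℂ × Bool) → Fin 3 → ℂ} {J : Set (ℂ × Bool) → Fin 3 → Prop}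
    {Q W N : Set (ℂ × Bool) → Fin 3 → ℝ≥0∞} {n : ℕ} {δ τ K : ℝ}
    (hδ : 0 < δ) (hτ : 0 < τ) (hK : 0 ≤ K)
    (H : ∀ᵐ ω ∂sampleLaw, ∃ Jf : Finset ℂ → Finset ℂ, IsStop (Ap ε B ω) Jf ∧
      DecF (Ap ε B ω) Jf (fun β => g (paint (Ap ε B ω) β)) ∧
      DecF (Ap ε B ω) Jf (fun β => J (paint (Ap ε B ω) β)) ∧
      ∀ β, β ⊆ Ap ε B ω → g (paint (Ap ε B ω) β) ≠ 0 →
        Hl z0 b r (Z (paint (Ap ε B ω) β)) ∧
        (∃ i j, i ≠ j ∧ J (paint (Ap ε B ω) β) i ∧ J (paint (Ap ε B ω) β) j) ∧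
        ∀ k, J (paint (Ap ε B ω) β) k →
          ENNReal.ofReal (Er om κ (t (paint (Ap ε B ω) β)) (Z (paint (Ap ε B ω) β)) k) ≤
            av (Ap ε B ω) (Jf β) (fun β => Xf n δ τ K (Q (paint (Ap ε B ω) β) k)
              (W (paint (Ap ε B ω) β) k) (N (paint (Ap ε B ω) β) k)) β)
    {RQ RW RN : Sample → ℝ≥0∞} (mQ : AEMeasurable RQ sampleLaw) (mW : AEMeasurable RW sampleLaw)
    (mN : AEMeasurable RN sampleLaw)
    (hQ : ∀ᵐ ω ∂sampleLaw, mq ε B (fun Y => g Y * SJ (J Y) (Q Y)) ω ≤ RQ ω)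
    (hW : ∀ᵐ ω ∂sampleLaw, mq ε B (fun Y => g Y * SJ (J Y) (W Y)) ω ≤ RW ω)
    (hN : ∀ᵐ ω ∂sampleLaw, mq ε B (fun Y => g Y * SJ (J Y) (N Y)) ω ≤ RN ω)
    (h0 : 0 < ∫⁻ ω, g (PP0x831.cfg ε ω ∩ ovM Bool B) ∂sampleLaw)
    {q w m : ℝ} (hq0 : 0 ≤ q) (hw0 : 0 ≤ w) (hm0 : 0 ≤ m)
    (iQ : ∫⁻ ω, RQ ω ∂sampleLaw ≤ ENNReal.ofReal q *
      ∫⁻ ω, g (PP0x831.cfg ε ω ∩ ovM Bool B) ∂sampleLaw)
    (iW : ∫⁻ ω, RW ω ∂sampleLaw ≤ ENNReal.ofReal w *
      ∫⁻ ω, g (PP0x831.cfg ε ω ∩ ovM Bool B) ∂sampleLaw)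
    (iN : ∫⁻ ω, RN ω ∂sampleLaw ≤ ENNReal.ofReal m *
      ∫⁻ ω, g (PP0x831.cfg ε ω ∩ ovM Bool B) ∂sampleLaw) {δ' : ℝ}
    (hδ' : 3 * (n * δ) + q / δ + τ * w + (1 / τ + K) * m ≤ δ') :
    Ring2 om κ z0 b ε δ' := by
  set G := ∫⁻ ω, g (PP0x831.cfg ε ω ∩ ovM Bool B) ∂sampleLaw with hG
  set R : Sample → ℝ≥0∞ := fun ω => 3 * ENNReal.ofReal (n * δ) * mq ε B g ω +
    ENNReal.ofReal (1 / δ) * RQ ω + ENNReal.ofReal τ * RW ω + ENNReal.ofReal (1 / τ + K) * RN ω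
    with hR
  refine ⟨r, B, g, t, Z, J, R, hr, hBm, hB, hg, hg1, ?_, ?_, h0, ?_⟩
  · filter_upwards [H] with ω hω β hβ h1
    obtain ⟨Jf, -, -, -, h2⟩ := hω
    obtain ⟨h3, h4, -⟩ := h2 β (Finset.mem_powerset.1 hβ) h1
    exact ⟨h3, h4⟩
  · filter_upwards [H, hQ, hW, hN] with ω hω q1 q2 q3
    obtain ⟨Jf, h1, h2, h3, h4⟩ := hω
    refine (mq_ErJ (X := fun Y k => Xf n δ τ K (Q Y k) (W Y k) (N Y k)) h1 h2 h3
      fun β hβ h5 k hk => (h4 β hβ h5).2.2 k hk).trans ((mq_split n δ τ K).trans ?_)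
    rw [hR]
    exact add_le_add (add_le_add (add_le_add le_rfl (mul_le_mul_right q1 _))
      (mul_le_mul_right q2 _)) (mul_le_mul_right q3 _)
  · have mg := mq_meas hε hBm hB hg
    have e1 : ∫⁻ ω, R ω ∂sampleLaw = 3 * ENNReal.ofReal (n * δ) * G +
        ENNReal.ofReal (1 / δ) * ∫⁻ ω, RQ ω ∂sampleLaw + ENNReal.ofReal τ * ∫⁻ ω, RW ω ∂sampleLaw +
        ENNReal.ofReal (1 / τ + K) * ∫⁻ ω, RN ω ∂sampleLaw := by
      rw [hG, ← lint_eq_mq hε hBm hB hg]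
      exact lint4 mg mQ mW mN _ _ _ _
    rw [e1]
    have hn : 0 ≤ (n : ℝ) * δ := by positivity
    have e2 : 3 * ENNReal.ofReal (n * δ) = ENNReal.ofReal (3 * (n * δ)) := by
      rw [ENNReal.ofReal_mul (by norm_num)]
      norm_num
    have key : ∀ {x y : ℝ} {I : ℝ≥0∞}, 0 ≤ x → I ≤ ENNReal.ofReal y * G →
        ENNReal.ofReal x * I ≤ ENNReal.ofReal (x * y) * G := by
      intro x y I hx hI
      calc ENNReal.ofReal x * I ≤ ENNReal.ofReal x * (ENNReal.ofReal y * G) :=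
            mul_le_mul_right hI _
        _ = _ := by rw [ENNReal.ofReal_mul hx, mul_assoc]
    calc 3 * ENNReal.ofReal (n * δ) * G +
        ENNReal.ofReal (1 / δ) * ∫⁻ ω, RQ ω ∂sampleLaw + ENNReal.ofReal τ * ∫⁻ ω, RW ω ∂sampleLaw +
        ENNReal.ofReal (1 / τ + K) * ∫⁻ ω, RN ω ∂sampleLaw
        ≤ ENNReal.ofReal (3 * (n * δ)) * G + ENNReal.ofReal (1 / δ * q) * G +
          ENNReal.ofReal (τ * w) * G + ENNReal.ofReal ((1 / τ + K) * m) * G := by
          rw [e2]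
          exact add_le_add (add_le_add (add_le_add le_rfl (key (by positivity) iQ))
            (key hτ.le iW)) (key (by positivity) iN)
      _ = ENNReal.ofReal (3 * (n * δ) + 1 / δ * q + τ * w + (1 / τ + K) * m) * G := by
          rw [ENNReal.ofReal_add (by positivity) (by positivity),
            ENNReal.ofReal_add (by positivity) (by positivity),
            ENNReal.ofReal_add (by positivity) (by positivity)]
          ring
      _ ≤ ENNReal.ofReal δ' * G := by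
          refine mul_le_mul_left (ENNReal.ofReal_le_ofReal ?_) _
          have : 1 / δ * q = q / δ := by ring
          rw [this]
          exact hδ'

/-- **the choice of the parameters** : `q, m = C h ^ c + e`, `h = h N → 0`, `e = e N ε → 0` as
`ε → 0`: one `δ = τ` for every `N`, total error `≤ δ'` -/
theorem num_ev {n : ℕ} {C c w K : ℝ} (hc : 0 < c) {h : ℕ → ℝ} (h0 : ∀ N, 0 < h N) (hh : Tendsto h atTop (𝓝 0)) {e : ℕ → ℝ → ℝ}
    (he : ∀ N, Tendsto (e N) (𝓝[>] 0) (𝓝 0)) {δ' : ℝ} (hδ' : 0 < δ') :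
    ∀ᶠ N : ℕ in atTop, ∃ δ : ℝ, 0 < δ ∧ ∀ᶠ ε : ℝ in 𝓝[>] 0,
      3 * (n * δ) + (C * h N ^ c + e N ε) / δ + δ * w + (1 / δ + K) * (C * h N ^ c + e N ε) ≤
        δ' := by
  have hc2 : 0 < c / 2 := by positivity
  have t1 : Tendsto (fun N => h N ^ (c / 2)) atTop (𝓝 0) := by
    have := hh.rpow_const (p := c / 2) (Or.inr hc2.le)
    rwa [Real.zero_rpow hc2.ne'] at this
  have t2 : Tendsto (fun N => h N ^ (c / 2) * (3 * n + C + w + C + K * C * h N ^ (c / 2))) atTop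
      (𝓝 0) := by
    have h1 := t1.mul (tendsto_const_nhds (x := 3 * (n : ℝ) + C + w + C) |>.add
      (t1.const_mul (K * C)))
    simpa using h1
  filter_upwards [t2.eventually (gt_mem_nhds (half_pos hδ'))] with N hN
  set δ := h N ^ (c / 2) with hδ
  have hδ0 : 0 < δ := Real.rpow_pos_of_pos (h0 N) _
  refine ⟨δ, hδ0, ?_⟩
  have hsq : h N ^ c = δ * δ := by
    rw [hδ, ← Real.rpow_add (h0 N)]
    congr 1
    ring
  have t3 : Tendsto (fun ε => e N ε * (2 / δ + K)) (𝓝[>] 0) (𝓝 0) := by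
    have := (he N).mul_const (2 / δ + K)
    rwa [zero_mul] at this
  filter_upwards [t3.eventually (gt_mem_nhds (half_pos hδ'))] with ε hε
  have e1 : 3 * (n * δ) + (C * h N ^ c + e N ε) / δ + δ * w +
      (1 / δ + K) * (C * h N ^ c + e N ε) =
      δ * (3 * n + C + w + C + K * C * δ) + e N ε * (2 / δ + K) := by
    rw [hsq]
    field_simp
    ring
  rw [e1]
  linarith

end Crest.Agent.R143.KapEx306
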