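import Crest.Agent.R143.KapC_99

/-!
# Row 143 (S0194), block H, H5 route 1: the giants of the brick, regions (helper99)

* `cl_reg` : the sites of `cl S (Cc τ p j)` are in the region `Eg j`, and far or near the curve;
* `arc_near` : a point of the brick near the giant `j` is near the arc `j`;
* `link` : from a point off the brick, next to it, a short box off the brick to some path `Np τ j`.
-/

set_option autoImplicit false

noncomputable section

open scoped Classical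

namespace Crest.Agent.R143.KapEx99

open Set
open Crest.ProbabilityR.Voronoi
open Crest.Agent.R143.B0x346 Crest.Agent.R143.DelGx806 Crest.Agent.R143.DelRx806
open Crest.Agent.R143.B0Dx346 Crest.Agent.R143.JColx54 Crest.Agent.R143.RE0x723
  Crest.Agent.R143.G6Wx723
open Crest.Agent.R143.UKx969 (cl cl_con cl_mono mem_cl_self)
open Crest.Agent.R143.KapBx99 Crest.Agent.R143.KapCx99

variable {S0 S : Finset ℂ} {p : ZMod 3 → ℂ} {d τ : ℝ}

/-- disjoint regions -/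
def Eg (j : ZMod 3) : Set ℂ :=
  if j = 0 then {z | 1 / 2 < z.re ∧ z.im < 1 / 2}
  else if j = 1 then {z | 1 / 2 < z.re ∧ 1 / 2 < z.im} else {z | z.re < 1 / 2}

theorem eg0 {z : ℂ} : z ∈ Eg 0 ↔ 1 / 2 < z.re ∧ z.im < 1 / 2 := by
  unfold Eg; rw [if_pos rfl]; rfl
theorem eg1 {z : ℂ} : z ∈ Eg 1 ↔ 1 / 2 < z.re ∧ 1 / 2 < z.im := by
  unfold Eg; rw [if_neg (by decide), if_pos rfl]; rfl
theorem eg2 {z : ℂ} : z ∈ Eg 2 ↔ z.re < 1 / 2 := by
  unfold Eg; rw [if_neg (by decide), if_neg (by decide)]; rfl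

theorem eg_disj : ∀ i j : ZMod 3, i ≠ j → Disjoint (Eg i) (Eg j) := by
  have key : ∀ i j : ZMod 3, (∀ z, z ∈ Eg i → z ∈ Eg j → False) → Disjoint (Eg i) (Eg j) :=
    fun i j h => Set.disjoint_left.2 fun z h1 h2 => h z h1 h2
  refine z3 (z3 ?_ ?_ ?_) (z3 ?_ ?_ ?_) (z3 ?_ ?_ ?_) <;> intro hij <;>
    first
    | exact absurd rfl hij
    | (refine key _ _ fun z h1 h2 => ?_
       simp only [eg0, eg1, eg2] at h1 h2
       first
       | linarith [h1.1, h1.2, h2.1, h2.2]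
       | linarith [h1.1, h1.2]
       | linarith [h2.1, h2.2])

/-! ### coordinates -/

theorem re_le {z : ℂ} {a : ℝ} (h : ‖z‖ ≤ a) : -a ≤ z.re ∧ z.re ≤ a :=
  abs_le.1 ((Complex.abs_re_le_norm z).trans h)

theorem im_le {z : ℂ} {a : ℝ} (h : ‖z‖ ≤ a) : -a ≤ z.im ∧ z.im ≤ a :=
  abs_le.1 ((Complex.abs_im_le_norm z).trans h)

theorem nrm_le {z : ℂ} {a b : ℝ} (h1 : |z.re| ≤ a) (h2 : |z.im| ≤ b) : ‖z‖ ≤ a + b :=
  (Complex.norm_le_abs_re_add_abs_im z).trans (add_le_add h1 h2)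

theorem p0c (H : Far3 S0 S p) :
    999 ≤ (p 0).re ∧ (p 0).re ≤ 1001 ∧ -1001 ≤ (p 0).im ∧ (p 0).im ≤ -999 := by
  have h1 := re_le (H.pos 0).le
  have h2 := im_le (H.pos 0).le
  rw [dir0] at h1 h2
  simp at h1 h2
  refine ⟨by linarith [h1.1], by linarith [h1.2], by linarith [h2.1], by linarith [h2.2]⟩

theorem p1c (H : Far3 S0 S p) :
    999 ≤ (p 1).re ∧ (p 1).re ≤ 1001 ∧ 999 ≤ (p 1).im ∧ (p 1).im ≤ 1001 := by
  have h1 := re_le (H.pos 1).le
  have h2 := im_le (H.pos 1).le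
  rw [dir1] at h1 h2
  simp at h1 h2
  refine ⟨by linarith [h1.1], by linarith [h1.2], by linarith [h2.1], by linarith [h2.2]⟩

theorem p2c (H : Far3 S0 S p) :
    -1001 ≤ (p 2).re ∧ (p 2).re ≤ -999 ∧ -1 ≤ (p 2).im ∧ (p 2).im ≤ 1 := by
  have h1 := re_le (H.pos 2).le
  have h2 := im_le (H.pos 2).le
  rw [dir2] at h1 h2
  simp at h1 h2
  refine ⟨by linarith [h1.1], by linarith [h1.2], by linarith [h2.1], by linarith [h2.2]⟩

theorem seg_c {z w c : ℂ} (h : c ∈ segment ℝ z w) : ∃ t : ℝ, 0 ≤ t ∧ t ≤ 1 ∧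
    c.re = z.re + t * (w.re - z.re) ∧ c.im = z.im + t * (w.im - z.im) := by
  rw [segment_eq_image'] at h
  obtain ⟨t, ⟨h0, h1⟩, rfl⟩ := h
  refine ⟨t, h0, h1, ?_, ?_⟩
  · simp
  · simp

/-- the regions of the curves -/
theorem cc_reg (H : Ev S0 S p d τ) : ∀ (j : ZMod 3), ∀ c ∈ Cc τ p j,
    (j = 0 → 1 / 2 + τ ≤ c.re ∧ c.im ≤ 1 / 2 - τ) ∧ (j = 1 → 1 / 2 + τ ≤ c.re ∧ 1 / 2 + τ ≤ c.im) ∧
      (j = 2 → c.re ≤ 1 / 2 - τ) ∧ c ∉ Rr := by
  have ht := H.t0
  have ht1 := H.t1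
  refine z3 ?_ ?_ ?_
  · intro c hc
    have key : 1 / 2 + τ ≤ c.re ∧ c.im ≤ 1 / 2 - τ ∧ c ∉ Rr := by
      rcases hc with hc | hc
      · rw [np0] at hc
        rcases hc with ⟨h1, h2, h3, h4⟩ | ⟨h1, h2, h3, h4⟩
        · exact ⟨h1, by linarith, fun h => by linarith [h.2.2.1]⟩
        · exact ⟨by linarith, h4, fun h => by linarith [h.2.1]⟩
      · obtain ⟨t, h0, h1, h2, h3⟩ := seg_c hc
        obtain ⟨q1, q2, q3, q4⟩ := p0c H.far
        rw [zz0] at h2 h3
        simp only at h2 h3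
        have k1 : 0 ≤ t * ((p 0).re - (2 + τ)) := mul_nonneg h0 (by linarith)
        have k2 : 0 ≤ t * (-τ - (p 0).im) := mul_nonneg h0 (by linarith)
        exact ⟨by linarith, by linarith, fun h => by linarith [h.2.1]⟩
    exact ⟨fun _ => ⟨key.1, key.2.1⟩, fun h => absurd h (by decide), fun h => absurd h (by decide),
      key.2.2⟩
  · intro c hc
    have key : 1 / 2 + τ ≤ c.re ∧ 1 / 2 + τ ≤ c.im ∧ c ∉ Rr := by
      rcases hc with hc | hc
      · rw [np1] at hc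
        rcases hc with ⟨h1, h2, h3, h4⟩ | ⟨h1, h2, h3, h4⟩
        · exact ⟨by linarith, h3, fun h => by linarith [h.2.1]⟩
        · exact ⟨h1, by linarith, fun h => by linarith [h.2.2.2]⟩
      · obtain ⟨t, h0, h1, h2, h3⟩ := seg_c hc
        obtain ⟨q1, q2, q3, q4⟩ := p1c H.far
        rw [zz1] at h2 h3
        simp only at h2 h3
        have k1 : 0 ≤ t * ((p 1).re - (2 + τ)) := mul_nonneg h0 (by linarith)
        have k2 : 0 ≤ t * ((p 1).im - (1 + τ)) := mul_nonneg h0 (by linarith)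
        exact ⟨by linarith, by linarith, fun h => by linarith [h.2.1]⟩
    exact ⟨fun h => absurd h (by decide), fun _ => ⟨key.1, key.2.1⟩, fun h => absurd h (by decide),
      key.2.2⟩
  · intro c hc
    have key : c.re ≤ 1 / 2 - τ ∧ c ∉ Rr := by
      rcases hc with hc | hc
      · rw [np2] at hc
        rcases hc with (⟨h1, h2, h3, h4⟩ | ⟨h1, h2, h3, h4⟩) | ⟨h1, h2, h3, h4⟩
        · exact ⟨h2, fun h => by linarith [h.2.2.2]⟩
        · exact ⟨by linarith, fun h => by linarith [h.1]⟩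
        · exact ⟨h2, fun h => by linarith [h.2.2.1]⟩
      · obtain ⟨t, h0, h1, h2, h3⟩ := seg_c hc
        obtain ⟨q1, q2, q3, q4⟩ := p2c H.far
        rw [zz2] at h2 h3
        simp only at h2 h3
        have k1 : 0 ≤ t * (-τ - (p 2).re) := mul_nonneg h0 (by linarith)
        exact ⟨by linarith, fun h => by linarith [h.1]⟩
    exact ⟨fun h => absurd h (by decide), fun h => absurd h (by decide), fun _ => key.1, key.2⟩

theorem np_norm (H : Ev S0 S p d τ) : ∀ (j : ZMod 3), ∀ c ∈ Np τ j, ‖c‖ ≤ 4 := by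
  have ht := H.t0
  have ht1 := H.t1
  have key : ∀ c : ℂ, -1 ≤ c.re → c.re ≤ 5 / 2 → -1 ≤ c.im → c.im ≤ 3 / 2 → ‖c‖ ≤ 4 := by
    intro c h1 h2 h3 h4
    refine (nrm_le (a := 5 / 2) (b := 3 / 2) (abs_le.2 ⟨by linarith, h2⟩)
      (abs_le.2 ⟨by linarith, h4⟩)).trans (by norm_num)
  refine z3 ?_ ?_ ?_
  · intro c hc
    rw [np0] at hc
    rcases hc with ⟨h1, h2, h3, h4⟩ | ⟨h1, h2, h3, h4⟩ <;>
      exact key c (by linarith) (by linarith) (by linarith) (by linarith)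
  · intro c hc
    rw [np1] at hc
    rcases hc with ⟨h1, h2, h3, h4⟩ | ⟨h1, h2, h3, h4⟩ <;>
      exact key c (by linarith) (by linarith) (by linarith) (by linarith)
  · intro c hc
    rw [np2] at hc
    rcases hc with (⟨h1, h2, h3, h4⟩ | ⟨h1, h2, h3, h4⟩) | ⟨h1, h2, h3, h4⟩ <;>
      exact key c (by linarith) (by linarith) (by linarith) (by linarith)

theorem zz_ip (H : Ev S0 S p d τ) : ∀ j, ‖zz τ j‖ ≤ 3 ∧ 0 ≤ ip (zz τ j) (dir j) := by
  have ht := H.t0
  have ht1 := H.t1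
  have key : ∀ z : ℂ, z.re ^ 2 + z.im ^ 2 ≤ 9 → ‖z‖ ≤ 3 := by
    intro z h
    rw [← sq_n] at h
    nlinarith [norm_nonneg z]
  refine z3 ?_ ?_ ?_
  · refine ⟨key _ ?_, ?_⟩
    · rw [zz0]
      show (2 + τ) ^ 2 + (-τ) ^ 2 ≤ 9
      nlinarith
    · rw [zz0, dir0]; unfold ip; simp; linarith
  · refine ⟨key _ ?_, ?_⟩
    · rw [zz1]
      show (2 + τ) ^ 2 + (1 + τ) ^ 2 ≤ 9
      nlinarith
    · rw [zz1, dir1]; unfold ip; simp; linarith
  · refine ⟨key _ ?_, ?_⟩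
    · rw [zz2]
      show (-τ) ^ 2 + (1 / 2) ^ 2 ≤ 9
      nlinarith
    · rw [zz2, dir2]; unfold ip; simp; linarith

theorem dir_sqrt : 141 / 100 ≤ ‖dir 0‖ ∧ 141 / 100 ≤ ‖dir 1‖ := by
  have key : ∀ z : ℂ, z.re ^ 2 + z.im ^ 2 = 2 → 141 / 100 ≤ ‖z‖ := by
    intro z h
    rw [← sq_n] at h
    nlinarith [norm_nonneg z]
  exact ⟨key _ (by rw [dir0]; simp; norm_num), key _ (by rw [dir1]; simp; norm_num)⟩

/-- **the giants are in the regions, and far or near their curve** -/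
theorem cl_reg (H : Ev S0 S p d τ) (j : ZMod 3) {s : ℂ} (hs : s ∈ cl S (Cc τ p j)) :
    s ∈ Eg j ∧ (17 ≤ ‖s‖ ∨ ∃ c ∈ Cc τ p j, ‖c‖ ≤ 22 ∧ ‖c - s‖ < d) := by
  obtain ⟨hsS, c, hc, hcs⟩ := hs
  have ht := H.t0
  have hdt := H.dt
  by_cases hn : ‖c‖ ≤ 22
  · have h1 := H.near hn hcs
    refine ⟨?_, Or.inr ⟨c, hc, hn, h1⟩⟩
    have h2 := re_le h1.le
    have h3 := im_le h1.le
    simp only [Complex.sub_re, Complex.sub_im] at h2 h3
    obtain ⟨k0, k1, k2, -⟩ := cc_reg H j c hc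
    refine z3 (P := fun j => (j = 0 → 1 / 2 + τ ≤ c.re ∧ c.im ≤ 1 / 2 - τ) →
      (j = 1 → 1 / 2 + τ ≤ c.re ∧ 1 / 2 + τ ≤ c.im) → (j = 2 → c.re ≤ 1 / 2 - τ) → s ∈ Eg j)
      ?_ ?_ ?_ j k0 k1 k2
    · intro k0 _ _
      obtain ⟨a, b⟩ := k0 rfl
      exact eg0.2 ⟨by linarith [h2.2], by linarith [h3.1]⟩
    · intro _ k0 _
      obtain ⟨a, b⟩ := k0 rfl
      exact eg1.2 ⟨by linarith [h2.2], by linarith [h3.2]⟩
    · intro _ _ k0
      have a := k0 rfl
      exact eg2.2 (by linarith [h2.1])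
  · push Not at hn
    have hseg : c ∈ segment ℝ (zz τ j) (p j) := by
      rcases hc with hc | hc
      · linarith [np_norm H j c hc]
      · exact hc
    obtain ⟨hz, hz'⟩ := zz_ip H j
    obtain ⟨h1, h2⟩ := far_site H hz hz' hseg hn hsS hcs
    have hd1 := dir_one j
    have hns : 17 ≤ ‖s‖ := by
      have h3 := (le_abs_self _).trans (ip_le s (dir j))
      by_contra hcon
      push Not at hcon
      nlinarith
    refine ⟨?_, Or.inl hns⟩
    obtain ⟨r0, r1⟩ := dir_sqrt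
    refine z3 (P := fun j => 35 / 2 * ‖dir j‖ ≤ ip s (dir j) → (s ∈ S0 ∨ s = p j) → s ∈ Eg j)
      ?_ ?_ ?_ j h1 h2
    · intro h1 h2
      rcases h2 with h2 | rfl
      · have h3 := H.far.small s h2
        have h4 := re_le h3
        have h5 := im_le h3
        rw [dir0] at h1 r0
        have e : ip s (1 - Complex.I) = s.re - s.im := by unfold ip; simp; ring
        rw [e] at h1
        exact eg0.2 ⟨by linarith, by linarith⟩
      · obtain ⟨q1, q2, q3, q4⟩ := p0c H.far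
        exact eg0.2 ⟨by linarith, by linarith⟩
    · intro h1 h2
      rcases h2 with h2 | rfl
      · have h3 := H.far.small s h2
        have h4 := re_le h3
        have h5 := im_le h3
        rw [dir1] at h1 r1
        have e : ip s (1 + Complex.I) = s.re + s.im := by unfold ip; simp
        rw [e] at h1
        exact eg1.2 ⟨by linarith, by linarith⟩
      · obtain ⟨q1, q2, q3, q4⟩ := p1c H.far
        exact eg1.2 ⟨by linarith, by linarith⟩
    · intro h1 h2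
      have hd2 := dir_one 2
      rw [dir2] at h1 hd2
      have e : ip s (-1) = -s.re := by unfold ip; simp
      rw [e] at h1
      exact eg2.2 (by linarith)

/-! ### near the arcs -/

theorem q_near {c : ℂ} {x y t : ℝ} (h1 : |c.re - x| ≤ t) (h2 : |c.im - y| ≤ t) :
    ‖c - ⟨x, y⟩‖ ≤ 2 * t := by
  refine (nrm_le (a := t) (b := t) ?_ ?_).trans (by linarith)
  · simpa using h1
  · simpa using h2

/-- the path is near the arc -/
theorem np_arc (H : Ev S0 S p d τ) : ∀ (j : ZMod 3), ∀ c ∈ Np τ j, ∃ q ∈ Ar j, ‖c - q‖ ≤ 2 * τ := by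
  have ht := H.t0
  have ht1 := H.t1
  refine z3 ?_ ?_ ?_
  · intro c hc
    rw [np0] at hc
    rcases hc with ⟨h1, h2, h3, h4⟩ | ⟨h1, h2, h3, h4⟩
    · refine ⟨⟨min c.re 2, 0⟩, ar0.2 (Or.inl ⟨rfl, ?_, min_le_right _ _⟩), q_near ?_ ?_⟩
      · exact le_min (by linarith) (by norm_num)
      · rcases min_cases c.re 2 with ⟨e, _⟩ | ⟨e, _⟩ <;> rw [e, abs_le] <;> constructor <;> linarith
      · rw [abs_le]; constructor <;> linarith
    · refine ⟨⟨2, max c.im 0⟩, ar0.2 (Or.inr ⟨rfl, le_max_right _ _, ?_⟩), q_near ?_ ?_⟩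
      · exact max_le (by linarith) (by norm_num)
      · rw [abs_le]; constructor <;> linarith
      · rcases max_cases c.im 0 with ⟨e, _⟩ | ⟨e, _⟩ <;> rw [e, abs_le] <;> constructor <;> linarith
  · intro c hc
    rw [np1] at hc
    rcases hc with ⟨h1, h2, h3, h4⟩ | ⟨h1, h2, h3, h4⟩
    · refine ⟨⟨2, min c.im 1⟩, ar1.2 (Or.inl ⟨rfl, ?_, min_le_right _ _⟩), q_near ?_ ?_⟩
      · exact le_min (by linarith) (by norm_num)
      · rw [abs_le]; constructor <;> linarith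
      · rcases min_cases c.im 1 with ⟨e, _⟩ | ⟨e, _⟩ <;> rw [e, abs_le] <;> constructor <;> linarith
    · refine ⟨⟨min c.re 2, 1⟩, ar1.2 (Or.inr ⟨rfl, ?_, min_le_right _ _⟩), q_near ?_ ?_⟩
      · exact le_min (by linarith) (by norm_num)
      · rcases min_cases c.re 2 with ⟨e, _⟩ | ⟨e, _⟩ <;> rw [e, abs_le] <;> constructor <;> linarith
      · rw [abs_le]; constructor <;> linarith
  · intro c hc
    rw [np2] at hc
    rcases hc with (⟨h1, h2, h3, h4⟩ | ⟨h1, h2, h3, h4⟩) | ⟨h1, h2, h3, h4⟩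
    · refine ⟨⟨max c.re 0, 1⟩, ar2.2 (Or.inl ⟨rfl, le_max_right _ _, ?_⟩), q_near ?_ ?_⟩
      · exact max_le (by linarith) (by norm_num)
      · rcases max_cases c.re 0 with ⟨e, _⟩ | ⟨e, _⟩ <;> rw [e, abs_le] <;> constructor <;> linarith
      · rw [abs_le]; constructor <;> linarith
    · refine ⟨⟨0, max (min c.im 1) 0⟩, ar2.2 (Or.inr (Or.inl ⟨rfl, le_max_right _ _, ?_⟩)),
        q_near ?_ ?_⟩
      · exact max_le (min_le_right _ _) (by norm_num)
      · rw [abs_le]; constructor <;> linarith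
      · rcases min_cases c.im 1 with ⟨e1, _⟩ | ⟨e1, _⟩ <;> rw [e1]
        · rcases max_cases c.im 0 with ⟨e, _⟩ | ⟨e, _⟩ <;> rw [e, abs_le] <;> constructor <;>
            linarith
        · rcases max_cases (1 : ℝ) 0 with ⟨e, _⟩ | ⟨e, _⟩ <;> rw [e, abs_le] <;> constructor <;>
            linarith
    · refine ⟨⟨max c.re 0, 0⟩, ar2.2 (Or.inr (Or.inr ⟨rfl, le_max_right _ _, ?_⟩)), q_near ?_ ?_⟩
      · exact max_le (by linarith) (by norm_num)
      · rcases max_cases c.re 0 with ⟨e, _⟩ | ⟨e, _⟩ <;> rw [e, abs_le] <;> constructor <;> linarith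
      · rw [abs_le]; constructor <;> linarith

/-- a point of the brick near the far segment is near its start -/
theorem seg_near (H : Ev S0 S p d τ) {r : ℝ} : ∀ (j : ZMod 3), ∀ c ∈ segment ℝ (zz τ j) (p j),
    ∀ x ∈ Rr, ‖x - c‖ ≤ r → ‖x - zz τ j‖ ≤ 7 / 2 * r := by
  have ht := H.t0
  have ht1 := H.t1
  have key : ∀ (z q c x : ℂ) (t : ℝ), 0 ≤ t → c.re = z.re + t * (q.re - z.re) →
      c.im = z.im + t * (q.im - z.im) → |q.re - z.re| ≤ 1010 → |q.im - z.im| ≤ 1010 →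
      t * 990 ≤ r → ‖x - c‖ ≤ r → ‖x - z‖ ≤ 7 / 2 * r := by
    intro z q c x t h0 h1 h2 h3 h4 h5 h6
    have h7 : ‖c - z‖ ≤ t * 1010 + t * 1010 := by
      refine nrm_le ?_ ?_
      · rw [Complex.sub_re, h1, add_sub_cancel_left, abs_mul, abs_of_nonneg h0]
        exact mul_le_mul_of_nonneg_left h3 h0
      · rw [Complex.sub_im, h2, add_sub_cancel_left, abs_mul, abs_of_nonneg h0]
        exact mul_le_mul_of_nonneg_left h4 h0
    have h8 := norm_add_le (x - c) (c - z)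
    rw [sub_add_sub_cancel] at h8
    linarith
  refine z3 ?_ ?_ ?_
  · intro c hc x hx h
    obtain ⟨t, h0, h1, h2, h3⟩ := seg_c hc
    obtain ⟨q1, q2, q3, q4⟩ := p0c H.far
    have h4 := re_le h
    rw [Complex.sub_re] at h4
    refine key _ (p 0) c x t h0 h2 h3 ?_ ?_ ?_ h
    · rw [zz0, abs_le]; show -1010 ≤ (p 0).re - (2 + τ) ∧ (p 0).re - (2 + τ) ≤ 1010
      constructor <;> linarith
    · rw [zz0, abs_le]; show -1010 ≤ (p 0).im - -τ ∧ (p 0).im - -τ ≤ 1010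
      constructor <;> linarith
    · rw [zz0] at h2
      simp only at h2
      have h5 : t * 990 ≤ t * ((p 0).re - (2 + τ)) := mul_le_mul_of_nonneg_left (by linarith) h0
      linarith [hx.2.1, h4.1]
  · intro c hc x hx h
    obtain ⟨t, h0, h1, h2, h3⟩ := seg_c hc
    obtain ⟨q1, q2, q3, q4⟩ := p1c H.far
    have h4 := re_le h
    rw [Complex.sub_re] at h4
    refine key _ (p 1) c x t h0 h2 h3 ?_ ?_ ?_ h
    · rw [zz1, abs_le]; show -1010 ≤ (p 1).re - (2 + τ) ∧ (p 1).re - (2 + τ) ≤ 1010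
      constructor <;> linarith
    · rw [zz1, abs_le]; show -1010 ≤ (p 1).im - (1 + τ) ∧ (p 1).im - (1 + τ) ≤ 1010
      constructor <;> linarith
    · rw [zz1] at h2
      simp only at h2
      have h5 : t * 990 ≤ t * ((p 1).re - (2 + τ)) := mul_le_mul_of_nonneg_left (by linarith) h0
      linarith [hx.2.1, h4.1]
  · intro c hc x hx h
    obtain ⟨t, h0, h1, h2, h3⟩ := seg_c hc
    obtain ⟨q1, q2, q3, q4⟩ := p2c H.far
    have h4 := re_le h
    rw [Complex.sub_re] at h4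
    refine key _ (p 2) c x t h0 h2 h3 ?_ ?_ ?_ h
    · rw [zz2, abs_le]; show -1010 ≤ (p 2).re - -τ ∧ (p 2).re - -τ ≤ 1010
      constructor <;> linarith
    · rw [zz2, abs_le]; show -1010 ≤ (p 2).im - 1 / 2 ∧ (p 2).im - 1 / 2 ≤ 1010
      constructor <;> linarith
    · rw [zz2] at h2
      simp only at h2
      have h5 : t * 990 ≤ t * (-τ - (p 2).re) := mul_le_mul_of_nonneg_left (by linarith) h0
      linarith [hx.1, h4.2]

theorem rr_norm {x : ℂ} (hx : x ∈ Rr) : ‖x‖ ≤ 3 := by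
  obtain ⟨h1, h2, h3, h4⟩ := hx
  exact (nrm_le (abs_le.2 ⟨by linarith, h2⟩) (abs_le.2 ⟨by linarith, h4⟩)).trans (by norm_num)

/-- **a point of the brick near the giant is near the arc** -/
theorem arc_near (H : Ev S0 S p d τ) (j : ZMod 3) {r : ℝ} (hr : r ≤ 1) {s x : ℂ}
    (hs : s ∈ cl S (Cc τ p j)) (hx : x ∈ Rr) (h : ‖s - x‖ ≤ r) :
    ∃ q ∈ Ar j, ‖x - q‖ ≤ 4 * r + 4 * τ := by
  have ht := H.t0
  have hdt := H.dt
  have hr0 : 0 ≤ r := (norm_nonneg _).trans h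
  have hxn := rr_norm hx
  obtain ⟨c, hc, -, hcs⟩ := (cl_reg H j hs).2.resolve_left (by
    have := norm_add_le (s - x) x
    rw [sub_add_cancel] at this
    linarith)
  have hxc : ‖x - c‖ ≤ r + τ / 100 := by
    have := norm_add_le (x - s) (s - c)
    rw [sub_add_sub_cancel, norm_sub_rev x s, norm_sub_rev s c] at this
    linarith
  rcases hc with hc | hc
  · obtain ⟨q, hq, h1⟩ := np_arc H j c hc
    refine ⟨q, hq, ?_⟩
    have := norm_add_le (x - c) (c - q)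
    rw [sub_add_sub_cancel] at this
    linarith
  · have h1 := seg_near H j c hc x hx hxc
    obtain ⟨q, hq, h2⟩ := np_arc H j _ (zz_mem ht.le (by linarith [H.t1]) j)
    refine ⟨q, hq, ?_⟩
    have := norm_add_le (x - zz τ j) (zz τ j - q)
    rw [sub_add_sub_cancel] at this
    linarith

end Crest.Agent.R143.KapEx99
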