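import Crest.Agent.R143.KapE_306
import Crest.Agent.R143.KapE_440

/-!
# Row 143 (S0194), block H, H5 (A2): weights which are not decided by the exploration (helper306)

`g` : measurable weight (product weight of the ring), NOT decided by the exploration `Jf` of the
outside; `w = E[g | Jf]` (`Cw`), not known to be measurable.  `t`, `Z`, `J` are decided by `Jf`.
* `av_dec2` : a conditional mean is decided; `sum_w`, `mq_w` : `mq (g F) = mq (w F)` for decided `F`;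
  `mq_eq` : `mq g = mq w`
* `mq_ErJ_w` : `mq (g ErJ) ≤ mq (w SJ X)`
* **`ring2_w`** : `Ring2` of `KapA_690` for `g`, all the error means taken with `w`
* **`ring2_patw`** : the same from three `PatW` (440's `PatE` with `w` in the quenched means)
-/

set_option autoImplicit false

noncomputable section

open scoped Classical

namespace Crest.Agent.R143.KapFx306

open MeasureTheory Filter Topology
open Crest.ProbabilityR.Voronoi
open Crest.Agent.R143.B0x346 Crest.Agent.R143.DefsNx346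
open Crest.Agent.R143.Harx315 Crest.Agent.R143.Histx389 Crest.Agent.R143.HGluex136
open Crest.Agent.R143.Dblx609 Crest.Agent.R143.Dbl2x609
open Crest.Agent.R143.KapAx690 Crest.Agent.R143.Trix106 Crest.Agent.R143.KapEx306
open scoped ENNReal

section coins

variable {α : Type*} {V : Finset α} {Jf : Finset α → Finset α}

/-- a conditional mean is decided by the exploration -/
theorem av_dec2 (hJ : IsStop V Jf) (H : Finset α → ℝ≥0∞) :
    DecF V Jf fun b => av V (Jf b) H b := by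
  intro b b' h1 h2 h3
  have e := hJ.stop b b' h1 h2 h3
  show av V (Jf b) H b = av V (Jf b') H b'
  unfold av
  rw [e, h3]

/-- the configuration is in its own class -/
theorem self_class {R b : Finset α} : (b \ R) ∪ (b ∩ R) = b := Finset.sdiff_union_inter b R

theorem le_av_of {R b : Finset α} (hb : b ⊆ V) {H : Finset α → ℝ≥0∞} (h : H b ≠ 0) :
    av V R H b ≠ 0 := by
  unfold av
  intro h0
  rcases mul_eq_zero.1 h0 with h1 | h1
  · rw [ENNReal.inv_eq_zero] at h1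
    exact ENNReal.pow_ne_top (by norm_num) h1
  · have h2 := (Finset.sum_eq_zero_iff.1 h1) (b \ R)
      (Finset.mem_powerset.2 (Finset.sdiff_subset_sdiff hb (Finset.Subset.refl _)))
    rw [self_class] at h2
    exact h h2

/-- **the mean of `g F`, `F` decided** -/
theorem sum_w (hJ : IsStop V Jf) {g F w : Finset α → ℝ≥0∞} (hF : DecF V Jf F)
    (hw : ∀ b, b ⊆ V → w b = av V (Jf b) g b) :
    ∑ b ∈ V.powerset, g b * F b = ∑ b ∈ V.powerset, w b * F b := by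
  rw [← sum_av hJ]
  refine Finset.sum_congr rfl fun b hb => ?_
  rw [Finset.mem_powerset] at hb
  have e : av V (Jf b) (fun b => g b * F b) b = av V (Jf b) (fun b => F b * g b) b := by
    unfold av
    simp only [mul_comm]
  rw [e, av_dec hF hb, hw b hb, mul_comm]

end coins

/-- `w` is the conditional mean of `g` given the exploration -/
def Cw (A : Finset ℂ) (Jf : Finset ℂ → Finset ℂ) (g w : Set (ℂ × Bool) → ℝ≥0∞) : Prop :=
  ∀ β, β ⊆ A → w (paint A β) = av A (Jf β) (fun β => g (paint A β)) β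

variable {ε : ℝ} {B : Set ℂ} {ω : Sample} {g w : Set (ℂ × Bool) → ℝ≥0∞}
  {Jf : Finset ℂ → Finset ℂ}

theorem Cw.dec {A : Finset ℂ} (hJ : IsStop A Jf) (hw : Cw A Jf g w) :
    DecF A Jf fun β => w (paint A β) := by
  intro b b' h1 h2 h3
  show w (paint A b) = w (paint A b')
  rw [hw b h1, hw b' h2]
  exact av_dec2 hJ (fun β => g (paint A β)) b b' h1 h2 h3

theorem Cw.ne {A : Finset ℂ} (hw : Cw A Jf g w) {β : Finset ℂ} (hβ : β ⊆ A)
    (h : g (paint A β) ≠ 0) : w (paint A β) ≠ 0 := by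
  rw [hw β hβ]
  exact le_av_of hβ (H := fun β => g (paint A β)) h

/-- `mq (g F) = mq (w F)` for decided `F` -/
theorem mq_w (hJ : IsStop (Ap ε B ω) Jf) (hw : Cw (Ap ε B ω) Jf g w)
    {F : Set (ℂ × Bool) → ℝ≥0∞} (hF : DecF (Ap ε B ω) Jf fun β => F (paint (Ap ε B ω) β)) :
    mq ε B (fun X => g X * F X) ω = mq ε B (fun X => w X * F X) ω := by
  unfold mq
  congr 1
  exact sum_w (g := fun β => g (paint (Ap ε B ω) β)) (w := fun β => w (paint (Ap ε B ω) β)) hJ hF hw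

theorem mq_eq (hJ : IsStop (Ap ε B ω) Jf) (hw : Cw (Ap ε B ω) Jf g w) :
    mq ε B g ω = mq ε B w ω := by
  have h := mq_w (F := fun _ => 1) hJ hw fun _ _ _ _ _ => rfl
  simpa using h

/-- **quenched (A2) with the conditional weight** -/
theorem mq_ErJ_w {om κ : ℂ} {t : Set (ℂ × Bool) → ℂ} {Z : Set (ℂ × Bool) → Fin 3 → ℂ}
    {J : Set (ℂ × Bool) → Fin 3 → Prop} {X : Set (ℂ × Bool) → Fin 3 → ℝ≥0∞}
    (hJ : IsStop (Ap ε B ω) Jf) (hw : Cw (Ap ε B ω) Jf g w)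
    (hDt : DecF (Ap ε B ω) Jf fun β => t (paint (Ap ε B ω) β))
    (hDZ : DecF (Ap ε B ω) Jf fun β => Z (paint (Ap ε B ω) β))
    (hDJ : DecF (Ap ε B ω) Jf fun β => J (paint (Ap ε B ω) β))
    (h : ∀ β, β ⊆ Ap ε B ω → w (paint (Ap ε B ω) β) ≠ 0 → ∀ k, J (paint (Ap ε B ω) β) k →
      ENNReal.ofReal (Er om κ (t (paint (Ap ε B ω) β)) (Z (paint (Ap ε B ω) β)) k) ≤
        av (Ap ε B ω) (Jf β) (fun β => X (paint (Ap ε B ω) β) k) β) :
    mq ε B (fun Y => g Y * ErJ om κ (t Y) (Z Y) (J Y)) ω ≤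
      mq ε B (fun Y => w Y * SJ (J Y) (X Y)) ω := by
  rw [mq_w hJ hw (F := fun Y => ErJ om κ (t Y) (Z Y) (J Y))]
  · exact mq_ErJ hJ (hw.dec hJ) hDJ h
  · intro b b' h1 h2 h3
    have e1 : t (paint (Ap ε B ω) b) = t (paint (Ap ε B ω) b') := hDt b b' h1 h2 h3
    have e2 : Z (paint (Ap ε B ω) b) = Z (paint (Ap ε B ω) b') := hDZ b b' h1 h2 h3
    have e3 : J (paint (Ap ε B ω) b) = J (paint (Ap ε B ω) b') := hDJ b b' h1 h2 h3
    show ErJ om κ (t (paint (Ap ε B ω) b)) (Z (paint (Ap ε B ω) b)) (J (paint (Ap ε B ω) b)) = _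
    rw [e1, e2, e3]

/-- **the ring for one mesh, conditional weight** -/
theorem ring2_w {om κ z0 : ℂ} {b r : ℝ} (hε : 0 < ε) (hr : r ≤ b / 200)
    (hBm : MeasurableSet B) (hB : Bornology.IsBounded B) (hg : Poisx304.FM g)
    (hg1 : ∀ X, g X ≤ 1)
    {t : Set (ℂ × Bool) → ℂ} {Z : Set (ℂ × Bool) → Fin 3 → ℂ} {J : Set (ℂ × Bool) → Fin 3 → Prop}
    {Q W N : Set (ℂ × Bool) → Fin 3 → ℝ≥0∞} {n : ℕ} {δ τ K : ℝ}
    (hδ : 0 < δ) (hτ : 0 < τ) (hK : 0 ≤ K)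
    (H : ∀ᵐ ω ∂sampleLaw, ∃ Jf : Finset ℂ → Finset ℂ, IsStop (Ap ε B ω) Jf ∧
      Cw (Ap ε B ω) Jf g w ∧
      DecF (Ap ε B ω) Jf (fun β => t (paint (Ap ε B ω) β)) ∧
      DecF (Ap ε B ω) Jf (fun β => Z (paint (Ap ε B ω) β)) ∧
      DecF (Ap ε B ω) Jf (fun β => J (paint (Ap ε B ω) β)) ∧
      ∀ β, β ⊆ Ap ε B ω → w (paint (Ap ε B ω) β) ≠ 0 →
        Hl z0 b r (Z (paint (Ap ε B ω) β)) ∧
        (∃ i j, i ≠ j ∧ J (paint (Ap ε B ω) β) i ∧ J (paint (Ap ε B ω) β) j) ∧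
        ∀ k, J (paint (Ap ε B ω) β) k →
          ENNReal.ofReal (Er om κ (t (paint (Ap ε B ω) β)) (Z (paint (Ap ε B ω) β)) k) ≤
            av (Ap ε B ω) (Jf β) (fun β => Xf n δ τ K (Q (paint (Ap ε B ω) β) k)
              (W (paint (Ap ε B ω) β) k) (N (paint (Ap ε B ω) β) k)) β)
    {RQ RW RN : Sample → ℝ≥0∞} (mQ : AEMeasurable RQ sampleLaw) (mW : AEMeasurable RW sampleLaw)
    (mN : AEMeasurable RN sampleLaw)
    (hQ : ∀ᵐ ω ∂sampleLaw, mq ε B (fun Y => w Y * SJ (J Y) (Q Y)) ω ≤ RQ ω)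
    (hW : ∀ᵐ ω ∂sampleLaw, mq ε B (fun Y => w Y * SJ (J Y) (W Y)) ω ≤ RW ω)
    (hN : ∀ᵐ ω ∂sampleLaw, mq ε B (fun Y => w Y * SJ (J Y) (N Y)) ω ≤ RN ω)
    (h0 : 0 < ∫⁻ ω, g (PP0x831.cfg ε ω ∩ ovM Bool B) ∂sampleLaw)
    {q w' m : ℝ} (hq0 : 0 ≤ q) (hw0 : 0 ≤ w') (hm0 : 0 ≤ m)
    (iQ : ∫⁻ ω, RQ ω ∂sampleLaw ≤ ENNReal.ofReal q *
      ∫⁻ ω, g (PP0x831.cfg ε ω ∩ ovM Bool B) ∂sampleLaw)
    (iW : ∫⁻ ω, RW ω ∂sampleLaw ≤ ENNReal.ofReal w' *
      ∫⁻ ω, g (PP0x831.cfg ε ω ∩ ovM Bool B) ∂sampleLaw)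
    (iN : ∫⁻ ω, RN ω ∂sampleLaw ≤ ENNReal.ofReal m *
      ∫⁻ ω, g (PP0x831.cfg ε ω ∩ ovM Bool B) ∂sampleLaw) {δ' : ℝ}
    (hδ' : 3 * (n * δ) + q / δ + τ * w' + (1 / τ + K) * m ≤ δ') :
    Ring2 om κ z0 b ε δ' := by
  set G := ∫⁻ ω, g (PP0x831.cfg ε ω ∩ ovM Bool B) ∂sampleLaw with hG
  set R : Sample → ℝ≥0∞ := fun ω => 3 * ENNReal.ofReal (n * δ) * mq ε B g ω +
    ENNReal.ofReal (1 / δ) * RQ ω + ENNReal.ofReal τ * RW ω + ENNReal.ofReal (1 / τ + K) * RN ω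
    with hR
  refine ⟨r, B, g, t, Z, J, R, hr, hBm, hB, hg, hg1, ?_, ?_, h0, ?_⟩
  · filter_upwards [H] with ω hω β hβ h1
    obtain ⟨Jf, -, hc, -, -, -, h2⟩ := hω
    obtain ⟨h3, h4, -⟩ := h2 β (Finset.mem_powerset.1 hβ) (hc.ne (Finset.mem_powerset.1 hβ) h1)
    exact ⟨h3, h4⟩
  · filter_upwards [H, hQ, hW, hN] with ω hω q1 q2 q3
    obtain ⟨Jf, h1, h2, h3, h4, h5, h6⟩ := hω
    refine (mq_ErJ_w (X := fun Y k => Xf n δ τ K (Q Y k) (W Y k) (N Y k)) h1 h2 h3 h4 h5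
      fun β hβ h5 k hk => (h6 β hβ h5).2.2 k hk).trans ((mq_split n δ τ K).trans ?_)
    rw [hR, ← mq_eq h1 h2]
    exact add_le_add (add_le_add (add_le_add le_rfl (mul_le_mul_right q1 _))
      (mul_le_mul_right q2 _)) (mul_le_mul_right q3 _)
  · have mg := mq_meas hε hBm hB hg
    have e1 : ∫⁻ ω, R ω ∂sampleLaw = 3 * ENNReal.ofReal (n * δ) * G +
        ENNReal.ofReal (1 / δ) * ∫⁻ ω, RQ ω ∂sampleLaw + ENNReal.ofReal τ * ∫⁻ ω, RW ω ∂sampleLaw +
        ENNReal.ofReal (1 / τ + K) * ∫⁻ ω, RN ω ∂sampleLaw := by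
      rw [hG, ← lint_eq_mq hε hBm hB hg]
      exact lint4 mg mQ mW mN _ _ _ _
    rw [e1]
    have hn : 0 ≤ (n : ℝ) * δ := by positivity
    have e2 : 3 * ENNReal.ofReal (n * δ) = ENNReal.ofReal (3 * (n * δ)) := by
      rw [ENNReal.ofReal_mul (by norm_num)]
      norm_num
    have key : ∀ {x y : ℝ} {I : ℝ≥0∞}, 0 ≤ x → I ≤ ENNReal.ofReal y * G →
        ENNReal.ofReal x * I ≤ ENNReal.ofReal (x * y) * G := by
      intro x y I hx hI
      calc ENNReal.ofReal x * I ≤ ENNReal.ofReal x * (ENNReal.ofReal y * G) :=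
            mul_le_mul_right hI _
        _ = _ := by rw [ENNReal.ofReal_mul hx, mul_assoc]
    calc 3 * ENNReal.ofReal (n * δ) * G +
        ENNReal.ofReal (1 / δ) * ∫⁻ ω, RQ ω ∂sampleLaw + ENNReal.ofReal τ * ∫⁻ ω, RW ω ∂sampleLaw +
        ENNReal.ofReal (1 / τ + K) * ∫⁻ ω, RN ω ∂sampleLaw
        ≤ ENNReal.ofReal (3 * (n * δ)) * G + ENNReal.ofReal (1 / δ * q) * G +
          ENNReal.ofReal (τ * w') * G + ENNReal.ofReal ((1 / τ + K) * m) * G := by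
          rw [e2]
          exact add_le_add (add_le_add (add_le_add le_rfl (key (by positivity) iQ))
            (key hτ.le iW)) (key (by positivity) iN)
      _ = ENNReal.ofReal (3 * (n * δ) + 1 / δ * q + τ * w' + (1 / τ + K) * m) * G := by
          rw [ENNReal.ofReal_add (by positivity) (by positivity),
            ENNReal.ofReal_add (by positivity) (by positivity),
            ENNReal.ofReal_add (by positivity) (by positivity)]
          ring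
      _ ≤ ENNReal.ofReal δ' * G := by
          refine mul_le_mul_left (ENNReal.ofReal_le_ofReal ?_) _
          have : 1 / δ * q = q / δ := by ring
          rw [this]
          exact hδ'

/-! ### the version with 440's `PatE` -/

open Crest.Agent.R143.KapEx440 (MeanQ mq_mean amgm amgm' mq_sum)
open ComplexConjugate

/-- the event `P`, the means `τ`, `D` are decided by a stopping set, `w` is the conditional mean of
the weight `g`; the means of the charge `V` and of the displacement `W` over the fresh coins are `τ`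
and `D` -/
def MeanW (A : Finset ℂ) (g w : Set (ℂ × Bool) → ℝ≥0∞) (P : Set (ℂ × Bool) → Prop)
    (V W τ D : Set (ℂ × Bool) → ℂ) : Prop :=
  ∃ Jf : Finset ℂ → Finset ℂ, IsStop A Jf ∧ Cw A Jf g w ∧
    DecF A Jf (fun β => P (paint A β)) ∧ DecF A Jf (fun β => τ (paint A β)) ∧
    DecF A Jf (fun β => D (paint A β)) ∧
    ∀ β, β ⊆ A → w (paint A β) ≠ 0 → P (paint A β) →
      KapEx440.avc A (Jf β) (fun b => V (paint A b)) β = τ (paint A β) ∧
      KapEx440.avc A (Jf β) (fun b => W (paint A b)) β = D (paint A β)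

theorem MeanW.meanQ {A : Finset ℂ} {P : Set (ℂ × Bool) → Prop} {V W τ D : Set (ℂ × Bool) → ℂ}
    (H : MeanW A g w P V W τ D) : MeanQ A w P V W τ D := by
  obtain ⟨Jf, h1, h2, h3, -, -, h6⟩ := H
  refine ⟨Jf, h1, fun β hβ β' hβ' he => ⟨?_, ?_⟩, h6⟩
  · exact (h2.dec h1 β β' hβ hβ' he.symm).symm
  · have e : P (paint A β) = P (paint A β') := h3 β β' hβ hβ' he.symm
    rw [e]

theorem MeanW.mq_le {P : Set (ℂ × Bool) → Prop} {V W τ D : Set (ℂ × Bool) → ℂ} (κ : ℂ)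
    (H : MeanW (Ap ε B ω) g w P V W τ D) :
    mq ε B (fun X => g X * (if P X then ENNReal.ofReal ‖κ * conj (D X) - τ X‖ else 0)) ω ≤
      mq ε B (fun X => w X * (if P X then ENNReal.ofReal ‖κ * conj (W X) - V X‖ else 0)) ω := by
  have h0 := H.meanQ
  obtain ⟨Jf, h1, h2, h3, h4, h5, -⟩ := H
  rw [mq_w h1 h2 (F := fun X => if P X then ENNReal.ofReal ‖κ * conj (D X) - τ X‖ else 0)]
  · exact mq_mean κ h0
  · intro b b' g1 g2 g3
    have e1 : P (paint (Ap ε B ω) b) = P (paint (Ap ε B ω) b') := h3 b b' g1 g2 g3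
    have e2 : τ (paint (Ap ε B ω) b) = τ (paint (Ap ε B ω) b') := h4 b b' g1 g2 g3
    have e3 : D (paint (Ap ε B ω) b) = D (paint (Ap ε B ω) b') := h5 b b' g1 g2 g3
    show (if P (paint (Ap ε B ω) b) then _ else _) = _
    rw [e1, e2, e3]

theorem MeanW.mq_eq {P : Set (ℂ × Bool) → Prop} {V W τ D : Set (ℂ × Bool) → ℂ}
    (H : MeanW (Ap ε B ω) g w P V W τ D) : mq ε B g ω = mq ε B w ω := by
  obtain ⟨Jf, h1, h2, -⟩ := H
  exact KapFx306.mq_eq h1 h2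

/-- 440's `PatE` with the conditional weight `w` in the quenched means -/
structure PatW (κ : ℂ) (ε : ℝ) (B : Set ℂ) (g w : Set (ℂ × Bool) → ℝ≥0∞)
    (P : Set (ℂ × Bool) → Prop) (τ D : Set (ℂ × Bool) → ℂ) (rr K0 η C : ℝ≥0∞) (n : ℕ) : Prop where
  ex : ∃ (V W : Set (ℂ × Bool) → ℂ) (q : Fin n → Set (ℂ × Bool) → ℝ≥0∞)
    (Mk : Set (ℂ × Bool) → Prop) (Rq : Fin n → Sample → ℝ≥0∞) (Rm Rv : Sample → ℝ≥0∞),
    (∀ᵐ ω ∂sampleLaw, MeanW (Ap ε B ω) g w P V W τ D) ∧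
    (∀ᵐ ω ∂sampleLaw, ∀ β ∈ (Ap ε B ω).powerset, w (paint (Ap ε B ω) β) ≠ 0 →
      P (paint (Ap ε B ω) β) →
      (¬ Mk (paint (Ap ε B ω) β) → ENNReal.ofReal ‖κ * conj (W (paint (Ap ε B ω) β)) -
        V (paint (Ap ε B ω) β)‖ ≤ ∑ i, q i (paint (Ap ε B ω) β) + rr) ∧
      (Mk (paint (Ap ε B ω) β) → ENNReal.ofReal ‖κ * conj (W (paint (Ap ε B ω) β)) -
        V (paint (Ap ε B ω) β)‖ ≤ ENNReal.ofReal ‖V (paint (Ap ε B ω) β)‖ + K0)) ∧
    (∀ i, AEMeasurable (Rq i) sampleLaw) ∧ AEMeasurable Rm sampleLaw ∧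
    AEMeasurable Rv sampleLaw ∧
    (∀ i, ∀ᵐ ω ∂sampleLaw, mq ε B (fun X => w X * (if P X then q i X ^ 2 else 0)) ω ≤ Rq i ω) ∧
    (∀ᵐ ω ∂sampleLaw, mq ε B (fun X => w X * (if P X ∧ Mk X then 1 else 0)) ω ≤ Rm ω) ∧
    (∀ᵐ ω ∂sampleLaw, mq ε B (fun X => w X * (if P X then ENNReal.ofReal ‖V X‖ ^ 2 else 0)) ω ≤
      Rv ω) ∧
    (∀ i, ∫⁻ ω, Rq i ω ∂sampleLaw ≤
      η * ∫⁻ ω, g (PP0x831.cfg ε ω ∩ ovM Bool B) ∂sampleLaw) ∧
    (∫⁻ ω, Rm ω ∂sampleLaw ≤ η * ∫⁻ ω, g (PP0x831.cfg ε ω ∩ ovM Bool B) ∂sampleLaw) ∧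
    (∫⁻ ω, Rv ω ∂sampleLaw ≤ C * ∫⁻ ω, g (PP0x831.cfg ε ω ∩ ovM Bool B) ∂sampleLaw)

variable {P : Set (ℂ × Bool) → Prop} {τ D : Set (ℂ × Bool) → ℂ}

/-- **the majorant of the error of one pattern** -/
theorem PatW.bound {κ : ℂ} {rr K0 η C : ℝ≥0∞} {n : ℕ} (H : PatW κ ε B g w P τ D rr K0 η C n)
    (hε : 0 < ε) (hBm : MeasurableSet B) (hB : Bornology.IsBounded B) (hg : Poisx304.FM g)
    {c : ℝ≥0∞} (c0 : c ≠ 0) (c1 : c ≠ ∞) :
    ∃ R : Sample → ℝ≥0∞, AEMeasurable R sampleLaw ∧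
      (∀ᵐ ω ∂sampleLaw, mq ε B (fun X => g X *
        (if P X then ENNReal.ofReal ‖κ * conj (D X) - τ X‖ else 0)) ω ≤ R ω) ∧
      ∫⁻ ω, R ω ∂sampleLaw ≤ (n * c + rr + (n * c⁻¹ + (c⁻¹ + K0)) * η + c * C) *
        ∫⁻ ω, g (PP0x831.cfg ε ω ∩ ovM Bool B) ∂sampleLaw := by
  obtain ⟨V, W, q, Mk, Rq, Rm, Rv, h1, h2, m1, m2, m3, r1, r2, r3, i1, i2, i3⟩ := H.ex
  refine ⟨fun ω => (n * c + rr) * mq ε B g ω + c⁻¹ * ∑ i, Rq i ω + (c⁻¹ + K0) * Rm ω + c * Rv ω,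
    ?_, ?_, ?_⟩
  · have hm := mq_meas hε hBm hB hg
    refine (((hm.const_mul _).add ?_).add (m2.const_mul _)).add (m3.const_mul _)
    exact (Finset.aemeasurable_fun_sum _ fun i _ => m1 i).const_mul _
  · have r1' : ∀ᵐ ω ∂sampleLaw, ∀ i, mq ε B (fun X => w X * (if P X then q i X ^ 2 else 0)) ω ≤
        Rq i ω := ae_all_iff.2 r1
    filter_upwards [h1, h2, r1', r2, r3] with ω h1 h2 r1 r2 r3
    refine (h1.mq_le κ).trans ?_
    have key : mq ε B (fun X => w X *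
        (if P X then ENNReal.ofReal ‖κ * conj (W X) - V X‖ else 0)) ω ≤
        mq ε B (fun X => (n * c + rr) * w X + c⁻¹ * ∑ i, w X * (if P X then q i X ^ 2 else 0) +
          (c⁻¹ + K0) * (w X * (if P X ∧ Mk X then 1 else 0)) +
          c * (w X * (if P X then ENNReal.ofReal ‖V X‖ ^ 2 else 0))) ω := by
      refine mq_mono fun β hβ => ?_
      set X := paint (Ap ε B ω) β with hX
      by_cases g0 : w X = 0
      · rw [g0, zero_mul]; exact zero_le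
      by_cases hP : P X
      swap
      · rw [if_neg hP, mul_zero]; exact zero_le
      obtain ⟨h3, h4⟩ := h2 β hβ g0 hP
      rw [if_pos hP]
      by_cases hM : Mk X
      · have h5 := h4 hM
        have h6 := amgm' c0 c1 (ENNReal.ofReal ‖V X‖)
        rw [if_pos ⟨hP, hM⟩, if_pos hP, mul_one]
        calc w X * ENNReal.ofReal ‖κ * conj (W X) - V X‖
            ≤ w X * ((c * ENNReal.ofReal ‖V X‖ ^ 2 + c⁻¹) + K0) := by
              gcongr
              exact h5.trans (by gcongr)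
          _ = (c⁻¹ + K0) * w X + c * (w X * ENNReal.ofReal ‖V X‖ ^ 2) := by ring
          _ ≤ _ := by
              gcongr
              exact le_add_self
      · have h5 := h3 hM
        have h6 : ∑ i, q i X ≤ n * c + c⁻¹ * ∑ i, q i X ^ 2 := by
          calc ∑ i, q i X ≤ ∑ i : Fin n, (c + c⁻¹ * q i X ^ 2) :=
                Finset.sum_le_sum fun i _ => amgm c0 c1 _
            _ = n * c + c⁻¹ * ∑ i, q i X ^ 2 := by
                rw [Finset.sum_add_distrib, Finset.sum_const, Finset.card_univ, Fintype.card_fin,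
                  nsmul_eq_mul, Finset.mul_sum]
        have h7 : ∑ i, w X * (if P X then q i X ^ 2 else 0) = w X * ∑ i, q i X ^ 2 := by
          rw [Finset.mul_sum]
          exact Finset.sum_congr rfl fun i _ => by rw [if_pos hP]
        rw [h7]
        calc w X * ENNReal.ofReal ‖κ * conj (W X) - V X‖
            ≤ w X * ((n * c + c⁻¹ * ∑ i, q i X ^ 2) + rr) := by
              gcongr
              exact h5.trans (by gcongr)
          _ = (n * c + rr) * w X + c⁻¹ * (w X * ∑ i, q i X ^ 2) := by ring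
          _ ≤ _ := by
              rw [add_assoc ((n * c + rr) * w X + c⁻¹ * (w X * ∑ i, q i X ^ 2))]
              exact le_self_add
    refine key.trans ?_
    rw [mq_add, mq_add, mq_add, mq_mul, mq_mul, mq_mul, mq_mul, mq_sum, h1.mq_eq]
    gcongr with i
    exact r1 i
  · have hm := mq_meas hε hBm hB hg
    have a0 : AEMeasurable (fun ω => ∑ i, Rq i ω) sampleLaw :=
      Finset.aemeasurable_fun_sum _ fun i _ => m1 i
    rw [lint4 hm a0 m2 m3, lintegral_finsetSum' _ fun i _ => m1 i, lint_eq_mq hε hBm hB hg]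
    set G := ∫⁻ ω, g (PP0x831.cfg ε ω ∩ ovM Bool B) ∂sampleLaw with hG
    calc _ ≤ (n * c + rr) * G + c⁻¹ * ∑ i : Fin n, η * G + (c⁻¹ + K0) * (η * G) + c * (C * G) := by
          gcongr with i
          exact i1 i
      _ = _ := by
          rw [Finset.sum_const, Finset.card_univ, Fintype.card_fin, nsmul_eq_mul]
          ring

/-- **three patterns give `Ring2`**, conditional weight -/
theorem ring2_patw {om κ z0 : ℂ} {b r δ : ℝ} {t : Set (ℂ × Bool) → ℂ}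
    {Z : Set (ℂ × Bool) → Fin 3 → ℂ} {J : Set (ℂ × Bool) → Fin 3 → Prop} (hr : r ≤ b / 200)
    (hε : 0 < ε) (hBm : MeasurableSet B) (hB : Bornology.IsBounded B) (hg : Poisx304.FM g)
    (hg1 : ∀ X, g X ≤ 1)
    (H : ∀ᵐ ω ∂sampleLaw, ∀ β ∈ (Ap ε B ω).powerset, g (paint (Ap ε B ω) β) ≠ 0 →
      Hl z0 b r (Z (paint (Ap ε B ω) β)) ∧
        ∃ i j, i ≠ j ∧ J (paint (Ap ε B ω) β) i ∧ J (paint (Ap ε B ω) β) j)
    (hpos : 0 < ∫⁻ ω, g (PP0x831.cfg ε ω ∩ ovM Bool B) ∂sampleLaw)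
    {rr K0 η C c : ℝ≥0∞} {n : ℕ} (c0 : c ≠ 0) (c1 : c ≠ ∞)
    (HP : ∀ k : Fin 3, PatW κ ε B g w (fun X => J X k) (fun X => om ^ (k : ℕ) * t X)
      (fun X => Df (Z X) k) rr K0 η C n)
    (hδ : 3 * (n * c + rr + (n * c⁻¹ + (c⁻¹ + K0)) * η + c * C) ≤ ENNReal.ofReal δ) :
    Ring2 om κ z0 b ε δ := by
  choose R hR1 hR2 hR3 using fun k => (HP k).bound hε hBm hB hg c0 c1
  refine ⟨r, B, g, t, Z, J, fun ω => ∑ k, R k ω, hr, hBm, hB, hg, hg1, H, ?_, hpos, ?_⟩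
  · have h1 : ∀ᵐ ω ∂sampleLaw, ∀ k, mq ε B (fun X => g X * (if J X k then
        ENNReal.ofReal ‖κ * conj (Df (Z X) k) - om ^ (k : ℕ) * t X‖ else 0)) ω ≤ R k ω :=
      ae_all_iff.2 hR2
    filter_upwards [h1] with ω h1
    have e : (fun X => g X * ErJ om κ (t X) (Z X) (J X)) = fun X => ∑ k : Fin 3, g X *
        (if J X k then ENNReal.ofReal ‖κ * conj (Df (Z X) k) - om ^ (k : ℕ) * t X‖ else 0) := by
      funext X
      unfold ErJ Er
      rw [Finset.mul_sum]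
    rw [e, mq_sum]
    exact Finset.sum_le_sum fun k _ => h1 k
  · rw [lintegral_finsetSum' _ fun k _ => hR1 k]
    set G := ∫⁻ ω, g (PP0x831.cfg ε ω ∩ ovM Bool B) ∂sampleLaw with hG
    calc ∑ k, ∫⁻ ω, R k ω ∂sampleLaw
        ≤ ∑ _k : Fin 3, (n * c + rr + (n * c⁻¹ + (c⁻¹ + K0)) * η + c * C) * G :=
          Finset.sum_le_sum fun k _ => hR3 k
      _ = (3 * (n * c + rr + (n * c⁻¹ + (c⁻¹ + K0)) * η + c * C)) * G := by
          rw [Finset.sum_const, Finset.card_univ, Fintype.card_fin, nsmul_eq_mul]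
          push_cast
          ring
      _ ≤ ENNReal.ofReal δ * G := by gcongr

end Crest.Agent.R143.KapFx306
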