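import Crest.Agent.R143.KapE_440
import Crest.Agent.R143.CondW_440
import Crest.Agent.R143.StQ_828
import Crest.Agent.R143.Alg_915

/-!
# Row 143 (S0194), block H, H5 = KAPPA, route 2, (A3) half (helper440): quantifiers

* `choose_c` : the constants
* `PatG`, `PatG.bound` : `PatE` for any weight `w` with the mass `G` (`CondWx440.Wt`; `w = cw Jf g`)
* `RingP κ z0 b ε n K0 C η` : one ring with three `PatG`; `RingP.small`
* `kapH_of_pat` : `∀ η, ∀ᶠ N, ∀ᶠ ε, RingP` gives `KapAx690.KapH`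
* `rel_of_abs` : errors `→ 0` and `c0 ≤ ∫ g` give relative errors; `meanQ_of` : `MeanQ` from means over
  the subsets of the free sites
-/

set_option autoImplicit false

noncomputable section

open scoped Classical

namespace Crest.Agent.R143.KapFx440

open MeasureTheory Filter Topology Complex ComplexConjugate
open Crest.ProbabilityR.Voronoi
open Crest.Agent.R143.B0x346
open Crest.Agent.R143.Dblx609 Crest.Agent.R143.Dbl2x609 Crest.Agent.R143.HGluex136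
  Crest.Agent.R143.Trix106 Crest.Agent.R143.KapAx690 Crest.Agent.R143.KapEx440
  Crest.Agent.R143.CondWx440
open Crest.Agent.R143.Harx315 Crest.Agent.R143.Histx389
open Crest.Agent.R143.Algx915 (om_sum0 om_im)
open scoped ENNReal

/-! ### constants -/

theorem exists_small {A δ : ℝ≥0∞} (hA : A ≠ ∞) (h0 : δ ≠ 0) (h1 : δ ≠ ∞) :
    ∃ c : ℝ≥0∞, c ≠ 0 ∧ c ≠ ∞ ∧ A * c ≤ δ := by
  refine ⟨δ / (A + 1), ?_, ?_, ?_⟩
  · exact (ENNReal.div_pos h0 (ENNReal.add_ne_top.2 ⟨hA, ENNReal.one_ne_top⟩)).ne'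
  · exact (ENNReal.div_lt_top h1 (by simp)).ne
  · calc A * (δ / (A + 1)) ≤ (A + 1) * (δ / (A + 1)) := by gcongr; exact le_self_add
      _ ≤ δ := ENNReal.mul_div_le

theorem choose_c {K0 C δ : ℝ≥0∞} (n : ℕ) (hK : K0 ≠ ∞) (hC : C ≠ ∞) (h0 : δ ≠ 0) (h1 : δ ≠ ∞) :
    ∃ c η : ℝ≥0∞, c ≠ 0 ∧ c ≠ ∞ ∧ η ≠ 0 ∧ η ≠ ∞ ∧
      3 * (n * c + η + (n * c⁻¹ + (c⁻¹ + K0)) * η + c * C) ≤ δ := by
  have h2 : δ / 2 ≠ 0 := (ENNReal.div_pos h0 (by norm_num)).ne'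
  have h3 : δ / 2 ≠ ∞ := (ENNReal.div_lt_top h1 (by norm_num)).ne
  obtain ⟨c, c0, c1, hc⟩ := exists_small (A := 3 * (n + C))
    (ENNReal.mul_ne_top (by norm_num) (ENNReal.add_ne_top.2 ⟨ENNReal.natCast_ne_top n, hC⟩)) h2 h3
  have hi : c⁻¹ ≠ ∞ := ENNReal.inv_ne_top.2 c0
  obtain ⟨η, e0, e1, hη⟩ := exists_small (A := 3 * (1 + (n * c⁻¹ + (c⁻¹ + K0))))
    (ENNReal.mul_ne_top (by norm_num) (ENNReal.add_ne_top.2 ⟨ENNReal.one_ne_top,
      ENNReal.add_ne_top.2 ⟨ENNReal.mul_ne_top (ENNReal.natCast_ne_top n) hi,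
        ENNReal.add_ne_top.2 ⟨hi, hK⟩⟩⟩)) h2 h3
  refine ⟨c, η, c0, c1, e0, e1, ?_⟩
  calc 3 * (n * c + η + (n * c⁻¹ + (c⁻¹ + K0)) * η + c * C)
      = 3 * (n + C) * c + 3 * (1 + (n * c⁻¹ + (c⁻¹ + K0))) * η := by ring
    _ ≤ δ / 2 + δ / 2 := add_le_add hc hη
    _ = δ := ENNReal.add_halves δ

/-! ### any weight `w` (no measurability) with the mass `G` -/

/-- the inputs for the pattern `k`; `w` = weight decided by the exploration (`CondWx440.cw`), `G` its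
mass, `η` small, `C` the frame constant -/
structure PatG (κ : ℂ) (ε : ℝ) (B : Set ℂ) (w : Set (ℂ × Bool) → ℝ≥0∞) (G : ℝ≥0∞)
    (P : Set (ℂ × Bool) → Prop) (τ D : Set (ℂ × Bool) → ℂ) (rr K0 η C : ℝ≥0∞) (n : ℕ) : Prop where
  ex : ∃ (V W : Set (ℂ × Bool) → ℂ) (q : Fin n → Set (ℂ × Bool) → ℝ≥0∞)
    (Mk : Set (ℂ × Bool) → Prop) (Rq : Fin n → Sample → ℝ≥0∞) (Rm Rv : Sample → ℝ≥0∞),
    (∀ᵐ ω ∂sampleLaw, MeanQ (Ap ε B ω) w P V W τ D) ∧
    (∀ᵐ ω ∂sampleLaw, ∀ β ∈ (Ap ε B ω).powerset, w (paint (Ap ε B ω) β) ≠ 0 →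
      P (paint (Ap ε B ω) β) →
      (¬ Mk (paint (Ap ε B ω) β) → ENNReal.ofReal ‖κ * conj (W (paint (Ap ε B ω) β)) -
        V (paint (Ap ε B ω) β)‖ ≤ ∑ i, q i (paint (Ap ε B ω) β) + rr) ∧
      (Mk (paint (Ap ε B ω) β) → ENNReal.ofReal ‖κ * conj (W (paint (Ap ε B ω) β)) -
        V (paint (Ap ε B ω) β)‖ ≤ ENNReal.ofReal ‖V (paint (Ap ε B ω) β)‖ + K0)) ∧
    (∀ i, AEMeasurable (Rq i) sampleLaw) ∧ AEMeasurable Rm sampleLaw ∧
    AEMeasurable Rv sampleLaw ∧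
    (∀ i, ∀ᵐ ω ∂sampleLaw, mq ε B (fun X => w X * (if P X then q i X ^ 2 else 0)) ω ≤ Rq i ω) ∧
    (∀ᵐ ω ∂sampleLaw, mq ε B (fun X => w X * (if P X ∧ Mk X then 1 else 0)) ω ≤ Rm ω) ∧
    (∀ᵐ ω ∂sampleLaw, mq ε B (fun X => w X * (if P X then ENNReal.ofReal ‖V X‖ ^ 2 else 0)) ω ≤
      Rv ω) ∧
    (∀ i, ∫⁻ ω, Rq i ω ∂sampleLaw ≤ η * G) ∧ (∫⁻ ω, Rm ω ∂sampleLaw ≤ η * G) ∧
    (∫⁻ ω, Rv ω ∂sampleLaw ≤ C * G)

variable {ε : ℝ} {B : Set ℂ} {w : Set (ℂ × Bool) → ℝ≥0∞} {G : ℝ≥0∞}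
  {P : Set (ℂ × Bool) → Prop} {τ D : Set (ℂ × Bool) → ℂ}

/-- **(A2)** for any weight -/
theorem PatG.bound {κ : ℂ} {rr K0 η C : ℝ≥0∞} {n : ℕ} (H : PatG κ ε B w G P τ D rr K0 η C n)
    (hw : Wt ε B w G) {c : ℝ≥0∞} (c0 : c ≠ 0) (c1 : c ≠ ∞) :
    ∃ R : Sample → ℝ≥0∞, AEMeasurable R sampleLaw ∧
      (∀ᵐ ω ∂sampleLaw, mq ε B (fun X => w X *
        (if P X then ENNReal.ofReal ‖κ * conj (D X) - τ X‖ else 0)) ω ≤ R ω) ∧
      ∫⁻ ω, R ω ∂sampleLaw ≤ (n * c + rr + (n * c⁻¹ + (c⁻¹ + K0)) * η + c * C) * G := by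
  obtain ⟨V, W, q, Mk, Rq, Rm, Rv, h1, h2, m1, m2, m3, r1, r2, r3, i1, i2, i3⟩ := H.ex
  have hm := hw.me
  refine ⟨fun ω => (n * c + rr) * mq ε B w ω + c⁻¹ * ∑ i, Rq i ω + (c⁻¹ + K0) * Rm ω + c * Rv ω,
    ?_, ?_, ?_⟩
  · refine (((hm.const_mul _).add ?_).add (m2.const_mul _)).add (m3.const_mul _)
    exact (Finset.aemeasurable_fun_sum _ fun i _ => m1 i).const_mul _
  · have r1' : ∀ᵐ ω ∂sampleLaw, ∀ i, mq ε B (fun X => w X * (if P X then q i X ^ 2 else 0)) ω ≤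
        Rq i ω := ae_all_iff.2 r1
    filter_upwards [h1, h2, r1', r2, r3] with ω h1 h2 r1 r2 r3
    refine (mq_mean κ h1).trans ?_
    have key : mq ε B (fun X => w X *
        (if P X then ENNReal.ofReal ‖κ * conj (W X) - V X‖ else 0)) ω ≤
        mq ε B (fun X => (n * c + rr) * w X + c⁻¹ * ∑ i, w X * (if P X then q i X ^ 2 else 0) +
          (c⁻¹ + K0) * (w X * (if P X ∧ Mk X then 1 else 0)) +
          c * (w X * (if P X then ENNReal.ofReal ‖V X‖ ^ 2 else 0))) ω := by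
      refine mq_mono fun β hβ => ?_
      set X := paint (Ap ε B ω) β with hX
      by_cases g0 : w X = 0
      · rw [g0, zero_mul]; exact zero_le
      by_cases hP : P X
      swap
      · rw [if_neg hP, mul_zero]; exact zero_le
      obtain ⟨h3, h4⟩ := h2 β hβ g0 hP
      rw [if_pos hP]
      by_cases hM : Mk X
      · have h5 := h4 hM
        have h6 := amgm' c0 c1 (ENNReal.ofReal ‖V X‖)
        rw [if_pos ⟨hP, hM⟩, if_pos hP, mul_one]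
        calc w X * ENNReal.ofReal ‖κ * conj (W X) - V X‖
            ≤ w X * ((c * ENNReal.ofReal ‖V X‖ ^ 2 + c⁻¹) + K0) := by
              gcongr
              exact h5.trans (by gcongr)
          _ = (c⁻¹ + K0) * w X + c * (w X * ENNReal.ofReal ‖V X‖ ^ 2) := by ring
          _ ≤ _ := by
              gcongr
              exact le_add_self
      · have h5 := h3 hM
        have h6 : ∑ i, q i X ≤ n * c + c⁻¹ * ∑ i, q i X ^ 2 := by
          calc ∑ i, q i X ≤ ∑ i : Fin n, (c + c⁻¹ * q i X ^ 2) :=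
                Finset.sum_le_sum fun i _ => amgm c0 c1 _
            _ = n * c + c⁻¹ * ∑ i, q i X ^ 2 := by
                rw [Finset.sum_add_distrib, Finset.sum_const, Finset.card_univ, Fintype.card_fin,
                  nsmul_eq_mul, Finset.mul_sum]
        have h7 : ∑ i, w X * (if P X then q i X ^ 2 else 0) = w X * ∑ i, q i X ^ 2 := by
          rw [Finset.mul_sum]
          exact Finset.sum_congr rfl fun i _ => by rw [if_pos hP]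
        rw [h7]
        calc w X * ENNReal.ofReal ‖κ * conj (W X) - V X‖
            ≤ w X * ((n * c + c⁻¹ * ∑ i, q i X ^ 2) + rr) := by
              gcongr
              exact h5.trans (by gcongr)
          _ = (n * c + rr) * w X + c⁻¹ * (w X * ∑ i, q i X ^ 2) := by ring
          _ ≤ _ := by
              rw [add_assoc ((n * c + rr) * w X + c⁻¹ * (w X * ∑ i, q i X ^ 2))]
              exact le_self_add
    refine key.trans ?_
    rw [mq_add, mq_add, mq_add, mq_mul, mq_mul, mq_mul, mq_mul, mq_sum]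
    gcongr with i
    exact r1 i
  · have a0 : AEMeasurable (fun ω => ∑ i, Rq i ω) sampleLaw :=
      Finset.aemeasurable_fun_sum _ fun i _ => m1 i
    have a1 : AEMeasurable (fun ω => (n * c + rr) * mq ε B w ω) sampleLaw := hm.const_mul _
    have a2 : AEMeasurable (fun ω => c⁻¹ * ∑ i, Rq i ω) sampleLaw := a0.const_mul _
    have a3 : AEMeasurable (fun ω => (c⁻¹ + K0) * Rm ω) sampleLaw := m2.const_mul _
    have e1 : ∫⁻ ω, ((n * c + rr) * mq ε B w ω + c⁻¹ * ∑ i, Rq i ω + (c⁻¹ + K0) * Rm ω +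
        c * Rv ω) ∂sampleLaw = (n * c + rr) * ∫⁻ ω, mq ε B w ω ∂sampleLaw +
        c⁻¹ * ∑ i, ∫⁻ ω, Rq i ω ∂sampleLaw + (c⁻¹ + K0) * ∫⁻ ω, Rm ω ∂sampleLaw +
        c * ∫⁻ ω, Rv ω ∂sampleLaw := by
      have s1 : ∫⁻ ω, ((n * c + rr) * mq ε B w ω + c⁻¹ * ∑ i, Rq i ω + (c⁻¹ + K0) * Rm ω +
          c * Rv ω) ∂sampleLaw = ∫⁻ ω, ((n * c + rr) * mq ε B w ω + c⁻¹ * ∑ i, Rq i ω +
          (c⁻¹ + K0) * Rm ω) ∂sampleLaw + ∫⁻ ω, c * Rv ω ∂sampleLaw :=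
        lintegral_add_left' ((a1.add a2).add a3) _
      have s2 : ∫⁻ ω, ((n * c + rr) * mq ε B w ω + c⁻¹ * ∑ i, Rq i ω + (c⁻¹ + K0) * Rm ω)
          ∂sampleLaw = ∫⁻ ω, ((n * c + rr) * mq ε B w ω + c⁻¹ * ∑ i, Rq i ω) ∂sampleLaw +
          ∫⁻ ω, (c⁻¹ + K0) * Rm ω ∂sampleLaw := lintegral_add_left' (a1.add a2) _
      have s3 : ∫⁻ ω, ((n * c + rr) * mq ε B w ω + c⁻¹ * ∑ i, Rq i ω) ∂sampleLaw =
          ∫⁻ ω, (n * c + rr) * mq ε B w ω ∂sampleLaw + ∫⁻ ω, c⁻¹ * ∑ i, Rq i ω ∂sampleLaw :=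
        lintegral_add_left' a1 _
      rw [s1, s2, s3, lintegral_const_mul'' _ hm, lintegral_const_mul'' _ a0,
        lintegral_const_mul'' _ m2, lintegral_const_mul'' _ m3,
        lintegral_finsetSum' _ fun i _ => m1 i]
    refine (le_of_eq e1).trans ?_
    rw [hw.int]
    calc _ ≤ (n * c + rr) * G + c⁻¹ * ∑ i : Fin n, η * G + (c⁻¹ + K0) * (η * G) + c * (C * G) := by
          gcongr with i
          exact i1 i
      _ = _ := by
          rw [Finset.sum_const, Finset.card_univ, Fintype.card_fin, nsmul_eq_mul]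
          ring

/-- one ring, three patterns: `w`, `t`, `Z`, `J` functionals of the painted configuration -/
def RingP (κ z0 : ℂ) (b ε : ℝ) (n : ℕ) (K0 C η : ℝ≥0∞) : Prop :=
  ∃ (r : ℝ) (B : Set ℂ) (w : Set (ℂ × Bool) → ℝ≥0∞) (G : ℝ≥0∞) (t : Set (ℂ × Bool) → ℂ)
    (Z : Set (ℂ × Bool) → Fin 3 → ℂ) (J : Set (ℂ × Bool) → Fin 3 → Prop),
    r ≤ b / 200 ∧ Wt ε B w G ∧ G ≠ 0 ∧ G ≠ ∞ ∧
    (∀ᵐ ω ∂sampleLaw, ∀ β ∈ (Ap ε B ω).powerset, w (paint (Ap ε B ω) β) ≠ 0 →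
      Hl z0 b r (Z (paint (Ap ε B ω) β)) ∧
        ∃ i j, i ≠ j ∧ J (paint (Ap ε B ω) β) i ∧ J (paint (Ap ε B ω) β) j) ∧
    ∀ k : Fin 3, PatG κ ε B w G (fun X => J X k) (fun X => om ^ (k : ℕ) * t X)
      (fun X => Df (Z X) k) η K0 η C n

theorem RingP.small {κ z0 : ℂ} {b ε δ : ℝ} {n : ℕ} {K0 C η c : ℝ≥0∞}
    (H : RingP κ z0 b ε n K0 C η) (hb : 0 < b) (hδ0 : 0 ≤ δ) (c0 : c ≠ 0) (c1 : c ≠ ∞)
    (hδ : 3 * (n * c + η + (n * c⁻¹ + (c⁻¹ + K0)) * η + c * C) ≤ ENNReal.ofReal δ) :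
    ‖κ‖ * b ≤ 60 * δ := by
  obtain ⟨r, B, w, G, t, Z, J, hr, hw, G0, G1, h1, hP⟩ := H
  choose R hR1 hR2 hR3 using fun k => (hP k).bound hw c0 c1
  have h2 : ∀ᵐ ω ∂sampleLaw, ∀ k, mq ε B (fun X => w X * (if J X k then
      ENNReal.ofReal ‖κ * conj (Df (Z X) k) - om ^ (k : ℕ) * t X‖ else 0)) ω ≤ R k ω :=
    ae_all_iff.2 hR2
  have h3 : ENNReal.ofReal (‖κ‖ * b) * G ≤ 60 * ∫⁻ ω, ∑ k, R k ω ∂sampleLaw := by
    rw [← hw.int, ← lintegral_const_mul'' _ hw.me, ← lintegral_const_mul' _ _ (by norm_num)]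
    refine lintegral_mono_ae ?_
    filter_upwards [h1, h2] with ω h1 h2
    calc ENNReal.ofReal (‖κ‖ * b) * mq ε B w ω
        = mq ε B (fun X => ENNReal.ofReal (‖κ‖ * b) * w X) ω := (mq_mul ε B _ w ω).symm
      _ ≤ mq ε B (fun X => 60 * ∑ k : Fin 3, w X * (if J X k then
            ENNReal.ofReal ‖κ * conj (Df (Z X) k) - om ^ (k : ℕ) * t X‖ else 0)) ω := by
          refine mq_mono fun β hβ => ?_
          by_cases h0 : w (paint (Ap ε B ω) β) = 0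
          · rw [h0, mul_zero]; exact zero_le
          · obtain ⟨h3, h4⟩ := h1 β hβ h0
            have h5 := two (κ := κ) (t := t (paint (Ap ε B ω) β)) (om := om)
              (by linear_combination om_sum0) (by rw [om_im]; positivity) hb hr h3 h4
            unfold ErJ Er at h5
            rw [← Finset.mul_sum]
            calc ENNReal.ofReal (‖κ‖ * b) * w (paint (Ap ε B ω) β)
                ≤ (60 * ∑ k : Fin 3, if J (paint (Ap ε B ω) β) k then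
                  ENNReal.ofReal ‖κ * conj (Df (Z (paint (Ap ε B ω) β)) k) -
                    om ^ (k : ℕ) * t (paint (Ap ε B ω) β)‖ else 0) *
                      w (paint (Ap ε B ω) β) := by gcongr
              _ = _ := by ring
      _ = 60 * ∑ k : Fin 3, mq ε B (fun X => w X * (if J X k then
            ENNReal.ofReal ‖κ * conj (Df (Z X) k) - om ^ (k : ℕ) * t X‖ else 0)) ω := by
          rw [mq_mul, mq_sum]
      _ ≤ 60 * ∑ k, R k ω := by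
          gcongr with k
          exact h2 k
  have h4 : ∫⁻ ω, ∑ k, R k ω ∂sampleLaw ≤ ENNReal.ofReal δ * G := by
    rw [lintegral_finsetSum' _ fun k _ => hR1 k]
    calc ∑ k, ∫⁻ ω, R k ω ∂sampleLaw
        ≤ ∑ _k : Fin 3, (n * c + η + (n * c⁻¹ + (c⁻¹ + K0)) * η + c * C) * G :=
          Finset.sum_le_sum fun k _ => hR3 k
      _ = (3 * (n * c + η + (n * c⁻¹ + (c⁻¹ + K0)) * η + c * C)) * G := by
          rw [Finset.sum_const, Finset.card_univ, Fintype.card_fin, nsmul_eq_mul]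
          push_cast
          ring
      _ ≤ ENNReal.ofReal δ * G := by gcongr
  have h6 : ENNReal.ofReal (‖κ‖ * b) * G ≤ ENNReal.ofReal (60 * δ) * G := by
    refine h3.trans ?_
    calc 60 * ∫⁻ ω, ∑ k, R k ω ∂sampleLaw ≤ 60 * (ENNReal.ofReal δ * G) := by gcongr
      _ = ENNReal.ofReal (60 * δ) * G := by
          rw [ENNReal.ofReal_mul (by norm_num), ← mul_assoc]
          norm_num
  have h7 := (ENNReal.mul_le_mul_iff_left G0 G1).1 h6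
  exact (ENNReal.ofReal_le_ofReal_iff (by positivity)).1 h7

/-- **(A2) + (A3)** -/
theorem kapH_of_pat {z0 : ℂ} {b : ℝ} (hb : 0 < b) {κ : ℕ → ℝ → ℂ} (n : ℕ) {K0 C : ℝ≥0∞}
    (hK : K0 ≠ ∞) (hC : C ≠ ∞)
    (H : ∀ η : ℝ≥0∞, η ≠ 0 → η ≠ ∞ → ∀ᶠ N : ℕ in atTop, ∀ᶠ ε : ℝ in 𝓝[>] 0,
      RingP (κ N ε) z0 b ε n K0 C η) : KapH κ := by
  intro δ hδ
  obtain ⟨c, η, c0, c1, e0, e1, h⟩ := choose_c (K0 := K0) (C := C)
    (δ := ENNReal.ofReal (δ * b / 60)) n hK hC (by simpa using by positivity) ENNReal.ofReal_ne_top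
  filter_upwards [H η e0 e1] with N h1
  filter_upwards [h1] with ε h2
  have h3 := h2.small hb (by positivity) c0 c1 h
  have h4 : 60 * (δ * b / 60) = δ * b := by ring
  rw [h4] at h3
  exact le_of_mul_le_mul_right h3 hb

/-! ### relative errors -/

theorem rel_of_abs {f : ℝ → ℝ≥0∞} {G : ℝ → ℝ≥0∞} {c0 η : ℝ≥0∞} (hc : c0 ≠ 0) (hη : η ≠ 0)
    (hf : Tendsto f (𝓝[>] 0) (𝓝 0)) (hG : ∀ᶠ ε : ℝ in 𝓝[>] 0, c0 ≤ G ε) :
    ∀ᶠ ε : ℝ in 𝓝[>] 0, f ε ≤ η * G ε := by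
  have h1 : ∀ᶠ ε : ℝ in 𝓝[>] 0, f ε ≤ η * c0 := by
    have h2 : (0 : ℝ≥0∞) < η * c0 := ENNReal.mul_pos hη hc
    exact (hf.eventually (gt_mem_nhds h2)).mono fun _ h => le_of_lt h
  filter_upwards [h1, hG] with ε h2 h3
  exact h2.trans (by gcongr)

theorem rel_add {a b e G : ℝ≥0∞} {f : ℝ≥0∞} (h1 : a ≤ e * G) (h2 : b ≤ f * G) : a + b ≤ (e + f) * G := by
  rw [add_mul]; exact add_le_add h1 h2

/-! ### means -/

theorem avc_inter {A R Fr : Finset ℂ} {b : Finset ℂ} {F G : Finset ℂ → ℂ} (h1 : Fr ⊆ A \ R)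
    (h2 : ∀ b', b' ⊆ A \ R → F (b' ∪ (b ∩ R)) = G (b' ∩ Fr)) :
    avc A R F b = (∑ T ∈ Fr.powerset, G T) / 2 ^ Fr.card := by
  have h3 : ∑ b' ∈ (A \ R).powerset, F (b' ∪ (b ∩ R)) = ∑ b' ∈ (A \ R).powerset, G (b' ∩ Fr) :=
    Finset.sum_congr rfl fun b' hb' => h2 b' (Finset.mem_powerset.1 hb')
  unfold avc
  rw [h3, Freshx829.sum_inter (A \ R) Fr h1 G, nsmul_eq_mul]
  have hc : (A \ R).card = ((A \ R).card - Fr.card) + Fr.card :=
    (Nat.sub_add_cancel (Finset.card_le_card h1)).symm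
  have h4 : (2 : ℂ) ^ (A \ R).card = 2 ^ ((A \ R).card - Fr.card) * 2 ^ Fr.card := by
    rw [← pow_add, ← hc]
  have h5 : (2 : ℂ) ^ ((A \ R).card - Fr.card) ≠ 0 := pow_ne_zero _ two_ne_zero
  have h6 : (2 : ℂ) ^ Fr.card ≠ 0 := pow_ne_zero _ two_ne_zero
  rw [h4]
  push_cast
  field_simp

/-- **`MeanQ` from means over the subsets of the free sites** (`Fr = ff S (st A)` of 828's
`mean_V`, `mean_D`; coins off `Fr` do not matter) -/
theorem meanQ_of {A : Finset ℂ} {g : Set (ℂ × Bool) → ℝ≥0∞} {P : Set (ℂ × Bool) → Prop}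
    {V W τ D : Set (ℂ × Bool) → ℂ} {Jf : Finset ℂ → Finset ℂ} (hJ : IsStop A Jf)
    (hd : ∀ β, β ⊆ A → ∀ β', β' ⊆ A → β' ∩ Jf β = β ∩ Jf β →
      g (paint A β') = g (paint A β) ∧ (P (paint A β') ↔ P (paint A β)))
    (H : ∀ β, β ⊆ A → g (paint A β) ≠ 0 → P (paint A β) → ∃ (Fr : Finset ℂ)
      (FV FW : Finset ℂ → ℂ), Fr ⊆ A \ Jf β ∧
        (∀ b', b' ⊆ A \ Jf β → V (paint A (b' ∪ (β ∩ Jf β))) = FV (b' ∩ Fr)) ∧
        (∀ b', b' ⊆ A \ Jf β → W (paint A (b' ∪ (β ∩ Jf β))) = FW (b' ∩ Fr)) ∧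
        (∑ T ∈ Fr.powerset, FV T) / 2 ^ Fr.card = τ (paint A β) ∧
        (∑ T ∈ Fr.powerset, FW T) / 2 ^ Fr.card = D (paint A β)) : MeanQ A g P V W τ D := by
  refine ⟨Jf, hJ, hd, fun β hβ h0 hP => ?_⟩
  obtain ⟨Fr, FV, FW, h1, h2, h3, h4, h5⟩ := H β hβ h0 hP
  exact ⟨(avc_inter h1 h2).trans h4, (avc_inter h1 h3).trans h5⟩

end Crest.Agent.R143.KapFx440
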