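import Crest.Agent.R143.KapE_99
import Crest.Agent.R143.Stab_930
import Crest.Agent.R143.K33_877
import Crest.Agent.R143.LocU_700

/-!
# Row 143 (S0194), block H, H5 route 1: the proper triple round the brick (helper99)

* `link` : from a point off the brick, next to it, a short box off the brick to some path `Np τ j`;
* **`giants`** : classes `A` which cover the complement of `Vin S Rr d`, `Tr S A`, `Hex S A`, no rainbow
  triangle, and every site of `A i` next to `Vin` is within `9000 τ` of the arc `Ar i`.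
-/

set_option autoImplicit false

noncomputable section

open scoped Classical

namespace Crest.Agent.R143.KapFx99

open Set
open Crest.ProbabilityR.Voronoi
open Crest.Agent.R143.B0x346 Crest.Agent.R143.DelGx806 Crest.Agent.R143.DelRx806
open Crest.Agent.R143.B0Dx346 Crest.Agent.R143.JColx54 Crest.Agent.R143.RE0x723
  Crest.Agent.R143.G6Wx723
open Crest.Agent.R143.UKx969 (cl cl_con cl_mono mem_cl_self cl_seg Deep joined extend ff_of_cover)
open Crest.Agent.R143.K33x877 Crest.Agent.R143.NetUx346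
open Crest.Agent.R143.NetVx346 (Vin)
open Crest.Agent.R143.LocUx700 (mem_Vin)
open Crest.Agent.R143.Locx922 (Hol)
open Crest.Agent.R143.Hexx877 (Ccw hex_tr)
open Crest.Agent.R143.Stabx930 (NR)
open Crest.Agent.R143.RB2x54 (Vt)
open Crest.Agent.R143.KapBx99 Crest.Agent.R143.KapCx99 Crest.Agent.R143.KapEx99

variable {S0 S : Finset ℂ} {p : ZMod 3 → ℂ} {d τ : ℝ}

/-- **short link to a path round the brick** -/
theorem link (H : Ev S0 S p d τ) {x w : ℂ} (hx : x ∈ Rr) (hw : w ∉ Rr) (hxw : ‖w - x‖ ≤ 2 * d) :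
    ∃ (C' : Set ℂ) (j : ZMod 3), IsPreconnected C' ∧ w ∈ C' ∧
      (∀ c ∈ C', c ∉ Rr ∧ ‖c - w‖ ≤ 6 * τ) ∧ (C' ∩ Np τ j).Nonempty := by
  have ht := H.t0
  have ht1 := H.t1
  have hd0 := H.d0
  have hdt := H.dt
  have hr := re_le hxw
  have hi := im_le hxw
  simp only [Complex.sub_re, Complex.sub_im] at hr hi
  obtain ⟨x1, x2, x3, x4⟩ := hx
  have key : ∀ (a b c e : ℝ) (q : ℂ) (j : ZMod 3), w ∈ bx a b c e → b - a ≤ 3 * τ →
      e - c ≤ 3 * τ → (∀ z ∈ bx a b c e, z ∉ Rr) → q ∈ bx a b c e → q ∈ Np τ j →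
      ∃ (C' : Set ℂ) (j : ZMod 3), IsPreconnected C' ∧ w ∈ C' ∧
      (∀ c ∈ C', c ∉ Rr ∧ ‖c - w‖ ≤ 6 * τ) ∧ (C' ∩ Np τ j).Nonempty := by
    intro a b c e q j h1 h2 h3 h4 h5 h6
    refine ⟨bx a b c e, j, bx_pre _ _ _ _, h1, fun z hz => ⟨h4 z hz, ?_⟩, q, h5, h6⟩
    obtain ⟨a1, a2, a3, a4⟩ := h1
    obtain ⟨b1, b2, b3, b4⟩ := hz
    refine (nrm_le (a := 3 * τ) (b := 3 * τ) ?_ ?_).trans (by linarith)
    · rw [Complex.sub_re, abs_le]; constructor <;> linarith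
    · rw [Complex.sub_im, abs_le]; constructor <;> linarith
  by_cases c1 : w.re < 0
  · refine key (-τ) w.re w.im w.im ⟨-τ, w.im⟩ 2 ⟨by linarith, le_rfl, le_rfl, le_rfl⟩ (by linarith)
      (by linarith) (fun z hz h => by linarith [hz.2.1, h.1]) ⟨le_rfl, by show -τ ≤ w.re; linarith,
        le_rfl, le_rfl⟩ ?_
    rw [np2]
    left; right
    exact ⟨le_rfl, le_rfl, by show -τ ≤ w.im; linarith, by show w.im ≤ 1 + τ; linarith⟩
  by_cases c2 : 2 < w.re
  · by_cases c3 : w.im ≤ 1 / 2 - τ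
    · refine key w.re (2 + τ) w.im w.im ⟨2 + τ, w.im⟩ 0 ⟨le_rfl, by linarith, le_rfl, le_rfl⟩
        (by linarith) (by linarith) (fun z hz h => by linarith [hz.1, h.2.1])
        ⟨by show w.re ≤ 2 + τ; linarith, le_rfl, le_rfl, le_rfl⟩ ?_
      rw [np0]
      right
      exact ⟨le_rfl, le_rfl, by show -τ ≤ w.im; linarith, c3⟩
    by_cases c4 : 1 / 2 + τ ≤ w.im
    · refine key w.re (2 + τ) w.im w.im ⟨2 + τ, w.im⟩ 1 ⟨le_rfl, by linarith, le_rfl, le_rfl⟩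
        (by linarith) (by linarith) (fun z hz h => by linarith [hz.1, h.2.1])
        ⟨by show w.re ≤ 2 + τ; linarith, le_rfl, le_rfl, le_rfl⟩ ?_
      rw [np1]
      left
      exact ⟨le_rfl, le_rfl, c4, by show w.im ≤ 1 + τ; linarith⟩
    · push Not at c3 c4
      refine key w.re (2 + τ) w.im (1 / 2 + τ) ⟨2 + τ, 1 / 2 + τ⟩ 1
        ⟨le_rfl, by linarith, le_rfl, by linarith⟩
        (by linarith) (by linarith) (fun z hz h => by linarith [hz.1, h.2.1])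
        ⟨by show w.re ≤ 2 + τ; linarith, le_rfl, by show w.im ≤ 1 / 2 + τ; linarith, le_rfl⟩ ?_
      rw [np1]
      left
      exact ⟨le_rfl, le_rfl, le_rfl, by show 1 / 2 + τ ≤ 1 + τ; linarith⟩
  by_cases c3 : w.im < 0
  · by_cases c4 : w.re ≤ 1 / 2 - τ
    · refine key w.re w.re (-τ) w.im ⟨w.re, -τ⟩ 2 ⟨le_rfl, le_rfl, by linarith, le_rfl⟩
        (by linarith) (by linarith) (fun z hz h => by linarith [hz.2.2.2, h.2.2.1])
        ⟨le_rfl, le_rfl, le_rfl, by show -τ ≤ w.im; linarith⟩ ?_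
      rw [np2]
      right
      exact ⟨by show -τ ≤ w.re; linarith, c4, le_rfl, le_rfl⟩
    by_cases c5 : 1 / 2 + τ ≤ w.re
    · refine key w.re w.re (-τ) w.im ⟨w.re, -τ⟩ 0 ⟨le_rfl, le_rfl, by linarith, le_rfl⟩
        (by linarith) (by linarith) (fun z hz h => by linarith [hz.2.2.2, h.2.2.1])
        ⟨le_rfl, le_rfl, le_rfl, by show -τ ≤ w.im; linarith⟩ ?_
      rw [np0]
      left
      exact ⟨c5, by show w.re ≤ 2 + τ; linarith, le_rfl, le_rfl⟩
    · push Not at c4 c5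
      refine key w.re (1 / 2 + τ) (-τ) w.im ⟨1 / 2 + τ, -τ⟩ 0
        ⟨le_rfl, by linarith, by linarith, le_rfl⟩
        (by linarith) (by linarith) (fun z hz h => by linarith [hz.2.2.2, h.2.2.1])
        ⟨by show w.re ≤ 1 / 2 + τ; linarith, le_rfl, le_rfl, by show -τ ≤ w.im; linarith⟩ ?_
      rw [np0]
      left
      exact ⟨le_rfl, by show 1 / 2 + τ ≤ 2 + τ; linarith, le_rfl, le_rfl⟩
  have c4 : 1 < w.im := by
    by_contra h
    push Not at c1 c2 c3 h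
    exact hw ⟨c1, c2, c3, h⟩
  by_cases c5 : w.re ≤ 1 / 2 - τ
  · refine key w.re w.re w.im (1 + τ) ⟨w.re, 1 + τ⟩ 2 ⟨le_rfl, le_rfl, le_rfl, by linarith⟩
      (by linarith) (by linarith) (fun z hz h => by linarith [hz.2.2.1, h.2.2.2])
      ⟨le_rfl, le_rfl, by show w.im ≤ 1 + τ; linarith, le_rfl⟩ ?_
    rw [np2]
    left; left
    exact ⟨by show -τ ≤ w.re; linarith, c5, le_rfl, le_rfl⟩
  by_cases c6 : 1 / 2 + τ ≤ w.re
  · refine key w.re w.re w.im (1 + τ) ⟨w.re, 1 + τ⟩ 1 ⟨le_rfl, le_rfl, le_rfl, by linarith⟩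
      (by linarith) (by linarith) (fun z hz h => by linarith [hz.2.2.1, h.2.2.2])
      ⟨le_rfl, le_rfl, by show w.im ≤ 1 + τ; linarith, le_rfl⟩ ?_
    rw [np1]
    right
    exact ⟨c6, by show w.re ≤ 2 + τ; linarith, le_rfl, le_rfl⟩
  · push Not at c5 c6
    refine key w.re (1 / 2 + τ) w.im (1 + τ) ⟨1 / 2 + τ, 1 + τ⟩ 1
      ⟨le_rfl, by linarith, le_rfl, by linarith⟩
      (by linarith) (by linarith) (fun z hz h => by linarith [hz.2.2.1, h.2.2.2])
      ⟨by show w.re ≤ 1 / 2 + τ; linarith, le_rfl, by show w.im ≤ 1 + τ; linarith, le_rfl⟩ ?_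
    rw [np1]
    right
    exact ⟨le_rfl, by show 1 / 2 + τ ≤ 2 + τ; linarith, le_rfl, le_rfl⟩

theorem rr_compl : IsPreconnected (Rrᶜ) := by
  have e : Rrᶜ = (({z : ℂ | z.re < 0} ∪ {z : ℂ | z.im < 0}) ∪ {z : ℂ | 2 < z.re}) ∪
      {z : ℂ | 1 < z.im} := by
    ext z
    simp only [mem_compl_iff, mem_union, mem_ofPred_eq, Rr]
    constructor
    · intro h
      by_contra hcon
      push Not at hcon
      exact h ⟨hcon.1.1.1, hcon.1.2, hcon.1.1.2, hcon.2⟩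
    · rintro (((h | h) | h) | h) ⟨h1, h2, h3, h4⟩ <;> linarith
  rw [e]
  have a1 := (convex_halfSpace_re_lt 0).isPreconnected
  have a2 := (convex_halfSpace_im_lt 0).isPreconnected
  have a3 := (convex_halfSpace_re_gt 2).isPreconnected
  have a4 := (convex_halfSpace_im_gt 1).isPreconnected
  refine ((a1.union ⟨-1, -1⟩ ?_ ?_ a2).union ⟨3, -1⟩ ?_ ?_ a3).union ⟨3, 2⟩ ?_ ?_ a4
  · show (-1 : ℝ) < 0; norm_num
  · show (-1 : ℝ) < 0; norm_num
  · right; show (-1 : ℝ) < 0; norm_num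
  · show (2 : ℝ) < 3; norm_num
  · right; show (2 : ℝ) < 3; norm_num
  · show (1 : ℝ) < 2; norm_num

theorem ar_reg {q : ℂ} : (q ∈ Ar 0 → 1 / 2 ≤ q.re ∧ q.im ≤ 1 / 2) ∧
    (q ∈ Ar 1 → 1 / 2 ≤ q.re ∧ 1 / 2 ≤ q.im) ∧ (q ∈ Ar 2 → q.re ≤ 1 / 2) := by
  refine ⟨fun h => ?_, fun h => ?_, fun h => ?_⟩
  · rcases ar0.1 h with ⟨h1, h2, h3⟩ | ⟨h1, h2, h3⟩
    · exact ⟨h2, by linarith⟩
    · exact ⟨by linarith, h3⟩
  · rcases ar1.1 h with ⟨h1, h2, h3⟩ | ⟨h1, h2, h3⟩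
    · exact ⟨by linarith, h2⟩
    · exact ⟨h2, by linarith⟩
  · rcases ar2.1 h with ⟨h1, h2, h3⟩ | ⟨h1, h2, h3⟩ | ⟨h1, h2, h3⟩
    · exact h3
    · linarith
    · exact h3

theorem ev_card (H : Ev S0 S p d τ) : 3 ≤ S.card := by
  have h : ({p 0, p 1, p 2} : Finset ℂ) ⊆ S := by
    intro x hx
    simp only [Finset.mem_insert, Finset.mem_singleton] at hx
    rcases hx with rfl | rfl | rfl <;> exact H.far.pS _
  have h2 : ({p 0, p 1, p 2} : Finset ℂ).card = 3 := by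
    rw [Finset.card_eq_three]
    exact ⟨p 0, p 1, p 2, fun e => absurd (H.far.p_inj e) (by decide),
      fun e => absurd (H.far.p_inj e) (by decide), fun e => absurd (H.far.p_inj e) (by decide), rfl⟩
  rw [← h2]
  exact Finset.card_le_card h

theorem ev_hol (H : Ev S0 S p d τ) : Hol (S : Set ℂ) Rr d := by
  intro w hw z hz
  have h1 := rr_norm hw
  have hd : d ≤ 1 := by linarith [H.dt, H.t1]
  obtain ⟨s, hs, h2⟩ := H.dns z (by
    have := norm_add_le (z - w) w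
    rw [sub_add_cancel] at this
    linarith)
  exact ⟨s, Finset.mem_coe.2 hs, h2⟩

theorem ev_deep : Deep S (Vin S Rr d) Rr d := fun _ => mem_Vin

theorem v_rr (H : Ev S0 S p d τ) {x : ℂ} (hx : x ∈ Vin S Rr d) : x ∈ Rr :=
  (mem_Vin.1 hx).2 (Metric.mem_closedBall_self (by linarith [H.d0]))

theorem b_off (H : Ev S0 S p d τ) (j : ZMod 3) {x : ℂ} (hx : x ∈ cl S (Cc τ p j)) :
    x ∉ Vin S Rr d := by
  rcases (cl_reg H j hx).2 with h | ⟨c, hc, -, h⟩
  · intro hV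
    linarith [rr_norm (v_rr H hV)]
  · exact ev_deep.off (cc_reg H j c hc).2.2.2 (by linarith [H.d0])

theorem b_cls (H : Ev S0 S p d τ) : Cls S (fun j => cl S (Cc τ p j)) where
  gp := H.far.gp
  sub := fun _ x hx => Finset.mem_coe.2 hx.1
  disj := fun i j hij => (eg_disj i j hij).mono (fun _ h => (cl_reg H i h).1)
    (fun _ h => (cl_reg H j h).1)
  con := fun i _ hx _ hy => cl_con H.far.gp (ev_card H)
    (cc_pre H.t0.le (by linarith [H.t1]) p i) hx hy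

theorem p_mem (H : Ev S0 S p d τ) (j : ZMod 3) : p j ∈ cl S (Cc τ p j) :=
  mem_cl_self (H.far.pS j) (Or.inr (right_mem_segment ℝ _ _))

/-- sites next to `Vin` are joined to a giant near them -/
theorem loc (H : Ev S0 S p d τ) {x v : ℂ} (hx : x ∉ Vin S Rr d) (hv : v ∈ Vin S Rr d)
    (ha : Adj S x v) : ∃ j, ∃ y ∈ cl S (Cc τ p j),
      Pth S {z | (z ∈ S ∧ z ∉ Vin S Rr d) ∧ ‖z - x‖ ≤ 10 * τ} x y := by
  have ht := H.t0
  have ht1 := H.t1
  have hd0 := H.d0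
  have hdt := H.dt
  have hS := H.far.gp
  have h3 := ev_card H
  have hxS : x ∈ S := ha.mem.1
  have hxR : x ∈ Rr := ev_deep.nb hS h3 hd0 (ev_hol H) hv ha
  have hxn := rr_norm hxR
  obtain ⟨w, hw, hwx⟩ := (ev_deep (d := d)).out hxS hx
  obtain ⟨C', j, h1, h2, h4, q, hq, hqj⟩ := link H hxR hw hwx
  obtain ⟨sw, hsw, hsw'⟩ := exists_cell (S := S) ⟨x, hxS⟩ w
  obtain ⟨sq, hsq, hsq'⟩ := exists_cell (S := S) ⟨x, hxS⟩ q
  have k1 : Pth S {z | (z ∈ S ∧ z ∉ Vin S Rr d) ∧ ‖z - x‖ ≤ 10 * τ} x sw := by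
    refine (cl_con hS h3 (C := segment ℝ x w) (convex_segment x w).isPreconnected
      (mem_cl_self hxS (left_mem_segment ℝ x w))
      ⟨hsw, w, right_mem_segment ℝ x w, hsw'⟩).mono fun z hz => ?_
    have h6 := cl_seg hxS hz
    rw [norm_sub_rev x w] at h6
    refine ⟨⟨hz.1, ev_deep.off hw (by linarith)⟩, ?_⟩
    have h7 := norm_add_le (z - w) (w - x)
    rw [sub_add_sub_cancel, norm_sub_rev z w] at h7
    linarith
  have k2 : Pth S {z | (z ∈ S ∧ z ∉ Vin S Rr d) ∧ ‖z - x‖ ≤ 10 * τ} sw sq := by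
    refine (cl_con hS h3 h1 ⟨hsw, w, h2, hsw'⟩ ⟨hsq, q, hq, hsq'⟩).mono fun z hz => ?_
    obtain ⟨h6, c, hc, h8⟩ := hz
    obtain ⟨h9, h10⟩ := h4 c hc
    have hcn : ‖c‖ ≤ 22 := by
      have e1 := norm_add_le (c - w) w
      have e2 := norm_add_le (w - x) x
      rw [sub_add_cancel] at e1 e2
      linarith
    have h11 := H.near hcn h8
    refine ⟨⟨h6, ev_deep.off h9 (by linarith)⟩, ?_⟩
    have e1 := norm_add_le (z - c) (c - x)
    have e2 := norm_add_le (c - w) (w - x)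
    rw [sub_add_sub_cancel] at e1 e2
    rw [norm_sub_rev z c] at e1
    linarith
  exact ⟨j, sq, ⟨hsq, q, Or.inl hqj, hsq'⟩, k1.trans k2⟩

/-- **the classes** -/
theorem classes (H : Ev S0 S p d τ) : ∃ A : ZMod 3 → Set ℂ, Tr S A ∧ Ccw S A ∧
    (∀ i, ∀ x ∈ A i, x ∉ Vin S Rr d) ∧ (∀ x ∈ S, x ∉ Vin S Rr d → ∃ i, x ∈ A i) ∧
    ∀ i, ∀ x ∈ A i, (∃ v ∈ Vin S Rr d, Adj S x v) → ∃ q ∈ Ar i, ‖x - q‖ ≤ 9000 * τ := by
  have ht := H.t0
  have ht1 := H.t1
  have hS := H.far.gp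
  have h3 := ev_card H
  have hp0 : p 0 ∉ Rr := fun h => by
    have h1 := rr_norm h
    have h2 := H.far.p_big 0
    linarith
  obtain ⟨A, h1, h2, h4, h5, h6⟩ := extend (V := Vin S Rr d) (b_cls H)
    (fun i x hx => b_off H i hx) (fun x hx hV => ⟨0, p 0, p_mem H 0,
      joined hS h3 ev_deep H.d0 (ev_hol H) rr_compl (mem_cl_self (H.far.pS 0) hp0) hx hV⟩)
    (δ := 10 * τ) (by linarith)
  have hpA : ∀ j, p j ∈ A j := fun j => h2 j (p_mem H j)
  have uniq : ∀ {i j : ZMod 3} {s : ℂ}, s ∈ A i → s ∈ A j → i = j := by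
    intro i j s hi hj
    by_contra hne
    exact Set.disjoint_left.1 (h1.disj i j hne) hi hj
  have hT : Tr S A := by
    refine ⟨h1.gp, h1.sub, h1.disj, h1.con, ?_, ?_⟩
    · intro a b h
      obtain ⟨j, rfl, -⟩ := H.far.hull_only h
      exact ⟨j, hpA j⟩
    · intro i j hij
      refine ⟨p i, p j, ?_, hpA i, hpA j, ?_⟩
      · have : j = i + 1 ∨ i = j + 1 := by
          clear * - hij
          revert i j
          decide
        rcases this with rfl | rfl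
        · exact Or.inl (H.far.hull_p i)
        · exact Or.inr (H.far.hull_p j)
      · rintro a' b' (h | h) ha hb
        · obtain ⟨k, rfl, rfl⟩ := H.far.hull_only h
          have e1 := uniq (hpA k) ha
          have e2 := uniq (hpA (k + 1)) hb
          rw [e1, ← e2, e1]
          exact ⟨rfl, rfl⟩
        · obtain ⟨k, rfl, rfl⟩ := H.far.hull_only h
          have e1 := uniq (hpA k) hb
          have e2 := uniq (hpA (k + 1)) ha
          rw [← e2, e1]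
          exact ⟨rfl, rfl⟩
  refine ⟨A, hT, fun i => ⟨p i, p (i + 1), H.far.hull_p i, hpA i, hpA (i + 1)⟩, h4, h5, ?_⟩
  rintro i x hx ⟨v, hv, ha⟩
  have hxV := h4 i x hx
  have hxR : x ∈ Rr := ev_deep.nb hS h3 H.d0 (ev_hol H) hv ha
  obtain ⟨y, hy, hp⟩ := h6 i x hx (loc H hxV hv ha)
  obtain ⟨q, hq, h7⟩ := arc_near H i (r := 2000 * τ) (by linarith) hy hxR (by
    have := hp.snd.2
    linarith)
  exact ⟨q, hq, by linarith⟩

end Crest.Agent.R143.KapFx99
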