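import Crest.Agent.R143.KapF_99

/-!
# Row 143 (S0194), block H, H5 route 1: centre and hits (helper99)

* `centre` : the component of the middle of the brick in `Vin` is a centre;
* **`giants`** : classes `A` which cover the complement of `Vin S Rr d`, `G3 S A`, `Hex S A`, no rainbow
  triangle, and every site of `A i` next to `Vin` is within `9000 τ` of the arc `Ar i`.
-/

set_option autoImplicit false

noncomputable section

open scoped Classical

namespace Crest.Agent.R143.KapGx99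

open Set
open Crest.ProbabilityR.Voronoi
open Crest.Agent.R143.B0x346 Crest.Agent.R143.DelGx806 Crest.Agent.R143.DelRx806
open Crest.Agent.R143.B0Dx346 Crest.Agent.R143.JColx54 Crest.Agent.R143.RE0x723
  Crest.Agent.R143.G6Wx723
open Crest.Agent.R143.UKx969 (cl cl_con cl_mono mem_cl_self cl_seg Deep ff_of_cover)
open Crest.Agent.R143.K33x877 Crest.Agent.R143.NetUx346
open Crest.Agent.R143.NetVx346 (Vin)
open Crest.Agent.R143.LocUx700 (mem_Vin)
open Crest.Agent.R143.Locx922 (Hol)
open Crest.Agent.R143.Hexx877 (Ccw hex_tr)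
open Crest.Agent.R143.Stabx930 (NR)
open Crest.Agent.R143.RB2x54 (Vt)
open Crest.Agent.R143.KapBx99 Crest.Agent.R143.KapCx99 Crest.Agent.R143.KapEx99
  Crest.Agent.R143.KapFx99

variable {S0 S : Finset ℂ} {p : ZMod 3 → ℂ} {d τ : ℝ}

/-- middle of the brick -/
def c0 : ℂ := ⟨1, 1 / 2⟩

/-- targets -/
def tg (j : ZMod 3) : ℂ := if j = 0 then ⟨1, -1⟩ else if j = 1 then ⟨1, 2⟩ else ⟨-1, 1 / 2⟩

theorem tg0 : tg 0 = ⟨1, -1⟩ := if_pos rfl
theorem tg1 : tg 1 = ⟨1, 2⟩ := by unfold tg; rw [if_neg (by decide), if_pos rfl]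
theorem tg2 : tg 2 = ⟨-1, 1 / 2⟩ := by unfold tg; rw [if_neg (by decide), if_neg (by decide)]

/-- coordinates on the segments from the middle to the targets -/
theorem seg_tg : ∀ j, (∀ c ∈ segment ℝ c0 (tg j), ‖c‖ ≤ 4 ∧
    (j = 0 → c.re = 1 ∧ c.im ≤ 1 / 2) ∧ (j = 1 → c.re = 1 ∧ 1 / 2 ≤ c.im) ∧
    (j = 2 → c.re ≤ 1 ∧ c.im = 1 / 2)) ∧ tg j ∉ Rr := by
  have key : ∀ c : ℂ, -1 ≤ c.re → c.re ≤ 1 → -1 ≤ c.im → c.im ≤ 2 → ‖c‖ ≤ 4 := by
    intro c h1 h2 h3 h4
    refine (nrm_le (a := 1) (b := 2) (abs_le.2 ⟨by linarith, h2⟩)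
      (abs_le.2 ⟨by linarith, h4⟩)).trans (by norm_num)
  refine z3 ?_ ?_ ?_
  · refine ⟨fun c hc => ?_, fun h => ?_⟩
    · obtain ⟨t, h0, h1, h2, h3⟩ := seg_c hc
      rw [tg0] at h2 h3
      unfold c0 at h2 h3
      simp only at h2 h3
      refine ⟨key c (by linarith) (by linarith) (by linarith) (by linarith),
        fun _ => ⟨by linarith, by linarith⟩, fun h => absurd h (by decide),
        fun h => absurd h (by decide)⟩
    · rw [tg0] at h
      have := h.2.2.1
      simp only at this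
      linarith
  · refine ⟨fun c hc => ?_, fun h => ?_⟩
    · obtain ⟨t, h0, h1, h2, h3⟩ := seg_c hc
      rw [tg1] at h2 h3
      unfold c0 at h2 h3
      simp only at h2 h3
      refine ⟨key c (by linarith) (by linarith) (by linarith) (by linarith),
        fun h => absurd h (by decide), fun _ => ⟨by linarith, by linarith⟩,
        fun h => absurd h (by decide)⟩
    · rw [tg1] at h
      have := h.2.2.2
      simp only at this
      linarith
  · refine ⟨fun c hc => ?_, fun h => ?_⟩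
    · obtain ⟨t, h0, h1, h2, h3⟩ := seg_c hc
      rw [tg2] at h2 h3
      unfold c0 at h2 h3
      simp only at h2 h3
      refine ⟨key c (by linarith) (by linarith) (by linarith) (by linarith),
        fun h => absurd h (by decide), fun h => absurd h (by decide),
        fun _ => ⟨by linarith, by linarith⟩⟩
    · rw [tg2] at h
      have := h.1
      simp only at this
      linarith

/-- **centre** -/
theorem centre (H : Ev S0 S p d τ) {A : ZMod 3 → Set ℂ}
    (h4 : ∀ i, ∀ x ∈ A i, x ∉ Vin S Rr d) (h5 : ∀ x ∈ S, x ∉ Vin S Rr d → ∃ i, x ∈ A i)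
    (hQ : ∀ i, ∀ x ∈ A i, (∃ v ∈ Vin S Rr d, Adj S x v) → ∃ q ∈ Ar i, ‖x - q‖ ≤ 9000 * τ) :
    ∃ X, CtrX S A X := by
  have ht := H.t0
  have ht1 := H.t1
  have hd0 := H.d0
  have hdt := H.dt
  have hS := H.far.gp
  have h3 := ev_card H
  have hc0 : ‖c0‖ ≤ 2 := by
    unfold c0
    refine (nrm_le (a := 1) (b := 1 / 2) ?_ ?_).trans (by norm_num)
    · show |(1 : ℝ)| ≤ 1; simp
    · show |(1 / 2 : ℝ)| ≤ 1 / 2; rw [abs_of_pos (by norm_num)]
  obtain ⟨v0, hv0, hv0c⟩ := exists_cell (S := S) ⟨_, H.far.pS 0⟩ c0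
  have hv0n : ‖c0 - v0‖ < d := H.near (by linarith) hv0c
  have hv0V : v0 ∈ Vin S Rr d := by
    refine mem_Vin.2 ⟨hv0, fun z hz => ?_⟩
    rw [Metric.mem_closedBall, dist_eq_norm] at hz
    have e1 : ‖z - c0‖ ≤ 3 * d := by
      have := norm_add_le (z - v0) (v0 - c0)
      rw [sub_add_sub_cancel, norm_sub_rev v0 c0] at this
      linarith
    have a1 := re_le e1
    have a2 := im_le e1
    unfold c0 at a1 a2
    simp only [Complex.sub_re, Complex.sub_im] at a1 a2
    exact ⟨by linarith, by linarith, by linarith, by linarith⟩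
  refine ⟨{v | Pth S (Vin S Rr d : Set ℂ) v0 v}, ?_, ?_, ?_⟩
  · intro i
    rw [Set.disjoint_left]
    intro v hv hvA
    exact h4 i v hvA (Finset.mem_coe.1 (Pth.snd hv))
  · intro x hx y hy
    refine (Pth.self (hx.symm.trans hy)).mono ?_
    rintro v ⟨-, hv⟩
    exact hy.trans hv.symm
  · intro j
    obtain ⟨hseg, htg⟩ := seg_tg j
    obtain ⟨sg, hsg, hsg'⟩ := exists_cell (S := S) ⟨_, H.far.pS 0⟩ (tg j)
    have hsgV : sg ∉ Vin S Rr d := by
      have h6 := H.near (by
        have := (hseg _ (right_mem_segment ℝ _ _)).1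
        linarith) hsg'
      exact ev_deep.off htg (by linarith)
    have hp : Pth S (cl S (segment ℝ c0 (tg j))) v0 sg :=
      cl_con hS h3 (convex_segment _ _).isPreconnected ⟨hv0, c0, left_mem_segment ℝ _ _, hv0c⟩
        ⟨hsg, tg j, right_mem_segment ℝ _ _, hsg'⟩
    obtain ⟨v, x, k1, k2, k3, k4⟩ := hp.exit (Q := fun v => v ∈ Vin S Rr d) hv0V hsgV
    have hvV : v ∈ Vin S Rr d := k1.snd.2
    have k1' : Pth S (Vin S Rr d : Set ℂ) v0 v := k1.mono fun z hz => Finset.mem_coe.2 hz.2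
    obtain ⟨hxS, c, hc, hcx⟩ := k3
    obtain ⟨hcn, r0, r1, r2⟩ := hseg c hc
    have hcx' := H.near (by linarith) hcx
    have hxR : x ∈ Rr := ev_deep.nb hS h3 hd0 (ev_hol H) hvV k2.symm
    obtain ⟨w, hw, hwx⟩ := (ev_deep (d := d)).out hxS k4
    obtain ⟨k, hk⟩ := h5 x hxS k4
    obtain ⟨q, hq, hqx⟩ := hQ k x hk ⟨v, hvV, k2.symm⟩
    suffices hkj : k = j by
      subst hkj
      exact ⟨v, k1', x, hk, k2⟩
    have hqx' : ‖x - q‖ ≤ 1 / 10 := by linarith
    have b1 := re_le hcx'.le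
    have b2 := im_le hcx'.le
    have b3 := re_le hwx
    have b4 := im_le hwx
    have b5 := re_le hqx'
    have b6 := im_le hqx'
    simp only [Complex.sub_re, Complex.sub_im] at b1 b2 b3 b4 b5 b6
    have hw' : w.re < 0 ∨ 2 < w.re ∨ w.im < 0 ∨ 1 < w.im := by
      by_contra hcon
      push Not at hcon
      exact hw ⟨hcon.1, hcon.2.1, hcon.2.2.1, hcon.2.2.2⟩
    obtain ⟨g0, g1, g2⟩ := @ar_reg q
    have hd1 : d ≤ 1 / 100 := by linarith
    -- the three targets
    have key : (j = 0 → ¬ (k = 1 ∨ k = 2)) ∧ (j = 1 → ¬ (k = 0 ∨ k = 2)) ∧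
        (j = 2 → ¬ (k = 0 ∨ k = 1)) := by
      refine ⟨fun e => ?_, fun e => ?_, fun e => ?_⟩
      · obtain ⟨e1, e2⟩ := r0 e
        have : w.im < 0 := by
          rcases hw' with h | h | h | h
          · linarith
          · linarith
          · exact h
          · linarith
        rintro (rfl | rfl)
        · have := g1 hq; linarith [this.1, this.2]
        · have := g2 hq; linarith
      · obtain ⟨e1, e2⟩ := r1 e
        have : 1 < w.im := by
          rcases hw' with h | h | h | h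
          · linarith
          · linarith
          · linarith
          · exact h
        rintro (rfl | rfl)
        · have := g0 hq; linarith [this.1, this.2]
        · have := g2 hq; linarith
      · obtain ⟨e1, e2⟩ := r2 e
        have : w.re < 0 := by
          rcases hw' with h | h | h | h
          · exact h
          · linarith
          · linarith
          · linarith
        rintro (rfl | rfl)
        · have := g0 hq; linarith [this.1, this.2]
        · have := g1 hq; linarith [this.1, this.2]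
    clear * - key
    revert j k
    decide

/-- **the proper triple round the brick** -/
theorem giants (H : Ev S0 S p d τ) : ∃ A : ZMod 3 → Set ℂ, G3 S A ∧ Hex S A ∧ NR S A ∧
    ff S A = Vin S Rr d ∧
    ∀ i, ∀ x ∈ A i, (∃ v ∈ Vin S Rr d, Adj S x v) → ∃ q ∈ Ar i, ‖x - q‖ ≤ 9000 * τ := by
  obtain ⟨A, hT, hC, h4, h5, hQ⟩ := classes H
  obtain ⟨X, hX⟩ := centre H h4 h5 hQ
  refine ⟨A, ⟨hT.gp, hT.sub, hT.disj, hT.con⟩, hex_tr hT hC, ?_,
    ff_of_cover (Finset.filter_subset _ _) h4 h5, hQ⟩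
  intro i t ht h0 h1 h2
  refine ktx S A hT t X ⟨ht, fun j => ?_⟩ hX
  have hj : j = i ∨ j = i + 1 ∨ j = i + 2 := by
    clear * -
    revert i j
    decide
  rcases hj with rfl | rfl | rfl
  · exact ⟨t.1, Or.inl rfl, h0⟩
  · exact ⟨t.2.1, Or.inr (Or.inl rfl), h1⟩
  · exact ⟨t.2.2, Or.inr (Or.inr rfl), h2⟩

end Crest.Agent.R143.KapGx99
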