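import Crest.Agent.R143.KapB_690
import Crest.Agent.R143.KapE_440

/-!
# Row 143 (S0194), block H, H5 = KAPPA, route 2, everything quenched (helper690)

Only functions of the set `β` of the black sites at ONE finite set `V` of sites, and numbers.
* `PatQ` : the inputs of one pattern; weight `av V (Jf b) g b` (mean of the ring weight `g` given the
  exploration `Jf` of the outside); charges `Vv`, displacements `W`, their means over the fresh coins
  `τ`, `D`; pieces `q i`, mark event `Mk`; numbers `rq`, `rm`, `rv`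
* `PatQ.bound` : `Σ g 1_P ‖κ conj D - τ‖` is small
* `Ring3` : almost surely three `PatQ` at `Ap ε B ω`, measurable numbers with small integrals
* `Ring3.small`, **`kapH_of_ring3`**
-/

set_option autoImplicit false

noncomputable section

open scoped Classical

namespace Crest.Agent.R143.KapQx690

open MeasureTheory Filter Topology Complex ComplexConjugate
open Crest.ProbabilityR.Voronoi
open Crest.Agent.R143.B0x346
open Crest.Agent.R143.Dblx609 Crest.Agent.R143.Dbl2x609 Crest.Agent.R143.HGluex136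
  Crest.Agent.R143.Trix106 Crest.Agent.R143.KapAx690 Crest.Agent.R143.KapBx690
  Crest.Agent.R143.KapEx440
open Crest.Agent.R143.Harx315 Crest.Agent.R143.Histx389
open scoped ENNReal

section quenched

variable {α : Type*} {V : Finset α} {Jf : Finset α → Finset α}

/-- the mean of the weight is positive where the weight is positive -/
theorem av_pos {g : Finset α → ℝ≥0∞} {b R : Finset α} (hb : b ⊆ V) (h : g b ≠ 0) :
    av V R g b ≠ 0 := by
  unfold av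
  refine mul_ne_zero (ENNReal.inv_ne_zero.2 (ENNReal.pow_ne_top (by norm_num))) ?_
  intro h0
  rw [Finset.sum_eq_zero_iff] at h0
  apply h
  have h1 := h0 (b \ R) (Finset.mem_powerset.2 (Finset.sdiff_subset_sdiff hb le_rfl))
  rwa [show b \ R ∪ b ∩ R = b from Finset.sdiff_union_inter b R] at h1

/-- conditional means are decided -/
theorem avc_dec (hJ : IsStop V Jf) (F : Finset α → ℂ) {b b' : Finset α} (hb : b ⊆ V)
    (hb' : b' ⊆ V) (e : b' ∩ Jf b = b ∩ Jf b) : avc V (Jf b') F b' = avc V (Jf b) F b := by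
  have h1 : Jf b' = Jf b := hJ.stop b b' hb hb' e.symm
  unfold avc
  rw [h1, e]

/-- the inputs of one pattern at one set of sites -/
structure PatQ (V : Finset α) (Jf : Finset α → Finset α) (g : Finset α → ℝ≥0∞)
    (P : Finset α → Prop) (κ : ℂ) (τ D : Finset α → ℂ) (rr K0 : ℝ≥0∞) (n : ℕ)
    (rq : Fin n → ℝ≥0∞) (rm rv : ℝ≥0∞) : Prop where
  ex : ∃ (Vv W : Finset α → ℂ) (q : Fin n → Finset α → ℝ≥0∞) (Mk : Finset α → Prop),
    (∀ b, b ⊆ V → av V (Jf b) g b ≠ 0 → P b →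
      avc V (Jf b) Vv b = τ b ∧ avc V (Jf b) W b = D b) ∧
    (∀ b, b ⊆ V → av V (Jf b) g b ≠ 0 → P b →
      (¬ Mk b → ENNReal.ofReal ‖κ * conj (W b) - Vv b‖ ≤ ∑ i, q i b + rr) ∧
      (Mk b → ENNReal.ofReal ‖κ * conj (W b) - Vv b‖ ≤ ENNReal.ofReal ‖Vv b‖ + K0)) ∧
    (∀ i, ∑ b ∈ V.powerset, av V (Jf b) g b * (if P b then q i b ^ 2 else 0) ≤
      2 ^ V.card * rq i) ∧
    (∑ b ∈ V.powerset, av V (Jf b) g b * (if P b ∧ Mk b then 1 else 0) ≤ 2 ^ V.card * rm) ∧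
    (∑ b ∈ V.powerset, av V (Jf b) g b * (if P b then ENNReal.ofReal ‖Vv b‖ ^ 2 else 0) ≤
      2 ^ V.card * rv)

variable {g : Finset α → ℝ≥0∞} {P : Finset α → Prop} {κ : ℂ} {τ D : Finset α → ℂ}
  {rr K0 : ℝ≥0∞} {n : ℕ} {rq : Fin n → ℝ≥0∞} {rm rv : ℝ≥0∞}

/-- **one pattern** -/
theorem PatQ.bound (hJ : IsStop V Jf)
    (hP : ∀ b, b ⊆ V → ∀ b', b' ⊆ V → b' ∩ Jf b = b ∩ Jf b → (P b' ↔ P b))
    (H : PatQ V Jf g P κ τ D rr K0 n rq rm rv) {c : ℝ≥0∞} (c0 : c ≠ 0) (c1 : c ≠ ∞) :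
    ∑ b ∈ V.powerset, g b * (if P b then ENNReal.ofReal ‖κ * conj (D b) - τ b‖ else 0) ≤
      (n * c + rr) * ∑ b ∈ V.powerset, g b +
        2 ^ V.card * (c⁻¹ * ∑ i, rq i + (c⁻¹ + K0) * rm + c * rv) := by
  obtain ⟨Vv, W, q, Mk, h1, h2, r1, r2, r3⟩ := H.ex
  have hg : ∀ b, b ⊆ V → ∀ b', b' ⊆ V → b' ∩ Jf b = b ∩ Jf b →
      av V (Jf b') g b' = av V (Jf b) g b := fun b hb b' hb' e => av_dec hJ g hb hb' e
  -- the error in terms of the means
  have s1 : ∑ b ∈ V.powerset, g b * (if P b then ENNReal.ofReal ‖κ * conj (D b) - τ b‖ else 0) =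
      ∑ b ∈ V.powerset, g b * (if P b then ENNReal.ofReal
        ‖avc V (Jf b) (fun b => κ * conj (W b) - Vv b) b‖ else 0) := by
    refine Finset.sum_congr rfl fun b hb => ?_
    rw [Finset.mem_powerset] at hb
    by_cases h0 : g b = 0
    · rw [h0, zero_mul, zero_mul]
    by_cases hPb : P b
    · obtain ⟨h3, h4⟩ := h1 b hb (av_pos hb h0) hPb
      rw [if_pos hPb, if_pos hPb, avc_lin, h3, h4]
    · rw [if_neg hPb, if_neg hPb]
  have s2 : ∑ b ∈ V.powerset, g b * (if P b then ENNReal.ofReal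
        ‖avc V (Jf b) (fun b => κ * conj (W b) - Vv b) b‖ else 0) =
      ∑ b ∈ V.powerset, av V (Jf b) g b * (if P b then ENNReal.ofReal
        ‖avc V (Jf b) (fun b => κ * conj (W b) - Vv b) b‖ else 0) := by
    refine (sum_av_dec hJ g (fun b => if P b then ENNReal.ofReal
        ‖avc V (Jf b) (fun b => κ * conj (W b) - Vv b) b‖ else 0) fun b hb b' hb' e => ?_).symm
    show (if P b' then ENNReal.ofReal
        ‖avc V (Jf b') (fun b => κ * conj (W b) - Vv b) b'‖ else 0) = _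
    rw [avc_dec hJ _ hb hb' e]
    exact if_congr (hP b hb b' hb' e) rfl rfl
  have s3 : ∑ b ∈ V.powerset, av V (Jf b) g b * (if P b then ENNReal.ofReal
        ‖avc V (Jf b) (fun b => κ * conj (W b) - Vv b) b‖ else 0) ≤
      ∑ b ∈ V.powerset, av V (Jf b) g b * (if P b then ENNReal.ofReal
        ‖κ * conj (W b) - Vv b‖ else 0) :=
    er_le (g := fun b => av V (Jf b) g b) hJ
      (fun b hb b' hb' e => ⟨hg b hb b' hb' e, hP b hb b' hb' e⟩) fun b _ _ _ => rfl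
  rw [s1, s2]
  refine s3.trans ?_
  set G : Finset α → ℝ≥0∞ := fun b => av V (Jf b) g b with hG
  have key : ∀ b ∈ V.powerset, G b * (if P b then ENNReal.ofReal ‖κ * conj (W b) - Vv b‖ else 0) ≤
      (n * c + rr) * G b + c⁻¹ * ∑ i, G b * (if P b then q i b ^ 2 else 0) +
        (c⁻¹ + K0) * (G b * (if P b ∧ Mk b then 1 else 0)) +
        c * (G b * (if P b then ENNReal.ofReal ‖Vv b‖ ^ 2 else 0)) := by
    intro b hb
    rw [Finset.mem_powerset] at hb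
    by_cases g0 : G b = 0
    · rw [g0, zero_mul]; exact zero_le
    by_cases hPb : P b
    swap
    · rw [if_neg hPb, mul_zero]; exact zero_le
    obtain ⟨h3, h4⟩ := h2 b hb g0 hPb
    rw [if_pos hPb]
    by_cases hM : Mk b
    · have h5 := h4 hM
      have h6 := amgm' c0 c1 (ENNReal.ofReal ‖Vv b‖)
      rw [if_pos ⟨hPb, hM⟩, if_pos hPb, mul_one]
      calc G b * ENNReal.ofReal ‖κ * conj (W b) - Vv b‖
          ≤ G b * ((c * ENNReal.ofReal ‖Vv b‖ ^ 2 + c⁻¹) + K0) := by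
            gcongr
            exact h5.trans (by gcongr)
        _ = (c⁻¹ + K0) * G b + c * (G b * ENNReal.ofReal ‖Vv b‖ ^ 2) := by ring
        _ ≤ _ := by
            gcongr
            exact le_add_self
    · have h5 := h3 hM
      have h6 : ∑ i, q i b ≤ n * c + c⁻¹ * ∑ i, q i b ^ 2 := by
        calc ∑ i, q i b ≤ ∑ i : Fin n, (c + c⁻¹ * q i b ^ 2) :=
              Finset.sum_le_sum fun i _ => amgm c0 c1 _
          _ = n * c + c⁻¹ * ∑ i, q i b ^ 2 := by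
              rw [Finset.sum_add_distrib, Finset.sum_const, Finset.card_univ, Fintype.card_fin,
                nsmul_eq_mul, Finset.mul_sum]
      have h7 : ∑ i, G b * (if P b then q i b ^ 2 else 0) = G b * ∑ i, q i b ^ 2 := by
        rw [Finset.mul_sum]
        exact Finset.sum_congr rfl fun i _ => by rw [if_pos hPb]
      rw [h7]
      calc G b * ENNReal.ofReal ‖κ * conj (W b) - Vv b‖
          ≤ G b * ((n * c + c⁻¹ * ∑ i, q i b ^ 2) + rr) := by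
            gcongr
            exact h5.trans (by gcongr)
        _ = (n * c + rr) * G b + c⁻¹ * (G b * ∑ i, q i b ^ 2) := by ring
        _ ≤ _ := by
            rw [add_assoc ((n * c + rr) * G b + c⁻¹ * (G b * ∑ i, q i b ^ 2))]
            exact le_self_add
  refine (Finset.sum_le_sum key).trans ?_
  rw [Finset.sum_add_distrib, Finset.sum_add_distrib, Finset.sum_add_distrib, ← Finset.mul_sum,
    ← Finset.mul_sum, ← Finset.mul_sum, ← Finset.mul_sum, Finset.sum_comm]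
  have e0 : ∑ b ∈ V.powerset, G b = ∑ b ∈ V.powerset, g b := sum_av hJ g
  rw [e0]
  calc (n * c + rr) * ∑ b ∈ V.powerset, g b +
        c⁻¹ * ∑ i, ∑ b ∈ V.powerset, G b * (if P b then q i b ^ 2 else 0) +
        (c⁻¹ + K0) * ∑ b ∈ V.powerset, G b * (if P b ∧ Mk b then 1 else 0) +
        c * ∑ b ∈ V.powerset, G b * (if P b then ENNReal.ofReal ‖Vv b‖ ^ 2 else 0)
      ≤ (n * c + rr) * ∑ b ∈ V.powerset, g b + c⁻¹ * ∑ i, 2 ^ V.card * rq i +
        (c⁻¹ + K0) * (2 ^ V.card * rm) + c * (2 ^ V.card * rv) := by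
        gcongr with i
        exact r1 i
    _ = _ := by
        rw [← Finset.mul_sum]
        ring

end quenched

/-- **the inputs of route 2**, quenched form -/
def Ring3 (om κ z0 : ℂ) (b ε : ℝ) (rr K0 η C : ℝ≥0∞) (n : ℕ) : Prop :=
  ∃ (r : ℝ) (B : Set ℂ) (g : Set (ℂ × Bool) → ℝ≥0∞) (Rq : Fin 3 → Fin n → Sample → ℝ≥0∞)
    (Rm Rv : Fin 3 → Sample → ℝ≥0∞),
    r ≤ b / 200 ∧ MeasurableSet B ∧ Bornology.IsBounded B ∧ Poisx304.FM g ∧ (∀ X, g X ≤ 1) ∧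
    (∀ k i, AEMeasurable (Rq k i) sampleLaw) ∧ (∀ k, AEMeasurable (Rm k) sampleLaw) ∧
    (∀ k, AEMeasurable (Rv k) sampleLaw) ∧
    (∀ᵐ ω ∂sampleLaw, ∃ (Jf : Finset ℂ → Finset ℂ) (t : Finset ℂ → ℂ)
      (Z : Finset ℂ → Fin 3 → ℂ) (J : Finset ℂ → Fin 3 → Prop), IsStop (Ap ε B ω) Jf ∧
      (∀ β, β ⊆ Ap ε B ω → ∀ β', β' ⊆ Ap ε B ω → β' ∩ Jf β = β ∩ Jf β →
        ∀ k, J β' k ↔ J β k) ∧
      (∀ β, β ⊆ Ap ε B ω → g (paint (Ap ε B ω) β) ≠ 0 →
        Hl z0 b r (Z β) ∧ ∃ i j, i ≠ j ∧ J β i ∧ J β j) ∧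
      ∀ k : Fin 3, PatQ (Ap ε B ω) Jf (fun β => g (paint (Ap ε B ω) β)) (fun β => J β k) κ
        (fun β => om ^ (k : ℕ) * t β) (fun β => Df (Z β) k) rr K0 n (fun i => Rq k i ω)
        (Rm k ω) (Rv k ω)) ∧
    0 < ∫⁻ ω, g (PP0x831.cfg ε ω ∩ ovM Bool B) ∂sampleLaw ∧
    (∀ k i, ∫⁻ ω, Rq k i ω ∂sampleLaw ≤
      η * ∫⁻ ω, g (PP0x831.cfg ε ω ∩ ovM Bool B) ∂sampleLaw) ∧
    (∀ k, ∫⁻ ω, Rm k ω ∂sampleLaw ≤
      η * ∫⁻ ω, g (PP0x831.cfg ε ω ∩ ovM Bool B) ∂sampleLaw) ∧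
    ∀ k, ∫⁻ ω, Rv k ω ∂sampleLaw ≤ C * ∫⁻ ω, g (PP0x831.cfg ε ω ∩ ovM Bool B) ∂sampleLaw

theorem Ring3.small {om κ z0 : ℂ} (h : om ^ 2 + om + 1 = 0) (him : 0 < om.im) {b ε : ℝ}
    (hb : 0 < b) (hε : 0 < ε) {rr K0 η C : ℝ≥0∞} {n : ℕ} (H : Ring3 om κ z0 b ε rr K0 η C n)
    {c : ℝ≥0∞} (c0 : c ≠ 0) (c1 : c ≠ ∞) :
    ENNReal.ofReal (‖κ‖ * b) ≤
      180 * (n * c + rr + (n * c⁻¹ + (c⁻¹ + K0)) * η + c * C) := by
  obtain ⟨r, B, g, Rq, Rm, Rv, hr, hBm, hB, hg, hg1, m1, m2, m3, h1, h2, i1, i2, i3⟩ := H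
  set G := ∫⁻ ω, g (PP0x831.cfg ε ω ∩ ovM Bool B) ∂sampleLaw with hG
  have hG1 : G ≤ 1 := by
    rw [hG]
    calc ∫⁻ ω, g (PP0x831.cfg ε ω ∩ ovM Bool B) ∂sampleLaw
        ≤ ∫⁻ _, 1 ∂sampleLaw := lintegral_mono fun ω => hg1 _
      _ = 1 := by simp
  have hGt : G ≠ ∞ := ne_top_of_le_ne_top ENNReal.one_ne_top hG1
  have hgm := mq_meas hε hBm hB hg
  -- pointwise
  have key : ∀ᵐ ω ∂sampleLaw, ENNReal.ofReal (‖κ‖ * b) * mq ε B g ω ≤
      60 * ∑ k : Fin 3, ((n * c + rr) * mq ε B g ω +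
        (c⁻¹ * ∑ i, Rq k i ω + (c⁻¹ + K0) * Rm k ω + c * Rv k ω)) := by
    filter_upwards [h1] with ω h1
    obtain ⟨Jf, t, Z, J, hJ, hJd, hH, hPt⟩ := h1
    set A := Ap ε B ω with hA
    have e1 : ∀ k : Fin 3, ∑ β ∈ A.powerset, g (paint A β) *
        (if J β k then ENNReal.ofReal (Er om κ (t β) (Z β) k) else 0) ≤
        (n * c + rr) * ∑ β ∈ A.powerset, g (paint A β) +
        2 ^ A.card * (c⁻¹ * ∑ i, Rq k i ω + (c⁻¹ + K0) * Rm k ω + c * Rv k ω) := fun k =>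
      (hPt k).bound hJ (fun β hβ β' hβ' e => hJd β hβ β' hβ' e k) c0 c1
    have e2 : ENNReal.ofReal (‖κ‖ * b) * ∑ β ∈ A.powerset, g (paint A β) ≤
        60 * ∑ k : Fin 3, ∑ β ∈ A.powerset, g (paint A β) *
          (if J β k then ENNReal.ofReal (Er om κ (t β) (Z β) k) else 0) := by
      rw [Finset.sum_comm, Finset.mul_sum, Finset.mul_sum]
      refine Finset.sum_le_sum fun β hβ => ?_
      rw [← Finset.mul_sum]
      by_cases h0 : g (paint A β) = 0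
      · rw [h0, mul_zero]; exact zero_le
      · obtain ⟨h3, h4⟩ := hH β (Finset.mem_powerset.1 hβ) h0
        have h5 := two (κ := κ) (t := t β) h him hb hr h3 h4
        unfold ErJ at h5
        calc ENNReal.ofReal (‖κ‖ * b) * g (paint A β)
            ≤ (60 * ∑ k : Fin 3, if J β k then ENNReal.ofReal (Er om κ (t β) (Z β) k) else 0) *
              g (paint A β) := by gcongr
          _ = _ := by ring
    have hc2 : ((2 : ℝ≥0∞) ^ A.card) ≠ 0 := by positivity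
    have hc3 : ((2 : ℝ≥0∞) ^ A.card) ≠ ∞ := ENNReal.pow_ne_top (by norm_num)
    unfold mq
    rw [← hA]
    set S := ∑ β ∈ A.powerset, g (paint A β) with hS
    calc ENNReal.ofReal (‖κ‖ * b) * (((2 : ℝ≥0∞) ^ A.card)⁻¹ * S)
        = ((2 : ℝ≥0∞) ^ A.card)⁻¹ * (ENNReal.ofReal (‖κ‖ * b) * S) := by ring
      _ ≤ ((2 : ℝ≥0∞) ^ A.card)⁻¹ * (60 * ∑ k : Fin 3, ((n * c + rr) * S +
          2 ^ A.card * (c⁻¹ * ∑ i, Rq k i ω + (c⁻¹ + K0) * Rm k ω + c * Rv k ω))) :=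
          mul_le_mul_right (e2.trans (mul_le_mul_right (Finset.sum_le_sum fun k _ => e1 k) _)) _
      _ = 60 * ∑ k : Fin 3, ((n * c + rr) * (((2 : ℝ≥0∞) ^ A.card)⁻¹ * S) +
          ((((2 : ℝ≥0∞) ^ A.card)⁻¹ * 2 ^ A.card) *
            (c⁻¹ * ∑ i, Rq k i ω + (c⁻¹ + K0) * Rm k ω + c * Rv k ω))) := by
          rw [mul_left_comm, Finset.mul_sum]
          congr 1
          refine Finset.sum_congr rfl fun k _ => ?_
          ring
      _ = _ := by
          rw [ENNReal.inv_mul_cancel hc2 hc3]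
          simp only [one_mul]
  have a0 : ∀ k, AEMeasurable (fun ω => ∑ i, Rq k i ω) sampleLaw := fun k =>
    Finset.aemeasurable_fun_sum _ fun i _ => m1 k i
  have hk : ∀ k : Fin 3, ∫⁻ ω, ((n * c + rr) * mq ε B g ω +
        (c⁻¹ * ∑ i, Rq k i ω + (c⁻¹ + K0) * Rm k ω + c * Rv k ω)) ∂sampleLaw ≤
      (n * c + rr + (n * c⁻¹ + (c⁻¹ + K0)) * η + c * C) * G := by
    intro k
    have s1 : ∫⁻ ω, ((n * c + rr) * mq ε B g ω +
        (c⁻¹ * ∑ i, Rq k i ω + (c⁻¹ + K0) * Rm k ω + c * Rv k ω)) ∂sampleLaw =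
        (n * c + rr) * ∫⁻ ω, mq ε B g ω ∂sampleLaw + (c⁻¹ * ∑ i, ∫⁻ ω, Rq k i ω ∂sampleLaw +
        (c⁻¹ + K0) * ∫⁻ ω, Rm k ω ∂sampleLaw + c * ∫⁻ ω, Rv k ω ∂sampleLaw) := by
      have t1 : ∫⁻ ω, ((n * c + rr) * mq ε B g ω +
          (c⁻¹ * ∑ i, Rq k i ω + (c⁻¹ + K0) * Rm k ω + c * Rv k ω)) ∂sampleLaw =
          ∫⁻ ω, (n * c + rr) * mq ε B g ω ∂sampleLaw +
          ∫⁻ ω, (c⁻¹ * ∑ i, Rq k i ω + (c⁻¹ + K0) * Rm k ω + c * Rv k ω) ∂sampleLaw :=
        lintegral_add_left' (hgm.const_mul _) _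
      have t2 : ∫⁻ ω, (c⁻¹ * ∑ i, Rq k i ω + (c⁻¹ + K0) * Rm k ω + c * Rv k ω) ∂sampleLaw =
          ∫⁻ ω, (c⁻¹ * ∑ i, Rq k i ω + (c⁻¹ + K0) * Rm k ω) ∂sampleLaw +
          ∫⁻ ω, c * Rv k ω ∂sampleLaw :=
        lintegral_add_left' (((a0 k).const_mul _).add ((m2 k).const_mul _)) _
      have t3 : ∫⁻ ω, (c⁻¹ * ∑ i, Rq k i ω + (c⁻¹ + K0) * Rm k ω) ∂sampleLaw =
          ∫⁻ ω, c⁻¹ * ∑ i, Rq k i ω ∂sampleLaw + ∫⁻ ω, (c⁻¹ + K0) * Rm k ω ∂sampleLaw :=
        lintegral_add_left' ((a0 k).const_mul _) _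
      rw [t1, t2, t3, lintegral_const_mul'' _ hgm, lintegral_const_mul'' _ (a0 k),
        lintegral_const_mul'' _ (m2 k), lintegral_const_mul'' _ (m3 k),
        lintegral_finsetSum' _ fun i _ => m1 k i]
    rw [s1, lint_eq_mq hε hBm hB hg, ← hG]
    calc (n * c + rr) * G + (c⁻¹ * ∑ i, ∫⁻ ω, Rq k i ω ∂sampleLaw +
          (c⁻¹ + K0) * ∫⁻ ω, Rm k ω ∂sampleLaw + c * ∫⁻ ω, Rv k ω ∂sampleLaw)
        ≤ (n * c + rr) * G + (c⁻¹ * ∑ _i : Fin n, η * G +
          (c⁻¹ + K0) * (η * G) + c * (C * G)) := by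
          gcongr with i
          · exact i1 k i
          · exact i2 k
          · exact i3 k
      _ = _ := by
          rw [Finset.sum_const, Finset.card_univ, Fintype.card_fin, nsmul_eq_mul]
          ring
  have h6 : ENNReal.ofReal (‖κ‖ * b) * G ≤
      (180 * (n * c + rr + (n * c⁻¹ + (c⁻¹ + K0)) * η + c * C)) * G := by
    have e1 : ENNReal.ofReal (‖κ‖ * b) * G =
        ∫⁻ ω, ENNReal.ofReal (‖κ‖ * b) * mq ε B g ω ∂sampleLaw := by
      rw [lintegral_const_mul'' _ hgm, lint_eq_mq hε hBm hB hg]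
    rw [e1]
    refine (lintegral_mono_ae key).trans ?_
    have hmk : ∀ k : Fin 3, AEMeasurable (fun ω => (n * c + rr) * mq ε B g ω +
        (c⁻¹ * ∑ i, Rq k i ω + (c⁻¹ + K0) * Rm k ω + c * Rv k ω)) sampleLaw := fun k =>
      (hgm.const_mul _).add ((((a0 k).const_mul _).add ((m2 k).const_mul _)).add
        ((m3 k).const_mul _))
    rw [lintegral_const_mul' _ _ (by norm_num), lintegral_finsetSum' _ fun k _ => hmk k]
    calc 60 * ∑ k : Fin 3, ∫⁻ ω, ((n * c + rr) * mq ε B g ω +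
          (c⁻¹ * ∑ i, Rq k i ω + (c⁻¹ + K0) * Rm k ω + c * Rv k ω)) ∂sampleLaw
        ≤ 60 * ∑ _k : Fin 3, (n * c + rr + (n * c⁻¹ + (c⁻¹ + K0)) * η + c * C) * G := by
          gcongr with k
          exact hk k
      _ = _ := by
          rw [Finset.sum_const, Finset.card_univ, Fintype.card_fin, nsmul_eq_mul]
          push_cast
          ring
  exact (ENNReal.mul_le_mul_iff_left h2.ne' hGt).1 h6

/-- **route 2** : `rr`, `η` small (first the tile, then the mesh), `K0`, `C`, `n` fixed -/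
theorem kapH_of_ring3 {om z0 : ℂ} (h : om ^ 2 + om + 1 = 0) (him : 0 < om.im) {b : ℝ} (hb : 0 < b)
    {κ : ℕ → ℝ → ℂ} {K0 C : ℝ≥0∞} (hK : K0 ≠ ∞) (hC : C ≠ ∞) {n : ℕ}
    (H : ∀ η : ℝ, 0 < η → ∀ᶠ N : ℕ in atTop, ∀ᶠ ε : ℝ in 𝓝[>] 0,
      Ring3 om (κ N ε) z0 b ε (ENNReal.ofReal η) K0 (ENNReal.ofReal η) C n) : KapH κ := by
  intro δ hδ
  obtain ⟨C', hC'⟩ : ∃ C' : ℝ, 0 ≤ C' ∧ C = ENNReal.ofReal C' :=
    ⟨C.toReal, ENNReal.toReal_nonneg, (ENNReal.ofReal_toReal hC).symm⟩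
  obtain ⟨K', hK'⟩ : ∃ K' : ℝ, 0 ≤ K' ∧ K0 = ENNReal.ofReal K' :=
    ⟨K0.toReal, ENNReal.toReal_nonneg, (ENNReal.ofReal_toReal hK).symm⟩
  -- choice of `c`, then `η`
  set d : ℝ := δ * b / 180 with hd
  have hdpos : 0 < d := by positivity
  set c : ℝ := d / (4 * (n + C' + 1)) with hc
  have hcpos : 0 < c := by have := hC'.1; positivity
  set Q : ℝ := 1 + (n * c⁻¹ + (c⁻¹ + K')) with hQ
  have hQpos : 0 < Q := by have := hK'.1; positivity
  set η : ℝ := d / (4 * Q) with hη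
  have hηpos : 0 < η := by positivity
  filter_upwards [H η hηpos] with N h1
  filter_upwards [h1, self_mem_nhdsWithin] with ε h2 hε
  have h3 := h2.small h him hb hε (c := ENNReal.ofReal c) (by positivity) ENNReal.ofReal_ne_top
  have e1 : (180 : ℝ≥0∞) * (n * ENNReal.ofReal c + ENNReal.ofReal η +
      (n * (ENNReal.ofReal c)⁻¹ + ((ENNReal.ofReal c)⁻¹ + K0)) * ENNReal.ofReal η +
      ENNReal.ofReal c * C) = ENNReal.ofReal (180 * (n * c + η +
        (n * c⁻¹ + (c⁻¹ + K')) * η + c * C')) := by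
    have := hC'.1
    have := hK'.1
    rw [hC'.2, hK'.2, ← ENNReal.ofReal_inv_of_pos hcpos,
      ENNReal.ofReal_mul (by norm_num : (0 : ℝ) ≤ 180), ENNReal.ofReal_add (by positivity)
        (by positivity), ENNReal.ofReal_add (by positivity) (by positivity),
      ENNReal.ofReal_add (by positivity) (by positivity), ENNReal.ofReal_mul (by positivity),
      ENNReal.ofReal_mul (p := (n * c⁻¹ + (c⁻¹ + K'))) (by positivity),
      ENNReal.ofReal_mul (p := c) (by positivity), ENNReal.ofReal_add (by positivity)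
        (by positivity), ENNReal.ofReal_add (p := c⁻¹) (by positivity) (by positivity),
      ENNReal.ofReal_mul (p := (n : ℝ)) (by positivity), ENNReal.ofReal_natCast]
    norm_num
  rw [e1] at h3
  have h4 := (ENNReal.ofReal_le_ofReal_iff (by have := hC'.1; have := hK'.1; positivity)).1 h3
  have b1 : (n : ℝ) * c + c * C' ≤ d / 4 := by
    have h5 : (n + C' + 1) * c = d / 4 := by
      rw [hc]
      have : (n : ℝ) + C' + 1 ≠ 0 := by have := hC'.1; positivity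
      field_simp
    nlinarith [hC'.1]
  have b2 : η + (n * c⁻¹ + (c⁻¹ + K')) * η = d / 4 := by
    have : η + (n * c⁻¹ + (c⁻¹ + K')) * η = Q * η := by rw [hQ]; ring
    rw [this, hη]
    field_simp
  have h5 : ‖κ N ε‖ * b ≤ δ * b := by
    calc ‖κ N ε‖ * b ≤ 180 * (n * c + η + (n * c⁻¹ + (c⁻¹ + K')) * η + c * C') := h4
      _ ≤ 180 * d := by nlinarith
      _ = δ * b := by rw [hd]; ring
  exact le_of_mul_le_mul_right h5 hb

end Crest.Agent.R143.KapQx690
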