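import Crest.Agent.R143.MarkH_298
import Crest.Agent.R143.HGlue_136
import Crest.Agent.R143.EnvH_653

/-!
# Row 143 (S0194), block H, H5, box (M) (helper659)

Quenched and averaged form of 298's `pr_near_arm`.

* `mn U F` : mean of `F` over the subsets of `U`; `mn_marg`; `fresh`, `fresh_le` : strong Markov
  property for decided weights, decided fresh sets `U b` and decided functions `H b`;
  `mn_cs` : Cauchy-Schwarz
* `Hs S g J G` : the weight `g` and the giants `G` are decided by the exploration `J`, the free sites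
  are not explored
* `env_mark` : environment at the marks (653's `EnvH`): edges in the disc are short and 298's bound
* `mark_mq` : in 136's form: `mq (g * 1_Near) ≤ C (r / ρ) ^ c * mq g + 1_bad`
-/

set_option autoImplicit false

noncomputable section

open scoped Classical

namespace Crest.Agent.R143.MarkQx659

open MeasureTheory Filter Topology
open scoped ENNReal
open Crest.ProbabilityR.Voronoi
open Crest.Agent.R143.Harx315 (pr nb fl IsStop)
open Crest.Agent.R143.Histx389 (DecF)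

/-! ### means -/

section means

variable {α : Type*} {V U W : Finset α}

/-- mean over the subsets of `U` -/
def mn (U : Finset α) (F : Finset α → ℝ≥0∞) : ℝ≥0∞ :=
  ((2 : ℝ≥0∞) ^ U.card)⁻¹ * ∑ T ∈ U.powerset, F T

theorem two_ne (n : ℕ) : (2 : ℝ≥0∞) ^ n ≠ 0 := by positivity

theorem two_top (n : ℕ) : (2 : ℝ≥0∞) ^ n ≠ ∞ := ENNReal.pow_ne_top (by norm_num)

theorem mn_const (c : ℝ≥0∞) : mn U (fun _ => c) = c := by
  unfold mn
  rw [Finset.sum_const, Finset.card_powerset, nsmul_eq_mul]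
  push_cast
  rw [← mul_assoc, ENNReal.inv_mul_cancel (two_ne _) (two_top _), one_mul]

theorem mn_mono {F G : Finset α → ℝ≥0∞} (h : ∀ T ⊆ U, F T ≤ G T) : mn U F ≤ mn U G := by
  unfold mn
  exact mul_le_mul_right (Finset.sum_le_sum fun T hT => h T (Finset.mem_powerset.1 hT)) _

theorem mn_congr {F G : Finset α → ℝ≥0∞} (h : ∀ T ⊆ U, F T = G T) : mn U F = mn U G := by
  unfold mn
  rw [Finset.sum_congr rfl fun T hT => h T (Finset.mem_powerset.1 hT)]

theorem mn_add (F G : Finset α → ℝ≥0∞) : mn U (fun T => F T + G T) = mn U F + mn U G := by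
  unfold mn
  rw [Finset.sum_add_distrib, mul_add]

theorem mn_mul (c : ℝ≥0∞) (F : Finset α → ℝ≥0∞) : mn U (fun T => c * F T) = c * mn U F := by
  unfold mn
  rw [← Finset.mul_sum, mul_left_comm]

/-- marginal of a fair colouring -/
theorem sum_marg {A : Type*} [AddCommMonoid A] (h : U ⊆ W) (F : Finset α → A) :
    ∑ b ∈ W.powerset, F (b ∩ U) = 2 ^ (W.card - U.card) • ∑ T ∈ U.powerset, F T := by
  rw [← Finset.sum_fiberwise_of_maps_to (s := W.powerset) (t := U.powerset) (g := fun b => b ∩ U)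
    (fun b _ => Finset.mem_powerset.2 Finset.inter_subset_right), Finset.smul_sum]
  refine Finset.sum_congr rfl fun T hT => ?_
  rw [Finset.mem_powerset] at hT
  have e : ∀ b ∈ W.powerset.filter (fun b => b ∩ U = T), F (b ∩ U) = F T := fun b hb => by
    rw [(Finset.mem_filter.1 hb).2]
  rw [Finset.sum_congr rfl e, Finset.sum_const]
  congr 1
  have e2 : 2 ^ (W.card - U.card) = (W \ U).powerset.card := by
    rw [Finset.card_powerset, Finset.card_sdiff_of_subset h]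
  rw [e2]
  refine Finset.card_bij' (fun b _ => b \ U) (fun b _ => b ∪ T) ?_ ?_ ?_ ?_
  · intro b hb
    have h1 := Finset.mem_powerset.1 (Finset.mem_filter.1 hb).1
    exact Finset.mem_powerset.2 (Finset.sdiff_subset_sdiff h1 subset_rfl)
  · intro b hb
    rw [Finset.mem_powerset] at hb
    refine Finset.mem_filter.2 ⟨Finset.mem_powerset.2
      (Finset.union_subset (hb.trans Finset.sdiff_subset) (hT.trans h)), ?_⟩
    ext y
    simp only [Finset.mem_inter, Finset.mem_union]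
    constructor
    · rintro ⟨h1 | h1, h2⟩
      · exact absurd h2 (Finset.mem_sdiff.1 (hb h1)).2
      · exact h1
    · intro h1
      exact ⟨Or.inr h1, hT h1⟩
  · intro b hb
    have h2 := (Finset.mem_filter.1 hb).2
    show b \ U ∪ T = b
    rw [← h2, Finset.sdiff_union_inter]
  · intro b hb
    rw [Finset.mem_powerset] at hb
    show (b ∪ T) \ U = b
    ext y
    simp only [Finset.mem_sdiff, Finset.mem_union]
    constructor
    · rintro ⟨h1 | h1, h2⟩
      · exact h1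
      · exact absurd (hT h1) h2
    · intro h1
      exact ⟨Or.inl h1, (Finset.mem_sdiff.1 (hb h1)).2⟩

theorem mn_marg (h : U ⊆ W) (F : Finset α → ℝ≥0∞) : mn W (fun b => F (b ∩ U)) = mn U F := by
  unfold mn
  rw [sum_marg h, nsmul_eq_mul]
  exact HGluex136.pow_aux (Finset.card_le_card h) _

/-- Cauchy-Schwarz -/
theorem mn_cs {X Y : Finset α → ℝ≥0∞} {K q : ℝ≥0∞} (hX : mn U (fun T => X T ^ 2) ≤ K)
    (hY : mn U (fun T => Y T ^ 2) ≤ q) :
    mn U (fun T => X T * Y T) ≤ (K * q) ^ (1 / 2 : ℝ) := by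
  have h1 := ENNReal.inner_le_Lp_mul_Lq U.powerset X Y (p := 2) (q := 2) (by
    rw [Real.holderConjugate_iff]; norm_num)
  have e : ∀ Z : Finset α → ℝ≥0∞, ∀ L : ℝ≥0∞, mn U (fun T => Z T ^ 2) ≤ L →
      ∑ T ∈ U.powerset, Z T ^ (2 : ℝ) ≤ 2 ^ U.card * L := by
    intro Z L hL
    unfold mn at hL
    have e1 : ∑ T ∈ U.powerset, Z T ^ (2 : ℝ) = ∑ T ∈ U.powerset, Z T ^ 2 :=
      Finset.sum_congr rfl fun T _ => ENNReal.rpow_two _
    rw [e1]
    calc ∑ T ∈ U.powerset, Z T ^ 2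
        = 2 ^ U.card * (((2 : ℝ≥0∞) ^ U.card)⁻¹ * ∑ T ∈ U.powerset, Z T ^ 2) := by
          rw [← mul_assoc, ENNReal.mul_inv_cancel (two_ne _) (two_top _), one_mul]
      _ ≤ _ := mul_le_mul_right hL _
  have h2 := e X K hX
  have h3 := e Y q hY
  have h4 : ∑ T ∈ U.powerset, X T * Y T ≤ 2 ^ U.card * (K * q) ^ (1 / 2 : ℝ) := by
    refine h1.trans ?_
    rw [← ENNReal.mul_rpow_of_nonneg _ _ (by norm_num : (0 : ℝ) ≤ 1 / 2)]
    have h5 : (∑ T ∈ U.powerset, X T ^ (2 : ℝ)) * ∑ T ∈ U.powerset, Y T ^ (2 : ℝ) ≤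
        (2 ^ U.card) ^ (2 : ℝ) * (K * q) := by
      refine (mul_le_mul' h2 h3).trans (le_of_eq ?_)
      rw [ENNReal.rpow_two]
      ring
    refine (ENNReal.rpow_le_rpow h5 (by norm_num : (0 : ℝ) ≤ 1 / 2)).trans (le_of_eq ?_)
    rw [ENNReal.mul_rpow_of_nonneg _ _ (by norm_num : (0 : ℝ) ≤ 1 / 2), ← ENNReal.rpow_mul]
    norm_num
  unfold mn
  calc ((2 : ℝ≥0∞) ^ U.card)⁻¹ * ∑ T ∈ U.powerset, X T * Y T
      ≤ ((2 : ℝ≥0∞) ^ U.card)⁻¹ * (2 ^ U.card * (K * q) ^ (1 / 2 : ℝ)) := mul_le_mul_right h4 _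
    _ = _ := by
        rw [← mul_assoc, ENNReal.inv_mul_cancel (two_ne _) (two_top _), one_mul]

/-- indicator -/
theorem mn_ind (P : Finset α → Prop) :
    mn U (fun T => if P T then 1 else 0) = ENNReal.ofReal (pr U P) := by
  unfold mn Crest.Agent.R143.Harx315.pr Crest.Agent.R143.Harx315.nb Crest.Agent.R143.Harx315.fl
  rw [Finset.sum_ite, Finset.sum_const_zero, add_zero, Finset.sum_const, nsmul_eq_mul, mul_one,
    ENNReal.ofReal_div_of_pos (by positivity), mul_comm, ← div_eq_mul_inv,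
    ENNReal.ofReal_pow (by norm_num), ENNReal.ofReal_natCast]
  norm_num

/-! ### fresh sites -/

variable {J : Finset α → Finset α} {g : Finset α → ℝ≥0∞}

/-- `F` is decided by `J` where `g ≠ 0` -/
def DecG {β : Type*} (V : Finset α) (J : Finset α → Finset α) (g : Finset α → ℝ≥0∞)
    (F : Finset α → β) : Prop :=
  ∀ b b', b ⊆ V → b' ⊆ V → b ∩ J b = b' ∩ J b → g b ≠ 0 → F b = F b'

theorem DecG.of {β : Type*} {F : Finset α → β} (h : DecF V J F) : DecG V J g F :=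
  fun b b' h1 h2 h3 _ => h b b' h1 h2 h3

theorem DecG.comp {β γ : Type*} {F : Finset α → β} (h : DecG V J g F) (G : β → γ) :
    DecG V J g fun b => G (F b) := fun b b' h1 h2 h3 h4 => congrArg G (h b b' h1 h2 h3 h4)

/-- **strong Markov property** : the sites `U b` are fresh -/
theorem fresh (hJ : IsStop V J) (hg : DecF V J g) {U : Finset α → Finset α}
    {H : Finset α → Finset α → ℝ≥0∞} (hU : DecG V J g U) (hH : DecG V J g H)
    (hUV : ∀ b, b ⊆ V → g b ≠ 0 → U b ⊆ V \ J b) :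
    ∑ b ∈ V.powerset, g b * H b (b ∩ U b) = ∑ b ∈ V.powerset, g b * mn (U b) (H b) := by
  rw [← HGluex136.sum_av hJ (fun b => g b * H b (b ∩ U b))]
  refine Finset.sum_congr rfl fun b hb => ?_
  rw [Finset.mem_powerset] at hb
  unfold HGluex136.av
  have key : ∀ b' ∈ (V \ J b).powerset, g (b' ∪ (b ∩ J b)) *
      H (b' ∪ (b ∩ J b)) ((b' ∪ (b ∩ J b)) ∩ U (b' ∪ (b ∩ J b))) =
      g b * H b (b' ∩ U b) := by
    intro b' hb'
    rw [Finset.mem_powerset] at hb'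
    rw [hg.outc hb hb']
    by_cases h0 : g b = 0
    · rw [h0, zero_mul, zero_mul]
    · have h1 : b' ∪ (b ∩ J b) ⊆ V := Finset.union_subset (hb'.trans Finset.sdiff_subset)
        (Finset.inter_subset_left.trans hb)
      have h2 : b ∩ J b = (b' ∪ (b ∩ J b)) ∩ J b := by
        ext y
        simp only [Finset.mem_inter, Finset.mem_union]
        constructor
        · rintro ⟨h1, h2⟩
          exact ⟨Or.inr ⟨h1, h2⟩, h2⟩
        · rintro ⟨h1 | h1, h2⟩
          · exact absurd h2 (Finset.mem_sdiff.1 (hb' h1)).2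
          · exact h1
      rw [← hU b _ hb h1 h2 h0, ← hH b _ hb h1 h2 h0]
      congr 2
      have h3 := hUV b hb h0
      ext y
      simp only [Finset.mem_inter, Finset.mem_union]
      constructor
      · rintro ⟨h4 | h4, h5⟩
        · exact ⟨h4, h5⟩
        · exact absurd h4.2 (Finset.mem_sdiff.1 (h3 h5)).2
      · rintro ⟨h4, h5⟩
        exact ⟨Or.inl h4, h5⟩
  rw [Finset.sum_congr rfl key]
  by_cases h0 : g b = 0
  · rw [h0]
    simp
  · rw [← mn_marg (hUV b hb h0) (H b)]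
    unfold mn
    rw [← Finset.mul_sum, mul_left_comm]

/-- upper bound -/
theorem fresh_le (hJ : IsStop V J) (hg : DecF V J g) {U : Finset α → Finset α}
    {H : Finset α → Finset α → ℝ≥0∞} (hU : DecG V J g U) (hH : DecG V J g H)
    (hUV : ∀ b, b ⊆ V → g b ≠ 0 → U b ⊆ V \ J b) {c : ℝ≥0∞}
    (hc : ∀ b, b ⊆ V → g b ≠ 0 → mn (U b) (H b) ≤ c) :
    ∑ b ∈ V.powerset, g b * H b (b ∩ U b) ≤ c * ∑ b ∈ V.powerset, g b := by
  rw [fresh hJ hg hU hH hUV, Finset.mul_sum]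
  refine Finset.sum_le_sum fun b hb => ?_
  rw [Finset.mem_powerset] at hb
  by_cases h0 : g b = 0
  · rw [h0, zero_mul, mul_zero]
  · rw [mul_comm c]
    exact mul_le_mul_right (hc b hb h0) _

end means

/-! ### one set of sites -/

section static

open Crest.Agent.R143.B0x346 Crest.Agent.R143.DelGx806 Crest.Agent.R143.DelRx806
open Crest.Agent.R143.JColx54 (Adj)
open Crest.Agent.R143.K33x877 (fr)
open Crest.Agent.R143.NetUx346
open Crest.Agent.R143.MmOx88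
open Crest.Agent.R143.MarkHx298
open Crest.Agent.R143.RB0x838 (LDns Mesh)

variable {S : Finset ℂ} {A : ZMod 3 → Set ℂ} {ι : Type} {m : ι → ℂ} {lab : ι → ZMod 3}
  {r ρ d R1 : ℝ}

/-- 298's `MK` without the length of the edges: the free sites and their neighbours are in the disc
of radius `R1` -/
structure MK0 (S : Finset ℂ) (A : ZMod 3 → Set ℂ) {ι : Type} (m : ι → ℂ) (lab : ι → ZMod 3)
    (ρ R1 : ℝ) : Prop where
  nr : ∀ t ∈ delT S, ∀ i, ¬ (t.1 ∈ A i ∧ t.2.1 ∈ A (i + 1) ∧ t.2.2 ∈ A (i + 2))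
  near : ∀ x, Nx S (fr S A) x → ∀ j, ‖x - m j‖ < ρ → x ∉ A (lab j)
  reg : ∀ x, x ∈ fr S A ∨ Nx S (fr S A) x → ‖x‖ ≤ R1
  mrk : ∀ j, ‖m j‖ ≤ R1

/-- environment at the marks -/
structure EnvM (S : Finset ℂ) (C c R1 r ρ d : ℝ) : Prop where
  len : ∀ x y, Adj S x y → ‖x‖ ≤ R1 → ‖x - y‖ ≤ d
  arm : ∀ (A : ZMod 3 → Set ℂ) (ι : Type) [Fintype ι] (m : ι → ℂ) (lab : ι → ZMod 3),
    MK0 S A m lab ρ R1 → pr (ff S A) (NearM S A m r) ≤ Fintype.card ι * (C * (r / ρ) ^ c)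

/-- the near event depends on the free sites only -/
theorem near_inter {b : Finset ℂ} : NearM S A m r (b ∩ ff S A) ↔ NearM S A m r b := by
  have e1 : fr S A ∩ ((b ∩ ff S A : Finset ℂ) : Set ℂ) = fr S A ∩ (b : Set ℂ) := by
    ext x
    simp only [Set.mem_inter_iff, Finset.mem_coe, Finset.mem_inter]
    exact ⟨fun h => ⟨h.1, h.2.1⟩, fun h => ⟨h.1, h.2, mem_ff.2 h.1⟩⟩
  have e2 : fr S A \ ((b ∩ ff S A : Finset ℂ) : Set ℂ) = fr S A \ (b : Set ℂ) := by
    ext x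
    simp only [Set.mem_sdiff, Finset.mem_coe, Finset.mem_inter, not_and]
    exact ⟨fun h => ⟨h.1, fun hb => h.2 hb (mem_ff.2 h.1)⟩, fun h => ⟨h.1, fun hb => absurd hb h.2⟩⟩
  have e3 : ff S A \ (b ∩ ff S A) = ff S A \ b := by
    ext x
    simp only [Finset.mem_sdiff, Finset.mem_inter, not_and]
    exact ⟨fun h => ⟨h.1, fun hb => h.2 hb h.1⟩, fun h => ⟨h.1, fun hb => absurd hb h.2⟩⟩
  have e4 : ∀ i t, HitO S A i ((b ∩ ff S A : Finset ℂ) : Set ℂ) t ↔ HitO S A i (b : Set ℂ) t := by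
    intro i t
    unfold HitO
    rw [e1, e2]
  unfold NearM
  simp only [e4, e3]

/-- the weight and the giants are decided by an exploration, the free sites are not explored -/
structure Hs (S : Finset ℂ) (g : Finset ℂ → ℝ≥0∞) (J : Finset ℂ → Finset ℂ)
    (G : Finset ℂ → ZMod 3 → Set ℂ) : Prop where
  stop : IsStop S J
  dg : DecF S J g
  dG : DecG S J g G
  off : ∀ b, b ⊆ S → g b ≠ 0 → ∀ v ∈ ff S (G b), v ∉ J b

variable {g : Finset ℂ → ℝ≥0∞} {J : Finset ℂ → Finset ℂ} {G : Finset ℂ → ZMod 3 → Set ℂ}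

theorem ff_sub (S : Finset ℂ) (A : ZMod 3 → Set ℂ) : ff S A ⊆ S := Finset.filter_subset _ _

theorem Hs.sub (H : Hs S g J G) {b : Finset ℂ} (hb : b ⊆ S) (h0 : g b ≠ 0) :
    ff S (G b) ⊆ S \ J b := fun v hv => Finset.mem_sdiff.2 ⟨ff_sub _ _ hv, H.off b hb h0 v hv⟩

/-- **the free sites are fresh** -/
theorem Hs.fresh (H : Hs S g J G) (F : (ZMod 3 → Set ℂ) → Finset ℂ → ℝ≥0∞) :
    ∑ b ∈ S.powerset, g b * F (G b) (b ∩ ff S (G b)) =
      ∑ b ∈ S.powerset, g b * mn (ff S (G b)) (F (G b)) :=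
  MarkQx659.fresh H.stop H.dg (U := fun b => ff S (G b)) (H := fun b => F (G b))
    (H.dG.comp fun A => ff S A) (H.dG.comp F) fun _ hb h0 => H.sub hb h0

theorem Hs.fresh_le (H : Hs S g J G) (F : (ZMod 3 → Set ℂ) → Finset ℂ → ℝ≥0∞) {c : ℝ≥0∞}
    (hc : ∀ b, b ⊆ S → g b ≠ 0 → mn (ff S (G b)) (F (G b)) ≤ c) :
    ∑ b ∈ S.powerset, g b * F (G b) (b ∩ ff S (G b)) ≤ c * ∑ b ∈ S.powerset, g b :=
  MarkQx659.fresh_le H.stop H.dg (U := fun b => ff S (G b)) (H := fun b => F (G b))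
    (H.dG.comp fun A => ff S A) (H.dG.comp F) (fun _ hb h0 => H.sub hb h0) hc

/-- **(M)**, quenched sum over the histories -/
theorem Hs.near_le [Fintype ι] (H : Hs S g J G) {C c : ℝ} (E : EnvM S C c R1 r ρ d)
    (hM : ∀ b, b ⊆ S → g b ≠ 0 → MK0 S (G b) m lab ρ R1) :
    ∑ b ∈ S.powerset, g b * (if NearM S (G b) m r b then 1 else 0) ≤
      ENNReal.ofReal (Fintype.card ι * (C * (r / ρ) ^ c)) * ∑ b ∈ S.powerset, g b := by
  have h := H.fresh_le (fun A T => if NearM S A m r T then 1 else 0)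
    (c := ENNReal.ofReal (Fintype.card ι * (C * (r / ρ) ^ c))) (by
      intro b hb h0
      rw [mn_ind]
      exact ENNReal.ofReal_le_ofReal (E.arm (G b) ι m lab (hM b hb h0)))
  refine le_trans (le_of_eq ?_) h
  refine Finset.sum_congr rfl fun b _ => ?_
  simp only [near_inter]

/-- **(M)** with a square integrable function -/
theorem Hs.near_cs [Fintype ι] (H : Hs S g J G) {C c : ℝ} (E : EnvM S C c R1 r ρ d)
    (hM : ∀ b, b ⊆ S → g b ≠ 0 → MK0 S (G b) m lab ρ R1)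
    (X : (ZMod 3 → Set ℂ) → Finset ℂ → ℝ≥0∞) {K : ℝ≥0∞}
    (hX : ∀ b, b ⊆ S → g b ≠ 0 → mn (ff S (G b)) (fun T => X (G b) T ^ 2) ≤ K) :
    ∑ b ∈ S.powerset, g b * (X (G b) (b ∩ ff S (G b)) * (if NearM S (G b) m r b then 1 else 0)) ≤
      (K * ENNReal.ofReal (Fintype.card ι * (C * (r / ρ) ^ c))) ^ (1 / 2 : ℝ) *
        ∑ b ∈ S.powerset, g b := by
  have h := H.fresh_le (fun A T => X A T * if NearM S A m r T then 1 else 0)
    (c := (K * ENNReal.ofReal (Fintype.card ι * (C * (r / ρ) ^ c))) ^ (1 / 2 : ℝ)) (by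
      intro b hb h0
      refine mn_cs (hX b hb h0) ?_
      have e : ∀ T : Finset ℂ, (if NearM S (G b) m r T then (1 : ℝ≥0∞) else 0) ^ 2 =
          if NearM S (G b) m r T then 1 else 0 := fun T => by split_ifs <;> simp
      simp only [e]
      rw [mn_ind]
      exact ENNReal.ofReal_le_ofReal (E.arm (G b) ι m lab (hM b hb h0)))
  refine le_trans (le_of_eq ?_) h
  refine Finset.sum_congr rfl fun b _ => ?_
  simp only [near_inter]

end static

/-! ### the environment -/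

section env

open Crest.Agent.R143.B0x346 Crest.Agent.R143.DelGx806 Crest.Agent.R143.DelRx806
open Crest.Agent.R143.JColx54 (Adj)
open Crest.Agent.R143.K33x877 (fr)
open Crest.Agent.R143.NetUx346
open Crest.Agent.R143.MmOx88
open Crest.Agent.R143.MarkHx298
open Crest.Agent.R143.RB0x838 (LDns Mesh)
open Crest.Agent.R143.EnvHx653

/-- `EnvM` from 653's environment -/
theorem envM_of {K : ℝ} {C c c1 c2 : ℝ} (hC : 0 < C) (hc : 0 < c) (hK : 1 ≤ K) (hc2 : 0 < c2)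
    (HA : ∀ (S : Finset ℂ) (A : ZMod 3 → Set ℂ) (ι : Type) [Fintype ι] (m : ι → ℂ)
      (lab : ι → ZMod 3) (ρ d r : ℝ), MK S A m lab ρ d → 0 ≤ d → 0 < r → r + d ≤ ρ - d →
      (∀ j, LDns S (m j) (K * (ρ - d)) d) →
      (∀ j b, c2 * (r + d) ≤ b → b ≤ ρ - d → Mesh S (m j) (K * (ρ - d)) b Cab) →
      d ≤ c1 * (r + d) →
      pr (ff S A) (NearM S A m r) ≤ 2 * Fintype.card ι * (C * ((r + d) / (ρ - d)) ^ c))
    {S : Finset ℂ} (hgp : GP (S : Set ℂ)) {R1 r ρ d : ℝ} (hd : 0 < d) (hr : 0 < r)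
    (hρ : 2 * r ≤ ρ) (hd1 : 4 * d ≤ r) (hd2 : 2 * d ≤ c1 * r) (hc1 : 0 < c1)
    (h0 : LDns S 0 (R1 + d) d)
    (h1 : ∀ z0 : ℂ, ‖z0‖ ≤ R1 → LDns S z0 (K * ρ) d)
    (h2 : ∀ z0 : ℂ, ‖z0‖ ≤ R1 → ∀ b, c2 * r ≤ b → b ≤ ρ → Mesh S z0 (K * ρ) b Cab) :
    EnvM S (2 * C * 4 ^ c) c R1 r ρ (2 * d) := by
  have hρ0 : 0 < ρ := by linarith
  have hlen : ∀ x y, Adj S x y → ‖x‖ ≤ R1 → ‖x - y‖ ≤ 2 * d := by
    intro x y hxy hx
    have h3 := ArmPx930.adj_small h0 hxy (by rw [sub_zero]; linarith)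
    rw [norm_sub_rev]
    exact h3.le
  refine ⟨hlen, ?_⟩
  intro A ι _ m lab hM
  have hKK : K * (ρ - 2 * d) ≤ K * ρ := mul_le_mul_of_nonneg_left (by linarith) (by linarith)
  have h3 := HA S A ι m lab ρ (2 * d) r
    ⟨hgp, hM.nr, hM.near, fun x y hxy hx => hlen x y hxy (hM.reg x hx)⟩ (by linarith) hr
    (by linarith)
    (fun j => ⟨hgp, by linarith, fun z hz => by
      obtain ⟨s, hs, h⟩ := (h1 (m j) (hM.mrk j)).hole z (hz.trans hKK)
      exact ⟨s, hs, by linarith⟩⟩)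
    (fun j b hb1 hb2 => ArmPx930.mesh_mono (h2 (m j) (hM.mrk j) b
      (le_trans (mul_le_mul_of_nonneg_left (by linarith) hc2.le) hb1) (by linarith)) hKK)
    (by nlinarith)
  have h4 : (r + 2 * d) / (ρ - 2 * d) ≤ 4 * (r / ρ) := by
    rw [div_le_iff₀ (by linarith), ← mul_div_assoc, div_mul_eq_mul_div, le_div_iff₀ hρ0]
    nlinarith
  have h5 : ((r + 2 * d) / (ρ - 2 * d)) ^ c ≤ 4 ^ c * (r / ρ) ^ c := by
    rw [← Real.mul_rpow (by norm_num) (div_pos hr hρ0).le]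
    exact Real.rpow_le_rpow (div_nonneg (by linarith) (by linarith)) h4 hc.le
  refine h3.trans ?_
  have h6 : (0 : ℝ) ≤ Fintype.card ι := Nat.cast_nonneg _
  calc 2 * (Fintype.card ι : ℝ) * (C * ((r + 2 * d) / (ρ - 2 * d)) ^ c)
      ≤ 2 * (Fintype.card ι : ℝ) * (C * (4 ^ c * (r / ρ) ^ c)) := by gcongr
    _ = _ := by ring

/-- **the environment at the marks** holds with probability `≥ 1 - ε ^ A0`, for all finite sets of
sites which agree with the sample in the disc of radius `2 * R1 + Km` -/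
theorem env_mark : ∃ C c Km : ℝ, 0 < C ∧ 0 < c ∧ 0 < Km ∧ ∀ A0 R1 r ρ : ℝ, 0 ≤ R1 → 0 < r →
    2 * r ≤ ρ → 2 * ρ ≤ 1 → ∃ dd : ℝ → ℝ, Tendsto dd (𝓝[>] 0) (𝓝 0) ∧
    ∀ᶠ ε : ℝ in 𝓝[>] 0, 0 < dd ε ∧ ∃ E : Set Sample, MeasurableSet E ∧
      sampleLaw E ≤ ENNReal.ofReal (ε ^ A0) ∧ ∀ ω, ω ∉ E → ∀ S : Finset ℂ, GP (S : Set ℂ) →
        (∀ s : ℂ, ‖s‖ ≤ 2 * R1 + Km → (s ∈ points ε ω ↔ s ∈ S)) →
        EnvM S C c R1 r ρ (dd ε) := by
  obtain ⟨C, c, c1, c2, K, hC, hc, hc1, hc2, hc2', hK, HA⟩ := pr_near_arm Cab Cab_pos.le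
  refine ⟨2 * C * 4 ^ c, c, K + 4, by positivity, hc, by linarith, ?_⟩
  intro A0 R1 r ρ hR1 hr hρ hρ1
  have hρ0 : 0 < ρ := by linarith
  obtain ⟨C', hC', henv⟩ := env_h (2 * R1 + (K + 4)) A0
  set K1 : ℝ := K + (R1 + 1) / ρ with hK1
  have hq : 0 ≤ (R1 + 1) / ρ := by positivity
  have hK10 : 0 ≤ K1 := by rw [hK1]; linarith
  have hK1ρ : K1 * ρ = K * ρ + (R1 + 1) := by
    rw [hK1, add_mul, div_mul_cancel₀ _ hρ0.ne']
  have hκ : 0 < min (min (1 / 4) (c1 / 2)) (c2 / 2) * (r / ρ) := by positivity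
  refine ⟨fun ε => 2 * PP1x831.rad C' ε, ?_, ?_⟩
  · have h := (DicCx831.rad_small C').const_mul 2
    rwa [mul_zero] at h
  · have e1 := henv K1 (min (min (1 / 4) (c1 / 2)) (c2 / 2) * (r / ρ)) (c2 * (r / ρ)) ρ hK10 hκ
      (by positivity) hρ0
    have e2 : ∀ᶠ ε : ℝ in 𝓝[>] 0, PP1x831.rad C' ε < 1 / 4 :=
      (DicCx831.rad_small C').eventually_lt_const (by norm_num)
    filter_upwards [e1, e2] with ε he h4
    obtain ⟨⟨g1, g2⟩, g3⟩ := he
    set d := PP1x831.rad C' ε with hdd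
    have g4 : min (min (1 / 4) (c1 / 2)) (c2 / 2) * (r / ρ) * ρ =
        min (min (1 / 4) (c1 / 2)) (c2 / 2) * r := by
      field_simp
    rw [g4] at g2
    have g5 : d ≤ 1 / 4 * r := g2.trans (mul_le_mul_of_nonneg_right
      ((min_le_left _ _).trans (min_le_left _ _)) hr.le)
    have g6 : d ≤ c1 / 2 * r := g2.trans (mul_le_mul_of_nonneg_right
      ((min_le_left _ _).trans (min_le_right _ _)) hr.le)
    refine ⟨by linarith, toMeasurable sampleLaw {ω | ¬ EnvH (2 * R1 + (K + 4)) ε d K1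
      (c2 * (r / ρ)) ρ ω}, measurableSet_toMeasurable _ _,
      (measure_toMeasurable _).le.trans g3, ?_⟩
    intro ω hω S hgp hS
    have hE : EnvH (2 * R1 + (K + 4)) ε d K1 (c2 * (r / ρ)) ρ ω := by
      by_contra h
      exact hω (subset_toMeasurable _ _ h)
    have g7 : c2 * (r / ρ) * ρ = c2 * r := by field_simp
    have g8 : K * ρ ≤ K / 2 := by nlinarith
    have hN : ∀ z0 : ℂ, ‖z0‖ ≤ R1 → RBmx838.NvA S z0 (K1 * ρ) (c2 * (r / ρ)) ρ d Cab := by
      intro z0 hz0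
      refine hE S z0 ρ hgp le_rfl hρ1 ?_ ?_
      · rw [add_mul, hK1ρ]
        linarith
      · intro s hs
        refine hS s ?_
        rw [add_mul, hK1ρ] at hs
        have := norm_add_le (s - z0) z0
        rw [sub_add_cancel] at this
        linarith
    refine envM_of hC hc hK hc2 HA hgp g1 hr hρ (by linarith) (by linarith) hc1 ?_ ?_ ?_
    · have h5 := (hN 0 (by rw [norm_zero]; exact hR1)).dns
      refine ArmPx930.ldns_mono h5 ?_
      rw [hK1ρ]
      nlinarith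
    · intro z0 hz0
      refine ArmPx930.ldns_mono (hN z0 hz0).dns ?_
      rw [hK1ρ]
      linarith
    · intro z0 hz0 b hb1 hb2
      refine ArmPx930.mesh_mono ((hN z0 hz0).mesh b ?_ hb2) ?_
      · rw [g7]
        exact hb1
      · rw [hK1ρ]
        linarith

end env

/-! ### 136's form -/

section quenched

open Crest.Agent.R143.B0x346 Crest.Agent.R143.NetUx346 Crest.Agent.R143.MarkHx298
open Crest.Agent.R143.Dblx609 Crest.Agent.R143.Dbl2x609
open Crest.Agent.R143.HGluex136 (mq mq_meas lint_eq_mq lint_le_mq)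

/-- quenched hypothesis at the set `S` of the points in the box: `g` is decided by an exploration
which also decides the three giants, and `nr` is at most the indicator of 298's near event -/
def QM {ι : Type} (S : Finset ℂ) (g nr : Set (ℂ × Bool) → ℝ≥0∞) (m : ι → ℂ) (lab : ι → ZMod 3)
    (r ρ R1 : ℝ) : Prop :=
  (∀ β, β ⊆ S → g (paint S β) = 0) ∨
  ∃ (J : Finset ℂ → Finset ℂ) (G : Finset ℂ → ZMod 3 → Set ℂ),
    Hs S (fun β => g (paint S β)) J G ∧ ∀ β, β ⊆ S → g (paint S β) ≠ 0 →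
      MK0 S (G β) m lab ρ R1 ∧ nr (paint S β) ≤ if NearM S (G β) m r β then 1 else 0

theorem mq_le_one {ε : ℝ} {B : Set ℂ} {Φ : Set (ℂ × Bool) → ℝ≥0∞} (h : ∀ X, Φ X ≤ 1)
    (ω : Sample) : mq ε B Φ ω ≤ 1 := by
  have h1 : mn (Ap ε B ω) (fun β => Φ (paint (Ap ε B ω) β)) ≤ mn (Ap ε B ω) (fun _ => 1) :=
    mn_mono fun β _ => h _
  rw [mn_const] at h1
  exact h1

/-- one sample -/
theorem mq_near {ι : Type} [Fintype ι] {ε : ℝ} {B : Set ℂ} {ω : Sample}
    {g nr : Set (ℂ × Bool) → ℝ≥0∞} {m : ι → ℂ} {lab : ι → ZMod 3} {C c R1 r ρ d : ℝ}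
    (E : EnvM (Ap ε B ω) C c R1 r ρ d) (h : QM (Ap ε B ω) g nr m lab r ρ R1) :
    mq ε B (fun X => g X * nr X) ω ≤
      ENNReal.ofReal (Fintype.card ι * (C * (r / ρ) ^ c)) * mq ε B g ω := by
  unfold Crest.Agent.R143.HGluex136.mq
  rcases h with h | ⟨J, G, H, h⟩
  · have e : ∀ β ∈ (Ap ε B ω).powerset, (fun X => g X * nr X) (paint (Ap ε B ω) β) = 0 := by
      intro β hβ
      show g (paint (Ap ε B ω) β) * nr (paint (Ap ε B ω) β) = 0
      rw [h β (Finset.mem_powerset.1 hβ), zero_mul]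
    rw [Finset.sum_eq_zero e, mul_zero]
    exact zero_le
  · rw [mul_left_comm]
    refine mul_le_mul_right ?_ _
    refine le_trans (Finset.sum_le_sum fun β hβ => ?_)
      (H.near_le E fun β hβ h0 => (h β hβ h0).1)
    rw [Finset.mem_powerset] at hβ
    show g (paint (Ap ε B ω) β) * nr (paint (Ap ε B ω) β) ≤ _
    by_cases h0 : g (paint (Ap ε B ω) β) = 0
    · rw [h0, zero_mul, zero_mul]
    · exact mul_le_mul_right (h β hβ h0).2 _

/-- **(M)**: an end point within `r` of a mark. `C`, `c`, `Km` are absolute; `g`, `nr` are arbitrary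
functionals of the painted configuration in the box `B` -/
theorem mark_mq : ∃ C c Km : ℝ, 0 < C ∧ 0 < c ∧ 0 < Km ∧ ∀ A0 R1 r ρ : ℝ, 0 ≤ R1 → 0 < r →
    2 * r ≤ ρ → 2 * ρ ≤ 1 → ∀ᶠ ε : ℝ in 𝓝[>] 0, ∃ E : Set Sample, MeasurableSet E ∧
      sampleLaw E ≤ ENNReal.ofReal (ε ^ A0) ∧ ∀ B : Set ℂ, Bornology.IsBounded B →
        Metric.closedBall 0 (2 * R1 + Km) ⊆ B → ∀ᵐ ω ∂sampleLaw,
        ∀ (ι : Type) [Fintype ι] (m : ι → ℂ) (lab : ι → ZMod 3) (g nr : Set (ℂ × Bool) → ℝ≥0∞),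
          (∀ X, g X ≤ 1) → (∀ X, nr X ≤ 1) → QM (Ap ε B ω) g nr m lab r ρ R1 →
          mq ε B (fun X => g X * nr X) ω ≤
            ENNReal.ofReal (Fintype.card ι * (C * (r / ρ) ^ c)) * mq ε B g ω +
              E.indicator (fun _ => 1) ω := by
  obtain ⟨C, c, Km, hC, hc, hKm, H⟩ := env_mark
  refine ⟨C, c, Km, hC, hc, hKm, ?_⟩
  intro A0 R1 r ρ hR1 hr hρ hρ1
  obtain ⟨dd, -, H⟩ := H A0 R1 r ρ hR1 hr hρ hρ1
  filter_upwards [H, eventually_mem_nhdsWithin] with ε h1 hε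
  have hε : 0 < ε := hε
  obtain ⟨hdd, E, hE, hE1, hE2⟩ := h1
  refine ⟨E, hE, hE1, ?_⟩
  intro B hB hBR
  filter_upwards [PoisM3x930.m3a ε hε] with ω hω
  intro ι _ m lab g nr hg hn hQ
  by_cases h2 : ω ∈ E
  · rw [Set.indicator_of_mem h2]
    refine le_trans (mq_le_one (fun X => ?_) ω) (le_add_of_nonneg_left zero_le)
    exact (mul_le_mul' (hg X) (hn X)).trans (by rw [one_mul])
  · rw [Set.indicator_of_notMem h2, add_zero]
    have hA := coe_Ap hε hB ω
    refine mq_near (hE2 ω h2 (Ap ε B ω) ?_ ?_) hQ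
    · rw [hA]
      exact Mass2x302.gp_mono Set.inter_subset_left hω.1
    · intro s hs
      rw [← Finset.mem_coe, hA]
      exact ⟨fun h => ⟨h, hBR (mem_closedBall_zero_iff.2 hs)⟩, fun h => h.1⟩

/-- the majorant is measurable and its integral is small -/
theorem mark_int {ε : ℝ} (hε : 0 < ε) {B : Set ℂ} (hBm : MeasurableSet B)
    (hB : Bornology.IsBounded B) {g : Set (ℂ × Bool) → ℝ≥0∞} (hg : Poisx304.FM g)
    {E : Set Sample} (hE : MeasurableSet E) (q : ℝ≥0∞) :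
    AEMeasurable (fun ω => q * mq ε B g ω + E.indicator (fun _ => 1) ω) sampleLaw ∧
      ∫⁻ ω, (q * mq ε B g ω + E.indicator (fun _ => 1) ω) ∂sampleLaw =
        q * ∫⁻ ω, g (PP0x831.cfg ε ω ∩ ovM Bool B) ∂sampleLaw + sampleLaw E := by
  have h1 : AEMeasurable (fun ω => q * mq ε B g ω) sampleLaw :=
    (mq_meas hε hBm hB hg).const_mul q
  have h2 : Measurable (E.indicator (fun _ => (1 : ℝ≥0∞))) := measurable_const.indicator hE
  refine ⟨h1.add h2.aemeasurable, ?_⟩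
  rw [lintegral_add_left' h1, lintegral_const_mul'' _ (mq_meas hε hBm hB hg),
    lint_eq_mq hε hBm hB hg, lintegral_indicator_const hE, one_mul]

end quenched

end Crest.Agent.R143.MarkQx659
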