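import Crest.Agent.R143.KapR_440
import Crest.Agent.R143.KapQ_690
import Crest.Agent.R143.FlipQ_565
import Crest.Agent.R143.MarkQ_659

/-!
# Row 143 (S0194), block H, H5 = KAPPA, route 2 (helper440): representatives in the quenched form

One finite set `A` of sites, one stopping set `Jf`, `g` the product weight (not decided), everything
else functions of the set `β` of the black sites.
* `patQ_of_rep` : 690's `PatQ` (three patterns) from the facts `RepOK` of one member `b⋆` with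
  `g ≠ 0` of every class
* `sum_cls` : sums with the weight `E[g | Jf]` from a bound of the inside mean at the members with
  `g ≠ 0`
* `QfA`, **`flipQ`** : 565's `flipM` at one sample, all `Φ` at once: `∑ Φ ≤ 2 ^ |A| E ε ω`
* **`ring3_of`** : 690's `Ring3` from representatives
-/

set_option autoImplicit false

noncomputable section

open scoped Classical

namespace Crest.Agent.R143.KapIx440

open MeasureTheory Filter Topology Complex ComplexConjugate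
open Crest.ProbabilityR.Voronoi
open Crest.Agent.R143.B0x346
open Crest.Agent.R143.Dblx609 Crest.Agent.R143.Dbl2x609 Crest.Agent.R143.HGluex136
  Crest.Agent.R143.Trix106 Crest.Agent.R143.KapAx690 Crest.Agent.R143.KapEx440
  Crest.Agent.R143.CondWx440 Crest.Agent.R143.KapRx440 Crest.Agent.R143.KapQx690
open Crest.Agent.R143.Harx315 Crest.Agent.R143.Histx389
open scoped ENNReal

section one

variable {Jf : Finset ℂ → Finset ℂ} {g : Set (ℂ × Bool) → ℝ≥0∞} {A : Finset ℂ}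

/-- representative of the class of `β`, one set of sites -/
def rp1 (Jf : Finset ℂ → Finset ℂ) (g : Set (ℂ × Bool) → ℝ≥0∞) (A β : Finset ℂ) : Finset ℂ :=
  rep (fun _ => Jf) g A β

theorem rp1_eq (hJ : IsStop A Jf) {β β' : Finset ℂ} (hβ : β ⊆ A) (hβ' : β' ⊆ A)
    (h : β' ∩ Jf β = β ∩ Jf β) : rp1 Jf g A β' = rp1 Jf g A β :=
  rep_eq (Jf := fun _ => Jf) hJ hβ hβ' h

theorem av_ne' {G : Finset ℂ → ℝ≥0∞} {R β : Finset ℂ} (hβ : β ⊆ A) (h : av A R G β ≠ 0) :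
    ∃ b', b' ⊆ A ∧ b' ∩ R = β ∩ R ∧ G b' ≠ 0 := by
  unfold av at h
  by_contra hc
  push Not at hc
  refine h ?_
  rw [Finset.sum_eq_zero, mul_zero]
  intro b' hb'
  rw [Finset.mem_powerset] at hb'
  exact hc _ (CondWx440.out_sub (V := A) (R := R) hβ hb') (CondWx440.out_inter hb')

theorem rp1_spec {β : Finset ℂ} (hβ : β ⊆ A)
    (h0 : av A (Jf β) (fun b => g (paint A b)) β ≠ 0) :
    rp1 Jf g A β ⊆ A ∧ rp1 Jf g A β ∩ Jf β = β ∩ Jf β ∧ g (paint A (rp1 Jf g A β)) ≠ 0 := by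
  have h := av_ne' hβ h0
  unfold rp1 rep rp
  rw [dif_pos h]
  exact h.choose_spec

theorem rp1_spec' {β : Finset ℂ} (hβ : β ⊆ A) (h0 : g (paint A β) ≠ 0) :
    rp1 Jf g A β ⊆ A ∧ rp1 Jf g A β ∩ Jf β = β ∩ Jf β ∧ g (paint A (rp1 Jf g A β)) ≠ 0 :=
  rep_spec' (Jf := fun _ => Jf) hβ h0

theorem rp1_J (hJ : IsStop A Jf) {β : Finset ℂ} (hβ : β ⊆ A) (h : rp1 Jf g A β ⊆ A)
    (h' : rp1 Jf g A β ∩ Jf β = β ∩ Jf β) : Jf (rp1 Jf g A β) = Jf β :=
  hJ.stop β _ hβ h h'.symm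

variable {n : ℕ} {dat : Finset ℂ → PDat n}

/-- **three patterns from the representatives** -/
theorem patQ_of_rep {κ z0 : ℂ} {b r : ℝ} {rr K0 : ℝ≥0∞} (hJ : IsStop A Jf)
    (H : ∀ β, β ⊆ A → g (paint A β) ≠ 0 → RepOK κ z0 b r A (Jf β) β (dat β) rr K0)
    {rq : Fin 3 → Fin n → ℝ≥0∞} {rm rv : Fin 3 → ℝ≥0∞}
    (hq : ∀ k i, ∑ b ∈ A.powerset, av A (Jf b) (fun b => g (paint A b)) b *
      (if (dat (rp1 Jf g A b)).J k then (dat (rp1 Jf g A b)).q k i b ^ 2 else 0) ≤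
        2 ^ A.card * rq k i)
    (hm : ∀ k, ∑ b ∈ A.powerset, av A (Jf b) (fun b => g (paint A b)) b *
      (if (dat (rp1 Jf g A b)).J k ∧ (dat (rp1 Jf g A b)).Mk k b then 1 else 0) ≤
        2 ^ A.card * rm k)
    (hv : ∀ k, ∑ b ∈ A.powerset, av A (Jf b) (fun b => g (paint A b)) b *
      (if (dat (rp1 Jf g A b)).J k then ENNReal.ofReal ‖(dat (rp1 Jf g A b)).V k b‖ ^ 2 else 0) ≤
        2 ^ A.card * rv k) :
    ∃ (t : Finset ℂ → ℂ) (Z : Finset ℂ → Fin 3 → ℂ) (J : Finset ℂ → Fin 3 → Prop),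
      (∀ β, β ⊆ A → ∀ β', β' ⊆ A → β' ∩ Jf β = β ∩ Jf β → ∀ k, J β' k ↔ J β k) ∧
      (∀ β, β ⊆ A → g (paint A β) ≠ 0 → Hl z0 b r (Z β) ∧ ∃ i j, i ≠ j ∧ J β i ∧ J β j) ∧
      ∀ k : Fin 3, PatQ A Jf (fun β => g (paint A β)) (fun β => J β k) κ
        (fun β => om ^ (k : ℕ) * t β) (fun β => Df (Z β) k) rr K0 n (rq k) (rm k) (rv k) := by
  -- the facts of the class
  have key : ∀ β, β ⊆ A → av A (Jf β) (fun b => g (paint A b)) β ≠ 0 →
      rp1 Jf g A β ∩ Jf β = β ∩ Jf β ∧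
      RepOK κ z0 b r A (Jf β) (rp1 Jf g A β) (dat (rp1 Jf g A β)) rr K0 := by
    intro β hβ h0
    obtain ⟨r1, r2, r3⟩ := rp1_spec hβ h0
    have h1 := H _ r1 r3
    rw [rp1_J hJ hβ r1 r2] at h1
    exact ⟨r2, h1⟩
  refine ⟨fun β => (dat (rp1 Jf g A β)).t, fun β => (dat (rp1 Jf g A β)).Z,
    fun β => (dat (rp1 Jf g A β)).J, ?_, ?_, ?_⟩
  · intro β hβ β' hβ' e k
    beta_reduce
    rw [rp1_eq hJ hβ hβ' e]
  · intro β hβ h0
    obtain ⟨-, h1⟩ := key β hβ (av_pos hβ h0)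
    exact ⟨h1.hl, h1.two⟩
  · intro k
    refine ⟨fun b => (dat (rp1 Jf g A b)).V k b, fun b => (dat (rp1 Jf g A b)).W k b,
      fun i b => (dat (rp1 Jf g A b)).q k i b, fun b => (dat (rp1 Jf g A b)).Mk k b,
      ?_, ?_, hq k, hm k, hv k⟩
    · intro β hβ h0 hP
      obtain ⟨r2, h1⟩ := key β hβ h0
      have e : ∀ F : PDat n → Finset ℂ → ℂ,
          avc A (Jf β) (fun b => F (dat (rp1 Jf g A b)) b) β =
          avc A (Jf β) (F (dat (rp1 Jf g A β))) (rp1 Jf g A β) := by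
        intro F
        rw [avc_congr r2]
        unfold avc
        congr 1
        refine Finset.sum_congr rfl fun b' hb' => ?_
        rw [Finset.mem_powerset] at hb'
        have hs := CondWx440.out_sub (V := A) (R := Jf β) hβ hb'
        beta_reduce
        rw [rp1_eq hJ hβ hs (CondWx440.out_inter hb')]
      rw [e fun D b' => D.V k b', e fun D b' => D.W k b']
      exact ⟨h1.mV k hP, h1.mW k hP⟩
    · intro β hβ h0 hP
      obtain ⟨r2, h1⟩ := key β hβ h0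
      exact ⟨h1.good k hP β hβ r2.symm, h1.bad k hP β hβ r2.symm⟩

/-- **sums with the weight `E[g | Jf]`** from a bound of the inside mean -/
theorem sum_cls (hJ : IsStop A Jf) {F : PDat n → Finset ℂ → ℝ≥0∞} {f : Finset ℂ → ℝ≥0∞}
    (H : ∀ β β', β ⊆ A → β' ⊆ A → β' ∩ Jf β = β ∩ Jf β → g (paint A β) ≠ 0 →
      g (paint A β') ≠ 0 → av A (Jf β) (F (dat β)) β ≤ f β') :
    ∑ b ∈ A.powerset, av A (Jf b) (fun b => g (paint A b)) b * F (dat (rp1 Jf g A b)) b ≤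
      ∑ b ∈ A.powerset, g (paint A b) * f b := by
  rw [sum_av_av hJ (fun b => g (paint A b)) fun b => F (dat (rp1 Jf g A b)) b]
  refine Finset.sum_le_sum fun b hb => ?_
  rw [Finset.mem_powerset] at hb
  by_cases h0 : g (paint A b) = 0
  · rw [h0, zero_mul, zero_mul]
  refine mul_le_mul_right ?_ _
  obtain ⟨r1, r2, r3⟩ := rp1_spec' (Jf := Jf) hb h0
  have rJ := rp1_J hJ hb r1 r2
  have h2 := H (rp1 Jf g A b) b r1 hb (by rw [rJ]; exact r2.symm) r3 h0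
  refine le_trans (le_of_eq ?_) h2
  rw [rJ]
  unfold av
  rw [r2]
  congr 1
  refine Finset.sum_congr rfl fun b' hb' => ?_
  rw [Finset.mem_powerset] at hb'
  have hs := CondWx440.out_sub (V := A) (R := Jf b) hb hb'
  beta_reduce
  rw [rp1_eq hJ hb hs (CondWx440.out_inter hb')]

end one

/-! ### the flip at one sample -/

section flip

open Crest.Agent.R143.Frame1x395 Crest.Agent.R143.Frame2x395 Crest.Agent.R143.Frame3x395
  Crest.Agent.R143.Frame8x395 Crest.Agent.R143.Frame9x395 Crest.Agent.R143.Frame10x395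
  Crest.Agent.R143.Frame11x395
open Crest.Agent.R143.DelGx806 Crest.Agent.R143.DelRx806
  Crest.Agent.R143.JColx54 Crest.Agent.R143.FinCx811 Crest.Agent.R143.SmallAx304
  Crest.Agent.R143.MassPx304 Crest.Agent.R143.FlipQx565
open Crest.Agent.R143.SumScx302 Crest.Agent.R143.Mass1x302
  Crest.Agent.R143.Mass2x302 Crest.Agent.R143.Mass3x302 Crest.Agent.R143.Mass4x302
  Crest.Agent.R143.Mass5x302

/-- 565's `Qf` for a function of the black sites -/
def QfA (k : ℝ) (U P : Set ℂ) (A : Finset ℂ) (Φ : Finset ℂ → ℝ≥0∞) : Prop :=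
  (∀ β ∈ A.powerset, Φ β = 0) ∨
  ∃ (hS : GP (A : Set ℂ)) (h3 : 3 ≤ A.card), (∀ v ∈ A, v ∈ U → ¬ OnHull A v) ∧
    ∃ (e0 : D0 A) (a : D0 A → ℂ),
      (∀ t : T3, Fc P U t.1 t.2.1 t.2.2 → a (gd (dl e0) t) = Nn t) ∧
    ∃ R₁ R Ar : Finset ℂ → Finset ℂ, FlG A R₁ R Ar ∧
      ∀ β ∈ A.powerset, Φ β ≠ 0 →
        Paid (rc0 hS) (cfg (rc0 hS) (chiS hS h3 (flf (gf R Ar) β))) a
          (bigB P U (rc0 hS) (dl e0) k (cfg (rc0 hS) (chiS hS h3 (flf (gf R Ar) β)))) (Φ β)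

set_option maxHeartbeats 400000 in
/-- **H5 (Q) at one sample** : `E ε` is measurable, `∫ E ε → 0`; the inequality holds for all `Φ` at
almost every sample -/
theorem flipQ {k : ℝ} (hk : 0 < k) {U : Set ℂ} (hU : Bornology.IsBounded U) :
    ∃ E : ℝ → Sample → ℝ≥0∞, (∀ ε, 0 < ε → Measurable (E ε)) ∧
      Tendsto (fun ε : ℝ => ∫⁻ ω, E ε ω ∂sampleLaw) (𝓝[>] 0) (𝓝 0) ∧
      ∀ ε : ℝ, 0 < ε → ∀ B : Set ℂ, Bornology.IsBounded B → U ⊆ B →
        ∀ᵐ ω ∂sampleLaw, ∀ Φ : Finset ℂ → ℝ≥0∞, QfA k U (points ε ω) (Ap ε B ω) Φ →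
          ∑ β ∈ (Ap ε B ω).powerset, Φ β ≤ 2 ^ (Ap ε B ω).card * E ε ω := by
  obtain ⟨E, h1, h2, -, h4⟩ := sum_rule_meas hk hU
  refine ⟨E, h1, h2, ?_⟩
  intro ε hε B hB hUB
  have hGP : ∀ᵐ ω ∂sampleLaw, GP (points ε ω) := by
    filter_upwards [PoisM3x930.m3a ε hε] with ω h using h.1
  filter_upwards [hGP] with ω hP Φ hq
  have hA := coe_Ap hε hB ω
  have hPS : ∀ z ∈ U, z ∈ points ε ω ↔ z ∈ ((Ap ε B ω : Finset ℂ) : Set ℂ) := by
    intro z hz
    rw [hA]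
    exact ⟨fun h => ⟨h, hUB hz⟩, fun h => h.1⟩
  rcases hq with hq | ⟨hS, h3, hin, e0, a, ha, R₁, R, Ar, hF, hst⟩
  · rw [Finset.sum_eq_zero fun β hβ => hq β hβ]
    exact zero_le
  · have Ag := agr_restr (agr0 hP hS hPS hin e0) e0
    have h5 := h4 ε ω (D0 (Ap ε B ω)) (Cs hS) (rc0 hS) (dl e0) _ Ag a ha
    have h6 := real_le hS h3 h5
    have h7 : ∑ β ∈ (Ap ε B ω).powerset, Φ β ≤ ∑ β ∈ (Ap ε B ω).powerset,
        ∑ β' ∈ bigB (points ε ω) U (rc0 hS) (dl e0) k (cfg (rc0 hS) (chiS hS h3 β)), ec a β' :=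
      flip_pay (χ := chiS hS h3) hF a (fun x => bigB (points ε ω) U (rc0 hS) (dl e0) k x)
        fun b hb h0 => hst b (Finset.mem_powerset.2 hb) h0
    refine h7.trans ?_
    have c0 : ((2 : ℝ≥0∞) ^ (Ap ε B ω).card) ≠ 0 := by positivity
    have c1 : ((2 : ℝ≥0∞) ^ (Ap ε B ω).card) ≠ ∞ := ENNReal.pow_ne_top (by norm_num)
    have h8 := mul_le_mul_right h6 ((2 : ℝ≥0∞) ^ (Ap ε B ω).card)
    rw [← mul_assoc, ENNReal.mul_inv_cancel c0 c1, one_mul] at h8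
    exact h8

end flip

end Crest.Agent.R143.KapIx440
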