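import Crest.Agent.R143.KapF_440

/-!
# Row 143 (S0194), block H, H5 = KAPPA, route 2 (helper440): representative form of `RingP`

`Jf` = stopping sets, `g` = product weight (not decided). In every class of `Jf` with `cw ≠ 0` one
member `b⋆` with `g ≠ 0` is chosen as a function of the outcome (`rp`, `rep`). All data (`PDat`) are
arbitrary functions `dat A b⋆` of the representative, so nothing has to be proved decided.
* `rep_eq`, `rep_spec`, `rep_J` ; `up` : functionals from the data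
* `RepOK` : what has to be shown for one `b⋆` with `g ≠ 0`
* `MajR` : majorants; `MajR.of_av` : from a bound of the inside mean at the representative
* **`ringP_of_rep`**
-/

set_option autoImplicit false

noncomputable section

open scoped Classical

namespace Crest.Agent.R143.KapRx440

open MeasureTheory Filter Topology Complex ComplexConjugate
open Crest.ProbabilityR.Voronoi
open Crest.Agent.R143.B0x346
open Crest.Agent.R143.Dblx609 Crest.Agent.R143.Dbl2x609 Crest.Agent.R143.HGluex136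
  Crest.Agent.R143.Trix106 Crest.Agent.R143.KapAx690 Crest.Agent.R143.KapEx440
  Crest.Agent.R143.CondWx440 Crest.Agent.R143.KapFx440 Crest.Agent.R143.Asm4x414
open Crest.Agent.R143.Harx315 Crest.Agent.R143.Histx389
open scoped ENNReal

variable {Jf : Finset ℂ → Finset ℂ → Finset ℂ} {g : Set (ℂ × Bool) → ℝ≥0∞} {A : Finset ℂ}

/-- representative of an outcome -/
def rp (g : Set (ℂ × Bool) → ℝ≥0∞) (A R o : Finset ℂ) : Finset ℂ :=
  if h : ∃ b', b' ⊆ A ∧ b' ∩ R = o ∧ g (paint A b') ≠ 0 then h.choose else ∅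

/-- representative of the class of `β` -/
def rep (Jf : Finset ℂ → Finset ℂ → Finset ℂ) (g : Set (ℂ × Bool) → ℝ≥0∞) (A β : Finset ℂ) :
    Finset ℂ := rp g A (Jf A β) (β ∩ Jf A β)

theorem rep_eq (hJ : IsStop A (Jf A)) {β β' : Finset ℂ} (hβ : β ⊆ A) (hβ' : β' ⊆ A)
    (h : β' ∩ Jf A β = β ∩ Jf A β) : rep Jf g A β' = rep Jf g A β := by
  have e := hJ.stop β β' hβ hβ' h.symm
  unfold rep
  rw [e, h]

theorem rep_spec {β : Finset ℂ} (hβ : β ⊆ A) (h0 : cw Jf g (paint A β) ≠ 0) :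
    rep Jf g A β ⊆ A ∧ rep Jf g A β ∩ Jf A β = β ∩ Jf A β ∧ g (paint A (rep Jf g A β)) ≠ 0 := by
  have h := cw_ne hβ h0
  unfold rep rp
  rw [dif_pos h]
  exact h.choose_spec

theorem rep_spec' {β : Finset ℂ} (hβ : β ⊆ A) (h0 : g (paint A β) ≠ 0) :
    rep Jf g A β ⊆ A ∧ rep Jf g A β ∩ Jf A β = β ∩ Jf A β ∧ g (paint A (rep Jf g A β)) ≠ 0 := by
  have h : ∃ b', b' ⊆ A ∧ b' ∩ Jf A β = β ∩ Jf A β ∧ g (paint A b') ≠ 0 := ⟨β, hβ, rfl, h0⟩
  unfold rep rp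
  rw [dif_pos h]
  exact h.choose_spec

theorem rep_J (hJ : IsStop A (Jf A)) {β : Finset ℂ} (hβ : β ⊆ A) (h : rep Jf g A β ⊆ A)
    (h' : rep Jf g A β ∩ Jf A β = β ∩ Jf A β) : Jf A (rep Jf g A β) = Jf A β :=
  hJ.stop β _ hβ h h'.symm

/-- the data of one class: total `t`, mean end points `Z`, joined patterns `J`; charge `V` and
displacement `W` of the root chord, error terms `q`, mark event `Mk` as functions of the painting -/
structure PDat (n : ℕ) where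
  t : ℂ
  Z : Fin 3 → ℂ
  J : Fin 3 → Prop
  V : Fin 3 → Finset ℂ → ℂ
  W : Fin 3 → Finset ℂ → ℂ
  q : Fin 3 → Fin n → Finset ℂ → ℝ≥0∞
  Mk : Fin 3 → Finset ℂ → Prop

variable {n : ℕ} {dat : Finset ℂ → Finset ℂ → PDat n}

/-- functional from the data of the class -/
def up {γ : Type*} (Jf : Finset ℂ → Finset ℂ → Finset ℂ) (g : Set (ℂ × Bool) → ℝ≥0∞)
    (dat : Finset ℂ → Finset ℂ → PDat n) (F : PDat n → Finset ℂ → γ) (X : Set (ℂ × Bool)) : γ :=
  F (dat (st X) (rep Jf g (st X) (bl X))) (bl X)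

theorem up_paint {γ : Type*} {F : PDat n → Finset ℂ → γ} {β : Finset ℂ} (h : β ⊆ A) :
    up Jf g dat F (paint A β) = F (dat A (rep Jf g A β)) β := by
  unfold up
  rw [st_paint, bl_paint h]

/-- **what has to be shown for one representative** -/
structure RepOK (κ z0 : ℂ) (b r : ℝ) (A R β : Finset ℂ) (D : PDat n) (rr K0 : ℝ≥0∞) : Prop where
  hl : Hl z0 b r D.Z
  two : ∃ i j, i ≠ j ∧ D.J i ∧ D.J j
  mV : ∀ k : Fin 3, D.J k → avc A R (D.V k) β = om ^ (k : ℕ) * D.t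
  mW : ∀ k : Fin 3, D.J k → avc A R (D.W k) β = Df D.Z k
  good : ∀ k, D.J k → ∀ b', b' ⊆ A → b' ∩ R = β ∩ R → ¬ D.Mk k b' →
    ENNReal.ofReal ‖κ * conj (D.W k b') - D.V k b'‖ ≤ ∑ i, D.q k i b' + rr
  bad : ∀ k, D.J k → ∀ b', b' ⊆ A → b' ∩ R = β ∩ R → D.Mk k b' →
    ENNReal.ofReal ‖κ * conj (D.W k b') - D.V k b'‖ ≤ ENNReal.ofReal ‖D.V k b'‖ + K0

theorem avc_congr {V R : Finset ℂ} {F : Finset ℂ → ℂ} {b b' : Finset ℂ} (h : b' ∩ R = b ∩ R) :
    avc V R F b' = avc V R F b := by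
  unfold avc
  rw [h]

variable {ε : ℝ} {B : Set ℂ}

/-- majorant of the quenched mean of `E[g | Out] F` -/
structure MajR (ε : ℝ) (B : Set ℂ) (Jf : Finset ℂ → Finset ℂ → Finset ℂ)
    (g : Set (ℂ × Bool) → ℝ≥0∞) (dat : Finset ℂ → Finset ℂ → PDat n)
    (F : PDat n → Finset ℂ → ℝ≥0∞) (R : Sample → ℝ≥0∞) : Prop where
  me : AEMeasurable R sampleLaw
  le : ∀ᵐ ω ∂sampleLaw, mq ε B (fun X => cw Jf g X * up Jf g dat F X) ω ≤ R ω

/-- **from a bound of the inside mean at the representatives** : `f` any functional -/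
theorem MajR.of_av {F : PDat n → Finset ℂ → ℝ≥0∞} {f : Set (ℂ × Bool) → ℝ≥0∞}
    (hJ : ∀ᵐ ω ∂sampleLaw, IsStop (Ap ε B ω) (Jf (Ap ε B ω)))
    (hm : AEMeasurable (fun ω => mq ε B (fun X => g X * f X) ω) sampleLaw)
    (H : ∀ᵐ ω ∂sampleLaw, ∀ β β', β ⊆ Ap ε B ω → β' ⊆ Ap ε B ω →
      β' ∩ Jf (Ap ε B ω) β = β ∩ Jf (Ap ε B ω) β → g (paint (Ap ε B ω) β) ≠ 0 →
      g (paint (Ap ε B ω) β') ≠ 0 →
      av (Ap ε B ω) (Jf (Ap ε B ω) β) (F (dat (Ap ε B ω) β)) β ≤ f (paint (Ap ε B ω) β')) :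
    MajR ε B Jf g dat F fun ω => mq ε B (fun X => g X * f X) ω := by
  refine ⟨hm, ?_⟩
  filter_upwards [hJ, H] with ω hJ H
  set A := Ap ε B ω with hA
  unfold mq
  rw [← hA]
  refine mul_le_mul_right ?_ _
  have h1 := sum_cw (g := g) hJ fun b => up Jf g dat F (paint A b)
  refine (le_of_eq h1).trans (Finset.sum_le_sum fun b hb => ?_)
  rw [Finset.mem_powerset] at hb
  show _ ≤ g (paint A b) * f (paint A b)
  by_cases h0 : g (paint A b) = 0
  · rw [h0, zero_mul, zero_mul]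
  refine mul_le_mul_right ?_ _
  obtain ⟨r1, r2, r3⟩ := rep_spec' (Jf := Jf) hb h0
  have rJ := rep_J hJ hb r1 r2
  have h2 := H (rep Jf g A b) b r1 hb (by rw [rJ]; exact r2.symm) r3 h0
  refine le_trans (le_of_eq ?_) h2
  rw [rJ]
  unfold av
  rw [r2]
  congr 1
  refine Finset.sum_congr rfl fun b' hb' => ?_
  rw [Finset.mem_powerset] at hb'
  have hs := out_sub (V := A) (R := Jf A b) hb hb'
  beta_reduce
  rw [up_paint hs, rep_eq hJ hb hs (CondWx440.out_inter hb')]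

/-- constant bound -/
theorem MajR.const {F : PDat n → Finset ℂ → ℝ≥0∞} {c : ℝ≥0∞} (hε : 0 < ε) (hBm : MeasurableSet B)
    (hB : Bornology.IsBounded B) (hg : Poisx304.FM g)
    (hJ : ∀ᵐ ω ∂sampleLaw, IsStop (Ap ε B ω) (Jf (Ap ε B ω)))
    (H : ∀ᵐ ω ∂sampleLaw, ∀ β, β ⊆ Ap ε B ω → g (paint (Ap ε B ω) β) ≠ 0 →
      av (Ap ε B ω) (Jf (Ap ε B ω) β) (F (dat (Ap ε B ω) β)) β ≤ c) :
    MajR ε B Jf g dat F fun ω => c * mq ε B g ω := by
  have e : ∀ ω, mq ε B (fun X => g X * c) ω = c * mq ε B g ω := by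
    intro ω
    rw [← mq_mul]
    congr 1
    funext X
    exact mul_comm _ _
  have h := MajR.of_av (dat := dat) (F := F) (f := fun _ => c) (B := B) (g := g) hJ (by
    simp only [e]
    exact (mq_meas hε hBm hB hg).const_mul c) (by
    filter_upwards [H] with ω h1 β β' h2 _ _ h5 _ using h1 β h2 h5)
  simpa only [e] using h

theorem MajR.mono {F F' : PDat n → Finset ℂ → ℝ≥0∞} {R : Sample → ℝ≥0∞}
    (h : MajR ε B Jf g dat F R)
    (hJ : ∀ᵐ ω ∂sampleLaw, IsStop (Ap ε B ω) (Jf (Ap ε B ω)))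
    (H : ∀ᵐ ω ∂sampleLaw, ∀ β b', β ⊆ Ap ε B ω → b' ⊆ Ap ε B ω →
      b' ∩ Jf (Ap ε B ω) β = β ∩ Jf (Ap ε B ω) β → g (paint (Ap ε B ω) β) ≠ 0 →
      F' (dat (Ap ε B ω) β) b' ≤ F (dat (Ap ε B ω) β) b') : MajR ε B Jf g dat F' R := by
  refine ⟨h.me, ?_⟩
  filter_upwards [h.le, H, hJ] with ω h1 h2 hJ
  refine (mq_mono fun β hβ => ?_).trans h1
  rw [Finset.mem_powerset] at hβ
  by_cases h0 : cw Jf g (paint (Ap ε B ω) β) = 0
  · rw [h0, zero_mul, zero_mul]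
  obtain ⟨r1, r2, r3⟩ := rep_spec hβ h0
  rw [up_paint hβ, up_paint hβ]
  exact mul_le_mul_right (h2 _ _ r1 hβ (by rw [rep_J hJ hβ r1 r2]; exact r2.symm) r3) _

/-- **`RingP` from the representatives** -/
theorem ringP_of_rep {κ z0 : ℂ} {b r : ℝ} {K0 C η : ℝ≥0∞} (hr : r ≤ b / 200) (hε : 0 < ε)
    (hBm : MeasurableSet B) (hB : Bornology.IsBounded B) (hg : Poisx304.FM g)
    (hg1 : ∀ X, g X ≤ 1)
    (hpos : ∫⁻ ω, g (PP0x831.cfg ε ω ∩ ovM Bool B) ∂sampleLaw ≠ 0)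
    (hJ : ∀ᵐ ω ∂sampleLaw, IsStop (Ap ε B ω) (Jf (Ap ε B ω)))
    (H : ∀ᵐ ω ∂sampleLaw, ∀ β, β ⊆ Ap ε B ω → g (paint (Ap ε B ω) β) ≠ 0 →
      RepOK κ z0 b r (Ap ε B ω) (Jf (Ap ε B ω) β) β (dat (Ap ε B ω) β) η K0)
    {Rq : Fin 3 → Fin n → Sample → ℝ≥0∞} {Rm Rv : Fin 3 → Sample → ℝ≥0∞}
    (hq : ∀ k i, MajR ε B Jf g dat (fun D b' => if D.J k then D.q k i b' ^ 2 else 0) (Rq k i))
    (hm : ∀ k, MajR ε B Jf g dat (fun D b' => if D.J k ∧ D.Mk k b' then 1 else 0) (Rm k))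
    (hv : ∀ k, MajR ε B Jf g dat
      (fun D b' => if D.J k then ENNReal.ofReal ‖D.V k b'‖ ^ 2 else 0) (Rv k))
    (iq : ∀ k i, ∫⁻ ω, Rq k i ω ∂sampleLaw ≤
      η * ∫⁻ ω, g (PP0x831.cfg ε ω ∩ ovM Bool B) ∂sampleLaw)
    (im : ∀ k, ∫⁻ ω, Rm k ω ∂sampleLaw ≤
      η * ∫⁻ ω, g (PP0x831.cfg ε ω ∩ ovM Bool B) ∂sampleLaw)
    (iv : ∀ k, ∫⁻ ω, Rv k ω ∂sampleLaw ≤
      C * ∫⁻ ω, g (PP0x831.cfg ε ω ∩ ovM Bool B) ∂sampleLaw) :
    RingP κ z0 b ε n K0 C η := by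
  have hG : ∫⁻ ω, g (PP0x831.cfg ε ω ∩ ovM Bool B) ∂sampleLaw ≠ ∞ := by
    refine ne_top_of_le_ne_top ENNReal.one_ne_top ?_
    calc ∫⁻ ω, g (PP0x831.cfg ε ω ∩ ovM Bool B) ∂sampleLaw
        ≤ ∫⁻ _, 1 ∂sampleLaw := lintegral_mono fun ω => hg1 _
      _ = 1 := by simp
  -- the facts at every class with `cw ≠ 0`
  have key : ∀ᵐ ω ∂sampleLaw, ∀ β, β ⊆ Ap ε B ω → cw Jf g (paint (Ap ε B ω) β) ≠ 0 →
      rep Jf g (Ap ε B ω) β ⊆ Ap ε B ω ∧
      rep Jf g (Ap ε B ω) β ∩ Jf (Ap ε B ω) β = β ∩ Jf (Ap ε B ω) β ∧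
      RepOK κ z0 b r (Ap ε B ω) (Jf (Ap ε B ω) β) (rep Jf g (Ap ε B ω) β)
        (dat (Ap ε B ω) (rep Jf g (Ap ε B ω) β)) η K0 := by
    filter_upwards [hJ, H] with ω hJ H β hβ h0
    obtain ⟨r1, r2, r3⟩ := rep_spec hβ h0
    have h1 := H _ r1 r3
    rw [rep_J hJ hβ r1 r2] at h1
    exact ⟨r1, r2, h1⟩
  refine ⟨r, B, cw Jf g, _, up Jf g dat fun D _ => D.t, up Jf g dat fun D _ => D.Z,
    up Jf g dat fun D _ => D.J, hr, wt_cw hε hBm hB hg hJ, hpos, hG, ?_, fun k => ⟨?_⟩⟩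
  · filter_upwards [key] with ω key β hβ h0
    rw [Finset.mem_powerset] at hβ
    obtain ⟨-, -, h1⟩ := key β hβ h0
    rw [up_paint hβ, up_paint hβ]
    exact ⟨h1.hl, h1.two⟩
  · refine ⟨up Jf g dat fun D b' => D.V k b', up Jf g dat fun D b' => D.W k b',
      fun i => up Jf g dat fun D b' => D.q k i b', up Jf g dat fun D b' => D.Mk k b',
      Rq k, Rm k, Rv k, ?_, ?_, fun i => (hq k i).me, (hm k).me, (hv k).me, fun i => ?_, ?_, ?_,
      iq k, im k, iv k⟩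
    · filter_upwards [key, hJ] with ω key hJ
      refine ⟨Jf (Ap ε B ω), hJ, ?_, ?_⟩
      · intro β hβ β' hβ' h
        refine ⟨cw_dec' hJ hβ hβ' h, ?_⟩
        beta_reduce
        rw [up_paint hβ', up_paint hβ, rep_eq hJ hβ hβ' h]
      · intro β hβ h0 hP
        obtain ⟨r1, r2, h1⟩ := key β hβ h0
        rw [up_paint hβ] at hP
        have e : ∀ F : PDat n → Finset ℂ → ℂ,
            avc (Ap ε B ω) (Jf (Ap ε B ω) β) (fun b => up Jf g dat F (paint (Ap ε B ω) b)) β =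
            avc (Ap ε B ω) (Jf (Ap ε B ω) β)
              (F (dat (Ap ε B ω) (rep Jf g (Ap ε B ω) β))) (rep Jf g (Ap ε B ω) β) := by
          intro F
          rw [avc_congr r2]
          unfold avc
          congr 1
          refine Finset.sum_congr rfl fun b' hb' => ?_
          rw [Finset.mem_powerset] at hb'
          have hs := out_sub (V := Ap ε B ω) (R := Jf (Ap ε B ω) β) hβ hb'
          beta_reduce
          rw [up_paint hs, rep_eq hJ hβ hs (CondWx440.out_inter hb')]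
        rw [e fun D b' => D.V k b', e fun D b' => D.W k b']
        beta_reduce
        rw [up_paint hβ, up_paint hβ]
        exact ⟨h1.mV k hP, h1.mW k hP⟩
    · filter_upwards [key] with ω key β hβ h0 hP
      rw [Finset.mem_powerset] at hβ
      obtain ⟨r1, r2, h1⟩ := key β hβ h0
      simp only [up_paint hβ] at hP ⊢
      exact ⟨h1.good k hP β hβ r2.symm, h1.bad k hP β hβ r2.symm⟩
    · filter_upwards [(hq k i).le] with ω h1
      refine (mq_mono fun β hβ => ?_).trans h1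
      rw [Finset.mem_powerset] at hβ
      simp only [up_paint hβ]
      exact le_rfl
    · filter_upwards [(hm k).le] with ω h1
      refine (mq_mono fun β hβ => ?_).trans h1
      rw [Finset.mem_powerset] at hβ
      simp only [up_paint hβ]
      exact le_rfl
    · filter_upwards [(hv k).le] with ω h1
      refine (mq_mono fun β hβ => ?_).trans h1
      rw [Finset.mem_powerset] at hβ
      simp only [up_paint hβ]
      exact le_rfl

end Crest.Agent.R143.KapRx440
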