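import Crest.Agent.R143.PatF_253
import Crest.Agent.R143.Pat_828
import Crest.Agent.R143.StS_277
import Crest.Agent.R143.Loc_922

/-!
# Row 143 (S0194), block H, H5, box (F) of note 4110: geometry of the root chord (helper122)

* `isC_pin` : a pinned colouring is a configuration of the coarse map
* **`blk_cases`** : a face `≠ g` of the root chord has a free cell, or is the second junction face
  `Jt` (cells in `A i`, `A (i+1)`, `A (i+2)`)
* `jt_ctr` : with a centre (277's `CtrX`) there is no second junction face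
* **`inF_ctr`**, `inF_jt` : the hypothesis `InF` of 253's `vs_frame`, `chord_av` from the faces with a
  free site
* `fa_hol`, **`inF_hol`** : from the position of the free sites and the density `Hol`
* `Rg3.jt_gc` : in 828's ring pattern the third cell of the second junction face is a left cell of
  the arc `k`
-/

set_option autoImplicit false
set_option linter.unusedSectionVars false

noncomputable section

open scoped Classical ComplexConjugate

namespace Crest.Agent.R143.PatGx122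

open Crest.Agent.R143.B0x346 Crest.Agent.R143.DelGx806 Crest.Agent.R143.DelRx806
open Crest.Agent.R143.Frame1x395 Crest.Agent.R143.Frame2x395 Crest.Agent.R143.Frame3x395
  Crest.Agent.R143.Frame4x395 Crest.Agent.R143.Frame8x395 Crest.Agent.R143.Frame9x395
  Crest.Agent.R143.Frame10x395
  Crest.Agent.R143.NonXx592 Crest.Agent.R143.Coarsex166 Crest.Agent.R143.Coarse2x166
  Crest.Agent.R143.C2Sx395 Crest.Agent.R143.C2SBx395 Crest.Agent.R143.C2SCx395
  Crest.Agent.R143.C2SDx395 Crest.Agent.R143.K33x137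
open Crest.Agent.R143.FinCx811 (Cs rc0 cell_mem)
open Crest.Agent.R143.Frame5x395 (sd mem_sd th th_spec)
open Crest.Agent.R143.StQx828 Crest.Agent.R143.PatFx253

section map

variable {D C C' : Type} {M : CMap D C} {π : C → C'} {hπ : ClsCon M π}
  {A : ZMod 3 → Set C} {i : ZMod 3} {g h : D} {χ₀ χ : C → ZMod 2}

/-- a pinned colouring is constant on the giants -/
theorem pin_cls (hc : Rc A i χ₀) (hp : Pin A χ₀ χ) {j : ZMod 3} {c c' : C} (h : c ∈ A j)
    (h' : c' ∈ A j) : χ c = χ c' := by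
  have n1 : ¬ Free A c := fun hf => hf j h
  have n2 : ¬ Free A c' := fun hf => hf j h'
  rw [hp c n1, hp c' n2]
  rcases z3c i j with rfl | rfl | rfl
  · rw [hc.c1 c h, hc.c1 c' h']
  · rw [hc.c0 c h, hc.c0 c' h']
  · rw [hc.c2 c h, hc.c2 c' h']

/-- configurations of pinned colourings in the coarse map -/
theorem isC_pin [Fintype D] (Q : Cq π A) (hc : Rc A i χ₀) (hp : Pin A χ₀ χ) :
    IsC (coarse M π hπ) ∅ (cfg M χ) := by
  refine isC_coarse.2 ⟨cfg_isC χ, fun d _ e => ?_⟩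
  have key : χ (M.cell d) = χ (M.cell (M.rho d)) := by
    rcases (Q.ker _ _).1 e with e | ⟨j, h1, h2⟩
    · rw [e]
    · exact pin_cls hc hp h1 h2
  show χ (M.cell d) + χ (M.cell (M.rho d)) = 0
  rw [key]
  generalize χ (M.cell (M.rho d)) = a
  revert a; decide

/-- **second junction face** -/
def Jt (M : CMap D C) (A : ZMod 3 → Set C) (i : ZMod 3) (h : D) : Prop :=
  M.cell h ∈ A i ∧ M.cell (M.rho h) ∈ A (i + 1) ∧ M.cell (M.rho (M.rho h)) ∈ A (i + 2)

variable [Fintype D]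

/-- the three cells of a face of the root chord -/
theorem blk_cells (R : Root M A i g) (Q : Cq π A) (hc : Rc A i χ₀) (hp : Pin A χ₀ χ)
    (hh : h ∈ blk (coarse M π hπ) (cfg M χ) g) (hne : h ≠ g) :
    χ (M.cell h) = 1 ∧ χ (M.cell (M.rho h)) = 1 ∧ χ (M.cell (M.rho (M.rho h))) = 0 ∧
      M.cell h ∉ A (i + 1) ∧ M.cell (M.rho h) ∉ A i := by
  have hx : IsC (coarse M π hπ) ∅ (cfg M χ) := isC_pin Q hc hp
  obtain ⟨h1, h2⟩ := mem_blk.1 hh
  have g0 : χ (M.cell g) = 1 := by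
    rw [hp _ fun hf => hf _ R.r0]
    exact hc.c0 _ R.r0
  have g1 : χ (M.cell (M.rho g)) = 1 := by
    rw [hp _ fun hf => hf _ R.r1]
    exact hc.c1 _ R.r1
  have g2 : χ (M.cell (M.rho (M.rho g))) = 0 := by
    rw [hp _ fun hf => hf _ R.r2]
    exact hc.c2 _ R.r2
  have hg : Gp (coarse M π hπ) (cfg M χ) g := by
    constructor
    · show χ (M.cell g) + χ (M.cell (M.rho g)) = 0
      rw [g0, g1]; decide
    · show χ (M.cell (M.rho g)) + χ (M.cell (M.rho (M.rho g))) = 1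
      rw [g1, g2]; decide
  have hgM : Gp M (cfg M χ) g := hg
  have hhM : Gp M (cfg M χ) h := h1
  have hxM : IsC M ∅ (cfg M χ) := cfg_isC χ
  obtain ⟨c1, c2⟩ := Coarse2x166.blk_col (M := M) hxM hgM (k := h)
    (blk_coarse_sub (hπ := hπ) hh) χ rfl
  rw [g0] at c1 c2
  have c3 : χ (M.cell (M.rho (M.rho h))) = 0 := by
    have h3 : χ (M.cell (M.rho h)) + χ (M.cell (M.rho (M.rho h))) = 1 := hhM.2
    rw [c2] at h3
    revert h3
    generalize χ (M.cell (M.rho (M.rho h))) = a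
    revert a; decide
  have o1 : (coarse M π hπ).cell (Frame3x395.out (coarse M π hπ) g) = π (M.cell g) :=
    Frame9x395.cell_out hx hg
  have o2 : (coarse M π hπ).cell (Frame3x395.out (coarse M π hπ) h) = π (M.cell h) :=
    Frame9x395.cell_out hx h1
  refine ⟨c1, c2, c3, fun hm => ?_, fun hm => ?_⟩
  · have e : π (M.cell h) = π (M.cell g) := Q.eq hm R.r0
    rcases h2 (π (M.cell g)) with h3 | ⟨n, -, h4⟩ | ⟨n, -, h4⟩
    · exact hne h3.symm
    · exact h4 0 (Nat.zero_le _) o1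
    · exact h4 0 (Nat.zero_le _) (o2.trans e)
  · have e : π (M.cell (M.rho h)) = π (M.cell (M.rho g)) := Q.eq hm R.r1
    rcases h2 (π (M.cell (M.rho g))) with h3 | ⟨n, h3, h4⟩ | ⟨n, h3, h4⟩
    · exact hne h3.symm
    · refine h4 n le_rfl ?_
      rw [h3]
      exact e
    · refine h4 n le_rfl ?_
      rw [h3]
      rfl

/-- **a face of the root chord has a free cell or is the second junction face** -/
theorem blk_cases (R : Root M A i g) (Q : Cq π A) (hc : Rc A i χ₀) (hp : Pin A χ₀ χ)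
    (hh : h ∈ blk (coarse M π hπ) (cfg M χ) g) (hne : h ≠ g) :
    Free A (M.cell h) ∨ Free A (M.cell (M.rho h)) ∨ Free A (M.cell (M.rho (M.rho h))) ∨
      Jt M A i h := by
  obtain ⟨c1, c2, c3, n1, n2⟩ := blk_cells (hπ := hπ) R Q hc hp hh hne
  by_cases f1 : Free A (M.cell h)
  · exact Or.inl f1
  by_cases f2 : Free A (M.cell (M.rho h))
  · exact Or.inr (Or.inl f2)
  by_cases f3 : Free A (M.cell (M.rho (M.rho h)))
  · exact Or.inr (Or.inr (Or.inl f3))
  refine Or.inr (Or.inr (Or.inr ⟨?_, ?_, ?_⟩))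
  · have f : ∃ j, M.cell h ∈ A j := by
      by_contra hcon
      push Not at hcon
      exact f1 hcon
    obtain ⟨j, hj⟩ := f
    rcases z3c i j with rfl | rfl | rfl
    · exact hj
    · exact absurd hj n1
    · rw [hp _ f1, hc.c2 _ hj] at c1
      exact absurd c1 (by decide)
  · have f : ∃ j, M.cell (M.rho h) ∈ A j := by
      by_contra hcon
      push Not at hcon
      exact f2 hcon
    obtain ⟨j, hj⟩ := f
    rcases z3c i j with rfl | rfl | rfl
    · exact absurd hj n2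
    · exact hj
    · rw [hp _ f2, hc.c2 _ hj] at c2
      exact absurd c2 (by decide)
  · have f : ∃ j, M.cell (M.rho (M.rho h)) ∈ A j := by
      by_contra hcon
      push Not at hcon
      exact f3 hcon
    obtain ⟨j, hj⟩ := f
    rcases z3c i j with rfl | rfl | rfl
    · rw [hp _ f3, hc.c1 _ hj] at c3
      exact absurd c3 (by decide)
    · rw [hp _ f3, hc.c0 _ hj] at c3
      exact absurd c3 (by decide)
    · exact hj

/-- **`InF` from the faces with a free cell and the second junction face** -/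
theorem inF_of (R : Root M A i g) (Q : Cq π A) (hc : Rc A i χ₀) {F : D → Prop}
    (hF : ∀ d, F (M.rho d) ↔ F d) (h1 : ∀ d, Free A (M.cell d) → F d) (h2 : ∀ d, Jt M A i d → F d)
    (χ : C → ZMod 2) (hp : Pin A χ₀ χ) : InF M π hπ g F χ := by
  intro h hh hne
  rcases blk_cases (hπ := hπ) R Q hc hp hh hne with f | f | f | f
  · exact h1 _ f
  · exact (hF _).1 (h1 _ f)
  · exact (hF _).1 ((hF _).1 (h1 _ f))
  · exact h2 _ f

/-- uniqueness of the second junction face -/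
theorem jt_uniq (G : Gi M A) {h' : D} (H : Jt M A i h) (H' : Jt M A i h') : h = h' := by
  have e : ∀ j l : ZMod 3, j ≠ l → Disjoint (A j) (A l) := fun j l hjl =>
    Set.disjoint_left.2 fun c h1 h2 => hjl (G.disj _ _ c h1 h2)
  exact k33 ⟨G.con i, G.con _, G.con _, e _ _ (z3a i).1, e _ _ (z3a i).2.1, e _ _ (z3a i).2.2⟩ H H'

end map

/-! ### 828's ring pattern -/

section ring

open Crest.Agent.R143.Patx828
open Crest.Agent.R143.Flipx166 Crest.Agent.R143.R5bx166 Crest.Agent.R143.R5qx166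
open Splx117 (Lp InK gp)

variable {D C : Type} {M : CMap D C} {σ : C → ZMod 2} {p : D} {N : ℕ} {r : ZMod 3 → ℕ}
  {k : ZMod 3} {h : D}

/-- **the three cells of the second junction face are left cells of the three arcs** -/
theorem jt_gc [Fintype D] (X : Patx828.Rg3 M σ p N r)
    (H : Jt M (AP M (cfg M σ) p N r k) (k + 1) h) :
    M.cell h ∈ Gc M (cfg M σ) p N r (k + 1) ∧ M.cell (M.rho h) ∈ Gc M (cfg M σ) p N r (k + 2) ∧
      M.cell (M.rho (M.rho h)) ∈ Gc M (cfg M σ) p N r k := by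
  obtain ⟨h1, h2, h3⟩ := H
  obtain ⟨e1, e2, e3⟩ := Patx828.z3f k
  have n1 : k + 1 ≠ k := (z3a k).1.symm
  have n2 : k + 2 ≠ k := (z3a k).2.1.symm
  rw [ap_ne n1] at h1
  rw [e1, ap_ne n2] at h2
  rw [e3, ap_self] at h3
  refine ⟨h1, h2, h3.resolve_right fun hW => ?_⟩
  obtain ⟨j1, j2, j3⟩ := X.junction k
  obtain ⟨l1, l2, -⟩ := X.junction (k + 1)
  rw [e3] at l2
  have c1 : Cn M (Gc M (cfg M σ) p N r (k + 1) ∪ Gc M (cfg M σ) p N r k) :=
    cn_of (union_ccon' (X.gc_ccon _) (X.gc_ccon _) l1 l2)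
  have d1 : Disjoint (Gc M (cfg M σ) p N r (k + 1) ∪ Gc M (cfg M σ) p N r k)
      (Gc M (cfg M σ) p N r (k + 2)) := by
    refine Set.disjoint_left.2 ?_
    rintro c (hc | hc) hc'
    · exact (z3a k).2.2 (X.disj hc hc')
    · exact n2.symm (X.disj hc hc')
  have d2 : Disjoint (Gc M (cfg M σ) p N r (k + 1) ∪ Gc M (cfg M σ) p N r k)
      (Wc M (cfg M σ) p) := by
    refine Set.disjoint_left.2 ?_
    rintro c (hc | hc) hc'
    · exact X.wc_gc hc' hc
    · exact X.wc_gc hc' hc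
  have d3 : Disjoint (Gc M (cfg M σ) p N r (k + 2)) (Wc M (cfg M σ) p) :=
    Set.disjoint_left.2 fun c hc hc' => X.wc_gc hc' hc
  have e := k33 (M := M) ⟨c1, cn_of (X.gc_ccon _), cn_of wc_ccon, d1, d2, d3⟩
    (d := h) (d' := gp M (cfg M σ) p (r k)) ⟨Or.inl h1, h2, hW⟩ ⟨Or.inr j1, j2, j3⟩
  rw [← e] at j1
  exact n1 (X.disj h1 j1)

end ring

/-! ### sites -/

section site

open Crest.Agent.R143.K33x877 (fr CtrT CtrX Cls k3tx)
open Crest.Agent.R143.Locx922 (Hol)
open Crest.Agent.R143.Engx490 (fc fc_del)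
open Crest.Agent.R143.FinMx609 (cen3 rad3 cen3_iff)

variable {S : Finset ℂ} {hS : GP (S : Set ℂ)} {A : ZMod 3 → Set (Cs hS)} {i j k : ZMod 3}
  {g h : D0 S} {χ₀ : Cs hS → ZMod 2} {Z : ZMod 3 → ℂ}
  {C' : Type} [Fintype C'] {π : Cs hS → C'} {hπ : ClsCon (rc0 hS) π} {D : Set ℂ} {d : ℝ}

/-- the site of a free cell -/
theorem fr_cell (hf : Free A ((rc0 hS).cell h)) : h.1.1 ∈ fr S (st A) := by
  have ht : (h.1.1, h.1.2, th S h.1) ∈ delT S := th_spec h.2
  exact fr_of_free hf (mem3 hS ht).1 rfl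

/-- **with a centre there is no second junction face** -/
theorem jt_ctr (G : Gi (rc0 hS) A) (R : Root (rc0 hS) A i g) {X : Set ℂ}
    (hX : CtrX S (st A) X) (H : Jt (rc0 hS) A i h) : False := by
  have hC := StSx277.cls_of G
  have tg : (g.1.1, g.1.2, th S g.1) ∈ delT S := th_spec g.2
  have tt : (h.1.1, h.1.2, th S h.1) ∈ delT S := th_spec h.2
  obtain ⟨m1, m2, m3⟩ := mem3 hS tg
  obtain ⟨l1, l2, l3⟩ := mem3 hS tt
  have a1 : g.1.1 ∈ st A (i + 1) := (st_mem m1 rfl).2 R.r0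
  have a2 : g.1.2 ∈ st A i := (st_mem m2 rfl).2 R.r1
  have a3 : th S g.1 ∈ st A (i + 2) := (st_mem m3 rfl).2 R.r2
  have b1 : h.1.1 ∈ st A i := (st_mem l1 rfl).2 H.1
  have b2 : h.1.2 ∈ st A (i + 1) := (st_mem l2 rfl).2 H.2.1
  have b3 : th S h.1 ∈ st A (i + 2) := (st_mem l3 rfl).2 H.2.2
  have cg : CtrT S (st A) (g.1.1, g.1.2, th S g.1) := by
    refine ⟨tg, fun k => ?_⟩
    rcases z3c i k with rfl | rfl | rfl
    · exact ⟨_, Or.inr (Or.inl rfl), a2⟩
    · exact ⟨_, Or.inl rfl, a1⟩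
    · exact ⟨_, Or.inr (Or.inr rfl), a3⟩
  have ch : CtrT S (st A) (h.1.1, h.1.2, th S h.1) := by
    refine ⟨tt, fun k => ?_⟩
    rcases z3c i k with rfl | rfl | rfl
    · exact ⟨_, Or.inl rfl, b1⟩
    · exact ⟨_, Or.inr (Or.inl rfl), b2⟩
    · exact ⟨_, Or.inr (Or.inr rfl), b3⟩
  refine k3tx hC cg ?_ ch hX
  intro hr
  have key : ∀ {j l : ZMod 3} {v : ℂ}, j ≠ l → v ∈ st A j → v ∈ st A l → False :=
    fun hjl h1 h2 => Set.disjoint_left.1 (hC.disj _ _ hjl) h1 h2
  simp only [rots, Set.mem_insert_iff, Set.mem_singleton_iff, Prod.mk.injEq] at hr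
  rcases hr with ⟨e1, -, -⟩ | ⟨-, e2, -⟩ | ⟨e1, -, -⟩
  · rw [e1] at b1
    exact key (z3a i).1 b1 a1
  · rw [e2] at b2
    exact key (z3a i).2.2 b2 a3
  · rw [e1] at b1
    exact key (z3a i).2.1 b1 a3

/-- **`InF` for 828's pattern**, second junction face given -/
theorem inF_jt (P : Pt hS k j A g χ₀ Z) (Q : Cq π A)
    (h1 : ∀ h : D0 S, h.1.1 ∈ fr S (st A) → Fa S D d h)
    (h2 : ∀ h : D0 S, Jt (rc0 hS) A (k + 1) h → Fa S D d h) :
    ∀ χ, Pin A χ₀ χ → InF (rc0 hS) π hπ g (Fa S D d) χ :=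
  inF_of P.root Q P.rc (fa_rho hS D d) (fun h hf => h1 h (fr_cell hf)) h2

/-- **`InF` for 828's pattern**, with a centre -/
theorem inF_ctr (P : Pt hS k j A g χ₀ Z) (Q : Cq π A) {X : Set ℂ} (hX : CtrX S (st A) X)
    (h1 : ∀ h : D0 S, h.1.1 ∈ fr S (st A) → Fa S D d h) :
    ∀ χ, Pin A χ₀ χ → InF (rc0 hS) π hπ g (Fa S D d) χ :=
  inF_jt P Q h1 fun _ hJ => (jt_ctr P.gi P.root hX hJ).elim

/-- **a face with a vertex in a dense region is small** -/
theorem fa_hol {W : Set ℂ} (hd : 0 < d) (hH : Hol (S : Set ℂ) W d)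
    (hD : ∀ v ∈ W, ∀ o, ‖v - o‖ < d → o ∈ D) (h : D0 S) (hv : h.1.1 ∈ W) : Fa S D d h := by
  obtain ⟨-, -, -, hp, o, h1, h2, h3⟩ := fc_del h
  have e : o = cen3 (fc S h) := (cen3_iff hp).1 ⟨h1, h2⟩
  have ha : (fc S h).1 = h.1.1 := rfl
  have key : ‖h.1.1 - o‖ < d := by
    by_contra hc
    push Not at hc
    have hρ : 0 < ‖h.1.1 - o‖ := hd.trans_le hc
    set ρ := ‖h.1.1 - o‖ with hρe
    obtain ⟨s, hs, hsd⟩ := hH _ hv (h.1.1 + ((d / ρ : ℝ) : ℂ) * (o - h.1.1)) (by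
      rw [add_sub_cancel_left, norm_mul, Complex.norm_real, Real.norm_eq_abs,
        abs_of_nonneg (by positivity), norm_sub_rev o, ← hρe, div_mul_cancel₀ _ hρ.ne'])
    have h4 := h3 s hs
    rw [ha, ← hρe] at h4
    have h5 : ‖(h.1.1 + ((d / ρ : ℝ) : ℂ) * (o - h.1.1)) - o‖ = ρ - d := by
      have e1 : (h.1.1 + ((d / ρ : ℝ) : ℂ) * (o - h.1.1)) - o =
          ((1 - d / ρ : ℝ) : ℂ) * (h.1.1 - o) := by
        push_cast
        ring
      rw [e1, norm_mul, Complex.norm_real, Real.norm_eq_abs, abs_of_nonneg (by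
        rw [sub_nonneg, div_le_one hρ]; exact hc), ← hρe]
      field_simp
    have h6 : ‖s - o‖ ≤ ‖s - (h.1.1 + ((d / ρ : ℝ) : ℂ) * (o - h.1.1))‖ +
        ‖(h.1.1 + ((d / ρ : ℝ) : ℂ) * (o - h.1.1)) - o‖ := by
      have e2 : s - o = (s - (h.1.1 + ((d / ρ : ℝ) : ℂ) * (o - h.1.1))) +
          ((h.1.1 + ((d / ρ : ℝ) : ℂ) * (o - h.1.1)) - o) := by ring
      rw [e2]
      exact norm_add_le _ _
    rw [h5] at h6
    linarith
  refine ⟨?_, ?_⟩
  · rw [← e]
    exact hD _ hv o key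
  · unfold FinMx609.rad3
    rw [← e, ha]
    exact key.le

/-- **`InF` from the position of the free sites**, with a centre -/
theorem inF_hol (P : Pt hS k j A g χ₀ Z) (Q : Cq π A) {X : Set ℂ} (hX : CtrX S (st A) X)
    {W : Set ℂ} (hd : 0 < d) (hH : Hol (S : Set ℂ) W d)
    (hD : ∀ v ∈ W, ∀ o, ‖v - o‖ < d → o ∈ D) (hfr : fr S (st A) ⊆ W) :
    ∀ χ, Pin A χ₀ χ → InF (rc0 hS) π hπ g (Fa S D d) χ :=
  inF_ctr P Q hX fun h hh => fa_hol hd hH hD h (hfr hh)

end site

end Crest.Agent.R143.PatGx122
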