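import Crest.Agent.R143.PatF3_253
import Crest.Agent.R143.PatG_122
import Crest.Agent.R143.S1_828
import Crest.Agent.R143.KapR_440

/-!
# Row 143 (S0194), block H, H5, box (F) of note 4110 (helper253): the field `hv` of `ringP_of_rep`

* **`vk_av`** : 828's charge `Vk` of the pattern `k`, mean over the fresh coins at one representative:
  `≤ 18 Hd D d`; `vk_hol` : with 122's `inF_hol`
* `vkR`, `vkR_av` : the part of the root chord in the region `D` (no hypothesis on the faces)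
* `dta_av` : the same for 828's functional `dV` and his stopping set `dJ`
* **`majV`** : 440's `MajR` for `if J k then ‖V k‖² else 0`, majorant `K mq (g Hd)`; `majV_int` : its mass
-/

set_option autoImplicit false
set_option linter.unusedSectionVars false

noncomputable section

open scoped Classical ComplexConjugate

namespace Crest.Agent.R143.PatF4x253

open Crest.Agent.R143.B0x346 Crest.Agent.R143.DelGx806 Crest.Agent.R143.DelRx806
  Crest.Agent.R143.JColx54 Crest.Agent.R143.RE0x723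
open Crest.Agent.R143.NetUx346 (ff mem_ff)
open Crest.Agent.R143.Frame1x395 Crest.Agent.R143.Frame2x395 Crest.Agent.R143.Frame3x395
  Crest.Agent.R143.Frame4x395 Crest.Agent.R143.Frame8x395 Crest.Agent.R143.Frame9x395
  Crest.Agent.R143.Frame10x395
  Crest.Agent.R143.NonXx592 Crest.Agent.R143.Coarsex166 Crest.Agent.R143.Coarse2x166
  Crest.Agent.R143.C2Sx395 Crest.Agent.R143.C2SBx395 Crest.Agent.R143.C2SCx395
  Crest.Agent.R143.C2SDx395 Crest.Agent.R143.K33x137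
open Crest.Agent.R143.FinCx811 (Cs rc0 cell_mem)
open Crest.Agent.R143.StQx828 Crest.Agent.R143.FrStx253 Crest.Agent.R143.PatFx253
open Crest.Agent.R143.Freshx829 (scol)
open Crest.Agent.R143.S1x828
open Crest.Agent.R143.K33x877 (fr CtrX)
open Crest.Agent.R143.Locx922 (Hol)
open Crest.Agent.R143.TilePx176 (Hd)
open Crest.Agent.R143.HGluex136 Crest.Agent.R143.Dblx609 Crest.Agent.R143.Dbl2x609
open scoped ENNReal

section site

variable {S : Finset ℂ} {hS : GP (S : Set ℂ)} {A : ZMod 3 → Set (Cs hS)} {j k l : ZMod 3}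
  {g : D0 S} {Z : ZMod 3 → ℂ} {D : Set ℂ} {d : ℝ} {R β : Finset ℂ}

/-- the fresh coins decide the free sites -/
theorem pk_fresh (H : Hl A j) (l : ZMod 3) (hW : ff S (st A) ⊆ S \ R) {b' : Finset ℂ} :
    pk A l (scol hS ((b' ∪ (β ∩ R) : Finset ℂ) : Set ℂ)) =
      gx A (x0 A l) ((b' ∩ ff S (st A) : Finset ℂ) : Set ℂ) := by
  refine pk_gx H l fun v hv => ?_
  have h1 : v ∉ R := (Finset.mem_sdiff.1 (hW hv)).2
  rw [Finset.mem_union, Finset.mem_inter, Finset.mem_inter]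
  constructor
  · rintro (h2 | ⟨-, h2⟩)
    · exact ⟨h2, hv⟩
    · exact absurd h2 h1
  · exact fun h2 => Or.inl h2.1

/-- **the charge of the root chord** : mean over the fresh coins -/
theorem vk_av (P : Pt hS k j A g (x0 A l) Z) (hW : ff S (st A) ⊆ S \ R)
    (hF : ∀ χ, Pin A (x0 A l) χ → InF (rc0 hS) (pr A) (pr_con P.gi) g (Fa S D d) χ) :
    av S R (fun b => ENNReal.ofReal ‖Vk hS A g l (scol hS (b : Set ℂ))‖ ^ 2) β ≤
      18 * Hd D d (paint S β) := by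
  refine av_sites hW (φ := fun T => ENNReal.ofReal
    (‖Vs hS (pr A) (pr_con P.gi) g (gx A (x0 A l) (T : Set ℂ))‖ ^ 2)) (fun b' hb' => ?_) ?_
  · unfold Vk
    rw [dif_pos P.gi, pk_fresh P.hl l hW, RCLike.norm_conj, ENNReal.ofReal_pow (norm_nonneg _)]
  · refine (vs_frame (hπ := pr_con P.gi) P (pr_cq P.gi) (TileRx176.ps_paint S β) hF).trans
      (le_of_eq ?_)
    ring

/-- the same with 122's geometry -/
theorem vk_hol (P : Pt hS k j A g (x0 A l) Z) (hW : ff S (st A) ⊆ S \ R) {X : Set ℂ}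
    (hX : CtrX S (st A) X) {Wr : Set ℂ} (hd : 0 < d) (hH : Hol (S : Set ℂ) Wr d)
    (hD : ∀ v ∈ Wr, ∀ o, ‖v - o‖ < d → o ∈ D) (hfr : fr S (st A) ⊆ Wr) :
    av S R (fun b => ENNReal.ofReal ‖Vk hS A g l (scol hS (b : Set ℂ))‖ ^ 2) β ≤
      18 * Hd D d (paint S β) :=
  vk_av P hW (PatGx122.inF_hol P (pr_cq P.gi) hX hd hH hD hfr)

/-- the part of the root chord in the region: faces with centre in `D`, radius at most `d` -/
def vkR (hS : GP (S : Set ℂ)) (A : ZMod 3 → Set (Cs hS)) (g : D0 S) (l : ZMod 3) (D : Set ℂ)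
    (d : ℝ) (μ : Cs hS → ZMod 2) : ℂ :=
  if G : C2SBx395.Gi (rc0 hS) A then
    VgR (rc0 hS) (pr A) (pr_con G) g (Fa S D d) (Engx490.nn S) (pk A l μ) else 0

theorem vkR_av (P : Pt hS k j A g (x0 A l) Z) (hW : ff S (st A) ⊆ S \ R) :
    av S R (fun b => ENNReal.ofReal ‖vkR hS A g l D d (scol hS (b : Set ℂ))‖ ^ 2) β ≤
      18 * Hd D d (paint S β) := by
  refine av_sites hW (φ := fun T => ENNReal.ofReal
    (‖VgR (rc0 hS) (pr A) (pr_con P.gi) g (Fa S D d) (Engx490.nn S)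
      (gx A (x0 A l) (T : Set ℂ))‖ ^ 2)) (fun b' hb' => ?_) ?_
  · unfold vkR
    rw [dif_pos P.gi, pk_fresh P.hl l hW, ENNReal.ofReal_pow (norm_nonneg _)]
  · refine (vs_part (hπ := pr_con P.gi) P (pr_cq P.gi) (TileRx176.ps_paint S β)).trans
      (le_of_eq ?_)
    ring

/-- a sum of the charge over the faces in finitely many regions `D i` -/
theorem vkR_sum {ι : Type*} (s : Finset ι) (Dd : ι → Set ℂ) (P : Pt hS k j A g (x0 A l) Z)
    (hW : ff S (st A) ⊆ S \ R) :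
    av S R (fun b => ∑ i ∈ s,
      ENNReal.ofReal ‖vkR hS A g l (Dd i) d (scol hS (b : Set ℂ))‖ ^ 2) β ≤
      18 * ∑ i ∈ s, Hd (Dd i) d (paint S β) := by
  have h1 : av S R (fun b => ∑ i ∈ s,
      ENNReal.ofReal ‖vkR hS A g l (Dd i) d (scol hS (b : Set ℂ))‖ ^ 2) β =
      ∑ i ∈ s, av S R (fun b =>
        ENNReal.ofReal ‖vkR hS A g l (Dd i) d (scol hS (b : Set ℂ))‖ ^ 2) β := by
    unfold av
    rw [Finset.sum_comm, Finset.mul_sum]
  rw [h1, Finset.mul_sum]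
  exact Finset.sum_le_sum fun i _ => vkR_av P hW

/-! ### 828's functionals -/

variable {dt : Finset ℂ → Dt S} {E : Finset ℂ → Prop}

/-- `Φ = dV` with the stopping set `dJ` -/
theorem dta_av (H : Dta hS dt E) (hβ : β ⊆ S) (hE : E β) (k : ZMod 3)
    (hF : ∀ G : Gi (rc0 hS) (dA hS dt β k), ∀ χ, Pin (dA hS dt β k) (x0 (dA hS dt β k) k) χ →
      InF (rc0 hS) (pr (dA hS dt β k)) (pr_con G) (dg hS dt β k) (Fa S D d) χ) :
    av S (dJ hS dt E β) (fun b => ENNReal.ofReal ‖dV hS dt k b‖ ^ 2) β ≤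
      18 * Hd D d (paint S β) := by
  have Q := H.pt hβ hE k
  have hf := H.free_same hβ hE k
  have hsub : dF hS dt β ⊆ S := Finset.filter_subset _ _
  have hR : dJ hS dt E β = S \ dF hS dt β := if_pos hE
  have hSR : S \ (S \ dF hS dt β) = dF hS dt β := Finset.sdiff_sdiff_eq_self hsub
  have h1 := vk_av (R := dJ hS dt E β) (β := β) Q (by rw [hR, hSR, hf]) (hF Q.gi)
  refine le_trans (le_of_eq ?_) h1
  unfold av
  congr 1
  refine Finset.sum_congr rfl fun b' hb' => ?_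
  rw [Finset.mem_powerset, hR, hSR] at hb'
  have h2 : b' ∪ (β ∩ (S \ dF hS dt β)) ⊆ S :=
    Finset.union_subset (hb'.trans hsub) (Finset.inter_subset_left.trans hβ)
  have h3 : (b' ∪ (β ∩ (S \ dF hS dt β))) ∩ (S \ dF hS dt β) = β ∩ (S \ dF hS dt β) :=
    KapEx440.out_inter (by rwa [hSR])
  obtain ⟨-, h4, h5, -⟩ := H.same hβ hE h2 h3
  beta_reduce
  rw [hR]
  unfold dV
  rw [h4, h5]

end site

/-! ### 440's representative form -/

section rep

open MeasureTheory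
open Crest.ProbabilityR.Voronoi
open Crest.Agent.R143.Harx315 Crest.Agent.R143.Histx389 Crest.Agent.R143.PWx978
  Crest.Agent.R143.Hqx304 Crest.Agent.R143.KapRx440 Crest.Agent.R143.CondWx440
  Crest.Agent.R143.PatF2x253

variable {ε : ℝ} {B : Set ℂ} {Jf : Finset ℂ → Finset ℂ → Finset ℂ}
  {g : Set (ℂ × Bool) → ℝ≥0∞} {n : ℕ} {dat : Finset ℂ → Finset ℂ → PDat n} {K : ℝ≥0∞}
  {D₀ : Set ℂ} {d : ℝ}

/-- **a functional `F` of the data with `av F ≤ K Hd` at the representatives** -/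
theorem maj_hd (hε : 0 < ε) (hBm : MeasurableSet B) (hB : Bornology.IsBounded B)
    (hD : MeasurableSet D₀) (hg : Poisx304.FM g)
    (hJ : ∀ᵐ ω ∂sampleLaw, IsStop (Ap ε B ω) (Jf (Ap ε B ω)))
    {F : PDat n → Finset ℂ → ℝ≥0∞}
    (H : ∀ᵐ ω ∂sampleLaw, ∀ β, β ⊆ Ap ε B ω → g (paint (Ap ε B ω) β) ≠ 0 →
      av (Ap ε B ω) (Jf (Ap ε B ω) β) (F (dat (Ap ε B ω) β)) β ≤
        K * Hd D₀ d (paint (Ap ε B ω) β)) :
    MajR ε B Jf g dat F (Rvf K ε B g D₀ d) := by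
  have e : ∀ ω, mq ε B (fun X => g X * (K * Hd D₀ d X)) ω = Rvf K ε B g D₀ d ω := by
    intro ω
    unfold Rvf
    rw [← mq_mul]
    congr 1
    funext X
    ring
  have hFM : Poisx304.FM fun X : Set (ℂ × Bool) => g X * Hd D₀ d X :=
    fun k => (hg k).mul (TilePx176.Hd_meas hD d k)
  have h := MajR.of_av (dat := dat) (F := F) (f := fun X => K * Hd D₀ d X) (B := B) (g := g) hJ
    (by
      simp only [e]
      exact (mq_meas hε hBm hB hFM).const_mul K) (by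
    filter_upwards [H] with ω h1 β β' h2 h3 _ h5 _
    refine (h1 β h2 h5).trans (le_of_eq ?_)
    rw [hd_dec (Ap ε B ω) β' β])
  simpa only [e] using h

/-- **the field `hv`** -/
theorem majV (hε : 0 < ε) (hBm : MeasurableSet B) (hB : Bornology.IsBounded B)
    (hD : MeasurableSet D₀) (hg : Poisx304.FM g)
    (hJ : ∀ᵐ ω ∂sampleLaw, IsStop (Ap ε B ω) (Jf (Ap ε B ω))) (k : Fin 3)
    (H : ∀ᵐ ω ∂sampleLaw, ∀ β, β ⊆ Ap ε B ω → g (paint (Ap ε B ω) β) ≠ 0 →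
      (dat (Ap ε B ω) β).J k →
      av (Ap ε B ω) (Jf (Ap ε B ω) β)
        (fun b => ENNReal.ofReal ‖(dat (Ap ε B ω) β).V k b‖ ^ 2) β ≤
          K * Hd D₀ d (paint (Ap ε B ω) β)) :
    MajR ε B Jf g dat (fun D b' => if D.J k then ENNReal.ofReal ‖D.V k b'‖ ^ 2 else 0)
      (Rvf K ε B g D₀ d) := by
  refine maj_hd hε hBm hB hD hg hJ ?_
  filter_upwards [H] with ω h1 β h2 h3
  by_cases hP : (dat (Ap ε B ω) β).J k
  · simp only [if_pos hP]
    exact h1 β h2 h3 hP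
  · simp only [if_neg hP]
    unfold av
    rw [Finset.sum_const_zero, mul_zero]
    exact zero_le

/-- **the field `iv`** : the mass of the majorant, `g ≤ M.gw I J`, `G` = mass of `g` -/
theorem majV_int : ∃ C₀ : ℝ, 0 ≤ C₀ ∧ ∀ {ε d s : ℝ} {ι κ : Type} [DecidableEq ι] [DecidableEq κ]
    {M : Net ε ι κ} {I : Finset ι} {J : Finset κ} {n : ℕ} {I₁ : ℕ → Finset ι}
    {J₁ : ℕ → Finset κ} {D : ℕ → Set ℂ} {B : Set ℂ} {m0 : ℝ≥0∞},
    Wnd M I J n I₁ J₁ D d s B m0 → ∀ (D₀ : Set ℂ), MeasurableSet D₀ →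
    D₀ ⊆ (⋃ l ∈ Finset.range n, D l) → ∀ g₀ : Set (ℂ × Bool) → ℝ≥0∞, Poisx304.FM g₀ →
    (∀ᵐ ω ∂sampleLaw, ∀ β ∈ (Ap ε B ω).powerset,
      g₀ (paint (Ap ε B ω) β) ≤ M.gw I J (paint (Ap ε B ω) β)) → ∀ K C c G : ℝ≥0∞,
    RingLx239.mass M I J ≤ c * G →
    K * (ENNReal.ofReal (n * (C₀ * s ^ 2 / m0.toReal)) * c) ≤ C →
    ∫⁻ ω, Rvf K ε B g₀ D₀ d ω ∂sampleLaw ≤ C * G := by
  obtain ⟨C₀, hC₀, ht⟩ := en_dom
  refine ⟨C₀, hC₀, ?_⟩
  intro ε d s ι κ _ _ M I J n I₁ J₁ D B m0 h D₀ hDm hD g₀ hg hgw K C c G hm hC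
  have hFM : Poisx304.FM fun X : Set (ℂ × Bool) => g₀ X * Hd D₀ d X :=
    fun k => (hg k).mul (TilePx176.Hd_meas hDm d k)
  have hme := mq_meas M.eps h.Bm h.Bb hFM
  unfold Rvf
  rw [lintegral_const_mul'' _ hme]
  calc K * ∫⁻ ω, mq ε B (fun X => g₀ X * Hd D₀ d X) ω ∂sampleLaw
      ≤ K * (ENNReal.ofReal (n * (C₀ * s ^ 2 / m0.toReal)) * (c * G)) := by
        gcongr
        exact (ht h D₀ hDm hD g₀ hgw).trans (by gcongr)
    _ = K * (ENNReal.ofReal (n * (C₀ * s ^ 2 / m0.toReal)) * c) * G := by ring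
    _ ≤ C * G := by gcongr

end rep

end Crest.Agent.R143.PatF4x253
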