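import Crest.Agent.R143.KapI_440
import Crest.Agent.R143.DtaB_440
import Crest.Agent.R143.PatF4_253

/-!
# Row 143 (S0194), block H, H5 = KAPPA, route 2 (helper440): deterministic composition at one set of sites

`A` sites, `g` the weight, `Rf` the full exploration, `D b` = ring data of `b` (any function on the
configurations with `g ≠ 0`), `B3` any function (the bound of the ring law).
* `Gm` : `g ≠ 0` and `B3` minimal in its `Rf`-class; `ev_min`
* `Pc` : the data of one representative `b₀` (joined patterns, mark events, error terms)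
* `CoreA` : **the inputs of H5 at one set of sites** (one field per box)
* **`CoreA.ring3`** : the clause of 690's `Ring3` at one sample
* `CoreA.s2` : the sum of the ring law from the minimality
-/

set_option autoImplicit false
set_option linter.unusedSectionVars false

noncomputable section

open scoped Classical ComplexConjugate

namespace Crest.Agent.R143.KapJx440

open Crest.Agent.R143.Frame1x395 Crest.Agent.R143.Frame2x395 Crest.Agent.R143.Frame3x395
  Crest.Agent.R143.Frame4x395 Crest.Agent.R143.Frame8x395 Crest.Agent.R143.Frame9x395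
  Crest.Agent.R143.NonXx592 Crest.Agent.R143.Coarsex166 Crest.Agent.R143.Coarse2x166
  Crest.Agent.R143.Patx828 Crest.Agent.R143.S1x828 Crest.Agent.R143.DtaRx440
  Crest.Agent.R143.DtaBx440
open Crest.Agent.R143.B0x346 Crest.Agent.R143.DelGx806 Crest.Agent.R143.DelRx806
  Crest.Agent.R143.JColx54 Crest.Agent.R143.Frame10x395 Crest.Agent.R143.C2SCx395
  Crest.Agent.R143.C2SDx395
open Crest.Agent.R143.FinCx811 (Cs rc0 cell_mem)
open Crest.Agent.R143.Harx315 (IsStop)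
open Crest.Agent.R143.StPx828 (TZ)
open Crest.Agent.R143.HGluex136 (av)
open Crest.Agent.R143.Dblx609 Crest.Agent.R143.Dbl2x609
open Crest.Agent.R143.KapAx690 (Hl)
open Crest.Agent.R143.Trix106 (Df)
open Crest.Agent.R143.KapEx440 (avc)
open Crest.Agent.R143.KapRx440 (PDat RepOK)
open Crest.Agent.R143.KapQx690 (PatQ)
open Crest.Agent.R143.KapIx440
open scoped ENNReal

/-! ### the minimal representative -/

section min

variable {S : Finset ℂ} {Rf : Finset ℂ → Finset ℂ} {G0 : Finset ℂ → Prop}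
  {B3 : Finset ℂ → ℝ≥0∞} {β b b' : Finset ℂ}

/-- `G0` and minimal `B3` in the class -/
def Gm (S : Finset ℂ) (Rf : Finset ℂ → Finset ℂ) (G0 : Finset ℂ → Prop) (B3 : Finset ℂ → ℝ≥0∞)
    (b : Finset ℂ) : Prop :=
  G0 b ∧ ∀ b', b' ⊆ S → b' ∩ Rf b = b ∩ Rf b → G0 b' → B3 b ≤ B3 b'

theorem ev_min (hJ : IsStop S Rf) (hβ : β ⊆ S) (h : Ev S Rf G0 β) : Ev S Rf (Gm S Rf G0 B3) β := by
  set F : Finset (Finset ℂ) := S.powerset.filter fun b => b ∩ Rf β = β ∩ Rf β ∧ G0 b with hF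
  have hne : F.Nonempty := by
    obtain ⟨b, h1, h2, h3⟩ := h
    exact ⟨b, Finset.mem_filter.2 ⟨Finset.mem_powerset.2 h1, h2, h3⟩⟩
  obtain ⟨b, hb, hm⟩ := F.exists_min_image B3 hne
  obtain ⟨h1, h2, h3⟩ := Finset.mem_filter.1 hb
  rw [Finset.mem_powerset] at h1
  have hR : Rf b = Rf β := hJ.stop β b hβ h1 h2.symm
  refine ⟨b, h1, h2, h3, fun b' hb' e hG => hm b' (Finset.mem_filter.2
    ⟨Finset.mem_powerset.2 hb', ?_, hG⟩)⟩
  rw [hR, h2] at e
  exact e

end min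

/-! ### the inputs -/

/-- data of one representative: joined patterns, mark events, error terms (as functions of the
colouring in its class) -/
structure Pc where
  J : ZMod 3 → Prop
  Mk : ZMod 3 → Finset ℂ → Prop
  q : ZMod 3 → Fin 3 → Finset ℂ → ℝ≥0∞

variable {A : Finset ℂ}

/-- the ring data `D b₀` at every colouring -/
abbrev cst (D : Finset ℂ → Dt A) (b₀ : Finset ℂ) : Finset ℂ → Dt A := fun _ => D b₀

/-- **the inputs of H5 at one set of sites** -/
structure CoreA (hS : GP (A : Set ℂ)) (g : Set (ℂ × Bool) → ℝ≥0∞) (Rf : Finset ℂ → Finset ℂ)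
    (D : Finset ℂ → Dt A) (B3 : Finset ℂ → ℝ≥0∞) (pc : Finset ℂ → Pc) (κ z0 : ℂ) (b r : ℝ)
    (rr K0 : ℝ≥0∞) (rq : Fin 3 → Fin 3 → ℝ≥0∞) (rm rv : Fin 3 → ℝ≥0∞) : Prop where
  /-- (B1) the full exploration and the facts of one colouring -/
  stop : IsStop A Rf
  fb : ∀ β ⊆ A, g (paint A β) ≠ 0 → Fb hS D Rf β
  /-- (B9) the mean end points -/
  hl : ∀ β ⊆ A, g (paint A β) ≠ 0 → Hl z0 b r (dZ hS D β)
  /-- (J) two joined patterns -/
  two : ∀ β ⊆ A, g (paint A β) ≠ 0 → ∃ i j : ZMod 3, i ≠ j ∧ (pc β).J i ∧ (pc β).J j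
  /-- (B2) + (B4) + law : one colouring of the class of a representative -/
  good : ∀ β ⊆ A, Gm A Rf (fun b => g (paint A b) ≠ 0) B3 β → ∀ b', b' ⊆ A →
    b' ∩ Rf β = β ∩ Rf β → ∀ k, (pc β).J k → ¬ (pc β).Mk k b' →
    ENNReal.ofReal ‖κ * conj (S1x828.dW hS (cst D β) k b') - dV hS (cst D β) k b'‖ ≤
      ∑ i, (pc β).q k i b' + rr
  bad : ∀ β ⊆ A, Gm A Rf (fun b => g (paint A b) ≠ 0) B3 β → ∀ b', b' ⊆ A →
    b' ∩ Rf β = β ∩ Rf β → ∀ k, (pc β).J k → (pc β).Mk k b' →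
    ENNReal.ofReal ‖κ * conj (S1x828.dW hS (cst D β) k b') - dV hS (cst D β) k b'‖ ≤
      ENNReal.ofReal ‖dV hS (cst D β) k b'‖ + K0
  /-- (B3), (B5), (B6) : the error terms -/
  sq : ∀ k i, ∑ b ∈ A.powerset, av A (dJ hS (dB D Rf (Gm A Rf (fun b => g (paint A b) ≠ 0) B3))
      (Ev A Rf (Gm A Rf (fun b => g (paint A b) ≠ 0) B3)) b) (fun b => g (paint A b)) b *
      (if (pc (bs A Rf (Gm A Rf (fun b => g (paint A b) ≠ 0) B3) b)).J k then
        (pc (bs A Rf (Gm A Rf (fun b => g (paint A b) ≠ 0) B3) b)).q k i b ^ 2 else 0) ≤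
    2 ^ A.card * rq k i
  /-- (B7) the marks -/
  sm : ∀ k, ∑ b ∈ A.powerset, av A (dJ hS (dB D Rf (Gm A Rf (fun b => g (paint A b) ≠ 0) B3))
      (Ev A Rf (Gm A Rf (fun b => g (paint A b) ≠ 0) B3)) b) (fun b => g (paint A b)) b *
      (if (pc (bs A Rf (Gm A Rf (fun b => g (paint A b) ≠ 0) B3) b)).J k ∧
        (pc (bs A Rf (Gm A Rf (fun b => g (paint A b) ≠ 0) B3) b)).Mk k b then 1 else 0) ≤
    2 ^ A.card * rm k
  /-- (B8) the frame -/
  sv : ∀ k, ∑ b ∈ A.powerset, av A (dJ hS (dB D Rf (Gm A Rf (fun b => g (paint A b) ≠ 0) B3))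
      (Ev A Rf (Gm A Rf (fun b => g (paint A b) ≠ 0) B3)) b) (fun b => g (paint A b)) b *
      (if (pc (bs A Rf (Gm A Rf (fun b => g (paint A b) ≠ 0) B3) b)).J k then
        ENNReal.ofReal ‖dV hS (dB D Rf (Gm A Rf (fun b => g (paint A b) ≠ 0) B3)) k b‖ ^ 2
          else 0) ≤
    2 ^ A.card * rv k

set_option maxHeartbeats 400000

namespace CoreA

variable {hS : GP (A : Set ℂ)} {g : Set (ℂ × Bool) → ℝ≥0∞} {Rf : Finset ℂ → Finset ℂ}
    {D : Finset ℂ → Dt A} {B3 : Finset ℂ → ℝ≥0∞} {pc : Finset ℂ → Pc} {κ z0 : ℂ} {b r : ℝ}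
    {rr K0 : ℝ≥0∞} {rq : Fin 3 → Fin 3 → ℝ≥0∞} {rm rv : Fin 3 → ℝ≥0∞}

variable (H : CoreA hS g Rf D B3 pc κ z0 b r rr K0 rq rm rv)

include H

theorem inB : InB hS D Rf (Gm A Rf (fun b => g (paint A b) ≠ 0) B3) :=
  ⟨H.stop, fun β hβ h => H.fb β hβ h.1⟩

/-- **the clause of `Ring3` at one sample** -/
theorem ring3 : ∃ (Jf : Finset ℂ → Finset ℂ) (t : Finset ℂ → ℂ)
      (Z : Finset ℂ → Fin 3 → ℂ) (J : Finset ℂ → Fin 3 → Prop), IsStop A Jf ∧
      (∀ β, β ⊆ A → ∀ β', β' ⊆ A → β' ∩ Jf β = β ∩ Jf β → ∀ k, J β' k ↔ J β k) ∧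
      (∀ β, β ⊆ A → g (paint A β) ≠ 0 → Hl z0 b r (Z β) ∧ ∃ i j, i ≠ j ∧ J β i ∧ J β j) ∧
      ∀ k : Fin 3, PatQ A Jf (fun β => g (paint A β)) (fun β => J β k) κ
        (fun β => om ^ (k : ℕ) * t β) (fun β => Df (Z β) k) rr K0 3 (rq k) (rm k) (rv k) := by
  set G1 : Finset ℂ → Prop := Gm A Rf (fun b => g (paint A b) ≠ 0) B3 with hG1
  have I := H.inB
  rw [← hG1] at I
  have Dta := I.dta
  set dt : Finset ℂ → Dt A := dB D Rf G1 with hdt
  set E : Finset ℂ → Prop := Ev A Rf G1 with hE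
  set Jf : Finset ℂ → Finset ℂ := dJ hS dt E with hJf
  have hJ : IsStop A Jf := Dta.stop
  -- the event
  have hev : ∀ β, β ⊆ A → g (paint A β) ≠ 0 → E β := fun β hβ h0 =>
    ev_min (B3 := B3) H.stop hβ (⟨β, hβ, rfl, h0⟩ : Ev A Rf (fun b => g (paint A b) ≠ 0) β)
  -- members of one class of the outside have the same representative
  have hcl : ∀ β, β ⊆ A → E β → ∀ β', β' ⊆ A → β' ∩ Jf β = β ∩ Jf β →
      bs A Rf G1 β' = bs A Rf G1 β ∧ β' ∩ Rf β = β ∩ Rf β := by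
    intro β hβ hEβ β' hβ' e
    have e' : Jf β = A \ dF hS dt β := if_pos hEβ
    rw [e'] at e
    exact ⟨I.bs_out hβ hEβ hβ' e, I.sub_out hβ hEβ e⟩
  -- the data
  set dat : Finset ℂ → PDat 3 := fun β =>
    { t := conj (TZ (dZ hS dt β))
      Z := dZ hS dt β
      J := (pc (bs A Rf G1 β)).J
      V := dV hS dt
      W := S1x828.dW hS dt
      q := (pc (bs A Rf G1 β)).q
      Mk := (pc (bs A Rf G1 β)).Mk } with hdat
  -- the representative of the class of the outside has the same data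
  have hrp : ∀ β, β ⊆ A → av A (Jf β) (fun b => g (paint A b)) β ≠ 0 →
      bs A Rf G1 (rp1 Jf g A β) = bs A Rf G1 β := by
    intro β hβ h0
    obtain ⟨r1, r2, r3⟩ := rp1_spec hβ h0
    have hE1 := hev _ r1 r3
    refine (hcl _ r1 hE1 β hβ ?_).1.symm
    rw [rp1_J hJ hβ r1 r2]
    exact r2.symm
  have key : ∀ β, β ⊆ A → g (paint A β) ≠ 0 →
      RepOK κ z0 b r A (Jf β) β (dat β) rr K0 := by
    intro β hβ h0
    have hEβ := hev β hβ h0
    obtain ⟨b1, b2, b3, b4, -, -⟩ := I.bst hβ hEβ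
    have hb3 : g (paint A (bs A Rf G1 β)) ≠ 0 := b3.1
    refine ⟨?_, H.two _ b1 hb3, ?_, ?_, ?_, ?_⟩
    · have h1 := H.hl _ b1 hb3
      have e : dZ hS dt β = dZ hS D (bs A Rf G1 β) := by
        funext l
        unfold dZ
        rw [I.eA hβ hEβ]
      show Hl z0 b r (dZ hS dt β)
      rw [e]
      exact h1
    · intro k _
      exact (Dta.avc_eq hβ hEβ k).1
    · intro k _
      exact (Dta.avc_eq hβ hEβ k).2
    · intro k hk b' hb' e hM
      obtain ⟨c1, c2⟩ := hcl β hβ hEβ b' hb' e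
      have e1 : dt b' = D (bs A Rf G1 β) := by
        rw [hdt]
        unfold dB
        rw [c1]
      have h1 := H.good _ b1 b3 b' hb' (by rw [b4, c2, b2]) k hk hM
      have e2 : S1x828.dW hS dt k b' = S1x828.dW hS (cst D (bs A Rf G1 β)) k b' := by
        unfold S1x828.dW dA dg cst
        rw [e1]
      have e3 : dV hS dt k b' = dV hS (cst D (bs A Rf G1 β)) k b' := by
        unfold dV dA dg cst
        rw [e1]
      show ENNReal.ofReal ‖κ * conj (S1x828.dW hS dt k b') - dV hS dt k b'‖ ≤ _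
      rw [e2, e3]
      exact h1
    · intro k hk b' hb' e hM
      obtain ⟨c1, c2⟩ := hcl β hβ hEβ b' hb' e
      have e1 : dt b' = D (bs A Rf G1 β) := by
        rw [hdt]
        unfold dB
        rw [c1]
      have h1 := H.bad _ b1 b3 b' hb' (by rw [b4, c2, b2]) k hk hM
      have e2 : S1x828.dW hS dt k b' = S1x828.dW hS (cst D (bs A Rf G1 β)) k b' := by
        unfold S1x828.dW dA dg cst
        rw [e1]
      have e3 : dV hS dt k b' = dV hS (cst D (bs A Rf G1 β)) k b' := by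
        unfold dV dA dg cst
        rw [e1]
      show ENNReal.ofReal ‖κ * conj (S1x828.dW hS dt k b') - dV hS dt k b'‖ ≤
        ENNReal.ofReal ‖dV hS dt k b'‖ + K0
      rw [e2, e3]
      exact h1
  -- the sums
  have sums : ∀ (F : Pc → Finset ℂ → ℝ≥0∞) (c : ℝ≥0∞),
      ∑ b ∈ A.powerset, av A (Jf b) (fun b => g (paint A b)) b * F (pc (bs A Rf G1 b)) b ≤ c →
      ∑ b ∈ A.powerset, av A (Jf b) (fun b => g (paint A b)) b *
        F (pc (bs A Rf G1 (rp1 Jf g A b))) b ≤ c := by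
    intro F c h
    refine le_trans (le_of_eq ?_) h
    refine Finset.sum_congr rfl fun b hb => ?_
    rw [Finset.mem_powerset] at hb
    by_cases h0 : av A (Jf b) (fun b => g (paint A b)) b = 0
    · rw [h0, zero_mul, zero_mul]
    · rw [hrp b hb h0]
  obtain ⟨t, Z, J, h1, h2, h3⟩ := patQ_of_rep (rq := rq) (rm := rm) (rv := rv) hJ key
    (fun k i => sums (fun P b => if P.J k then P.q k i b ^ 2 else 0) _ (H.sq k i))
    (fun k => sums (fun P b => if P.J k ∧ P.Mk k b then 1 else 0) _ (H.sm k))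
    (fun k => sums (fun P b => if P.J k then ENNReal.ofReal ‖dV hS dt k b‖ ^ 2 else 0) _
      (H.sv k))
  exact ⟨Jf, t, Z, J, hJ, h1, h2, h3⟩

end CoreA

end Crest.Agent.R143.KapJx440
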