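import Crest.Agent.R143.KapJ_440

/-!
# Row 143 (S0194), block H, H5 = KAPPA, route 2 (helper440): the sums of `CoreA`

`W b = E[g | outside](b)`, the data are those of the representative `bs b`.
* `Wg` : the weight; `wg_le_one`; `sum_rep` : sums with `Wg` of functions of the representative and of
  the colouring, from the inside mean at the members with `g ≠ 0`
* `sq_law` : term decided by the representative, `≤ B3` (minimal representative): `≤ ∑ g B3`
* `sv_hd` : the frame: `≤ ∑ g (18 Hd)`; `hd_mq`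
* `paid_mono`, **`qfA_of`** : `QfA` from `Paid` at every colouring; `sq_flip`
-/

set_option autoImplicit false
set_option linter.unusedSectionVars false

noncomputable section

open scoped Classical ComplexConjugate

namespace Crest.Agent.R143.KapKx440

open Crest.ProbabilityR.Voronoi
open Crest.Agent.R143.Frame1x395 Crest.Agent.R143.Frame2x395 Crest.Agent.R143.Frame3x395
  Crest.Agent.R143.Frame4x395 Crest.Agent.R143.Frame8x395 Crest.Agent.R143.Frame9x395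
  Crest.Agent.R143.NonXx592 Crest.Agent.R143.Coarsex166 Crest.Agent.R143.Coarse2x166
  Crest.Agent.R143.Patx828 Crest.Agent.R143.S1x828 Crest.Agent.R143.DtaRx440
  Crest.Agent.R143.DtaBx440
open Crest.Agent.R143.B0x346 Crest.Agent.R143.DelGx806 Crest.Agent.R143.DelRx806
  Crest.Agent.R143.JColx54 Crest.Agent.R143.Frame10x395 Crest.Agent.R143.C2SCx395
  Crest.Agent.R143.C2SDx395
open Crest.Agent.R143.FinCx811 (Cs rc0 cell_mem)
open Crest.Agent.R143.SmallAx304 (chiS)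
open Crest.Agent.R143.Harx315 (IsStop)
open Crest.Agent.R143.HGluex136 (av mq)
open Crest.Agent.R143.Dblx609 Crest.Agent.R143.Dbl2x609
open Crest.Agent.R143.CondWx440 (av_mono sum_av_av)
open Crest.Agent.R143.KapIx440 Crest.Agent.R143.KapJx440
open Crest.Agent.R143.FlipQx565 (FlG flf gf Paid)
open scoped ENNReal

set_option maxHeartbeats 400000

variable {A : Finset ℂ}

section gen

variable (hS : GP (A : Set ℂ)) (g : Set (ℂ × Bool) → ℝ≥0∞) (Rf : Finset ℂ → Finset ℂ)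
  (D : Finset ℂ → Dt A) (B3 : Finset ℂ → ℝ≥0∞)

/-- the representative event of `CoreA` -/
abbrev G1 (A : Finset ℂ) (g : Set (ℂ × Bool) → ℝ≥0∞) (Rf : Finset ℂ → Finset ℂ)
    (B3 : Finset ℂ → ℝ≥0∞) : Finset ℂ → Prop := Gm A Rf (fun b => g (paint A b) ≠ 0) B3

/-- the stopping set of the outside -/
abbrev Jo (β : Finset ℂ) : Finset ℂ :=
  dJ hS (dB D Rf (G1 A g Rf B3)) (Ev A Rf (G1 A g Rf B3)) β

/-- the weight `E[g | outside]` -/
abbrev Wg (b : Finset ℂ) : ℝ≥0∞ := av A (Jo hS g Rf D B3 b) (fun b => g (paint A b)) b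

variable {hS g Rf D B3}

theorem wg_le_one (hg : ∀ X, g X ≤ 1) (b : Finset ℂ) : Wg hS g Rf D B3 b ≤ 1 :=
  KapBx690.av_le_one (fun _ => hg _) _

variable (I : InB hS D Rf (G1 A g Rf B3))

include I

theorem ev1 {β : Finset ℂ} (hβ : β ⊆ A) (h0 : g (paint A β) ≠ 0) :
    Ev A Rf (G1 A g Rf B3) β :=
  ev_min (B3 := B3) I.stop hβ (⟨β, hβ, rfl, h0⟩ : Ev A Rf (fun b => g (paint A b) ≠ 0) β)

/-- where the weight is not zero the ring event holds -/
theorem ev_of_wg {b : Finset ℂ} (hb : b ⊆ A) (h : Wg hS g Rf D B3 b ≠ 0) :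
    Ev A Rf (G1 A g Rf B3) b := by
  obtain ⟨b', h1, h2, h3⟩ := CondWx440.av_ne hb h
  have hE := ev1 I h1 h3
  have hJ : IsStop A (dJ hS (dB D Rf (G1 A g Rf B3)) (Ev A Rf (G1 A g Rf B3))) := I.dta.stop
  have hR : Jo hS g Rf D B3 b' = Jo hS g Rf D B3 b := hJ.stop b b' hb h1 h2.symm
  by_contra hc
  have e1 : Jo hS g Rf D B3 b = A := if_neg hc
  have e2 : Jo hS g Rf D B3 b' = A \ dF hS (dB D Rf (G1 A g Rf B3)) b' := if_pos hE
  rw [e1, Finset.inter_eq_left.2 h1, Finset.inter_eq_left.2 hb] at h2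
  rw [h2] at hE
  exact hc hE

/-- **sums of functions of the representative and of the colouring** -/
theorem sum_rep {F : Finset ℂ → Finset ℂ → ℝ≥0∞} {f : Finset ℂ → ℝ≥0∞}
    (H : ∀ β, β ⊆ A → g (paint A β) ≠ 0 →
      av A (Jo hS g Rf D B3 β) (F (bs A Rf (G1 A g Rf B3) β)) β ≤ f β) :
    ∑ b ∈ A.powerset, Wg hS g Rf D B3 b * F (bs A Rf (G1 A g Rf B3) b) b ≤
      ∑ b ∈ A.powerset, g (paint A b) * f b := by
  have hJ : IsStop A (Jo hS g Rf D B3) := I.dta.stop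
  have h0 := sum_av_av hJ (fun b => g (paint A b)) fun b => F (bs A Rf (G1 A g Rf B3) b) b
  refine (le_of_eq h0).trans (Finset.sum_le_sum fun b hb => ?_)
  rw [Finset.mem_powerset] at hb
  by_cases hg : g (paint A b) = 0
  · rw [hg, zero_mul, zero_mul]
  refine mul_le_mul_right (le_trans (le_of_eq ?_) (H b hb hg)) _
  have hE := ev1 I hb hg
  have e' : Jo hS g Rf D B3 b = A \ dF hS (dB D Rf (G1 A g Rf B3)) b := if_pos hE
  unfold av
  congr 1
  refine Finset.sum_congr rfl fun b' hb' => ?_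
  rw [Finset.mem_powerset] at hb'
  have hs := CondWx440.out_sub (V := A) (R := Jo hS g Rf D B3 b) hb hb'
  have hi := CondWx440.out_inter (V := A) (R := Jo hS g Rf D B3 b) (b := b) hb'
  beta_reduce
  rw [I.bs_out hb hE hs (by rw [← e']; exact hi)]

/-- **(B6)** a term which is at most `B3` at the representative -/
theorem sq_law {P : Finset ℂ → Prop} {q : Finset ℂ → Finset ℂ → ℝ≥0∞}
    (h : ∀ β, β ⊆ A → G1 A g Rf B3 β → ∀ b', b' ⊆ A → b' ∩ Rf β = β ∩ Rf β → P β →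
      q β b' ^ 2 ≤ B3 β) :
    ∑ b ∈ A.powerset, Wg hS g Rf D B3 b *
      (if P (bs A Rf (G1 A g Rf B3) b) then q (bs A Rf (G1 A g Rf B3) b) b ^ 2 else 0) ≤
      ∑ b ∈ A.powerset, g (paint A b) * B3 b := by
  refine sum_rep I (F := fun β b => if P β then q β b ^ 2 else 0) fun β hβ h0 => ?_
  have hE := ev1 I hβ h0
  obtain ⟨b1, b2, b3, b4, -, -⟩ := I.bst hβ hE
  have e' : Jo hS g Rf D B3 β = A \ dF hS (dB D Rf (G1 A g Rf B3)) β := if_pos hE
  have hmin : B3 (bs A Rf (G1 A g Rf B3) β) ≤ B3 β :=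
    b3.2 β hβ (by rw [b4, b2]) h0
  calc av A (Jo hS g Rf D B3 β) (fun b => if P (bs A Rf (G1 A g Rf B3) β) then
        q (bs A Rf (G1 A g Rf B3) β) b ^ 2 else 0) β
      ≤ av A (Jo hS g Rf D B3 β) (fun _ => B3 (bs A Rf (G1 A g Rf B3) β)) β := by
        refine av_mono hβ fun b' hb' hi => ?_
        rw [e'] at hi
        by_cases hP : P (bs A Rf (G1 A g Rf B3) β)
        · rw [if_pos hP]
          exact h _ b1 b3 b' hb' (by rw [b4, I.sub_out hβ hE hi, b2]) hP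
        · rw [if_neg hP]
          exact zero_le
    _ = B3 (bs A Rf (G1 A g Rf B3) β) := by
        unfold av
        rw [Finset.sum_const, Finset.card_powerset, nsmul_eq_mul]
        push_cast
        rw [← mul_assoc, ENNReal.inv_mul_cancel (by positivity)
          (ENNReal.pow_ne_top (by norm_num)), one_mul]
    _ ≤ B3 β := hmin

/-- **(B8)** the frame -/
theorem sv_hd {J : Finset ℂ → Prop} (k : ZMod 3) {f : Finset ℂ → ℝ≥0∞}
    (h : ∀ β, β ⊆ A → g (paint A β) ≠ 0 →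
      av A (Jo hS g Rf D B3 β)
        (fun b => ENNReal.ofReal ‖dV hS (dB D Rf (G1 A g Rf B3)) k b‖ ^ 2) β ≤ f β) :
    ∑ b ∈ A.powerset, Wg hS g Rf D B3 b *
      (if J (bs A Rf (G1 A g Rf B3) b) then
        ENNReal.ofReal ‖dV hS (dB D Rf (G1 A g Rf B3)) k b‖ ^ 2 else 0) ≤
      ∑ b ∈ A.powerset, g (paint A b) * f b := by
  refine sum_rep I (F := fun β b => if J β then
    ENNReal.ofReal ‖dV hS (dB D Rf (G1 A g Rf B3)) k b‖ ^ 2 else 0) fun β hβ h0 => ?_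
  refine le_trans ?_ (h β hβ h0)
  refine av_mono hβ fun b' hb' hi => ?_
  split_ifs
  · exact le_rfl
  · exact zero_le

/-- the sum of the frame from the mean of 253 (`dta_av`) -/
theorem sv_of {J : Finset ℂ → Prop} (k : ZMod 3) {D₀ : Set ℂ} {d : ℝ}
    (hF : ∀ β, β ⊆ A → g (paint A β) ≠ 0 → ∀ G : C2SBx395.Gi (rc0 hS)
        (dA hS (dB D Rf (G1 A g Rf B3)) β k),
      ∀ χ, C2SBx395.Pin (dA hS (dB D Rf (G1 A g Rf B3)) β k)
          (x0 (dA hS (dB D Rf (G1 A g Rf B3)) β k) k) χ →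
        PatFx253.InF (rc0 hS) (pr (dA hS (dB D Rf (G1 A g Rf B3)) β k)) (pr_con G)
          (dg hS (dB D Rf (G1 A g Rf B3)) β k) (PatFx253.Fa A D₀ d) χ) :
    ∑ b ∈ A.powerset, Wg hS g Rf D B3 b *
      (if J (bs A Rf (G1 A g Rf B3) b) then
        ENNReal.ofReal ‖dV hS (dB D Rf (G1 A g Rf B3)) k b‖ ^ 2 else 0) ≤
      ∑ b ∈ A.powerset, g (paint A b) * (18 * TilePx176.Hd D₀ d (paint A b)) :=
  sv_hd I k fun β hβ h0 => PatF4x253.dta_av I.dta hβ (ev1 I hβ h0) k (hF β hβ h0)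

omit I

/-- sums as quenched means -/
theorem sum_mq {ε : ℝ} {B : Set ℂ} {ω : Sample} (G F : Set (ℂ × Bool) → ℝ≥0∞) :
    ∑ b ∈ (Ap ε B ω).powerset, G (paint (Ap ε B ω) b) * F (paint (Ap ε B ω) b) =
      2 ^ (Ap ε B ω).card * mq ε B (fun X => G X * F X) ω := by
  unfold mq
  rw [← mul_assoc, ENNReal.mul_inv_cancel (by positivity) (ENNReal.pow_ne_top (by norm_num)),
    one_mul]

end gen

/-! ### the flip -/

section flip

variable {D C : Type} [Fintype D] {M : CMap D C}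

theorem paid_mono {x : D → ZMod 2} {φ : D → ℂ} {Big : Finset (Finset D)} {e e' : ℝ≥0∞}
    (h : Paid M x φ Big e) (he : e' ≤ e) : Paid M x φ Big e' := by
  obtain ⟨p₀, m, Rv, Γ, O, h1, h2⟩ := h
  exact ⟨p₀, m, Rv, Γ, O, h1, he.trans h2⟩

end flip

section flip2

open Crest.Agent.R143.SumScx302 Crest.Agent.R143.Mass1x302
  Crest.Agent.R143.Mass2x302 Crest.Agent.R143.Mass3x302 Crest.Agent.R143.Mass4x302
  Crest.Agent.R143.Mass5x302

variable {hS : GP (A : Set ℂ)} {g : Set (ℂ × Bool) → ℝ≥0∞} {Rf : Finset ℂ → Finset ℂ}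
  {D : Finset ℂ → Dt A} {B3 : Finset ℂ → ℝ≥0∞}

/-- **(B3)** `QfA` from `Paid` at every colouring of the event -/
theorem qfA_of (I : InB hS D Rf (G1 A g Rf B3)) (hg : ∀ X, g X ≤ 1) (h3 : 3 ≤ A.card) {k0 : ℝ}
    {U P : Set ℂ} (hin : ∀ v ∈ A, v ∈ U → ¬ OnHull A v) (e0 : D0 A) {a : D0 A → ℂ}
    (ha : ∀ t : T3, Fc P U t.1 t.2.1 t.2.2 → a (gd (dl e0) t) = Nn t)
    {R₁ R Ar : Finset ℂ → Finset ℂ} (hfl : FlG A R₁ R Ar) {J : Finset ℂ → Prop}
    {q : Finset ℂ → Finset ℂ → ℝ≥0∞}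
    (h : ∀ β, β ⊆ A → G1 A g Rf B3 β → ∀ b, b ⊆ A → b ∩ Rf β = β ∩ Rf β → J β →
      q β b ≠ 0 → Paid (rc0 hS) (cfg (rc0 hS) (chiS hS h3 (flf (gf R Ar) b))) a
        (bigB P U (rc0 hS) (dl e0) k0 (cfg (rc0 hS) (chiS hS h3 (flf (gf R Ar) b))))
        (q β b ^ 2)) :
    QfA k0 U P A fun b => Wg hS g Rf D B3 b *
      (if J (bs A Rf (G1 A g Rf B3) b) then q (bs A Rf (G1 A g Rf B3) b) b ^ 2 else 0) := by
  refine Or.inr ⟨hS, h3, hin, e0, a, ha, R₁, R, Ar, hfl, fun b hb h0 => ?_⟩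
  rw [Finset.mem_powerset] at hb
  beta_reduce at h0 ⊢
  have w0 : Wg hS g Rf D B3 b ≠ 0 := fun h' => h0 (by rw [h', zero_mul])
  have hE := ev_of_wg I hb w0
  obtain ⟨b1, b2, b3, b4, -, -⟩ := I.bst hb hE
  have hJ : J (bs A Rf (G1 A g Rf B3) b) := by
    by_contra hc
    exact h0 (by rw [if_neg hc, mul_zero])
  have hq : q (bs A Rf (G1 A g Rf B3) b) b ≠ 0 := by
    intro hc
    exact h0 (by rw [if_pos hJ, hc]; simp)
  refine paid_mono (h _ b1 b3 b hb (by rw [b4, b2]) hJ hq) ?_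
  rw [if_pos hJ]
  calc Wg hS g Rf D B3 b * q (bs A Rf (G1 A g Rf B3) b) b ^ 2
      ≤ 1 * q (bs A Rf (G1 A g Rf B3) b) b ^ 2 := by
        gcongr
        exact wg_le_one hg b
    _ = _ := one_mul _

end flip2

end Crest.Agent.R143.KapKx440
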