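import Crest.Agent.R143.KapI_440

/-!
# Row 143 (S0194), block H, H5 = KAPPA, route 2 (helper136): the numbers

Families of boxes `B N ε` and weights `g N ε` (`N` = size of the tiles, `ε` = mesh), mass `gm`.
* `WBs` : for every large `N` the mass is bounded from below as `ε → 0`
* `Sml G R` : the measurable family `R` is small with respect to `G` (first `N`, then `ε`);
  `Sml.add`, `Sml.mul`, `Sml.of_zero`
* **`flip_sml`** : the family of 440's `flipQ`; **`mark_sml`** : the family of 659's `env_mark`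
* `QMA` : hypothesis of the mark event at one sample; `QMA.le`
* `In3` : the inputs at one sample; **`kapH_of_in3`**
* `kapH_sub` : along a subsequence
-/

set_option autoImplicit false

noncomputable section

open scoped Classical

namespace Crest.Agent.R143.KapMx136

open MeasureTheory Filter Topology Complex ComplexConjugate
open Crest.ProbabilityR.Voronoi
open Crest.Agent.R143.B0x346
open Crest.Agent.R143.Dblx609 Crest.Agent.R143.Dbl2x609 Crest.Agent.R143.HGluex136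
  Crest.Agent.R143.Trix106 Crest.Agent.R143.KapAx690 Crest.Agent.R143.KapEx440
  Crest.Agent.R143.CondWx440 Crest.Agent.R143.KapRx440 Crest.Agent.R143.KapQx690
  Crest.Agent.R143.KapIx440
open Crest.Agent.R143.Harx315 Crest.Agent.R143.Histx389
open Crest.Agent.R143.DelGx806 Crest.Agent.R143.DelRx806
open Crest.Agent.R143.MarkQx659 (Hs MK0 EnvM env_mark)
open Crest.Agent.R143.MarkHx298
open Crest.Agent.R143.MmOx88
open scoped ENNReal

/-! ### masses and small families -/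

/-- mass of the weight in the box -/
def gm (B : Set ℂ) (g : Set (ℂ × Bool) → ℝ≥0∞) (ε : ℝ) : ℝ≥0∞ :=
  ∫⁻ ω, g (PP0x831.cfg ε ω ∩ ovM Bool B) ∂sampleLaw

/-- box and weight -/
structure WB (B : Set ℂ) (g : Set (ℂ × Bool) → ℝ≥0∞) : Prop where
  Bm : MeasurableSet B
  Bb : Bornology.IsBounded B
  fm : Poisx304.FM g
  le : ∀ X, g X ≤ 1

variable {B : ℕ → ℝ → Set ℂ} {g : ℕ → ℝ → Set (ℂ × Bool) → ℝ≥0∞} {G : ℕ → ℝ → ℝ≥0∞}
  {R R' : ℕ → ℝ → Sample → ℝ≥0∞}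

/-- bounded from below as `ε → 0`, for every large `N` -/
def Low (G : ℕ → ℝ → ℝ≥0∞) : Prop :=
  ∀ᶠ N : ℕ in atTop, ∃ c : ℝ, 0 < c ∧ ∀ᶠ ε : ℝ in 𝓝[>] 0, ENNReal.ofReal c ≤ G N ε

/-- boxes and weights, the mass is bounded from below for every size of the tiles -/
def WBs (B : ℕ → ℝ → Set ℂ) (g : ℕ → ℝ → Set (ℂ × Bool) → ℝ≥0∞) : Prop :=
  (∀ᶠ N : ℕ in atTop, ∀ᶠ ε : ℝ in 𝓝[>] 0, WB (B N ε) (g N ε)) ∧
    Low fun N ε => gm (B N ε) (g N ε) ε

/-- **small measurable family** -/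
def Sml (G : ℕ → ℝ → ℝ≥0∞) (R : ℕ → ℝ → Sample → ℝ≥0∞) : Prop :=
  ∀ η : ℝ, 0 < η → ∀ᶠ N : ℕ in atTop, ∀ᶠ ε : ℝ in 𝓝[>] 0,
    AEMeasurable (R N ε) sampleLaw ∧ ∫⁻ ω, R N ε ω ∂sampleLaw ≤ ENNReal.ofReal η * G N ε

/-- bounded measurable family -/
def Bdd (G : ℕ → ℝ → ℝ≥0∞) (C : ℝ≥0∞) (R : ℕ → ℝ → Sample → ℝ≥0∞) : Prop :=
  ∀ᶠ N : ℕ in atTop, ∀ᶠ ε : ℝ in 𝓝[>] 0,
    AEMeasurable (R N ε) sampleLaw ∧ ∫⁻ ω, R N ε ω ∂sampleLaw ≤ C * G N ε

theorem Sml.bdd (h : Sml G R) : Bdd G 1 R := by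
  have := h 1 one_pos
  rw [ENNReal.ofReal_one] at this
  exact this

theorem Sml.add (h : Sml G R) (h' : Sml G R') : Sml G fun N ε ω => R N ε ω + R' N ε ω := by
  intro η hη
  filter_upwards [h (η / 2) (by positivity), h' (η / 2) (by positivity)] with N h1 h2
  filter_upwards [h1, h2] with ε h3 h4
  refine ⟨h3.1.add h4.1, ?_⟩
  rw [lintegral_add_left' h3.1]
  calc ∫⁻ ω, R N ε ω ∂sampleLaw + ∫⁻ ω, R' N ε ω ∂sampleLaw
      ≤ ENNReal.ofReal (η / 2) * G N ε + ENNReal.ofReal (η / 2) * G N ε := add_le_add h3.2 h4.2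
    _ = ENNReal.ofReal η * G N ε := by
        rw [← add_mul, ← ENNReal.ofReal_add (by positivity) (by positivity), add_halves]

theorem Sml.mul (h : Sml G R) {c : ℝ≥0∞} (hc : c ≠ ∞) : Sml G fun N ε ω => c * R N ε ω := by
  intro η hη
  obtain ⟨a, ha, rfl⟩ : ∃ a : ℝ, 0 ≤ a ∧ c = ENNReal.ofReal a :=
    ⟨c.toReal, ENNReal.toReal_nonneg, (ENNReal.ofReal_toReal hc).symm⟩
  filter_upwards [h (η / (a + 1)) (by positivity)] with N h1
  filter_upwards [h1] with ε h3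
  refine ⟨h3.1.const_mul _, ?_⟩
  rw [lintegral_const_mul'' _ h3.1]
  calc ENNReal.ofReal a * ∫⁻ ω, R N ε ω ∂sampleLaw
      ≤ ENNReal.ofReal a * (ENNReal.ofReal (η / (a + 1)) * G N ε) := by gcongr; exact h3.2
    _ = ENNReal.ofReal (a * (η / (a + 1))) * G N ε := by
        rw [ENNReal.ofReal_mul ha, mul_assoc]
    _ ≤ ENNReal.ofReal η * G N ε := by
        gcongr
        rw [mul_div_assoc', div_le_iff₀ (by positivity)]
        nlinarith

theorem Sml.mono (h : Sml G R) (hm : ∀ᶠ N : ℕ in atTop, ∀ᶠ ε : ℝ in 𝓝[>] 0,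
    AEMeasurable (R' N ε) sampleLaw)
    (hle : ∀ᶠ N : ℕ in atTop, ∀ᶠ ε : ℝ in 𝓝[>] 0, ∀ᵐ ω ∂sampleLaw, R' N ε ω ≤ R N ε ω) :
    Sml G R' := by
  intro η hη
  filter_upwards [h η hη, hm, hle] with N h1 h2 h3
  filter_upwards [h1, h2, h3] with ε h4 h5 h6
  exact ⟨h5, (lintegral_mono_ae h6).trans h4.2⟩

theorem Sml.sum {ι : Type*} (s : Finset ι) {Q : ι → ℕ → ℝ → Sample → ℝ≥0∞}
    (h : ∀ i ∈ s, Sml G (Q i)) : Sml G fun N ε ω => ∑ i ∈ s, Q i N ε ω := by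
  induction s using Finset.induction_on with
  | empty =>
    intro η hη
    simp only [Finset.sum_empty, lintegral_zero]
    exact Eventually.of_forall fun N => Eventually.of_forall fun ε =>
      ⟨aemeasurable_const, zero_le⟩
  | insert a s ha ih =>
    simp only [Finset.sum_insert ha]
    exact (h a (Finset.mem_insert_self _ _)).add
      (ih fun i hi => h i (Finset.mem_insert_of_mem hi))

/-- the integrals go to zero with the mesh -/
theorem Sml.of_zero (hG : Low G) (hm : ∀ᶠ N : ℕ in atTop, ∀ᶠ ε : ℝ in 𝓝[>] 0,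
    AEMeasurable (R N ε) sampleLaw)
    (ht : ∀ᶠ N : ℕ in atTop, Tendsto (fun ε : ℝ => ∫⁻ ω, R N ε ω ∂sampleLaw) (𝓝[>] 0) (𝓝 0)) :
    Sml G R := by
  intro η hη
  filter_upwards [hG, hm, ht] with N h1 h2 h3
  obtain ⟨c, hc, h1⟩ := h1
  have h4 : ∀ᶠ ε : ℝ in 𝓝[>] 0, ∫⁻ ω, R N ε ω ∂sampleLaw ≤ ENNReal.ofReal (η * c) :=
    h3.eventually (ge_mem_nhds (ENNReal.ofReal_pos.2 (by positivity)))
  filter_upwards [h1, h2, h4] with ε h5 h6 h7
  refine ⟨h6, h7.trans ?_⟩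
  rw [ENNReal.ofReal_mul hη.le]
  gcongr

/-- numbers times the mass -/
theorem Sml.of_mul {q : ℕ → ℝ} (hq : Tendsto q atTop (𝓝 0))
    (H : ∀ᶠ N : ℕ in atTop, ∀ᶠ ε : ℝ in 𝓝[>] 0, AEMeasurable (R N ε) sampleLaw ∧
      ∫⁻ ω, R N ε ω ∂sampleLaw ≤ ENNReal.ofReal (q N) * G N ε) : Sml G R := by
  intro η hη
  filter_upwards [hq.eventually (ge_mem_nhds hη), H] with N h1 h2
  filter_upwards [h2] with ε h3
  refine ⟨h3.1, h3.2.trans ?_⟩
  gcongr

/-! ### flips -/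

/-- **the family of 440's `flipQ`** -/
theorem flip_sml {k : ℕ → ℝ} (hk : ∀ N, 0 < k N) {U : ℕ → Set ℂ}
    (hU : ∀ N, Bornology.IsBounded (U N)) :
    ∃ E : ℕ → ℝ → Sample → ℝ≥0∞, (∀ G : ℕ → ℝ → ℝ≥0∞, Low G → Sml G E) ∧
      ∀ N, ∀ ε : ℝ, 0 < ε → ∀ B : Set ℂ, Bornology.IsBounded B → U N ⊆ B →
        ∀ᵐ ω ∂sampleLaw, ∀ Φ : Finset ℂ → ℝ≥0∞, QfA (k N) (U N) (points ε ω) (Ap ε B ω) Φ →
          ∑ β ∈ (Ap ε B ω).powerset, Φ β ≤ 2 ^ (Ap ε B ω).card * E N ε ω := by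
  choose E h1 h2 h3 using fun N => flipQ (hk N) (hU N)
  refine ⟨E, fun G hG => Sml.of_zero hG ?_ (Eventually.of_forall h2), h3⟩
  refine Eventually.of_forall fun N => ?_
  filter_upwards [self_mem_nhdsWithin] with ε hε
  exact (h1 N ε hε).aemeasurable

/-! ### marks -/

/-- hypothesis of the mark event `P` at the set `S` of sites, exploration `J`, weight `w` -/
def QMA (ι : Type) (S : Finset ℂ) (J : Finset ℂ → Finset ℂ) (w : Finset ℂ → ℝ≥0∞)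
    (P : Finset ℂ → Prop) (r ρ R1 : ℝ) : Prop :=
  ∃ (m : ι → ℂ) (lab : ι → ZMod 3) (Gi : Finset ℂ → ZMod 3 → Set ℂ),
    Hs S (fun b => av S (J b) w b) J Gi ∧ ∀ b, b ⊆ S → av S (J b) w b ≠ 0 →
      MK0 S (Gi b) m lab ρ R1 ∧ (P b → NearM S (Gi b) m r b)

theorem QMA.le {ι : Type} [Fintype ι] {S : Finset ℂ} {J : Finset ℂ → Finset ℂ}
    {w : Finset ℂ → ℝ≥0∞} {P : Finset ℂ → Prop} {C c R1 r ρ d : ℝ} (H : QMA ι S J w P r ρ R1)
    (E : EnvM S C c R1 r ρ d) :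
    ∑ b ∈ S.powerset, av S (J b) w b * (if P b then 1 else 0) ≤
      ENNReal.ofReal (Fintype.card ι * (C * (r / ρ) ^ c)) * ∑ b ∈ S.powerset, w b := by
  obtain ⟨m, lab, Gi, h1, h2⟩ := H
  refine le_trans (Finset.sum_le_sum fun b hb => ?_)
    ((h1.near_le E fun b hb h0 => (h2 b hb h0).1).trans (le_of_eq ?_))
  · by_cases h0 : av S (J b) w b = 0
    · rw [h0, zero_mul]
      exact zero_le
    · refine mul_le_mul_right ?_ _
      by_cases hP : P b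
      · rw [if_pos hP, if_pos ((h2 b (Finset.mem_powerset.1 hb) h0).2 hP)]
      · rw [if_neg hP]
        exact zero_le
  · rw [sum_av h1.stop]

/-- **the family of 659's `env_mark`** : `R` = number of the marks times the probability of an arm,
times the quenched mean of the weight, plus the indicator of a bad set -/
theorem mark_sml : ∃ Km : ℝ, 0 < Km ∧ ∀ (ι : Type) [Fintype ι] (R1 ρ : ℝ) (r : ℕ → ℝ), 0 ≤ R1 →
    0 < ρ → 2 * ρ ≤ 1 → (∀ N, 0 < r N) → Tendsto r atTop (𝓝 0) →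
    ∀ (B : ℕ → ℝ → Set ℂ) (g : ℕ → ℝ → Set (ℂ × Bool) → ℝ≥0∞), WBs B g →
      (∀ᶠ N : ℕ in atTop, ∀ᶠ ε : ℝ in 𝓝[>] 0, Metric.closedBall 0 (2 * R1 + Km) ⊆ B N ε) →
      ∃ R : ℕ → ℝ → Sample → ℝ≥0∞, Sml (fun N ε => gm (B N ε) (g N ε) ε) R ∧
        ∀ᶠ N : ℕ in atTop, ∀ᶠ ε : ℝ in 𝓝[>] 0, ∀ᵐ ω ∂sampleLaw,
          ∀ (J : Finset ℂ → Finset ℂ) (P : Finset ℂ → Prop),
            QMA ι (Ap ε (B N ε) ω) J (fun b => g N ε (paint (Ap ε (B N ε) ω) b)) P (r N) ρ R1 →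
            ∑ b ∈ (Ap ε (B N ε) ω).powerset, av (Ap ε (B N ε) ω) (J b)
                (fun b => g N ε (paint (Ap ε (B N ε) ω) b)) b * (if P b then 1 else 0) ≤
              2 ^ (Ap ε (B N ε) ω).card * R N ε ω := by
  obtain ⟨C, c, Km, hC, hc, hKm, H⟩ := env_mark
  refine ⟨Km, hKm, ?_⟩
  intro ι _ R1 ρ r hR1 hρ hρ1 hr hr0 B g hW hB
  -- the bad sets
  have hex : ∀ N : ℕ, 2 * r N ≤ ρ → ∃ dd : ℝ → ℝ, ∀ᶠ ε : ℝ in 𝓝[>] 0, ∃ E : Set Sample,
      MeasurableSet E ∧ sampleLaw E ≤ ENNReal.ofReal (ε ^ (1 : ℝ)) ∧ ∀ ω, ω ∉ E →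
        ∀ S : Finset ℂ, GP (S : Set ℂ) → (∀ s : ℂ, ‖s‖ ≤ 2 * R1 + Km → (s ∈ points ε ω ↔ s ∈ S)) →
        EnvM S C c R1 (r N) ρ (dd ε) := by
    intro N hN
    obtain ⟨dd, -, h1⟩ := H 1 R1 (r N) ρ hR1 (hr N) hN hρ1
    exact ⟨dd, h1.mono fun ε h => h.2⟩
  set Q : ℕ → ℝ → Set Sample → Prop := fun N ε E => MeasurableSet E ∧
    sampleLaw E ≤ ENNReal.ofReal (ε ^ (1 : ℝ)) ∧ ∃ d : ℝ, ∀ ω, ω ∉ E →
      ∀ S : Finset ℂ, GP (S : Set ℂ) → (∀ s : ℂ, ‖s‖ ≤ 2 * R1 + Km → (s ∈ points ε ω ↔ s ∈ S)) →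
      EnvM S C c R1 (r N) ρ d with hQ
  set E : ℕ → ℝ → Set Sample := fun N ε => if h : ∃ E, Q N ε E then h.choose else ∅ with hE
  have hN0 : ∀ᶠ N : ℕ in atTop, 2 * r N ≤ ρ := by
    have h1 := hr0.const_mul 2
    rw [mul_zero] at h1
    exact h1.eventually (ge_mem_nhds hρ)
  have hEQ : ∀ᶠ N : ℕ in atTop, ∀ᶠ ε : ℝ in 𝓝[>] 0, Q N ε (E N ε) := by
    filter_upwards [hN0] with N hN
    obtain ⟨dd, h1⟩ := hex N hN
    filter_upwards [h1] with ε h2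
    have h3 : ∃ E, Q N ε E := by
      obtain ⟨E, e1, e2, e3⟩ := h2
      exact ⟨E, e1, e2, dd ε, e3⟩
    rw [hE]
    beta_reduce
    rw [dif_pos h3]
    exact h3.choose_spec
  set q : ℕ → ℝ := fun N => Fintype.card ι * (C * (r N / ρ) ^ c) with hq
  refine ⟨fun N ε ω => ENNReal.ofReal (q N) * mq ε (B N ε) (g N ε) ω +
    (E N ε).indicator (fun _ => 1) ω, ?_, ?_⟩
  · refine Sml.add ?_ ?_
    · refine Sml.of_mul (q := q) ?_ ?_
      · have h1 : Tendsto (fun N => r N / ρ) atTop (𝓝 0) := by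
          have := hr0.div_const ρ
          rwa [zero_div] at this
        have h2 : Tendsto (fun N => (r N / ρ) ^ c) atTop (𝓝 0) := by
          have := h1.rpow_const (p := c) (Or.inr hc.le)
          rwa [Real.zero_rpow hc.ne'] at this
        have h3 := (h2.const_mul C).const_mul (Fintype.card ι : ℝ)
        rwa [mul_zero, mul_zero] at h3
      · filter_upwards [hW.1] with N h1
        filter_upwards [h1, self_mem_nhdsWithin] with ε h2 hε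
        have hm := mq_meas hε h2.Bm h2.Bb h2.fm
        refine ⟨hm.const_mul _, ?_⟩
        rw [lintegral_const_mul'' _ hm, lint_eq_mq hε h2.Bm h2.Bb h2.fm]
        exact le_rfl
    · refine Sml.of_zero hW.2 ?_ ?_
      · filter_upwards [hEQ] with N h1
        filter_upwards [h1] with ε h2
        exact (measurable_const.indicator h2.1).aemeasurable
      · filter_upwards [hEQ] with N h1
        have h3 : Tendsto (fun ε : ℝ => ENNReal.ofReal ε) (𝓝[>] 0) (𝓝 0) := by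
          have h4 := ENNReal.tendsto_ofReal (tendsto_nhdsWithin_of_tendsto_nhds
            (s := Set.Ioi (0 : ℝ)) (tendsto_id (α := ℝ) (x := 𝓝 0)))
          rwa [ENNReal.ofReal_zero] at h4
        refine tendsto_of_tendsto_of_tendsto_of_le_of_le' tendsto_const_nhds h3
          (Eventually.of_forall fun _ => zero_le) ?_
        filter_upwards [h1] with ε h2
        rw [lintegral_indicator_const h2.1, one_mul]
        refine h2.2.1.trans (le_of_eq ?_)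
        rw [Real.rpow_one]
  · filter_upwards [hEQ, hW.1, hB] with N h1 h2 h3
    filter_upwards [h1, h2, h3, self_mem_nhdsWithin] with ε h4 h5 h6 hε
    filter_upwards [PoisM3x930.m3a ε hε] with ω hω
    intro J P hP
    have c0 : ((2 : ℝ≥0∞) ^ (Ap ε (B N ε) ω).card) ≠ 0 := by positivity
    have c1 : ((2 : ℝ≥0∞) ^ (Ap ε (B N ε) ω).card) ≠ ∞ := ENNReal.pow_ne_top (by norm_num)
    have hsum : ∑ b ∈ (Ap ε (B N ε) ω).powerset, g N ε (paint (Ap ε (B N ε) ω) b) =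
        2 ^ (Ap ε (B N ε) ω).card * mq ε (B N ε) (g N ε) ω := by
      unfold mq
      rw [← mul_assoc, ENNReal.mul_inv_cancel c0 c1, one_mul]
    have hJ : IsStop (Ap ε (B N ε) ω) J := by
      obtain ⟨_, _, _, h, _⟩ := hP
      exact h.stop
    by_cases hω2 : ω ∈ E N ε
    · rw [Set.indicator_of_mem hω2]
      calc ∑ b ∈ (Ap ε (B N ε) ω).powerset, av (Ap ε (B N ε) ω) (J b)
              (fun b => g N ε (paint (Ap ε (B N ε) ω) b)) b * (if P b then 1 else 0)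
          ≤ ∑ b ∈ (Ap ε (B N ε) ω).powerset, av (Ap ε (B N ε) ω) (J b)
              (fun b => g N ε (paint (Ap ε (B N ε) ω) b)) b := by
            refine Finset.sum_le_sum fun b _ => ?_
            split_ifs
            · rw [mul_one]
            · rw [mul_zero]
              exact zero_le
        _ = ∑ b ∈ (Ap ε (B N ε) ω).powerset, g N ε (paint (Ap ε (B N ε) ω) b) := sum_av hJ _
        _ ≤ ∑ _b ∈ (Ap ε (B N ε) ω).powerset, 1 := Finset.sum_le_sum fun b _ => h5.le _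
        _ = 2 ^ (Ap ε (B N ε) ω).card * 1 := by
            rw [Finset.sum_const, Finset.card_powerset, nsmul_eq_mul]
            push_cast
            rfl
        _ ≤ _ := by
            gcongr
            exact le_add_self
    · rw [Set.indicator_of_notMem hω2, add_zero]
      have hA := coe_Ap hε h5.Bb ω
      obtain ⟨-, -, d, h7⟩ := h4
      have h8 := h7 ω hω2 (Ap ε (B N ε) ω) (by
          rw [hA]
          exact Mass2x302.gp_mono Set.inter_subset_left hω.1) (by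
        intro s hs
        rw [← Finset.mem_coe, hA]
        exact ⟨fun h => ⟨h, h6 (mem_closedBall_zero_iff.2 hs)⟩, fun h => h.1⟩)
      refine (hP.le h8).trans (le_of_eq ?_)
      rw [hsum]
      ring

/-! ### one sample -/

theorem rep_mono {κ z0 : ℂ} {b r : ℝ} {A R β : Finset ℂ} {n : ℕ} {D : PDat n}
    {rr rr' K0 : ℝ≥0∞} (h : RepOK κ z0 b r A R β D rr K0) (hr : rr ≤ rr') :
    RepOK κ z0 b r A R β D rr' K0 where
  hl := h.hl
  two := h.two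
  mV := h.mV
  mW := h.mW
  good := fun k hk b' h1 h2 h3 => (h.good k hk b' h1 h2 h3).trans (by gcongr)
  bad := h.bad

/-- the inputs at the set `A` of sites. `g` : weight; `Jf` : exploration; `dat` : data of the
representatives, piece `0` = the block of the flipped configuration (`QfA`), pieces `i + 1` with the
majorants `rq`; mark event with `QMA`; `rv` : majorant of the charge -/
structure InP (ι : Type) (κ z0 : ℂ) (b r0 : ℝ) (A : Finset ℂ) (g : Set (ℂ × Bool) → ℝ≥0∞)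
    (rr K0 cf : ℝ≥0∞) (n : ℕ) (kf : ℝ) (U P : Set ℂ) (R1 ρ r : ℝ)
    (rq : Fin 3 → Fin n → ℝ≥0∞) (rv : Fin 3 → ℝ≥0∞) (Jf : Finset ℂ → Finset ℂ)
    (dat : Finset ℂ → PDat (n + 1)) : Prop where
  stop : IsStop A Jf
  rep : ∀ β, β ⊆ A → g (paint A β) ≠ 0 → RepOK κ z0 b r0 A (Jf β) β (dat β) rr K0
  flip : ∀ k, ∃ Φ : Finset ℂ → ℝ≥0∞, QfA kf U P A Φ ∧ ∀ b, b ⊆ A →
    av A (Jf b) (fun b => g (paint A b)) b *
      (if (dat (rp1 Jf g A b)).J k then (dat (rp1 Jf g A b)).q k 0 b ^ 2 else 0) ≤ cf * Φ b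
  pcs : ∀ k (i : Fin n), ∑ b ∈ A.powerset, av A (Jf b) (fun b => g (paint A b)) b *
      (if (dat (rp1 Jf g A b)).J k then (dat (rp1 Jf g A b)).q k i.succ b ^ 2 else 0) ≤
        2 ^ A.card * rq k i
  mark : ∀ k, QMA ι A Jf (fun b => g (paint A b))
    (fun b => (dat (rp1 Jf g A b)).J k ∧ (dat (rp1 Jf g A b)).Mk k b) r ρ R1
  vv : ∀ k, ∑ b ∈ A.powerset, av A (Jf b) (fun b => g (paint A b)) b *
      (if (dat (rp1 Jf g A b)).J k then ENNReal.ofReal ‖(dat (rp1 Jf g A b)).V k b‖ ^ 2 else 0) ≤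
        2 ^ A.card * rv k

/-- **the inputs at one sample** -/
def In3 (ι : Type) (κ z0 : ℂ) (b r0 : ℝ) (A : Finset ℂ) (g : Set (ℂ × Bool) → ℝ≥0∞)
    (rr K0 cf : ℝ≥0∞) (n : ℕ) (kf : ℝ) (U P : Set ℂ) (R1 ρ r : ℝ)
    (rq : Fin 3 → Fin n → ℝ≥0∞) (rv : Fin 3 → ℝ≥0∞) : Prop :=
  ∃ (Jf : Finset ℂ → Finset ℂ) (dat : Finset ℂ → PDat (n + 1)),
    InP ι κ z0 b r0 A g rr K0 cf n kf U P R1 ρ r rq rv Jf dat

/-- no weight, no condition -/
theorem In3.zero {ι : Type} {κ z0 : ℂ} {b r0 : ℝ} {A : Finset ℂ}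
    {g : Set (ℂ × Bool) → ℝ≥0∞} {rr K0 cf : ℝ≥0∞} {n : ℕ} {kf : ℝ} {U P : Set ℂ} {R1 ρ r : ℝ}
    {rq : Fin 3 → Fin n → ℝ≥0∞} {rv : Fin 3 → ℝ≥0∞} (h : ∀ β, β ⊆ A → g (paint A β) = 0) :
    In3 ι κ z0 b r0 A g rr K0 cf n kf U P R1 ρ r rq rv := by
  have hJ : IsStop A fun _ : Finset ℂ => (∅ : Finset ℂ) :=
    ⟨fun _ _ => Finset.empty_subset _, fun _ _ _ _ _ => rfl⟩
  have e : ∀ b, b ⊆ A → av A ∅ (fun b => g (paint A b)) b = 0 := by
    intro b hb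
    by_contra hc
    obtain ⟨b', h1, -, h2⟩ := av_ne' hb hc
    exact h2 (h b' h1)
  refine ⟨fun _ => ∅, fun _ => ⟨0, 0, fun _ => False, 0, 0, 0, fun _ _ => False⟩, hJ,
    fun β hβ h0 => absurd (h β hβ) h0, fun k => ⟨0, Or.inl fun _ _ => rfl, fun b hb => ?_⟩,
    fun k i => ?_, fun k => ⟨0, 0, fun _ _ => ∅, ?_, fun b hb h0 => absurd (e b hb) h0⟩,
    fun k => ?_⟩
  · rw [e b hb, zero_mul]
    exact zero_le
  · rw [Finset.sum_eq_zero fun b hb => by rw [e b (Finset.mem_powerset.1 hb), zero_mul]]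
    exact zero_le
  · exact ⟨hJ, CondWx440.av_dec hJ _, fun b b' hb _ _ h0 => absurd (e b hb) h0,
      fun b hb h0 => absurd (e b hb) h0⟩
  · rw [Finset.sum_eq_zero fun b hb => by rw [e b (Finset.mem_powerset.1 hb), zero_mul]]
    exact zero_le

/-! ### the families -/

/-- numbers which go to zero with the size of the tiles -/
def Nul (rr : ℕ → ℝ → ℝ≥0∞) : Prop := ∀ η : ℝ, 0 < η → ∀ᶠ N : ℕ in atTop,
  ∀ᶠ ε : ℝ in 𝓝[>] 0, rr N ε ≤ ENNReal.ofReal η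

theorem nul_of {x : ℕ → ℝ} (hx : Tendsto x atTop (𝓝 0)) (K : ℝ) :
    Nul fun N _ => ENNReal.ofReal (K * x N) := by
  intro η hη
  have h1 := hx.const_mul K
  rw [mul_zero] at h1
  filter_upwards [h1.eventually (ge_mem_nhds hη)] with N h2
  exact Eventually.of_forall fun ε => ENNReal.ofReal_le_ofReal h2

/-- **`kapH_of_ring3` from the families.** `Km` is absolute -/
theorem kapH_of_in3 : ∃ Km : ℝ, 0 < Km ∧ ∀ {z0 : ℂ} {b : ℝ}, 0 < b → ∀ {κ : ℕ → ℝ → ℂ}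
    {K0 C cf : ℝ≥0∞}, K0 ≠ ∞ → C ≠ ∞ → cf ≠ ∞ → ∀ {n : ℕ} {B : ℕ → ℝ → Set ℂ}
    {g : ℕ → ℝ → Set (ℂ × Bool) → ℝ≥0∞}, WBs B g → ∀ {r0 : ℝ}, r0 ≤ b / 200 →
    ∀ {rr : ℕ → ℝ → ℝ≥0∞}, Nul rr →
    ∀ {kf : ℕ → ℝ}, (∀ N, 0 < kf N) → ∀ {U : ℕ → Set ℂ}, (∀ N, Bornology.IsBounded (U N)) →
    (∀ᶠ N : ℕ in atTop, ∀ᶠ ε : ℝ in 𝓝[>] 0, U N ⊆ B N ε) →
    ∀ (ι : Type) [Fintype ι] {R1 ρ : ℝ} {r : ℕ → ℝ}, 0 ≤ R1 → 0 < ρ → 2 * ρ ≤ 1 →
    (∀ N, 0 < r N) → Tendsto r atTop (𝓝 0) →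
    (∀ᶠ N : ℕ in atTop, ∀ᶠ ε : ℝ in 𝓝[>] 0, Metric.closedBall 0 (2 * R1 + Km) ⊆ B N ε) →
    ∀ {Rq : Fin 3 → Fin n → ℕ → ℝ → Sample → ℝ≥0∞},
    (∀ k i, Sml (fun N ε => gm (B N ε) (g N ε) ε) (Rq k i)) →
    ∀ {Rv : Fin 3 → ℕ → ℝ → Sample → ℝ≥0∞},
    (∀ k, Bdd (fun N ε => gm (B N ε) (g N ε) ε) C (Rv k)) →
    (∀ᶠ N : ℕ in atTop, ∀ᶠ ε : ℝ in 𝓝[>] 0, ∀ᵐ ω ∂sampleLaw,
      In3 ι (κ N ε) z0 b r0 (Ap ε (B N ε) ω) (g N ε) (rr N ε) K0 cf n (kf N) (U N) (points ε ω)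
        R1 ρ (r N) (fun k i => Rq k i N ε ω) fun k => Rv k N ε ω) → KapH κ := by
  obtain ⟨Km, hKm, HM⟩ := mark_sml
  refine ⟨Km, hKm, ?_⟩
  intro z0 b hb κ K0 C cf hK hC hcf n B g hW r0 hr0 rr hrr kf hkf U hU hUB ι _ R1 ρ r hR1 hρ hρ1
    hr hr1 hBR Rq hRq Rv hRv H
  obtain ⟨E, hE1, hE2⟩ := flip_sml hkf hU
  obtain ⟨Rm, hRm, hRm2⟩ := HM ι R1 ρ r hR1 hρ hρ1 hr hr1 B g hW hBR
  have hs : om ^ 2 + om + 1 = 0 := by
    have := Algx915.om_sum0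
    linear_combination this
  have him : 0 < om.im := by
    rw [Algx915.om_im]
    positivity
  refine kapH_of_ring3 (z0 := z0) (K0 := K0) (C := C) (n := n + 1) hs him hb hK hC fun η hη => ?_
  have hEs := (hE1 _ hW.2).mul hcf
  have hqs : ∀ᶠ N : ℕ in atTop, ∀ᶠ ε : ℝ in 𝓝[>] 0, ∀ k i,
      AEMeasurable (Rq k i N ε) sampleLaw ∧ ∫⁻ ω, Rq k i N ε ω ∂sampleLaw ≤
        ENNReal.ofReal η * gm (B N ε) (g N ε) ε := by
    have h1 : ∀ᶠ N : ℕ in atTop, ∀ k i, ∀ᶠ ε : ℝ in 𝓝[>] 0,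
        AEMeasurable (Rq k i N ε) sampleLaw ∧ ∫⁻ ω, Rq k i N ε ω ∂sampleLaw ≤
          ENNReal.ofReal η * gm (B N ε) (g N ε) ε :=
      eventually_all.2 fun k => eventually_all.2 fun i => hRq k i η hη
    filter_upwards [h1] with N h2
    exact eventually_all.2 fun k => eventually_all.2 fun i => h2 k i
  have hvs : ∀ᶠ N : ℕ in atTop, ∀ᶠ ε : ℝ in 𝓝[>] 0, ∀ k,
      AEMeasurable (Rv k N ε) sampleLaw ∧ ∫⁻ ω, Rv k N ε ω ∂sampleLaw ≤
        C * gm (B N ε) (g N ε) ε := by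
    have h1 : ∀ᶠ N : ℕ in atTop, ∀ k, ∀ᶠ ε : ℝ in 𝓝[>] 0,
        AEMeasurable (Rv k N ε) sampleLaw ∧ ∫⁻ ω, Rv k N ε ω ∂sampleLaw ≤
          C * gm (B N ε) (g N ε) ε := eventually_all.2 fun k => hRv k
    filter_upwards [h1] with N h2
    exact eventually_all.2 fun k => h2 k
  filter_upwards [hW.1, hW.2, hrr η hη, hEs η hη, hRm η hη, hRm2, hqs, hvs, hUB, H] with
    N a1 a2 a3 a4 a5 a6 a7 a8 a9 a10
  obtain ⟨c, hc, a2⟩ := a2
  filter_upwards [a1, a2, a3, a4, a5, a6, a7, a8, a9, a10, self_mem_nhdsWithin] with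
    ε b1 b2 b3 b4 b5 b6 b7 b8 b9 b10 hε
  refine ⟨r0, B N ε, g N ε, fun k => Fin.cons (fun ω => cf * E N ε ω) fun i => Rq k i N ε,
    fun _ => Rm N ε, fun k => Rv k N ε, hr0, b1.Bm, b1.Bb, b1.fm, b1.le, ?_, fun _ => b5.1,
    fun k => (b8 k).1, ?_, lt_of_lt_of_le (ENNReal.ofReal_pos.2 hc) b2, ?_, fun _ => b5.2,
    fun k => (b8 k).2⟩
  · intro k i
    refine Fin.cases ?_ (fun i => ?_) i
    · exact b4.1
    · exact (b7 k i).1
  · filter_upwards [hE2 N ε hε (B N ε) b1.Bb b9, b6, b10] with ω c1 c2 c3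
    obtain ⟨Jf, dat, h⟩ := c3
    have h1 := patQ_of_rep (κ := κ N ε) (z0 := z0) (b := b) (r := r0) (rr := ENNReal.ofReal η)
      (K0 := K0) (n := n + 1) (g := g N ε) (dat := dat) h.stop
      (fun β hβ h0 => rep_mono (h.rep β hβ h0) b3)
      (rq := fun k i => (Fin.cons (fun ω => cf * E N ε ω) (fun i => Rq k i N ε) :
        Fin (n + 1) → Sample → ℝ≥0∞) i ω) (rm := fun _ => Rm N ε ω) (rv := fun k => Rv k N ε ω)
      (fun k i => by
        refine Fin.cases ?_ (fun i => ?_) i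
        · obtain ⟨Φ, h2, h3⟩ := h.flip k
          refine (Finset.sum_le_sum fun b hb => h3 b (Finset.mem_powerset.1 hb)).trans ?_
          rw [← Finset.mul_sum, Fin.cons_zero, mul_left_comm]
          exact mul_le_mul_right (c1 Φ h2) _
        · exact h.pcs k i)
      (fun k => by
        have h5 := c2 Jf _ (h.mark k)
        convert h5) h.vv
    obtain ⟨t, Z, J, h2, h3, h4⟩ := h1
    exact ⟨Jf, t, Z, J, h.stop, h2, h3, h4⟩
  · intro k i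
    refine Fin.cases ?_ (fun i => ?_) i
    · exact b4.2
    · exact (b7 k i).2

/-! ### subsequences -/

/-- the coefficient along a subsequence -/
theorem kapH_sub {κ : ℕ → ℝ → ℂ} {s : ℕ → ℕ}
    (h : KapH fun j => κ (s j)) : KapH fun N ε => if N ∈ Set.range s then κ N ε else 0 := by
  intro δ hδ
  obtain ⟨j0, h1⟩ := eventually_atTop.1 (h δ hδ)
  have h2 : ∀ᶠ N : ℕ in atTop, ∀ j, j < j0 → s j < N := by
    have := (eventually_all_finset (l := atTop) (Finset.range j0)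
      (p := fun j N => s j < N)).2 fun j _ => eventually_gt_atTop (s j)
    exact this.mono fun N h j hj => h j (Finset.mem_range.2 hj)
  filter_upwards [h2] with N h2
  by_cases hN : N ∈ Set.range s
  · obtain ⟨j, rfl⟩ := hN
    have h3 : j0 ≤ j := by
      by_contra hc
      exact absurd (h2 j (by omega)) (lt_irrefl _)
    filter_upwards [h1 j h3] with ε h4
    rw [if_pos ⟨j, rfl⟩]
    exact h4
  · refine Eventually.of_forall fun ε => ?_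
    rw [if_neg hN, norm_zero]
    exact hδ.le

end Crest.Agent.R143.KapMx136
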