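import Crest.Agent.R143.RingLow_765
import Crest.Agent.R143.KapA_690

/-!
# Row 143 (S0194), block H (helper565; order 414): the number `κ n ε`, choice free

`en n = 1 / (100 n)` : unit of length (tile side `100 en n = 1 / n`), template = 653's `Tr (en n) ε`
with 765's `stdT`, radius `r = en n / 2`.
* **`kap n ε = - mS / h`** (`mS` of `RingN_765`, tiles full); `kap_eq`, `norm_kap`
* `kapH_neg`, `kapH_norm` : only the norm matters for `KapH`
* **`law`** : 765's `ring_law` with this number, every closed path, any start `o`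
* `law_ev` : the same for all small `ε` with the positivity of the template
-/

set_option autoImplicit false

noncomputable section

namespace Crest.Agent.R143.KapNx565

open MeasureTheory Set Filter Topology
open Crest.ProbabilityR.Voronoi
open Crest.Agent.R143.PP0x831 Crest.Agent.R143.PWx978 Crest.Agent.R143.Tplx978
open Crest.Agent.R143.TileRx228 Crest.Agent.R143.PthFx765 Crest.Agent.R143.CorNx765
open Crest.Agent.R143.TplIx204 Crest.Agent.R143.GPosCx348 Crest.Agent.R143.RngNx765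
  Crest.Agent.R143.RngLx765
open Crest.Agent.R143.PosFx653 (Dt Tr)
open Crest.Agent.R143.KapAx690 (KapH)
open scoped ENNReal ComplexConjugate

/-- unit of length: the tile side is `100 en n = 1 / n` -/
def en (n : ℕ) : ℝ := 1 / (100 * (n : ℝ))

theorem en_pos {n : ℕ} (hn : 0 < n) : 0 < en n := by
  have : (0 : ℝ) < n := Nat.cast_pos.2 hn
  unfold en
  positivity

theorem en_h {n : ℕ} (hn : 0 < n) : 100 * en n = 1 / n := by
  have : (n : ℝ) ≠ 0 := Nat.cast_ne_zero.2 hn.ne'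
  unfold en
  field_simp

theorem en_small {n : ℕ} (hn : 0 < n) : 10 * en n ≤ 1 := by
  have h1 : (1 : ℝ) ≤ n := by exact_mod_cast hn
  have h2 := en_h hn
  have h3 : (1 : ℝ) / n ≤ 1 := by
    rw [div_le_one (by linarith)]
    exact h1
  linarith [en_pos hn]

/-- **the number of the template with tile side `1 / n` at the mesh `ε`** -/
def kap (n : ℕ) (ε : ℝ) : ℂ :=
  if h : 0 < ε ∧ 0 < en n then
    -(mS (Dt (en n) ε h.1 h.2) (stdT h.1 h.2) true (en n / 2) /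
      ((Dt (en n) ε h.1 h.2).h : ℂ)) else 0

theorem kap_eq {n : ℕ} {ε : ℝ} (hε : 0 < ε) (hη : 0 < en n) :
    kap n ε = -(mS (Dt (en n) ε hε hη) (stdT hε hη) true (en n / 2) /
      ((Dt (en n) ε hε hη).h : ℂ)) := dif_pos ⟨hε, hη⟩

theorem mS_eq {n : ℕ} {ε : ℝ} (hε : 0 < ε) (hη : 0 < en n) :
    mS (Dt (en n) ε hε hη) (stdT hε hη) true (en n / 2) / ((Dt (en n) ε hε hη).h : ℂ) =
      -kap n ε := by rw [kap_eq hε hη, neg_neg]

theorem norm_kap {n : ℕ} {ε : ℝ} (hε : 0 < ε) (hη : 0 < en n) :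
    ‖kap n ε‖ = ‖mS (Dt (en n) ε hε hη) (stdT hε hη) true (en n / 2) /
      ((Dt (en n) ε hε hη).h : ℂ)‖ := by rw [kap_eq hε hη, norm_neg]

/-- only the norm matters -/
theorem kapH_norm {κ κ' : ℕ → ℝ → ℂ} (h : ∀ n ε, ‖κ' n ε‖ = ‖κ n ε‖) (H : KapH κ) : KapH κ' := by
  intro δ hδ
  filter_upwards [H δ hδ] with n h1
  filter_upwards [h1] with ε h2
  rw [h]
  exact h2

theorem kapH_neg {κ : ℕ → ℝ → ℂ} : KapH (fun n ε => -κ n ε) ↔ KapH κ :=
  ⟨kapH_norm fun _ _ => (norm_neg _).symm, kapH_norm fun _ _ => norm_neg _⟩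

/-- only small `ε` and large `n` matter -/
theorem kapH_congr {κ κ' : ℕ → ℝ → ℂ}
    (h : ∀ᶠ n : ℕ in atTop, ∀ᶠ ε : ℝ in 𝓝[>] 0, ‖κ' n ε‖ = ‖κ n ε‖) (H : KapH κ) : KapH κ' := by
  intro δ hδ
  filter_upwards [H δ hδ, h] with n h1 h2
  filter_upwards [h1, h2] with ε h3 h4
  rw [h4]
  exact h3

/-- a complex multiple of norm one (`om`, `conj`, sign) -/
theorem kapH_smul {κ : ℕ → ℝ → ℂ} {c : ℂ} (hc : ‖c‖ = 1) (H : KapH κ) :
    KapH fun n ε => c * κ n ε :=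
  kapH_norm (fun _ _ => by rw [norm_mul, hc, one_mul]) H

theorem kapH_conj {κ : ℕ → ℝ → ℂ} (H : KapH κ) : KapH fun n ε => conj (κ n ε) :=
  kapH_norm (fun _ _ => RCLike.norm_conj _) H

variable {M : ℕ} {W : ℤ → ℤ × ℤ} {n : ℕ} {ε : ℝ}

/-- **765's law with the number `kap`** -/
theorem law [Fintype (ZMod M)] (P : FPath M W) (hε : 0 < ε) (hη : 0 < en n)
    (hA0 : ∫⁻ ω, (Tr (en n) ε hε hη).tpl.A (cfg ε ω) ∂sampleLaw ≠ 0) (o : ℤ) {t : ℕ}
    (ht : (Trn M W).card ≤ t) (htM : 3 * t < M) (hM : 10 ≤ M) {C : ℝ} (C0 : 0 ≤ C)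
    (hC : ∀ k < M, ∫⁻ ω, gO P (stdT hε hη) true (cfg ε ω) *
      ENNReal.ofReal (‖SV (Dt (en n) ε hε hη) P (en n / 2) o k (cfg ε ω)‖ ^ 2) ∂sampleLaw ≤
      ENNReal.ofReal C * ∫⁻ ω, gO P (stdT hε hη) true (cfg ε ω) ∂sampleLaw) :
    (∀ X : Cf, 0 ≤ BO (D := Dt (en n) ε hε hη) P (stdT hε hη) true (en n / 2) o t C X) ∧
    (∀ (X : Cf) (i j : ℕ), i ≤ j → j ≤ M →
      ‖∑ k ∈ Finset.Ico i j, SV (Dt (en n) ε hε hη) P (en n / 2) o k X +
        kap n ε * conj (gz (100 * en n) W (o + j) - gz (100 * en n) W (o + i))‖ ^ 2 ≤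
        BO (D := Dt (en n) ε hε hη) P (stdT hε hη) true (en n / 2) o t C X) ∧
    ∫⁻ ω, gO P (stdT hε hη) true (cfg ε ω) * ENNReal.ofReal
        (BO (D := Dt (en n) ε hε hη) P (stdT hε hη) true (en n / 2) o t C (cfg ε ω))
          ∂sampleLaw ≤
      ENNReal.ofReal ((288 * 16 * (M * Real.sqrt M) + 162 * t ^ 2) * C) *
        ∫⁻ ω, gO P (stdT hε hη) true (cfg ε ω) ∂sampleLaw := by
  obtain ⟨h1, h2, h3, -⟩ := ring_law (D := Dt (en n) ε hε hη) P (stdT hε hη) true (en n / 2)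
    hA0 o ht htM hM C0 hC
  refine ⟨h1, fun X i j hij hj => ?_, h3⟩
  have h4 := h2 X i j hij hj
  have e1 := mS_eq hε hη
  have e2 : (Dt (en n) ε hε hη).h = 100 * en n := rfl
  rw [e1, neg_mul, sub_neg_eq_add] at h4
  exact h4

/-- **for all small `ε`** -/
theorem law_ev [Fintype (ZMod M)] (P : FPath M W) (hn : 0 < n) :
    ∀ᶠ ε : ℝ in 𝓝[>] 0, 0 < ε ∧ ∀ (hε : 0 < ε) (hη : 0 < en n) (o : ℤ) {t : ℕ},
      (Trn M W).card ≤ t → 3 * t < M → 10 ≤ M → ∀ {C : ℝ}, 0 ≤ C →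
      (∀ k < M, ∫⁻ ω, gO P (stdT hε hη) true (cfg ε ω) *
        ENNReal.ofReal (‖SV (Dt (en n) ε hε hη) P (en n / 2) o k (cfg ε ω)‖ ^ 2) ∂sampleLaw ≤
        ENNReal.ofReal C * ∫⁻ ω, gO P (stdT hε hη) true (cfg ε ω) ∂sampleLaw) →
      (∀ X : Cf, 0 ≤ BO (D := Dt (en n) ε hε hη) P (stdT hε hη) true (en n / 2) o t C X) ∧
      (∀ (X : Cf) (i j : ℕ), i ≤ j → j ≤ M →
        ‖∑ k ∈ Finset.Ico i j, SV (Dt (en n) ε hε hη) P (en n / 2) o k X +
          kap n ε * conj (gz (100 * en n) W (o + j) - gz (100 * en n) W (o + i))‖ ^ 2 ≤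
          BO (D := Dt (en n) ε hε hη) P (stdT hε hη) true (en n / 2) o t C X) ∧
      ∫⁻ ω, gO P (stdT hε hη) true (cfg ε ω) * ENNReal.ofReal
          (BO (D := Dt (en n) ε hε hη) P (stdT hε hη) true (en n / 2) o t C (cfg ε ω))
            ∂sampleLaw ≤
        ENNReal.ofReal ((288 * 16 * (M * Real.sqrt M) + 162 * t ^ 2) * C) *
          ∫⁻ ω, gO P (stdT hε hη) true (cfg ε ω) ∂sampleLaw := by
  filter_upwards [tpl_ev (en_pos hn) (en_small hn)] with ε h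
  refine ⟨h.1, fun hε hη o t ht htM hM C C0 hC => ?_⟩
  exact law P hε hη (h.2.2.2 hε hη).2.2.2 o ht htM hM C0 hC

end Crest.Agent.R143.KapNx565
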