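import Crest.Agent.R143.PolyS_854

/-!
# Row 143 (S0194), BLOCK H, item H5 = kappa (helper99)

The constant `κ N ε` of the straight tile is the same for all polygons and for the closed ring of
block H. One polygon `u` with `‖T'‖` bounded below decides:

* `CornAt`, `RlAt` : 854's `CORN`, `RLP` for one polygon
* `LowAt T' u` : `c ≤ ‖T' u‖` with probability at least `3 / 4` as `ε → 0`
* **`kap_small`** : then `κ N ε → 0` (first the width `N`, then the mesh `ε`)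
* `kap_dl` : the same as `DL`, from 854's `CORN`, `RLP`
* `small_of_kap` : conversely `κ` small gives `T → 0` for every polygon (no dichotomy)
-/

set_option autoImplicit false

noncomputable section

open scoped Classical

namespace Crest.Agent.R143.Kapx99

open Complex Set Filter Topology MeasureTheory
open scoped ENNReal
open Crest.ProbabilityR.Voronoi
open Crest.Agent.R143.B0x346
open Crest.Agent.R143.DefsNx346 (hi)
open Crest.Agent.R143.Alg4x133 (Rl alt sqrt3_hi sqrt3_lo norm_hi)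
open Crest.Agent.R143.PolyQx854 Crest.Agent.R143.PolyRx854 Crest.Agent.R143.PolySx854

variable {U I : Type}

/-- 854's `CORN` for one polygon -/
def CornAt (𝓁 : Filter I) (κ : I → ℝ → ℂ) (m : I → ℝ → MeasurableSpace Sample)
    (T : ℝ → Sample → ℂ) (D : ℝ → Sample → ZMod 3 → ℂ) : Prop :=
  ∀ η > 0, ∀ᶠ N in 𝓁, ∀ᶠ ε : ℝ in 𝓝[>] 0, ∃ G : Set Sample,
    sampleLaw Gᶜ ≤ ENNReal.ofReal η ∧
      ∀ k : ZMod 3, CrG (omz k ^ 2) (κ N ε) (m N ε) G (T ε) (fun ω => D ε ω k) η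

/-- 854's `RLP` for one polygon -/
def RlAt (T T' : ℝ → Sample → ℂ) (D : ℝ → Sample → ZMod 3 → ℂ) : Prop :=
  ∀ η > 0, ∀ᶠ ε : ℝ in 𝓝[>] 0,
    sampleLaw {ω | ¬ Rl (T ε ω) (T' ε ω) (D ε ω)} ≤ ENNReal.ofReal η

/-- `‖T'‖` is bounded below -/
def LowAt (T' : ℝ → Sample → ℂ) : Prop :=
  ∃ c > 0, ∀ᶠ ε : ℝ in 𝓝[>] 0, sampleLaw {ω | ‖T' ε ω‖ < c} ≤ ENNReal.ofReal (1 / 4)

theorem z3 (k : ZMod 3) : k = 0 ∨ k = 1 ∨ k = 2 := by
  revert k; decide

/-- a sample outside six bad sets -/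
theorem exists_good {B0 B1 B2 R L : Set Sample} (h0 : sampleLaw B0 ≤ ENNReal.ofReal (1 / 8))
    (h1 : sampleLaw B1 ≤ ENNReal.ofReal (1 / 8)) (h2 : sampleLaw B2 ≤ ENNReal.ofReal (1 / 8))
    (hR : sampleLaw R ≤ ENNReal.ofReal (1 / 8)) (hL : sampleLaw L ≤ ENNReal.ofReal (1 / 4)) :
    ∃ ω, ω ∉ B0 ∧ ω ∉ B1 ∧ ω ∉ B2 ∧ ω ∉ R ∧ ω ∉ L := by
  have hP : IsProbabilityMeasure sampleLaw := by unfold sampleLaw; infer_instance
  by_contra hcon
  have hall : (Set.univ : Set Sample) ⊆ (((B0 ∪ B1) ∪ B2) ∪ R) ∪ L := by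
    intro ω _
    by_contra hω
    simp only [mem_union, not_or] at hω
    exact hcon ⟨ω, hω.1.1.1.1, hω.1.1.1.2, hω.1.1.2, hω.1.2, hω.2⟩
  have h3 : sampleLaw (Set.univ : Set Sample) ≤ ENNReal.ofReal (1 / 8) + ENNReal.ofReal (1 / 8) +
      ENNReal.ofReal (1 / 8) + ENNReal.ofReal (1 / 8) + ENNReal.ofReal (1 / 4) := by
    refine (measure_mono hall).trans ((measure_union_le _ _).trans (add_le_add ?_ hL))
    refine (measure_union_le _ _).trans (add_le_add ?_ hR)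
    refine (measure_union_le _ _).trans (add_le_add ?_ h2)
    exact (measure_union_le _ _).trans (add_le_add h0 h1)
  rw [measure_univ, ← ENNReal.ofReal_add (by norm_num) (by norm_num),
    ← ENNReal.ofReal_add (by norm_num) (by norm_num),
    ← ENNReal.ofReal_add (by norm_num) (by norm_num),
    ← ENNReal.ofReal_add (by norm_num) (by norm_num), ← ENNReal.ofReal_one,
    ENNReal.ofReal_le_ofReal_iff (by norm_num)] at h3
  norm_num at h3

/-- **`κ → 0`** -/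
theorem kap_small {𝓁 : Filter I} {κ : I → ℝ → ℂ} {m : I → ℝ → MeasurableSpace Sample}
    {T T' : ℝ → Sample → ℂ} {D : ℝ → Sample → ZMod 3 → ℂ} (hC : CornAt 𝓁 κ m T D)
    (hR : RlAt T T' D) (hL : LowAt T') {δ : ℝ} (hδ : 0 < δ) :
    ∀ᶠ N in 𝓁, ∀ᶠ ε : ℝ in 𝓝[>] 0, ‖κ N ε‖ ≤ δ := by
  obtain ⟨c, hc, hL⟩ := hL
  -- precision in probability
  obtain ⟨η, hη, hη8, hηc⟩ : ∃ η > 0, η ≤ 1 / 8 ∧ 2 * η ≤ δ * c :=
    ⟨min (1 / 8) (δ * c / 2), lt_min (by norm_num) (by positivity), min_le_left _ _, by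
      have := min_le_right (1 / 8) (δ * c / 2)
      linarith⟩
  set θ : ℝ := min (η / 2) (η ^ 2 / 2) with hθ
  have hθ0 : 0 < θ := lt_min (by positivity) (by positivity)
  have hθ1 : θ + θ / η ≤ η := by
    have h1 : θ ≤ η / 2 := min_le_left _ _
    have h2 : θ / η ≤ η / 2 := by
      rw [div_le_iff₀ hη]
      have : θ ≤ η ^ 2 / 2 := min_le_right _ _
      nlinarith
    linarith
  filter_upwards [hC θ hθ0] with N hN
  filter_upwards [hN, hR (1 / 8) (by norm_num), hL] with ε h1 h2 h3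
  obtain ⟨G, hG, hk⟩ := h1
  have hp : ∀ k : ZMod 3, sampleLaw {ω | η < ‖omz k ^ 2 * T ε ω - -κ N ε * D ε ω k‖} ≤
      ENNReal.ofReal (1 / 8) := fun k =>
    (prob_of (hk k) hη hθ0.le hG hθ1).trans (ENNReal.ofReal_le_ofReal hη8)
  obtain ⟨ω, w0, w1, w2, wR, wL⟩ := exists_good (hp 0) (hp 1) (hp 2) h2 h3
  simp only [mem_ofPred_eq, not_lt, not_not] at w0 w1 w2 wR wL
  have hall : ∀ k : ZMod 3, ‖omz k ^ 2 * T ε ω - -κ N ε * D ε ω k‖ ≤ η := by
    intro k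
    rcases z3 k with rfl | rfl | rfl
    · exact w0
    · exact w1
    · exact w2
  have h5 := (alt wR hall).2
  rw [norm_mul, norm_neg] at h5
  have h6 : ‖κ N ε‖ * c ≤ δ * c := by
    have h7 : ‖κ N ε‖ * c ≤ ‖κ N ε‖ * ‖T' ε ω‖ := mul_le_mul_of_nonneg_left wL (norm_nonneg _)
    have h8 := sqrt3_hi
    nlinarith
  exact le_of_mul_le_mul_right h6 hc

/-- from 854's `CORN`, `RLP` -/
theorem kap_dl {𝓁 : Filter I} {κ : I → ℝ → ℂ} {m : U → I → ℝ → MeasurableSpace Sample}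
    {T T' : U → ℝ → Sample → ℂ} {D : U → ℝ → Sample → ZMod 3 → ℂ} (hC : CORN 𝓁 κ m T D)
    (hR : RLP T T' D) {u : U} (hL : LowAt (T' u)) : DL 𝓁 fun N ε => ‖κ N ε‖ := fun _ hδ =>
  kap_small (hC u) (hR u) hL hδ

/-- **the other direction**: `κ` small kills the field `T` of every polygon -/
theorem small_of_kap {𝓁 : Filter I} [𝓁.NeBot] {κ : I → ℝ → ℂ}
    {m : U → I → ℝ → MeasurableSpace Sample} {T T' : U → ℝ → Sample → ℂ}
    {D : U → ℝ → Sample → ZMod 3 → ℂ} (hC : CORN 𝓁 κ m T D) (hR : RLP T T' D)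
    (hκ : DL 𝓁 fun N ε => ‖κ N ε‖) (u : U) {η : ℝ} (hη : 0 < η) :
    ∀ᶠ ε : ℝ in 𝓝[>] 0, sampleLaw {ω | η < ‖T u ε ω‖} ≤ ENNReal.ofReal η := by
  set η' : ℝ := η / 4 with hη'
  have hη'0 : 0 < η' := by positivity
  set θ : ℝ := min (η' / 2) (η' ^ 2 / 2) with hθ
  have hθ0 : 0 < θ := lt_min (by positivity) (by positivity)
  have hθ1 : θ + θ / η' ≤ η' := by
    have h1 : θ ≤ η' / 2 := min_le_left _ _
    have h2 : θ / η' ≤ η' / 2 := by
      rw [div_le_iff₀ hη'0]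
      have : θ ≤ η' ^ 2 / 2 := min_le_right _ _
      nlinarith
    linarith
  obtain ⟨N, hN, hκN⟩ := ((hC u θ hθ0).and (hκ (1 / 2) (by norm_num))).exists
  filter_upwards [hN, hκN, hR u η' hη'0] with ε h1 h2 h3
  obtain ⟨G, hG, hk⟩ := h1
  have hp : ∀ k : ZMod 3, sampleLaw {ω | η' < ‖omz k ^ 2 * T u ε ω - -κ N ε * D u ε ω k‖} ≤
      ENNReal.ofReal η' := fun k => prob_of (hk k) hη'0 hθ0.le hG hθ1
  have hsub : {ω | η < ‖T u ε ω‖} ⊆
      (({ω | η' < ‖omz 0 ^ 2 * T u ε ω - -κ N ε * D u ε ω 0‖} ∪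
        {ω | η' < ‖omz 1 ^ 2 * T u ε ω - -κ N ε * D u ε ω 1‖}) ∪
        {ω | η' < ‖omz 2 ^ 2 * T u ε ω - -κ N ε * D u ε ω 2‖}) ∪
        {ω | ¬ Rl (T u ε ω) (T' u ε ω) (D u ε ω)} := by
    intro ω hω
    by_contra hcon
    simp only [mem_union, mem_ofPred_eq, not_or, not_lt, not_not] at hcon
    obtain ⟨⟨⟨w0, w1⟩, w2⟩, wR⟩ := hcon
    have hall : ∀ k : ZMod 3, ‖omz k ^ 2 * T u ε ω - -κ N ε * D u ε ω k‖ ≤ η' := by
      intro k
      rcases z3 k with rfl | rfl | rfl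
      · exact w0
      · exact w1
      · exact w2
    have h5 := (alt wR hall).1
    have hω' : η < ‖T u ε ω‖ := hω
    rw [norm_mul] at h5
    have h6 : 1 ≤ ‖2 * hi - -κ N ε‖ := by
      have h7 := norm_sub_norm_le (2 * hi) (-κ N ε)
      rw [norm_hi, norm_neg] at h7
      have := sqrt3_lo
      linarith
    have h7 : ‖T u ε ω‖ ≤ ‖2 * hi - -κ N ε‖ * ‖T u ε ω‖ :=
      le_mul_of_one_le_left (norm_nonneg _) h6
    have h8 := sqrt3_hi
    nlinarith
  refine (measure_mono hsub).trans ?_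
  have h4 : ENNReal.ofReal η = ENNReal.ofReal η' + ENNReal.ofReal η' + ENNReal.ofReal η' +
      ENNReal.ofReal η' := by
    rw [← ENNReal.ofReal_add (by positivity) (by positivity),
      ← ENNReal.ofReal_add (by positivity) (by positivity),
      ← ENNReal.ofReal_add (by positivity) (by positivity)]
    congr 1
    rw [hη']
    ring
  rw [h4]
  refine (measure_union_le _ _).trans (add_le_add ?_ h3)
  refine (measure_union_le _ _).trans (add_le_add ?_ (hp 2))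
  exact (measure_union_le _ _).trans (add_le_add (hp 0) (hp 1))

end Crest.Agent.R143.Kapx99
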