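import Crest.Agent.R143.R10_930
import Crest.Agent.R143.DetS_421
import Crest.Agent.R143.EnvH_653

/-!
# Row 143 (S0194), box R10: environment and the fixed environment theorem (helper930)

* `nr_root` : no positive rainbow triangle if there is a centre
* `GE S c1 c2 K R1 h D ε` : hole radius `√ε` and mesh bounds at the scales `[c2 h, D]` round all the
  points of `closedBall 0 R1`
* `ge_ev` : with probability `≥ 1 - ε` this holds for all the finite sets in general position which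
  agree with the sample in a big ball
* **`r10_fix`** : giants `A` with a root face, classes `A'` which cover the complement of
  `V = Vin S P d`, thin, labels right off the marks ⟹ coupling of the hits of `A` with the values of
  the position labels of `V`
-/

set_option autoImplicit false

noncomputable section

open scoped Classical ENNReal

namespace Crest.Agent.R143.R10Ex930

open Set MeasureTheory Filter Topology
open Crest.ProbabilityR.Voronoi
open Crest.Agent.R143.Harx315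
open Crest.Agent.R143.D3Fx802 (CArm)
open Crest.Agent.R143.B0x346 Crest.Agent.R143.DelGx806
open Crest.Agent.R143.JColx54 (Adj)
open Crest.Agent.R143.K33x877 Crest.Agent.R143.Cont4x920 Crest.Agent.R143.Cont5x920
  Crest.Agent.R143.Cont7x920
open Crest.Agent.R143.Cont6x920 (ArmV armV_of_armB)
open Crest.Agent.R143.NetUx346 Crest.Agent.R143.NetVx346 Crest.Agent.R143.Stabx930
open Crest.Agent.R143.Stab2x930 Crest.Agent.R143.R10x930
open Crest.Agent.R143.RB0x838 (LDns Mesh)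
open Crest.Agent.R143.RBmx838 (MeshA NvA)
open Crest.Agent.R143.ArmPx930 (adj_small ldns_mono mesh_mono)
open Crest.Agent.R143.Hexx877 (NegO hex_root)
open Crest.Agent.R143.GateKx421 (Thin)
open Crest.Agent.R143.PP1x831 (rad)
open Crest.Agent.R143.EnvHx653 (Cab Cab_pos EnvH env_h)

variable {S V : Finset ℂ} {A A' B : ZMod 3 → Set ℂ} {i : ZMod 3}

/-! ### no rainbow triangle -/

theorem nr_root {o : ℂ × ℂ × ℂ} {m : ZMod 3} (hT : TrR S o m A) (hn : NegO A o)
    (vis : ∃ X, CtrX S A X) : NR S A := by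
  intro i t ht h0 h1 h2
  obtain ⟨X, hX⟩ := vis
  have hC := hT.toCls
  have key : ∀ {a b : ZMod 3} {s : ℂ}, s ∈ A a → s ∈ A b → a = b := by
    intro a b s h1 h2
    by_contra hne
    exact hC.ne hne h1 h2
  have hno : t ∉ rots o := by
    intro hr
    obtain ⟨x, y, z⟩ := o
    obtain ⟨t1, t2, t3⟩ := t
    obtain ⟨hx, hy, hz⟩ := hn
    simp only at hx hy hz h0 h1 h2
    simp only [rots, Set.mem_insert_iff, Set.mem_singleton_iff, Prod.mk.injEq] at hr
    rcases hr with ⟨r1, r2, -⟩ | ⟨r1, r2, -⟩ | ⟨r1, r2, -⟩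
    · rw [r1] at h0; rw [r2] at h1
      have e1 := key h0 hx
      have e2 := key h1 hy
      clear * - e1 e2
      revert i
      decide
    · rw [r1] at h0; rw [r2] at h1
      have e1 := key h0 hy
      have e2 := key h1 hz
      clear * - e1 e2
      revert i
      decide
    · rw [r1] at h0; rw [r2] at h1
      have e1 := key h0 hz
      have e2 := key h1 hx
      clear * - e1 e2
      revert i
      decide
  refine (fam_root S o m).ktx A hT t X hno ⟨ht, fun j => ?_⟩ hX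
  have hj : j = i ∨ j = i + 1 ∨ j = i + 2 := by
    clear * -
    revert i j; decide
  rcases hj with rfl | rfl | rfl
  · exact ⟨t.1, Or.inl rfl, h0⟩
  · exact ⟨t.2.1, Or.inr (Or.inl rfl), h1⟩
  · exact ⟨t.2.2, Or.inr (Or.inr rfl), h2⟩

/-! ### environment -/

/-- environment round the points of `closedBall 0 R1`, at the scales `[c2 h, D]` -/
structure GE (S : Finset ℂ) (c1 c2 K R1 h D ε : ℝ) : Prop where
  ld : ∀ z : ℂ, ‖z‖ ≤ R1 → LDns S z (K * D) √ε
  mesh : ∀ z : ℂ, ‖z‖ ≤ R1 → ∀ b, c2 * h ≤ b → b ≤ D → Mesh S z (K * D) b Cab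
  dr : √ε ≤ c1 * h

theorem ldns_up {z : ℂ} {R d d' : ℝ} (h : LDns S z R d) (hd : d ≤ d') : LDns S z R d' :=
  ⟨h.gp, h.dpos.trans_le hd, fun w hw => by
    obtain ⟨s, h1, h2⟩ := h.hole w hw
    exact ⟨s, h1, h2.trans_le hd⟩⟩

theorem rad_sqrt (C : ℝ) : ∀ᶠ ε : ℝ in 𝓝[>] 0, rad C ε ≤ √ε := by
  have h1 := (DicCx831.log_small 1).const_mul (C ^ 2)
  rw [mul_zero] at h1
  filter_upwards [h1.eventually_lt_const (show (0 : ℝ) < 1 by norm_num),
    Ioo_mem_nhdsGT (show (0 : ℝ) < 1 by norm_num)] with ε h2 h3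
  have hε := h3.1
  have hl : 0 ≤ Real.log (1 / ε) := Real.log_nonneg (by rw [le_div_iff₀ hε]; linarith [h3.2])
  rw [Real.rpow_one] at h2
  unfold rad
  apply Real.le_sqrt_of_sq_le
  have e : (C * ε * √(Real.log (1 / ε))) ^ 2 = ε * (C ^ 2 * (ε * Real.log (1 / ε))) := by
    rw [mul_pow, Real.sq_sqrt hl]
    ring
  rw [e]
  nlinarith

/-- **the environment** -/
theorem ge_ev {c1 c2 K R1 R2 h D : ℝ} (hc1 : 0 < c1) (hc2 : 0 < c2) (hK : 0 ≤ K) (hh : 0 < h)
    (hD : 0 < D) (hD2 : 2 * D ≤ 1) (hR : R1 + (K + 1) * D + 1 ≤ R2) :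
    ∀ᶠ ε : ℝ in 𝓝[>] 0, sampleLaw {ω | ¬ ∀ S : Finset ℂ, GP (S : Set ℂ) →
      (∀ s : ℂ, ‖s‖ ≤ R2 → (s ∈ points ε ω ↔ s ∈ S)) → GE S c1 c2 K R1 h D ε} ≤
        ENNReal.ofReal ε := by
  obtain ⟨C, hC, H⟩ := env_h R2 1
  have h1 : 0 < c2 * h / D := by positivity
  have hs : Tendsto (fun ε : ℝ => √ε) (𝓝[>] 0) (𝓝 0) := by
    have := (Real.continuous_sqrt.tendsto 0).mono_left (nhdsWithin_le_nhds (s := Set.Ioi 0))
    rwa [Real.sqrt_zero] at this
  filter_upwards [H K 1 (c2 * h / D) D hK one_pos h1 hD, rad_sqrt C,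
    hs.eventually_lt_const (show 0 < c1 * h by positivity),
    hs.eventually_lt_const (show (0 : ℝ) < 1 / 2 by norm_num)] with ε h2 h3 h4 h5
  rw [Real.rpow_one] at h2
  refine (measure_mono ?_).trans h2.2
  intro ω hω hE
  refine hω fun S hS hag => ?_
  have nva : ∀ z : ℂ, ‖z‖ ≤ R1 → NvA S z (K * D) (c2 * h / D) D (rad C ε) Cab := by
    intro z hz
    have hr : rad C ε ≤ 1 / 2 := h3.trans h5.le
    have hr0 := h2.1.1
    refine hE S z D hS le_rfl hD2 (by linarith) fun s hs => hag s ?_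
    have := norm_add_le (s - z) z
    rw [sub_add_cancel] at this
    linarith
  refine ⟨fun z hz => ldns_up (nva z hz).dns h3, fun z hz b hb1 hb2 => ?_, h4.le⟩
  refine (nva z hz).mesh b ?_ hb2
  rw [div_mul_cancel₀ _ hD.ne']
  exact hb1

/-- arms -/
theorem armB_ge : ∃ C c c1 c2 K : ℝ, 1 ≤ C ∧ 0 < c ∧ 0 < c1 ∧ 0 < c2 ∧ 1 ≤ K ∧
    ∀ (S : Finset ℂ) (K1 c1' c2' R1 h D ε d : ℝ), K ≤ K1 → c1' ≤ c1 → c2' ≤ c2 → 0 < h → 0 < D →
      h ≤ d → GE S c1' c2' K1 R1 h D ε → ArmB S (Metric.closedBall 0 R1) d D C c := by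
  obtain ⟨C, c, c1, c2, K, hC, hc, hc1, hc2, -, hK, H⟩ := armB Cab Cab_pos.le
  refine ⟨C, c, c1, c2, K, hC, hc, hc1, hc2, hK, ?_⟩
  intro S K1 c1' c2' R1 h D ε d h1 h2 h3 hh hD hd E
  have hd0 : 0 < d := by linarith
  have hKK : K * D ≤ K1 * D := mul_le_mul_of_nonneg_right h1 hD.le
  refine H S _ √ε d D hd0 (fun z hz => ?_) (fun z hz b hb1 hb2 => ?_) ?_
  · rw [Metric.mem_closedBall, dist_zero_right] at hz
    exact ldns_mono (E.ld z hz) hKK
  · rw [Metric.mem_closedBall, dist_zero_right] at hz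
    refine mesh_mono (E.mesh z hz b ?_ hb2) hKK
    have : c2' * h ≤ c2 * h := mul_le_mul_of_nonneg_right h3 hh.le
    nlinarith
  · have h4 : c1' * h ≤ c1 * h := mul_le_mul_of_nonneg_right h2 hh.le
    have := E.dr
    nlinarith

/-- environment of the marks -/
theorem envM_ge {c1 c2 K c1' c2' K1 R1 h D ε ρ : ℝ} {mk : ZMod 3 → ℂ} (h1 : K ≤ K1)
    (h2 : c1' ≤ c1) (h3 : c2' ≤ c2) (hc1 : 0 < c1) (hc2 : 0 < c2) (hh : 0 < h) (hρ : h ≤ ρ)
    (hD : 100 * ρ ≤ D) (hm : ∀ k, ‖mk k‖ ≤ R1) (E : GE S c1' c2' K1 R1 h D ε) :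
    EnvM S mk Cab c1 c2 K √ε ρ D := by
  have hρ0 : 0 < ρ := by linarith
  have hD0 : 0 < D := by linarith
  have hKK : K * D ≤ K1 * D := mul_le_mul_of_nonneg_right h1 hD0.le
  refine ⟨fun k => ldns_mono (E.ld _ (hm k)) hKK, fun k b hb1 hb2 => ?_, ?_, hρ0, hD⟩
  · refine mesh_mono (E.mesh _ (hm k) b ?_ hb2) hKK
    have e1 : c2' * h ≤ c2 * h := mul_le_mul_of_nonneg_right h3 hh.le
    have e2 : c2 * h ≤ c2 * ρ := mul_le_mul_of_nonneg_left hρ hc2.le
    linarith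
  · have e1 : c1' * h ≤ c1 * h := mul_le_mul_of_nonneg_right h2 hh.le
    have e2 : c1 * h ≤ c1 * ρ := mul_le_mul_of_nonneg_left hρ hc1.le
    have := E.dr
    linarith

/-- **R10 in a fixed environment** -/
theorem r10_fix : ∃ C c c1 c2 K : ℝ, 1 ≤ C ∧ 0 < c ∧ 0 < c1 ∧ 0 < c2 ∧ 2 ≤ K ∧
    ∀ (S : Finset ℂ) (R1 h D ε : ℝ), 0 < h → GE S c1 c2 K R1 h D ε →
    ∀ (A A' : ZMod 3 → Set ℂ) (o : ℂ × ℂ × ℂ) (l : ZMod 3), TrR S o l A → NegO A o → Cls S A' →
    (∀ i, A i ⊆ A' i) → ∀ (P : Set ℂ) (L : ℂ → ZMod 3) (mk : ZMod 3 → ℂ) (d0 d ρ : ℝ),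
    ff S A' = Vin S P √ε → (∃ X, CtrX S A' X) → (∀ w ∈ fr S A, ‖w‖ + 2 * √ε ≤ R1) →
    0 ≤ d0 → (∀ l, Thin S A A' l d0) → d0 + 4 * √ε ≤ d → h ≤ d → h ≤ ρ → 100 * ρ ≤ D →
    (∀ k, ‖mk k‖ ≤ R1) →
    (∀ x, Nxt S (Vin S P √ε) x → (∀ k, ρ < ‖x - mk k‖) → ∀ j, x ∈ A' j → L x = j) →
    (∀ k, ∃ f, ∀ x, Nxt S (Vin S P √ε) x → x ∉ Vin S P √ε → (x ∈ A' f ∨ L x = f) →
      D < ‖x - mk k‖) →
    ∀ η, d ≤ η → η ≤ D → ∀ i, pr (ff S A) (fun β => η < ‖hv S A i (β : Set ℂ) -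
      zV S (Vin S P √ε) (Bl S (Vin S P √ε) L) i ((β ∩ Vin S P √ε : Finset ℂ) : Set ℂ)
        (fun x => x)‖) ≤ C * ((d / η) ^ c + (ρ / D) ^ c) := by
  obtain ⟨Ca, ca, c1a, c2a, Ka, hCa, hca, hc1a, hc2a, hKa, Ha⟩ := armB_ge
  obtain ⟨Cs, cs, c1s, c2s, Ks, hCs, hcs, hc1s, hc1s', hc2s, -, hKs, Hs⟩ := bde_pow Cab Cab_pos.le
  refine ⟨8 * (Ca * 16 ^ ca) + Cs, min (ca / 3) cs, min c1a c1s, min c2a c2s, max Ka Ks, ?_,
    lt_min (by linarith) hcs, lt_min hc1a hc1s, lt_min hc2a hc2s, hKs.trans (le_max_right _ _), ?_⟩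
  · have h1 : (1 : ℝ) ≤ 16 ^ ca := Real.one_le_rpow (by norm_num) hca.le
    have h2 : 1 ≤ Ca * 16 ^ ca := by nlinarith
    linarith
  intro S R1 h D ε hh E A A' o l hA hn hA' hs P L mk d0 d ρ hV vis hR hd0 thin hdd hhd hρ hD hmk
    lab opp η hη hηD i
  have hρ0 : 0 < ρ := by linarith
  have hD0 : 0 < D := by linarith
  have hd : 0 < d := by linarith
  have hη0 : 0 < η := by linarith
  have hS := hA.gp
  have hT' : TrR S o l A' := hA.up hs hA'
  have hn' : NegO A' o := ⟨hs 0 hn.1, hs 2 hn.2.1, hs 1 hn.2.2⟩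
  have hX := hex_root hA hn
  have hX' := hex_root hT' hn'
  have nr := nr_root hT' hn' vis
  have hfs : fr S A' ⊆ fr S A := fun w hw => ⟨hw.1, fun j hj => hw.2 j (hs j hj)⟩
  have hε : 0 ≤ √ε := Real.sqrt_nonneg _
  have hR1 : ∀ w ∈ fr S A, ‖w‖ ≤ R1 := fun w hw => by linarith [hR w hw]
  have hK1 : 1 ≤ max Ka Ks := hKa.trans (le_max_left _ _)
  have hdr : √ε ≤ D := by
    have h1 := E.dr
    have h2 : min c1a c1s * h ≤ 1 * h :=
      mul_le_mul_of_nonneg_right ((min_le_right _ _).trans hc1s') hh.le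
    linarith
  have hedge : ∀ a ∈ fr S A, ∀ b, Adj S a b → ‖a - b‖ ≤ 2 * √ε := by
    intro a ha b hab
    rw [norm_sub_rev]
    refine (adj_small (E.ld a (hR1 a ha)) hab ?_).le
    rw [sub_self, norm_zero, zero_add]
    nlinarith
  have Ly : DetSx421.Lay S A A' (Metric.closedBall 0 R1) d0 (2 * √ε) := by
    refine ⟨hs, vis, hd0, by linarith, hedge, thin, fun w hw => ?_, fun z hz => ?_⟩
    · rw [Metric.mem_closedBall, dist_zero_right]
      exact hR1 w hw
    · obtain ⟨w, hw, ha⟩ := hz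
      have h1 := hedge w (hfs hw) z ha.symm
      have h2 := hR w (hfs hw)
      rw [Metric.mem_closedBall, dist_zero_right]
      have h3 := norm_sub_norm_le z w
      rw [norm_sub_rev] at h3
      linarith
  have hDet : DetsS S (ff S A) A A' (OP S) (Metric.closedBall 0 R1) d D :=
    DetSx421.detsS_root hA hT' hn Ly (by linarith) hd
  have hArm : ArmV S (ff S A) (Metric.closedBall 0 R1) d D Ca ca :=
    armV_of_armB (Ha S _ _ _ R1 h D ε d (le_max_left _ _) (min_le_left _ _) (min_le_left _ _) hh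
      hD0 hhd E) (Finset.filter_subset _ _)
  have EM : EnvM S mk Cab c1s c2s Ks √ε ρ D :=
    envM_ge (le_max_right _ _) (min_le_right _ _) (min_le_right _ _) hc1s hc2s hh hρ hD hmk E
  have hVS : ff S A' ⊆ S := Finset.filter_subset _ _
  have adjS : ∀ {x : ℂ}, Nxt S (Vin S P √ε) x → x ∈ S := by
    rintro x ⟨v, -, ha⟩
    exact ha.mem.2
  have dA : ∀ j, ∀ x ∈ A' j, x ∉ ff S A' := by
    intro j x hx h
    exact (mem_ff.1 h).2 j hx
  have H : Mk S (ff S A') A' (Bl S (ff S A') L) mk √ε ρ (Real.sqrt (ρ * D)) D := by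
    refine mk_of hKs hc1s' EM dA (fun j x hx => hx.2.1) ?_ ?_
    · intro x hx hk j
      rw [hV] at hx
      constructor
      · intro h
        refine ⟨adjS hx, dA j x h, ?_, lab x hx hk j h⟩
        obtain ⟨v, hv, ha⟩ := hx
        exact ⟨v, by rw [hV]; exact hv, ha.symm⟩
      · intro h
        have : ∃ j', x ∈ A' j' := by
          by_contra hcon
          push Not at hcon
          exact h.2.1 (mem_ff.2 ⟨h.1, hcon⟩)
        obtain ⟨j', hj'⟩ := this
        have e1 := lab x hx hk j' hj'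
        rw [h.2.2.2] at e1
        rw [e1]
        exact hj'
    · intro k
      obtain ⟨f, hf⟩ := opp k
      refine ⟨f, fun x hx h => ?_⟩
      rw [hV] at hx
      rcases h with h | h
      · exact hf x hx (by rw [← hV]; exact dA f x h) (Or.inl h)
      · exact hf x hx (by rw [← hV]; exact h.2.1) (Or.inr h.2.2.2)
  have key := r10_pr hS hX hX' nr hs (Rg := Metric.closedBall 0 R1) (fun w hw => by
    rw [Metric.mem_closedBall, dist_zero_right]; exact hR1 w hw) hd hη hηD hArm hCa hca.le hDet H i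
  have hB := Hs S mk √ε ρ D EM (ff S A') hVS
  rw [hV] at key hB
  refine key.trans ?_
  have x1 : 0 < d / η := by positivity
  have x2 : 0 < ρ / D := by positivity
  have y1 : (d / η) ^ (ca / 3) ≤ (d / η) ^ (min (ca / 3) cs) :=
    Real.rpow_le_rpow_of_exponent_ge x1 ((div_le_one hη0).2 hη) (min_le_left _ _)
  have y2 : (ρ / D) ^ cs ≤ (ρ / D) ^ (min (ca / 3) cs) :=
    Real.rpow_le_rpow_of_exponent_ge x2 ((div_le_one hD0).2 (by linarith)) (min_le_right _ _)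
  have z1 : 0 ≤ (d / η) ^ (min (ca / 3) cs) := Real.rpow_nonneg x1.le _
  have z2 : 0 ≤ (ρ / D) ^ (min (ca / 3) cs) := Real.rpow_nonneg x2.le _
  have w0 : 0 ≤ 8 * (Ca * 16 ^ ca) := by
    have : (0 : ℝ) ≤ 16 ^ ca := Real.rpow_nonneg (by norm_num) _
    positivity
  have w1 := mul_le_mul_of_nonneg_left y1 w0
  have w2 := mul_le_mul_of_nonneg_left y2 hCs.le
  have w3 := mul_nonneg w0 z2
  have w4 := mul_nonneg hCs.le z1
  nlinarith

end Crest.Agent.R143.R10Ex930
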