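import Crest.Agent.R143.KapA_99
import Crest.Agent.R143.KapG_99
import Crest.Agent.R143.KapD_366
import Crest.Agent.R143.Kap_99
import Crest.Agent.R143.PolyM_346
import Crest.Agent.R143.R10E_930

/-!
# Row 143 (S0194), block H, H5 route 1: `T'` of one brick is bounded below (helper99)

* `lab_near`, `lab_mark`, `lab_opp` : geometry of the position labels of the brick;
* `low_env` : in a good environment `1 / 2 ≤ ‖br.T' ε ω‖`;
* **`low_br : LowAt (PolyMx346.b br)`**;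
* **`kap_br`** : the corridor data at the brick give `κ → 0`.
-/

set_option autoImplicit false

noncomputable section

open scoped Classical

namespace Crest.Agent.R143.KapUx99

open Set Filter Topology MeasureTheory
open scoped ENNReal
open Crest.ProbabilityR.Voronoi
open Crest.Agent.R143.B0x346 Crest.Agent.R143.DelGx806 Crest.Agent.R143.DelRx806
open Crest.Agent.R143.JColx54 (Adj)
open Crest.Agent.R143.K33x877 Crest.Agent.R143.NetUx346 Crest.Agent.R143.NetVx346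
open Crest.Agent.R143.PolyUx346
open Crest.Agent.R143.LocUx700 (mem_Vin TU_local deep_sub)
open Crest.Agent.R143.Locx922 (Hol)
open Crest.Agent.R143.Stabx930 (NR Nxt)
open Crest.Agent.R143.Stab2x930 (EnvM stabU)
open Crest.Agent.R143.R10Ex930 (GE ge_ev envM_ge)
open Crest.Agent.R143.EnvHx653 (Cab Cab_pos)
open Crest.Agent.R143.KapBx99 (z3 exists_far3 Far3)
open Crest.Agent.R143.KapCx99 (Rr Ar ar0 ar1 ar2 Ev)
open Crest.Agent.R143.KapEx99 (re_le im_le nrm_le rr_norm)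
open Crest.Agent.R143.KapFx99 (ar_reg ev_hol)
open Crest.Agent.R143.KapGx99 (giants)
open Crest.Agent.R143.KapAx99 (Hj H0 H1 H2 brick_lower exC_near convex_Hj)
open Crest.Agent.R143.KapDx366 (br br_P arc0 arc1 arc2)
open Crest.Agent.R143.Kapx99 (LowAt CornAt RlAt kap_small kap_dl small_of_kap)
open Crest.Agent.R143.PolySx854 (CORN DP DL corn_of CrG)
open Crest.Agent.R143.PolyQx854 (RLP)

/-! ### the arcs -/

theorem br_Rr : br.P = Rr := br_P

theorem br_arc : ∀ j : Fin 3, br.Arc j = Ar ((j : ℕ) : ZMod 3) := by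
  intro j
  fin_cases j
  · ext z; exact (arc0 z).trans ar0.symm
  · ext z; exact (arc1 z).trans ar1.symm
  · ext z; exact (arc2 z).trans ar2.symm

theorem fin_z (i : ZMod 3) : ∃ j : Fin 3, ((j : ℕ) : ZMod 3) = i := by
  revert i
  decide

theorem ar_ne (j : ZMod 3) : (Ar j).Nonempty := by
  refine z3 (P := fun j => (Ar j).Nonempty) ?_ ?_ ?_ j
  · exact ⟨⟨2, 0⟩, ar0.2 (Or.inl ⟨rfl, by norm_num, le_rfl⟩)⟩
  · exact ⟨⟨2, 1⟩, ar1.2 (Or.inl ⟨rfl, by norm_num, le_rfl⟩)⟩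
  · exact ⟨⟨0, 0⟩, ar2.2 (Or.inr (Or.inl ⟨rfl, le_rfl, by norm_num⟩))⟩

/-- if `x` is near some arc, it is near the arc of its label -/
theorem lab_near {x q : ℂ} {i : ZMod 3} {r r' : ℝ} (hq : q ∈ Ar i) (h : ‖x - q‖ ≤ r)
    (hr : r < r') : ∃ q' ∈ Ar (br.Lab x), ‖x - q'‖ ≤ r' := by
  obtain ⟨j, h1, h2, -⟩ := br.near_lab x
  obtain ⟨i', hi'⟩ := fin_z i
  have h3 := h1 i'
  rw [br_arc, br_arc, hi', ← h2] at h3
  have h4 : Metric.infDist x (Ar i) ≤ r := by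
    refine (Metric.infDist_le_dist_of_mem hq).trans ?_
    rw [dist_eq_norm]; exact h
  obtain ⟨q', hq', h5⟩ := (Metric.infDist_lt_iff (ar_ne (br.Lab x))).1
    (lt_of_le_of_lt (h3.trans h4) hr)
  exact ⟨q', hq', by rw [dist_eq_norm] at h5; exact h5.le⟩

/-- the marks -/
def mk (k : ZMod 3) : ℂ := if k = 0 then ⟨1 / 2, 0⟩ else if k = 1 then ⟨2, 1 / 2⟩ else ⟨1 / 2, 1⟩

theorem mk0 : mk 0 = ⟨1 / 2, 0⟩ := if_pos rfl
theorem mk1 : mk 1 = ⟨2, 1 / 2⟩ := by unfold mk; rw [if_neg (by decide), if_pos rfl]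
theorem mk2 : mk 2 = ⟨1 / 2, 1⟩ := by unfold mk; rw [if_neg (by decide), if_neg (by decide)]

theorem mk_near {x : ℂ} {a b r : ℝ} (h1 : |x.re - a| ≤ r) (h2 : |x.im - b| ≤ r) :
    ‖x - ⟨a, b⟩‖ ≤ 2 * r := by
  refine (nrm_le (a := r) (b := r) ?_ ?_).trans (by linarith)
  · simpa using h1
  · simpa using h2

/-- near two arcs means near a mark -/
theorem two_arcs {x q q' : ℂ} {i j : ZMod 3} {r : ℝ} (hr : r ≤ 1 / 10) (hij : i ≠ j)
    (hq : q ∈ Ar i) (hq' : q' ∈ Ar j) (h : ‖x - q‖ ≤ r) (h' : ‖x - q'‖ ≤ r) :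
    ∃ k, ‖x - mk k‖ ≤ 2 * r := by
  have key : ∀ {q q' : ℂ}, ‖x - q‖ ≤ r → ‖x - q'‖ ≤ r →
      (q ∈ Ar 0 → q' ∈ Ar 1 → ∃ k, ‖x - mk k‖ ≤ 2 * r) ∧
      (q ∈ Ar 0 → q' ∈ Ar 2 → ∃ k, ‖x - mk k‖ ≤ 2 * r) ∧
      (q ∈ Ar 1 → q' ∈ Ar 2 → ∃ k, ‖x - mk k‖ ≤ 2 * r) := by
    intro q q' h h'
    have a1 := re_le h
    have a2 := im_le h
    have b1 := re_le h'
    have b2 := im_le h'
    simp only [Complex.sub_re, Complex.sub_im] at a1 a2 b1 b2
    obtain ⟨g0, g1, g2⟩ := @ar_reg q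
    obtain ⟨g0', g1', g2'⟩ := @ar_reg q'
    refine ⟨fun e e' => ⟨1, ?_⟩, fun e e' => ⟨0, ?_⟩, fun e e' => ⟨2, ?_⟩⟩
    · have k1 := g0 e
      have k2 := g1' e'
      rw [mk1]
      rcases ar0.1 e with ⟨e1, e2, e3⟩ | ⟨e1, e2, e3⟩
      · exfalso; linarith [k2.2]
      · refine mk_near ?_ ?_ <;> rw [abs_le] <;> constructor <;> linarith [k1.2, k2.2]
    · have k1 := g0 e
      have k2 := g2' e'
      rw [mk0]
      rcases ar0.1 e with ⟨e1, e2, e3⟩ | ⟨e1, e2, e3⟩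
      · refine mk_near ?_ ?_ <;> rw [abs_le] <;> constructor <;> linarith [k1.1]
      · exfalso; linarith
    · have k1 := g1 e
      have k2 := g2' e'
      rw [mk2]
      rcases ar1.1 e with ⟨e1, e2, e3⟩ | ⟨e1, e2, e3⟩
      · exfalso; linarith
      · refine mk_near ?_ ?_ <;> rw [abs_le] <;> constructor <;> linarith [k1.1]
  obtain ⟨u1, u2, u3⟩ := key h h'
  obtain ⟨v1, v2, v3⟩ := key h' h
  revert hij hq hq'
  refine z3 (P := fun i => i ≠ j → q ∈ Ar i → q' ∈ Ar j → ∃ k, ‖x - mk k‖ ≤ 2 * r) ?_ ?_ ?_ i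
  · refine z3 (P := fun j => 0 ≠ j → q ∈ Ar 0 → q' ∈ Ar j → ∃ k, ‖x - mk k‖ ≤ 2 * r) ?_ ?_ ?_ j
    · intro h; exact absurd rfl h
    · intro _; exact u1
    · intro _; exact u2
  · refine z3 (P := fun j => 1 ≠ j → q ∈ Ar 1 → q' ∈ Ar j → ∃ k, ‖x - mk k‖ ≤ 2 * r) ?_ ?_ ?_ j
    · intro _ a b; exact v1 b a
    · intro h; exact absurd rfl h
    · intro _; exact u3
  · refine z3 (P := fun j => 2 ≠ j → q ∈ Ar 2 → q' ∈ Ar j → ∃ k, ‖x - mk k‖ ≤ 2 * r) ?_ ?_ ?_ j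
    · intro _ a b; exact v2 b a
    · intro _ a b; exact v3 b a
    · intro h; exact absurd rfl h

/-- the third arc is far from the mark -/
theorem opp_far (k : ZMod 3) {x q : ℂ} {r : ℝ} (hr : r < 1 / 10) (hq : q ∈ Ar (k + 1))
    (h : ‖x - q‖ ≤ r) : 1 / 3 < ‖x - mk k‖ := by
  have a1 := re_le h
  have a2 := im_le h
  simp only [Complex.sub_re, Complex.sub_im] at a1 a2
  obtain ⟨g0, g1, g2⟩ := @ar_reg q
  revert hq
  refine z3 (P := fun k => q ∈ Ar (k + 1) → 1 / 3 < ‖x - mk k‖) ?_ ?_ ?_ k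
  · intro hq
    rw [zero_add] at hq
    have k1 := (g1 hq).2
    by_contra hcon
    push Not at hcon
    have := im_le hcon
    rw [mk0, Complex.sub_im] at this
    simp only at this
    linarith
  · intro hq
    rw [show (1 : ZMod 3) + 1 = 2 by decide] at hq
    have k1 := g2 hq
    by_contra hcon
    push Not at hcon
    have := re_le hcon
    rw [mk1, Complex.sub_re] at this
    simp only at this
    linarith
  · intro hq
    rw [show (2 : ZMod 3) + 1 = 0 by decide] at hq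
    have k1 := (g0 hq).2
    by_contra hcon
    push Not at hcon
    have := im_le hcon
    rw [mk2, Complex.sub_im] at this
    simp only at this
    linarith

theorem mk_norm (k : ZMod 3) : ‖mk k‖ ≤ 22 := by
  refine z3 (P := fun k => ‖mk k‖ ≤ 22) ?_ ?_ ?_ k
  · rw [mk0]
    exact (nrm_le (a := 1) (b := 1) (abs_le.2 ⟨by norm_num, by norm_num⟩)
      (abs_le.2 ⟨by norm_num, by norm_num⟩)).trans (by norm_num)
  · rw [mk1]
    exact (nrm_le (a := 2) (b := 1) (abs_le.2 ⟨by norm_num, by norm_num⟩)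
      (abs_le.2 ⟨by norm_num, by norm_num⟩)).trans (by norm_num)
  · rw [mk2]
    exact (nrm_le (a := 1) (b := 1) (abs_le.2 ⟨by norm_num, by norm_num⟩)
      (abs_le.2 ⟨by norm_num, by norm_num⟩)).trans (by norm_num)

/-! ### the hit vertices are near the hulls -/

theorem ar_hull (j : ZMod 3) {q : ℂ} (hq : q ∈ Ar j) : q ∈ Hj j := by
  revert hq
  refine z3 (P := fun j => q ∈ Ar j → q ∈ Hj j) ?_ ?_ ?_ j
  · intro hq
    unfold Hj
    rw [if_pos rfl]
    rcases ar0.1 hq with ⟨h1, h2, h3⟩ | ⟨h1, h2, h3⟩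
    · exact ⟨by linarith, h3, by linarith⟩
    · exact ⟨h2, by linarith, by linarith⟩
  · intro hq
    unfold Hj
    rw [if_neg (by decide), if_pos rfl]
    rcases ar1.1 hq with ⟨h1, h2, h3⟩ | ⟨h1, h2, h3⟩
    · exact ⟨h3, by linarith, by linarith⟩
    · exact ⟨by linarith, h3, by linarith⟩
  · intro hq
    unfold Hj
    rw [if_neg (by decide), if_neg (by decide)]
    rcases ar2.1 hq with ⟨h1, h2, h3⟩ | ⟨h1, h2, h3⟩ | ⟨h1, h2, h3⟩
    · exact ⟨h2, h3, by linarith, by linarith⟩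
    · exact ⟨by linarith, by linarith, h2, h3⟩
    · exact ⟨h2, h3, by linarith, by linarith⟩

theorem conj_TS (S : Finset ℂ) (A : ZMod 3 → Set ℂ) (hX : Hex S A) :
    (starRingEnd ℂ) (TS S A (starRingEnd ℂ)) =
      3 * ∑ j : ZMod 3, omz j ^ 2 * exC (ff S A) fun T => hv S A j T := by
  unfold TS
  rw [map_mul, Complex.conj_ofNat, map_sum]
  congr 1
  refine Finset.sum_congr rfl fun j _ => ?_
  rw [map_mul, PolyMx346.conj_omz, Ey_eq hX, ← PolyMx346.exC_conj]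
  congr 2
  funext T
  exact Complex.conj_conj _

/-- **lower bound of `T'` of the triple of the brick** -/
theorem ts_low {S : Finset ℂ} {d τ : ℝ} (hS : GP (S : Set ℂ)) (hτ : τ ≤ 1 / 1000000)
    {A : ZMod 3 → Set ℂ} (hX : Hex S A) (nr : NR S A) (hV : ff S A = Vin S Rr d)
    (hQ : ∀ i, ∀ x ∈ A i, (∃ v ∈ Vin S Rr d, Adj S x v) → ∃ q ∈ Ar i, ‖x - q‖ ≤ 9000 * τ) :
    1 ≤ ‖TS S A (starRingEnd ℂ)‖ := by
  have h1 : ∀ j : ZMod 3, ∃ q ∈ Hj j, ‖(exC (ff S A) fun T => hv S A j T) - q‖ ≤ 9000 * τ := by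
    intro j
    refine exC_near (convex_Hj j) fun T hT => ?_
    obtain ⟨t, ht, -⟩ := hX j T hT
    have hd := Stabx930.deg nr hT ht
    rw [hv_eq hX hT ht]
    obtain ⟨q, hq, h2⟩ := hQ j t.1 ht.2.1 (by
      rw [← hV]
      rcases hd with hd | hd
      · exact ⟨t.2.1, hd, Or.inl ⟨t.2.2, ht.1⟩⟩
      · exact ⟨t.2.2, hd, Or.inr ⟨t.2.1, JColx54.delT_rot hS (JColx54.delT_rot hS ht.1)⟩⟩)
    exact ⟨q, ar_hull j hq, h2⟩
  choose m' hm hm' using h1
  have h2 := brick_lower (m := fun j => exC (ff S A) fun T => hv S A j T) hm hm'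
  have h3 : ‖TS S A (starRingEnd ℂ)‖ =
      3 * ‖∑ j : ZMod 3, omz j ^ 2 * exC (ff S A) fun T => hv S A j T‖ := by
    rw [← RCLike.norm_conj (TS S A (starRingEnd ℂ)), conj_TS S A hX, norm_mul,
      Complex.norm_ofNat]
  rw [h3]
  linarith

/-! ### the environment -/

/-- **in a good environment `T'` of the brick is at least `1 / 2`** -/
theorem low_env : ∃ c1 c2 K D ρ : ℝ, 0 < c1 ∧ 0 < c2 ∧ 0 ≤ K ∧ 0 < D ∧ 2 * D ≤ 1 ∧
    22 + (K + 1) * D + 1 ≤ 24 ∧ 0 < ρ ∧ ∀ ε : ℝ, 0 < ε → 4000000 * √ε ≤ ρ → ∀ ω : Sample,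
    GP (points ε ω) → (∀ r : ℝ, (points ε ω ∩ Metric.closedBall 0 r).Finite) →
    (∀ S : Finset ℂ, GP (S : Set ℂ) → (∀ s : ℂ, ‖s‖ ≤ 24 → (s ∈ points ε ω ↔ s ∈ S)) →
      GE S c1 c2 K 22 ρ D ε) → 1 / 2 ≤ ‖br.T' ε ω‖ := by
  obtain ⟨C, c, c1, c2, K, hC, hc, hc1, hc1', hc2, hc2', hK, H⟩ := stabU Cab Cab_pos.le
  set D : ℝ := 1 / (3 * (K + 1)) with hDd
  have hK1 : 0 < K + 1 := by linarith
  have hD : 0 < D := by rw [hDd]; positivity
  have hKD : (K + 1) * D = 1 / 3 := by rw [hDd]; field_simp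
  have hD3 : D ≤ 1 / 9 := by
    rw [hDd]
    apply one_div_le_one_div_of_le (by norm_num)
    linarith
  -- the scale of the marks
  obtain ⟨τ, hτ0, hτ1, hτ2, hτ3⟩ : ∃ τ : ℝ, 0 < τ ∧ τ ≤ 1 / 1000000 ∧ 4000000 * τ ≤ D ∧
      C * 2001 * (40000 * τ / D) ^ c ≤ 1 / 2 := by
    have t1 : Tendsto (fun τ : ℝ => C * 2001 * (40000 * τ / D) ^ c) (𝓝[>] 0) (𝓝 0) := by
      have a1 : Tendsto (fun τ : ℝ => 40000 * τ / D) (𝓝 0) (𝓝 0) := by
        have : Tendsto (fun τ : ℝ => 40000 * τ / D) (𝓝 0) (𝓝 (40000 * 0 / D)) :=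
          (Continuous.tendsto (by fun_prop) 0)
        simpa using this
      have a2 : Tendsto (fun x : ℝ => x ^ c) (𝓝 0) (𝓝 0) := by
        have := (Real.continuous_rpow_const hc.le).tendsto (0 : ℝ)
        rwa [Real.zero_rpow hc.ne'] at this
      have a3 := ((a2.comp a1).const_mul (C * 2001)).mono_left
        (nhdsWithin_le_nhds (s := Set.Ioi (0 : ℝ)))
      rw [mul_zero] at a3
      exact a3
    have e1 := t1.eventually_lt_const (show (0 : ℝ) < 1 / 2 by norm_num)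
    have e2 : ∀ᶠ τ : ℝ in 𝓝[>] 0, 0 < τ := eventually_mem_nhdsWithin
    have e3 : ∀ᶠ τ : ℝ in 𝓝[>] 0, τ < min (1 / 1000000) (D / 4000000) := by
      have : (0 : ℝ) < min (1 / 1000000) (D / 4000000) := by positivity
      exact (Ioo_mem_nhdsGT this : _) |> fun h => Filter.mem_of_superset h fun x hx => hx.2
    obtain ⟨τ, k1, k2, k3⟩ := (e1.and (e2.and e3)).exists
    have k4 := k3.trans_le (min_le_left _ _)
    have k5 := k3.trans_le (min_le_right _ _)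
    exact ⟨τ, k2, k4.le, by linarith, k1.le⟩
  refine ⟨c1, c2, K, D, 40000 * τ, hc1, hc2, by linarith, hD, by linarith, by linarith,
    by positivity, ?_⟩
  intro ε hε hετ ω hGP hfin hGE
  set d : ℝ := √ε with hd
  have hd0 : 0 < d := Real.sqrt_pos.2 hε
  have hdτ : 100 * d ≤ τ := by linarith
  -- the sites
  set S0 : Finset ℂ := (hfin 24).toFinset with hS0
  have mS0 : ∀ x, x ∈ S0 ↔ x ∈ points ε ω ∧ ‖x‖ ≤ 24 := by
    intro x
    rw [hS0, Set.Finite.mem_toFinset, Set.mem_inter_iff, Metric.mem_closedBall, dist_zero_right]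
  have gS0 : GP (S0 : Set ℂ) :=
    ⟨fun a ha b hb c hc => hGP.line a ((mS0 a).1 (Finset.mem_coe.1 ha)).1 b
      ((mS0 b).1 (Finset.mem_coe.1 hb)).1 c ((mS0 c).1 (Finset.mem_coe.1 hc)).1,
    fun a ha b hb c hc e he => hGP.circ a ((mS0 a).1 (Finset.mem_coe.1 ha)).1 b
      ((mS0 b).1 (Finset.mem_coe.1 hb)).1 c ((mS0 c).1 (Finset.mem_coe.1 hc)).1 e
      ((mS0 e).1 (Finset.mem_coe.1 he)).1⟩
  obtain ⟨S, p, hF⟩ := exists_far3 gS0 fun x hx => ((mS0 x).1 hx).2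
  have agr : ∀ s : ℂ, ‖s‖ ≤ 24 → (s ∈ points ε ω ↔ s ∈ S) := by
    intro s hs
    rw [hF.mem s, mS0]
    constructor
    · exact fun h => Or.inl ⟨h, hs⟩
    · rintro (h | ⟨j, rfl⟩)
      · exact h.1
      · linarith [hF.p_big j]
  have E := hGE S hF.gp agr
  have hEv : Ev S0 S p d τ := by
    refine ⟨hF, hd0, hdτ, by linarith, fun w hw => ?_⟩
    obtain ⟨s, hs, h1⟩ := (E.ld w hw).hole w (by
      rw [sub_self, norm_zero]
      exact mul_nonneg (by linarith) hD.le)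
    exact ⟨s, hs, h1⟩
  obtain ⟨A, hG, hX, nr, hV, hQ⟩ := giants hEv
  have hEM : EnvM S mk Cab c1 c2 K √ε (40000 * τ) D :=
    envM_ge le_rfl le_rfl le_rfl hc1 hc2 (by positivity) le_rfl (by linarith) mk_norm E
  -- arcs near the sites next to `Vin`
  have hcov : ∀ x, Nxt S (Vin S Rr d) x → x ∉ Vin S Rr d → ∃ i, x ∈ A i := by
    rintro x ⟨v, -, hv⟩ hx
    by_contra hn
    push Not at hn
    rw [← hV] at hx
    exact hx (mem_ff.2 ⟨hv.symm.mem.1, hn⟩)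
  have hQ' : ∀ i, ∀ x ∈ A i, Nxt S (Vin S Rr d) x → ∃ q ∈ Ar i, ‖x - q‖ ≤ 9000 * τ := by
    rintro i x hx ⟨v, hv, ha⟩
    exact hQ i x hx ⟨v, hv, ha.symm⟩
  have hbig : ∀ v ∈ S, ‖(starRingEnd ℂ) v‖ ≤ 2001 := by
    intro v hv
    rw [RCLike.norm_conj]
    rcases (hF.mem v).1 hv with h | ⟨j, rfl⟩
    · linarith [hF.small v h]
    · have h1 := hF.pos j
      have h2 := KapBx99.dir_norm j
      have h3 := norm_add_le (p j - 1000 * KapBx99.dir j) (1000 * KapBx99.dir j)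
      rw [sub_add_cancel, norm_mul, show ‖(1000 : ℂ)‖ = 1000 by simp] at h3
      linarith
  obtain ⟨h1, -⟩ := H S mk √ε (40000 * τ) D hEM A Rr d br.Lab hG hX nr hV (by
      intro x hx hk j hj
      by_contra hne
      obtain ⟨q, hq, h2⟩ := hQ' j x hj hx
      obtain ⟨q', hq', h3⟩ := lab_near (r' := 10000 * τ) hq h2 (by linarith)
      obtain ⟨k, h4⟩ := two_arcs (r := 10000 * τ) (by linarith) (fun e => hne e) hq' hq h3
        (by linarith)
      have := hk k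
      linarith) (by
      intro k
      refine ⟨k + 1, fun x hx hxV h => ?_⟩
      have h5 : ∃ q ∈ Ar (k + 1), ‖x - q‖ ≤ 10000 * τ := by
        rcases h with h | h
        · obtain ⟨q, hq, h2⟩ := hQ' _ x h hx
          exact ⟨q, hq, by linarith⟩
        · obtain ⟨i, hi⟩ := hcov x hx hxV
          obtain ⟨q, hq, h2⟩ := hQ' i x hi hx
          obtain ⟨q', hq', h3⟩ := lab_near (r' := 10000 * τ) hq h2 (by linarith)
          rw [h] at hq'
          exact ⟨q', hq', h3⟩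
      obtain ⟨q, hq, h2⟩ := h5
      have := opp_far k (by linarith) hq h2
      linarith) (starRingEnd ℂ) 2001 (by norm_num) hbig
  have h2 := ts_low hF.gp hτ1 hX nr hV hQ
  -- the frozen `T'`
  have h3 : br.T' ε ω = TU S Rr d br.Lab (starRingEnd ℂ) := by
    unfold Poly.T'
    rw [br_Rr, ← hd]
    symm
    have hH : Hol (S : Set ℂ) (LocUx700.deep Rr d) d := (ev_hol hEv).mono (deep_sub hd0.le)
    refine TU_local hd0 hH (fun x hx => ?_) (fun _ _ => rfl) _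
    have hxn := rr_norm hx
    rw [← agr x (by linarith)]
    have hf : (points ε ω ∩ {x | Metric.infDist x br.P ≤ 100 * √ε}).Finite := by
      refine (hfin (3 + (100 * √ε + 1))).subset ?_
      rintro y ⟨hy1, hy2⟩
      refine ⟨hy1, ?_⟩
      rw [Metric.mem_closedBall, dist_zero_right]
      have hne : br.P.Nonempty := by
        rw [br_Rr]
        exact ⟨x, hx⟩
      obtain ⟨z, hz, hz'⟩ := (Metric.infDist_lt_iff hne).1
        (lt_of_le_of_lt hy2 (lt_add_one (100 * √ε)))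
      rw [br_Rr] at hz
      have e1 := rr_norm hz
      have e2 := norm_add_le (y - z) z
      rw [sub_add_cancel] at e2
      rw [dist_eq_norm] at hz'
      linarith
    rw [br.mem_S hf]
    constructor
    · intro h
      refine ⟨h, ?_⟩
      rw [br_Rr, Metric.infDist_zero_of_mem hx]
      positivity
    · exact fun h => h.1
  rw [h3]
  have h4 := norm_sub_norm_le (TS S A (starRingEnd ℂ)) (TU S Rr d br.Lab (starRingEnd ℂ))
  linarith

/-- **`b` of the brick is bounded below in probability** -/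
theorem low_br : LowAt (PolyMx346.b br) := by
  obtain ⟨c1, c2, K, D, ρ, hc1, hc2, hK, hD, hD2, hR, hρ, H⟩ := low_env
  have h1 := ge_ev hc1 hc2 hK hρ hD hD2 hR
  have hs : Tendsto (fun ε : ℝ => √ε) (𝓝[>] 0) (𝓝 0) := by
    have := (Real.continuous_sqrt.tendsto 0).mono_left (nhdsWithin_le_nhds (s := Set.Ioi 0))
    rwa [Real.sqrt_zero] at this
  refine ⟨1 / 7, by norm_num, ?_⟩
  filter_upwards [h1, hs.eventually_lt_const (show 0 < ρ / 4000000 by positivity),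
    Ioo_mem_nhdsGT (show (0 : ℝ) < 1 / 4 by norm_num)] with ε h2 h3 h4
  have hGF : sampleLaw {ω | ¬ (GP (points ε ω) ∧
      ∀ r : ℝ, (points ε ω ∩ Metric.closedBall 0 r).Finite)} = 0 := by
    have h := PoisM3x930.m3a ε h4.1
    have h' : ∀ᵐ ω ∂sampleLaw, GP (points ε ω) ∧
        ∀ r : ℝ, (points ε ω ∩ Metric.closedBall 0 r).Finite := by
      filter_upwards [h] with ω hω
      exact ⟨hω.1, hω.2.2⟩
    exact ae_iff.1 h'
  refine (measure_mono (t := {ω | ¬ (GP (points ε ω) ∧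
      ∀ r : ℝ, (points ε ω ∩ Metric.closedBall 0 r).Finite)} ∪
    {ω | ¬ ∀ S : Finset ℂ, GP (S : Set ℂ) →
      (∀ s : ℂ, ‖s‖ ≤ 24 → (s ∈ points ε ω ↔ s ∈ S)) → GE S c1 c2 K 22 ρ D ε}) ?_).trans ?_
  · intro ω (hω : ‖PolyMx346.b br ε ω‖ < 1 / 7)
    by_contra hcon
    simp only [mem_union, not_or, Set.mem_ofPred_eq, not_not] at hcon
    obtain ⟨⟨g1, g2⟩, g3⟩ := hcon
    have h5 := H ε h4.1 (by linarith) ω g1 g2 g3
    rw [PolyMx346.norm_T'] at h5
    linarith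
  · refine (measure_union_le _ _).trans ?_
    rw [hGF, zero_add]
    exact h2.trans (ENNReal.ofReal_le_ofReal h4.2.le)

/-! ### kappa -/

theorem rl_at (u : Poly) : RlAt (PolyMx346.a u) (PolyMx346.b u) (PolyMx346.D u) := by
  intro η _
  refine Eventually.of_forall fun ε => ?_
  have e : {ω | ¬ Alg4x133.Rl (PolyMx346.a u ε ω) (PolyMx346.b u ε ω) (PolyMx346.D u ε ω)} = ∅ :=
    Set.eq_empty_of_forall_notMem fun ω hω => hω (PolyMx346.rl ε ω)
  rw [e, measure_empty]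
  exact bot_le

/-- **KAPPA from the corridor data of ONE brick** (literal hypotheses of 346's `poly_of_cor` at the
polygon `br`) -/
theorem kap_br {I : Type} {𝓁 : Filter I} {κ : I → ℝ → ℂ} {ms : I → ℝ → MeasurableSpace Sample}
    {G : I → ℝ → Set Sample} {e : I → ℝ → ℝ} (hG : DP 𝓁 fun N ε => (G N ε)ᶜ) (he : DL 𝓁 e)
    (h : ∀ᶠ N in 𝓁, ∀ᶠ ε : ℝ in 𝓝[>] 0, ∀ k : ZMod 3,
      CrG (omz k ^ 2) (κ N ε) (ms N ε) (G N ε) (PolyMx346.a br ε)
        (fun ω => PolyMx346.D br ε ω k) (e N ε)) :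
    DL 𝓁 fun N ε => ‖κ N ε‖ := by
  intro δ hδ
  have hC : CORN (U := Unit) 𝓁 κ (fun _ => ms) (fun _ => PolyMx346.a br)
      (fun _ => PolyMx346.D br) := corn_of (fun _ => hG) (fun _ => he) (fun _ => h)
  exact kap_small (hC ()) (rl_at br) low_br hδ

/-- **no dichotomy**: the corridor data of all polygons give `T u → 0` in probability for EVERY
polygon `u` (so the second alternative of `POLY` never occurs) -/
theorem T_small {I : Type} {𝓁 : Filter I} [𝓁.NeBot] {κ : I → ℝ → ℂ}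
    {ms : Poly → I → ℝ → MeasurableSpace Sample}
    {G : Poly → I → ℝ → Set Sample} {e : Poly → I → ℝ → ℝ}
    (hG : ∀ u, DP 𝓁 fun N ε => (G u N ε)ᶜ) (he : ∀ u, DL 𝓁 (e u))
    (h : ∀ u, ∀ᶠ N in 𝓁, ∀ᶠ ε : ℝ in 𝓝[>] 0, ∀ k : ZMod 3,
      CrG (omz k ^ 2) (κ N ε) (ms u N ε) (G u N ε) (PolyMx346.a u ε)
        (fun ω => PolyMx346.D u ε ω k) (e u N ε)) (u : Poly) {η : ℝ} (hη : 0 < η) :
    ∀ᶠ ε : ℝ in 𝓝[>] 0, sampleLaw {ω | η < ‖u.T ε ω‖} ≤ ENNReal.ofReal η := by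
  have h1 := kap_br (hG br) (he br) (h br)
  have h2 := small_of_kap (T' := PolyMx346.b) (corn_of hG he h) (fun u => rl_at u) h1 u
    (show 0 < η / 3 by linarith)
  filter_upwards [h2] with ε h3
  refine (measure_mono ?_).trans (h3.trans (ENNReal.ofReal_le_ofReal (by linarith)))
  intro ω (hω : η < ‖u.T ε ω‖)
  rw [PolyMx346.norm_T] at hω
  show η / 3 < ‖PolyMx346.a u ε ω‖
  linarith

end Crest.Agent.R143.KapUx99
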