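import Crest.Agent.R143.Jun_43

/-!
# Row 143 (S0194), block H, H5: a free connected set next to the three classes is next to cells of the
block `K` only (helper43)

* `Cn M F` : `F` is connected inside `F`; `Nt M F c` : the cell `c` is next to `F`
* `nc_free` : noncrossing of the left cells of a loop, where two left cells next to an untouched
  connected set `F` count as one cell
* `Ring.kin` : `F` untouched, connected, next to left cells of the three classes `Dj 0, Dj 1, Dj 2`
  ⟹ every left cell next to `F` is a cell `lc s` with `s ∈ S`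
-/

set_option autoImplicit false
set_option linter.unusedSectionVars false

noncomputable section

open scoped Classical

namespace Crest.Agent.R143.Junx43

open Crest.Agent.R143.Frame1x395 Crest.Agent.R143.Frame2x395 Crest.Agent.R143.Frame3x395
  Crest.Agent.R143.Frame8x395 Crest.Agent.R143.Frame9x395 Crest.Agent.R143.Frame11x395
  Crest.Agent.R143.NonXx592 Crest.Agent.R143.Chordx355 Crest.Agent.R143.ChordCx357
  Crest.Agent.R143.Chord2x355 Crest.Agent.R143.Coarsex166

variable {D C : Type} {M : CMap D C}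

/-- neighbours inside `F` -/
def InF (M : CMap D C) (F : Set C) (c c' : C) : Prop :=
  c ∈ F ∧ c' ∈ F ∧ ∃ d, M.cell d = c ∧ M.cell (M.rho d) = c'

/-- `F` is connected inside `F` -/
def Cn (M : CMap D C) (F : Set C) : Prop :=
  ∀ c c', c ∈ F → c' ∈ F → Relation.EqvGen (InF M F) c c'

/-- the cell `c` is next to `F` -/
def Nt (M : CMap D C) (F : Set C) (c : C) : Prop := ∃ d, M.cell d = c ∧ M.cell (M.rho d) ∈ F

/-- `F`, `a`, `b` become one cell -/
def mg (F : Set C) (a b : C) (c : C) : C := if c ∈ F ∨ c = a ∨ c = b then a else c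

theorem mg_F {F : Set C} {a b c : C} (h : c ∈ F) : mg F a b c = a := if_pos (Or.inl h)

theorem mg_a {F : Set C} {a b : C} : mg F a b a = a := if_pos (Or.inr (Or.inl rfl))

theorem mg_b {F : Set C} {a b : C} : mg F a b b = a := if_pos (Or.inr (Or.inr rfl))

theorem mg_eq {F : Set C} {a b c : C} (h : c ∉ F) (h' : mg F a b c = a) : c = a ∨ c = b := by
  unfold mg at h'
  by_cases h1 : c ∈ F ∨ c = a ∨ c = b
  · rcases h1 with h1 | h1
    · exact absurd h1 h
    · exact h1
  · rw [if_neg h1] at h'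
    exact Or.inl h'

theorem eqv_mono {A : Type} {r r' : A → A → Prop} (h : ∀ a b, r a b → Relation.EqvGen r' a b)
    {a b : A} (H : Relation.EqvGen r a b) : Relation.EqvGen r' a b := by
  induction H with
  | rel a b h1 => exact h a b h1
  | refl a => exact Relation.EqvGen.refl _
  | symm a b _ ih => exact Relation.EqvGen.symm _ _ ih
  | trans a b c _ _ ih1 ih2 => exact Relation.EqvGen.trans _ _ _ ih1 ih2

/-- adjacent cells of one class -/
theorem adj_eqv {C' : Type} {π : C → C'} (d : D) (e : π (M.cell d) = π (M.cell (M.rho d))) :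
    Relation.EqvGen (Adj M π) (M.cell d) (M.cell (M.rho d)) := by
  by_cases h : d ∈ M.live
  · exact Relation.EqvGen.rel _ _ ⟨e, d, h, rfl, rfl⟩
  · rw [M.dead d h]
    exact Relation.EqvGen.refl _

theorem mg_con {F : Set C} {a b : C} (hF : Cn M F) (na : Nt M F a) (nb : Nt M F b) :
    ClsCon M (mg F a b) := by
  -- every cell of the class is joined to a cell of `F`
  obtain ⟨da, ea, fa⟩ := na
  obtain ⟨db, eb, fb⟩ := nb
  have hin : ∀ c c', c ∈ F → c' ∈ F → Relation.EqvGen (Adj M (mg F a b)) c c' := by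
    intro c c' h h'
    refine eqv_mono ?_ (hF c c' h h')
    rintro _ _ ⟨h1, h2, d, rfl, rfl⟩
    exact adj_eqv d (by rw [mg_F h1, mg_F h2])
  have h1 : ∀ c, (c ∈ F ∨ c = a ∨ c = b) →
      Relation.EqvGen (Adj M (mg F a b)) c (M.cell (M.rho da)) := by
    intro c hc
    rcases hc with hc | hc | hc
    · exact hin _ _ hc fa
    · have h2 := adj_eqv (π := mg F a b) da (by rw [ea, mg_a, mg_F fa])
      rw [ea] at h2
      rw [hc]
      exact h2
    · have h2 := adj_eqv (π := mg F a b) db (by rw [eb, mg_b, mg_F fb])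
      rw [eb] at h2
      rw [hc]
      exact Relation.EqvGen.trans _ _ _ h2 (hin _ _ fb fa)
  intro p q e
  by_cases hp : M.cell p ∈ F ∨ M.cell p = a ∨ M.cell p = b
  · have hq : M.cell q ∈ F ∨ M.cell q = a ∨ M.cell q = b := by
      by_contra hc
      have h2 : mg F a b (M.cell p) = a := if_pos hp
      have h3 : mg F a b (M.cell q) = M.cell q := if_neg hc
      rw [h2, h3] at e
      exact hc (Or.inr (Or.inl e.symm))
    exact Relation.EqvGen.trans _ _ _ (h1 _ hp) (Relation.EqvGen.symm _ _ (h1 _ hq))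
  · have h2 : mg F a b (M.cell p) = M.cell p := if_neg hp
    by_cases hq : M.cell q ∈ F ∨ M.cell q = a ∨ M.cell q = b
    · have h3 : mg F a b (M.cell q) = a := if_pos hq
      rw [h2, h3] at e
      exact absurd (Or.inr (Or.inl e)) hp
    · have h3 : mg F a b (M.cell q) = M.cell q := if_neg hq
      rw [h2, h3] at e
      rw [e]
      exact Relation.EqvGen.refl _

variable [Fintype D] {χ : C → ZMod 2} {p : D} {N : ℕ}

/-- **noncrossing with an untouched connected set** -/
theorem nc_free (L : Lp M (cfg M χ) p N) {F : Set C} (hF : Cn M F)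
    (hl : ∀ u, lc M (cfg M χ) p u ∉ F) (hr : ∀ u, rc M (cfg M χ) p u ∉ F) {a b : C}
    (na : Nt M F a) (nb : Nt M F b) (ca : χ a = χ (M.cell p)) (cb : χ b = χ (M.cell p))
    {i j k l : ℕ} (hij : i < j) (hjk : j < k) (hkl : k < l) (hlN : l < N)
    (h1 : mg F a b (lc M (cfg M χ) p i) = mg F a b (lc M (cfg M χ) p k))
    (h2 : mg F a b (lc M (cfg M χ) p j) = mg F a b (lc M (cfg M χ) p l)) :
    mg F a b (lc M (cfg M χ) p j) = mg F a b (lc M (cfg M χ) p i) := by
  set χ₁ : C → ZMod 2 := fun c => if c ∈ F then χ (M.cell p) else χ c with hχ₁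
  have k1 : ∀ u, χ₁ (lc M (cfg M χ) p u) = χ (lc M (cfg M χ) p u) := fun u => if_neg (hl u)
  have k2 : ∀ u, χ₁ (rc M (cfg M χ) p u) = χ (rc M (cfg M χ) p u) := fun u => if_neg (hr u)
  have st : ∀ u, P M (cfg M χ₁) p u = P M (cfg M χ) p u := fun u =>
    same L.occ (m := u) (fun v _ => ⟨k1 v, k2 v⟩) u le_rfl
  have hcls : ∀ c c', mg F a b c = mg F a b c' → χ₁ c = χ₁ c' := by
    have h3 : ∀ c, (c ∈ F ∨ c = a ∨ c = b) → χ₁ c = χ (M.cell p) := by
      intro c hc
      show (if c ∈ F then χ (M.cell p) else χ c) = χ (M.cell p)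
      by_cases h : c ∈ F
      · rw [if_pos h]
      · rw [if_neg h]
        rcases hc with hc | hc | hc
        · exact absurd hc h
        · rw [hc, ca]
        · rw [hc, cb]
    intro c c' e
    by_cases hc : c ∈ F ∨ c = a ∨ c = b
    · by_cases hc' : c' ∈ F ∨ c' = a ∨ c' = b
      · rw [h3 c hc, h3 c' hc']
      · have h4 : mg F a b c = a := if_pos hc
        have h5 : mg F a b c' = c' := if_neg hc'
        rw [h4, h5] at e
        exact absurd (Or.inr (Or.inl e.symm)) hc'
    · have h4 : mg F a b c = c := if_neg hc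
      by_cases hc' : c' ∈ F ∨ c' = a ∨ c' = b
      · have h5 : mg F a b c' = a := if_pos hc'
        rw [h4, h5] at e
        exact absurd (Or.inr (Or.inl e)) hc
      · have h5 : mg F a b c' = c' := if_neg hc'
        rw [h4, h5] at e
        rw [e]
  have hx : IsC (coarse M (mg F a b) (mg_con hF na nb)) ∅ (cfg M χ₁) := by
    refine isC_coarse.2 ⟨cfg_isC χ₁, fun d _ e => ?_⟩
    show χ₁ (M.cell d) + χ₁ (M.cell (M.rho d)) = 0
    rw [hcls _ _ e]
    exact z_self _
  have L' : Lp (coarse M (mg F a b) (mg_con hF na nb)) (cfg M χ₁) p N := by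
    refine ⟨hx, ?_, L.pos, ?_, ?_⟩
    · have h3 := k1 0
      have h4 := k2 0
      show χ₁ (lc M (cfg M χ) p 0) + χ₁ (rc M (cfg M χ) p 0) = 1
      rw [h3, h4]
      exact L.occ
    · show P M (cfg M χ₁) p N = p
      rw [st]
      exact L.per
    · intro u v h3 h4
      show P M (cfg M χ₁) p u ≠ P M (cfg M χ₁) p v
      rw [st, st]
      exact L.inj u v h3 h4
  have key := L'.nc i j k l hij hjk hkl hlN
  have e : ∀ u, lc (coarse M (mg F a b) (mg_con hF na nb)) (cfg M χ₁) p u =
      mg F a b (lc M (cfg M χ) p u) := by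
    intro u
    show mg F a b (M.cell (P M (cfg M χ₁) p u)) = _
    rw [st]
    rfl
  rw [e, e, e, e] at key
  exact key h1 h2

/-- a cell visited on both sides of two cells next to `F`: form `c a c b` -/
theorem nc_a (L : Lp M (cfg M χ) p N) {F : Set C} (hF : Cn M F)
    (hl : ∀ u, lc M (cfg M χ) p u ∉ F) (hr : ∀ u, rc M (cfg M χ) p u ∉ F)
    {i j k l : ℕ} (hij : i < j) (hjk : j < k) (hkl : k < l) (hlN : l < N)
    (nj : Nt M F (lc M (cfg M χ) p j)) (nl : Nt M F (lc M (cfg M χ) p l))
    (h1 : lc M (cfg M χ) p i = lc M (cfg M χ) p k) :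
    lc M (cfg M χ) p i = lc M (cfg M χ) p j ∨ lc M (cfg M χ) p i = lc M (cfg M χ) p l := by
  have h2 := nc_free L hF hl hr nj nl (col_l L.occ j) (col_l L.occ l) hij hjk hkl hlN
    (by rw [h1]) (by rw [mg_a, mg_b])
  rw [mg_a] at h2
  exact mg_eq (hl i) h2.symm

/-- form `a c b c` -/
theorem nc_b (L : Lp M (cfg M χ) p N) {F : Set C} (hF : Cn M F)
    (hl : ∀ u, lc M (cfg M χ) p u ∉ F) (hr : ∀ u, rc M (cfg M χ) p u ∉ F)
    {i j k l : ℕ} (hij : i < j) (hjk : j < k) (hkl : k < l) (hlN : l < N)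
    (ni : Nt M F (lc M (cfg M χ) p i)) (nk : Nt M F (lc M (cfg M χ) p k))
    (h1 : lc M (cfg M χ) p j = lc M (cfg M χ) p l) :
    lc M (cfg M χ) p j = lc M (cfg M χ) p i ∨ lc M (cfg M χ) p j = lc M (cfg M χ) p k := by
  have h2 := nc_free L hF hl hr ni nk (col_l L.occ i) (col_l L.occ k) hij hjk hkl hlN
    (by rw [mg_a, mg_b]) (by rw [h1])
  rw [mg_a] at h2
  exact mg_eq (hl j) h2

variable {T₁ T₂ a₁ a₂ a₃ : ℕ} {S : Set ℕ}

/-- last gap of the block before a time -/
theorem lastb {T : ℕ} (h : ∃ s ∈ S, s < T) :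
    ∃ s ∈ S, s < T ∧ ∀ s' ∈ S, s' < T → s' ≤ s := by
  obtain ⟨s, hs, hT⟩ := h
  have h1 : ∃ k, k < T ∧ T - 1 - k ∈ S :=
    ⟨T - 1 - s, by omega, by rwa [show T - 1 - (T - 1 - s) = s by omega]⟩
  obtain ⟨h2, h3⟩ := Nat.find_spec h1
  refine ⟨T - 1 - Nat.find h1, h3, by omega, fun s' hs' hT' => ?_⟩
  by_contra hc
  exact Nat.find_min h1 (m := T - 1 - s') (by omega) ⟨by omega, by
    rwa [show T - 1 - (T - 1 - s') = s' by omega]⟩

/-- **a free connected set next to the three classes is next to cells of the block only** -/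
theorem Ring.kin (R : Ring M χ p N T₁ T₂ a₁ a₂ a₃ S) {F : Set C} (hF : Cn M F)
    (hl : ∀ u, lc M (cfg M χ) p u ∉ F) (hr : ∀ u, rc M (cfg M χ) p u ∉ F)
    (n0 : ∃ c, Nt M F c ∧ c ∈ Tch M (cfg M χ) p T₁ ∧ ∃ u, lc M (cfg M χ) p u = c)
    (n1 : ∃ c, Nt M F c ∧ c ∈ Tch M (cfg M χ) p T₂ ∧ c ∉ Tch M (cfg M χ) p T₁ ∧
      ∃ u, lc M (cfg M χ) p u = c)
    (n2 : ∃ c, Nt M F c ∧ c ∉ Tch M (cfg M χ) p T₂ ∧ ∃ u, lc M (cfg M χ) p u = c)
    {u : ℕ} (hu : Nt M F (lc M (cfg M χ) p u)) : ∃ s ∈ S, lc M (cfg M χ) p s = lc M (cfg M χ) p u := by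
  have L := R.lp
  have hp := L.occ
  have md : ∀ u, lc M (cfg M χ) p u = lc M (cfg M χ) p (u % N) := by
    intro u
    unfold lc
    rw [L.mod u]
  by_contra hno
  push Not at hno
  rw [md u] at hu hno
  obtain ⟨u', hu', hu'N⟩ : ∃ u', u % N = u' ∧ u' < N := ⟨_, rfl, Nat.mod_lt _ L.pos⟩
  rw [hu'] at hu hno
  obtain ⟨s₀, h0, h0T⟩ := R.e0
  obtain ⟨s₁, h1, h1T, h1T'⟩ := R.e1
  obtain ⟨s₂, h2, h2T, -⟩ := R.e2
  -- first and last gap
  obtain ⟨sf, hsf, -, hfmin⟩ := first (T := 0) (S := S) ⟨s₀, h0, Nat.zero_le _⟩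
  obtain ⟨sl, hsl, hlmax⟩ := last R.sN ⟨s₀, h0⟩
  have hf0 := hfmin s₀ h0 (Nat.zero_le _)
  have hl2 := hlmax s₂ h2
  have hlN := R.sN sl hsl
  have hT12 : T₁ ≤ T₂ := R.h1.trans R.h2
  -- the cell of the last gap is the cell of the first gap
  have hwrap : lc M (cfg M χ) p sf = lc M (cfg M χ) p (sl + 1) := by
    obtain ⟨s', hs', e'⟩ := R.nxt sl hsl
    rcases lt_or_eq_of_le (hfmin s' hs' (Nat.zero_le _)) with h3 | h3
    · exfalso
      exact R.sep' hsf hsl (by omega) (u := s') (v := sl + 1) h3 (hlmax s' hs') (by omega)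
        (Or.inr (by omega)) e'
    · rw [h3]; exact e'
  by_cases hA : ∃ s ∈ S, u' ≤ s
  · obtain ⟨sp, hsp, hsp1, hspmin⟩ := first hA
    by_cases hB : ∃ s ∈ S, s < u'
    · -- between two gaps
      obtain ⟨sm, hsm, hsm1, hsmmax⟩ := lastb hB
      have hlt : sm < sp := by omega
      have hspN := R.sN sp hsp
      have hc : lc M (cfg M χ) p sp = lc M (cfg M χ) p (sm + 1) := by
        obtain ⟨s', hs', e'⟩ := R.nxt sm hsm
        have hs'N := R.sN s' hs'
        rcases Nat.lt_or_ge s' u' with h3 | h3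
        · exfalso
          have := hsmmax s' hs' h3
          exact R.sep' hsm hsp hlt (u := sm + 1) (v := s') (by omega) (by omega) (by omega)
            (Or.inl (by omega)) e'.symm
        · rcases lt_or_eq_of_le (hspmin s' hs' h3) with h4 | h4
          · exfalso
            exact R.sep' hsm hsp hlt (u := sm + 1) (v := s') (by omega) (by omega) (by omega)
              (Or.inr h4) e'.symm
          · rw [h4]; exact e'
      have hne1 : u' ≠ sp := fun e => hno sp hsp (by rw [e])
      have hne2 : u' ≠ sm + 1 := fun e => hno sp hsp (by rw [e, hc])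
      have key : ∀ v, v < N → Nt M F (lc M (cfg M χ) p v) → sm < v ∧ v ≤ sp := by
        intro v hv nv
        by_contra hcon
        rcases Nat.lt_or_ge sm v with h3 | h3
        · have h4 : sp < v := by omega
          rcases nc_a L hF hl hr (i := sm + 1) (j := u') (k := sp) (l := v) (by omega) (by omega)
            h4 hv hu nv hc.symm with h5 | h5
          · exact hno sp hsp (hc.trans h5)
          · exact R.sep' hsm hsp hlt (u := sm + 1) (v := v) (by omega) (by omega) hv.le
              (Or.inr h4) h5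
        · rcases nc_b L hF hl hr (i := v) (j := sm + 1) (k := u') (l := sp) (by omega) (by omega)
            (by omega) hspN nv hu hc.symm with h5 | h5
          · exact R.sep' hsm hsp hlt (u := sm + 1) (v := v) (by omega) (by omega) hv.le
              (Or.inl h3) h5
          · exact hno sp hsp (hc.trans h5)
      -- a cell of the class 0
      obtain ⟨c0, nc0, tc0, w0, e0⟩ := n0
      rw [← e0] at nc0 tc0
      obtain ⟨v0, hv0, ev0⟩ := Tch.of_l hp tc0
      rw [← ev0] at nc0
      have k0 := key v0 (by have := R.sN s₁ h1; omega) nc0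
      -- a cell of the class 2
      obtain ⟨c2, nc2, tc2, w2, e2⟩ := n2
      rw [← e2, md w2] at nc2 tc2
      have hw2 : w2 % N < N := Nat.mod_lt _ L.pos
      have k2 := key _ hw2 nc2
      have hw2' : T₂ < w2 % N := by
        by_contra hcon
        exact tc2 (Tch.l (by omega))
      rcases Nat.lt_or_ge s₁ u' with h3 | h3
      · have := hsmmax s₁ h1 h3
        omega
      · have := hspmin s₁ h1 h3
        omega
    · -- before the first gap
      have h3 : u' ≤ sf := by
        by_contra hcon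
        exact hB ⟨sf, hsf, by omega⟩
      have hne1 : u' ≠ sf := fun e => hno sf hsf (by rw [e])
      obtain ⟨c1, nc1, tc1, tc1', w1, e1⟩ := n1
      rw [← e1] at nc1 tc1 tc1'
      obtain ⟨v1, hv1, ev1⟩ := Tch.of_l hp tc1
      rw [← ev1] at nc1 tc1'
      have hv1' : T₁ < v1 := by
        by_contra hcon
        exact tc1' (Tch.l (by omega))
      have hsep : lc M (cfg M χ) p sf ≠ lc M (cfg M χ) p v1 := fun e =>
        R.sep' hsf hsl (by omega) (u := v1) (v := sf) (by omega) (by omega) (by omega)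
          (Or.inl le_rfl) e.symm
      rcases Nat.lt_or_ge (sl + 1) N with h4 | h4
      · rcases nc_b L hF hl hr (i := u') (j := sf) (k := v1) (l := sl + 1) (by omega) (by omega)
          (by omega) h4 hu nc1 hwrap with h5 | h5
        · exact hno sf hsf h5
        · exact hsep h5
      · have hw0 : lc M (cfg M χ) p 0 = lc M (cfg M χ) p sf := by
          rw [hwrap, show sl + 1 = N + 0 by omega, lc_per L]
        have hu0 : u' ≠ 0 := fun e => hno sf hsf (by rw [e, hw0])
        rcases nc_a L hF hl hr (i := 0) (j := u') (k := sf) (l := v1) (by omega) (by omega)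
          (by omega) (by omega) hu nc1 hw0 with h5 | h5
        · exact hno sf hsf (hw0.symm.trans h5)
        · exact hsep (hw0.symm.trans h5)
  · -- after the last gap
    have h3 : sl < u' := by
      by_contra hcon
      exact hA ⟨sl, hsl, by omega⟩
    have hne1 : u' ≠ sl + 1 := fun e => hno sf hsf (by rw [e, hwrap])
    obtain ⟨c1, nc1, tc1, tc1', w1, e1⟩ := n1
    rw [← e1] at nc1 tc1 tc1'
    obtain ⟨v1, hv1, ev1⟩ := Tch.of_l hp tc1
    rw [← ev1] at nc1 tc1'
    have hv1' : T₁ < v1 := by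
      by_contra hcon
      exact tc1' (Tch.l (by omega))
    have hsep : lc M (cfg M χ) p sf ≠ lc M (cfg M χ) p v1 := fun e =>
      R.sep' hsf hsl (by omega) (u := v1) (v := sf) (by omega) (by omega) (by omega)
        (Or.inl le_rfl) e.symm
    rcases nc_a L hF hl hr (i := sf) (j := v1) (k := sl + 1) (l := u') (by omega) (by omega)
      (by omega) hu'N nc1 hu hwrap with h5 | h5
    · exact hsep h5
    · exact hno sf hsf h5

end Crest.Agent.R143.Junx43
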