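import Crest.Agent.R143.LB_654
import Crest.Agent.R143.X0C_683
import Crest.Agent.R143.J9_872
import Crest.Agent.R143.Indep_583

/-!
# Row 143 (S0194), block X: lower bound of the three leg probability by ONE gluing (helper654)

* `pav N t P` : probability of `P` for the uniform join with the odd triangle `t`
* `gap_gen` : averaged gap estimate
* `glueJ`, `glue` : one gluing from the regeneration data
-/

set_option autoImplicit false

noncomputable section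

open scoped Classical

namespace Crest.Agent.R143.LBWx654

open Crest.Agent.R143.B0x346 Crest.Agent.R143.DelGx806 Crest.Agent.R143.DelRx806
open Crest.Agent.R143.ToolWx838 Crest.Agent.R143.Blkx838 Crest.Agent.R143.Harx315
open Crest.Agent.R143.RB0x838 Crest.Agent.R143.Planarx54 Crest.Agent.R143.X0Bx683
open Crest.Agent.R143.X0Cx683

local notation "flp" => Crest.Agent.R143.X0Bx683.flip
local notation "eex" => Crest.Agent.R143.XW1x315.ex

variable {S : Finset ℂ} {N : Net ℂ} {z0 : ℂ} {R R1 d b0 C4 r : ℝ} {t : ℂ × ℂ × ℂ}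
  {P Q : Finset (ℂ × ℂ) → Prop}

/-- probability of `P` for the uniform join with the odd triangle `t` -/
def pav (N : Net ℂ) (t : ℂ × ℂ × ℂ) (P : Finset (ℂ × ℂ) → Prop) : ℝ :=
  (((N.tj t).filter P).card : ℝ) / (N.tj t).card

theorem pav_nonneg : 0 ≤ pav N t P := by
  unfold pav
  positivity

theorem pav_le_one : pav N t P ≤ 1 := by
  unfold pav
  refine div_le_one_of_le₀ ?_ (Nat.cast_nonneg _)
  exact_mod_cast Finset.card_filter_le _ _

theorem pav_mono (h : ∀ J ∈ N.tj t, P J → Q J) : pav N t P ≤ pav N t Q := by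
  unfold pav
  refine div_le_div_of_nonneg_right ?_ (Nat.cast_nonneg _)
  have : ((N.tj t).filter P).card ≤ ((N.tj t).filter Q).card := by
    refine Finset.card_le_card fun J hJ => ?_
    rw [Finset.mem_filter] at hJ ⊢
    exact ⟨hJ.1, h J hJ.1 hJ.2⟩
  exact_mod_cast this

theorem pav_sub (h : ∀ J ∈ N.tj t, Q J → P J) :
    pav N t P - pav N t Q = pav N t (fun J => P J ∧ ¬ Q J) := by
  unfold pav
  rw [← sub_div]
  congr 1
  have h1 : ∀ i : DecidablePred (fun J => P J ∧ ¬ Q J),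
      @Finset.filter _ (fun J => P J ∧ ¬ Q J) i (N.tj t) =
        (N.tj t).filter P \ (N.tj t).filter Q := by
    intro i
    ext J
    simp only [Finset.mem_filter, Finset.mem_sdiff]
    tauto
  have h2 : (N.tj t).filter Q ⊆ (N.tj t).filter P := by
    intro J hJ
    rw [Finset.mem_filter] at hJ ⊢
    exact ⟨hJ.1, h J hJ.1 hJ.2⟩
  rw [h1, Finset.card_sdiff_of_subset h2, Nat.cast_sub (Finset.card_le_card h2)]

/-- average over flips -/
theorem pav_eq (H : HNet S N) {V : Finset ℂ} (hV : J8x872.FreeS S N.kl V) (t : ℂ × ℂ × ℂ)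
    (P : Finset (ℂ × ℂ) → Prop) :
    pav N t P = (∑ J ∈ N.tj t, pr V (fun β => P (flp N.toTrg J β))) / (N.tj t).card := by
  unfold pav
  rw [J8x872.card_tj H hV t P]

/-- **averaged gap estimate** -/
theorem gap_gen (H : HNet S N) {V : Finset ℂ} (hV : J8x872.FreeS S N.kl V)
    {A B C : Finset (ℂ × ℂ) → Prop} {q : ℝ} (hBA : ∀ J ∈ N.tj t, B J → A J)
    (hAC : ∀ J ∈ N.tj t, A J → C J) (hC : ∀ J ∈ N.tj t, ∀ β ⊆ V, C (flp N.toTrg J β) → C J)
    (h : ∀ J ∈ N.tj t, pr V (fun β => A (flp N.toTrg J β) ∧ ¬ B (flp N.toTrg J β)) ≤ q) :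
    pav N t A - pav N t B ≤ q * pav N t C := by
  rw [pav_sub hBA, pav_eq H hV]
  have h1 : ∀ J ∈ N.tj t, pr V (fun β => A (flp N.toTrg J β) ∧ ¬ B (flp N.toTrg J β)) ≤
      q * (if C J then 1 else 0) := by
    intro J hJ
    by_cases hc : C J
    · rw [if_pos hc, mul_one]
      exact h J hJ
    · rw [if_neg hc, mul_zero]
      refine le_of_eq ?_
      have : pr V (fun β => A (flp N.toTrg J β) ∧ ¬ B (flp N.toTrg J β)) = pr V fun _ => False := by
        refine pr_congr fun β hβ => ?_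
        constructor
        · rintro ⟨h1, -⟩
          exact hc (hC J hJ β hβ (hAC _ ((J8x872.flip_mem H (hV.mono hβ)).2 hJ) h1))
        · exact fun h => h.elim
      rw [this]
      exact pr_false _
  have h2 : q * pav N t C = (∑ J ∈ N.tj t, q * (if C J then (1 : ℝ) else 0)) / (N.tj t).card := by
    unfold pav
    rw [← Finset.mul_sum, Finset.sum_boole, mul_div_assoc]
  rw [h2]
  exact div_le_div_of_nonneg_right (Finset.sum_le_sum h1) (Nat.cast_nonneg _)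

/-! ### one gluing -/

theorem finsum_shift (g : ℤ → ℝ) (n : ℤ) : ∑ᶠ k, g (k - n) = ∑ᶠ k, g k :=
  finsum_comp_equiv (Equiv.subRight n)

/-- **one gluing**, the outside being given by the join `J` -/
theorem glueJ (hw : World S N z0 R R1 d b0 C4) (f : Fc S N z0 r) {j : ℕ} {δ c : ℝ} (hc : 0 ≤ c)
    {reg : Finset (ℂ × ℂ) → ℝ} {Y : Finset (ℂ × ℂ) → ℂ × ℂ × ℂ → ℤ → ℝ}
    {Att : Finset (ℂ × ℂ) → ℤ → Prop}
    (hfin : (Function.support reg).Finite) (hY : ∀ b t k, 0 ≤ Y b t k)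
    (W : RegW f R j δ c reg Y Att) {J : Finset (ℂ × ℂ)} (hJ : J ∈ N.tj f.s0) (ht : t ∈ f.T) :
    c * (pr (Fs S z0 (Rj R j)) (fun β => GO N f.s0 z0 (Rj R j / 4) δ (flp N.toTrg J β)) *
      (c * f.g (Rj R j) (Rj R j / 64) δ J t)) ≤ f.X1 (Rj R j) J t := by
  have hR := hw.Rpos
  have hle : Rj R (j + 1) ≤ Rj R j := by
    unfold Rj
    rw [pow_succ]
    have : 0 < (256 : ℝ) ^ j := by positivity
    gcongr
    linarith
  have hRj : Rj R (j + 1) ≤ R := by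
    unfold Rj
    refine div_le_self hR.le ?_
    exact one_le_pow₀ (by norm_num)
  obtain ⟨w, hw0, hwf, hws, hwl⟩ := W.lo J hJ
  set B := hfin.toFinset with hB
  set Wn := hwf.toFinset with hWn
  set A := Ann S z0 (Rj R (j + 1)) (Rj R j) with hA
  set Yb : Finset (ℂ × ℂ) → ℝ := fun b => ∑ᶠ k, Y b t k with hYb
  have hYb0 : ∀ b, 0 ≤ Yb b := fun b => finsum_nonneg fun k => hY b t k
  set E : Finset (ℂ × ℂ) → ℤ → Finset (ℂ × ℂ) → Prop := fun b n K =>
    Att K n ∧ restr z0 (Rj R (j + 1)) (Rj R j / 8) K = b with hE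
  -- pointwise lower bound
  have hAV : J8x872.FreeS S N.kl A := by
    refine (J8x872.free_world hw (ρ := Rj R j) ?_).mono (J9x872.ann_sub _ _ _ _)
    unfold Rj
    exact div_le_self hR.le (one_le_pow₀ (by norm_num))
  have hpt : ∀ β ⊆ A, ∑ b ∈ B, ∑ n ∈ Wn,
      Yb b * (if E b n (flp N.toTrg J β) then 1 else 0) ≤ f.X1 (Rj R (j + 1)) (flp N.toTrg J β) t := by
    intro β hβ
    set K := flp N.toTrg J β with hK
    have hKm : K ∈ N.tj f.s0 := (J8x872.flip_mem hw.hnet (hAV.mono hβ)).2 hJ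
    have hX0 : 0 ≤ f.X1 (Rj R (j + 1)) K t := pr_nonneg
    by_cases hatt : ∃ n, Att K n
    · obtain ⟨n0, hn0⟩ := hatt
      set b0 := restr z0 (Rj R (j + 1)) (Rj R j / 8) K with hb0
      have h1 : f.X1 (Rj R (j + 1)) K t = Yb b0 := by
        rw [← J9x872.X1_eq hw f ht hRj hKm]
        have h2 : ∀ k, f.XK (Rj R (j + 1)) K t k = Y b0 t (k - n0) := fun k =>
          W.val K hKm n0 hn0 t ht k
        simp only [h2]
        exact finsum_shift (fun k => Y b0 t k) n0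
      rw [h1, ← Finset.sum_product']
      have h3 : ∀ p ∈ B ×ˢ Wn, Yb p.1 * (if E p.1 p.2 K then (1 : ℝ) else 0) ≤
          if p = (b0, n0) then Yb b0 else 0 := by
        rintro ⟨b, n⟩ -
        by_cases he : E b n K
        · obtain ⟨e1, e2⟩ := he
          have e3 := W.uniq K n n0 e1 hn0
          subst e3
          have e4 : b = b0 := e2.symm
          subst e4
          rw [if_pos rfl, if_pos ⟨e1, rfl⟩, mul_one]
        · rw [if_neg he, mul_zero]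
          split_ifs
          · exact hYb0 _
          · exact le_rfl
      refine (Finset.sum_le_sum h3).trans ?_
      rw [Finset.sum_ite_eq']
      split_ifs
      · exact le_rfl
      · exact hYb0 _
    · have h4 : ∀ b n, ¬ E b n K := fun b n he => hatt ⟨n, he.1⟩
      simp only [h4, if_false, mul_zero, Finset.sum_const_zero]
      exact hX0
  have hstep := J9x872.step_X1 (t := t) f hle J
  rw [hstep]
  refine le_trans ?_ (XW1x315.ex_mono hpt)
  rw [XW1x315.ex_sum]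
  have hin : ∀ b ∈ B, eex A (fun β => ∑ n ∈ Wn,
      Yb b * (if E b n (flp N.toTrg J β) then (1 : ℝ) else 0)) =
      ∑ n ∈ Wn, Yb b * pr A (fun β => E b n (flp N.toTrg J β)) := by
    intro b _
    rw [XW1x315.ex_sum]
    refine Finset.sum_congr rfl fun n _ => ?_
    rw [XW1x315.ex_mul_const, ← XW1x315.ex_ind]
    refine congrArg (fun x => Yb b * x) (XW1x315.ex_congr fun β _ => ?_)
    by_cases h : E b n (flp N.toTrg J β)
    · rw [if_pos h, if_pos h]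
    · rw [if_neg h, if_neg h]
  rw [Finset.sum_congr rfl hin]
  have hlow : ∀ b ∈ B, ∀ n ∈ Wn, Yb b * (c * w n * reg b) ≤
      Yb b * pr A (fun β => E b n (flp N.toTrg J β)) := fun b _ n _ =>
    mul_le_mul_of_nonneg_left (hwl b n) (hYb0 b)
  refine le_trans ?_ (Finset.sum_le_sum fun b hb => Finset.sum_le_sum (hlow b hb))
  have hsum : ∑ b ∈ B, ∑ n ∈ Wn, Yb b * (c * w n * reg b) =
      c * ((∑ n ∈ Wn, w n) * ∑ b ∈ B, reg b * Yb b) := by
    rw [Finset.sum_mul_sum, Finset.mul_sum, Finset.sum_comm]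
    refine Finset.sum_congr rfl fun n _ => ?_
    rw [Finset.mul_sum]
    refine Finset.sum_congr rfl fun b _ => ?_
    ring
  rw [hsum]
  have hw1 : ∑ n ∈ Wn, w n = ∑ᶠ n, w n := (finsum_eq_sum_of_support_subset _ (by simp [hWn])).symm
  have hr1 : ∑ b ∈ B, reg b * Yb b = ∑ᶠ b, reg b * Yb b := by
    refine (finsum_eq_sum_of_support_subset _ ?_).symm
    intro b hb
    rw [hB, Set.Finite.coe_toFinset]
    exact fun h => hb (by simp only [h, zero_mul])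
  rw [hw1, hr1, hws]
  have hup := W.up J hJ t ht
  exact mul_le_mul_of_nonneg_left (mul_le_mul_of_nonneg_left hup (pr_nonneg)) hc

/-! ### the averaged sequences -/

/-- outer legs: index `0` is the trivial bound, index `j + 1` the scale `j` -/
def Oa (N : Net ℂ) (s0 : ℂ × ℂ × ℂ) (z0 : ℂ) (R : ℝ) : ℕ → ℝ
  | 0 => 1
  | j + 1 => pav N s0 (HO N s0 z0 (Rj R j / 4))

/-- separated outer tips at the scale `j` -/
def GOa (N : Net ℂ) (s0 : ℂ × ℂ × ℂ) (z0 : ℂ) (R δ : ℝ) (j : ℕ) : ℝ :=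
  pav N s0 (GO N s0 z0 (Rj R j / 4) δ)

/-- inner legs at the scale `j` -/
def Ia (N : Net ℂ) (t : ℂ × ℂ × ℂ) (z0 : ℂ) (R : ℝ) (j : ℕ) : ℝ :=
  pav N t (HI N t z0 (Rj R j / 64))

/-- separated inner tips at the scale `j` -/
def GIa (N : Net ℂ) (t : ℂ × ℂ × ℂ) (z0 : ℂ) (R δ : ℝ) (j : ℕ) : ℝ :=
  pav N t (GI N t z0 (Rj R j / 64) δ)

/-- three legs from the face `t` -/
def Xa (N : Net ℂ) (t : ℂ × ℂ × ℂ) : ℝ := pav N t (fun J => ∃ k, N.Tri3 t k J)

theorem Rj_pos (hR : 0 < R) (j : ℕ) : 0 < Rj R j := by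
  unfold Rj
  positivity

theorem Rj_anti (hR : 0 < R) {i j : ℕ} (h : i ≤ j) : Rj R j ≤ Rj R i := by
  unfold Rj
  exact div_le_div_of_nonneg_left hR.le (by positivity) (pow_le_pow_right₀ (by norm_num) h)

theorem Rj_le (hR : 0 < R) (j : ℕ) : Rj R j ≤ R := by
  have := Rj_anti hR (Nat.zero_le j)
  unfold Rj at this ⊢
  simpa using this

theorem Rj_succ (j : ℕ) : Rj R (j + 1) = Rj R j / 256 := by
  unfold Rj
  rw [pow_succ]
  field_simp

/-- average of the inner probabilities -/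
theorem pav_at (hw : World S N z0 R R1 d b0 C4) (f : Fc S N z0 r) (ht : t ∈ f.T) {ρ : ℝ}
    (hρ : ρ ≤ R) (P : Finset (ℂ × ℂ) → Prop) :
    pav N t P = (∑ J ∈ N.tj f.s0, pr (Fs S z0 ρ) (fun β => P (f.at' (flp N.toTrg J β) t))) /
      (N.tj f.s0).card := by
  unfold pav
  rw [J9x872.card_avg hw f ht hρ, J9x872.card_at hw.hnet f ht]

theorem Ia_eq (hw : World S N z0 R R1 d b0 C4) (f : Fc S N z0 r) (ht : t ∈ f.T) {j : ℕ}
    {J : Finset (ℂ × ℂ)} (hJ : J ∈ N.tj f.s0) {R' : ℝ} (h1 : Rj R j / 64 ≤ R') (h2 : R' ≤ R) :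
    Ia N t z0 R j = f.h R' (Rj R j / 64) J t := by
  unfold Ia
  rw [pav_at hw f ht h2]
  have h3 : ∀ K ∈ N.tj f.s0, pr (Fs S z0 R')
      (fun β => HI N t z0 (Rj R j / 64) (f.at' (flp N.toTrg K β) t)) =
      f.h R' (Rj R j / 64) J t := fun K hK =>
    J9x872.h_indep hw.hnet f ht h1 hJ hK
  rw [Finset.sum_congr rfl h3, Finset.sum_const, nsmul_eq_mul]
  have : ((N.tj f.s0).card : ℝ) ≠ 0 := by
    have := Finset.card_pos.2 ⟨J, hJ⟩
    positivity
  field_simp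

theorem GIa_eq (hw : World S N z0 R R1 d b0 C4) (f : Fc S N z0 r) (ht : t ∈ f.T) {j : ℕ} {δ : ℝ}
    {J : Finset (ℂ × ℂ)} (hJ : J ∈ N.tj f.s0) {R' : ℝ} (h1 : Rj R j / 64 ≤ R') (h2 : R' ≤ R) :
    GIa N t z0 R δ j = f.g R' (Rj R j / 64) δ J t := by
  unfold GIa
  rw [pav_at hw f ht h2]
  have h3 : ∀ K ∈ N.tj f.s0, pr (Fs S z0 R')
      (fun β => GI N t z0 (Rj R j / 64) δ (f.at' (flp N.toTrg K β) t)) =
      f.g R' (Rj R j / 64) δ J t := fun K hK =>
    J9x872.g_indep hw.hnet f ht h1 hJ hK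
  rw [Finset.sum_congr rfl h3, Finset.sum_const, nsmul_eq_mul]
  have : ((N.tj f.s0).card : ℝ) ≠ 0 := by
    have := Finset.card_pos.2 ⟨J, hJ⟩
    positivity
  field_simp

/-- **one gluing**, averaged -/
theorem glue (hw : World S N z0 R R1 d b0 C4) (f : Fc S N z0 r) {j : ℕ} {δ c : ℝ} (hc : 0 ≤ c)
    {reg : Finset (ℂ × ℂ) → ℝ} {Y : Finset (ℂ × ℂ) → ℂ × ℂ × ℂ → ℤ → ℝ}
    {Att : Finset (ℂ × ℂ) → ℤ → Prop}
    (hfin : (Function.support reg).Finite) (hY : ∀ b t k, 0 ≤ Y b t k)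
    (W : RegW f R j δ c reg Y Att) (ht : t ∈ f.T) :
    c * c * (GOa N f.s0 z0 R δ j * GIa N t z0 R δ j) ≤ Xa N t := by
  have hR := hw.Rpos
  have hRj := Rj_le hR j
  rcases (N.tj f.s0).eq_empty_or_nonempty with h0 | ⟨J0, hJ0⟩
  · have : GOa N f.s0 z0 R δ j = 0 := by
      unfold GOa pav
      rw [h0]
      simp
    rw [this, zero_mul, mul_zero]
    exact pav_nonneg
  have hX : Xa N t = (∑ J ∈ N.tj f.s0, f.X1 (Rj R j) J t) / (N.tj f.s0).card :=
    pav_at hw f ht hRj _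
  have hGO : GOa N f.s0 z0 R δ j = (∑ J ∈ N.tj f.s0, pr (Fs S z0 (Rj R j))
      (fun β => GO N f.s0 z0 (Rj R j / 4) δ (flp N.toTrg J β))) / (N.tj f.s0).card :=
    pav_eq hw.hnet (J8x872.free_world hw hRj) _ _
  rw [hX, hGO]
  have h64 : Rj R j / 64 ≤ Rj R j := by linarith [Rj_pos hR j]
  have h1 : ∀ J ∈ N.tj f.s0, c * c * (pr (Fs S z0 (Rj R j))
      (fun β => GO N f.s0 z0 (Rj R j / 4) δ (flp N.toTrg J β)) * GIa N t z0 R δ j) ≤
      f.X1 (Rj R j) J t := by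
    intro J hJ
    rw [GIa_eq hw f ht hJ h64 hRj]
    refine le_trans (le_of_eq ?_) (glueJ hw f hc hfin hY W hJ ht)
    ring
  have h2 := div_le_div_of_nonneg_right (Finset.sum_le_sum h1)
    (Nat.cast_nonneg (α := ℝ) (N.tj f.s0).card)
  refine le_trans (le_of_eq ?_) h2
  rw [← Finset.mul_sum, ← Finset.sum_mul]
  ring

/-! ### the gaps -/

/-- **averaged outer gap** -/
theorem gapO (hG : GAPO) (hC4 : 0 < C4) : ∃ c K : ℝ, 0 < c ∧ 0 < K ∧
    ∀ (S : Finset ℂ) (N : Net ℂ) (z0 : ℂ) (R R1 d b0 : ℝ), World S N z0 R R1 d b0 C4 →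
      K * R ≤ R1 → ∀ s0 ∈ delT S, ∀ (j : ℕ) (δ : ℝ), (∀ i, ‖vt s0 i - z0‖ < Rj R j / 16) →
      0 < δ → δ ≤ 1 → K * b0 ≤ δ * Rj R j → K * d ≤ δ * Rj R j →
      Oa N s0 z0 R (j + 1) - GOa N s0 z0 R δ j ≤ K * δ ^ c * Oa N s0 z0 R j := by
  obtain ⟨c, K, hc, hK, h⟩ := hG C4 hC4
  refine ⟨c, 4 * K, hc, by positivity, ?_⟩
  intro S N z0 R R1 d b0 hw hKR s0 hs0 j δ hnear hδ hδ1 hb hd
  have hR := hw.Rpos
  have hRj := Rj_le hR j
  have hRp := Rj_pos hR j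
  have h4 : 4 * (Rj R j / 4) = Rj R j := by ring
  have hq0 : 0 ≤ K * δ ^ c := by positivity
  have hgap := h S N z0 R R1 d b0 hw (by nlinarith) s0 hs0 (Rj R j / 4) δ (by rw [h4]; exact hRj)
    (fun i => lt_of_lt_of_le (hnear i) (by linarith)) hδ hδ1 (by linarith) (by linarith)
  rw [h4] at hgap
  have hfree := J8x872.free_world hw hRj
  have k1 : ∀ J ∈ N.tj s0, GO N s0 z0 (Rj R j / 4) δ J → HO N s0 z0 (Rj R j / 4) J :=
    fun J _ hJ => J9x872.GO.ho hJ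
  have k0 : ∀ C : Finset (ℂ × ℂ) → Prop, (∀ J ∈ N.tj s0, HO N s0 z0 (Rj R j / 4) J → C J) →
      (∀ J ∈ N.tj s0, ∀ β ⊆ Fs S z0 (Rj R j), C (flp N.toTrg J β) → C J) →
      Oa N s0 z0 R (j + 1) - GOa N s0 z0 R δ j ≤ K * δ ^ c * pav N s0 C :=
    fun C k2 k3 => gap_gen hw.hnet hfree k1 k2 k3 hgap
  have key : Oa N s0 z0 R (j + 1) - GOa N s0 z0 R δ j ≤ K * δ ^ c * Oa N s0 z0 R j := by
    cases j with
    | zero =>
      refine (k0 (fun _ => True) (fun J _ _ => trivial) (fun J _ β _ _ => trivial)).trans ?_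
      exact mul_le_mul_of_nonneg_left pav_le_one hq0
    | succ j =>
      have h2 : Rj R (j + 1) = Rj R j / 256 := Rj_succ j
      have h3 := Rj_pos hR j
      refine k0 (HO N s0 z0 (Rj R j / 4)) (fun J _ hJ => ?_) (fun J _ β hβ hJ => ?_)
      · exact J9x872.HO_mono' hw (by linarith) (by linarith [Rj_le hR j]) hJ
      · refine (J9x872.HO_flip fun s hs => ?_).1 hJ
        have := (Finset.mem_filter.1 (hβ hs)).2
        linarith
  refine key.trans (mul_le_mul_of_nonneg_right (mul_le_mul_of_nonneg_right (by linarith)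
    (by positivity)) ?_)
  cases j with
  | zero => exact zero_le_one
  | succ j => exact pav_nonneg

/-- **averaged inner gap** -/
theorem gapI (hG : GAPI) (hC4 : 0 < C4) : ∃ c K : ℝ, 0 < c ∧ 0 < K ∧
    ∀ (S : Finset ℂ) (N : Net ℂ) (z0 : ℂ) (R R1 d b0 : ℝ), World S N z0 R R1 d b0 C4 →
      K * R ≤ R1 → ∀ t ∈ delT S, ∀ (j : ℕ) (δ : ℝ), (∀ i, ‖vt t i - z0‖ < Rj R (j + 2)) →
      0 < δ → δ ≤ 1 → K * b0 ≤ δ * Rj R j → K * d ≤ δ * Rj R j →
      Ia N t z0 R j - GIa N t z0 R δ j ≤ K * δ ^ c * Ia N t z0 R (j + 1) := by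
  obtain ⟨c, K, hc, hK, h⟩ := hG C4 hC4
  refine ⟨c, 64 * K, hc, by positivity, ?_⟩
  intro S N z0 R R1 d b0 hw hKR t ht j δ hnear hδ hδ1 hb hd
  have hR := hw.Rpos
  have hRj := Rj_le hR j
  have hRp := Rj_pos hR j
  have e1 : Rj R (j + 1) = Rj R j / 256 := Rj_succ j
  have e2 : Rj R (j + 2) = Rj R (j + 1) / 256 := Rj_succ (j + 1)
  have hq0 : 0 ≤ K * δ ^ c := by positivity
  have hgap := h S N z0 R R1 d b0 hw (by nlinarith) t ht (Rj R j / 64) δ (by linarith)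
    (fun i => lt_of_lt_of_le (hnear i) (by linarith)) hδ hδ1 (by linarith) (by linarith)
  have hsub : Ann S z0 (Rj R j / 64 / 4) (Rj R j / 64) ⊆ Fs S z0 R :=
    (J9x872.ann_sub _ _ _ _).trans (J9x872.fs_sub _ _ (by linarith))
  have hfree := (J8x872.free_world hw (le_refl R)).mono hsub
  have k1 : ∀ J ∈ N.tj t, GI N t z0 (Rj R j / 64) δ J → HI N t z0 (Rj R j / 64) J :=
    fun J _ hJ => J9x872.GI.hi hJ
  have hn2 : ∀ i, ‖vt t i - z0‖ < Rj R (j + 1) / 64 := fun i =>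
    lt_of_lt_of_le (hnear i) (by linarith)
  have k2 : ∀ J ∈ N.tj t, HI N t z0 (Rj R j / 64) J → HI N t z0 (Rj R (j + 1) / 64) J :=
    fun J _ hJ => J9x872.HI_mono (by linarith) hn2 hJ
  have k3 : ∀ J ∈ N.tj t, ∀ β ⊆ Ann S z0 (Rj R j / 64 / 4) (Rj R j / 64),
      HI N t z0 (Rj R (j + 1) / 64) (flp N.toTrg J β) → HI N t z0 (Rj R (j + 1) / 64) J := by
    intro J _ β hβ hJ
    refine (J9x872.HI_flip fun s hs => ?_).1 hJ
    have := (Finset.mem_filter.1 (hβ hs)).2.1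
    linarith
  have key : Ia N t z0 R j - GIa N t z0 R δ j ≤ K * δ ^ c * Ia N t z0 R (j + 1) :=
    gap_gen hw.hnet hfree k1 k2 k3 hgap
  refine key.trans (mul_le_mul_of_nonneg_right (mul_le_mul_of_nonneg_right (by linarith)
    (by positivity)) pav_nonneg)

/-! ### monotonicity -/

theorem Oa_nonneg (s0 : ℂ × ℂ × ℂ) (j : ℕ) : 0 ≤ Oa N s0 z0 R j := by
  cases j with
  | zero => exact zero_le_one
  | succ j => exact pav_nonneg

theorem Oa_anti (hw : World S N z0 R R1 d b0 C4) (s0 : ℂ × ℂ × ℂ) (j : ℕ) :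
    Oa N s0 z0 R (j + 1) ≤ Oa N s0 z0 R j := by
  have hR := hw.Rpos
  cases j with
  | zero => exact pav_le_one
  | succ j =>
    refine pav_mono fun J _ hJ => J9x872.HO_mono' hw ?_ ?_ hJ
    · have := Rj_anti hR (Nat.le_succ j)
      linarith
    · have := Rj_le hR j
      have := Rj_pos hR j
      linarith

theorem Ia_mono (hw : World S N z0 R R1 d b0 C4) {j : ℕ} (h : ∀ i, ‖vt t i - z0‖ < Rj R (j + 2)) :
    Ia N t z0 R j ≤ Ia N t z0 R (j + 1) := by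
  have hR := hw.Rpos
  have e1 : Rj R (j + 1) = Rj R j / 256 := Rj_succ j
  have e2 : Rj R (j + 2) = Rj R (j + 1) / 256 := Rj_succ (j + 1)
  have h0 := Rj_pos hR j
  exact pav_mono fun J _ hJ => J9x872.HI_mono (by linarith)
    (fun i => lt_of_lt_of_le (h i) (by linarith)) hJ

/-- **upper bound** by the inner legs -/
theorem Xa_le_Ia (hw : World S N z0 R R1 d b0 C4) {j : ℕ} (h : ∀ i, ‖vt t i - z0‖ < Rj R j / 64) :
    Xa N t ≤ Ia N t z0 R j := by
  have hR := hw.Rpos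
  have h0 := Rj_pos hR j
  have h1 := Rj_le hR j
  exact pav_mono fun J _ ⟨k, hk⟩ => Indepx583.tri3_HI hw (by linarith) h hk

theorem pav_HO_at (hw : World S N z0 R R1 d b0 C4) (f : Fc S N z0 r) (ht : t ∈ f.T) {ρ : ℝ}
    (hr : r ≤ ρ) : pav N t (HO N t z0 ρ) = pav N f.s0 (HO N f.s0 z0 ρ) := by
  unfold pav
  rw [J9x872.card_at hw.hnet f ht]
  congr 1
  rw [Finset.card_filter, Finset.card_filter]
  push_cast
  rw [J9x872.sum_at hw.hnet f ht]
  refine Finset.sum_congr rfl fun J _ => ?_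
  have := Indepx583.HO_at f ht hr (J := J)
  by_cases h : HO N f.s0 z0 ρ J
  · rw [if_pos (this.2 h), if_pos h]
  · rw [if_neg (fun h' => h (this.1 h')), if_neg h]

/-- **upper bound** by the outer legs -/
theorem Xa_le_Oa (hw : World S N z0 R R1 d b0 C4) (f : Fc S N z0 r) (ht : t ∈ f.T) {j : ℕ}
    (h : 4 * r ≤ Rj R j) : Xa N t ≤ Oa N f.s0 z0 R j := by
  have hR := hw.Rpos
  cases j with
  | zero => exact pav_le_one
  | succ j =>
    have h0 := Rj_pos hR j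
    have h1 := Rj_le hR j
    have e1 : Rj R (j + 1) = Rj R j / 256 := Rj_succ j
    have hr : r ≤ Rj R j / 4 := by linarith [Rj_pos hR (j + 1)]
    have h2 : Oa N f.s0 z0 R (j + 1) = pav N t (HO N t z0 (Rj R j / 4)) :=
      (pav_HO_at hw f ht hr).symm
    rw [h2]
    exact pav_mono fun J hJ ⟨k, hk⟩ => Indepx583.tri3_HO hw (by linarith)
      (fun i => lt_of_lt_of_le (f.near t ht i) hr) hJ hk

/-! ### the lower bound -/

/-- the constants of the two gaps together -/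
theorem gaps (hO : GAPO) (hI : GAPI) (hC4 : 0 < C4) : ∃ c K : ℝ, 0 < c ∧ 1 ≤ K ∧
    ∀ δ : ℝ, 0 < δ → δ ≤ 1 →
    ∀ (S : Finset ℂ) (N : Net ℂ) (z0 : ℂ) (R R1 d b0 r : ℝ) (f : Fc S N z0 r),
      World S N z0 R R1 d b0 C4 → K * R ≤ R1 → ∀ j : ℕ, r ≤ Rj R (j + 2) →
      K * b0 ≤ δ * Rj R j → K * d ≤ δ * Rj R j →
      Oa N f.s0 z0 R (j + 1) - GOa N f.s0 z0 R δ j ≤ K * δ ^ c * Oa N f.s0 z0 R j ∧
      ∀ t ∈ f.T, Ia N t z0 R j - GIa N t z0 R δ j ≤ K * δ ^ c * Ia N t z0 R (j + 1) := by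
  obtain ⟨c, K, hc, hK, h⟩ := gapO hO hC4
  obtain ⟨c', K', hc', hK', h'⟩ := gapI hI hC4
  refine ⟨min c c', max 1 (max K K'), lt_min hc hc', le_max_left _ _, ?_⟩
  intro δ hδ hδ1 S N z0 R R1 d b0 r f hw hKR j hr hb hd
  have hR := hw.Rpos
  have hd0 := hw.dns.dpos
  have hRj := Rj_pos hR j
  have e1 : Rj R (j + 1) = Rj R j / 256 := Rj_succ j
  have e2 : Rj R (j + 2) = Rj R (j + 1) / 256 := Rj_succ (j + 1)
  have m1 : K ≤ max 1 (max K K') := (le_max_left _ _).trans (le_max_right _ _)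
  have m2 : K' ≤ max 1 (max K K') := (le_max_right _ _).trans (le_max_right _ _)
  have hmul : ∀ {a x y : ℝ}, 0 < a → 0 ≤ y → a ≤ max 1 (max K K') →
      max 1 (max K K') * x ≤ y → a * x ≤ y := by
    intro a x y ha hy hle h
    rcases le_or_gt 0 x with hx | hx
    · exact (mul_le_mul_of_nonneg_right hle hx).trans h
    · nlinarith
  have hy : 0 ≤ δ * Rj R j := by positivity
  have hR1 : 0 ≤ R1 := by
    have := hw.RR1
    linarith
  have p1 : δ ^ c ≤ δ ^ (min c c') := Real.rpow_le_rpow_of_exponent_ge hδ hδ1 (min_le_left _ _)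
  have p2 : δ ^ c' ≤ δ ^ (min c c') := Real.rpow_le_rpow_of_exponent_ge hδ hδ1 (min_le_right _ _)
  have q1 : K * δ ^ c ≤ max 1 (max K K') * δ ^ (min c c') :=
    mul_le_mul m1 p1 (by positivity) (by positivity)
  have q2 : K' * δ ^ c' ≤ max 1 (max K K') * δ ^ (min c c') :=
    mul_le_mul m2 p2 (by positivity) (by positivity)
  refine ⟨?_, fun t ht => ?_⟩
  · refine (h S N z0 R R1 d b0 hw (hmul hK hR1 m1 hKR) f.s0 (f.sub _ f.s0m) j δ
      (fun i => lt_of_lt_of_le (f.near _ f.s0m i) (by linarith)) hδ hδ1 (hmul hK hy m1 hb)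
      (hmul hK hy m1 hd)).trans (mul_le_mul_of_nonneg_right q1 (Oa_nonneg _ _))
  · refine (h' S N z0 R R1 d b0 hw (hmul hK' hR1 m2 hKR) t (f.sub _ ht) j δ
      (fun i => lt_of_lt_of_le (f.near _ ht i) hr) hδ hδ1 (hmul hK' hy m2 hb)
      (hmul hK' hy m2 hd)).trans (mul_le_mul_of_nonneg_right q2 pav_nonneg)

/-- **number of the bad scales**: `θ = 2 K δ ^ c` -/
theorem counts {q : ℝ} {m n : ℕ} {δ : ℝ} (hw : World S N z0 R R1 d b0 C4) (f : Fc S N z0 r)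
    (hr : r ≤ Rj R (m + 1)) (hq : 0 < q) (hq1 : 2 * q ≤ 1)
    (h : ∀ j < m, Oa N f.s0 z0 R (j + 1) - GOa N f.s0 z0 R δ j ≤ q * Oa N f.s0 z0 R j ∧
      ∀ t ∈ f.T, Ia N t z0 R j - GIa N t z0 R δ j ≤ q * Ia N t z0 R (j + 1)) :
    ((2 * q) ^ (n + 1) < Oa N f.s0 z0 R m → ((Finset.range m).filter fun j =>
      ¬ Oa N f.s0 z0 R (j + 1) ≤ 2 * GOa N f.s0 z0 R δ j).card ≤ n) ∧
    ∀ t ∈ f.T, (2 * q) ^ (n + 1) < Ia N t z0 R 0 → ((Finset.range m).filter fun j =>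
      ¬ Ia N t z0 R j ≤ 2 * GIa N t z0 R δ j).card ≤ n := by
  have hR := hw.Rpos
  refine ⟨fun hO => LBx654.outer hq hq1 le_rfl (fun j _ => Oa_anti hw _ j)
    (fun j hj => (h j hj).1) hO, fun t ht hI => LBx654.inner hq hq1 pav_le_one (fun j hj => ?_)
    (fun j hj => (h j hj).2 t ht) hI⟩
  exact Ia_mono hw fun i => lt_of_lt_of_le (f.near t ht i) (hr.trans (Rj_anti hR (by omega)))

/-- **lower bound of the three leg probability** for a pair of worlds -/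
theorem lbw (hO : GAPO) (hI : GAPI) (hG : REG) (hC4 : 0 < C4) {θ : ℝ} (hθ : 0 < θ) (hθ1 : θ ≤ 1) :
    ∃ δ c K : ℝ, 0 < δ ∧ δ ≤ 1 ∧ 0 < c ∧ 0 < K ∧
    ∀ (S S' : Finset ℂ) (N N' : Net ℂ) (z0 : ℂ) (R R1 d b0 r : ℝ) (f : Fc S N z0 r)
      (f' : Fc S' N' z0 r), Pair S S' N N' z0 R R1 d b0 C4 r f f' → K * R ≤ R1 →
    ∀ m n : ℕ, r ≤ Rj R (m + 1) → K * b0 ≤ Rj R m → K * d ≤ Rj R m → 2 * n < m →
    ∀ t ∈ f.T, θ ^ (n + 1) < Oa N f.s0 z0 R m → θ ^ (n + 1) < Ia N t z0 R 0 →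
      c * (Oa N f.s0 z0 R m * Ia N t z0 R 0) ≤ Xa N t := by
  obtain ⟨cg, Kg, hcg, hKg, hg⟩ := gaps hO hI hC4
  -- the choice of `δ`
  obtain ⟨δ, hδ, hδ1, hδq⟩ : ∃ δ : ℝ, 0 < δ ∧ δ ≤ 1 ∧ 2 * (Kg * δ ^ cg) ≤ θ := by
    refine ⟨min 1 ((θ / (2 * Kg)) ^ cg⁻¹), lt_min one_pos (by positivity), min_le_left _ _, ?_⟩
    have h1 : (min 1 ((θ / (2 * Kg)) ^ cg⁻¹)) ^ cg ≤ ((θ / (2 * Kg)) ^ cg⁻¹) ^ cg :=
      Real.rpow_le_rpow (by positivity) (min_le_right _ _) hcg.le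
    rw [← Real.rpow_mul (by positivity), inv_mul_cancel₀ hcg.ne', Real.rpow_one] at h1
    calc 2 * (Kg * (min 1 ((θ / (2 * Kg)) ^ cg⁻¹)) ^ cg) ≤ 2 * (Kg * (θ / (2 * Kg))) := by
          gcongr
      _ = θ := by field_simp
  obtain ⟨c, K, hc, hK, hR⟩ := hG C4 δ hC4 hδ hδ1
  refine ⟨δ, c * c / 4, max (256 * K) (Kg / δ), hδ, hδ1, by positivity, by positivity, ?_⟩
  intro S S' N N' z0 R R1 d b0 r f f' hP hKR m n hr hb hd hn t ht hOm hI0
  have hw := hP.w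
  have hRp := hw.Rpos
  have hd0 := hw.dns.dpos
  have hR1 : 0 < R1 := hRp.trans_le hw.RR1
  set Km := max (256 * K) (Kg / δ) with hKm
  have mA : K ≤ Km := by
    have := le_max_left (256 * K) (Kg / δ)
    linarith
  have mB : Kg ≤ Km := by
    have h1 := le_max_right (256 * K) (Kg / δ)
    have h2 : Kg ≤ Kg / δ := by
      rw [le_div_iff₀ hδ]
      nlinarith
    linarith
  have hmul : ∀ {a x y : ℝ}, 0 < a → 0 ≤ y → a ≤ Km → Km * x ≤ y → a * x ≤ y := by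
    intro a x y ha hy hle h
    rcases le_or_gt 0 x with hx | hx
    · exact (mul_le_mul_of_nonneg_right hle hx).trans h
    · nlinarith
  have hKg0 : 0 < Kg := by linarith
  have hgap : ∀ j < m, Oa N f.s0 z0 R (j + 1) - GOa N f.s0 z0 R δ j ≤
        Kg * δ ^ cg * Oa N f.s0 z0 R j ∧
      ∀ t ∈ f.T, Ia N t z0 R j - GIa N t z0 R δ j ≤ Kg * δ ^ cg * Ia N t z0 R (j + 1) := by
    intro j hj
    have hRj := Rj_anti hRp hj.le
    have hRj0 := Rj_pos hRp m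
    have key : ∀ x, Km * x ≤ Rj R m → Kg * x ≤ δ * Rj R j := by
      intro x hx
      have h1 : Kg / δ * x ≤ Rj R m := hmul (by positivity) hRj0.le (le_max_right _ _) hx
      have h2 : Kg * x = δ * (Kg / δ * x) := by field_simp
      rw [h2]
      exact mul_le_mul_of_nonneg_left (h1.trans hRj) hδ.le
    exact hg δ hδ hδ1 S N z0 R R1 d b0 r f hw (hmul hKg0 hR1.le mB hKR) j
      (hr.trans (Rj_anti hRp (by omega))) (key _ hb) (key _ hd)
  have hq : 0 < Kg * δ ^ cg := by positivity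
  have hpow : (2 * (Kg * δ ^ cg)) ^ (n + 1) ≤ θ ^ (n + 1) := pow_le_pow_left₀ (by positivity) hδq _
  have hglue : ∀ j < m, c * c * (GOa N f.s0 z0 R δ j * GIa N t z0 R δ j) ≤ Xa N t := by
    intro j hj
    have hRj : Rj R m ≤ Rj R (j + 1) := Rj_anti hRp (by omega)
    have hRj0 := Rj_pos hRp m
    obtain ⟨reg, Y, Att, Att', -, h2, h3, -, h5, -⟩ := hR S S' N N' z0 R R1 d b0 r f f' hP
      (hmul hK hR1.le mA hKR) j (hr.trans (Rj_anti hRp (by omega)))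
      ((hmul hK hRj0.le mA hb).trans hRj) ((hmul hK hRj0.le mA hd).trans hRj)
    exact glue hw f hc.le h2 h3 h5 ht
  have := LBx654.lb (O := Oa N f.s0 z0 R) (GO := GOa N f.s0 z0 R δ) (I := Ia N t z0 R)
    (GI := GIa N t z0 R δ) (c := c * c) (X := Xa N t) (m := m) (n := n) hq
    (hδq.trans hθ1) le_rfl pav_le_one (fun j _ => Oa_anti hw _ j)
    (fun j hj => Ia_mono hw fun i => lt_of_lt_of_le (f.near t ht i)
      (hr.trans (Rj_anti hRp (by omega)))) (fun j hj => (hgap j hj).1)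
    (fun j hj => (hgap j hj).2 t ht) (by positivity) hglue (hpow.trans_lt hOm)
    (hpow.trans_lt hI0) hn
  exact this

end Crest.Agent.R143.LBWx654
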