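import Mathlib

/-!
# Row 143 (S0194), block X: counting of bad scales, lower bound by ONE gluing, dichotomy (helper654)

* `cnt`, `cnt'` : decay along bad scales, from outside / from inside
* `card_le` : number of the bad scales
* `common` : a common good scale, `lb` : lower bound from one gluing
* `dich` : glue of the degenerate cases into the transport
-/

set_option autoImplicit false

noncomputable section

open scoped Classical

namespace Crest.Agent.R143.LBx654

/-- decay from outside: `a (j + 1) ≤ θ a j` at the bad scales `j < m` -/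
theorem cnt {a : ℕ → ℝ} {θ : ℝ} {B : ℕ → Prop} [DecidablePred B] (hθ : 0 ≤ θ) (m : ℕ)
    (ha : ∀ j < m, a (j + 1) ≤ a j) (hB : ∀ j < m, B j → a (j + 1) ≤ θ * a j) :
    a m ≤ θ ^ ((Finset.range m).filter B).card * a 0 := by
  induction m with
  | zero => simp
  | succ m ih =>
    have h := ih (fun j hj => ha j (by omega)) (fun j hj => hB j (by omega))
    rw [Finset.range_add_one, Finset.filter_insert]
    by_cases hb : B m
    · rw [if_pos hb, Finset.card_insert_of_notMem (by simp), pow_succ']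
      calc a (m + 1) ≤ θ * a m := hB m (by omega) hb
        _ ≤ θ * (θ ^ ((Finset.range m).filter B).card * a 0) := mul_le_mul_of_nonneg_left h hθ
        _ = _ := by ring
    · rw [if_neg hb]
      exact (ha m (by omega)).trans h

/-- decay from inside: `b j ≤ θ b (j + 1)` at the bad scales `j < m` -/
theorem cnt' {b : ℕ → ℝ} {θ : ℝ} {B : ℕ → Prop} [DecidablePred B] (hθ : 0 ≤ θ) (m : ℕ)
    (hb : ∀ j < m, b j ≤ b (j + 1)) (hB : ∀ j < m, B j → b j ≤ θ * b (j + 1)) :
    b 0 ≤ θ ^ ((Finset.range m).filter B).card * b m := by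
  induction m with
  | zero => simp
  | succ m ih =>
    have h := ih (fun j hj => hb j (by omega)) (fun j hj => hB j (by omega))
    rw [Finset.range_add_one, Finset.filter_insert]
    have hp : 0 ≤ θ ^ ((Finset.range m).filter B).card := pow_nonneg hθ _
    by_cases hm : B m
    · rw [if_pos hm, Finset.card_insert_of_notMem (by simp), pow_succ, mul_assoc]
      exact h.trans (mul_le_mul_of_nonneg_left (hB m (by omega) hm) hp)
    · rw [if_neg hm]
      exact h.trans (mul_le_mul_of_nonneg_left (hb m (by omega)) hp)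

/-- number of the bad scales from the lower bound of the last value -/
theorem card_le {θ x y : ℝ} {n k : ℕ} (hθ : 0 < θ) (hθ1 : θ ≤ 1) (h : x ≤ θ ^ k * y) (hy : y ≤ 1)
    (hx : θ ^ (n + 1) < x) : k ≤ n := by
  by_contra hcon
  push Not at hcon
  have h1 : θ ^ k ≤ θ ^ (n + 1) := pow_le_pow_of_le_one hθ.le hθ1 (by omega)
  have h2 : θ ^ k * y ≤ θ ^ k := by
    have := pow_pos hθ k
    nlinarith
  linarith

/-- **number of the outer-bad scales**: `O 0 ≤ 1`, `O (j + 1)` = outer legs at the scale `j`, `GO j`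
= with separated tips -/
theorem outer {O GO : ℕ → ℝ} {q : ℝ} {m n : ℕ} (hq : 0 < q) (hq1 : 2 * q ≤ 1) (h0 : O 0 ≤ 1)
    (hO : ∀ j < m, O (j + 1) ≤ O j) (hg : ∀ j < m, O (j + 1) - GO j ≤ q * O j)
    (hm : (2 * q) ^ (n + 1) < O m) :
    ((Finset.range m).filter fun j => ¬ O (j + 1) ≤ 2 * GO j).card ≤ n := by
  refine card_le (θ := 2 * q) (by linarith) hq1 (cnt (θ := 2 * q) (by linarith) m hO ?_) h0 hm
  intro j hj hb
  have := hg j hj
  push Not at hb
  linarith

/-- **number of the inner-bad scales**: `I j` = inner legs at the scale `j`, `GI j` = with separated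
tips -/
theorem inner {I GI : ℕ → ℝ} {q : ℝ} {m n : ℕ} (hq : 0 < q) (hq1 : 2 * q ≤ 1) (h0 : I m ≤ 1)
    (hI : ∀ j < m, I j ≤ I (j + 1)) (hg : ∀ j < m, I j - GI j ≤ q * I (j + 1))
    (hm : (2 * q) ^ (n + 1) < I 0) :
    ((Finset.range m).filter fun j => ¬ I j ≤ 2 * GI j).card ≤ n := by
  refine card_le (θ := 2 * q) (by linarith) hq1 (cnt' (θ := 2 * q) (by linarith) m hI ?_) h0 hm
  intro j hj hb
  have := hg j hj
  push Not at hb
  linarith

/-- **a common good scale** -/
theorem common {A B : ℕ → Prop} [DecidablePred fun j => ¬ A j] [DecidablePred fun j => ¬ B j]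
    {m n : ℕ} (hA : ((Finset.range m).filter fun j => ¬ A j).card ≤ n)
    (hB : ((Finset.range m).filter fun j => ¬ B j).card ≤ n) (h : 2 * n < m) :
    ∃ j < m, A j ∧ B j := by
  by_contra hcon
  push Not at hcon
  have h1 : Finset.range m ⊆ ((Finset.range m).filter fun j => ¬ A j) ∪
      ((Finset.range m).filter fun j => ¬ B j) := by
    intro j hj
    rw [Finset.mem_union, Finset.mem_filter, Finset.mem_filter]
    by_cases ha : A j
    · exact Or.inr ⟨hj, hcon j (Finset.mem_range.1 hj) ha⟩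
    · exact Or.inl ⟨hj, ha⟩
  have h2 := (Finset.card_le_card h1).trans (Finset.card_union_le _ _)
  rw [Finset.card_range] at h2
  omega

/-- **lower bound from one gluing** -/
theorem lb {O GO I GI : ℕ → ℝ} {q c X : ℝ} {m n : ℕ} (hq : 0 < q) (hq1 : 2 * q ≤ 1)
    (hO0 : O 0 ≤ 1) (hIm : I m ≤ 1) (hO : ∀ j < m, O (j + 1) ≤ O j)
    (hI : ∀ j < m, I j ≤ I (j + 1)) (hgO : ∀ j < m, O (j + 1) - GO j ≤ q * O j)
    (hgI : ∀ j < m, I j - GI j ≤ q * I (j + 1)) (hc : 0 ≤ c)
    (hX : ∀ j < m, c * (GO j * GI j) ≤ X) (hOm : (2 * q) ^ (n + 1) < O m)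
    (hI0 : (2 * q) ^ (n + 1) < I 0) (hn : 2 * n < m) : c / 4 * (O m * I 0) ≤ X := by
  obtain ⟨j, hj, h1, h2⟩ := common (outer hq hq1 hO0 hO hgO hOm) (inner hq hq1 hIm hI hgI hI0) hn
  have hp : 0 ≤ (2 * q) ^ (n + 1) := by positivity
  have hOm0 : 0 ≤ O m := hp.trans hOm.le
  have hI00 : 0 ≤ I 0 := hp.trans hI0.le
  have hOj : O m ≤ O (j + 1) := by
    have key : ∀ k, j + 1 + k ≤ m → O (j + 1 + k) ≤ O (j + 1) := by
      intro k
      induction k with
      | zero => intro _; exact le_rfl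
      | succ k ih => intro hk; exact (hO (j + 1 + k) (by omega)).trans (ih (by omega))
    have := key (m - (j + 1)) (by omega)
    rwa [show j + 1 + (m - (j + 1)) = m by omega] at this
  have hIj : I 0 ≤ I j := by
    have key : ∀ k, k ≤ m → I 0 ≤ I k := by
      intro k
      induction k with
      | zero => intro _; exact le_rfl
      | succ k ih => intro hk; exact (ih (by omega)).trans (hI k (by omega))
    exact key j hj.le
  have e1 : O m / 2 ≤ GO j := by linarith
  have e2 : I 0 / 2 ≤ GI j := by linarith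
  have e3 : O m / 2 * (I 0 / 2) ≤ GO j * GI j :=
    mul_le_mul e1 e2 (by linarith) (by linarith)
  calc c / 4 * (O m * I 0) = c * (O m / 2 * (I 0 / 2)) := by ring
    _ ≤ c * (GO j * GI j) := mul_le_mul_of_nonneg_left e3 hc
    _ ≤ X := hX j hj

/-- **dichotomy**: the degenerate cases of the transport -/
theorem dich {F : Type*} {T : Finset F} {Q Q' : F → ℂ} {η e M : ℝ} (he : 0 < e) (he1 : e ≤ 1 / 2)
    (hη : 0 ≤ η) (hM : 0 ≤ M) (hQ : ∀ t ∈ T, ‖Q t‖ ≤ M)
    (h : (∀ t ∈ T, ‖Q t‖ ≤ e) ∨ (∀ t ∈ T, ‖Q' t‖ ≤ e ^ 2) ∨ ∃ T' ⊆ T, ∃ lam : ℂ,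
      (∀ t ∈ T', ‖Q t - lam * Q' t‖ ≤ η * ‖Q t‖ + e * (1 + ‖lam‖)) ∧
      ∀ t ∈ T, t ∉ T' → ‖Q t‖ ≤ e ∧ ‖Q' t‖ ≤ e) :
    ∃ lam : ℂ, ∀ t ∈ T, ‖Q t - lam * Q' t‖ ≤ η * ‖Q t‖ + e * (1 + ‖lam‖) := by
  rcases h with h | h | ⟨T', -, lam, h1, h2⟩
  · refine ⟨0, fun t ht => ?_⟩
    rw [zero_mul, sub_zero, norm_zero, add_zero, mul_one]
    have := mul_nonneg hη (norm_nonneg (Q t))
    linarith [h t ht]
  · refine ⟨((2 * M / e : ℝ) : ℂ), fun t ht => ?_⟩
    have hl : ‖((2 * M / e : ℝ) : ℂ)‖ = 2 * M / e := by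
      rw [Complex.norm_real, Real.norm_of_nonneg (by positivity)]
    have h3 := norm_sub_le (Q t) (((2 * M / e : ℝ) : ℂ) * Q' t)
    rw [norm_mul, hl] at h3
    rw [hl]
    have h4 := mul_nonneg hη (norm_nonneg (Q t))
    have h5 : 2 * M / e * ‖Q' t‖ ≤ 2 * M / e * e ^ 2 :=
      mul_le_mul_of_nonneg_left (h t ht) (by positivity)
    have h6 : 2 * M / e * e ^ 2 = 2 * M * e := by field_simp
    have h7 : e * (1 + 2 * M / e) = e + 2 * M := by field_simp
    rw [h7]
    have h8 : M * e ≤ M * (1 / 2) := mul_le_mul_of_nonneg_left he1 hM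
    linarith [hQ t ht]
  · refine ⟨lam, fun t ht => ?_⟩
    by_cases ht' : t ∈ T'
    · exact h1 t ht'
    · obtain ⟨h3, h4⟩ := h2 t ht ht'
      have h5 := norm_sub_le (Q t) (lam * Q' t)
      rw [norm_mul] at h5
      have h6 := mul_le_mul_of_nonneg_left h4 (norm_nonneg lam)
      have h7 := mul_nonneg hη (norm_nonneg (Q t))
      have h8 : e * (1 + ‖lam‖) = e + ‖lam‖ * e := by ring
      rw [h8]
      linarith

end Crest.Agent.R143.LBx654
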