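import Crest.Agent.R143.EQE4_63
import Crest.Agent.R143.RBmF_54

/-!
# Row 143 (S0194): leaf `LEqui` of the spine, outright (helper63)
-/

set_option autoImplicit false

namespace Crest.Agent.R143.LEqFx63

open Crest.Agent.R143.B0x346 Crest.Agent.R143.B0Dx346

/-- **leaf LEqui** for every class of admissible domains contained in `Dom.Ad`, no hypothesis -/
theorem lequi {Adm : Dom → ℝ → Prop} (hAdm : ∀ D δ, Adm D δ → D.Ad δ) : Spinex422.LEqui Adm :=
  EQE4x63.lequi_rbm RBmFx54.rbm hAdm

/-- **leaf LEqui** for `Dom.Ad` -/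
theorem lequiAd : Spinex422.LEqui Dom.Ad := lequi fun _ _ h => h

end Crest.Agent.R143.LEqFx63
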