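import Mathlib

/-!
# Row 143 (S0194): law of large numbers, part 1 (helper432): bounded pairwise independent variables

* `low_iid` : `E (n b - ∑ Y i)⁺ ≤ τ n / 2 + T² / (2 τ)` for `n` pairwise independent variables with
  values in `[0, T]` and mean `b`
-/

set_option autoImplicit false

noncomputable section

namespace Crest.Agent.R143.LLN1x432

open MeasureTheory ProbabilityTheory
open scoped ENNReal

theorem low_iid {Ω : Type*} [MeasurableSpace Ω] {P : Measure Ω} [IsProbabilityMeasure P]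
    {ι : Type*} (s : Finset ι) (Y : ι → Ω → ℝ) {T b τ : ℝ} (hm : ∀ i ∈ s, Measurable (Y i))
    (h0 : ∀ i ∈ s, ∀ ω, 0 ≤ Y i ω) (hT : ∀ i ∈ s, ∀ ω, Y i ω ≤ T)
    (hb : ∀ i ∈ s, ∫ ω, Y i ω ∂P = b)
    (hI : Set.Pairwise (s : Set ι) fun i j => IndepFun (Y i) (Y j) P) (hτ : 0 < τ)
    (hs : 0 < s.card) :
    ∫⁻ ω, ENNReal.ofReal (s.card * b - ∑ i ∈ s, Y i ω) ∂P ≤
      ENNReal.ofReal (τ * s.card / 2 + T ^ 2 / (2 * τ)) := by
  set n : ℝ := (s.card : ℝ) with hn
  have n0 : 0 < n := by rw [hn]; exact_mod_cast hs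
  have hmem : ∀ i ∈ s, MemLp (Y i) 2 P := by
    intro i hi
    refine MemLp.of_bound (hm i hi).aestronglyMeasurable T (Filter.Eventually.of_forall fun ω => ?_)
    rw [Real.norm_eq_abs, abs_of_nonneg (h0 i hi ω)]
    exact hT i hi ω
  have hint : ∀ i ∈ s, Integrable (Y i) P := fun i hi => (hmem i hi).integrable (by norm_num)
  set S : Ω → ℝ := ∑ i ∈ s, Y i with hS
  have hSm : MemLp S 2 P := memLp_finset_sum' s hmem
  have hES : ∫ ω, S ω ∂P = n * b := by
    simp only [hS, Finset.sum_apply]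
    rw [integral_finset_sum s hint, Finset.sum_congr rfl hb, Finset.sum_const, nsmul_eq_mul]
  have hvar : Var[S; P] ≤ n * T ^ 2 := by
    rw [hS, IndepFun.variance_sum hmem hI]
    calc ∑ i ∈ s, Var[Y i; P] ≤ ∑ i ∈ s, T ^ 2 := by
          refine Finset.sum_le_sum fun i hi => ?_
          have h1 := variance_le_sq_of_bounded (μ := P) (X := Y i) (a := 0) (b := T)
            (Filter.Eventually.of_forall fun ω => ⟨h0 i hi ω, hT i hi ω⟩) (hm i hi).aemeasurable
          nlinarith [sq_nonneg T]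
      _ = n * T ^ 2 := by rw [Finset.sum_const, nsmul_eq_mul]
  have hvar2 : ∫ ω, (S ω - n * b) ^ 2 ∂P ≤ n * T ^ 2 := by
    rw [variance_eq_integral hSm.aestronglyMeasurable.aemeasurable, hES] at hvar
    exact hvar
  have hsq : Integrable (fun ω => (S ω - n * b) ^ 2) P :=
    (hSm.sub (memLp_const (n * b))).integrable_sq
  have h1 : ∀ ω, ENNReal.ofReal (n * b - ∑ i ∈ s, Y i ω) ≤
      ENNReal.ofReal (τ * n / 2 + (S ω - n * b) ^ 2 / (2 * τ * n)) := by
    intro ω
    apply ENNReal.ofReal_le_ofReal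
    have e : ∑ i ∈ s, Y i ω = S ω := by rw [hS, Finset.sum_apply]
    rw [e]
    have hp : 0 < 2 * τ * n := by positivity
    rw [← sub_nonneg]
    have e2 : τ * n / 2 + (S ω - n * b) ^ 2 / (2 * τ * n) - (n * b - S ω) =
        ((S ω - n * b + τ * n) ^ 2) / (2 * τ * n) := by
      field_simp
      ring
    rw [e2]
    positivity
  refine (lintegral_mono h1).trans ?_
  rw [← ofReal_integral_eq_lintegral_ofReal]
  · apply ENNReal.ofReal_le_ofReal
    rw [integral_add (integrable_const _) (hsq.div_const _), integral_const]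
    simp only [probReal_univ, smul_eq_mul, one_mul]
    have h2 : (∫ ω, (S ω - n * b) ^ 2 ∂P) / (2 * τ * n) ≤ n * T ^ 2 / (2 * τ * n) := by
      gcongr
    have h3 : n * T ^ 2 / (2 * τ * n) = T ^ 2 / (2 * τ) := by
      field_simp
    have h4 : ∫ ω, (S ω - n * b) ^ 2 / (2 * τ * n) ∂P =
        (∫ ω, (S ω - n * b) ^ 2 ∂P) / (2 * τ * n) := integral_div _ _
    rw [h4]
    linarith
  · exact (integrable_const _).add (hsq.div_const _)
  · exact Filter.Eventually.of_forall fun ω => by positivity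

end Crest.Agent.R143.LLN1x432
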