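import Crest.Agent.R143.LLN1_432
import Crest.Agent.R143.IndLoc_279
import Crest.Agent.R143.Trans3_690

/-!
# Row 143 (S0194): law of large numbers, part 2 (helper432): families of local weighted objects

* `Nice F` : the weight of a square is a measurable local functional, `F.a L ≤ C L²`
* `lowA` : lower tail in the square of side `k L`, `k → ∞`
-/

set_option autoImplicit false

noncomputable section

open scoped Classical

namespace Crest.Agent.R143.LLN2x432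

open MeasureTheory Filter Topology ProbabilityTheory
open Crest.ProbabilityR.Voronoi
open Crest.Agent.R143.SumScx302 Crest.Agent.R143.PP0x831 Crest.Agent.R143.LLN1x432
  Crest.Agent.R143.IndLocx279 Crest.Agent.R143.Trans3x690
open scoped ENNReal

variable {O : Type} {F : Fam O}

/-- measurable local bounded family -/
structure Nice (F : Fam O) : Prop where
  fm : ∀ (z : ℂ) (L : ℝ), FinMeas fun X => F.Ph (sq z L) X
  loc : ∀ (z : ℂ) (L : ℝ), LocalOn (sq z L) fun X => F.Ph (sq z L) X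
  bd : ∃ C : ℝ≥0∞, C ≠ ∞ ∧ ∀ L : ℕ, F.a L ≤ C * (L : ℝ≥0∞) ^ 2

theorem meas_sq (z : ℂ) (L : ℝ) : MeasurableSet (sq z L) := by
  unfold SumScx302.sq
  refine (measurableSet_le measurable_const Complex.measurable_re).inter
    ((measurableSet_lt Complex.measurable_re measurable_const).inter
    ((measurableSet_le measurable_const Complex.measurable_im).inter
    (measurableSet_lt Complex.measurable_im measurable_const)))

theorem bdd_sq (z : ℂ) (L : ℝ) : Bornology.IsBounded (sq z L) := by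
  refine (Metric.isBounded_closedBall (x := z) (r := L + L)).subset ?_
  rintro w ⟨h1, h2, h3, h4⟩
  rw [Metric.mem_closedBall, dist_eq_norm]
  refine (Complex.norm_le_abs_re_add_abs_im _).trans ?_
  rw [Complex.sub_re, Complex.sub_im, abs_of_nonneg (by linarith), abs_of_nonneg (by linarith)]
  linarith

theorem Nice.fin (N : Nice F) (L : ℕ) : F.a L ≠ ∞ := by
  obtain ⟨C, hC, h⟩ := N.bd
  exact ne_top_of_le_ne_top
    (ENNReal.mul_ne_top hC (ENNReal.pow_ne_top (ENNReal.natCast_ne_top L))) (h L)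

theorem Nice.meas (N : Nice F) {ε : ℝ} (hε : 0 < ε) (z : ℂ) (L : ℝ) :
    Measurable fun ω => F.Ph (sq z L) (cfg ε ω) :=
  meas_fun hε (meas_sq z L) (bdd_sq z L) (N.loc z L) (N.fm z L)

/-- stationarity for a function of the weight of a square -/
theorem stat_sq (k : ℤ × ℤ) (L : ℝ) (f : ℝ≥0∞ → ℝ≥0∞) :
    ∫⁻ ω, f (F.Ph (sq (gi k) L) (cfg 1 ω)) ∂sampleLaw =
      ∫⁻ ω, f (F.Ph (sq 0 L) (cfg 1 ω)) ∂sampleLaw := by
  rw [← stat k fun X => f (F.Ph (sq (gi k) L) X)]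
  refine lintegral_congr fun ω => ?_
  have e : sq (gi k) L = (fun w => w + gi k) '' sq 0 L := by
    rw [sq_tr, zero_add]
  rw [e, F.Ph_tr]

theorem sub_gi (L : ℕ) (p : ℕ × ℕ) : sub L p = sq (gi ((p.1 * L : ℕ), (p.2 * L : ℕ))) L := by
  rw [sub_eq, sq_tr, zero_add]

/-- the truncated weight -/
def tw (F : Fam O) (L : ℕ) (T : ℕ) (p : ℕ × ℕ) (X : Set (ℂ × Bool)) : ℝ :=
  (min (F.Ph (sub L p) X) (T : ℝ≥0∞)).toReal

theorem tw_nonneg (L T : ℕ) (p : ℕ × ℕ) (X : Set (ℂ × Bool)) : 0 ≤ tw F L T p X :=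
  ENNReal.toReal_nonneg

theorem tw_le (L T : ℕ) (p : ℕ × ℕ) (X : Set (ℂ × Bool)) : tw F L T p X ≤ T := by
  unfold tw
  refine ENNReal.toReal_le_of_le_ofReal (Nat.cast_nonneg T) ?_
  rw [ENNReal.ofReal_natCast]
  exact min_le_right _ _

theorem tw_of (L T : ℕ) (p : ℕ × ℕ) (X : Set (ℂ × Bool)) :
    ENNReal.ofReal (tw F L T p X) = min (F.Ph (sub L p) X) (T : ℝ≥0∞) := by
  unfold tw
  exact ENNReal.ofReal_toReal (ne_top_of_le_ne_top (ENNReal.natCast_ne_top T) (min_le_right _ _))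

theorem Nice.tw_loc (N : Nice F) (L T : ℕ) (p : ℕ × ℕ) : LocalOn (sub L p) (tw F L T p) := by
  intro X
  unfold tw
  rw [sub_gi]
  have h := N.loc (gi ((p.1 * L : ℕ), (p.2 * L : ℕ))) L X
  simp only at h
  rw [← h]

theorem Nice.tw_fm (N : Nice F) (L T : ℕ) (p : ℕ × ℕ) : FinMeas (tw F L T p) := by
  intro n
  unfold tw
  rw [sub_gi]
  exact ((N.fm _ _ n).min measurable_const).ennreal_toReal

theorem Nice.tw_meas (N : Nice F) (L T : ℕ) (p : ℕ × ℕ) :
    Measurable fun ω => tw F L T p (cfg 1 ω) := by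
  refine meas_fun one_pos (B := sub L p) ?_ ?_ (N.tw_loc L T p) (N.tw_fm L T p)
  · rw [sub_gi]; exact meas_sq _ _
  · rw [sub_gi]; exact bdd_sq _ _

theorem tw_mean (N : Nice F) (L T : ℕ) (p : ℕ × ℕ) :
    ∫ ω, tw F L T p (cfg 1 ω) ∂sampleLaw =
      (∫⁻ ω, min (F.Ph (sq 0 L) (cfg 1 ω)) (T : ℝ≥0∞) ∂sampleLaw).toReal := by
  rw [integral_eq_lintegral_of_nonneg_ae (Eventually.of_forall fun ω => tw_nonneg L T p _)
    (N.tw_meas L T p).aestronglyMeasurable]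
  congr 1
  simp only [tw_of]
  rw [sub_gi]
  exact stat_sq _ _ fun t => min t (T : ℝ≥0∞)

theorem tw_indep (N : Nice F) (L T : ℕ) {p q : ℕ × ℕ} (hpq : p ≠ q) :
    IndepFun (fun ω => tw F L T p (cfg 1 ω)) (fun ω => tw F L T q (cfg 1 ω)) sampleLaw := by
  refine indepFun one_pos (B := sub L p) (B' := sub L q) ?_ ?_ ?_ ?_ ?_
    (N.tw_loc L T p) (N.tw_loc L T q) (N.tw_fm L T p) (N.tw_fm L T q)
  · rw [sub_gi]; exact meas_sq _ _
  · rw [sub_gi]; exact bdd_sq _ _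
  · rw [sub_gi]; exact meas_sq _ _
  · rw [sub_gi]; exact bdd_sq _ _
  · rw [Set.disjoint_left]
    intro w hp hq
    exact hpq (sub_disj hp hq)

/-- truncation level -/
theorem exists_T (N : Nice F) (L : ℕ) {δ : ℝ} (hδ : 0 < δ) : ∃ T : ℕ,
    (F.a L).toReal ≤
      (∫⁻ ω, min (F.Ph (sq 0 L) (cfg 1 ω)) (T : ℝ≥0∞) ∂sampleLaw).toReal + δ := by
  set I : ℕ → ℝ≥0∞ := fun T => ∫⁻ ω, min (F.Ph (sq 0 L) (cfg 1 ω)) (T : ℝ≥0∞) ∂sampleLaw with hI
  have hle : ∀ T, I T ≤ F.a L := fun T => lintegral_mono fun ω => min_le_left _ _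
  have hsup : F.a L = ⨆ T, I T := by
    rw [hI, ← lintegral_iSup]
    · unfold Fam.a
      refine lintegral_congr fun ω => ?_
      rw [← inf_iSup_eq, ENNReal.iSup_natCast, inf_top_eq]
    · intro T
      exact (N.meas one_pos 0 L).min measurable_const
    · intro T T' h ω
      exact min_le_min le_rfl (by exact_mod_cast h)
  have h1 : F.a L < (⨆ T, I T) + ENNReal.ofReal δ := by
    rw [← hsup]
    exact ENNReal.lt_add_right (N.fin L) (by simpa using hδ)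
  rw [ENNReal.iSup_add, lt_iSup_iff] at h1
  obtain ⟨T, hT⟩ := h1
  refine ⟨T, ?_⟩
  have hfin : I T ≠ ∞ := ne_top_of_le_ne_top (N.fin L) (hle T)
  have h2 := ENNReal.toReal_mono (ENNReal.add_ne_top.2 ⟨hfin, ENNReal.ofReal_ne_top⟩) hT.le
  rwa [ENNReal.toReal_add hfin ENNReal.ofReal_ne_top, ENNReal.toReal_ofReal hδ.le] at h2

/-- **lower tail**, side `k L` -/
theorem lowA (N : Nice F) (L : ℕ) {δ : ℝ} (hδ : 0 < δ) : ∃ k0 : ℕ, ∀ k ≥ k0,
    ∫⁻ ω, (ENNReal.ofReal ((k : ℝ) ^ 2 * (F.a L).toReal) -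
      ∑ p ∈ Finset.range k ×ˢ Finset.range k, F.Ph (sub L p) (cfg 1 ω)) ∂sampleLaw ≤
      ENNReal.ofReal (δ * (k : ℝ) ^ 2) := by
  have : IsProbabilityMeasure sampleLaw := by unfold sampleLaw; infer_instance
  obtain ⟨T, hT⟩ := exists_T N L (show (0 : ℝ) < δ / 3 by linarith)
  set a : ℝ := (F.a L).toReal with ha
  set b : ℝ := (∫⁻ ω, min (F.Ph (sq 0 L) (cfg 1 ω)) (T : ℝ≥0∞) ∂sampleLaw).toReal with hb
  obtain ⟨k0, hk0⟩ := exists_nat_gt ((T : ℝ) ^ 2 / (2 * (δ / 3)) / (δ / 3) + 1)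
  refine ⟨k0, fun k hk => ?_⟩
  have hkk : (T : ℝ) ^ 2 / (2 * (δ / 3)) / (δ / 3) + 1 ≤ k :=
    hk0.le.trans (by exact_mod_cast hk)
  have hT0 : 0 ≤ (T : ℝ) ^ 2 / (2 * (δ / 3)) / (δ / 3) := by positivity
  have hk1 : (1 : ℝ) ≤ k := by linarith
  have hkp : 0 < k := by exact_mod_cast (zero_lt_one.trans_le hk1)
  set s : Finset (ℕ × ℕ) := Finset.range k ×ˢ Finset.range k with hs
  have hcard : (s.card : ℝ) = (k : ℝ) ^ 2 := by
    rw [hs, Finset.card_product, Finset.card_range]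
    push_cast
    ring
  have hspos : 0 < s.card := by
    rw [hs, Finset.card_product, Finset.card_range]
    positivity
  have h1 := low_iid (P := sampleLaw) s (fun p ω => tw F L T p (cfg 1 ω)) (T := T) (b := b)
    (τ := δ / 3) (fun p _ => N.tw_meas L T p) (fun p _ ω => tw_nonneg L T p _)
    (fun p _ ω => tw_le L T p _) (fun p _ => tw_mean N L T p)
    (fun p _ q _ hpq => tw_indep N L T hpq) (by linarith) hspos
  rw [hcard] at h1
  have h2 : ∀ ω, (ENNReal.ofReal ((k : ℝ) ^ 2 * a) - ∑ p ∈ s, F.Ph (sub L p) (cfg 1 ω)) ≤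
      ENNReal.ofReal ((k : ℝ) ^ 2 * (a - b)) +
        ENNReal.ofReal ((k : ℝ) ^ 2 * b - ∑ p ∈ s, tw F L T p (cfg 1 ω)) := by
    intro ω
    have e1 : ENNReal.ofReal (∑ p ∈ s, tw F L T p (cfg 1 ω)) ≤
        ∑ p ∈ s, F.Ph (sub L p) (cfg 1 ω) := by
      rw [ENNReal.ofReal_sum_of_nonneg fun p _ => tw_nonneg L T p _]
      refine Finset.sum_le_sum fun p _ => ?_
      rw [tw_of]
      exact min_le_left _ _
    have e0 : 0 ≤ ∑ p ∈ s, tw F L T p (cfg 1 ω) := Finset.sum_nonneg fun p _ => tw_nonneg L T p _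
    calc ENNReal.ofReal ((k : ℝ) ^ 2 * a) - ∑ p ∈ s, F.Ph (sub L p) (cfg 1 ω)
        ≤ ENNReal.ofReal ((k : ℝ) ^ 2 * a) - ENNReal.ofReal (∑ p ∈ s, tw F L T p (cfg 1 ω)) :=
          tsub_le_tsub_left e1 _
      _ = ENNReal.ofReal ((k : ℝ) ^ 2 * a - ∑ p ∈ s, tw F L T p (cfg 1 ω)) :=
          (ENNReal.ofReal_sub _ e0).symm
      _ = ENNReal.ofReal ((k : ℝ) ^ 2 * (a - b) +
            ((k : ℝ) ^ 2 * b - ∑ p ∈ s, tw F L T p (cfg 1 ω))) := by congr 1; ring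
      _ ≤ _ := ENNReal.ofReal_add_le
  refine (lintegral_mono h2).trans ?_
  rw [lintegral_add_left measurable_const, lintegral_const, measure_univ, mul_one]
  refine (add_le_add le_rfl h1).trans ?_
  have h3 : ENNReal.ofReal ((k : ℝ) ^ 2 * (a - b)) ≤ ENNReal.ofReal ((k : ℝ) ^ 2 * (δ / 3)) := by
    apply ENNReal.ofReal_le_ofReal
    gcongr
    linarith
  refine (add_le_add h3 le_rfl).trans ?_
  rw [← ENNReal.ofReal_add (by positivity) (by positivity)]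
  apply ENNReal.ofReal_le_ofReal
  have h4 : (T : ℝ) ^ 2 / (2 * (δ / 3)) ≤ k * (δ / 3) := by
    rw [← div_le_iff₀ (by linarith : (0 : ℝ) < δ / 3)]
    linarith
  have h5 : (k : ℝ) ≤ (k : ℝ) ^ 2 := by nlinarith
  have h6 : (k : ℝ) * (δ / 3) ≤ (k : ℝ) ^ 2 * (δ / 3) := by gcongr
  nlinarith

end Crest.Agent.R143.LLN2x432
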