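import Crest.Agent.R143.LLN2_432

/-!
# Row 143 (S0194): law of large numbers, part 3 (helper432)

* `low_lim`, `up_lim` : if `F` is a measurable local bounded family of density `α`, then
  `∫ (α s² - Ph (sq z s) (cfg ε ·))⁺ → 0` and `∫ (Ph (sq z s) (cfg ε ·) - α s²)⁺ → 0` (mesh `ε → 0`)
* `wt_le`, `le_wt` : `∫ g Ph (sq z s) = α s² ∫ g + o(1)` uniformly in the weights `0 ≤ g ≤ 1`
-/

set_option autoImplicit false

noncomputable section

open scoped Classical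

namespace Crest.Agent.R143.LLN3x432

open MeasureTheory Filter Topology ProbabilityTheory
open Crest.ProbabilityR.Voronoi
open Crest.Agent.R143.SumScx302 Crest.Agent.R143.PP0x831 Crest.Agent.R143.LLN1x432
  Crest.Agent.R143.IndLocx279 Crest.Agent.R143.Trans3x690 Crest.Agent.R143.LLN2x432
open scoped ENNReal

variable {O : Type} {F : Fam O} {α : ℝ}

theorem ag_nat {n : ℕ} (hn : 0 < n) :
    Ag F 0 1 ((n : ℝ)⁻¹) = ENNReal.ofReal (((n : ℝ)⁻¹) ^ 2) * F.a n := by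
  have hn' : (0 : ℝ) < n := by exact_mod_cast hn
  rw [ag_eq F (inv_pos.2 hn')]
  unfold Fam.a
  simp

/-- `a n / n² → α` -/
theorem a_lim (N : Nice F) (h0 : 0 ≤ α) (hα : Dens F α) :
    Tendsto (fun n : ℕ => (F.a n).toReal / (n : ℝ) ^ 2) atTop (𝓝 α) := by
  have h1 : Tendsto (fun n : ℕ => (n : ℝ)⁻¹) atTop (𝓝[>] 0) :=
    tendsto_inv_atTop_nhdsGT_zero.comp tendsto_natCast_atTop_atTop
  have h2 := (hα 0 1 one_pos).comp h1
  rw [one_pow, mul_one] at h2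
  have h3 := (ENNReal.tendsto_toReal ENNReal.ofReal_ne_top).comp h2
  rw [ENNReal.toReal_ofReal h0] at h3
  refine h3.congr' ?_
  filter_upwards [eventually_gt_atTop 0] with n hn
  show (Ag F 0 1 ((n : ℝ)⁻¹)).toReal = _
  rw [ag_nat hn, ENNReal.toReal_mul, ENNReal.toReal_ofReal (by positivity), inv_pow,
    inv_mul_eq_div]

/-- **lower tail**, natural sides -/
theorem lowB (N : Nice F) (h0 : 0 ≤ α) (hα : Dens F α) {δ : ℝ} (hδ : 0 < δ) : ∃ n0 : ℕ,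
    ∀ n ≥ n0, ∫⁻ ω, (ENNReal.ofReal (α * (n : ℝ) ^ 2) - F.Ph (SumScx302.sq 0 n) (cfg 1 ω))
      ∂sampleLaw ≤ ENNReal.ofReal (δ * (n : ℝ) ^ 2) := by
  have hP : IsProbabilityMeasure sampleLaw := by unfold sampleLaw; infer_instance
  obtain ⟨L, hL, hL1⟩ : ∃ L : ℕ, (α - δ / 3) * (L : ℝ) ^ 2 ≤ (F.a L).toReal ∧ 1 ≤ L := by
    have h1 := (a_lim N h0 hα).eventually (eventually_gt_nhds (show α - δ / 3 < α by linarith))
    obtain ⟨L, h2, h3⟩ := (h1.and (eventually_ge_atTop 1)).exists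
    refine ⟨L, ?_, h3⟩
    have h4 : (0 : ℝ) < (L : ℝ) ^ 2 := by positivity
    rw [lt_div_iff₀ h4] at h2
    exact h2.le
  obtain ⟨k0, hk0⟩ := lowA N L (show (0 : ℝ) < δ / 3 by linarith)
  obtain ⟨m, hm⟩ := exists_nat_gt (2 * α * L / (δ / 3))
  refine ⟨k0 * L + m, fun n hn => ?_⟩
  set k := n / L with hk
  have hkk : k0 ≤ k := by
    rw [hk, Nat.le_div_iff_mul_le (by omega)]
    omega
  have h1 : k * L ≤ n := Nat.div_mul_le_self n L
  have h2 : n < k * L + L := Nat.lt_div_mul_add (by omega)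
  have h1' : (k : ℝ) * L ≤ n := by exact_mod_cast h1
  have h2' : (n : ℝ) < k * L + L := by exact_mod_cast h2
  have hLr : (1 : ℝ) ≤ L := by exact_mod_cast hL1
  have hkr : (0 : ℝ) ≤ k := Nat.cast_nonneg k
  have hnr : (0 : ℝ) ≤ n := Nat.cast_nonneg n
  have hmn : (m : ℝ) ≤ n := by
    have : m ≤ n := by omega
    exact_mod_cast this
  set A : ℝ := (F.a L).toReal with hA
  have hA0 : 0 ≤ A := ENNReal.toReal_nonneg
  have pt : ∀ ω, (ENNReal.ofReal (α * (n : ℝ) ^ 2) - F.Ph (SumScx302.sq 0 n) (cfg 1 ω)) ≤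
      ENNReal.ofReal (α * (n : ℝ) ^ 2 - (k : ℝ) ^ 2 * A) + (ENNReal.ofReal ((k : ℝ) ^ 2 * A) -
        ∑ p ∈ Finset.range k ×ˢ Finset.range k, F.Ph (sub L p) (cfg 1 ω)) := by
    intro ω
    have e1 : ∑ p ∈ Finset.range k ×ˢ Finset.range k, F.Ph (sub L p) (cfg 1 ω) ≤
        F.Ph (SumScx302.sq 0 n) (cfg 1 ω) := by
      refine (le_add_self.trans (F.super_pt L k (cfg 1 ω))).trans (F.Ph_mono (sq_mono ?_) _)
      exact_mod_cast h1
    refine (tsub_le_tsub_left e1 _).trans ?_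
    rw [ENNReal.ofReal_sub _ (by positivity)]
    exact tsub_le_tsub_add_tsub
  refine (lintegral_mono pt).trans ?_
  rw [lintegral_add_left measurable_const, lintegral_const, measure_univ, mul_one]
  refine (add_le_add le_rfl (hk0 k hkk)).trans ?_
  have h3 : α * (n : ℝ) ^ 2 - (k : ℝ) ^ 2 * A ≤ 2 * (δ / 3) * (n : ℝ) ^ 2 := by
    have e1 : (k : ℝ) ^ 2 * ((α - δ / 3) * (L : ℝ) ^ 2) ≤ (k : ℝ) ^ 2 * A := by gcongr
    have e2 : (k * L : ℝ) ^ 2 ≤ (n : ℝ) ^ 2 := by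
      apply pow_le_pow_left₀ (by positivity) h1'
    have e3 : 2 * α * L ≤ n * (δ / 3) := by
      have h5 : 2 * α * L / (δ / 3) ≤ n := hm.le.trans hmn
      rwa [div_le_iff₀ (by linarith : (0 : ℝ) < δ / 3)] at h5
    have e4 : (n : ℝ) ^ 2 - (k * L : ℝ) ^ 2 ≤ 2 * n * L := by
      nlinarith
    have e5 : α * ((n : ℝ) ^ 2 - (k * L : ℝ) ^ 2) ≤ α * (2 * n * L) := by gcongr
    have e6 : α * (2 * n * L) ≤ (δ / 3) * (n : ℝ) ^ 2 := by
      have : (2 * α * L) * n ≤ (n * (δ / 3)) * n := by gcongr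
      nlinarith
    nlinarith
  have h4 : δ / 3 * (k : ℝ) ^ 2 ≤ δ / 3 * (n : ℝ) ^ 2 := by
    have : (k : ℝ) ≤ n := by nlinarith
    gcongr
  rw [show δ * (n : ℝ) ^ 2 = 2 * (δ / 3) * (n : ℝ) ^ 2 + δ / 3 * (n : ℝ) ^ 2 by ring,
    ENNReal.ofReal_add (by positivity) (by positivity)]
  exact add_le_add (ENNReal.ofReal_le_ofReal h3) (ENNReal.ofReal_le_ofReal h4)

theorem Ph_eps (F : Fam O) {z : ℂ} {s ε : ℝ} (hε : 0 < ε) (ω : Sample) :
    F.Ph (SumScx302.sq z s) (cfg ε ω) = ENNReal.ofReal (ε ^ 2) *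
      F.Ph (SumScx302.sq (((ε⁻¹ : ℝ) : ℂ) * z) (ε⁻¹ * s)) (cfg 1 ω) := by
  rw [cfg_eps, ← Ph_sc F hε, sq_sc hε]
  congr 1
  rw [← mul_assoc, ← Complex.ofReal_mul, ← mul_assoc, mul_inv_cancel₀ hε.ne']
  simp

/-- **lower tail**, mesh `ε → 0` -/
theorem low_lim (N : Nice F) (h0 : 0 ≤ α) (hα : Dens F α) (z : ℂ) {s : ℝ} (hs : 0 < s) :
    Tendsto (fun ε : ℝ => ∫⁻ ω, (ENNReal.ofReal (α * s ^ 2) -
      F.Ph (SumScx302.sq z s) (cfg ε ω)) ∂sampleLaw) (𝓝[>] 0) (𝓝 0) := by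
  have hP : IsProbabilityMeasure sampleLaw := by unfold sampleLaw; infer_instance
  rw [ENNReal.tendsto_nhds_zero]
  intro η hη
  -- a real number below `η`
  obtain ⟨r, hr, hrη⟩ : ∃ r : ℝ, 0 < r ∧ ENNReal.ofReal r ≤ η := by
    by_cases ht : η = ∞
    · exact ⟨1, one_pos, by rw [ht]; exact le_top⟩
    · exact ⟨η.toReal, ENNReal.toReal_pos hη.ne' ht, by rw [ENNReal.ofReal_toReal ht]⟩
  set δ : ℝ := r / 2 / s ^ 2 with hδ
  have hδ0 : 0 < δ := by positivity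
  obtain ⟨n0, hn0⟩ := lowB N h0 hα hδ0
  have ev1 : ∀ᶠ ε : ℝ in 𝓝[>] 0, ε ∈ Set.Ioo (0 : ℝ) (s / (n0 + 2)) :=
    Ioo_mem_nhdsGT (by positivity)
  have ev2 : ∀ᶠ ε : ℝ in 𝓝[>] 0, ε ∈ Set.Ioo (0 : ℝ) (r / 2 / (4 * (α + 1) * s)) :=
    Ioo_mem_nhdsGT (by positivity)
  filter_upwards [ev1, ev2] with ε h1 h2
  have hε : 0 < ε := h1.1
  set n : ℕ := ⌊s / ε - 1⌋₊ with hn
  have hse : (n0 : ℝ) + 2 < s / ε := by
    rw [lt_div_iff₀ hε]
    have := h1.2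
    rw [lt_div_iff₀ (by positivity)] at this
    linarith
  have hn0r : (0 : ℝ) ≤ n0 := Nat.cast_nonneg _
  have hnle : (n : ℝ) ≤ s / ε - 1 := Nat.floor_le (by linarith)
  have hngt : s / ε - 1 < (n : ℝ) + 1 := Nat.lt_floor_add_one _
  have hnn : n0 ≤ n := by
    rw [hn]
    apply Nat.le_floor
    linarith
  have hen : ε * n ≤ s := by
    have : ε * n ≤ ε * (s / ε - 1) := by gcongr
    have e : ε * (s / ε - 1) = s - ε := by field_simp
    linarith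
  have hen2 : s - 2 * ε ≤ ε * n := by
    have : ε * (s / ε - 2) ≤ ε * n := by
      apply mul_le_mul_of_nonneg_left _ hε.le
      linarith
    have e : ε * (s / ε - 2) = s - 2 * ε := by field_simp
    linarith
  -- the big natural square inside
  set z' : ℂ := ((ε⁻¹ : ℝ) : ℂ) * z with hz'
  set k : ℤ × ℤ := (⌊z'.re⌋ + 1, ⌊z'.im⌋ + 1) with hk
  have hsub : SumScx302.sq (gi k) n ⊆ SumScx302.sq z' (ε⁻¹ * s) := by
    have h0 : ε⁻¹ * s = s / ε := by rw [div_eq_inv_mul]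
    have a1 := Int.lt_floor_add_one z'.re
    have a2 := Int.lt_floor_add_one z'.im
    have b1 := Int.floor_le z'.re
    have b2 := Int.floor_le z'.im
    refine sq_gi_sub ?_ ?_ ?_ ?_
    · show z'.re ≤ ((⌊z'.re⌋ + 1 : ℤ) : ℝ)
      push_cast; linarith
    · show z'.im ≤ ((⌊z'.im⌋ + 1 : ℤ) : ℝ)
      push_cast; linarith
    · show ((⌊z'.re⌋ + 1 : ℤ) : ℝ) + _ ≤ _
      rw [h0]
      push_cast; linarith
    · show ((⌊z'.im⌋ + 1 : ℤ) : ℝ) + _ ≤ _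
      rw [h0]
      push_cast; linarith
  set c : ℝ≥0∞ := ENNReal.ofReal (α * s ^ 2) with hc
  set e2 : ℝ≥0∞ := ENNReal.ofReal (ε ^ 2) with he2
  have step1 : ∫⁻ ω, (c - F.Ph (SumScx302.sq z s) (cfg ε ω)) ∂sampleLaw ≤
      ∫⁻ ω, (c - e2 * F.Ph (SumScx302.sq 0 n) (cfg 1 ω)) ∂sampleLaw := by
    rw [← stat_sq k n fun t => c - e2 * t]
    refine lintegral_mono fun ω => ?_
    rw [Ph_eps F hε]
    exact tsub_le_tsub_left (mul_le_mul_right (F.Ph_mono hsub _) _) _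
  have step2 : ∀ ω, c - e2 * F.Ph (SumScx302.sq 0 n) (cfg 1 ω) ≤
      ENNReal.ofReal (α * s ^ 2 - ε ^ 2 * (α * (n : ℝ) ^ 2)) +
        e2 * (ENNReal.ofReal (α * (n : ℝ) ^ 2) - F.Ph (SumScx302.sq 0 n) (cfg 1 ω)) := by
    intro ω
    rw [ENNReal.ofReal_sub _ (by positivity), ENNReal.ofReal_mul (by positivity : (0 : ℝ) ≤ ε ^ 2),
      ENNReal.mul_sub (fun _ _ => ENNReal.ofReal_ne_top)]
    exact tsub_le_tsub_add_tsub
  refine step1.trans ((lintegral_mono step2).trans ?_)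
  rw [lintegral_add_left measurable_const, lintegral_const, measure_univ, mul_one,
    lintegral_const_mul' _ _ ENNReal.ofReal_ne_top]
  refine (add_le_add le_rfl (mul_le_mul_right (hn0 n hnn) _)).trans (le_trans ?_ hrη)
  rw [← ENNReal.ofReal_mul (by positivity), show r = r / 2 + r / 2 by ring,
    ENNReal.ofReal_add (by positivity) (by positivity)]
  refine add_le_add (ENNReal.ofReal_le_ofReal ?_) (ENNReal.ofReal_le_ofReal ?_)
  · have b1 : ε * (4 * (α + 1) * s) < r / 2 := by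
      have := h2.2
      rwa [lt_div_iff₀ (by positivity)] at this
    have b2 : s ^ 2 - (ε * n) ^ 2 ≤ 4 * s * ε := by
      nlinarith [mul_nonneg hε.le (Nat.cast_nonneg (α := ℝ) n)]
    have b3 : α * (s ^ 2 - (ε * n) ^ 2) ≤ α * (4 * s * ε) := by gcongr
    have b4 : 0 ≤ s * ε := by positivity
    nlinarith
  · have b1 : (ε * n) ^ 2 ≤ s ^ 2 := pow_le_pow_left₀ (by positivity) hen 2
    calc ε ^ 2 * (δ * (n : ℝ) ^ 2) = δ * (ε * n) ^ 2 := by ring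
      _ ≤ δ * s ^ 2 := by gcongr
      _ = r / 2 := by rw [hδ]; field_simp

/-- **upper tail**, mesh `ε → 0` -/
theorem up_lim (N : Nice F) (h0 : 0 ≤ α) (hα : Dens F α) (z : ℂ) {s : ℝ} (hs : 0 < s) :
    Tendsto (fun ε : ℝ => ∫⁻ ω, (F.Ph (SumScx302.sq z s) (cfg ε ω) -
      ENNReal.ofReal (α * s ^ 2)) ∂sampleLaw) (𝓝[>] 0) (𝓝 0) := by
  have hP : IsProbabilityMeasure sampleLaw := by unfold sampleLaw; infer_instance
  set c : ℝ≥0∞ := ENNReal.ofReal (α * s ^ 2) with hc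
  have h1 := (hα z s hs).add (low_lim N h0 hα z hs)
  have h2 := ENNReal.Tendsto.sub h1 (tendsto_const_nhds (x := c)) (Or.inr ENNReal.ofReal_ne_top)
  rw [← hc, add_zero, tsub_self] at h2
  refine h2.congr' ?_
  filter_upwards [self_mem_nhdsWithin] with ε hε
  have hε' : (0 : ℝ) < ε := hε
  have e1 : Ag F z s ε + ∫⁻ ω, (c - F.Ph (SumScx302.sq z s) (cfg ε ω)) ∂sampleLaw =
      c + ∫⁻ ω, (F.Ph (SumScx302.sq z s) (cfg ε ω) - c) ∂sampleLaw := by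
    unfold Ag
    rw [← lintegral_add_left (N.meas hε' z s)]
    have e2 : c = ∫⁻ _ω, c ∂sampleLaw := by rw [lintegral_const, measure_univ, mul_one]
    conv_rhs => rw [e2]
    rw [← lintegral_add_left measurable_const]
    refine lintegral_congr fun ω => ?_
    rw [← e2, add_tsub_eq_max, add_tsub_eq_max, max_comm]
  rw [e1, ENNReal.add_sub_cancel_left ENNReal.ofReal_ne_top]

/-- weights, upper bound -/
theorem wt_le (N : Nice F) {ε : ℝ} (hε : 0 < ε) (z : ℂ) (s : ℝ) {c : ℝ≥0∞} (hc : c ≠ ∞)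
    {g : Sample → ℝ≥0∞} (hg : ∀ ω, g ω ≤ 1) :
    ∫⁻ ω, g ω * F.Ph (SumScx302.sq z s) (cfg ε ω) ∂sampleLaw ≤
      c * ∫⁻ ω, g ω ∂sampleLaw + ∫⁻ ω, (F.Ph (SumScx302.sq z s) (cfg ε ω) - c) ∂sampleLaw := by
  have hm : Measurable fun ω => F.Ph (SumScx302.sq z s) (cfg ε ω) - c :=
    (N.meas hε z s).sub measurable_const
  rw [← lintegral_const_mul' _ _ hc, ← lintegral_add_right _ hm]
  refine lintegral_mono fun ω => ?_
  set x := F.Ph (SumScx302.sq z s) (cfg ε ω) with hx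
  show g ω * x ≤ c * g ω + (x - c)
  calc g ω * x ≤ g ω * (c + (x - c)) := by
        gcongr
        exact le_add_tsub
    _ = c * g ω + g ω * (x - c) := by ring
    _ ≤ c * g ω + 1 * (x - c) := by gcongr; exact hg ω
    _ = _ := by rw [one_mul]

/-- weights, lower bound -/
theorem le_wt (N : Nice F) {ε : ℝ} (hε : 0 < ε) (z : ℂ) (s : ℝ) {c : ℝ≥0∞} (hc : c ≠ ∞)
    {g : Sample → ℝ≥0∞} (hg : ∀ ω, g ω ≤ 1) :
    c * ∫⁻ ω, g ω ∂sampleLaw ≤ ∫⁻ ω, g ω * F.Ph (SumScx302.sq z s) (cfg ε ω) ∂sampleLaw +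
      ∫⁻ ω, (c - F.Ph (SumScx302.sq z s) (cfg ε ω)) ∂sampleLaw := by
  have hm : Measurable fun ω => c - F.Ph (SumScx302.sq z s) (cfg ε ω) :=
    measurable_const.sub (N.meas hε z s)
  rw [← lintegral_const_mul' _ _ hc, ← lintegral_add_right _ hm]
  refine lintegral_mono fun ω => ?_
  set x := F.Ph (SumScx302.sq z s) (cfg ε ω) with hx
  show c * g ω ≤ g ω * x + (c - x)
  calc c * g ω ≤ (x + (c - x)) * g ω := by
        gcongr
        exact le_add_tsub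
    _ = g ω * x + (c - x) * g ω := by ring
    _ ≤ g ω * x + (c - x) * 1 := by gcongr; exact hg ω
    _ = _ := by rw [mul_one]

end Crest.Agent.R143.LLN3x432
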