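import Crest.Agent.R143.NetU_346
import Crest.Agent.R143.D3F_802

/-!
# Row 143 (S0194), CONT / POLY: label shift (helper643)

Two class triples `A`, `A'` on `S` with the same free sites, which agree on the visible sites outside
small balls around three marks `c l`. No nestedness, no hull, no root.

* `SArm S W p r1 r2` : chain of sites of `W` across the annulus `A(p; r1, r2)`
* `Shift S A A' c o d r R0`
* `shift_hit` : a `Hit` of `A` is a `Hit` of `A'`, or one of four one-colour chains of free sites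
  crosses an annulus around a mark
* `shift_TS` : `‖TS S A z - TS S A' z‖ ≤ 216 B q`
-/

set_option autoImplicit false

noncomputable section

open scoped Classical

namespace Crest.Agent.R143.LShx643

open Set
open Crest.Agent.R143.B0x346 Crest.Agent.R143.DelGx806 Crest.Agent.R143.DelRx806
  Crest.Agent.R143.JColx54 Crest.Agent.R143.RE0x723 Crest.Agent.R143.K33x877
open Crest.Agent.R143.RB2x54 (Vt)
open Crest.Agent.R143.Harx315 (pr)
open Crest.Agent.R143.D3Fx802 (CArm)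
open Crest.Agent.R143.NetUx346
open Crest.Agent.R143.Lawx872 (ConnIn)

variable {S : Finset ℂ} {A A' : ZMod 3 → Set ℂ}

/-- a chain of sites of `W` across an annulus -/
def SArm (S : Finset ℂ) (W : Set ℂ) (p : ℂ) (r1 r2 : ℝ) : Prop :=
  ∃ x y, ‖x - p‖ ≤ r1 ∧ r2 ≤ ‖y - p‖ ∧ Pth S W x y

/-- visible class site -/
def Vis (S : Finset ℂ) (A : ZMod 3 → Set ℂ) (x : ℂ) : Prop :=
  x ∈ S ∧ x ∉ fr S A ∧ ∃ y ∈ fr S A, Adj S x y

/-- the last site of the class on a chain -/
theorem clu_last {T B : Set ℂ} {b : ℂ} (h : b ∈ Clu S T B) (hb : b ∉ B) :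
    ∃ x ∈ B, ∃ y, Adj S x y ∧ Pth S T y b := by
  obtain ⟨x0, hx0, h1, h2⟩ := h
  have key : ∀ c, Relation.ReflTransGen (fun a b => Adj S a b ∧ b ∈ T ∪ B) x0 c →
      c ∈ B ∨ ∃ x ∈ B, ∃ y, Adj S x y ∧ Pth S T y c := by
    intro c h
    induction h with
    | refl => exact Or.inl hx0
    | @tail c e _ h3 ih =>
      by_cases he : e ∈ B
      · exact Or.inl he
      · have heT : e ∈ T := h3.2.resolve_right he
        right
        rcases ih with ih | ⟨x, hx, y, hxy, hy⟩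
        · exact ⟨c, ih, e, h3.1, Pth.refl heT⟩
        · exact ⟨x, hx, y, hxy, hy.tail h3.1 heT⟩
  exact (key b h2).resolve_left hb

theorem clu_self {T B : Set ℂ} {b : ℂ} (h : b ∈ B) : b ∈ Clu S T B :=
  ⟨b, h, Pth.refl (Or.inr h)⟩

theorem clu_of {T B : Set ℂ} {x y b : ℂ} (hx : x ∈ B) (hxy : Adj S x y) (h : Pth S T y b) :
    b ∈ Clu S T B :=
  ⟨x, hx, (Pth.single (Or.inr hx) hxy (Or.inl h.1)).trans (h.mono subset_union_left)⟩

/-- the hypotheses on two labellings; `c l` = mark, `o l` = the class opposite to it -/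
structure Shift (S : Finset ℂ) (A A' : ZMod 3 → Set ℂ) (c : ZMod 3 → ℂ) (o : ZMod 3 → ZMod 3)
    (d r R0 : ℝ) : Prop where
  gp : GP (S : Set ℂ)
  sub : ∀ i, A i ⊆ (S : Set ℂ)
  fre : fr S A = fr S A'
  agree : ∀ x, Vis S A x → (∀ l, r < ‖x - c l‖) → ∀ m, x ∈ A m → x ∈ A' m
  far : ∀ l x, Vis S A x → ‖x - c l‖ < R0 → x ∉ A (o l)
  edge : ∀ a b, Adj S a b → b ∈ fr S A → ‖a - b‖ ≤ d
  nc : ∀ t, ¬ CtrT S A t

theorem third : ∀ i j k m : ZMod 3, i ≠ j → i ≠ k → j ≠ k → m = i ∨ m = j ∨ m = k := by decide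

theorem not_fr {i : ZMod 3} {x : ℂ} (h : x ∈ A i) : x ∉ fr S A := fun h' => h'.2 i h

theorem rtri (a b x : ℂ) : ‖a - x‖ ≤ ‖a - b‖ + ‖b - x‖ := by
  have := norm_add_le (a - b) (b - x)
  rwa [sub_add_sub_cancel] at this

/-- one end of a hit: the cluster of the other labelling, or near a mark, or an arm -/
theorem side_or {c : ZMod 3 → ℂ} {o : ZMod 3 → ZMod 3} {d r R R0 : ℝ}
    (H : Shift S A A' c o d r R0) (hr : r ≤ R) {i : ZMod 3} {W : Set ℂ}
    (hW : W ⊆ fr S A) {b : ℂ} (hb : b ∈ Clu S W (A i)) (hvis : b ∈ fr S A ∨ Vis S A b)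
    (hno : b ∉ Clu S W (A' i)) :
    ∃ l, ‖b - c l‖ ≤ R ∨ SArm S W (c l) (r + d) R := by
  by_cases h1 : b ∈ A i
  · have hv : Vis S A b := hvis.resolve_left (not_fr h1)
    have h2 : b ∉ A' i := fun h => hno (clu_self h)
    by_contra hcon
    push Not at hcon
    exact h2 (H.agree b hv (fun l => lt_of_le_of_lt hr (hcon l).1) i h1)
  · obtain ⟨x, hx, y, hxy, hy⟩ := clu_last hb h1
    have hyW : y ∈ W := hy.1
    have hv : Vis S A x := ⟨H.sub i hx, not_fr hx, y, hW hyW, hxy⟩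
    have h2 : x ∉ A' i := fun h => hno (clu_of h hxy hy)
    have h3 : ∃ l, ‖x - c l‖ ≤ r := by
      by_contra hcon
      push Not at hcon
      exact h2 (H.agree x hv hcon i hx)
    obtain ⟨l, h3⟩ := h3
    have h4 := H.edge x y hxy (hW hyW)
    rw [norm_sub_rev] at h4
    refine ⟨l, ?_⟩
    by_cases h5 : ‖b - c l‖ ≤ R
    · exact Or.inl h5
    · right
      refine ⟨y, b, ?_, (not_le.1 h5).le, hy⟩
      have := rtri y x (c l)
      linarith

/-- one end of a hit near a mark whose opposite class is the class of this end: an arm -/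
theorem side_far {c : ZMod 3 → ℂ} {o : ZMod 3 → ZMod 3} {d r R R0 : ℝ}
    (H : Shift S A A' c o d r R0) (hR : R + 2 * d < R0) {l : ZMod 3} {W : Set ℂ}
    (hW : W ⊆ fr S A) {b : ℂ} (hb : b ∈ Clu S W (A (o l))) (hvis : b ∈ fr S A ∨ Vis S A b)
    (hn : ‖b - c l‖ ≤ R + 2 * d) : SArm S W (c l) (R + 2 * d) (R0 - d) := by
  by_cases h1 : b ∈ A (o l)
  · exact absurd h1 (H.far l b (hvis.resolve_left (not_fr h1)) (by linarith))
  · obtain ⟨x, hx, y, hxy, hy⟩ := clu_last hb h1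
    have hyW : y ∈ W := hy.1
    have hv : Vis S A x := ⟨H.sub _ hx, not_fr hx, y, hW hyW, hxy⟩
    have h3 : R0 ≤ ‖x - c l‖ := by
      by_contra hcon
      exact H.far l x hv (not_le.1 hcon) hx
    have h4 := H.edge x y hxy (hW hyW)
    refine ⟨b, y, hn, ?_, hy.symm⟩
    have := rtri x y (c l)
    linarith

/-- **label shift** -/
theorem shift_hit {c : ZMod 3 → ℂ} {o : ZMod 3 → ZMod 3} {d r R R0 : ℝ}
    (H : Shift S A A' c o d r R0) (hr : r ≤ R) (hR : R + 2 * d < R0)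
    {i j k : ZMod 3} (hij : i ≠ j) (hik : i ≠ k) (hjk : j ≠ k) {T : Set ℂ} {b v u : ℂ}
    (h : Hit S A i j k T b v u) :
    Hit S A' i j k T b v u ∨ ∃ l,
      SArm S (fr S A ∩ T) (c l) (r + d) R ∨ SArm S (fr S A \ T) (c l) (r + d) R ∨
      SArm S (fr S A ∩ T) (c l) (R + 2 * d) (R0 - d) ∨
      SArm S (fr S A \ T) (c l) (R + 2 * d) (R0 - d) := by
  by_contra hcon
  push Not at hcon
  obtain ⟨hno, harm⟩ := hcon
  -- adjacency
  have hbv : Adj S b v := by
    rcases h.tri with h1 | h1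
    · exact adj_tri h1
    · exact (adj_tri h1).symm
  have hvu : Adj S v u := by
    rcases h.tri with h1 | h1
    · exact adj_tri' H.gp h1
    · exact (adj_tri'' H.gp h1).symm
  have hbu : Adj S b u := by
    rcases h.tri with h1 | h1
    · exact (adj_tri'' H.gp h1).symm
    · exact adj_tri' H.gp h1
  have huF : u ∉ fr S A := not_fr h.hu
  have hnf : ∀ x, x ∈ S → x ∉ fr S A → ∃ m, x ∈ A m := by
    intro x hx hxf
    by_contra hc
    push Not at hc
    exact hxf ⟨hx, hc⟩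
  have hbS := hbv.mem.1
  have hvS := hbv.mem.2
  -- a class site which is not free and in the cluster of its own class
  have hclu : ∀ {W : Set ℂ} {m : ZMod 3} {x : ℂ}, W ⊆ fr S A → x ∈ Clu S W (A m) →
      x ∉ fr S A → x ∈ A m := by
    intro W m x hW hx hxf
    by_contra hc
    obtain ⟨x', -, y, -, hy⟩ := clu_last hx hc
    exact hxf (hW hy.snd)
  have hW1 : fr S A ∩ T ⊆ fr S A := inter_subset_left
  have hW2 : fr S A \ T ⊆ fr S A := sdiff_subset
  have hor : b ∈ fr S A ∨ v ∈ fr S A := by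
    by_contra hc
    push Not at hc
    have hb' := hclu hW1 h.hb hc.1
    have hv' := hclu hW2 h.hv hc.2
    rcases h.tri with h1 | h1
    · refine H.nc _ ⟨h1, fun m => ?_⟩
      rcases third i j k m hij hik hjk with rfl | rfl | rfl
      · exact ⟨b, Or.inl rfl, hb'⟩
      · exact ⟨v, Or.inr (Or.inl rfl), hv'⟩
      · exact ⟨u, Or.inr (Or.inr rfl), h.hu⟩
    · refine H.nc _ ⟨h1, fun m => ?_⟩
      rcases third i j k m hij hik hjk with rfl | rfl | rfl
      · exact ⟨b, Or.inr (Or.inl rfl), hb'⟩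
      · exact ⟨v, Or.inl rfl, hv'⟩
      · exact ⟨u, Or.inr (Or.inr rfl), h.hu⟩
  have huV : Vis S A u := by
    rcases hor with h1 | h1
    · exact ⟨hbu.mem.2, huF, b, h1, hbu.symm⟩
    · exact ⟨hbu.mem.2, huF, v, h1, hvu.symm⟩
  have hbV : b ∈ fr S A ∨ Vis S A b := by
    by_cases h1 : b ∈ fr S A
    · exact Or.inl h1
    · exact Or.inr ⟨hbS, h1, v, hor.resolve_left h1, hbv⟩
  have hvV : v ∈ fr S A ∨ Vis S A v := by
    by_cases h1 : v ∈ fr S A
    · exact Or.inl h1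
    · exact Or.inr ⟨hvS, h1, b, hor.resolve_right h1, hbv.symm⟩
  -- distances inside the triangle
  have hdist : ‖b - v‖ ≤ d ∧ ‖b - u‖ ≤ 2 * d ∧ ‖v - u‖ ≤ 2 * d := by
    rcases hor with h1 | h1
    · have e1 := H.edge v b hbv.symm h1
      have e2 := H.edge u b hbu.symm h1
      rw [norm_sub_rev] at e1 e2
      have hd : 0 ≤ d := (norm_nonneg _).trans e1
      have e3 := rtri v b u
      rw [norm_sub_rev v b] at e3
      exact ⟨e1, by linarith, by linarith⟩
    · have e1 := H.edge b v hbv h1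
      have e2 := H.edge u v hvu.symm h1
      rw [norm_sub_rev] at e2
      have hd : 0 ≤ d := (norm_nonneg _).trans e1
      have e3 := rtri b v u
      exact ⟨e1, by linarith, by linarith⟩
  -- near a mark
  have hnear : ∃ l, ‖b - c l‖ ≤ R ∨ ‖v - c l‖ ≤ R ∨ ‖u - c l‖ ≤ R := by
    by_contra hc
    push Not at hc
    apply hno
    have hcl1 : fr S A' ∩ T = fr S A ∩ T := by rw [H.fre]
    have hcl2 : fr S A' \ T = fr S A \ T := by rw [H.fre]
    refine ⟨h.tri, ?_, ?_, ?_⟩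
    · rw [hcl1]
      by_contra hb
      obtain ⟨l, hl | hl⟩ := side_or H hr hW1 h.hb hbV hb
      · exact absurd hl (not_le.2 (hc l).1)
      · exact (harm l).1 hl
    · rw [hcl2]
      by_contra hv
      obtain ⟨l, hl | hl⟩ := side_or H hr hW2 h.hv hvV hv
      · exact absurd hl (not_le.2 (hc l).2.1)
      · exact (harm l).2.1 hl
    · exact H.agree u huV (fun l => lt_of_le_of_lt hr (hc l).2.2) k h.hu
  obtain ⟨l, hl⟩ := hnear
  have hall : ‖b - c l‖ ≤ R + 2 * d ∧ ‖v - c l‖ ≤ R + 2 * d ∧ ‖u - c l‖ ≤ R + 2 * d := by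
    obtain ⟨d1, d2, d3⟩ := hdist
    have hd : 0 ≤ d := (norm_nonneg _).trans d1
    have d1' := d1
    have d2' := d2
    have d3' := d3
    rw [norm_sub_rev] at d1' d2' d3'
    rcases hl with h1 | h1 | h1
    · have a1 := rtri v b (c l)
      have a2 := rtri u b (c l)
      exact ⟨by linarith, by linarith, by linarith⟩
    · have a1 := rtri b v (c l)
      have a2 := rtri u v (c l)
      exact ⟨by linarith, by linarith, by linarith⟩
    · have a1 := rtri b u (c l)
      have a2 := rtri v u (c l)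
      exact ⟨by linarith, by linarith, by linarith⟩
  rcases third i j k (o l) hij hik hjk with e | e | e
  · exact (harm l).2.2.1 (side_far H hR hW1 (e ▸ h.hb) hbV hall.1)
  · exact (harm l).2.2.2 (side_far H hR hW2 (e ▸ h.hv) hvV hall.2.1)
  · exact H.far l u huV (lt_of_le_of_lt hall.2.2 hR) (e ▸ h.hu)

/-- the vertex of a hit on the third class is visible -/
theorem hit_vis (hS : GP (S : Set ℂ)) (hnc : ∀ t, ¬ CtrT S A t)
    {i j k : ZMod 3} (hij : i ≠ j) (hik : i ≠ k) (hjk : j ≠ k) {T : Set ℂ} {b v u : ℂ}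
    (h : Hit S A i j k T b v u) : Vis S A u := by
  have hbv : Adj S b v := by
    rcases h.tri with h1 | h1
    · exact adj_tri h1
    · exact (adj_tri h1).symm
  have hvu : Adj S v u := by
    rcases h.tri with h1 | h1
    · exact adj_tri' hS h1
    · exact (adj_tri'' hS h1).symm
  have hbu : Adj S b u := by
    rcases h.tri with h1 | h1
    · exact (adj_tri'' hS h1).symm
    · exact adj_tri' hS h1
  have hclu : ∀ {W : Set ℂ} {m : ZMod 3} {x : ℂ}, W ⊆ fr S A → x ∈ Clu S W (A m) →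
      x ∉ fr S A → x ∈ A m := by
    intro W m x hW hx hxf
    by_contra hc
    obtain ⟨x', -, y, -, hy⟩ := clu_last hx hc
    exact hxf (hW hy.snd)
  have hor : b ∈ fr S A ∨ v ∈ fr S A := by
    by_contra hc
    push Not at hc
    have hb' := hclu inter_subset_left h.hb hc.1
    have hv' := hclu sdiff_subset h.hv hc.2
    rcases h.tri with h1 | h1
    · refine hnc _ ⟨h1, fun m => ?_⟩
      rcases third i j k m hij hik hjk with rfl | rfl | rfl
      · exact ⟨b, Or.inl rfl, hb'⟩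
      · exact ⟨v, Or.inr (Or.inl rfl), hv'⟩
      · exact ⟨u, Or.inr (Or.inr rfl), h.hu⟩
    · refine hnc _ ⟨h1, fun m => ?_⟩
      rcases third i j k m hij hik hjk with rfl | rfl | rfl
      · exact ⟨b, Or.inr (Or.inl rfl), hb'⟩
      · exact ⟨v, Or.inl rfl, hv'⟩
      · exact ⟨u, Or.inr (Or.inr rfl), h.hu⟩
  rcases hor with h1 | h1
  · exact ⟨hbu.mem.2, not_fr h.hu, b, h1, hbu.symm⟩
  · exact ⟨hbu.mem.2, not_fr h.hu, v, h1, hvu.symm⟩

/-! ### probability -/

theorem carm_of {W : Set ℂ} {β : Finset ℂ} {p : ℂ} {r1 r2 : ℝ} (hW : W ⊆ (β : Set ℂ))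
    (h : SArm S W p r1 r2) : CArm S β p r1 r2 := by
  obtain ⟨x, y, h1, h2, h3⟩ := h
  refine ⟨x, y, hW h3.1, hW h3.snd, h1, h2, ?_⟩
  have key : ∀ z, Relation.ReflTransGen (fun a b => Adj S a b ∧ b ∈ W) x z →
      z ∈ W ∧ ConnIn S β x z := by
    intro z hz
    induction hz with
    | refl => exact ⟨h3.1, Relation.ReflTransGen.refl⟩
    | tail _ hs ih => exact ⟨hs.2, ih.2.tail ⟨hs.1, hW ih.1, hW hs.2⟩⟩
  exact (key y h3.2).2

/-- the arm event -/
def ArmE (S V : Finset ℂ) (c : ZMod 3 → ℂ) (d r R R0 : ℝ) (β : Finset ℂ) : Prop :=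
  ∃ l ∈ (Finset.univ : Finset (ZMod 3)), ((CArm S β (c l) (r + d) R ∨
    CArm S (V \ β) (c l) (r + d) R) ∨ (CArm S β (c l) (R + 2 * d) (R0 - d) ∨
    CArm S (V \ β) (c l) (R + 2 * d) (R0 - d)))

theorem armE_pr {V : Finset ℂ} {c : ZMod 3 → ℂ} {d r R R0 q : ℝ}
    (h1 : ∀ l, pr V (fun β => CArm S β (c l) (r + d) R) ≤ q)
    (h2 : ∀ l, pr V (fun β => CArm S β (c l) (R + 2 * d) (R0 - d)) ≤ q) :
    pr V (ArmE S V c d r R R0) ≤ 12 * q := by
  have h3 : pr V (ArmE S V c d r R R0) ≤ ∑ l ∈ (Finset.univ : Finset (ZMod 3)),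
      pr V (fun β => ((CArm S β (c l) (r + d) R ∨
        CArm S (V \ β) (c l) (r + d) R) ∨ (CArm S β (c l) (R + 2 * d) (R0 - d) ∨
        CArm S (V \ β) (c l) (R + 2 * d) (R0 - d)))) := Crest.Agent.R143.Harx315.pr_exists_le _ _
  refine h3.trans ?_
  have h4 : ∀ l ∈ (Finset.univ : Finset (ZMod 3)), pr V (fun β => ((CArm S β (c l) (r + d) R ∨
        CArm S (V \ β) (c l) (r + d) R) ∨ (CArm S β (c l) (R + 2 * d) (R0 - d) ∨
        CArm S (V \ β) (c l) (R + 2 * d) (R0 - d)))) ≤ 4 * q := by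
    intro l _
    have e1 : pr V (fun β => CArm S (V \ β) (c l) (r + d) R) ≤ q := by
      rw [Crest.Agent.R143.Harx315.pr_flip V fun β => CArm S β (c l) (r + d) R]
      exact h1 l
    have e2 : pr V (fun β => CArm S (V \ β) (c l) (R + 2 * d) (R0 - d)) ≤ q := by
      rw [Crest.Agent.R143.Harx315.pr_flip V fun β => CArm S β (c l) (R + 2 * d) (R0 - d)]
      exact h2 l
    refine Crest.Agent.R143.Harx315.pr_or_le.trans ?_
    have e3 : pr V (fun β => CArm S β (c l) (r + d) R ∨ CArm S (V \ β) (c l) (r + d) R) ≤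
      _ + _ := Crest.Agent.R143.Harx315.pr_or_le
    have e4 : pr V (fun β => CArm S β (c l) (R + 2 * d) (R0 - d) ∨
      CArm S (V \ β) (c l) (R + 2 * d) (R0 - d)) ≤ _ + _ := Crest.Agent.R143.Harx315.pr_or_le
    have e5 := h1 l
    have e6 := h2 l
    linarith
  refine (Finset.sum_le_sum h4).trans ?_
  rw [Finset.sum_const, Finset.card_univ, ZMod.card, nsmul_eq_mul]
  push_cast
  linarith

theorem ne12 : ∀ i : ZMod 3, i + 1 ≠ i + 2 := by decide

theorem ne1 : ∀ i : ZMod 3, i + 1 ≠ i := by decide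

theorem ne2 : ∀ i : ZMod 3, i + 2 ≠ i := by decide

/-- the same oriented hit, or an arm -/
theorem shift_hitO {c : ZMod 3 → ℂ} {o : ZMod 3 → ZMod 3} {d r R R0 : ℝ}
    (H : Shift S A A' c o d r R0) (hr : r ≤ R) (hR : R + 2 * d < R0) {i : ZMod 3} {T : Finset ℂ}
    {t : ℂ × ℂ × ℂ} (h : HitO S A i (T : Set ℂ) t) :
    HitO S A' i (T : Set ℂ) t ∨ ArmE S (ff S A) c d r R R0 T := by
  obtain ⟨h1, h2⟩ := (hitO_iff H.gp).1 h
  have e1 := ne12 i
  have e2 := ne1 i
  have e3 := ne2 i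
  have hw1 : fr S A ∩ (T : Set ℂ) ⊆ (T : Set ℂ) := inter_subset_right
  have hw2 : fr S A \ (T : Set ℂ) ⊆ ((ff S A \ T : Finset ℂ) : Set ℂ) := by
    intro x hx
    rw [Finset.coe_sdiff]
    exact ⟨mem_ff.2 hx.1, hx.2⟩
  rcases shift_hit H hr hR e1 e2 e3 h1 with h3 | ⟨l, h3⟩
  · left
    exact (hitO_iff H.gp).2 ⟨h3, h2⟩
  · right
    refine ⟨l, Finset.mem_univ _, ?_⟩
    rcases h3 with h3 | h3 | h3 | h3
    · exact Or.inl (Or.inl (carm_of hw1 h3))
    · exact Or.inl (Or.inr (carm_of hw2 h3))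
    · exact Or.inr (Or.inl (carm_of hw1 h3))
    · exact Or.inr (Or.inr (carm_of hw2 h3))

theorem ff_eq (h : fr S A = fr S A') : ff S A = ff S A' := by
  ext v
  rw [mem_ff, mem_ff, h]

/-- **`|T - T'|` for two labellings with the same free sites** -/
theorem shift_TS {c : ZMod 3 → ℂ} {o : ZMod 3 → ZMod 3} {d r R R0 : ℝ}
    (H : Shift S A A' c o d r R0) (hr : r ≤ R) (hR : R + 2 * d < R0)
    (hnc' : ∀ t, ¬ CtrT S A' t)
    (hX : Hex S A) (hX' : Hex S A') {z : ℂ → ℂ} {z0 : ℂ} {B q : ℝ} (hB : 0 ≤ B)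
    (hz : ∀ v, v ∈ S → v ∉ fr S A → (∃ y ∈ fr S A, Adj S v y) → ‖z v - z0‖ ≤ B)
    (h1 : ∀ l, pr (ff S A) (fun β => CArm S β (c l) (r + d) R) ≤ q)
    (h2 : ∀ l, pr (ff S A) (fun β => CArm S β (c l) (R + 2 * d) (R0 - d)) ≤ q) :
    ‖TS S A z - TS S A' z‖ ≤ 216 * B * q := by
  have hff := ff_eq H.fre
  have key : ∀ i, ‖Ey S A z i - Ey S A' z i‖ ≤ 24 * B * q := by
    intro i
    rw [Ey_eq hX, Ey_eq hX', ← hff, ← exC_sub]
    refine (norm_exC_le _ _).trans ?_
    have e1 := ne12 i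
    have e2 := ne1 i
    have e3 := ne2 i
    have hle : ∀ T ∈ (ff S A).powerset, ‖z (hv S A i (T : Set ℂ)) - z (hv S A' i (T : Set ℂ))‖ ≤
        2 * B * (if ArmE S (ff S A) c d r R R0 T then 1 else 0) := by
      intro T hT
      have hT := Finset.mem_powerset.1 hT
      obtain ⟨t, ht, -⟩ := hX i T hT
      obtain ⟨t', ht', hu'⟩ := hX' i T (hff ▸ hT)
      split_ifs with harm
      · have a1 := hit_vis H.gp H.nc e1 e2 e3 ((hitO_iff H.gp).1 ht).1
        have a2 := hit_vis H.gp hnc' e1 e2 e3 ((hitO_iff H.gp).1 ht').1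
        rw [hv_eq hX hT ht, hv_eq hX' (hff ▸ hT) ht']
        have b1 := hz _ a1.1 a1.2.1 a1.2.2
        have b2 : ‖z t'.1 - z0‖ ≤ B := by
          refine hz _ a2.1 ?_ ?_
          · rw [H.fre]; exact a2.2.1
          · rw [H.fre]; exact a2.2.2
        have b3 : ‖z t.1 - z t'.1‖ ≤ ‖z t.1 - z0‖ + ‖z t'.1 - z0‖ := by
          have := norm_sub_le (z t.1 - z0) (z t'.1 - z0)
          rwa [sub_sub_sub_cancel_right] at this
        linarith
      · have h3 : HitO S A' i (T : Set ℂ) t := (shift_hitO H hr hR ht).resolve_right harm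
        rw [hv_eq hX hT ht, hv_eq hX' (hff ▸ hT) h3, sub_self, norm_zero, mul_zero]
    calc (∑ T ∈ (ff S A).powerset, ‖z (hv S A i (T : Set ℂ)) - z (hv S A' i (T : Set ℂ))‖) /
          2 ^ (ff S A).card
        ≤ (∑ T ∈ (ff S A).powerset, 2 * B * (if ArmE S (ff S A) c d r R R0 T then 1 else 0)) /
          2 ^ (ff S A).card := by
          gcongr with T hT
          exact hle T hT
      _ = 2 * B * pr (ff S A) (ArmE S (ff S A) c d r R R0) := by
          rw [← Finset.mul_sum, mul_div_assoc, ← Crest.Agent.R143.XW1x315.ex_ind]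
          rfl
      _ ≤ 2 * B * (12 * q) := by
          gcongr
          exact armE_pr h1 h2
      _ = 24 * B * q := by ring
  unfold TS
  rw [← mul_sub, ← Finset.sum_sub_distrib, norm_mul, Complex.norm_ofNat]
  have h3 : ‖∑ i : ZMod 3, (omz i * Ey S A z i - omz i * Ey S A' z i)‖ ≤ 3 * (24 * B * q) := by
    refine (norm_sum_le _ _).trans ?_
    refine (Finset.sum_le_sum (g := fun _ => 24 * B * q) fun i _ => ?_).trans ?_
    · rw [← mul_sub, norm_mul, norm_omz, one_mul]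
      exact key i
    · rw [Finset.sum_const, Finset.card_univ, ZMod.card, nsmul_eq_mul]
      push_cast
      exact le_rfl
  linarith

end Crest.Agent.R143.LShx643
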