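import Crest.Agent.R143.LabD_755
import Crest.Agent.R143.TentM_951

/-!
# Row 143 (S0194), CONT, (K7), BASE part 1 (helper951): frames and distances

* `quadLB`, `quadLF`, `quadRF` : the cells around a vertex in the frame of an edge
* `turn` : straight, left turn or right turn
* `ring_ball`, `rad_ball`, `cen_ball` : (BA), (BB), (BC)
* `cen_far`, `rs_near` : distances
-/

set_option autoImplicit false

noncomputable section

namespace Crest.Agent.R143.LabBx951

open Set Complex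
open Crest.Agent.R158 Crest.Agent.R158.Sp896
open Crest.Agent.R143.ToolWx838
open Crest.Agent.R143.Tenx416 (Pg)
open Crest.Agent.R143.LabDx755
open Crest.Agent.R143.TentMx951 (mem_sq re_im_lt mem_ed)

/-- direction of a step as a complex number -/
def cv (a b : V) : ℂ := ⟨((b.1 - a.1 : ℤ) : ℝ), ((b.2 - a.2 : ℤ) : ℝ)⟩

theorem ev_eq (v : ℕ → V) (k : ℕ) : ev v k = cv (v k) (v (k + 1)) := rfl

/-- forward neighbour -/
def fw (a p : V) : V := (2 * p.1 - a.1, 2 * p.2 - a.2)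

/-- left neighbour -/
def lt (a p : V) : V := (p.1 - (p.2 - a.2), p.2 + (p.1 - a.1))

theorem cv_norm {a p : V} (h : Adj a p) : ‖cv a p‖ = 1 := by
  rw [Complex.norm_eq_sqrt_sq_add_sq, Real.sqrt_eq_one]
  unfold cv
  rcases h with ⟨h1, h2⟩ | ⟨h1, h2⟩ | ⟨h1, h2⟩ | ⟨h1, h2⟩ <;> rw [h1, h2] <;> push_cast <;> ring

theorem cv_ne {a p : V} (h : Adj a p) : cv a p ≠ 0 := by
  intro h0
  have := cv_norm h
  rw [h0, norm_zero] at this
  exact zero_ne_one this

theorem lin_mul {s : ℝ} {a b : V} {z : ℂ} {w : ℂ} (h : w = pt s b + z * cv a b) :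
    w.re = s * b.1 + (z.re * (b.1 - a.1) - z.im * (b.2 - a.2)) ∧
    w.im = s * b.2 + (z.re * (b.2 - a.2) + z.im * (b.1 - a.1)) := by
  subst h
  constructor
  · simp [pt, cv]
  · simp [pt, cv]

theorem quadLB {s : ℝ} {a p : V} (h : Adj a p) {w ζ : ℂ} (hw : w = pt s p + ζ * cv a p)
    (h1 : -s ≤ ζ.re) (h2 : ζ.re ≤ 0) (h3 : 0 ≤ ζ.im) (h4 : ζ.im ≤ s) : w ∈ sq s (lc a p) := by
  obtain ⟨e1, e2⟩ := lin_mul hw
  rw [mem_sq, e1, e2]
  obtain ⟨a1, a2⟩ := a
  obtain ⟨p1, p2⟩ := p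
  rcases h with ⟨k1, k2⟩ | ⟨k1, k2⟩ | ⟨k1, k2⟩ | ⟨k1, k2⟩ <;> simp only at k1 k2 <;> subst k1 k2
  · have e : lc (a1, p2) (a1 + 1, p2) = (a1, p2) := by unfold lc; ext <;> simp only <;> omega
    rw [e]
    push_cast
    refine ⟨?_, ?_, ?_, ?_⟩ <;> linarith
  · have e : lc (a1, p2) (a1 - 1, p2) = (a1 - 1, p2 - 1) := by unfold lc; ext <;> simp only <;> omega
    rw [e]
    push_cast
    refine ⟨?_, ?_, ?_, ?_⟩ <;> linarith
  · have e : lc (p1, a2) (p1, a2 + 1) = (p1 - 1, a2) := by unfold lc; ext <;> simp only <;> omega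
    rw [e]
    push_cast
    refine ⟨?_, ?_, ?_, ?_⟩ <;> linarith
  · have e : lc (p1, a2) (p1, a2 - 1) = (p1, a2 - 1) := by unfold lc; ext <;> simp only <;> omega
    rw [e]
    push_cast
    refine ⟨?_, ?_, ?_, ?_⟩ <;> linarith

theorem quadLF {s : ℝ} {a p : V} (h : Adj a p) {w ζ : ℂ} (hw : w = pt s p + ζ * cv a p)
    (h1 : 0 ≤ ζ.re) (h2 : ζ.re ≤ s) (h3 : 0 ≤ ζ.im) (h4 : ζ.im ≤ s) :
    w ∈ sq s (lc p (fw a p)) := by
  obtain ⟨e1, e2⟩ := lin_mul hw
  rw [mem_sq, e1, e2]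
  obtain ⟨a1, a2⟩ := a
  obtain ⟨p1, p2⟩ := p
  rcases h with ⟨k1, k2⟩ | ⟨k1, k2⟩ | ⟨k1, k2⟩ | ⟨k1, k2⟩ <;> simp only at k1 k2 <;> subst k1 k2
  · have e : lc (a1 + 1, p2) (fw (a1, p2) (a1 + 1, p2)) = (a1 + 1, p2) := by
      unfold lc fw; ext <;> simp only <;> omega
    rw [e]
    push_cast
    refine ⟨?_, ?_, ?_, ?_⟩ <;> linarith
  · have e : lc (a1 - 1, p2) (fw (a1, p2) (a1 - 1, p2)) = (a1 - 2, p2 - 1) := by
      unfold lc fw; ext <;> simp only <;> omega
    rw [e]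
    push_cast
    refine ⟨?_, ?_, ?_, ?_⟩ <;> linarith
  · have e : lc (p1, a2 + 1) (fw (p1, a2) (p1, a2 + 1)) = (p1 - 1, a2 + 1) := by
      unfold lc fw; ext <;> simp only <;> omega
    rw [e]
    push_cast
    refine ⟨?_, ?_, ?_, ?_⟩ <;> linarith
  · have e : lc (p1, a2 - 1) (fw (p1, a2) (p1, a2 - 1)) = (p1, a2 - 2) := by
      unfold lc fw; ext <;> simp only <;> omega
    rw [e]
    push_cast
    refine ⟨?_, ?_, ?_, ?_⟩ <;> linarith

theorem quadRF {s : ℝ} {a p : V} (h : Adj a p) {w ζ : ℂ} (hw : w = pt s p + ζ * cv a p)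
    (h1 : 0 ≤ ζ.re) (h2 : ζ.re ≤ s) (h3 : -s ≤ ζ.im) (h4 : ζ.im ≤ 0) :
    w ∈ sq s (rc p (fw a p)) := by
  obtain ⟨e1, e2⟩ := lin_mul hw
  rw [mem_sq, e1, e2]
  obtain ⟨a1, a2⟩ := a
  obtain ⟨p1, p2⟩ := p
  rcases h with ⟨k1, k2⟩ | ⟨k1, k2⟩ | ⟨k1, k2⟩ | ⟨k1, k2⟩ <;> simp only at k1 k2 <;> subst k1 k2
  · have e : rc (a1 + 1, p2) (fw (a1, p2) (a1 + 1, p2)) = (a1 + 1, p2 - 1) := by
      unfold rc fw; ext <;> simp only <;> omega
    rw [e]
    push_cast
    refine ⟨?_, ?_, ?_, ?_⟩ <;> linarith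
  · have e : rc (a1 - 1, p2) (fw (a1, p2) (a1 - 1, p2)) = (a1 - 2, p2) := by
      unfold rc fw; ext <;> simp only <;> omega
    rw [e]
    push_cast
    refine ⟨?_, ?_, ?_, ?_⟩ <;> linarith
  · have e : rc (p1, a2 + 1) (fw (p1, a2) (p1, a2 + 1)) = (p1, a2 + 1) := by
      unfold rc fw; ext <;> simp only <;> omega
    rw [e]
    push_cast
    refine ⟨?_, ?_, ?_, ?_⟩ <;> linarith
  · have e : rc (p1, a2 - 1) (fw (p1, a2) (p1, a2 - 1)) = (p1 - 1, a2 - 2) := by
      unfold rc fw; ext <;> simp only <;> omega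
    rw [e]
    push_cast
    refine ⟨?_, ?_, ?_, ?_⟩ <;> linarith

/-- straight, left turn or right turn -/
theorem turn {F : Set V} {a p b : V} (h : Adj a p) (h' : Adj p b) (hl : lc a p ∈ F)
    (hr' : rc p b ∉ F) :
    (cv p b = cv a p ∧ b = fw a p) ∨ (cv p b = I * cv a p ∧ lc p b = lc a p) ∨
    (cv p b = -I * cv a p ∧ lc p b = rc p (fw a p) ∧ b ≠ lt a p) := by
  obtain ⟨a1, a2⟩ := a
  obtain ⟨p1, p2⟩ := p
  obtain ⟨b1, b2⟩ := b
  rcases h with ⟨k1, k2⟩ | ⟨k1, k2⟩ | ⟨k1, k2⟩ | ⟨k1, k2⟩ <;> simp only at k1 k2 <;>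
    subst k1 k2 <;>
    rcases h' with ⟨k1, k2⟩ | ⟨k1, k2⟩ | ⟨k1, k2⟩ | ⟨k1, k2⟩ <;> simp only at k1 k2 <;>
    subst k1 k2
  all_goals first
    | (left
       refine ⟨?_, ?_⟩
       · unfold cv; apply Complex.ext <;> simp
       · unfold fw; ext <;> simp only <;> omega
       done)
    | (right; left
       refine ⟨?_, ?_⟩
       · unfold cv; apply Complex.ext <;> simp
       · unfold lc; ext <;> simp only <;> omega
       done)
    | (right; right
       refine ⟨?_, ?_, ?_⟩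
       · unfold cv; apply Complex.ext <;> simp
       · unfold lc rc fw; ext <;> simp only <;> omega
       · unfold lt; rw [Ne, Prod.mk.injEq]; simp only; omega
       done)
    | (exfalso
       apply hr'
       convert hl using 1
       unfold lc rc; ext <;> simp only <;> omega)

theorem adj_lt {a p : V} (h : Adj a p) : Adj p (lt a p) ∧ lc p (lt a p) = lc a p ∧
    rc p (lt a p) = lc p (fw a p) := by
  obtain ⟨a1, a2⟩ := a
  obtain ⟨p1, p2⟩ := p
  rcases h with ⟨k1, k2⟩ | ⟨k1, k2⟩ | ⟨k1, k2⟩ | ⟨k1, k2⟩ <;> simp only at k1 k2 <;> subst k1 k2 <;>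
  · refine ⟨?_, ?_, ?_⟩
    · unfold Adj lt; simp only; omega
    · unfold lc lt; ext <;> simp only <;> omega
    · unfold lc rc lt fw; ext <;> simp only <;> omega

/-! ### periodicity -/

theorem per_mod {F : Set V} {N : ℕ} {v : ℕ → V} (h : Cyc F N v) (k : ℕ) : v (k % N) = v k :=
  Function.Periodic.map_mod_nat (f := v) h.per k

theorem pos_N {F : Set V} {N : ℕ} {v : ℕ → V} (h : Cyc F N v) : 0 < N := by
  have := h.four_le; omega

theorem mod_eq {F : Set V} {N : ℕ} {v : ℕ → V} (h : Cyc F N v) {j k : ℕ} (e : v j = v k) :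
    j % N = k % N :=
  h.inj _ (Nat.mod_lt _ (pos_N h)) _ (Nat.mod_lt _ (pos_N h)) (by rw [per_mod h, per_mod h, e])

theorem succ_eq {F : Set V} {N : ℕ} {v : ℕ → V} (h : Cyc F N v) {j k : ℕ} (e : v j = v k) :
    v (j + 1) = v (k + 1) := by
  have e1 := mod_eq h e
  rw [← per_mod h (j + 1), ← per_mod h (k + 1), Nat.add_mod, e1, ← Nat.add_mod]

/-- the outer corner cell at a right turn -/
theorem diag {F : Set V} {N : ℕ} {v : ℕ → V} (h : Cyc F N v) (k : ℕ)
    (hne : v (k + 1 + 1) ≠ lt (v k) (v (k + 1))) : lc (v (k + 1)) (fw (v k) (v (k + 1))) ∈ F := by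
  by_contra hcon
  obtain ⟨h1, h2, h3⟩ := adj_lt (h.step k)
  obtain ⟨i, -, hi1, hi2⟩ := h.all _ _ h1 (by rw [h2]; exact h.left k) (by rw [h3]; exact hcon)
  exact hne (by rw [← hi2]; exact (succ_eq h hi1).symm)

theorem mem_Pg {s : ℝ} {F : Set V} {q : V} {w : ℂ} (hq : q ∈ F) (hw : w ∈ sq s q) : w ∈ Pg s F :=
  mem_iUnion₂.2 ⟨q, hq, hw⟩

/-- points of a ball in the frame of an edge -/
theorem ball_frame {s μ : ℝ} {a p : V} (h : Adj a p) {z w ζ : ℂ} (hz : z = pt s p + ζ * cv a p)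
    (hw : w ∈ Metric.ball z μ) : ∃ ξ : ℂ, w = pt s p + ξ * cv a p ∧ ζ.re - μ < ξ.re ∧
      ξ.re < ζ.re + μ ∧ ζ.im - μ < ξ.im ∧ ξ.im < ζ.im + μ := by
  have h0 := cv_ne h
  refine ⟨(w - pt s p) / cv a p, by field_simp; ring, ?_⟩
  have h1 : ‖(w - pt s p) / cv a p - ζ‖ < μ := by
    have e : (w - pt s p) / cv a p - ζ = (w - z) / cv a p := by rw [hz]; field_simp; ring
    rw [e, norm_div, cv_norm h, div_one]
    exact mem_ball_iff_norm.1 hw
  have h2 := abs_lt.1 (lt_of_le_of_lt (Complex.abs_re_le_norm _) h1)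
  have h3 := abs_lt.1 (lt_of_le_of_lt (Complex.abs_im_le_norm _) h1)
  rw [Complex.sub_re] at h2
  rw [Complex.sub_im] at h3
  refine ⟨?_, ?_, ?_, ?_⟩ <;> linarith [h2.1, h2.2, h3.1, h3.2]

/-! ### points -/

theorem pt_sub {s : ℝ} (a p : V) : pt s p - pt s a = s * cv a p := by
  apply Complex.ext
  · simp [pt, cv]; ring
  · simp [pt, cv]; ring

theorem md_eq (s : ℝ) (v : ℕ → V) (k : ℕ) :
    md s v k = pt s (v (k + 1)) - s / 2 * cv (v k) (v (k + 1)) := by
  have := pt_sub (s := s) (v k) (v (k + 1))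
  unfold md
  linear_combination (-1 / 2 : ℂ) * this

theorem md_eq' (s : ℝ) (v : ℕ → V) (k : ℕ) :
    md s v k = pt s (v k) + s / 2 * cv (v k) (v (k + 1)) := by
  have := pt_sub (s := s) (v k) (v (k + 1))
  unfold md
  linear_combination (1 / 2 : ℂ) * this

theorem seg_par {a b z : ℂ} (h : z ∈ segment ℝ a b) :
    ∃ t : ℝ, 0 ≤ t ∧ t ≤ 1 ∧ z = a + t * (b - a) := by
  rw [segment_eq_image'] at h
  obtain ⟨t, ht, rfl⟩ := h
  exact ⟨t, ht.1, ht.2, by simp⟩

theorem seg_mem {a b : ℂ} {t : ℝ} (h0 : 0 ≤ t) (h1 : t ≤ 1) : a + t * (b - a) ∈ segment ℝ a b := by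
  rw [segment_eq_image']
  exact ⟨t, ⟨h0, h1⟩, by simp⟩

/-- **(BA)** -/
theorem ring_ball {s μ : ℝ} {F : Set V} {N : ℕ} {v : ℕ → V} (hμ : 0 < μ)
    (hs : 16 * μ ≤ s) (hc : Cyc F N v) (k : ℕ) {z : ℂ} (hz : z ∈ rs s μ v k) :
    Metric.ball z μ ⊆ Pg s F := by
  intro w hw
  have hA := hc.step k
  have hL := hc.left k
  have hL' := hc.left (k + 1)
  have hT := turn hA (hc.step (k + 1)) hL (hc.right (k + 1))
  have hI : I * I = -1 := Complex.I_mul_I
  have hM : M s μ v k = pt s (v (k + 1)) + (-(s / 2 : ℝ) + μ * I) * cv (v k) (v (k + 1)) := by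
    unfold M
    rw [md_eq, ev_eq]
    push_cast
    ring
  have hM' : M s μ v (k + 1) = pt s (v (k + 1)) +
      ((s / 2 : ℝ) + μ * I) * cv (v (k + 1)) (v (k + 1 + 1)) := by
    unfold M
    rw [md_eq', ev_eq]
    push_cast
    ring
  have hW : W s μ v k = pt s (v (k + 1)) + μ * I * cv (v k) (v (k + 1)) +
      μ * I * cv (v (k + 1)) (v (k + 1 + 1)) := by
    unfold W
    rw [ev_eq, ev_eq]
    ring
  rcases hT with ⟨t1, t2⟩ | ⟨t1, t2⟩ | ⟨t1, t2, t3⟩
  · -- straight
    rw [t2] at hL'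
    rcases hz with hz | hz
    · obtain ⟨t, h0, h1, hz⟩ := seg_par hz
      have hz' : z = pt s (v (k + 1)) +
          (⟨-(s / 2) * (1 - t), μ * (1 + t)⟩ : ℂ) * cv (v k) (v (k + 1)) := by
        rw [hz, hM, hW, t1, Complex.mk_eq_add_mul_I]; push_cast; ring
      obtain ⟨ξ, hw', b1, b2, b3, b4⟩ := ball_frame hA hz' hw
      simp only at b1 b2 b3 b4
      have m1 : 0 ≤ μ * t := by positivity
      have m2 : μ * t ≤ μ := by nlinarith
      have m3 : 0 ≤ s * t := by have : 0 ≤ s := by linarith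
                                positivity
      have m4 : s * t ≤ s := by nlinarith
      rcases le_total ξ.re 0 with hx | hx
      · exact mem_Pg hL (quadLB hA hw' (by nlinarith) hx (by nlinarith) (by nlinarith))
      · exact mem_Pg hL' (quadLF hA hw' hx (by nlinarith) (by nlinarith) (by nlinarith))
    · obtain ⟨t, h0, h1, hz⟩ := seg_par hz
      have hz' : z = pt s (v (k + 1)) +
          (⟨(s / 2) * t, μ * (2 - t)⟩ : ℂ) * cv (v k) (v (k + 1)) := by
        rw [hz, hM', hW, t1, Complex.mk_eq_add_mul_I]; push_cast; ring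
      obtain ⟨ξ, hw', b1, b2, b3, b4⟩ := ball_frame hA hz' hw
      simp only at b1 b2 b3 b4
      have m1 : 0 ≤ μ * t := by positivity
      have m2 : μ * t ≤ μ := by nlinarith
      have m3 : 0 ≤ s * t := by have : 0 ≤ s := by linarith
                                positivity
      have m4 : s * t ≤ s := by nlinarith
      rcases le_total ξ.re 0 with hx | hx
      · exact mem_Pg hL (quadLB hA hw' (by nlinarith) hx (by nlinarith) (by nlinarith))
      · exact mem_Pg hL' (quadLF hA hw' hx (by nlinarith) (by nlinarith) (by nlinarith))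
  · -- left turn
    rcases hz with hz | hz
    · obtain ⟨t, h0, h1, hz⟩ := seg_par hz
      have hz' : z = pt s (v (k + 1)) +
          (⟨-(s / 2) * (1 - t) - μ * t, μ⟩ : ℂ) * cv (v k) (v (k + 1)) := by
        rw [hz, hM, hW, t1, Complex.mk_eq_add_mul_I]; push_cast
        linear_combination (t * μ * cv (v k) (v (k + 1))) * hI
      obtain ⟨ξ, hw', b1, b2, b3, b4⟩ := ball_frame hA hz' hw
      simp only at b1 b2 b3 b4
      have m1 : 0 ≤ μ * t := by positivity
      have m2 : μ * t ≤ μ := by nlinarith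
      have m3 : 0 ≤ s * t := by have : 0 ≤ s := by linarith
                                positivity
      have m4 : s * t ≤ s := by nlinarith
      have m5 : (s / 2) * (1 - t) + μ * t ≥ μ := by nlinarith
      exact mem_Pg hL (quadLB hA hw' (by nlinarith) (by nlinarith) (by nlinarith) (by nlinarith))
    · obtain ⟨t, h0, h1, hz⟩ := seg_par hz
      have hz' : z = pt s (v (k + 1)) +
          (⟨-μ, μ * (1 - t) + (s / 2) * t⟩ : ℂ) * cv (v k) (v (k + 1)) := by
        rw [hz, hM', hW, t1, Complex.mk_eq_add_mul_I]; push_cast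
        linear_combination (μ * cv (v k) (v (k + 1))) * hI
      obtain ⟨ξ, hw', b1, b2, b3, b4⟩ := ball_frame hA hz' hw
      simp only at b1 b2 b3 b4
      have m1 : 0 ≤ μ * t := by positivity
      have m2 : μ * t ≤ μ := by nlinarith
      have m3 : 0 ≤ s * t := by have : 0 ≤ s := by linarith
                                positivity
      have m4 : s * t ≤ s := by nlinarith
      have m5 : μ * (1 - t) + (s / 2) * t ≥ μ := by nlinarith
      exact mem_Pg hL (quadLB hA hw' (by nlinarith) (by nlinarith) (by nlinarith) (by nlinarith))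
  · -- right turn
    have hD := diag hc k t3
    rw [t2] at hL'
    rcases hz with hz | hz
    · obtain ⟨t, h0, h1, hz⟩ := seg_par hz
      have hz' : z = pt s (v (k + 1)) +
          (⟨-(s / 2) * (1 - t) + μ * t, μ⟩ : ℂ) * cv (v k) (v (k + 1)) := by
        rw [hz, hM, hW, t1, Complex.mk_eq_add_mul_I]; push_cast
        linear_combination (-(t * μ * cv (v k) (v (k + 1)))) * hI
      obtain ⟨ξ, hw', b1, b2, b3, b4⟩ := ball_frame hA hz' hw
      simp only at b1 b2 b3 b4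
      have m1 : 0 ≤ μ * t := by positivity
      have m2 : μ * t ≤ μ := by nlinarith
      have m3 : 0 ≤ s * t := by have : 0 ≤ s := by linarith
                                positivity
      have m4 : s * t ≤ s := by nlinarith
      rcases le_total ξ.re 0 with hx | hx
      · exact mem_Pg hL (quadLB hA hw' (by nlinarith) hx (by nlinarith) (by nlinarith))
      · exact mem_Pg hD (quadLF hA hw' hx (by nlinarith) (by nlinarith) (by nlinarith))
    · obtain ⟨t, h0, h1, hz⟩ := seg_par hz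
      have hz' : z = pt s (v (k + 1)) +
          (⟨μ, μ * (1 - t) - (s / 2) * t⟩ : ℂ) * cv (v k) (v (k + 1)) := by
        rw [hz, hM', hW, t1, Complex.mk_eq_add_mul_I]; push_cast
        linear_combination (-(μ * cv (v k) (v (k + 1)))) * hI
      obtain ⟨ξ, hw', b1, b2, b3, b4⟩ := ball_frame hA hz' hw
      simp only at b1 b2 b3 b4
      have m1 : 0 ≤ μ * t := by positivity
      have m2 : μ * t ≤ μ := by nlinarith
      have m3 : 0 ≤ s * t := by have : 0 ≤ s := by linarith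
                                positivity
      have m4 : s * t ≤ s := by nlinarith
      rcases le_total ξ.im 0 with hx | hx
      · exact mem_Pg hL' (quadRF hA hw' (by nlinarith) (by nlinarith) (by nlinarith) hx)
      · exact mem_Pg hD (quadLF hA hw' (by nlinarith) (by nlinarith) hx (by nlinarith))

end Crest.Agent.R143.LabBx951
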