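import Crest.Agent.R143.GPosR_348
import Crest.Agent.R143.RingX_713
import Crest.Agent.R143.GWX_597

/-!
# Row 143 (S0194), block H: law ⇒ closed ring `RngH` and white closed path `WhtH` (helper348)

* `WhtH X U M W η d` : closed fine path with white tiles (darts at all gates, white links in all tiles);
  outputs `lg`, `yper`, `xper`, `neck`, `win`, `sd`, `coly`, `colx`, `wht`, `sub_U`, `step`, `inn`,
  `run` : white link between the gates `a` and `a + k` inside the tiles between them, `all` : between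
  any two gates
* **`law_rng`** : almost surely, for every colouring of the cells with `gO P H true ≠ 0`: 713's `RngH`
* **`law_wht`** : the same for `gO P H false ≠ 0`: `WhtH`
-/

set_option autoImplicit false
set_option linter.all false

noncomputable section

open scoped Classical

namespace Crest.Agent.R143.LawGx348

open MeasureTheory Set ProbabilityTheory
open Crest.ProbabilityR.Voronoi
open Crest.Agent.R143.B0x346 Crest.Agent.R143.DelGx806 Crest.Agent.R143.DelRx806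
  Crest.Agent.R143.JColx54
open Crest.Agent.R143.Frame1x395 Crest.Agent.R143.Frame2x395 Crest.Agent.R143.Frame3x395
  Crest.Agent.R143.Frame4x395 Crest.Agent.R143.Frame8x395 Crest.Agent.R143.Frame9x395
  Crest.Agent.R143.Frame10x395 Crest.Agent.R143.Frame11x395
open Crest.Agent.R143.Frame5x395 (sd mem_sd th th_spec)
open Crest.Agent.R143.Locx922 Crest.Agent.R143.Splx117
open Crest.Agent.R143.Blkx838 (DE)
open Crest.Agent.R143.Neckx921 (Neck NeckD Tile Lk)
open Crest.Agent.R143.PP0x831 Crest.Agent.R143.Poisx304 Crest.Agent.R143.Janx304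
open Crest.Agent.R143.IndLocx279 Crest.Agent.R143.PWx978 Crest.Agent.R143.Tplx978
open Crest.Agent.R143.WLocx713 Crest.Agent.R143.IndLoc3x279
open Crest.Agent.R143.TileRx228 Crest.Agent.R143.PthFx765 Crest.Agent.R143.TplIx204
open Crest.Agent.R143.PathDx503 Crest.Agent.R143.PathGx503 Crest.Agent.R143.RingPx503
open Crest.Agent.R143.DCorGx713 Crest.Agent.R143.DCorFx713
open Crest.Agent.R143.CorNx765 Crest.Agent.R143.RngNx765
open Crest.Agent.R143.GPosFx348 Crest.Agent.R143.GPosCx348 Crest.Agent.R143.GPosRx348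
open Crest.Agent.R143.FinCx811 Crest.Agent.R143.ColXx829 Crest.Agent.R143.Dbl2x609
open Crest.Agent.R143.FinMx609
open Crest.Agent.R143.RingXx713 (RngH)
open Crest.Agent.R143.SmallAx304 (chiS)
open Crest.Agent.R143.CorHx713 (gA QA sdt yy xx CorH)
open scoped ENNReal

/-! ### the white closed path -/

/-- **closed path of white tiles** -/
structure WhtH (X : Set (ℂ × Bool)) (U : Set ℂ) (M : ℕ) (W : ℤ → ℤ × ℤ) (η d : ℝ) : Prop where
  path : FPath M W
  M5 : 5 ≤ M
  e0 : 0 < η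
  d0 : 0 < d
  de : 100 * d ≤ η
  fin : X.Finite
  gp : GP (sX X : Set ℂ)
  hull : HullC (sX X) (cX X)
  fat : ∀ a : ℤ, ∀ w ∈ RR (9 * η) (51 * η) (100 * η) W a, ∀ s : ℂ, ‖s - w‖ ≤ 100 * η → s ∈ U
  hol : Hol (ps X) U d
  evt : ∀ a : ℤ, TplIx204.TB false (RR (9 * η) (51 * η) (100 * η) W a)
    (LG (gA η W a) (QA η W a)) (LG (gA η W (a + 1)) (QA η W (a + 1))) X

variable {X : Set (ℂ × Bool)} {U : Set ℂ} {M : ℕ} {W : ℤ → ℤ × ℤ} {η d : ℝ}

namespace WhtH

theorem cen_mem (H : WhtH X U M W η d) (a : ℤ) :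
    gz (100 * η) W a ∈ RR (9 * η) (51 * η) (100 * η) W a := by
  have h1 := H.e0
  refine win_right H.path (by linarith) (by linarith) ?_ ?_
  · have : Gatex838.X (gz (100 * η) W a) (ge W a) (gz (100 * η) W a) = 0 := by
      unfold Gatex838.X
      simp
    rw [this]
    simp only [abs_zero]
    linarith
  · have : Gatex838.Y (gz (100 * η) W a) (ge W a) (gz (100 * η) W a) = 0 := by
      unfold Gatex838.Y
      simp
    rw [this]
    simp only [abs_zero]
    linarith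

/-- points near the centre of a gate are in `U` -/
theorem box_U (H : WhtH X U M W η d) (a : ℤ) {s : ℂ}
    (h1 : |Gatex838.X (gz (100 * η) W a) (ge W a) s| ≤ 40 * η)
    (h2 : |Gatex838.Y (gz (100 * η) W a) (ge W a) s| ≤ 40 * η) : s ∈ U := by
  have h3 := H.e0
  refine H.fat a _ (H.cen_mem a) s ?_
  exact (RegBx523.norm_le_XY (norm_ge H.path a)).trans (by linarith)

theorem win_U (H : WhtH X U M W η d) (a : ℤ) : (gA η W a).win ⊆ U := by
  have h3 := H.e0
  rintro s ⟨⟨h4, h5⟩, h6, h7⟩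
  change -η < Gatex838.X (gz (100 * η) W a) (ge W a) s at h4
  change Gatex838.X (gz (100 * η) W a) (ge W a) s < η at h5
  change -(9 * η) - η ≤ Gatex838.Y (gz (100 * η) W a) (ge W a) s at h6
  change Gatex838.Y (gz (100 * η) W a) (ge W a) s ≤ 10 * η + η at h7
  refine H.box_U a ?_ ?_
  · rw [abs_le]
    constructor <;> linarith
  · rw [abs_le]
    constructor <;> linarith

/-- the `2 d`-neighbourhood of a window is inside the gate box -/
theorem win_Q (H : WhtH X U M W η d) (a : ℤ) : ∀ w ∈ (gA η W a).win, ∀ s : ℂ,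
    ‖s - w‖ < 2 * d → s ∈ QA η W a := by
  have h1 := H.e0
  have h2 := H.d0
  have h3 := H.de
  rintro w ⟨⟨h4, h5⟩, h6, h7⟩ s hs
  change -η < Gatex838.X (gz (100 * η) W a) (ge W a) w at h4
  change Gatex838.X (gz (100 * η) W a) (ge W a) w < η at h5
  change -(9 * η) - η ≤ Gatex838.Y (gz (100 * η) W a) (ge W a) w at h6
  change Gatex838.Y (gz (100 * η) W a) (ge W a) w ≤ 10 * η + η at h7
  have x1 := (Crossx228.abs_X_sub (gz (100 * η) W a) (ge_d4 H.path a).norm s w).trans_lt hs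
  have y1 := (Crossx228.abs_Y_sub (gz (100 * η) W a) (ge_d4 H.path a).norm s w).trans_lt hs
  rw [abs_lt] at x1 y1
  rw [CorHx713.mem_QA, abs_lt, abs_lt]
  refine ⟨⟨?_, ?_⟩, ?_, ?_⟩ <;> linarith

/-! ### environment -/

/-- short edges at the sites in `U` -/
theorem step (H : WhtH X U M W η d) {u v : ℂ} (hu : u ∈ U) (h : DE (sX X) u v) :
    ‖v - u‖ < 2 * d := de_near H.d0 (by rw [coe_sX H.fin]; exact H.hol) hu h

theorem step' (H : WhtH X U M W η d) {u v : ℂ} (hu : u ∈ U) (h : DE (sX X) u v) :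
    ‖u - v‖ < 2 * d := by
  rw [norm_sub_rev]
  exact H.step hu h

theorem holS (H : WhtH X U M W η d) : Hol (sX X : Set ℂ) U d := by
  rw [coe_sX H.fin]
  exact H.hol

/-- no hull site in `U` -/
theorem inn (H : WhtH X U M W η d) {v : ℂ} (hv : v ∈ U) : ¬ OnHull (sX X) v :=
  fun ⟨a, h⟩ => (not_hull H.d0 H.holS hv a).2 h

/-- `U` is covered by the triangles -/
theorem cov (H : WhtH X U M W η d) {z : ℂ} (hz : z ∈ U) :
    ∃ t ∈ delT (sX X), z ∈ Crest.Agent.R143.Circx63.cT t := by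
  obtain ⟨a, b, c, h1, h2⟩ := exists_tri_W H.gp H.d0 H.holS hz
  exact ⟨(a, b, c), h1, h2⟩

theorem env (H : WhtH X U M W η d) : Envr (sX X) U (2 * d) :=
  ⟨fun _ _ h hu _ => (H.step' hu h).le, fun _ _ hv => H.inn hv, fun _ hz => H.cov hz⟩

/-! ### selected darts -/

/-- **the selected dart of every gate** -/
theorem lg (H : WhtH X U M W η d) (a : ℤ) : LG (gA η W a) (QA η W a) X (sdt η W X a) := by
  obtain ⟨-, p, -, hp, -⟩ := H.evt a
  exact dg_spec ⟨p, hp⟩

theorem per (H : WhtH X U M W η d) (a : ℤ) : sdt η W X (a + M) = sdt η W X a :=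
  CorHx713.sdt_per H.path η X a

theorem yper (H : WhtH X U M W η d) (a : ℤ) : yy η W X (a + M) = yy η W X a :=
  congrArg Prod.fst (H.per a)

theorem xper (H : WhtH X U M W η d) (a : ℤ) : xx η W X (a + M) = xx η W X a :=
  congrArg Prod.snd (H.per a)

theorem holw (H : WhtH X U M W η d) (a : ℤ) : Hol (ps X) (gA η W a).win d :=
  H.hol.mono (H.win_U a)

/-- **the neck at the selected dart** -/
theorem neck (H : WhtH X U M W η d) (a : ℤ) :
    NeckD (sX X) (gz (100 * η) W a) (ge W a) (-η) η (-(9 * η)) (10 * η) η (sX X) (bX X)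
      (yy η W X a) (xx η W X a) := LG_neck H.fin H.d0 (H.holw a) (H.win_Q a) (H.lg a)

theorem sd (H : WhtH X U M W η d) (a : ℤ) : (yy η W X a, xx η W X a) ∈ sd (sX X) :=
  neck_sd H.hull (V := sX X) (b := 1) bX_iff (H.neck a)

/-- colours: left site `1`, right site `0` -/
theorem coly (H : WhtH X U M W η d) (a : ℤ) : cX X (yy η W X a) = 1 :=
  (neck_col (V := sX X) (b := 1) bX_iff (H.neck a)).1

theorem colx (H : WhtH X U M W η d) (a : ℤ) : cX X (xx η W X a) = 0 := by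
  have h := (neck_col (V := sX X) (b := 1) bX_iff (H.neck a)).2
  rw [H.coly a] at h
  revert h
  generalize cX X (xx η W X a) = c
  revert c; decide

/-- the black site is in the window -/
theorem wy (H : WhtH X U M W η d) (a : ℤ) :
    yy η W X a ∈ Win (gz (100 * η) W a) (ge W a) (-η) η (-(9 * η)) (10 * η) :=
  neck_win (H.neck a)

/-- **the white link of the tile `a`** -/
theorem wht (H : WhtH X U M W η d) (a : ℤ) :
    Lk (sX X) {s | (s ∈ sX X ∧ s ∉ bX X) ∧ s ∈ RR (9 * η) (51 * η) (100 * η) W a}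
      (xx η W X a) (xx η W X (a + 1)) := by
  obtain ⟨-, p, q, hp, hq, -, h⟩ := H.evt a
  have e1 : sdt η W X a = p := dg_eq hp
  have e2 : sdt η W X (a + 1) = q := dg_eq hq
  unfold xx
  rw [e1, e2]
  exact h

/-- **white link from the gate `a` to the gate `a + k`** through the tiles between them -/
theorem run (H : WhtH X U M W η d) (a : ℤ) {k : ℕ} (hk : 1 ≤ k) :
    Lk (sX X) {s | (s ∈ sX X ∧ s ∉ bX X) ∧ ∃ j : ℕ, j < k ∧
      s ∈ RR (9 * η) (51 * η) (100 * η) W (a + j)} (xx η W X a) (xx η W X (a + k)) :=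
  lk_chain (S := sX X) (A := {s | s ∈ sX X ∧ s ∉ bX X})
    (R := fun a => RR (9 * η) (51 * η) (100 * η) W a) (x := xx η W X) (o := a)
    (n := k) hk (fun k _ => H.wht _)

end WhtH

/-! ### law -/

variable {D : DT} {ε : ℝ} {hε : 0 < ε} {c : ℝ≥0∞} {c0 : c ≠ 0} {c1 : c ≤ 1} [Fintype (ZMod M)]

/-- **positive weight gives the closed ring**, for every colouring of the cells -/
theorem law_rng (N : NumC D η) (P : FPath M W)
    (H : Std (D.raw ε hε c c0 c1).tpl D.A' D.B' D.h Prod.fst) (hP : (D.raw ε hε c c0 c1).AePos)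
    (hM : 5 ≤ M) (hs : ∃ g, ∀ j, g - 2 ≤ j → j ≤ g + 2 → ge W (j + 1) = ge W j)
    {B : Set ℂ} (hB : Bornology.IsBounded B) (hR : Rall (12 * η) (52 * η) (100 * η) W ⊆ B)
    (hd : 0 < d) (hd' : 100 * d ≤ η)
    (hU : ∀ a : ℤ, ∀ w ∈ RR (9 * η) (51 * η) (100 * η) W a, ∀ s : ℂ,
      ‖s - w‖ ≤ 100 * η → s ∈ U) :
    ∀ᵐ ω ∂sampleLaw, Hol (Ap ε B ω : Set ℂ) U d →
      ∀ (hS : GP (Ap ε B ω : Set ℂ)) (h3 : 3 ≤ (Ap ε B ω).card) (s : Cs hS → ZMod 2),
        RngNx765.gO P H true (Xc hS h3 s) ≠ 0 → RngH (Xc hS h3 s) U M W η d := by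
  have h0 := N.pos
  filter_upwards [law_ev N P H hP true hB hR hd (by linarith)] with ω hω hH hS h3 s hg
  have hR : ∀ a : ℤ, Hol (Ap ε B ω : Set ℂ) (RR (9 * η) (51 * η) (100 * η) W a) d :=
    fun a w hw => hH w (hU a w hw w (by simp; linarith))
  obtain ⟨-, h4⟩ := hω hR hS h3 s hg
  exact
    { path := P
      M5 := hM
      e0 := h0
      d0 := hd
      de := hd'
      fin := fin_Xc
      gp := gp_Xc
      hull := by rw [sX_Xc]; exact hullC_Xc
      fat := hU
      hol := by rw [ps_Xc]; exact hH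
      evt := h4
      str := hs }

/-- **positive weight gives the white closed path**, for every colouring of the cells -/
theorem law_wht (N : NumC D η) (P : FPath M W)
    (H : Std (D.raw ε hε c c0 c1).tpl D.A' D.B' D.h Prod.fst) (hP : (D.raw ε hε c c0 c1).AePos)
    (hM : 5 ≤ M) {B : Set ℂ} (hB : Bornology.IsBounded B)
    (hR : Rall (12 * η) (52 * η) (100 * η) W ⊆ B) (hd : 0 < d) (hd' : 100 * d ≤ η)
    (hU : ∀ a : ℤ, ∀ w ∈ RR (9 * η) (51 * η) (100 * η) W a, ∀ s : ℂ,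
      ‖s - w‖ ≤ 100 * η → s ∈ U) :
    ∀ᵐ ω ∂sampleLaw, Hol (Ap ε B ω : Set ℂ) U d →
      ∀ (hS : GP (Ap ε B ω : Set ℂ)) (h3 : 3 ≤ (Ap ε B ω).card) (s : Cs hS → ZMod 2),
        RngNx765.gO P H false (Xc hS h3 s) ≠ 0 → WhtH (Xc hS h3 s) U M W η d := by
  have h0 := N.pos
  filter_upwards [law_ev N P H hP false hB hR hd (by linarith)] with ω hω hH hS h3 s hg
  have hR : ∀ a : ℤ, Hol (Ap ε B ω : Set ℂ) (RR (9 * η) (51 * η) (100 * η) W a) d :=
    fun a w hw => hH w (hU a w hw w (by simp; linarith))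
  obtain ⟨-, h4⟩ := hω hR hS h3 s hg
  exact
    { path := P
      M5 := hM
      e0 := h0
      d0 := hd
      de := hd'
      fin := fin_Xc
      gp := gp_Xc
      hull := by rw [sX_Xc]; exact hullC_Xc
      fat := hU
      hol := by rw [ps_Xc]; exact hH
      evt := h4 }

/-! ### sets of black sites -/

/-- **the weights of the sets of black sites and of the colourings of the cells agree** -/
theorem gO_chiS {A B h : ℝ} {T : Tpl ε (Tn × Bool)} (P : FPath M W) (Hs : Std T A B h Prod.fst)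
    (b : Bool) {S : Finset ℂ} {hS : GP (S : Set ℂ)} {h3 : 3 ≤ S.card} (hd : 0 < d)
    (hH : Hol (S : Set ℂ) U d) (hU : Rall A B h W ⊆ U) (β : Finset ℂ) :
    RngNx765.gO P Hs b (Xc hS h3 (chiS hS h3 β)) = RngNx765.gO P Hs b (paint S β) :=
  GWXx597.loc_chiS (gO_local P Hs b) fun v _ hv ⟨a, h⟩ => (not_hull hd hH (hU hv) a).2 h

/-- **the closed ring**, sets of black sites -/
theorem law_rng_paint (N : NumC D η) (P : FPath M W)
    (H : Std (D.raw ε hε c c0 c1).tpl D.A' D.B' D.h Prod.fst) (hP : (D.raw ε hε c c0 c1).AePos)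
    (hM : 5 ≤ M) (hs : ∃ g, ∀ j, g - 2 ≤ j → j ≤ g + 2 → ge W (j + 1) = ge W j)
    {B : Set ℂ} (hB : Bornology.IsBounded B) (hR : Rall (12 * η) (52 * η) (100 * η) W ⊆ B)
    (hd : 0 < d) (hd' : 100 * d ≤ η)
    (hU : ∀ a : ℤ, ∀ w ∈ RR (9 * η) (51 * η) (100 * η) W a, ∀ s : ℂ,
      ‖s - w‖ ≤ 100 * η → s ∈ U) (hU' : Rall (12 * η) (52 * η) (100 * η) W ⊆ U) :
    ∀ᵐ ω ∂sampleLaw, Hol (Ap ε B ω : Set ℂ) U d →
      ∀ (hS : GP (Ap ε B ω : Set ℂ)) (h3 : 3 ≤ (Ap ε B ω).card) (β : Finset ℂ),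
        RngNx765.gO P H true (paint (Ap ε B ω) β) ≠ 0 →
          RngH (Xc hS h3 (chiS hS h3 β)) U M W η d := by
  filter_upwards [law_rng N P H hP hM hs hB hR hd hd' hU] with ω hω hH hS h3 β hg
  refine hω hH hS h3 _ ?_
  rw [gO_chiS P H true hd hH (by rw [N.A', N.B', N.h]; exact hU') β]
  exact hg

/-- **the white closed path**, sets of black sites -/
theorem law_wht_paint (N : NumC D η) (P : FPath M W)
    (H : Std (D.raw ε hε c c0 c1).tpl D.A' D.B' D.h Prod.fst) (hP : (D.raw ε hε c c0 c1).AePos)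
    (hM : 5 ≤ M) {B : Set ℂ} (hB : Bornology.IsBounded B)
    (hR : Rall (12 * η) (52 * η) (100 * η) W ⊆ B) (hd : 0 < d) (hd' : 100 * d ≤ η)
    (hU : ∀ a : ℤ, ∀ w ∈ RR (9 * η) (51 * η) (100 * η) W a, ∀ s : ℂ,
      ‖s - w‖ ≤ 100 * η → s ∈ U) (hU' : Rall (12 * η) (52 * η) (100 * η) W ⊆ U) :
    ∀ᵐ ω ∂sampleLaw, Hol (Ap ε B ω : Set ℂ) U d →
      ∀ (hS : GP (Ap ε B ω : Set ℂ)) (h3 : 3 ≤ (Ap ε B ω).card) (β : Finset ℂ),
        RngNx765.gO P H false (paint (Ap ε B ω) β) ≠ 0 →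
          WhtH (Xc hS h3 (chiS hS h3 β)) U M W η d := by
  filter_upwards [law_wht N P H hP hM hB hR hd hd' hU] with ω hω hH hS h3 β hg
  refine hω hH hS h3 _ ?_
  rw [gO_chiS P H false hd hH (by rw [N.A', N.B', N.h]; exact hU') β]
  exact hg

end Crest.Agent.R143.LawGx348
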