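import Crest.Agent.R143.PotP_263
import Crest.Agent.R143.Exc4_790
import Crest.Agent.R143.S1_828

/-!
# Row 143 (S0194), block H, H5 = KAPPA, route 2 (helper690): the split of the root chord of a pattern

* `pot_same` : the potential of the outer arc is a function of its states
* `RQ.law` : ring loop with regions and the linear law ⟹ the potential difference of two cells of an
  outer arc `= μ * conj (displacement)` up to `√(4 B)`, the end positions and the local terms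
* `vk_sum`, `wk_ends`, `end_gc`, `wk_le` : 828's `Vk`, `Wk` for the pattern `k` of the ring loop `Rg3`
* **`split`** : `‖κ conj Wk - Vk‖ ≤ ‖one block of the flipped configuration‖ + √(4 B) + ‖κ‖ (2 ρ + 3 h)
  + √(7 dl)`, `dl` = local potential differences (820's `dpt`), for a joined pattern
* `pot_diff` : `pot ψ ca - pot ψ cb = ∑_{blk} ψ - ∑_{root chord} ψ` for every field
-/

set_option autoImplicit false
set_option linter.unusedSectionVars false

noncomputable section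

open scoped Classical ComplexConjugate

namespace Crest.Agent.R143.PotFx690

open Crest.Agent.R143.Frame1x395 Crest.Agent.R143.Frame2x395 Crest.Agent.R143.Frame3x395
  Crest.Agent.R143.Frame8x395 Crest.Agent.R143.NonXx592 Crest.Agent.R143.Coarsex166
  Crest.Agent.R143.Coarse2x166 Crest.Agent.R143.ChordCx357 Crest.Agent.R143.Chord2x355
  Crest.Agent.R143.H2x355 Crest.Agent.R143.PotKx263 Crest.Agent.R143.PotPx263
  Crest.Agent.R143.Sptx169
open Crest.Agent.R143.Splx117 (gp)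
open Crest.Agent.R143.Chordx355 (NO Fo vl gt Lp lc)

variable {D C : Type} {M : CMap D C} {x x' : D → ZMod 2} {p₀ : D} {m : ℕ}

/-! ### the potential is a function of the states of the outer arc -/

/-- two configurations with the same step have the same gap -/
theorem gap_same (hx : IsC M ∅ x) (hx' : IsC M ∅ x') {u : D} (h : x u = 1) (h' : x' u = 1)
    (e : stp M x' u = stp M x u) : x' (M.rho (M.rho u)) = x (M.rho (M.rho u)) := by
  rcases stp_cases hx h (Set.notMem_empty _) with ⟨-, b2, b3⟩ | ⟨-, b2, b3⟩ <;>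
    rcases stp_cases hx' h' (Set.notMem_empty _) with ⟨-, c2, c3⟩ | ⟨-, c2, c3⟩
  · rw [b2, c2]
  · rw [b3, c3] at e
    exact absurd (iota_inj M e) (M.rho_ne _)
  · rw [b3, c3] at e
    exact absurd (iota_inj M e).symm (M.rho_ne _)
  · rw [b2, c2]

/-- **the potential of the outer arc is a function of its states** -/
theorem pot_same {E : Type*} [AddCommMonoid E] (hx : IsC M ∅ x) (hx' : IsC M ∅ x') (h : x p₀ = 1)
    (h' : x' p₀ = 1) (e : ∀ a, a < m → P M x' p₀ a = P M x p₀ a) (φ : D → E) (c : C) :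
    pot M x' p₀ m φ c = pot M x p₀ m φ c := by
  have el : ∀ a, a < m → lc M x' p₀ a = lc M x p₀ a := fun a ha => congrArg M.cell (e a ha)
  by_cases hc : ∃ a, a < m ∧ lc M x p₀ a = c
  · obtain ⟨a, ha, ea⟩ := hc
    rw [pot_eq φ ha ((el a ha).trans ea), pot_eq φ ha ea]
    unfold Fo
    refine Finset.sum_congr rfl fun i hi => ?_
    have hi := Finset.mem_range.1 hi
    have h1 : NO (lc M x' p₀) m i ↔ NO (lc M x p₀) m i := by
      constructor
      · intro H u h1 h2 v h3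
        have := H u h1 h2 v h3
        rwa [el u h2, el v (by omega)] at this
      · intro H u h1 h2 v h3
        rw [el u h2, el v (by omega)]
        exact H u h1 h2 v h3
    have h2 : vl M x' p₀ φ i = vl M x p₀ φ i := by
      have e0 := e i (by omega)
      have e1 := e (i + 1) (by omega)
      rw [P_succ, P_succ, e0] at e1
      have o1 : x (P M x p₀ i) = 1 := P_occ hx h i
      have o2 : x' (P M x p₀ i) = 1 := by rw [← e0]; exact P_occ hx' h' i
      have g := gap_same hx hx' o1 o2 e1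
      have eg : gt M x' p₀ i = gt M x p₀ i := by
        show M.rho (M.rho (P M x' p₀ i)) = M.rho (M.rho (P M x p₀ i))
        rw [e0]
      unfold vl
      rw [eg]
      refine if_congr ⟨fun H => ⟨?_, ?_⟩, fun H => ⟨?_, ?_⟩⟩ rfl rfl
      · exact g.symm.trans H.1
      · rw [Chordx355.rho_gt]; exact o1
      · exact g.trans H.1
      · rw [Chordx355.rho_gt]; exact o2
    rw [h2]
    exact if_congr h1 rfl rfl
  · have hc' : ¬ ∃ a, a < m ∧ lc M x' p₀ a = c := fun ⟨a, ha, ea⟩ =>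
      hc ⟨a, ha, (el a ha).symm.trans ea⟩
    unfold pot
    rw [dif_neg hc, dif_neg hc']

/-! ### the linear law on the outer arc -/

section law

variable {P₀ : D} {N n : ℕ} {T : ℕ → ℕ} {F : ℕ → Set D} {φ : D → ℂ}

/-- the tile of a time of the arc, the last time included -/
theorem tile_le {r : D} (R : RegC M x r N T n F) {t : ℕ} (ht : t ≤ T (n - 1)) :
    ∃ k, k + 1 < n ∧ T k ≤ t ∧ t ≤ T (k + 1) := by
  have hn := R.n3
  rcases Nat.lt_or_eq_of_le ht with h | h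
  · obtain ⟨k, -, h2, h3, h4⟩ := R.tile (t := t) (a := 0) (c := n - 1) (by omega) (by omega)
      (by rw [R.T0]; exact Nat.zero_le t) h
    exact ⟨k, by omega, h3, h4.le⟩
  · refine ⟨n - 2, by omega, ?_, ?_⟩
    · rw [h]; exact R.le (by omega) (by omega)
    · rw [h, show n - 2 + 1 = n - 1 by omega]

theorem w_near {w : ℕ → ℂ} {h : ℝ} (hs : ∀ l, ‖w (l + 1) - w l‖ ≤ h) (a k : ℕ) :
    ‖w (a + k) - w a‖ ≤ k * h := by
  induction k with
  | zero => simp
  | succ k ih =>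
    have e : w (a + (k + 1)) - w a = (w (a + k + 1) - w (a + k)) + (w (a + k) - w a) := by
      rw [← add_assoc]; ring
    rw [e]
    refine (norm_add_le _ _).trans ?_
    have := hs (a + k)
    push_cast
    linarith

/-- **the potential difference of two cells of an outer arc** -/
theorem RQ.law (R : RQ M x P₀ N n T F) {μ : ℂ} {w : ℕ → ℂ} {B : ℝ} (hw : ∀ k, w (k + n) = w k)
    (hB : ∀ i j, i ≤ j → j ≤ n →
      ‖∑ k ∈ Finset.Ico i j, Vg M x P₀ T n φ F k - μ * (w j - w i)‖ ^ 2 ≤ B)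
    {z : C → ℂ} {ρ h : ℝ} (hz : ∀ l t, T l ≤ t → t ≤ T (l + 1) →
      ‖conj (z (M.cell (P M x P₀ t))) - w l‖ ≤ ρ) (hs : ∀ l, ‖w (l + 1) - w l‖ ≤ h)
    {a s0 s1 i j : ℕ} (ha : a ≤ n) (h0 : T a ≤ s0) (h1 : s1 ≤ T (a + (n - 1))) (hj : s0 ≤ j)
    (hji : j ≤ i) (hi : i ≤ s1) (hp : p₀ = P M x P₀ s0) (hm : m = s1 - s0 + 1) {c c' : C}
    (ci : M.cell (P M x P₀ i) = c) (cj : M.cell (P M x P₀ j) = c') :
    ‖pot M x p₀ m φ c - pot M x p₀ m φ c' - μ * conj (z c - z c')‖ ≤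
      √(4 * B) + ‖μ‖ * (2 * ρ + 3 * h) + √(7 * ∑ l ∈ Finset.range n,
        ‖pot M x p₀ m (rst φ (F l)) c - pot M x p₀ m (rst φ (F l)) c'‖ ^ 2) := by
  have hn := R.n3
  have RC := R.regC a
  have la : ∀ k, T a ≤ T (a + k) := fun k => R.le (by omega)
  have hh : 0 ≤ h := (norm_nonneg _).trans (hs 0)
  have hx := R.L.ev
  have hr : x (P M x P₀ (T a)) = 1 := P_occ hx R.L.occ _
  have sh : ∀ t, T a ≤ t → P M x (P M x P₀ (T a)) (t - T a) = P M x P₀ t := by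
    intro t ht
    rw [← P_add, Nat.sub_add_cancel ht]
  have m0 := la (n - 1)
  obtain ⟨ka, k1, k2, k3⟩ := tile_le RC (t := j - T a) (by
    show j - T a ≤ T (a + (n - 1)) - T a
    omega)
  obtain ⟨kb, l1, l2, l3⟩ := tile_le RC (t := i - T a) (by
    show i - T a ≤ T (a + (n - 1)) - T a
    omega)
  have k2' : T (a + ka) ≤ j := by
    have : T (a + ka) - T a ≤ j - T a := k2
    have := la ka
    omega
  have k3' : j ≤ T (a + ka + 1) := by
    have h3 : j - T a ≤ T (a + ka + 1) - T a := k3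
    have h4 : T a ≤ T (a + ka + 1) := la (ka + 1)
    omega
  have l2' : T (a + kb) ≤ i := by
    have : T (a + kb) - T a ≤ i - T a := l2
    have := la kb
    omega
  have l3' : i ≤ T (a + kb + 1) := by
    have h3 : i - T a ≤ T (a + kb + 1) - T a := l3
    have h4 : T a ≤ T (a + kb + 1) := la (kb + 1)
    omega
  have kab : ka ≤ kb + 1 := by
    have h3 : T (a + ka) ≤ T (a + kb + 1) := k2'.trans (hji.trans l3')
    have := R.mono.le_iff_le.1 h3
    omega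
  have D1 := RC.dp (φ := φ) (p₀ := p₀) (b := m) (tp := s0 - T a) (tq := s1 - T a) (i := i - T a)
    (j := j - T a) (ka := ka) (kb := kb) hx hr (by rw [sh s0 h0]; exact hp) (by omega) (by
      show s1 - T a ≤ T (a + (n - 1)) - T a
      omega) (by omega) (by omega) (by omega) k2 k3 (by omega) l2 l3 l1
    (c := c) (c' := c') (by rw [sh i (by omega)]; exact ci) (by rw [sh j (by omega)]; exact cj)
  -- positions
  have z1 : ‖conj (z c) - w (a + kb)‖ ≤ ρ := by rw [← ci]; exact hz _ _ l2' l3'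
  have z2 : ‖conj (z c') - w (a + ka)‖ ≤ ρ := by rw [← cj]; exact hz _ _ k2' k3'
  -- the main term
  have key : ‖∑ l ∈ Finset.Ico (ka + 2) (kb - 1), VR M x (P M x P₀ (T a))
      (fun k => T (a + k) - T a) n φ (fun l => F (a + l)) l - μ * conj (z c - z c')‖ ≤
      √(4 * B) + ‖μ‖ * (2 * ρ + 3 * h) := by
    rcases Nat.lt_or_ge (kb - 1) (ka + 2) with c1 | c1
    · rw [Finset.Ico_eq_empty_of_le (by omega), Finset.sum_empty, zero_sub, norm_neg, norm_mul,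
        map_sub]
      have e1 : ‖conj (z c) - conj (z c')‖ ≤ 2 * ρ + 3 * h := by
        have e2 : ‖w (a + kb) - w (a + ka)‖ ≤ 2 * h := by
          rcases Nat.le_total ka kb with c2 | c2
          · have h2 := w_near hs (a + ka) (kb - ka)
            rw [show a + ka + (kb - ka) = a + kb by omega] at h2
            have h3 : ((kb - ka : ℕ) : ℝ) ≤ 2 := by
              have : kb - ka ≤ 2 := by omega
              exact_mod_cast this
            nlinarith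
          · have h2 := w_near hs (a + kb) (ka - kb)
            rw [show a + kb + (ka - kb) = a + ka by omega] at h2
            have h3 : ((ka - kb : ℕ) : ℝ) ≤ 2 := by
              have : ka - kb ≤ 2 := by omega
              exact_mod_cast this
            rw [norm_sub_rev]
            nlinarith
        have e3 : conj (z c) - conj (z c') = (conj (z c) - w (a + kb)) +
            (w (a + kb) - w (a + ka)) - (conj (z c') - w (a + ka)) := by ring
        rw [e3]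
        refine (norm_sub_le _ _).trans ?_
        have := norm_add_le (conj (z c) - w (a + kb)) (w (a + kb) - w (a + ka))
        linarith
      have := mul_le_mul_of_nonneg_left e1 (norm_nonneg μ)
      have := Real.sqrt_nonneg (4 * B)
      linarith
    · have e1 : ∑ l ∈ Finset.Ico (ka + 2) (kb - 1), VR M x (P M x P₀ (T a))
          (fun k => T (a + k) - T a) n φ (fun l => F (a + l)) l =
          ∑ l ∈ Finset.Ico (a + (ka + 2)) (a + (kb - 1)), Vg M x P₀ T n φ F l := by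
        have e6 := Finset.sum_Ico_add (fun l => Vg M x P₀ T n φ F l) (ka + 2) (kb - 1) a
        rw [add_comm a (ka + 2), add_comm a (kb - 1), ← e6]
        exact Finset.sum_congr rfl fun l _ => R.vr_eq a l
      have L := lin_per (V := fun l => Vg M x P₀ T n φ F l) (fun k => R.vg_per k) hw hB
        (i := a + (ka + 2)) (j := a + (kb - 1)) (by omega) (by omega)
      have L' := Real.abs_le_sqrt L
      rw [abs_of_nonneg (norm_nonneg _)] at L'
      have e2 : ‖(w (a + (kb - 1)) - w (a + (ka + 2))) - conj (z c - z c')‖ ≤ 2 * ρ + 3 * h := by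
        have f1 := w_near hs (a + ka) 2
        have f2 := w_near hs (a + (kb - 1)) 1
        rw [show a + (kb - 1) + 1 = a + kb by omega] at f2
        rw [show a + ka + 2 = a + (ka + 2) by omega] at f1
        have e3 : (w (a + (kb - 1)) - w (a + (ka + 2))) - conj (z c - z c') =
            (conj (z c') - w (a + ka)) - (w (a + (ka + 2)) - w (a + ka)) -
              ((conj (z c) - w (a + kb)) + (w (a + kb) - w (a + (kb - 1)))) := by
          rw [map_sub]; ring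
        rw [e3]
        have g1 := norm_sub_le ((conj (z c') - w (a + ka)) - (w (a + (ka + 2)) - w (a + ka)))
          ((conj (z c) - w (a + kb)) + (w (a + kb) - w (a + (kb - 1))))
        have g2 := norm_sub_le (conj (z c') - w (a + ka)) (w (a + (ka + 2)) - w (a + ka))
        have g3 := norm_add_le (conj (z c) - w (a + kb)) (w (a + kb) - w (a + (kb - 1)))
        push_cast at f1 f2
        linarith
      rw [e1]
      have e4 : ∑ l ∈ Finset.Ico (a + (ka + 2)) (a + (kb - 1)), Vg M x P₀ T n φ F l -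
          μ * conj (z c - z c') = (∑ l ∈ Finset.Ico (a + (ka + 2)) (a + (kb - 1)),
            Vg M x P₀ T n φ F l - μ * (w (a + (kb - 1)) - w (a + (ka + 2)))) +
          μ * ((w (a + (kb - 1)) - w (a + (ka + 2))) - conj (z c - z c')) := by ring
      rw [e4]
      refine (norm_add_le _ _).trans (add_le_add L' ?_)
      rw [norm_mul]
      exact mul_le_mul_of_nonneg_left e2 (norm_nonneg μ)
  -- the local terms
  have loc : ‖∑ l ∈ En n ka kb, (pot M x p₀ m (rst φ (F (a + l))) c -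
      pot M x p₀ m (rst φ (F (a + l))) c')‖ ≤ √(7 * ∑ l ∈ Finset.range n,
        ‖pot M x p₀ m (rst φ (F l)) c - pot M x p₀ m (rst φ (F l)) c'‖ ^ 2) := by
    refine Real.le_sqrt_of_sq_le ((sq_seven card_En _).trans ?_)
    refine mul_le_mul_of_nonneg_left ?_ (by norm_num)
    rw [← sum_per (f := fun l => ‖pot M x p₀ m (rst φ (F l)) c -
      pot M x p₀ m (rst φ (F l)) c'‖ ^ 2) (by omega : 0 < n) (fun k => by rw [R.perF]) a]
    exact Finset.sum_le_sum_of_subset_of_nonneg (Finset.filter_subset _ _)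
      fun _ _ _ => by positivity
  rw [D1]
  have e5 : ∀ X Y Z : ℂ, X + Y - Z = X - Z + Y := fun X Y Z => by ring
  rw [e5]
  exact (norm_add_le _ _).trans (add_le_add key loc)

end law

/-! ### the pattern of the ring -/

/-- the block of `g` without `g` -/
def er [Fintype D] (M : CMap D C) (x : D → ZMod 2) (g : D) : Finset D := (blk M x g).erase g

theorem mem_er [Fintype D] {g h : D} (hh : h ∈ er M x g) : h ∈ blk M x g :=
  Finset.mem_of_mem_erase hh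

section sites

open Crest.Agent.R143.B0x346 Crest.Agent.R143.DelGx806 Crest.Agent.R143.DelRx806
  Crest.Agent.R143.JColx54 Crest.Agent.R143.Frame10x395 Crest.Agent.R143.DefsNx346
  Crest.Agent.R143.C2SDx395
open Crest.Agent.R143.FinCx811 (Cs rc0)
open Crest.Agent.R143.C2SBx395 (Free Gi Cq Root Rc Pin)
open Crest.Agent.R143.C2SCx395 (pr pr_con pr_cq Far)
open Crest.Agent.R143.Patx828 Crest.Agent.R143.Exc3x790 Crest.Agent.R143.Exc4x790
open Crest.Agent.R143.S1x828 (Vk Wk pk)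
open Crest.Agent.R143.StQx828 (Vs Ds)

variable {S : Finset ℂ} {hS : GP (S : Set ℂ)} {A : ZMod 3 → Set (Cs hS)}
  {σ μ χ' : Cs hS → ZMod 2} {p : D0 S} {Np : ℕ} {r : ZMod 3 → ℕ} {k j : ZMod 3}

/-- the field of the charges -/
def nn (S : Finset ℂ) (h : D0 S) : ℂ := conj (RE S h.1)

/-- the root block of the pattern without the root gap -/
def eb (G : Gi (rc0 hS) A) (k : ZMod 3) (g : D0 S) (μ : Cs hS → ZMod 2) : Finset (D0 S) :=
  er (coarse (rc0 hS) (pr A) (pr_con G)) (cfg (rc0 hS) (pk A k μ)) g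

/-- first gap of the root chord -/
def uA (G : Gi (rc0 hS) A) (k : ZMod 3) (g : D0 S) (μ : Cs hS → ZMod 2) : D0 S :=
  kA (coarse (rc0 hS) (pr A) (pr_con G)) (cfg (rc0 hS) (pk A k μ)) g

/-- last gap of the root chord -/
def uB (G : Gi (rc0 hS) A) (k : ZMod 3) (g : D0 S) (μ : Cs hS → ZMod 2) : D0 S :=
  kB (coarse (rc0 hS) (pr A) (pr_con G)) (cfg (rc0 hS) (pk A k μ)) g

theorem vk_sum (G : Gi (rc0 hS) A) (g : D0 S) :
    Vk hS A g k μ = ∑ h ∈ eb G k g μ, nn S h := by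
  unfold Vk
  rw [dif_pos G]
  unfold Vs rsum
  rw [map_sum]
  rfl

theorem rc_pk (G : Gi (rc0 hS) A) : Rc A (k + 1) (pk A k μ) := by
  have z : ∀ k : ZMod 3, k + 1 + 1 ≠ k ∧ k + 1 ≠ k ∧ k + 1 + 2 = k := by decide
  obtain ⟨z1, z2, z3⟩ := z k
  refine ⟨fun c hc => ?_, fun c hc => ?_, fun c hc => ?_⟩
  · unfold pk
    rw [if_neg fun h => z1 (G.disj _ _ c hc h), if_neg fun h => h _ hc]
  · unfold pk
    rw [if_neg fun h => z2 (G.disj _ _ c hc h), if_neg fun h => h _ hc]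
  · rw [z3] at hc
    unfold pk
    rw [if_pos hc]

theorem pk_free {c : Cs hS} (h : Free A c) : pk A k μ c = μ c := by
  unfold pk
  rw [if_neg (h k), if_pos h]

theorem ker1 : ∀ k : ZMod 3, k + 2 ≠ k ∧ k + 1 ≠ k := by decide

/-- a colouring with one colour on each giant is a colouring of the coarse map -/
theorem fact (Q : Cq (pr A) A) (hc : Rc A (k + 1) μ) :
    ∃ χ : Set.range (K33x137.mg A) → ZMod 2, ∀ c, χ (pr A c) = μ c := by
  refine ⟨fun c' => μ (Function.surjInv Q.surj c'), fun c => ?_⟩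
  have h1 : pr A (Function.surjInv Q.surj (pr A c)) = pr A c := Function.surjInv_eq _ _
  show μ (Function.surjInv Q.surj (pr A c)) = μ c
  rcases (Q.ker _ _).1 h1 with h | ⟨i, a1, a2⟩
  · rw [h]
  · have e : ∀ k i : ZMod 3, i = k + 1 + 1 ∨ i = k + 1 ∨ i = k + 1 + 2 := by decide
    rcases e k i with rfl | rfl | rfl
    · rw [hc.c0 _ a1, hc.c0 _ a2]
    · rw [hc.c1 _ a1, hc.c1 _ a2]
    · rw [hc.c2 _ a1, hc.c2 _ a2]

/-- **displacement = difference of the end positions** -/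
theorem wk_ends (X : Rg3 (rc0 hS) σ p Np r)
    (F : Far (AP (rc0 hS) (cfg (rc0 hS) σ) p Np r k) j) (μ : Cs hS → ZMod 2) :
    Wk hS (AP (rc0 hS) (cfg (rc0 hS) σ) p Np r k) (rg (rc0 hS) σ p r k) k μ =
      zc hS id ((rc0 hS).cell ((rc0 hS).rho (uA (X.gi k) k (rg (rc0 hS) σ p r k) μ))) -
        zc hS id ((rc0 hS).cell (uB (X.gi k) k (rg (rc0 hS) σ p r k) μ)) := by
  set A := AP (rc0 hS) (cfg (rc0 hS) σ) p Np r k with hA
  set g := rg (rc0 hS) σ p r k with hg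
  have G : Gi (rc0 hS) A := X.gi k
  have hc : Rc A (k + 1) (pk A k μ) := rc_pk G
  have R : Root (rc0 hS) A (k + 1) g := X.root k
  obtain ⟨χ, hχ⟩ := fact (pr_cq G) hc
  have ex : cfg (coarse (rc0 hS) (pr A) (pr_con G)) χ = cfg (rc0 hS) (pk A k μ) := by
    funext d
    show χ (pr A ((rc0 hS).cell d)) + χ (pr A ((rc0 hS).cell ((rc0 hS).rho d))) = _
    rw [hχ, hχ]
    rfl
  have c0 : χ (pr A ((rc0 hS).cell g)) = 1 := by rw [hχ]; exact hc.c0 _ R.r0
  have c1 : χ (pr A ((rc0 hS).cell ((rc0 hS).rho g))) = 1 := by rw [hχ]; exact hc.c1 _ R.r1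
  have c2 : χ (pr A ((rc0 hS).cell ((rc0 hS).rho ((rc0 hS).rho g)))) = 0 := by
    rw [hχ]; exact hc.c2 _ R.r2
  have h1 := C2SBx395.ends_sum (hπ := pr_con G) R (pr_cq G) G c0 c1 c2 (zc hS id)
  have h2 := C2SBx395.ends_static (hπ := pr_con G) R (pr_cq G) G c0 c1 c2 (zc hS id)
  rw [← h2, ex] at h1
  unfold Wk
  rw [dif_pos G]
  refine Eq.trans ?_ h1
  refine rsum_congr fun h hgh => ?_
  have hgh' : Gp (rc0 hS) (cfg (rc0 hS) (pk A k μ)) h := hgh
  obtain ⟨o1, o2, -⟩ := gap_off F hc (fun _ _ => rfl) hgh'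
  rw [zc_eq o1 (c := (rc0 hS).cell h) rfl, zc_eq o2 (c := (rc0 hS).cell ((rc0 hS).rho h)) rfl]
  rfl

/-- the end cells of the root chord are in the two arcs of the pattern -/
theorem end_gc (X : Rg3 (rc0 hS) σ p Np r) (μ : Cs hS → ZMod 2) :
    (rc0 hS).cell ((rc0 hS).rho (uA (X.gi k) k (rg (rc0 hS) σ p r k) μ)) ∈
      Gc (rc0 hS) (cfg (rc0 hS) σ) p Np r (k + 2) ∧
    (rc0 hS).cell (uB (X.gi k) k (rg (rc0 hS) σ p r k) μ) ∈
      Gc (rc0 hS) (cfg (rc0 hS) σ) p Np r (k + 1) := by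
  obtain ⟨b1, b2⟩ := ker1 k
  set A := AP (rc0 hS) (cfg (rc0 hS) σ) p Np r k with hA
  set g := rg (rc0 hS) σ p r k with hg
  have G : Gi (rc0 hS) A := X.gi k
  have hc : Rc A (k + 1) (pk A k μ) := rc_pk G
  have R : Root (rc0 hS) A (k + 1) g := X.root k
  obtain ⟨χ, hχ⟩ := fact (pr_cq G) hc
  have ex : cfg (coarse (rc0 hS) (pr A) (pr_con G)) χ = cfg (rc0 hS) (pk A k μ) := by
    funext d
    show χ (pr A ((rc0 hS).cell d)) + χ (pr A ((rc0 hS).cell ((rc0 hS).rho d))) = _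
    rw [hχ, hχ]
    rfl
  have hx : IsC (coarse (rc0 hS) (pr A) (pr_con G)) ∅ (cfg (rc0 hS) (pk A k μ)) := by
    rw [← ex]; exact cfg_isC _
  have c0 : χ (pr A ((rc0 hS).cell g)) = 1 := by rw [hχ]; exact hc.c0 _ R.r0
  have c1 : χ (pr A ((rc0 hS).cell ((rc0 hS).rho g))) = 1 := by rw [hχ]; exact hc.c1 _ R.r1
  have c2 : χ (pr A ((rc0 hS).cell ((rc0 hS).rho ((rc0 hS).rho g)))) = 0 := by
    rw [hχ]; exact hc.c2 _ R.r2
  have hgp : Gp (coarse (rc0 hS) (pr A) (pr_con G)) (cfg (rc0 hS) (pk A k μ)) g := by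
    rw [← ex]
    constructor
    · show χ (pr A ((rc0 hS).cell g)) + χ (pr A ((rc0 hS).cell ((rc0 hS).rho g))) = 0
      rw [c0, c1]; decide
    · show χ (pr A ((rc0 hS).cell ((rc0 hS).rho g))) +
        χ (pr A ((rc0 hS).cell ((rc0 hS).rho ((rc0 hS).rho g)))) = 1
      rw [c1, c2]; decide
  have h1 : pr A ((rc0 hS).cell ((rc0 hS).rho (uA (X.gi k) k g μ))) = pr A ((rc0 hS).cell g) :=
    (kA_spec hx hgp).2
  have h2 : pr A ((rc0 hS).cell (uB (X.gi k) k g μ)) = pr A ((rc0 hS).cell ((rc0 hS).rho g)) :=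
    (kB_spec hx hgp).2
  have r0 : (rc0 hS).cell g ∈ A (k + 2) := by
    have := R.r0
    rwa [show k + 1 + 1 = k + 2 by ring] at this
  have m1 := (pr_cq G).mem G r0 h1
  have m2 := (pr_cq G).mem G R.r1 h2
  rw [hA, ap_ne b1] at m1
  rw [hA, ap_ne b2] at m2
  exact ⟨m1, m2⟩

/-- **the displacement is bounded by the diameter of the ring** -/
theorem wk_le (X : Rg3 (rc0 hS) σ p Np r)
    (F : Far (AP (rc0 hS) (cfg (rc0 hS) σ) p Np r k) j) {z0 : ℂ} {Rr : ℝ}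
    (hR : ∀ u, ‖zc hS id ((rc0 hS).cell (P (rc0 hS) (cfg (rc0 hS) σ) p u)) - z0‖ ≤ Rr)
    (μ : Cs hS → ZMod 2) :
    ‖Wk hS (AP (rc0 hS) (cfg (rc0 hS) σ) p Np r k) (rg (rc0 hS) σ p r k) k μ‖ ≤ 2 * Rr := by
  rw [wk_ends X F μ]
  obtain ⟨⟨u1, -, h1⟩, ⟨u2, -, h2⟩⟩ := end_gc (k := k) X μ
  have e1 : (rc0 hS).cell (P (rc0 hS) (cfg (rc0 hS) σ) p u1) = _ := h1
  have e2 : (rc0 hS).cell (P (rc0 hS) (cfg (rc0 hS) σ) p u2) = _ := h2
  have g1 := hR u1
  have g2 := hR u2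
  rw [e1] at g1
  rw [e2] at g2
  have e3 : ∀ a b : ℂ, a - b = (a - z0) - (b - z0) := fun a b => by ring
  rw [e3]
  refine (norm_sub_le _ _).trans ?_
  linarith

/-- the outer arc of the flipped configuration in the unflipped one: states, order of the two arcs -/
structure Ou (hS : GP (S : Set ℂ)) (σ : Cs hS → ZMod 2) (p : D0 S) (Np : ℕ) (r : ZMod 3 → ℕ)
    (k : ZMod 3) (χ' : Cs hS → ZMod 2) (p₀ : D0 S) (m : ℕ) : Prop where
  occ : cfg (rc0 hS) σ p₀ = 1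
  same : ∀ a, a < m → P (rc0 hS) (cfg (rc0 hS) χ') p₀ a = P (rc0 hS) (cfg (rc0 hS) σ) p₀ a
  ord : ∃ s, ∀ a, a < m →
    (a < s → (rc0 hS).cell (P (rc0 hS) (cfg (rc0 hS) σ) p₀ a) ∈
      Gc (rc0 hS) (cfg (rc0 hS) σ) p Np r (k + 1)) ∧
    (s ≤ a → (rc0 hS).cell (P (rc0 hS) (cfg (rc0 hS) σ) p₀ a) ∈
      Gc (rc0 hS) (cfg (rc0 hS) σ) p Np r (k + 2))

/-- the local terms of the two ends: potential differences of the fields of the regions, flipped
configuration -/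
def dl (hS : GP (S : Set ℂ)) (χ' : Cs hS → ZMod 2) (p₀ : D0 S) (m n : ℕ) (Fl : ℕ → Set (D0 S))
    (c c' : Cs hS) : ℝ := ∑ l ∈ Finset.range n,
  ‖pot (rc0 hS) (cfg (rc0 hS) χ') p₀ m (rst (nn S) (Fl l)) c -
    pot (rc0 hS) (cfg (rc0 hS) χ') p₀ m (rst (nn S) (Fl l)) c'‖ ^ 2

/-- **the split of the root chord of the pattern `k`** -/
theorem split (X : Rg3 (rc0 hS) σ p Np r)
    (F : Far (AP (rc0 hS) (cfg (rc0 hS) σ) p Np r k) j)
    (g1 : ∀ c ∈ KC (rc0 hS) (cfg (rc0 hS) σ) (g0 (rc0 hS) σ p r),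
      c ∈ Gc (rc0 hS) (cfg (rc0 hS) σ) p Np r (k + 1) → χ' c = 1)
    (g2 : ∀ c ∈ KC (rc0 hS) (cfg (rc0 hS) σ) (g0 (rc0 hS) σ p r),
      c ∈ Gc (rc0 hS) (cfg (rc0 hS) σ) p Np r (k + 2) → χ' c = 1)
    (g3 : ∀ c ∈ KC (rc0 hS) (cfg (rc0 hS) σ) (g0 (rc0 hS) σ p r),
      c ∈ Gc (rc0 hS) (cfg (rc0 hS) σ) p Np r k → χ' c = 0)
    (gF : ∀ c, Free (AP (rc0 hS) (cfg (rc0 hS) σ) p Np r k) c → χ' c = μ c) {p₀ : D0 S} {m : ℕ}
    (O : Oc (rc0 hS) (cfg (rc0 hS) σ) p Np r k χ' p₀ m)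
    (hj : ∀ c ∈ KC (rc0 hS) (cfg (rc0 hS) σ) (g0 (rc0 hS) σ p r),
      c ∈ Gc (rc0 hS) (cfg (rc0 hS) σ) p Np r k →
      Frame11x395.Con (rc0 hS) (cfg (rc0 hS) χ') ((rc0 hS).cell ((rc0 hS).rho p₀)) c)
    (h1 : (rc0 hS).cell ((rc0 hS).rho (uA (X.gi k) k (rg (rc0 hS) σ p r k) μ)) ∈
      Kc (rc0 hS) (cfg (rc0 hS) χ') p₀ m)
    (h2 : (rc0 hS).cell (uB (X.gi k) k (rg (rc0 hS) σ p r k) μ) ∈
      Kc (rc0 hS) (cfg (rc0 hS) χ') p₀ m)
    (Q : Ou hS σ p Np r k χ' p₀ m)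
    -- the ring with its regions and the law
    {P₀ : D0 S} {N n : ℕ} {T : ℕ → ℕ} {Fl : ℕ → Set (D0 S)}
    (R : RQ (rc0 hS) (cfg (rc0 hS) σ) P₀ N n T Fl) {κ : ℂ} {w : ℕ → ℂ} {B : ℝ}
    (hw : ∀ k, w (k + n) = w k)
    (hB : ∀ i j, i ≤ j → j ≤ n → ‖∑ k ∈ Finset.Ico i j,
      Vg (rc0 hS) (cfg (rc0 hS) σ) P₀ T n (nn S) Fl k + κ * (w j - w i)‖ ^ 2 ≤ B)
    {ρ h : ℝ} (hz : ∀ l t, T l ≤ t → t ≤ T (l + 1) →
      ‖conj (zc hS id ((rc0 hS).cell (P (rc0 hS) (cfg (rc0 hS) σ) P₀ t))) - w l‖ ≤ ρ)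
    (hs : ∀ l, ‖w (l + 1) - w l‖ ≤ h)
    {a s0 s1 : ℕ} (ha : a ≤ n) (e0 : T a ≤ s0) (e1 : s1 ≤ T (a + (n - 1)))
    (hp : p₀ = P (rc0 hS) (cfg (rc0 hS) σ) P₀ s0) (hm : m = s1 - s0 + 1) (e01 : s0 ≤ s1) :
    ‖κ * conj (Wk hS (AP (rc0 hS) (cfg (rc0 hS) σ) p Np r k) (rg (rc0 hS) σ p r k) k μ) -
      Vk hS (AP (rc0 hS) (cfg (rc0 hS) σ) p Np r k) (rg (rc0 hS) σ p r k) k μ‖ ≤
      ‖∑ q ∈ blk (rc0 hS) (cfg (rc0 hS) χ') (uA (X.gi k) k (rg (rc0 hS) σ p r k) μ), nn S q‖ +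
      (√(4 * B) + ‖κ‖ * (2 * ρ + 3 * h) + √(7 * dl hS χ' p₀ m n Fl
        ((rc0 hS).cell ((rc0 hS).rho (uA (X.gi k) k (rg (rc0 hS) σ p r k) μ)))
        ((rc0 hS).cell (uB (X.gi k) k (rg (rc0 hS) σ p r k) μ)))) := by
  have G := X.gi k
  have hc : Rc (AP (rc0 hS) (cfg (rc0 hS) σ) p Np r k) (k + 1)
    (pk (AP (rc0 hS) (cfg (rc0 hS) σ) p Np r k) k μ) := rc_pk G
  obtain ⟨-, C1⟩ := cj X (pr_cq G) (hπ := pr_con G) hc g1 g2 g3
    (fun c hf => by rw [pk_free hf]; exact gF c hf) O hj h1 h2 (nn S)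
  obtain ⟨m1, m2⟩ := end_gc (k := k) X μ
  set ca := (rc0 hS).cell ((rc0 hS).rho (uA (X.gi k) k (rg (rc0 hS) σ p r k) μ)) with hca
  set cb := (rc0 hS).cell (uB (X.gi k) k (rg (rc0 hS) σ p r k) μ) with hcb
  -- the two times
  obtain ⟨s, hs'⟩ := Q.ord
  obtain ⟨t1, ht1, c1⟩ := h1
  obtain ⟨t2, ht2, c2⟩ := h2
  have c1' : (rc0 hS).cell (P (rc0 hS) (cfg (rc0 hS) σ) p₀ t1) = ca := by
    rw [← Q.same t1 ht1]; exact c1
  have c2' : (rc0 hS).cell (P (rc0 hS) (cfg (rc0 hS) σ) p₀ t2) = cb := by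
    rw [← Q.same t2 ht2]; exact c2
  have zz : ∀ k : ZMod 3, k + 2 ≠ k + 1 := by decide
  have o1 : s ≤ t1 := by
    by_contra hc
    have := (hs' t1 ht1).1 (by omega)
    rw [c1'] at this
    exact zz k (X.disj m1 this)
  have o2 : t2 < s := by
    by_contra hc
    have := (hs' t2 ht2).2 (by omega)
    rw [c2'] at this
    exact zz k (X.disj this m2)
  have sh : ∀ t, P (rc0 hS) (cfg (rc0 hS) σ) p₀ t = P (rc0 hS) (cfg (rc0 hS) σ) P₀ (s0 + t) := by
    intro t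
    rw [hp, ← P_add, add_comm]
  have L := RQ.law (φ := nn S) (μ := -κ) R hw (B := B) (by
    intro i j hij hjn
    rw [neg_mul, sub_neg_eq_add]
    exact hB i j hij hjn) (z := zc hS id) hz hs ha e0 e1 (i := s0 + t1) (j := s0 + t2) (by omega)
    (by omega) (by omega) hp hm (c := ca) (c' := cb) (by rw [← sh]; exact c1')
    (by rw [← sh]; exact c2')
  have ps : ∀ (ψ : D0 S → ℂ) c, pot (rc0 hS) (cfg (rc0 hS) χ') p₀ m ψ c =
      pot (rc0 hS) (cfg (rc0 hS) σ) p₀ m ψ c := fun ψ c =>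
    pot_same (cfg_isC _) (cfg_isC _) Q.occ O.occ Q.same ψ c
  rw [norm_neg] at L
  have hd : dl hS χ' p₀ m n Fl ca cb = ∑ l ∈ Finset.range n,
      ‖pot (rc0 hS) (cfg (rc0 hS) σ) p₀ m (rst (nn S) (Fl l)) ca -
        pot (rc0 hS) (cfg (rc0 hS) σ) p₀ m (rst (nn S) (Fl l)) cb‖ ^ 2 := by
    unfold dl
    exact Finset.sum_congr rfl fun l _ => by rw [ps, ps]
  rw [hd]
  have hW := wk_ends (k := k) X F μ
  have hV := vk_sum (k := k) (μ := μ) G (rg (rc0 hS) σ p r k)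
  rw [hW, hV]
  have C2 : ∑ h ∈ eb G k (rg (rc0 hS) σ p r k) μ, nn S h =
      ∑ q ∈ blk (rc0 hS) (cfg (rc0 hS) χ') (uA (X.gi k) k (rg (rc0 hS) σ p r k) μ), nn S q -
        (pot (rc0 hS) (cfg (rc0 hS) σ) p₀ m (nn S) ca -
          pot (rc0 hS) (cfg (rc0 hS) σ) p₀ m (nn S) cb) := by
    rw [← ps, ← ps]
    exact C1
  rw [C2, ← hca, ← hcb]
  set bV := ∑ q ∈ blk (rc0 hS) (cfg (rc0 hS) χ') (uA (X.gi k) k (rg (rc0 hS) σ p r k) μ), nn S q
  set pa := pot (rc0 hS) (cfg (rc0 hS) σ) p₀ m (nn S) ca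
  set pb := pot (rc0 hS) (cfg (rc0 hS) σ) p₀ m (nn S) cb
  have e2 : κ * conj (zc hS id ca - zc hS id cb) - (bV - (pa - pb)) =
      -bV + (pa - pb - -κ * conj (zc hS id ca - zc hS id cb)) := by ring
  rw [e2]
  refine (norm_add_le _ _).trans ?_
  rw [norm_neg]
  exact add_le_add le_rfl L

/-- **the potential difference of the end cells, every field** -/
theorem pot_diff (X : Rg3 (rc0 hS) σ p Np r)
    (g1 : ∀ c ∈ KC (rc0 hS) (cfg (rc0 hS) σ) (g0 (rc0 hS) σ p r),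
      c ∈ Gc (rc0 hS) (cfg (rc0 hS) σ) p Np r (k + 1) → χ' c = 1)
    (g2 : ∀ c ∈ KC (rc0 hS) (cfg (rc0 hS) σ) (g0 (rc0 hS) σ p r),
      c ∈ Gc (rc0 hS) (cfg (rc0 hS) σ) p Np r (k + 2) → χ' c = 1)
    (g3 : ∀ c ∈ KC (rc0 hS) (cfg (rc0 hS) σ) (g0 (rc0 hS) σ p r),
      c ∈ Gc (rc0 hS) (cfg (rc0 hS) σ) p Np r k → χ' c = 0)
    (gF : ∀ c, Free (AP (rc0 hS) (cfg (rc0 hS) σ) p Np r k) c → χ' c = μ c) {p₀ : D0 S} {m : ℕ}
    (O : Oc (rc0 hS) (cfg (rc0 hS) σ) p Np r k χ' p₀ m)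
    (hj : ∀ c ∈ KC (rc0 hS) (cfg (rc0 hS) σ) (g0 (rc0 hS) σ p r),
      c ∈ Gc (rc0 hS) (cfg (rc0 hS) σ) p Np r k →
      Frame11x395.Con (rc0 hS) (cfg (rc0 hS) χ') ((rc0 hS).cell ((rc0 hS).rho p₀)) c)
    (h1 : (rc0 hS).cell ((rc0 hS).rho (uA (X.gi k) k (rg (rc0 hS) σ p r k) μ)) ∈
      Kc (rc0 hS) (cfg (rc0 hS) χ') p₀ m)
    (h2 : (rc0 hS).cell (uB (X.gi k) k (rg (rc0 hS) σ p r k) μ) ∈
      Kc (rc0 hS) (cfg (rc0 hS) χ') p₀ m) (ψ : D0 S → ℂ) :
    pot (rc0 hS) (cfg (rc0 hS) χ') p₀ m ψ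
        ((rc0 hS).cell ((rc0 hS).rho (uA (X.gi k) k (rg (rc0 hS) σ p r k) μ))) -
      pot (rc0 hS) (cfg (rc0 hS) χ') p₀ m ψ
        ((rc0 hS).cell (uB (X.gi k) k (rg (rc0 hS) σ p r k) μ)) =
      ∑ q ∈ blk (rc0 hS) (cfg (rc0 hS) χ') (uA (X.gi k) k (rg (rc0 hS) σ p r k) μ), ψ q -
        ∑ q ∈ eb (X.gi k) k (rg (rc0 hS) σ p r k) μ, ψ q := by
  have G := X.gi k
  have hc : Rc (AP (rc0 hS) (cfg (rc0 hS) σ) p Np r k) (k + 1)
    (pk (AP (rc0 hS) (cfg (rc0 hS) σ) p Np r k) k μ) := rc_pk G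
  obtain ⟨-, C1⟩ := cj X (pr_cq G) (hπ := pr_con G) hc g1 g2 g3
    (fun c hf => by rw [pk_free hf]; exact gF c hf) O hj h1 h2 ψ
  have C2 : ∑ q ∈ eb G k (rg (rc0 hS) σ p r k) μ, ψ q = _ := C1
  have e : ∀ a b c : ℂ, a = b - c → c = b - a := fun a b c h => by rw [h]; ring
  exact e _ _ _ C2

end sites

end Crest.Agent.R143.PotFx690
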