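import Crest.Agent.R143.R6Q_253
import Crest.Agent.R143.MomI_854

/-!
# Row 143 (S0194), block H, box R6Q (helper253): `hC` of the closed ring from 854's `QFD`

* `isS_of` : 348's `NumC` gives 169's `IsS`
* `qfw_of` : `QFD 1000 (1 / 100)` (490 / 683) gives `R6Qx253.QFw` for the full ring, any box `B`
* **`ring_hC2`** : literal `hC` of 765's `ring_law`, all `o`, `k`, no box: `C = C₁ h²`
-/

set_option autoImplicit false

noncomputable section

namespace Crest.Agent.R143.R6Q2x253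

open MeasureTheory Set Filter Topology
open Crest.ProbabilityR.Voronoi
open Crest.Agent.R143.PP0x831 Crest.Agent.R143.Poisx304 Crest.Agent.R143.Janx304
open Crest.Agent.R143.IndLocx279 Crest.Agent.R143.PWx978 Crest.Agent.R143.Tplx978
open Crest.Agent.R143.TileRx228 Crest.Agent.R143.PthFx765 Crest.Agent.R143.CorNx765
open Crest.Agent.R143.TplIx204 Crest.Agent.R143.GPosCx348 Crest.Agent.R143.MomIx854
open Crest.Agent.R143.RngNx765 Crest.Agent.R143.R6Qx253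
open scoped ENNReal

theorem isS_of {D : DT} {η : ℝ} (N : NumC D η) : CorVx169.IsS D η :=
  ⟨N.g, N.A, N.B, N.A', N.B', N.h⟩

/-- **the quenched half for the full ring** -/
theorem qfw_of (hQ : QFD 1000 (1 / 100)) {η ε : ℝ} {D : DT} (Nm : NumC D η) (hε : 0 < ε)
    {c : ℝ≥0∞} (c0 : c ≠ 0) (c1 : c ≤ 1)
    (H : Std (D.raw ε hε c c0 c1).tpl D.A' D.B' D.h Prod.fst) (hP : (D.raw ε hε c c0 c1).AePos)
    {M : ℕ} {W : ℤ → ℤ × ℤ} (P : FPath M W) (hn : Pr M 5) (a : ℤ) {B : Set ℂ}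
    (hBm : MeasurableSet B) (hBb : Bornology.IsBounded B)
    (hB : Metric.closedBall (cen D.h W (a + 2)) (11 * D.h) ⊆ B) :
    QFw D P (η / 2) H (rty_typ (M := M) (W := W) true) a (D.h / 10000) (I5 M a) (J5 M a) B := by
  have h0 := Nm.pos
  have e1 : 10 * D.h = 1000 * η := by rw [Nm.h]; ring
  have e2 : D.h / 10000 = 1 / 100 * η := by rw [Nm.h]; ring
  have key := hQ Nm hε c0 c1 H hP P (rty_typ (M := M) (W := W) true) hn a
    (τ := fun j => (tn W (a + (j : ℤ)), true)) (fun j _ => rty_cast P true _) (fun _ _ => rfl)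
    hBm hBb (B := B) ((Metric.closedBall_subset_closedBall (by rw [Nm.h]; linarith)).trans hB)
  unfold QFw
  rw [e1, e2]
  exact key

/-- **`hC` OF THE CLOSED RING** -/
theorem ring_hC2 (hQ : QFD 1000 (1 / 100)) {cc ca : ℝ≥0∞} (hcc : cc ≠ 0) (hca : ca ≠ 0) :
    ∃ C₁ : ℝ, 0 ≤ C₁ ∧ ∀ {η ε : ℝ} {D : DT}, NumC D η → ∀ (hε : 0 < ε) {c : ℝ≥0∞} (c0 : c ≠ 0)
    (c1 : c ≤ 1) (H : Std (D.raw ε hε c c0 c1).tpl D.A' D.B' D.h Prod.fst),
    (D.raw ε hε c c0 c1).AePos → ∀ {M : ℕ} {W : ℤ → ℤ × ℤ} [Fintype (ZMod M)] (P : FPath M W),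
    Pr M 5 → ε ≤ 2 * D.h → K₁ * ε ^ 2 ≤ D.h ^ 2 → cc ≤ (D.raw ε hε c c0 c1).tpl.c →
    ca ≤ ∫⁻ ω, (D.raw ε hε c c0 c1).tpl.A (cfg ε ω) ∂sampleLaw → ∀ (o : ℤ) (k : ℕ),
    ∫⁻ ω, gO P H true (cfg ε ω) *
        ENNReal.ofReal (‖SV D P (η / 2) o k (cfg ε ω)‖ ^ 2) ∂sampleLaw ≤
      ENNReal.ofReal (C₁ * D.h ^ 2) * ∫⁻ ω, gO P H true (cfg ε ω) ∂sampleLaw := by
  obtain ⟨C₁, hC₁, h⟩ := ring_hC hcc hca
  refine ⟨C₁, hC₁, ?_⟩
  intro η ε D Nm hε c c0 c1 H hP M W _ P hn h1 h2 h3 h4 o k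
  have hb : Bornology.IsBounded (Rall D.A' D.B' D.h W ∪
      Metric.closedBall (cen D.h W (o + k)) (11 * D.h)) := by
    refine Bornology.IsBounded.union ?_ Metric.isBounded_closedBall
    rw [← rreg P H true]
    exact Net.reg_bdd _ _ _
  obtain ⟨R, hR⟩ := hb.subset_closedBall 0
  have hR1 := (union_subset_iff.1 hR).1
  have hR2 := (union_subset_iff.1 hR).2
  have hBm : MeasurableSet (Metric.closedBall (0 : ℂ) R) :=
    Metric.isClosed_closedBall.measurableSet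
  refine h P (isS_of Nm) Nm.pos H true hn h1 h2 h3 h4 (r := η / 2)
    (B := Metric.closedBall (0 : ℂ) R) hBm Metric.isBounded_closedBall hR1 o k hR2
    (qfw_of hQ Nm hε c0 c1 H hP P hn (o + k - 2) hBm Metric.isBounded_closedBall ?_)
  rw [show o + (k : ℤ) - 2 + 2 = o + k by ring]
  exact hR2

end Crest.Agent.R143.R6Q2x253
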