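import Crest.Agent.R143.TQ_73
import Crest.Agent.R143.GPosC_348
import Crest.Agent.R143.RingN_765

/-!
# R143 (helper765), block H and RIG: the template with its absolute constants

`Dt η ε`, `Tr η ε` : 653's data and template (side `100 η`); all constants are closed terms
(they do not depend on `η`, `ε`, `M`).

* `numC`, `stdT` : 348's `NumC`, 765's `Std` (sizes `12 η, 52 η, 100 η`)
* `cT`, `cA : ℝ` : the two constants, `cT_pos`, `cA_pos`, `ofReal_cT`, `ofReal_cA`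
* **`tpl_ev`** : eventually in `ε`: `AePos`, `ofReal cT ≤ c`, `ofReal cA ≤ ∫ A` (inputs of 445's `wd_ev`,
  348's `ring_ev` / `law_ev`, 253's `ring_hC`)
* **`gO_low`** : eventually in `ε`, every closed path of period `M`, both kinds of tiles:
  `ofReal ((cT * cA) ^ M) ≤ ∫ gO`
* `gC_low` : the same for the corridors of 416's layout
-/

set_option autoImplicit false

noncomputable section

namespace Crest.Agent.R143.RngLx765

open MeasureTheory Set Filter Topology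
open Crest.ProbabilityR.Voronoi
open Crest.Agent.R143.PP0x831 Crest.Agent.R143.PWx978 Crest.Agent.R143.Tplx978
open Crest.Agent.R143.TileRx228 Crest.Agent.R143.PthFx765 Crest.Agent.R143.CorNx765
open Crest.Agent.R143.TplIx204 Crest.Agent.R143.GPosCx348 Crest.Agent.R143.RngNx765
open Crest.Agent.R143.PosFx653 (Dt Tr cC cc cb cc_ne cc_le cb_ne cb_le)
open Crest.Agent.R143.PP1x831 (rad)
open scoped ENNReal

/-- 653's data have 713's numbers -/
theorem numC {η ε : ℝ} (hε : 0 < ε) (hη : 0 < η) : NumC (Dt η ε hε hη) η :=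
  ⟨hη, rfl, rfl, rfl, rfl, rfl, rfl⟩

/-- the template has the standard boxes -/
theorem stdT {η ε : ℝ} (hε : 0 < ε) (hη : 0 < η) :
    Std (Tr η ε hε hη).tpl (12 * η) (52 * η) (100 * η) Prod.fst :=
  std_c (numC hε hη) hε cc_ne cc_le

/-- the constant of the tiles -/
def cT : ℝ := cc.toReal

/-- the constant of the gates -/
def cA : ℝ := cb.toReal

theorem ofReal_cT : ENNReal.ofReal cT = cc :=
  ENNReal.ofReal_toReal (ne_top_of_le_ne_top ENNReal.one_ne_top cc_le)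

theorem ofReal_cA : ENNReal.ofReal cA = cb :=
  ENNReal.ofReal_toReal (ne_top_of_le_ne_top ENNReal.one_ne_top cb_le)

theorem cT_pos : 0 < cT :=
  ENNReal.toReal_pos cc_ne (ne_top_of_le_ne_top ENNReal.one_ne_top cc_le)

theorem cA_pos : 0 < cA :=
  ENNReal.toReal_pos cb_ne (ne_top_of_le_ne_top ENNReal.one_ne_top cb_le)

theorem cT_le : cT ≤ 1 := by
  have := ENNReal.toReal_mono ENNReal.one_ne_top cc_le
  rwa [ENNReal.toReal_one] at this

theorem cA_le : cA ≤ 1 := by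
  have := ENNReal.toReal_mono ENNReal.one_ne_top cb_le
  rwa [ENNReal.toReal_one] at this

/-- **the template has positive constants** which do not depend on the unit -/
theorem tpl_ev {η : ℝ} (hη : 0 < η) (hη1 : 10 * η ≤ 1) :
    ∀ᶠ ε : ℝ in 𝓝[>] 0, 0 < ε ∧ 0 < rad cC ε ∧ 8 * rad cC ε ≤ η ∧ ∀ (hε : 0 < ε) (hη : 0 < η),
      (Tr η ε hε hη).AePos ∧ ENNReal.ofReal cT ≤ (Tr η ε hε hη).tpl.c ∧
        ENNReal.ofReal cA ≤ ∫⁻ ω, (Tr η ε hε hη).tpl.A (cfg ε ω) ∂sampleLaw ∧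
        ∫⁻ ω, (Tr η ε hε hη).tpl.A (cfg ε ω) ∂sampleLaw ≠ 0 := by
  filter_upwards [TQx73.posF hη hη1, eventually_mem_nhdsWithin] with ε h h0
  refine ⟨h0, h.1, h.2.1, fun hε hη => ?_⟩
  obtain ⟨h1, -, h3⟩ := h.2.2 hε hη
  have h4 : cb ≤ ∫⁻ ω, (Tr η ε hε hη).tpl.A (cfg ε ω) ∂sampleLaw := h3
  refine ⟨h1, by rw [ofReal_cT]; exact le_rfl, by rw [ofReal_cA]; exact h4, fun h5 => ?_⟩
  rw [h5] at h4
  exact cb_ne (le_zero_iff.1 h4)

/-- **uniform lower bound of the weights of closed paths** -/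
theorem gO_low {η : ℝ} (hη : 0 < η) (hη1 : 10 * η ≤ 1) :
    ∀ᶠ ε : ℝ in 𝓝[>] 0, 0 < ε ∧ ∀ (hε : 0 < ε) (hη : 0 < η) {M : ℕ} [Fintype (ZMod M)]
      {W : ℤ → ℤ × ℤ} (P : FPath M W) (b : Bool),
      ENNReal.ofReal ((cT * cA) ^ M) ≤
        ∫⁻ ω, gO P (stdT hε hη) b (cfg ε ω) ∂sampleLaw := by
  filter_upwards [tpl_ev hη hη1] with ε h
  refine ⟨h.1, fun hε hη M _ W P b => ?_⟩
  obtain ⟨-, h1, h2, -⟩ := h.2.2.2 hε hη
  have h3 := gO_ge P (stdT hε hη) b h1 h2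
  refine le_trans (le_of_eq ?_) h3
  rw [mul_pow, ENNReal.ofReal_mul (pow_nonneg cT_pos.le _), ENNReal.ofReal_pow cT_pos.le,
    ENNReal.ofReal_pow cA_pos.le]

/-- **uniform lower bound of the weights of corridors** -/
theorem gC_low {η : ℝ} (hη : 0 < η) (hη1 : 10 * η ≤ 1) :
    ∀ᶠ ε : ℝ in 𝓝[>] 0, 0 < ε ∧ ∀ (hε : 0 < ε) (hη : 0 < η) {M : ℕ} [Fintype (ZMod M)]
      {W : ℤ → ℤ × ℤ} (P : FPath M W) (Ac e : ℤ → ℤ) (i : ZMod 3),
      ENNReal.ofReal ((cT * cA) ^ M) ≤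
        ∫⁻ ω, gC P (stdT hε hη) Ac e i (cfg ε ω) ∂sampleLaw := by
  filter_upwards [tpl_ev hη hη1] with ε h
  refine ⟨h.1, fun hε hη M _ W P Ac e i => ?_⟩
  obtain ⟨-, h1, h2, -⟩ := h.2.2.2 hε hη
  rw [lint_gC, mul_pow, ENNReal.ofReal_mul (pow_nonneg cT_pos.le _),
    ENNReal.ofReal_pow cT_pos.le, ENNReal.ofReal_pow cA_pos.le]
  gcongr

end Crest.Agent.R143.RngLx765
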