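import Crest.Agent.R143.QZ_445
import Crest.Agent.R143.R6Q2_253
import Crest.Agent.R143.QFD_490
import Crest.Agent.R143.VgL_239
import Crest.Agent.R143.RingLow_765
import Crest.Agent.R143.RingU_197

/-!
# Row 143 (S0194), block H: the law of the ring of the family and its error (helper445)

For 197's family `Wi n`, `et n` and 765's template `Tr (et n) ε` :

* `law_ev` : one absolute constant `CE`; for all small `ε` 239's `LawH` at every gate, with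
  `C = CE / n²`
* **`law_maj`** : the majorant of `BO * N` for the same `C` : `∫ R ≤ cZ CE m / c √(2/n) E g`
-/

set_option autoImplicit false

noncomputable section

open scoped Classical

namespace Crest.Agent.R143.QYx445

open MeasureTheory Set Filter Topology
open Crest.ProbabilityR.Voronoi
open Crest.Agent.R143.PP0x831 Crest.Agent.R143.Poisx304 Crest.Agent.R143.Janx304
open Crest.Agent.R143.IndLocx279 Crest.Agent.R143.PWx978 Crest.Agent.R143.Tplx978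
open Crest.Agent.R143.Dblx609 Crest.Agent.R143.Dbl2x609 Crest.Agent.R143.HGluex136
  Crest.Agent.R143.Asm3x414 Crest.Agent.R143.Asm4x414 Crest.Agent.R143.JColx54
open Crest.Agent.R143.WgtHx445 Crest.Agent.R143.BNx88 Crest.Agent.R143.R6Qx253
  Crest.Agent.R143.R6Q2x253
open Crest.Agent.R143.SqGx445 Crest.Agent.R143.QZx445 Crest.Agent.R143.VgLx239
open Crest.Agent.R143.TileRx228 Crest.Agent.R143.PthFx765 Crest.Agent.R143.CorNx765
open Crest.Agent.R143.TplIx204 Crest.Agent.R143.RngNx765 Crest.Agent.R143.RngLx765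
open Crest.Agent.R143.RingUx197 (et et_pos et_mul Wi)
open Crest.Agent.R143.PosFx653 (Dt Tr cc_ne cc_le)
open scoped ENNReal

theorem dt_h {n : ℕ} (hn : 0 < n) {ε : ℝ} (hε : 0 < ε) (hη : 0 < et n) :
    (Dt (et n) ε hε hη).h = 1 / n := by
  have h1 : (Dt (et n) ε hε hη).h = 100 * et n := rfl
  have h2 := et_mul hn
  have h3 : (n : ℝ) ≠ 0 := by exact_mod_cast hn.ne'
  rw [h1, eq_div_iff h3]
  exact h2

/-- **the law of the ring with its constant and the majorant of its error** -/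
theorem law_maj : ∃ CE : ℝ, 0 ≤ CE ∧ ∀ {n : ℕ}, 10 ≤ n → ∀ᶠ ε : ℝ in 𝓝[>] 0, 0 < ε ∧
    ∀ (hε : 0 < ε) (hη : 0 < et n) [Fintype (ZMod (4 * (n + 2)))]
      (P : FPath (4 * (n + 2)) (Wi n)),
    (∀ o : ℤ, LawH (D := Dt (et n) ε hε hη) P (stdT hε hη) true (et n / 2) o 4
      (CE * (1 / n) ^ 2)) ∧
    ∀ {Bb Ui Uo : Set ℂ} {go F e : Cf → ℝ≥0∞} {c : ℝ}, 0 < c →
    WD ε Bb Ui Uo (gO P (stdT hε hη) true) go F e (ENNReal.ofReal c)⁻¹ →
    Rall (12 * et n) (52 * et n) (100 * et n) (Wi n) ⊆ Ui →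
    ∀ {N : Finset ℂ → Finset ℂ → ℝ≥0∞} {m : ℝ}, 0 ≤ m →
    (∀ᵐ ω ∂sampleLaw, ∀ β ∈ (Ap ε Bb ω).powerset,
      wt Bb (gO P (stdT hε hη) true) go F e (paint (Ap ε Bb ω) β) ≠ 0 →
        N (Ap ε Bb ω) β ≤ ENNReal.ofReal m) → ∀ o : ℤ,
    ∃ R : Sample → ℝ≥0∞,
      MajQ ε Bb (wt Bb (gO P (stdT hε hη) true) go F e)
        (fun A β => ENNReal.ofReal (BO (D := Dt (et n) ε hε hη) P (stdT hε hη) true (et n / 2)
          (o - ((4 * (n + 2) : ℕ) : ℤ)) 4 (CE * (1 / n) ^ 2) (paint A β)) * N A β) R ∧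
      ∫⁻ ω, R ω ∂sampleLaw ≤ ENNReal.ofReal (cZ CE * m / c * √(2 / n)) *
        Mg ε Bb (wt Bb (gO P (stdT hε hη) true) go F e) := by
  obtain ⟨C₁, hC₁, h⟩ := ring_hC2 QFDx490.qfd (cc := ENNReal.ofReal cT) (ca := ENNReal.ofReal cA)
    (ENNReal.ofReal_pos.2 cT_pos).ne' (ENNReal.ofReal_pos.2 cA_pos).ne'
  refine ⟨C₁, hC₁, ?_⟩
  intro n hn
  have n0 : 0 < n := by omega
  have hn0 : (10 : ℝ) ≤ n := by exact_mod_cast hn
  have hη0 := et_pos n0
  have hηn := et_mul n0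
  have hη1 : 10 * et n ≤ 1 := by nlinarith
  have hh0 : (0 : ℝ) < 1 / n := by positivity
  have f1 : ∀ᶠ ε : ℝ in 𝓝[>] 0, ε ≤ 2 * (1 / n) :=
    nhdsWithin_le_nhds (eventually_le_nhds (by positivity))
  have f2 : ∀ᶠ ε : ℝ in 𝓝[>] 0, K₁ * ε ^ 2 ≤ (1 / n) ^ 2 := by
    have hc : Tendsto (fun ε : ℝ => K₁ * ε ^ 2) (𝓝 0) (𝓝 (K₁ * 0 ^ 2)) :=
      ((continuous_pow 2).tendsto 0).const_mul K₁
    rw [zero_pow two_ne_zero, mul_zero] at hc
    exact nhdsWithin_le_nhds (hc.eventually (ge_mem_nhds (by positivity)))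
  filter_upwards [tpl_ev hη0 hη1, f1, f2] with ε g1 g2 g3
  refine ⟨g1.1, fun hε hη _ P => ?_⟩
  obtain ⟨t1, t2, t3, t4⟩ := g1.2.2.2 hε hη
  have hh := dt_h n0 hε hη
  have hC : ∀ (o : ℤ) (k : ℕ), ∫⁻ ω, gO P (stdT hε hη) true (cfg ε ω) *
      ENNReal.ofReal (‖SV (Dt (et n) ε hε hη) P (et n / 2) o k (cfg ε ω)‖ ^ 2) ∂sampleLaw ≤
      ENNReal.ofReal (C₁ * (1 / n) ^ 2) * ∫⁻ ω, gO P (stdT hε hη) true (cfg ε ω) ∂sampleLaw := by
    intro o k
    have key := h (numC hε hη) hε cc_ne cc_le (stdT hε hη) t1 P (Or.inr (by omega))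
      (by rw [hh]; exact g2) (by rw [hh]; exact g3) t2 t3 o k
    refine key.trans (le_of_eq ?_)
    rw [show C₁ * (Dt (et n) ε hε hη).h ^ 2 = C₁ * (1 / (n : ℝ)) ^ 2 by rw [hh]]
    rfl
  have ht : (Trn (4 * (n + 2)) (Wi n)).card ≤ 4 := sqv_turns (by omega) _
  refine ⟨fun o => ⟨t4, ht, by omega, by omega, by positivity, fun k _ => hC _ k⟩, ?_⟩
  intro Bb Ui Uo go F e c hc H hU N m hm hN o
  obtain ⟨R, hR, hI⟩ := ring_bn' (D := Dt (et n) ε hε hη) (t := 4) (N0 := 12) P (stdT hε hη) true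
    (et n / 2) t4 (o - ((4 * (n + 2) : ℕ) : ℤ)) ht (by omega) (by omega) hC₁ hh0
    ((div_le_one (by linarith)).2 (by linarith)) (num_M (by omega)) (fun k _ => hC _ k) H hU hN
  refine ⟨R, hR, hI.trans ?_⟩
  refine mul_le_mul_left ?_ _
  exact num_ring (n := n) hC₁ hm hc (by omega)

end Crest.Agent.R143.QYx445
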