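import Crest.Agent.R143.PlR_239
import Crest.Agent.R143.QY_445
import Crest.Agent.R143.KapN_565
import Crest.Agent.R143.PotF_690
import Crest.Agent.R143.CloI_715

/-!
# Row 143 (S0194), block H, H5 (helper239): the ring law for 690's `PotF.split` (box B6)

* `nn_eq` : 690's field is 490's field; `kap_et` : 239's number is 565's number
* `t_uniq` : the gate times of a loop are unique
* **`ring_k`** : every base gate `o`: times `T` with `RQ`, `RLW`, gates, confinement, the law (+ form,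
  `κ = -kap n ε`)
* **`lo_law`** : the same for the times of a given 715 `Lo`
* **`law_mq`** : `∫ R ≤ η mass`, eventually `n`, eventually `ε`
-/

set_option autoImplicit false
set_option linter.all false

noncomputable section

open scoped Classical

namespace Crest.Agent.R143.LawKx239

open MeasureTheory Set Filter Topology
open Crest.ProbabilityR.Voronoi
open Crest.Agent.R143.B0x346 Crest.Agent.R143.DelGx806 Crest.Agent.R143.DelRx806
  Crest.Agent.R143.JColx54 Crest.Agent.R143.Locx922 Crest.Agent.R143.SumScx302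
  Crest.Agent.R143.HBudx136
open Crest.Agent.R143.Frame1x395 Crest.Agent.R143.Frame2x395 Crest.Agent.R143.Frame3x395
  Crest.Agent.R143.Frame4x395 Crest.Agent.R143.Frame8x395 Crest.Agent.R143.Frame9x395
  Crest.Agent.R143.Frame10x395 Crest.Agent.R143.Frame11x395
open Crest.Agent.R143.PP0x831 Crest.Agent.R143.Poisx304 Crest.Agent.R143.FinMx609
open Crest.Agent.R143.IndLocx279 Crest.Agent.R143.PWx978 Crest.Agent.R143.Tplx978
open Crest.Agent.R143.Dblx609 Crest.Agent.R143.Dbl2x609 Crest.Agent.R143.HGluex136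
  Crest.Agent.R143.Asm3x414 Crest.Agent.R143.Asm4x414
open Crest.Agent.R143.WgtHx445
open Crest.Agent.R143.RingDx117 (RD)
open Crest.Agent.R143.TileRx228 Crest.Agent.R143.PthFx765 Crest.Agent.R143.TplIx204
open Crest.Agent.R143.PathDx503 Crest.Agent.R143.PathGx503 Crest.Agent.R143.RingPx503
  Crest.Agent.R143.RingIx503
open Crest.Agent.R143.CorHx713 (yy xx)
open Crest.Agent.R143.CorVx169 (IsS)
open Crest.Agent.R143.RingTx263 Crest.Agent.R143.PotPx263 Crest.Agent.R143.Winx355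
  Crest.Agent.R143.RWrx355 Crest.Agent.R143.RcTx263
open Crest.Agent.R143.RingXx713.RngH (BT QO)
open Crest.Agent.R143.RingXx713 (RngH)
open Crest.Agent.R143.RngNx765 Crest.Agent.R143.CorNx765 Crest.Agent.R143.RngLx765
open Crest.Agent.R143.FinCx811 Crest.Agent.R143.ColXx829 Crest.Agent.R143.SmallAx304
open Crest.Agent.R143.RcTx422 (scol scol_hull)
open Crest.Agent.R143.LawRx239 Crest.Agent.R143.VgLx239 Crest.Agent.R143.PlRx239
open Crest.Agent.R143.RingUx197
open Crest.Agent.R143.KapNx565 (en)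
open Crest.Agent.R143.PosFx653 (Dt Tr)
open Crest.Agent.R143.CloIx715 (Lo)
open Crest.Agent.R143.WLocx713 (xc)
open scoped ENNReal ComplexConjugate

/-! ### field and number -/

/-- **690's field is 490's field** -/
theorem nn_eq (S : Finset ℂ) (h : D0 S) : PotFx690.nn S h = Engx490.nn S h := by
  have c := Frame7x395.om_conj
  have o3 := DefsNx346.om3
  unfold PotFx690.nn Engx490.nn DefsNx346.RE Mass1x302.Nn
  rw [map_add, map_add, map_mul, map_mul, map_pow, c]
  show conj (Frame5x395.th S h.1) + om ^ 2 * conj h.1.1 + (om ^ 2) ^ 2 * conj h.1.2 =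
    conj (Frame5x395.th S h.1) + om * conj h.1.2 + om ^ 2 * conj h.1.1
  linear_combination (om * conj h.1.2) * o3

theorem en_et (n : ℕ) : en n = et n := rfl

/-- **239's number is 565's number** -/
theorem kap_et {n : ℕ} {ε : ℝ} (hε : 0 < ε) (hη : 0 < et n) :
    kap (Dt (et n) ε hε hη) (stdT hε hη) true (et n / 2) = KapNx565.kap n ε :=
  (KapNx565.kap_eq hε hη).symm

/-! ### the gate times are unique -/

section uniq

variable {D C : Type} {M : CMap D C} {x : D → ZMod 2} {p : D}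

theorem per_eq {N N' : ℕ} (L : Chordx355.Lp M x p N) (L' : Chordx355.Lp M x p N') : N = N' := by
  rcases Nat.lt_trichotomy N N' with h | h | h
  · exact absurd L.per.symm (L'.inj 0 N L.pos h)
  · exact h
  · exact absurd L'.per.symm (L.inj 0 N' L'.pos h)

theorem t_add {N n : ℕ} {T : ℕ → ℕ} (per : ∀ k, T (k + n) = T k + N) (r q : ℕ) :
    T (r + q * n) = T r + q * N := by
  induction q with
  | zero => simp
  | succ q ih =>
    rw [show r + (q + 1) * n = r + q * n + n by ring, per, ih]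
    ring

/-- **uniqueness of the gate times** -/
theorem t_uniq {N N' n : ℕ} {T T' : ℕ → ℕ} (L : Chordx355.Lp M x p N)
    (L' : Chordx355.Lp M x p N') (m : StrictMono T) (m' : StrictMono T') (z : T 0 = 0)
    (z' : T' 0 = 0) (per : ∀ k, T (k + n) = T k + N) (per' : ∀ k, T' (k + n) = T' k + N')
    (n0 : 0 < n) (h : ∀ k, NonXx592.P M x p (T k) = NonXx592.P M x p (T' k)) :
    T = T' ∧ N = N' := by
  have e := per_eq L L'
  subst e
  refine ⟨?_, rfl⟩
  have tn : T n = N := by have := per 0; rwa [z, zero_add, zero_add] at this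
  have tn' : T' n = N := by have := per' 0; rwa [z', zero_add, zero_add] at this
  have key : ∀ r, r < n → T r = T' r := by
    intro r hr
    have h1 : T r < N := by rw [← tn]; exact m hr
    have h2 : T' r < N := by rw [← tn']; exact m' hr
    rcases Nat.lt_trichotomy (T r) (T' r) with h3 | h3 | h3
    · exact absurd (h r) (L.inj _ _ h3 h2)
    · exact h3
    · exact absurd (h r).symm (L.inj _ _ h3 h1)
  funext k
  have h1 := Nat.mod_add_div k n
  rw [mul_comm] at h1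
  rw [← h1, t_add per, t_add per', key _ (Nat.mod_lt _ n0)]

end uniq

/-! ### the law at the real ring -/

section ring

variable {n : ℕ} {A β : Finset ℂ} {hS : GP (A : Set ℂ)} {h3 : 3 ≤ A.card} {U : Set ℂ} {d ε : ℝ}

/-- regions of the walk from the gate `o` -/
abbrev RegO (n : ℕ) (hS : GP (A : Set ℂ)) (o : ℤ) (k : ℕ) : Set (Cs hS) :=
  clR hS (BT (et n) (Wi n) (o - 1 - k))

/-- the gate positions -/
abbrev wK (n : ℕ) (o : ℤ) (l : ℕ) : ℂ := wl (100 * et n) (Wi n) o l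

/-- regions of the charges -/
abbrev FK (A : Finset ℂ) (n : ℕ) (o : ℤ) : ℕ → Set (D0 A) := FR A (QO (et n) (Wi n) o)

/-- the bound of the law -/
abbrev BK (P : FPath (4 * (n + 2)) (Wi n)) (hε : 0 < ε) (hη : 0 < et n)
    [Fintype (ZMod (4 * (n + 2)))] (o : ℤ) (C : ℝ) (X : Cf) : ℝ :=
  BO (D := Dt (et n) ε hε hη) P (stdT hε hη) true (et n / 2) (o - ((4 * (n + 2) : ℕ) : ℤ)) 4 C X

/-- facts of the ring with base gate `o` and times `T` -/
structure RK (R : RngH (Xc hS h3 (chiS hS h3 β)) U (4 * (n + 2)) (Wi n) (et n) d) (o : ℤ)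
    (T : ℕ → ℕ) : Prop where
  rq : RQ (rc0 hS) (cfg (rc0 hS) (chiS hS h3 β)) (pR R o) (T (4 * (n + 2))) (4 * (n + 2)) T
    (FK A n o)
  rlw : RLW (rc0 hS) (chiS hS h3 β) (pR R o) (T (4 * (n + 2))) (4 * (n + 2)) T (RegO n hS o)
  gate : ∀ k : ℕ, NonXx592.P (rc0 hS) (cfg (rc0 hS) (chiS hS h3 β)) (pR R o) (T k) =
    pR R (o - k)
  conf : ∀ k i : ℕ, T k ≤ i → i ≤ T (k + 1) →
    NonXx592.P (rc0 hS) (cfg (rc0 hS) (chiS hS h3 β)) (pR R o) i ∈
      RD A (BT (et n) (Wi n) (o - 1 - k))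
  per : ∀ k, wK n o (k + 4 * (n + 2)) = wK n o k
  law : ∀ {ε : ℝ} (hε : 0 < ε) (hη : 0 < et n) [Fintype (ZMod (4 * (n + 2)))] {C : ℝ},
    LawH (D := Dt (et n) ε hε hη) R.path (stdT hε hη) true (et n / 2) o 4 C → ∀ i j : ℕ, i ≤ j →
    j ≤ 4 * (n + 2) → ‖∑ k ∈ Finset.Ico i j, Vg (rc0 hS) (cfg (rc0 hS) (chiS hS h3 β)) (pR R o) T
      (4 * (n + 2)) (PotFx690.nn A) (FK A n o) k + -KapNx565.kap n ε * (wK n o j - wK n o i)‖ ^ 2 ≤
        BK R.path hε hη o C (paint A β)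

/-- **the ring with base gate `o`** -/
theorem ring_k (R : RngH (Xc hS h3 (chiS hS h3 β)) U (4 * (n + 2)) (Wi n) (et n) d) (o : ℤ) :
    ∃ T : ℕ → ℕ, RK R o T := by
  obtain ⟨p, T, hp, hper, h1, h2, h4, h5, h6⟩ := ring_all R o
  have e : p = pR R := funext fun a => Subtype.ext (hp a)
  subst e
  refine ⟨T, h1, h2, h4, h5, fun k => wl_per R.path _ _ _, ?_⟩
  intro ε hε hη _ C L i j hij hj
  have s : IsS (Dt (et n) ε hε hη) (et n) := ⟨rfl, rfl, rfl, rfl, rfl, rfl⟩
  have h7 := h6 s (stdT hε hη) L i j hij hj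
  rw [BO_paint R s (stdT hε hη) L, kap_et] at h7
  have e2 : (PotFx690.nn A) = Engx490.nn A := funext (nn_eq A)
  rw [e2, neg_mul, ← sub_eq_add_neg]
  exact h7

/-- **the same for the times of 715's `Lo`** -/
theorem lo_law (R : RngH (Xc hS h3 (chiS hS h3 β)) U (4 * (n + 2)) (Wi n) (et n) d) {o : ℤ}
    {T : ℕ → ℕ} {g₀ : D0 A} (Q : Lo (clo_X R) hS (scol_hull (chiS hS h3 β)) o T g₀) : RK R o T := by
  obtain ⟨T', K⟩ := ring_k R o
  have e : xc hS (scol_hull (chiS hS h3 β)) = cfg (rc0 hS) (chiS hS h3 β) :=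
    FactIx432.cfg_scol (hS := hS) h3 β
  have hL : Chordx355.Lp (rc0 hS) (cfg (rc0 hS) (chiS hS h3 β)) (pR R o) (T (4 * (n + 2))) := by
    have := Q.L
    rwa [e] at this
  have hT : ∀ k, NonXx592.P (rc0 hS) (cfg (rc0 hS) (chiS hS h3 β)) (pR R o) (T k) =
      pR R (o - k) := by
    have := Q.Tp
    rwa [e] at this
  obtain ⟨e1, -⟩ := t_uniq hL K.rq.L Q.R.mono K.rq.mono Q.R.zero K.rq.zero Q.R.per K.rq.per
    (by omega) fun k => by rw [hT, K.gate]
  rw [e1]
  exact K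

end ring

/-! ### the majorant -/

/-- **the law and its majorant** : `∫ R ≤ η mass`, eventually `n`, eventually `ε` -/
theorem law_mq : ∃ CE : ℝ, 0 ≤ CE ∧ ∀ c : ℝ, 0 < c → ∀ η : ℝ, 0 < η → ∀ᶠ n : ℕ in atTop,
    ∀ᶠ ε : ℝ in 𝓝[>] 0, 0 < ε ∧
    ∀ (hε : 0 < ε) (hη : 0 < et n) [Fintype (ZMod (4 * (n + 2)))]
      (P : FPath (4 * (n + 2)) (Wi n)),
    (∀ o : ℤ, LawH (D := Dt (et n) ε hε hη) P (stdT hε hη) true (et n / 2) o 4
      (CE * (1 / n) ^ 2)) ∧
    ∀ {Bb Ui Uo : Set ℂ} {go F e : Cf → ℝ≥0∞},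
    WD ε Bb Ui Uo (gO P (stdT hε hη) true) go F e (ENNReal.ofReal c)⁻¹ →
    Rall (12 * et n) (52 * et n) (100 * et n) (Wi n) ⊆ Ui → ∀ o : ℤ,
    ∃ R : Sample → ℝ≥0∞,
      MajQ ε Bb (wt Bb (gO P (stdT hε hη) true) go F e)
        (fun A β => ENNReal.ofReal (BK P hε hη o (CE * (1 / n) ^ 2) (paint A β))) R ∧
      ∫⁻ ω, R ω ∂sampleLaw ≤ ENNReal.ofReal η *
        Mg ε Bb (wt Bb (gO P (stdT hε hη) true) go F e) := by
  obtain ⟨CE, hCE, h⟩ := QYx445.law_maj
  refine ⟨CE, hCE, fun c hc η hη0 => ?_⟩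
  have hlim : Tendsto (fun n : ℕ => QZx445.cZ CE * 1 / c * √(2 / n)) atTop (𝓝 0) := by
    have h1 : Tendsto (fun n : ℕ => (2 : ℝ) / n) atTop (𝓝 0) :=
      tendsto_const_div_atTop_nhds_zero_nat 2
    have h2 : Tendsto (fun n : ℕ => √((2 : ℝ) / n)) atTop (𝓝 0) := by
      have := (Real.continuous_sqrt.tendsto 0).comp h1
      rwa [Real.sqrt_zero] at this
    have h3 := h2.const_mul (QZx445.cZ CE * 1 / c)
    rwa [mul_zero] at h3
  filter_upwards [hlim.eventually (ge_mem_nhds hη0), eventually_ge_atTop 10] with n h1 hn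
  filter_upwards [h hn] with ε h2
  refine ⟨h2.1, fun hε hη _ P => ?_⟩
  obtain ⟨a1, a2⟩ := h2.2 hε hη P
  refine ⟨a1, fun H hU o => ?_⟩
  obtain ⟨R, hR, hI⟩ := a2 hc H hU (N := fun _ _ => 1) (m := 1) zero_le_one
    (ae_of_all _ fun ω β _ _ => by rw [ENNReal.ofReal_one]) o
  refine ⟨R, ?_, hI.trans ?_⟩
  · refine ⟨hR.me, ?_⟩
    filter_upwards [hR.le] with ω h3
    refine le_trans (le_of_eq ?_) h3
    refine Finset.sum_congr rfl fun β _ => ?_
    show _ = _ * (_ * 1)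
    rw [mul_one]
  · gcongr

end Crest.Agent.R143.LawKx239
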