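import Crest.Agent.R143.LawG_348
import Crest.Agent.R143.RingU_197

/-!
# Row 143 (S0194), block H: law ⇒ ring and white circuit, on the names of the family (helper348)

197's family: `et n`, `Wi n = sqV (n + 2) (-1, -1)`, `Wo n = sqV (n + 22) (-11, -11)`, box
`closedBall 0 (Rr + 1)`, environment `EnvS A Rr d ρ0`; region `U = closedBall 0 4`.

* `sqv_str` : five straight tiles; `rr_ball`, `rall_ball` : the tiles are in `closedBall 0 3` / `3.5`
* **`law_fam`** : almost surely, for all `β`: `gO P H true (paint (Ap ε B ω) β) ≠ 0`,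
  `gO P' H false (paint ..) ≠ 0`, `EnvS` give `RngH .. (Wi n)` and `WhtH .. (Wo n)` for the colouring
  `chiS hS h3 β`
* **`law_wt`** : the same from 445's weight `wt`
-/

set_option autoImplicit false
set_option linter.all false

noncomputable section

open scoped Classical

namespace Crest.Agent.R143.LawUx348

open MeasureTheory Set ProbabilityTheory
open Crest.ProbabilityR.Voronoi
open Crest.Agent.R143.B0x346 Crest.Agent.R143.Locx922
open Crest.Agent.R143.PP0x831 Crest.Agent.R143.Poisx304 Crest.Agent.R143.Janx304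
open Crest.Agent.R143.IndLocx279 Crest.Agent.R143.PWx978 Crest.Agent.R143.Tplx978
open Crest.Agent.R143.WLocx713 Crest.Agent.R143.IndLoc3x279
open Crest.Agent.R143.TileRx228 Crest.Agent.R143.PthFx765 Crest.Agent.R143.TplIx204
open Crest.Agent.R143.CorNx765 Crest.Agent.R143.RngNx765
open Crest.Agent.R143.GPosFx348 Crest.Agent.R143.GPosCx348 Crest.Agent.R143.GPosRx348
open Crest.Agent.R143.LawGx348
open Crest.Agent.R143.FinCx811 Crest.Agent.R143.ColXx829 Crest.Agent.R143.Dbl2x609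
open Crest.Agent.R143.FinMx609
open Crest.Agent.R143.RingXx713 (RngH)
open Crest.Agent.R143.SmallAx304 (chiS)
open Crest.Agent.R143.SqGx445 (sqV sqv_fpath sc rr_sup)
open Crest.Agent.R143.SqPx503 (sqW)
open Crest.Agent.R143.CircPx838 (sup)
open Crest.Agent.R143.RingUx197 (et Wi Wo et_pos et_mul norm_sp zc_eq)
open Crest.Agent.R143.EnvRx795 (EnvS eF)
open scoped ENNReal

/-! ### geometry of the two squares -/

/-- five straight tiles -/
theorem sqv_str {K : ℕ} (hK : 6 ≤ K) (v : ℤ × ℤ) :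
    ∃ g, ∀ j, g - 2 ≤ j → j ≤ g + 2 → ge (sqV K v) (j + 1) = ge (sqV K v) j := by
  obtain ⟨g, hg⟩ := RingXx713.sq_str hK
  refine ⟨g, fun j h1 h2 => ?_⟩
  have e : ∀ a, ge (sqV K v) a = ge (sqW K) a := by
    intro a
    unfold ge sqV
    rw [add_sub_add_right_eq_sub]
  rw [e, e]
  exact hg j h1 h2

theorem sc_wi {n : ℕ} (hn : 0 < n) : sc (100 * et n) (n + 2) (-1, -1) = RingUx197.zB := by
  have h := et_mul hn
  unfold sc RingUx197.zB
  apply Complex.ext
  · show 100 * et n * (((-1 : ℤ) : ℝ) + ((n + 2 : ℕ) : ℝ) / 2) = 1 / 2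
    push_cast
    linear_combination h / 2
  · show 100 * et n * (((-1 : ℤ) : ℝ) + ((n + 2 : ℕ) : ℝ) / 2) = 1 / 2
    push_cast
    linear_combination h / 2

theorem sc_wo {n : ℕ} (hn : 0 < n) : sc (100 * et n) (n + 22) (-11, -11) = RingUx197.zB := by
  have h := et_mul hn
  unfold sc RingUx197.zB
  apply Complex.ext
  · show 100 * et n * (((-11 : ℤ) : ℝ) + ((n + 22 : ℕ) : ℝ) / 2) = 1 / 2
    push_cast
    linear_combination h / 2
  · show 100 * et n * (((-11 : ℤ) : ℝ) + ((n + 22 : ℕ) : ℝ) / 2) = 1 / 2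
    push_cast
    linear_combination h / 2

/-- the tiles of the ring -/
theorem sup_wi {n : ℕ} (hn : 0 < n) {A B : ℝ} (hA : 0 < A) (hB : B ≤ 100 * et n) {a : ℤ} {s : ℂ}
    (hs : s ∈ RR A B (100 * et n) (Wi n) a) :
    |sup (s - RingUx197.zB) - (1 / 2 + 100 * et n)| < A := by
  have h := rr_sup (K := n + 2) (by omega) (by have := et_pos hn; linarith) hA hB
    (v := (-1, -1)) (a := a) (s := s) hs
  rw [sc_wi hn] at h
  have e : ((n + 2 : ℕ) : ℝ) * (100 * et n) / 2 = 1 / 2 + 100 * et n := by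
    have := et_mul hn
    push_cast
    linear_combination this / 2
  rwa [e] at h

/-- the tiles of the white circuit -/
theorem sup_wo {n : ℕ} (hn : 0 < n) {A B : ℝ} (hA : 0 < A) (hB : B ≤ 100 * et n) {a : ℤ} {s : ℂ}
    (hs : s ∈ RR A B (100 * et n) (Wo n) a) :
    |sup (s - RingUx197.zB) - (1 / 2 + 1100 * et n)| < A := by
  have h := rr_sup (K := n + 22) (by omega) (by have := et_pos hn; linarith) hA hB
    (v := (-11, -11)) (a := a) (s := s) hs
  rw [sc_wo hn] at h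
  have e : ((n + 22 : ℕ) : ℝ) * (100 * et n) / 2 = 1 / 2 + 1100 * et n := by
    have := et_mul hn
    push_cast
    linear_combination this / 2
  rwa [e] at h

theorem norm_sup (s : ℂ) : ‖s‖ ≤ 2 * sup (s - RingUx197.zB) + 1 := norm_sp s

theorem et_le {n : ℕ} (hn : 12 ≤ n) : 1200 * et n ≤ 1 := by
  have h := et_mul (show 0 < n by omega)
  have h1 : (12 : ℝ) ≤ n := by exact_mod_cast hn
  have h2 := et_pos (show 0 < n by omega)
  nlinarith

theorem ball_wi {n : ℕ} (hn : 12 ≤ n) {A B : ℝ} (hA : 0 < A) (hA' : A ≤ 12 * et n)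
    (hB : B ≤ 100 * et n) {a : ℤ} {s : ℂ} (hs : s ∈ RR A B (100 * et n) (Wi n) a) : ‖s‖ ≤ 3 := by
  have h1 := sup_wi (by omega) hA hB hs
  have h2 := norm_sup s
  have h3 := et_le hn
  rw [abs_lt] at h1
  linarith

theorem ball_wo {n : ℕ} (hn : 24 ≤ n) {A B : ℝ} (hA : 0 < A) (hA' : A ≤ 12 * et n)
    (hB : B ≤ 100 * et n) {a : ℤ} {s : ℂ} (hs : s ∈ RR A B (100 * et n) (Wo n) a) : ‖s‖ ≤ 3 := by
  have h1 := sup_wo (by omega) hA hB hs
  have h2 := norm_sup s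
  have h3 := et_mul (show 0 < n by omega)
  have h4 : (24 : ℝ) ≤ n := by exact_mod_cast hn
  have h5 := et_pos (show 0 < n by omega)
  have h6 : 2400 * et n ≤ 1 := by nlinarith
  rw [abs_lt] at h1
  linarith

/-! ### law -/

variable {D : DT} {ε : ℝ} {hε : 0 < ε} {c : ℝ≥0∞} {c0 : c ≠ 0} {c1 : c ≤ 1} {n : ℕ}
  [Fintype (ZMod (4 * (n + 2)))] [Fintype (ZMod (4 * (n + 22)))]

/-- **LAW ⇒ RING AND WHITE CIRCUIT** on the names of the family -/
theorem law_fam (hn : 24 ≤ n) (N : NumC D (et n)) (P : FPath (4 * (n + 2)) (Wi n))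
    (P' : FPath (4 * (n + 22)) (Wo n))
    (H : Std (D.raw ε hε c c0 c1).tpl D.A' D.B' D.h Prod.fst) (hP : (D.raw ε hε c c0 c1).AePos)
    {Rr ρ0 d : ℝ} (hRr : 4 ≤ Rr) (hd : 0 < d) (hd' : 100 * d ≤ et n) :
    ∀ᵐ ω ∂sampleLaw, ∀ β : Finset ℂ,
      RngNx765.gO P H true (paint (Ap ε (Metric.closedBall 0 (Rr + 1)) ω) β) ≠ 0 →
      RngNx765.gO P' H false (paint (Ap ε (Metric.closedBall 0 (Rr + 1)) ω) β) ≠ 0 →
      EnvS (Ap ε (Metric.closedBall 0 (Rr + 1)) ω) Rr d ρ0 →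
      ∀ (hS : GP (Ap ε (Metric.closedBall 0 (Rr + 1)) ω : Set ℂ))
        (h3 : 3 ≤ (Ap ε (Metric.closedBall 0 (Rr + 1)) ω).card),
        RngH (Xc hS h3 (chiS hS h3 β)) (Metric.closedBall 0 4) (4 * (n + 2)) (Wi n) (et n) d ∧
        WhtH (Xc hS h3 (chiS hS h3 β)) (Metric.closedBall 0 4) (4 * (n + 22)) (Wo n) (et n) d := by
  have e0 := et_pos (show 0 < n by omega)
  have e1 := et_le (show 12 ≤ n by omega)
  have kB : ∀ {W : ℤ → ℤ × ℤ}, (∀ {a : ℤ} {s : ℂ}, s ∈ RR (12 * et n) (52 * et n) (100 * et n) W a →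
      ‖s‖ ≤ 3) → ∀ r : ℝ, 3 ≤ r →
      Rall (12 * et n) (52 * et n) (100 * et n) W ⊆ Metric.closedBall 0 r := by
    intro W h r hr
    refine iUnion_subset fun a s hs => ?_
    rw [mem_closedBall_zero_iff]
    exact (h hs).trans hr
  have kU : ∀ {W : ℤ → ℤ × ℤ}, (∀ {a : ℤ} {s : ℂ}, s ∈ RR (9 * et n) (51 * et n) (100 * et n) W a →
      ‖s‖ ≤ 3) → ∀ a : ℤ, ∀ w ∈ RR (9 * et n) (51 * et n) (100 * et n) W a, ∀ s : ℂ,
      ‖s - w‖ ≤ 100 * et n → s ∈ Metric.closedBall (0 : ℂ) 4 := by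
    intro W h a w hw s hs
    rw [mem_closedBall_zero_iff]
    have h1 := norm_add_le (s - w) w
    rw [sub_add_cancel] at h1
    have h2 := h hw
    linarith
  have i1 : ∀ {a : ℤ} {s : ℂ}, s ∈ RR (12 * et n) (52 * et n) (100 * et n) (Wi n) a → ‖s‖ ≤ 3 :=
    fun hs => ball_wi (by omega) (by linarith) le_rfl (by linarith) hs
  have i2 : ∀ {a : ℤ} {s : ℂ}, s ∈ RR (9 * et n) (51 * et n) (100 * et n) (Wi n) a → ‖s‖ ≤ 3 :=
    fun hs => ball_wi (by omega) (by linarith) (by linarith) (by linarith) hs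
  have o1 : ∀ {a : ℤ} {s : ℂ}, s ∈ RR (12 * et n) (52 * et n) (100 * et n) (Wo n) a → ‖s‖ ≤ 3 :=
    fun hs => ball_wo (by omega) (by linarith) le_rfl (by linarith) hs
  have o2 : ∀ {a : ℤ} {s : ℂ}, s ∈ RR (9 * et n) (51 * et n) (100 * et n) (Wo n) a → ‖s‖ ≤ 3 :=
    fun hs => ball_wo (by omega) (by linarith) (by linarith) (by linarith) hs
  filter_upwards [law_rng_paint N P H hP (by omega) (sqv_str (by omega) _)
      Metric.isBounded_closedBall (kB i1 (Rr + 1) (by linarith)) hd hd' (kU i2)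
      (kB i1 4 (by norm_num)),
    law_wht_paint N P' H hP (by omega) Metric.isBounded_closedBall
      (kB o1 (Rr + 1) (by linarith)) hd hd' (kU o2) (kB o1 4 (by norm_num))]
    with ω h1 h2 β g1 g2 env hS h3
  have hH : Hol (Ap ε (Metric.closedBall 0 (Rr + 1)) ω : Set ℂ) (Metric.closedBall 0 4) d :=
    env.holU fun z hz => by
      rw [mem_closedBall_zero_iff] at hz
      linarith
  exact ⟨h1 hH hS h3 β g1, h2 hH hS h3 β g2⟩

/-- **the same from 445's weight** -/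
theorem law_wt (hn : 24 ≤ n) (N : NumC D (et n)) (P : FPath (4 * (n + 2)) (Wi n))
    (P' : FPath (4 * (n + 22)) (Wo n))
    (H : Std (D.raw ε hε c c0 c1).tpl D.A' D.B' D.h Prod.fst) (hP : (D.raw ε hε c c0 c1).AePos)
    {Rr ρ0 d : ℝ} (hRr : 4 ≤ Rr) (hd : 0 < d) (hd' : 100 * d ≤ et n) {Ui Uo : Set ℂ}
    {F e : Cf → ℝ≥0∞} {Kw : ℝ≥0∞}
    (Wd : WgtHx445.WD ε (Metric.closedBall 0 (Rr + 1)) Ui Uo (RngNx765.gO P H true)
      (RngNx765.gO P' H false) F e Kw)
    (he : ∀ A β : Finset ℂ, (A : Set ℂ) ⊆ Metric.closedBall 0 (Rr + 1) → e (paint A β) ≠ 0 →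
      EnvS A Rr d ρ0) :
    ∀ᵐ ω ∂sampleLaw, ∀ β : Finset ℂ,
      WgtHx445.wt (Metric.closedBall 0 (Rr + 1)) (RngNx765.gO P H true) (RngNx765.gO P' H false)
        F e (paint (Ap ε (Metric.closedBall 0 (Rr + 1)) ω) β) ≠ 0 →
      EnvS (Ap ε (Metric.closedBall 0 (Rr + 1)) ω) Rr d ρ0 ∧
      F (paint (Ap ε (Metric.closedBall 0 (Rr + 1)) ω) β) ≠ 0 ∧
      ∀ (hS : GP (Ap ε (Metric.closedBall 0 (Rr + 1)) ω : Set ℂ))
        (h3 : 3 ≤ (Ap ε (Metric.closedBall 0 (Rr + 1)) ω).card),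
        RngH (Xc hS h3 (chiS hS h3 β)) (Metric.closedBall 0 4) (4 * (n + 2)) (Wi n) (et n) d ∧
        WhtH (Xc hS h3 (chiS hS h3 β)) (Metric.closedBall 0 4) (4 * (n + 22)) (Wo n) (et n) d := by
  filter_upwards [law_fam (ρ0 := ρ0) hn N P P' H hP hRr hd hd'] with ω h β g
  obtain ⟨g1, g2, g3, g4⟩ := Wd.w_ne ((Asm4x414.paint_fin _ β).subset inter_subset_left) g
  have env := he _ β (by rw [coe_Ap hε Metric.isBounded_closedBall]; exact inter_subset_right) g4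
  exact ⟨env, g3, fun hS h3 => h β g1 g2 env hS h3⟩

end Crest.Agent.R143.LawUx348
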