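import Crest.Agent.R143.LabB2_951
import Crest.Agent.R143.Seg_991

/-!
# Row 143 (S0194), K7, LAYER part 1 (helper583): geometry of the bars

Cells of size `s`, `F` a set of cells, `P = Pg s F`. A side is a pair `(r, δ)`, `r ∉ F`,
`r + δ ∈ F`, `δ` a unit vector of `ℤ × ℤ`.

* `bar s w r δ` : segment inside the cell `r`, parallel to the common side, at distance `w`, trimmed
  by `3 w` at both ends; `spk` : the middle spoke from distance `w` to `4 w`; `crv = bar ∪ spk`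
* `Th P a` : sup-norm thickening
* `crv_far` : curves of different sides are far; `crv_out`, `bar_th`
* **`way`** : a point `p ∉ P`, `p ∈ Th P b`, `w ≤ b ≤ 2 w`, is joined outside `P` and inside `Th P b`
  by a straight segment of length `≤ 6 w` to a bar
-/

set_option autoImplicit false

noncomputable section

namespace Crest.Agent.R143.LayGx583

open Set Complex
open Crest.Agent.R158 Crest.Agent.R158.Sp896
open Crest.Agent.R143.Tenx416 (Pg)
open Crest.Agent.R143.LabDx755 (ctr)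
open Crest.Agent.R143.TentMx951 (mem_sq)

/-- unit vectors -/
def Dr (δ : V) : Prop := δ = (1, 0) ∨ δ = (-1, 0) ∨ δ = (0, 1) ∨ δ = (0, -1)

/-- normal coordinate -/
def nc (δ : V) (z : ℂ) : ℝ := z.re * δ.1 + z.im * δ.2
/-- tangential coordinate -/
def tc (δ : V) (z : ℂ) : ℝ := z.re * δ.2 - z.im * δ.1

/-- the bar of the side `(r, δ)` -/
def bar (s w : ℝ) (r δ : V) : Set ℂ :=
  {z | nc δ (z - ctr s r) = s / 2 - w ∧ |tc δ (z - ctr s r)| ≤ s / 2 - 3 * w}

/-- the spoke of the side `(r, δ)` -/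
def spk (s w : ℝ) (r δ : V) : Set ℂ :=
  {z | tc δ (z - ctr s r) = 0 ∧ s / 2 - 4 * w ≤ nc δ (z - ctr s r) ∧ nc δ (z - ctr s r) ≤ s / 2 - w}

/-- bar and spoke -/
def crv (s w : ℝ) (r δ : V) : Set ℂ := bar s w r δ ∪ spk s w r δ

/-- sup-norm thickening -/
def Th (P : Set ℂ) (a : ℝ) : Set ℂ := {z | ∃ y ∈ P, |z.re - y.re| ≤ a ∧ |z.im - y.im| ≤ a}

variable {s w a : ℝ} {F : Set V} {r r' δ δ' : V} {z z' p q : ℂ}

theorem mem_Pg : z ∈ Pg s F ↔ ∃ c ∈ F, z ∈ sq s c := by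
  unfold Pg
  rw [mem_iUnion₂]
  exact ⟨fun ⟨c, hc, h⟩ => ⟨c, hc, h⟩, fun ⟨c, hc, h⟩ => ⟨c, hc, h⟩⟩

theorem ctr_re (r : V) : (z - ctr s r).re = z.re - s * (r.1 + 1 / 2) := by
  unfold ctr; rw [sub_re]

theorem ctr_im (r : V) : (z - ctr s r).im = z.im - s * (r.2 + 1 / 2) := by
  unfold ctr; rw [sub_im]

theorem Th.mono {P : Set ℂ} {b : ℝ} (h : a ≤ b) : Th P a ⊆ Th P b := by
  rintro z ⟨y, hy, h1, h2⟩
  exact ⟨y, hy, h1.trans h, h2.trans h⟩

theorem th_add {P : Set ℂ} {b : ℝ} (h : z ∈ Th P a) (hz : ‖z' - z‖ ≤ b) : z' ∈ Th P (a + b) := by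
  obtain ⟨y, hy, h1, h2⟩ := h
  have e1 := (abs_re_le_norm (z' - z)).trans hz
  have e2 := (abs_im_le_norm (z' - z)).trans hz
  rw [sub_re] at e1
  rw [sub_im] at e2
  rw [abs_le] at *
  refine ⟨y, hy, abs_le.2 ⟨by linarith, by linarith⟩, abs_le.2 ⟨by linarith, by linarith⟩⟩

/-- the points of the curves are in the core of the cell -/
theorem crv_core (hw : 0 < w) (hs : 16 * w ≤ s) (hδ : Dr δ) (h : z ∈ crv s w r δ) :
    |(z - ctr s r).re| ≤ s / 2 - w ∧ |(z - ctr s r).im| ≤ s / 2 - w := by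
  rcases h with ⟨h1, h2⟩ | ⟨h1, h2, h3⟩ <;>
  · unfold nc tc at *
    simp only [abs_le] at *
    rcases hδ with rfl | rfl | rfl | rfl <;> push_cast at * <;>
      refine ⟨⟨?_, ?_⟩, ?_, ?_⟩ <;> linarith

/-- **curves of different sides** -/
theorem crv_far (hw : 0 < w) (hs : 16 * w ≤ s) (hδ : Dr δ) (hδ' : Dr δ') (hne : (r, δ) ≠ (r', δ'))
    (h : z ∈ crv s w r δ) (h' : z' ∈ crv s w r' δ') : 2 * w ≤ ‖z - z'‖ := by
  have hre : |z.re - z'.re| ≤ ‖z - z'‖ := by rw [← sub_re]; exact abs_re_le_norm _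
  have him : |z.im - z'.im| ≤ ‖z - z'‖ := by rw [← sub_im]; exact abs_im_le_norm _
  have s0 : 0 < s := by linarith
  by_cases hr : r = r'
  · subst hr
    have hδδ : δ ≠ δ' := fun e => hne (by rw [e])
    rw [abs_le] at hre him
    rcases h with ⟨h1, h2⟩ | ⟨h1, h2, h3⟩ <;> rcases h' with ⟨k1, k2⟩ | ⟨k1, k2, k3⟩ <;>
    · unfold nc tc at *
      rw [ctr_re, ctr_im] at *
      try simp only [abs_le] at *
      rcases hδ with rfl | rfl | rfl | rfl <;> rcases hδ' with rfl | rfl | rfl | rfl <;>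
        first
        | exact absurd rfl hδδ
        | (push_cast at *; linarith)
  · obtain ⟨c1, c2⟩ := crv_core hw hs hδ h
    obtain ⟨c3, c4⟩ := crv_core hw hs hδ' h'
    rw [ctr_re] at c1 c3
    rw [ctr_im] at c2 c4
    rw [abs_le] at *
    have hcase : r.1 ≠ r'.1 ∨ r.2 ≠ r'.2 := by
      by_contra hcon
      push Not at hcon
      exact hr (Prod.ext hcon.1 hcon.2)
    rcases hcase with hc | hc
    · rcases lt_or_gt_of_ne hc with h5 | h5
      · have h6 : (r.1 : ℝ) + 1 ≤ r'.1 := by exact_mod_cast h5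
        have h7 := mul_le_mul_of_nonneg_left h6 s0.le
        linarith
      · have h6 : (r'.1 : ℝ) + 1 ≤ r.1 := by exact_mod_cast h5
        have h7 := mul_le_mul_of_nonneg_left h6 s0.le
        linarith
    · rcases lt_or_gt_of_ne hc with h5 | h5
      · have h6 : (r.2 : ℝ) + 1 ≤ r'.2 := by exact_mod_cast h5
        have h7 := mul_le_mul_of_nonneg_left h6 s0.le
        linarith
      · have h6 : (r'.2 : ℝ) + 1 ≤ r.2 := by exact_mod_cast h5
        have h7 := mul_le_mul_of_nonneg_left h6 s0.le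
        linarith

/-- points in the open core of a cell off `F` are off `Th P a` -/
theorem core_out (hr : r ∉ F) (h1 : |(z - ctr s r).re| < s / 2 - a)
    (h2 : |(z - ctr s r).im| < s / 2 - a) (s0 : 0 < s) : z ∉ Th (Pg s F) a := by
  rintro ⟨y, hy, h3, h4⟩
  obtain ⟨c, hc, hyc⟩ := mem_Pg.1 hy
  obtain ⟨e1, e2, e3, e4⟩ := mem_sq.1 hyc
  rw [ctr_re, abs_lt] at h1
  rw [ctr_im, abs_lt] at h2
  rw [abs_le] at h3 h4
  have hcr : c.1 = r.1 := by
    by_contra hne
    rcases lt_or_gt_of_ne hne with h5 | h5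
    · have h6 : (c.1 : ℝ) + 1 ≤ r.1 := by exact_mod_cast h5
      have h7 := mul_le_mul_of_nonneg_left h6 s0.le
      linarith
    · have h6 : (r.1 : ℝ) + 1 ≤ c.1 := by exact_mod_cast h5
      have h7 := mul_le_mul_of_nonneg_left h6 s0.le
      linarith
  have hcr' : c.2 = r.2 := by
    by_contra hne
    rcases lt_or_gt_of_ne hne with h5 | h5
    · have h6 : (c.2 : ℝ) + 1 ≤ r.2 := by exact_mod_cast h5
      have h7 := mul_le_mul_of_nonneg_left h6 s0.le
      linarith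
    · have h6 : (r.2 : ℝ) + 1 ≤ c.2 := by exact_mod_cast h5
      have h7 := mul_le_mul_of_nonneg_left h6 s0.le
      linarith
  exact hr (by rw [← Prod.ext hcr hcr']; exact hc)

/-- points of `P` are in `Th P 0` -/
theorem not_th0 (h : z ∉ Th (Pg s F) 0) : z ∉ Pg s F := fun h' =>
  h ⟨z, h', by rw [sub_self, abs_zero], by rw [sub_self, abs_zero]⟩

theorem crv_out (hw : 0 < w) (hs : 16 * w ≤ s) (hδ : Dr δ) (hr : r ∉ F) (h : z ∈ crv s w r δ) :
    z ∉ Pg s F := by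
  obtain ⟨c1, c2⟩ := crv_core hw hs hδ h
  exact not_th0 (core_out hr (by linarith) (by linarith) (by linarith))

/-- the bar is near `P` -/
theorem bar_th (hw : 0 < w) (hs : 16 * w ≤ s) (hδ : Dr δ) (hc : r + δ ∈ F) (h : z ∈ bar s w r δ) :
    z ∈ Th (Pg s F) w := by
  obtain ⟨h1, h2⟩ := h
  unfold nc tc at *
  rw [ctr_re, ctr_im] at *
  rw [abs_le] at h2
  rcases hδ with rfl | rfl | rfl | rfl
  · push_cast at h1 h2
    refine ⟨⟨z.re + w, z.im⟩, mem_Pg.2 ⟨_, hc, mem_sq.2 ?_⟩, ?_, ?_⟩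
    · simp only [Prod.fst_add, Prod.snd_add]; push_cast
      refine ⟨?_, ?_, ?_, ?_⟩ <;> nlinarith
    · simp only; rw [abs_le]; constructor <;> linarith
    · simp only; rw [sub_self, abs_zero]; exact hw.le
  · push_cast at h1 h2
    refine ⟨⟨z.re - w, z.im⟩, mem_Pg.2 ⟨_, hc, mem_sq.2 ?_⟩, ?_, ?_⟩
    · simp only [Prod.fst_add, Prod.snd_add]; push_cast
      refine ⟨?_, ?_, ?_, ?_⟩ <;> nlinarith
    · simp only; rw [abs_le]; constructor <;> linarith
    · simp only; rw [sub_self, abs_zero]; exact hw.le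
  · push_cast at h1 h2
    refine ⟨⟨z.re, z.im + w⟩, mem_Pg.2 ⟨_, hc, mem_sq.2 ?_⟩, ?_, ?_⟩
    · simp only [Prod.fst_add, Prod.snd_add]; push_cast
      refine ⟨?_, ?_, ?_, ?_⟩ <;> nlinarith
    · simp only; rw [sub_self, abs_zero]; exact hw.le
    · simp only; rw [abs_le]; constructor <;> linarith
  · push_cast at h1 h2
    refine ⟨⟨z.re, z.im - w⟩, mem_Pg.2 ⟨_, hc, mem_sq.2 ?_⟩, ?_, ?_⟩
    · simp only [Prod.fst_add, Prod.snd_add]; push_cast
      refine ⟨?_, ?_, ?_, ?_⟩ <;> nlinarith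
    · simp only; rw [sub_self, abs_zero]; exact hw.le
    · simp only; rw [abs_le]; constructor <;> linarith

/-! ### the curves are connected -/

theorem nc_comb (δ : V) (z z' c : ℂ) {x y : ℝ} (h : x + y = 1) :
    nc δ (x • z + y • z' - c) = x * nc δ (z - c) + y * nc δ (z' - c) := by
  have hy : y = 1 - x := by linarith
  subst hy
  unfold nc
  simp only [sub_re, sub_im, add_re, add_im, Complex.real_smul, mul_re, mul_im, ofReal_re,
    ofReal_im, zero_mul, sub_zero, add_zero]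
  ring

theorem tc_comb (δ : V) (z z' c : ℂ) {x y : ℝ} (h : x + y = 1) :
    tc δ (x • z + y • z' - c) = x * tc δ (z - c) + y * tc δ (z' - c) := by
  have hy : y = 1 - x := by linarith
  subst hy
  unfold tc
  simp only [sub_re, sub_im, add_re, add_im, Complex.real_smul, mul_re, mul_im, ofReal_re,
    ofReal_im, zero_mul, sub_zero, add_zero]
  ring

theorem bar_convex (s w : ℝ) (r δ : V) : Convex ℝ (bar s w r δ) := by
  rintro z ⟨h1, h2⟩ z' ⟨h3, h4⟩ x y hx hy hxy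
  rw [abs_le] at h2 h4
  refine ⟨?_, ?_⟩
  · rw [nc_comb _ _ _ _ hxy, h1, h3, ← add_mul, hxy, one_mul]
  · rw [tc_comb _ _ _ _ hxy, abs_le]
    constructor <;> nlinarith

theorem spk_convex (s w : ℝ) (r δ : V) : Convex ℝ (spk s w r δ) := by
  rintro z ⟨h1, h2, h3⟩ z' ⟨h4, h5, h6⟩ x y hx hy hxy
  have e : ∀ m : ℝ, m = x * m + y * m := fun m => by rw [← add_mul, hxy, one_mul]
  refine ⟨?_, ?_, ?_⟩
  · rw [tc_comb _ _ _ _ hxy, h1, h4]; ring
  · rw [nc_comb _ _ _ _ hxy, e (s / 2 - 4 * w)]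
    exact add_le_add (mul_le_mul_of_nonneg_left h2 hx) (mul_le_mul_of_nonneg_left h5 hy)
  · rw [nc_comb _ _ _ _ hxy, e (s / 2 - w)]
    exact add_le_add (mul_le_mul_of_nonneg_left h3 hx) (mul_le_mul_of_nonneg_left h6 hy)

/-- point on the normal axis -/
def bp (s : ℝ) (r δ : V) (t : ℝ) : ℂ := ctr s r + ⟨t * δ.1, t * δ.2⟩

theorem nc_bp (hδ : Dr δ) (t : ℝ) : nc δ (bp s r δ t - ctr s r) = t := by
  unfold nc bp
  rw [add_sub_cancel_left]
  rcases hδ with rfl | rfl | rfl | rfl <;> push_cast <;> ring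

theorem tc_bp (t : ℝ) : tc δ (bp s r δ t - ctr s r) = 0 := by
  unfold tc bp
  rw [add_sub_cancel_left]
  simp only
  ring

theorem bp_bar (hw : 0 < w) (hs : 16 * w ≤ s) (hδ : Dr δ) : bp s r δ (s / 2 - w) ∈ bar s w r δ :=
  ⟨nc_bp hδ _, by rw [tc_bp, abs_zero]; linarith⟩

theorem bp_spk (hw : 0 < w) (hδ : Dr δ) : bp s r δ (s / 2 - w) ∈ spk s w r δ :=
  ⟨tc_bp _, by rw [nc_bp hδ]; linarith, by rw [nc_bp hδ]⟩

theorem bp_end (hw : 0 < w) (hδ : Dr δ) : bp s r δ (s / 2 - 4 * w) ∈ spk s w r δ :=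
  ⟨tc_bp _, by rw [nc_bp hδ], by rw [nc_bp hδ]; linarith⟩

theorem crv_conn (hw : 0 < w) (hs : 16 * w ≤ s) (hδ : Dr δ) : IsPreconnected (crv s w r δ) :=
  IsPreconnected.union _ (bp_bar hw hs hδ) (bp_spk hw hδ) (bar_convex _ _ _ _).isPreconnected
    (spk_convex _ _ _ _).isPreconnected

/-- the far end of the spoke is off the thickening -/
theorem end_out (hw : 0 < w) (hs : 16 * w ≤ s) (hδ : Dr δ) (hr : r ∉ F)
    (h : ‖z - bp s r δ (s / 2 - 4 * w)‖ < 4 * w - a) : z ∉ Th (Pg s F) a := by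
  have h1 := (abs_re_le_norm (z - bp s r δ (s / 2 - 4 * w))).trans_lt h
  have h2 := (abs_im_le_norm (z - bp s r δ (s / 2 - 4 * w))).trans_lt h
  have e : z - ctr s r = (z - bp s r δ (s / 2 - 4 * w)) + ⟨(s / 2 - 4 * w) * δ.1,
      (s / 2 - 4 * w) * δ.2⟩ := by unfold bp; ring
  rw [abs_lt] at h1 h2
  refine core_out hr ?_ ?_ (by linarith)
  · rw [e, add_re, abs_lt]
    rcases hδ with rfl | rfl | rfl | rfl <;> push_cast at * <;> constructor <;> linarith
  · rw [e, add_im, abs_lt]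
    rcases hδ with rfl | rfl | rfl | rfl <;> push_cast at * <;> constructor <;> linarith

/-! ### the way to a bar -/

theorem int_lt (s0 : 0 < s) {m n : ℤ} (h : s * (m : ℝ) < s * (n : ℝ)) : m < n := by
  exact_mod_cast lt_of_mul_lt_mul_left h s0.le

/-- orthogonal unit vectors -/
def Ort (δ τ : V) : Prop := (δ.1 = 0 ∧ τ.2 = 0) ∨ (δ.2 = 0 ∧ τ.1 = 0)

/-- **domino** : the open union of two adjacent cells off `F` is off `P` -/
theorem domino_out {τ : V} (s0 : 0 < s) (hδ : Dr δ) (hτ : Dr τ) (ho : Ort δ τ) (hr : r ∉ F)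
    (hrτ : r + τ ∉ F) (h1 : |nc δ (z - ctr s r)| < s / 2) (h2 : -(s / 2) < nc τ (z - ctr s r))
    (h3 : nc τ (z - ctr s r) < 3 * s / 2) : z ∉ Pg s F := by
  intro hz
  obtain ⟨c, hc, hzc⟩ := mem_Pg.1 hz
  obtain ⟨e1, e2, e3, e4⟩ := mem_sq.1 hzc
  unfold nc at h1 h2 h3
  rw [ctr_re, ctr_im] at h1 h2 h3
  rw [abs_lt] at h1
  obtain ⟨c1, c2⟩ := c
  obtain ⟨r1, r2⟩ := r
  have key : (c1, c2) = (r1, r2) ∨ (c1, c2) = (r1, r2) + τ := by
    rcases hτ with rfl | rfl | rfl | rfl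
    · have hδ1 : δ.1 = 0 := by rcases ho with h | h; exact h.1; exact absurd h.2 (by decide)
      have hδ2 : δ.2 = 1 ∨ δ.2 = -1 := by
        rcases hδ with rfl | rfl | rfl | rfl <;> simp_all
      rw [hδ1] at h1
      push_cast at *
      have a1 : r1 < c1 + 1 := int_lt s0 (by push_cast; linarith)
      have a2 : c1 < r1 + 2 := int_lt s0 (by push_cast; linarith)
      have a3 : r2 < c2 + 1 := int_lt s0 (by
        rcases hδ2 with h | h <;> rw [h] at h1 <;> push_cast at * <;> linarith)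
      have a4 : c2 < r2 + 1 := int_lt s0 (by
        rcases hδ2 with h | h <;> rw [h] at h1 <;> push_cast at * <;> linarith)
      rcases (show c1 = r1 ∨ c1 = r1 + 1 by omega) with h | h
      · left; ext <;> simp only <;> omega
      · right; ext <;> simp only [Prod.mk_add_mk] <;> omega
    · have hδ1 : δ.1 = 0 := by rcases ho with h | h; exact h.1; exact absurd h.2 (by decide)
      have hδ2 : δ.2 = 1 ∨ δ.2 = -1 := by
        rcases hδ with rfl | rfl | rfl | rfl <;> simp_all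
      rw [hδ1] at h1
      push_cast at *
      have a1 : r1 - 1 < c1 + 1 := int_lt s0 (by push_cast; linarith)
      have a2 : c1 < r1 + 1 := int_lt s0 (by push_cast; linarith)
      have a3 : r2 < c2 + 1 := int_lt s0 (by
        rcases hδ2 with h | h <;> rw [h] at h1 <;> push_cast at * <;> linarith)
      have a4 : c2 < r2 + 1 := int_lt s0 (by
        rcases hδ2 with h | h <;> rw [h] at h1 <;> push_cast at * <;> linarith)
      rcases (show c1 = r1 ∨ c1 = r1 - 1 by omega) with h | h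
      · left; ext <;> simp only <;> omega
      · right; ext <;> simp only [Prod.mk_add_mk] <;> omega
    · have hδ1 : δ.2 = 0 := by rcases ho with h | h; exact absurd h.2 (by decide); exact h.1
      have hδ2 : δ.1 = 1 ∨ δ.1 = -1 := by
        rcases hδ with rfl | rfl | rfl | rfl <;> simp_all
      rw [hδ1] at h1
      push_cast at *
      have a1 : r2 < c2 + 1 := int_lt s0 (by push_cast; linarith)
      have a2 : c2 < r2 + 2 := int_lt s0 (by push_cast; linarith)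
      have a3 : r1 < c1 + 1 := int_lt s0 (by
        rcases hδ2 with h | h <;> rw [h] at h1 <;> push_cast at * <;> linarith)
      have a4 : c1 < r1 + 1 := int_lt s0 (by
        rcases hδ2 with h | h <;> rw [h] at h1 <;> push_cast at * <;> linarith)
      rcases (show c2 = r2 ∨ c2 = r2 + 1 by omega) with h | h
      · left; ext <;> simp only <;> omega
      · right; ext <;> simp only [Prod.mk_add_mk] <;> omega
    · have hδ1 : δ.2 = 0 := by rcases ho with h | h; exact absurd h.2 (by decide); exact h.1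
      have hδ2 : δ.1 = 1 ∨ δ.1 = -1 := by
        rcases hδ with rfl | rfl | rfl | rfl <;> simp_all
      rw [hδ1] at h1
      push_cast at *
      have a1 : r2 - 1 < c2 + 1 := int_lt s0 (by push_cast; linarith)
      have a2 : c2 < r2 + 1 := int_lt s0 (by push_cast; linarith)
      have a3 : r1 < c1 + 1 := int_lt s0 (by
        rcases hδ2 with h | h <;> rw [h] at h1 <;> push_cast at * <;> linarith)
      have a4 : c1 < r1 + 1 := int_lt s0 (by
        rcases hδ2 with h | h <;> rw [h] at h1 <;> push_cast at * <;> linarith)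
      rcases (show c2 = r2 ∨ c2 = r2 - 1 by omega) with h | h
      · left; ext <;> simp only <;> omega
      · right; ext <;> simp only [Prod.mk_add_mk] <;> omega
  rcases key with h | h
  · exact hr (h ▸ hc)
  · exact hrτ (h ▸ hc)

/-- point with given coordinates -/
def pc (s : ℝ) (r δ : V) (x y : ℝ) : ℂ := ctr s r + ⟨x * δ.1 + y * δ.2, x * δ.2 - y * δ.1⟩

theorem nc_pc (hδ : Dr δ) (x y : ℝ) : nc δ (pc s r δ x y - ctr s r) = x := by
  unfold nc pc
  rw [add_sub_cancel_left]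
  rcases hδ with rfl | rfl | rfl | rfl <;> push_cast <;> ring

theorem tc_pc (hδ : Dr δ) (x y : ℝ) : tc δ (pc s r δ x y - ctr s r) = y := by
  unfold tc pc
  rw [add_sub_cancel_left]
  rcases hδ with rfl | rfl | rfl | rfl <;> push_cast <;> ring

theorem nc_sub (δ : V) (z z' c : ℂ) : nc δ (z - c) - nc δ (z' - c) = nc δ (z - z') := by
  unfold nc
  simp only [sub_re, sub_im]
  ring

theorem tc_sub (δ : V) (z z' c : ℂ) : tc δ (z - c) - tc δ (z' - c) = tc δ (z - z') := by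
  unfold tc
  simp only [sub_re, sub_im]
  ring

theorem norm_le_nt (hδ : Dr δ) (z : ℂ) : ‖z‖ ≤ |nc δ z| + |tc δ z| := by
  have h := Complex.norm_le_abs_re_add_abs_im z
  unfold nc tc
  rcases hδ with rfl | rfl | rfl | rfl <;> push_cast <;>
    simp only [mul_one, mul_zero, add_zero, zero_add, sub_zero, zero_sub, mul_neg, neg_neg,
      abs_neg, neg_zero] <;> linarith

/-- coordinates are bounded by `nc`, `tc` -/
theorem sup_le_nt (hδ : Dr δ) {b : ℝ} {z : ℂ} (h1 : |nc δ z| ≤ b) (h2 : |tc δ z| ≤ b) :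
    |z.re| ≤ b ∧ |z.im| ≤ b := by
  unfold nc tc at *
  rw [abs_le] at *
  rcases hδ with rfl | rfl | rfl | rfl <;> push_cast at * <;>
    refine ⟨⟨?_, ?_⟩, abs_le.2 ⟨?_, ?_⟩⟩ <;> linarith

theorem sup_lt_nt (hδ : Dr δ) {b : ℝ} {z : ℂ} (h1 : |nc δ z| < b) (h2 : |tc δ z| < b) :
    |z.re| < b ∧ |z.im| < b := by
  unfold nc tc at *
  rw [abs_lt] at *
  rcases hδ with rfl | rfl | rfl | rfl <;> push_cast at * <;>
    refine ⟨⟨?_, ?_⟩, abs_lt.2 ⟨?_, ?_⟩⟩ <;> linarith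

theorem nc_ort {τ : V} (hδ : Dr δ) (hτ : Dr τ) (ho : Ort δ τ) (z : ℂ) :
    |nc τ z| = |tc δ z| := by
  unfold nc tc
  rcases hδ with rfl | rfl | rfl | rfl <;> rcases hτ with rfl | rfl | rfl | rfl <;>
    first
    | (exfalso; rcases ho with h | h <;> revert h <;> decide)
    | (push_cast
       simp only [mul_one, mul_zero, add_zero, zero_add, sub_zero, zero_sub, mul_neg, neg_neg,
         abs_neg, neg_zero])

/-- the point on the common side -/
theorem side_mem (s0 : 0 < s) (hδ : Dr δ) (hc : r + δ ∈ F) {y : ℝ} (hy : |y| ≤ s / 2) :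
    pc s r δ (s / 2) y ∈ Pg s F := by
  refine mem_Pg.2 ⟨_, hc, mem_sq.2 ?_⟩
  rw [abs_le] at hy
  unfold pc ctr
  simp only [Prod.fst_add, Prod.snd_add, add_re, add_im]
  rcases hδ with rfl | rfl | rfl | rfl <;> push_cast <;> refine ⟨?_, ?_, ?_, ?_⟩ <;> nlinarith

/-- a number cut at `± b` -/
theorem cut (b c x : ℝ) (hb : 0 ≤ b) (hc : 0 ≤ c) (hx : |x| ≤ b + c) :
    ∃ y : ℝ, |y| ≤ b ∧ |x - y| ≤ c := by
  rw [abs_le] at hx
  rcases le_total x (-b) with h | h
  · exact ⟨-b, by rw [abs_neg, abs_of_nonneg hb], abs_le.2 ⟨by linarith, by linarith⟩⟩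
  · rcases le_total x b with h' | h'
    · exact ⟨x, abs_le.2 ⟨by linarith, by linarith⟩, by rw [sub_self, abs_zero]; exact hc⟩
    · exact ⟨b, by rw [abs_of_nonneg hb], abs_le.2 ⟨by linarith, by linarith⟩⟩

theorem way_aux {b : ℝ} (hw : 0 < w) (hs : 16 * w ≤ s) (hb1 : w ≤ b) (hb2 : b ≤ 2 * w) (hδ : Dr δ)
    (hr : r ∉ F) (hc : r + δ ∈ F)
    (hp : p ∉ Pg s F) (h1 : s / 2 - b ≤ nc δ (p - ctr s r)) (h2 : nc δ (p - ctr s r) ≤ s / 2)
    (h3 : |tc δ (p - ctr s r)| ≤ s / 2 + b)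
    (hbox : |tc δ (p - ctr s r)| ≤ s / 2 ∨
      ∃ τ, Dr τ ∧ Ort δ τ ∧ r + τ ∉ F ∧ 0 ≤ nc τ (p - ctr s r)) :
    ∃ t ∈ bar s w r δ, ‖p - t‖ ≤ 6 * w ∧ ∀ q ∈ segment ℝ p t, q ∉ Pg s F ∧ q ∈ Th (Pg s F) b := by
  obtain ⟨T', hT1, hT2⟩ := cut (s / 2 - 3 * w) (3 * w + b) (tc δ (p - ctr s r)) (by linarith)
    (by linarith) (by linarith)
  set t := pc s r δ (s / 2 - w) T' with ht
  have ht1 : nc δ (t - ctr s r) = s / 2 - w := nc_pc hδ _ _
  have ht2 : tc δ (t - ctr s r) = T' := tc_pc hδ _ _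
  refine ⟨t, ⟨ht1, by rw [ht2]; exact hT1⟩, ?_, ?_⟩
  · refine (norm_le_nt hδ _).trans ?_
    rw [← nc_sub δ p t (ctr s r), ← tc_sub δ p t (ctr s r), ht1, ht2]
    have : |nc δ (p - ctr s r) - (s / 2 - w)| ≤ w := abs_le.2 ⟨by linarith, by linarith⟩
    linarith
  · rintro q ⟨x, y, hx, hy, hxy, rfl⟩
    have e1 : nc δ (x • p + y • t - ctr s r) = x * nc δ (p - ctr s r) + y * (s / 2 - w) := by
      rw [nc_comb _ _ _ _ hxy, ht1]
    have e2 : tc δ (x • p + y • t - ctr s r) = x * tc δ (p - ctr s r) + y * T' := by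
      rw [tc_comb _ _ _ _ hxy, ht2]
    have hy1 : y = 1 - x := by linarith
    rw [abs_le] at hT1
    have f1 : s / 2 - b ≤ nc δ (x • p + y • t - ctr s r) := by rw [e1, hy1]; nlinarith
    have f2 : nc δ (x • p + y • t - ctr s r) ≤ s / 2 := by rw [e1, hy1]; nlinarith
    have f3 : |tc δ (x • p + y • t - ctr s r)| ≤ s / 2 + b := by
      rw [abs_le] at h3
      rw [e2, hy1, abs_le]
      constructor <;> nlinarith
    constructor
    · rcases hy.eq_or_lt with hy0 | hy0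
      · have hx1 : x = 1 := by linarith
        rw [← hy0, hx1, one_smul, zero_smul, add_zero]
        exact hp
      · have g1 : |nc δ (x • p + y • t - ctr s r)| < s / 2 := by
          rw [abs_lt]
          refine ⟨by linarith, ?_⟩
          rw [e1]
          nlinarith
        rcases hbox with hb | ⟨τ, hτ, ho, hrτ, hnn⟩
        · have g2 : |tc δ (x • p + y • t - ctr s r)| < s / 2 := by
            rw [abs_le] at hb
            rw [e2, abs_lt]
            constructor <;> nlinarith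
          obtain ⟨g3, g4⟩ := sup_lt_nt hδ g1 g2
          exact not_th0 (core_out hr (by linarith) (by linarith) (by linarith))
        · have g2 : |nc τ (t - ctr s r)| ≤ s / 2 - 3 * w := by
            rw [nc_ort hδ hτ ho, ht2, abs_le]
            exact hT1
          have g3 : |nc τ (x • p + y • t - ctr s r)| ≤ s / 2 + b := by
            rw [nc_ort hδ hτ ho]; exact f3
          rw [abs_le] at g2 g3
          refine domino_out (by linarith) hδ hτ ho hr hrτ g1 ?_ (by linarith)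
          rw [nc_comb _ _ _ _ hxy]
          nlinarith
    · obtain ⟨T0, k1, k2⟩ := cut (s / 2) b (tc δ (x • p + y • t - ctr s r)) (by linarith)
        (by linarith) f3
      have k3 := side_mem (s := s) (F := F) (by linarith) hδ hc k1
      have k4 : |nc δ (x • p + y • t - pc s r δ (s / 2) T0)| ≤ b := by
        rw [← nc_sub δ _ _ (ctr s r), nc_pc hδ, abs_le]
        constructor <;> linarith
      have k5 : |tc δ (x • p + y • t - pc s r δ (s / 2) T0)| ≤ b := by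
        rw [← tc_sub δ _ _ (ctr s r), tc_pc hδ]
        exact k2
      obtain ⟨k6, k7⟩ := sup_le_nt hδ k4 k5
      rw [sub_re] at k6
      rw [sub_im] at k7
      exact ⟨_, k3, k6, k7⟩

/-- **the way to a bar** -/
theorem way {b : ℝ} (hw : 0 < w) (hs : 16 * w ≤ s) (hb1 : w ≤ b) (hb2 : b ≤ 2 * w)
    (hp : p ∉ Pg s F) (hpT : p ∈ Th (Pg s F) b) :
    ∃ r δ, Dr δ ∧ r ∉ F ∧ r + δ ∈ F ∧ ∃ t ∈ bar s w r δ, ‖p - t‖ ≤ 6 * w ∧
      ∀ q ∈ segment ℝ p t, q ∉ Pg s F ∧ q ∈ Th (Pg s F) b := by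
  have s0 : 0 < s := by linarith
  obtain ⟨y, hy, h1, h2⟩ := hpT
  obtain ⟨⟨c1, c2⟩, hc, hyc⟩ := mem_Pg.1 hy
  obtain ⟨e1, e2, e3, e4⟩ := mem_sq.1 hyc
  obtain ⟨⟨q1, q2⟩, hcell⟩ : ∃ q : V, p ∈ Sp896.sq s q := ⟨_, Sp896.mem_cellOf s0 p⟩
  have hq : ((q1, q2) : V) ∉ F := fun h => hp (mem_Pg.2 ⟨_, h, hcell⟩)
  obtain ⟨g1, g2, g3, g4⟩ := mem_sq.1 hcell
  rw [abs_le] at h1 h2
  simp only at e1 e2 e3 e4 g1 g2 g3 g4
  have a1 : q1 < c1 + 2 := int_lt s0 (by push_cast; linarith)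
  have a2 : c1 - 1 < q1 + 1 := int_lt s0 (by push_cast; linarith)
  have a3 : q2 < c2 + 2 := int_lt s0 (by push_cast; linarith)
  have a4 : c2 - 1 < q2 + 1 := int_lt s0 (by push_cast; linarith)
  have x1 : c1 = q1 + (-1) ∨ c1 = q1 ∨ c1 = q1 + 1 := by omega
  have x2 : c2 = q2 + (-1) ∨ c2 = q2 ∨ c2 = q2 + 1 := by omega
  -- the four edge cases
  have edge : ∀ δ : V, Dr δ → ((q1, q2) : V) + δ ∈ F →
      s / 2 - b ≤ nc δ (p - ctr s (q1, q2)) → nc δ (p - ctr s (q1, q2)) ≤ s / 2 →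
      |tc δ (p - ctr s (q1, q2))| ≤ s / 2 →
      ∃ r δ, Dr δ ∧ r ∉ F ∧ r + δ ∈ F ∧ ∃ t ∈ bar s w r δ, ‖p - t‖ ≤ 6 * w ∧
        ∀ q ∈ segment ℝ p t, q ∉ Pg s F ∧ q ∈ Th (Pg s F) b := by
    intro δ hδ hF k1 k2 k3
    exact ⟨(q1, q2), δ, hδ, hq, hF, way_aux hw hs hb1 hb2 hδ hq hF hp k1 k2 (by linarith)
      (Or.inl k3)⟩
  have ER : ((q1 + 1, q2) : V) ∈ F → s * (q1 + 1 : ℝ) - b ≤ p.re →
      ∃ r δ, Dr δ ∧ r ∉ F ∧ r + δ ∈ F ∧ ∃ t ∈ bar s w r δ, ‖p - t‖ ≤ 6 * w ∧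
        ∀ q ∈ segment ℝ p t, q ∉ Pg s F ∧ q ∈ Th (Pg s F) b := by
    intro hF k1
    refine edge (1, 0) (Or.inl rfl) (by simpa using hF) ?_ ?_ ?_ <;> simp only [nc, tc] <;>
      rw [ctr_re, ctr_im] <;> push_cast
    · linarith
    · linarith
    · rw [abs_le]; constructor <;> linarith
  have EL : ((q1 + (-1), q2) : V) ∈ F → p.re ≤ s * (q1 : ℝ) + b →
      ∃ r δ, Dr δ ∧ r ∉ F ∧ r + δ ∈ F ∧ ∃ t ∈ bar s w r δ, ‖p - t‖ ≤ 6 * w ∧
        ∀ q ∈ segment ℝ p t, q ∉ Pg s F ∧ q ∈ Th (Pg s F) b := by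
    intro hF k1
    refine edge (-1, 0) (Or.inr (Or.inl rfl)) (by simpa using hF) ?_ ?_ ?_ <;> simp only [nc, tc] <;>
      rw [ctr_re, ctr_im] <;> push_cast
    · linarith
    · linarith
    · rw [abs_le]; constructor <;> linarith
  have EU : ((q1, q2 + 1) : V) ∈ F → s * (q2 + 1 : ℝ) - b ≤ p.im →
      ∃ r δ, Dr δ ∧ r ∉ F ∧ r + δ ∈ F ∧ ∃ t ∈ bar s w r δ, ‖p - t‖ ≤ 6 * w ∧
        ∀ q ∈ segment ℝ p t, q ∉ Pg s F ∧ q ∈ Th (Pg s F) b := by
    intro hF k1
    refine edge (0, 1) (Or.inr (Or.inr (Or.inl rfl))) (by simpa using hF) ?_ ?_ ?_ <;>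
      simp only [nc, tc] <;> rw [ctr_re, ctr_im] <;> push_cast
    · linarith
    · linarith
    · rw [abs_le]; constructor <;> linarith
  have ED : ((q1, q2 + (-1)) : V) ∈ F → p.im ≤ s * (q2 : ℝ) + b →
      ∃ r δ, Dr δ ∧ r ∉ F ∧ r + δ ∈ F ∧ ∃ t ∈ bar s w r δ, ‖p - t‖ ≤ 6 * w ∧
        ∀ q ∈ segment ℝ p t, q ∉ Pg s F ∧ q ∈ Th (Pg s F) b := by
    intro hF k1
    refine edge (0, -1) (Or.inr (Or.inr (Or.inr rfl))) (by simpa using hF) ?_ ?_ ?_ <;>
      simp only [nc, tc] <;> rw [ctr_re, ctr_im] <;> push_cast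
    · linarith
    · linarith
    · rw [abs_le]; constructor <;> linarith
  rcases x1 with rfl | rfl | rfl <;> rcases x2 with rfl | rfl | rfl <;> push_cast at *
  · by_cases h : ((q1 + (-1), q2) : V) ∈ F
    · exact EL h (by linarith)
    · have hr1 : ((q1 + (-1), q2) : V) + (0, -1) ∈ F := by simpa using hc
      have hr2 : ((q1 + (-1), q2) : V) + (1, 0) ∉ F := by simpa using hq
      refine ⟨(q1 + (-1), q2), (0, -1), Or.inr (Or.inr (Or.inr rfl)), h, hr1, way_aux hw hs hb1 hb2 (Or.inr (Or.inr (Or.inr rfl))) h hr1 hp ?_ ?_ ?_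
          (Or.inr ⟨(1, 0), Or.inl rfl, Or.inl ⟨rfl, rfl⟩, hr2, ?_⟩)⟩ <;> simp only [nc, tc] <;>
        rw [ctr_re, ctr_im] <;> push_cast
      · linarith
      · linarith
      · rw [abs_le]; constructor <;> linarith
      · linarith
  · exact EL hc (by linarith)
  · by_cases h : ((q1 + (-1), q2) : V) ∈ F
    · exact EL h (by linarith)
    · have hr1 : ((q1 + (-1), q2) : V) + (0, 1) ∈ F := by simpa using hc
      have hr2 : ((q1 + (-1), q2) : V) + (1, 0) ∉ F := by simpa using hq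
      refine ⟨(q1 + (-1), q2), (0, 1), Or.inr (Or.inr (Or.inl rfl)), h, hr1, way_aux hw hs hb1 hb2 (Or.inr (Or.inr (Or.inl rfl))) h hr1 hp ?_ ?_ ?_
          (Or.inr ⟨(1, 0), Or.inl rfl, Or.inl ⟨rfl, rfl⟩, hr2, ?_⟩)⟩ <;> simp only [nc, tc] <;>
        rw [ctr_re, ctr_im] <;> push_cast
      · linarith
      · linarith
      · rw [abs_le]; constructor <;> linarith
      · linarith
  · exact ED hc (by linarith)
  · exact absurd hc hq
  · exact EU hc (by linarith)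
  · by_cases h : ((q1 + 1, q2) : V) ∈ F
    · exact ER h (by linarith)
    · have hr1 : ((q1 + 1, q2) : V) + (0, -1) ∈ F := by simpa using hc
      have hr2 : ((q1 + 1, q2) : V) + (-1, 0) ∉ F := by simpa using hq
      refine ⟨(q1 + 1, q2), (0, -1), Or.inr (Or.inr (Or.inr rfl)), h, hr1, way_aux hw hs hb1 hb2 (Or.inr (Or.inr (Or.inr rfl))) h hr1 hp ?_ ?_ ?_
          (Or.inr ⟨(-1, 0), Or.inr (Or.inl rfl), Or.inl ⟨rfl, rfl⟩, hr2, ?_⟩)⟩ <;> simp only [nc, tc] <;>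
        rw [ctr_re, ctr_im] <;> push_cast
      · linarith
      · linarith
      · rw [abs_le]; constructor <;> linarith
      · linarith
  · exact ER hc (by linarith)
  · by_cases h : ((q1 + 1, q2) : V) ∈ F
    · exact ER h (by linarith)
    · have hr1 : ((q1 + 1, q2) : V) + (0, 1) ∈ F := by simpa using hc
      have hr2 : ((q1 + 1, q2) : V) + (-1, 0) ∉ F := by simpa using hq
      refine ⟨(q1 + 1, q2), (0, 1), Or.inr (Or.inr (Or.inl rfl)), h, hr1, way_aux hw hs hb1 hb2 (Or.inr (Or.inr (Or.inl rfl))) h hr1 hp ?_ ?_ ?_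
          (Or.inr ⟨(-1, 0), Or.inr (Or.inl rfl), Or.inl ⟨rfl, rfl⟩, hr2, ?_⟩)⟩ <;> simp only [nc, tc] <;>
        rw [ctr_re, ctr_im] <;> push_cast
      · linarith
      · linarith
      · rw [abs_le]; constructor <;> linarith
      · linarith

end Crest.Agent.R143.LayGx583
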