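import Crest.Agent.R143.Lay_583
import Crest.Agent.R143.Glu_991

/-!
# Row 143 (S0194), K7: the literal LAYER of 359's `K7D_359` (helper583)

* `side_dart` : the boundary dart of a side `(r, δ)`
* **`layer : K7Dx359.LAYER`** with the constant `964`
-/

set_option autoImplicit false

noncomputable section

open scoped Classical

namespace Crest.Agent.R143.LayKx583

open Set
open Crest.Agent.R158 Crest.Agent.R158.Sp896
open Crest.Agent.R143.B0x346 Crest.Agent.R143.JColx54 Crest.Agent.R143.RE0x723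
  Crest.Agent.R143.K33x877 Crest.Agent.R143.Terr2x583 Crest.Agent.R143.Colx583
  Crest.Agent.R143.Segx991 Crest.Agent.R143.LayGx583 Crest.Agent.R143.Layx583
open Crest.Agent.R143.Tenx416 (Pg)
open Crest.Agent.R143.LabDx755 (ctr)
open Crest.Agent.R143.Brkx478 (Bk Nb Conn cells)
open Crest.Agent.R143.K7Dx359 (Stg Gd Al Va Dart Lay LAYER ThF)

/-- **the boundary dart of a side** -/
theorem side_dart {s : ℝ} (s0 : 0 < s) {r δ : V} (hδ : Dr δ) {y : ℝ} (hy : |y| ≤ s / 2) :
    ∃ a b, Sp896.Adj a b ∧ lc a b = r + δ ∧ rc a b = r ∧ pc s r δ (s / 2) y ∈ ed s a b := by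
  rw [abs_le] at hy
  obtain ⟨r1, r2⟩ := r
  obtain ⟨q, rfl⟩ : ∃ q, y = s * q := ⟨y / s, by field_simp⟩
  have h1 : 0 ≤ 1 / 2 - q := by
    have : s * q ≤ s * (1 / 2) := by linarith
    have := le_of_mul_le_mul_left this s0
    linarith
  have h2 : 0 ≤ 1 / 2 + q := by
    have : s * (-(1 / 2)) ≤ s * q := by linarith
    have := le_of_mul_le_mul_left this s0
    linarith
  rcases hδ with rfl | rfl | rfl | rfl
  · refine ⟨(r1 + 1, r2 + 1), (r1 + 1, r2), ?_, ?_, ?_, 1 / 2 - q, 1 / 2 + q, h1, h2,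
      by ring, ?_⟩
    · exact Or.inr (Or.inr (Or.inr ⟨rfl, by simp⟩))
    · unfold lc; ext <;> simp only [Prod.fst_add, Prod.snd_add] <;> omega
    · unfold rc; ext <;> simp only <;> omega
    · apply Complex.ext <;> simp [pc, ctr, pt] <;> ring
  · refine ⟨(r1, r2), (r1, r2 + 1), ?_, ?_, ?_, 1 / 2 - q, 1 / 2 + q, h1, h2, by ring, ?_⟩
    · exact Or.inr (Or.inr (Or.inl ⟨rfl, rfl⟩))
    · unfold lc; ext <;> simp only [Prod.fst_add, Prod.snd_add] <;> omega
    · unfold rc; ext <;> simp only <;> omega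
    · apply Complex.ext <;> simp [pc, ctr, pt] <;> ring
  · refine ⟨(r1, r2 + 1), (r1 + 1, r2 + 1), ?_, ?_, ?_, 1 / 2 - q, 1 / 2 + q, h1, h2,
      by ring, ?_⟩
    · exact Or.inl ⟨rfl, rfl⟩
    · unfold lc; ext <;> simp only [Prod.fst_add, Prod.snd_add] <;> omega
    · unfold rc; ext <;> simp only <;> omega
    · apply Complex.ext <;> simp [pc, ctr, pt] <;> ring
  · refine ⟨(r1 + 1, r2), (r1, r2), ?_, ?_, ?_, 1 / 2 - q, 1 / 2 + q, h1, h2, by ring, ?_⟩
    · exact Or.inr (Or.inl ⟨by simp, rfl⟩)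
    · unfold lc; ext <;> simp only [Prod.fst_add, Prod.snd_add] <;> omega
    · unfold rc; ext <;> simp only <;> omega
    · apply Complex.ext <;> simp [pc, ctr, pt] <;> ring

/-- the input of `Lay_583` -/
theorem inp {S : Finset ℂ} {A : ZMod 3 → Set ℂ} {x0 : ℂ} {L d s : ℝ} (h : Stg S A x0 L d s) :
    In S (cells (Gd A x0 L s)) A s (s / 40000) d (2 * d) := by
  have s0 := GridKx991.s0 h
  have hd := GridKx991.d_s h
  have d0 := h.dns.dpos
  have e := th_eq (F := cells (Gd A x0 L s)) s0 (a := 2 * (s / 40000)) (by linarith)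
  exact
    { c3 := h.card
      w0 := by linarith
      ws := by linarith
      d0 := d0.le
      dρ := by linarith
      ρw := by
        have : s / 2 ^ 20 = s / 1048576 := by norm_num
        rw [this] at hd
        linarith
      hl := by
        rw [th_eq s0 (by linarith)]
        exact Glux991.hol_pw h (by linarith) (by linarith)
      tr := h.tr
      off := by
        intro x hx i
        rw [e] at hx
        exact (Glux991.deep_fr h (by linarith) (by linarith) (by linarith)
          (Finset.mem_coe.2 hx)).2 i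
      joi := by
        rw [e]
        exact Glux991.joi h (by linarith) (by linarith) (by linarith) }

/-- **LAYER** -/
theorem layer : LAYER := by
  refine ⟨964, by norm_num, ?_⟩
  intro S A x0 L d s h
  have H := inp h
  have s0 := GridKx991.s0 h
  have hd := GridKx991.d_s h
  have d0 := h.dns.dpos
  have hds : 2 * d ≤ s := by
    have : s / 2 ^ 20 = s / 1048576 := by norm_num
    rw [this] at hd
    linarith
  have e := th_eq (F := cells (Gd A x0 L s)) s0 (a := 2 * (s / 40000)) (by linarith)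
  have hVa : Va S A x0 L d s = Vd S (cells (Gd A x0 L s)) s (2 * d) := by
    rw [Glux991.va_eq, Pwx453.pw_zero]
  have hPl : Hl S (Pg s (cells (Gd A x0 L s))) d := H.hl.mono (sub_th (by linarith))
  obtain ⟨l, A', h1, h2, h3, -, h4, h5⟩ := H.layer (R := 40 * s) (by linarith)
  refine ⟨fun a b => l (rc a b, lc a b - rc a b), A', h1, h2, by rw [hVa]; exact h3, ?_, ?_⟩
  · intro j x hx
    obtain ⟨a, ha, hp⟩ := h5 (fun x hx hxW => by
      unfold Wd at hxW ⊢
      rw [e] at hxW ⊢
      exact Glux991.near h (by linarith) (by linarith) (by linarith) hds hx hxW) j x hx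
    refine ⟨a, ha, hp.mono ?_⟩
    rintro z ⟨h6, h7⟩
    exact ⟨h6, by linarith⟩
  · rintro i x hx ⟨v, hv, hadj⟩
    rw [hVa] at hv
    obtain ⟨q, hq, -, h6⟩ := adj_th hPl d0.le (by linarith) hv hadj.symm
    have h7 : x ∈ Th (Pg s (cells (Gd A x0 L s))) (2 * (2 * d)) :=
      Th.mono (by linarith) (th_add (sub_th le_rfl hq) (z' := x) (b := d)
        (by rw [norm_sub_rev]; exact h6))
    obtain ⟨k, hk, hki, t, ht, h8⟩ := h4 i x hx h7
    obtain ⟨a, b, g1, g2, g3, g4⟩ := side_dart s0 (r := k.1) hk.1 ht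
    refine ⟨a, b, ⟨g1, by rw [g2]; exact hk.2.2, by rw [g3]; exact hk.2.1⟩, ?_, ?_⟩
    · rw [g2, g3, add_sub_cancel_left]
      exact hki
    · refine (Metric.infDist_le_dist_of_mem g4).trans ?_
      rw [dist_eq_norm]
      exact h8

end Crest.Agent.R143.LayKx583
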