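import Crest.Agent.R143.Lay_416
import Crest.Agent.R143.FineD_576

/-!
# Row 143 (S0194), CORE-C, box R1f, labels of the tiles (helper811)

`Lay n M m p W A e` (416): marks = middles of the coarse edges `e j`, tiles of the arc `j`:
`g j ≤ a < g (j + 1)`. Coarse unit `m h`, fine unit `h`.

* `adj` : a point near the vertex `W a` (segment `k`) and near the coarse edge `l`: `l = k` modulo `n`, or
  `l = k - 1` (`l = k + 1`) modulo `n` and the point is near the corner `p k` (`p (k + 1)`)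
* `Arc s p e j` : the part of the coarse walk between the marks `j` and `j + 1`; `mark s p e j`
* `label` : a point near `W a`, `g j ≤ a < g (j + 1)`, and near the arc `i`: `i = j` modulo `3` or the
  point is near a mark
* `own` : the point is near the arc `j`
* `nearest_arc` : away from the marks the arc `j` is strictly the nearest one
-/

set_option autoImplicit false

noncomputable section

open scoped Classical

namespace Crest.Agent.R143.LayNx811

open Set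
open Crest.Agent.R158.Sp896 (pt ed)
open Crest.Agent.R143.TileRx228
open Crest.Agent.R143.LayQx811
open Crest.Agent.R143.Layx416 (Lay g)

variable {n M : ℕ} {m : ℤ} {p W : ℤ → ℤ × ℤ} {A : ℤ → ℤ}

/-- real coordinates of the point of parameter `t` on the coarse edge `k` -/
def q1 (p : ℤ → ℤ × ℤ) (k : ℤ) (t : ℝ) : ℝ := (p k).1 + t * ((p (k + 1)).1 - (p k).1)

/-- second coordinate -/
def q2 (p : ℤ → ℤ × ℤ) (k : ℤ) (t : ℝ) : ℝ := (p k).2 + t * ((p (k + 1)).2 - (p k).2)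

/-- corner form: the edges `k - 1` and `k` -/
theorem corner (h : Seg n M m p W A) (hm : 0 < m) {k : ℤ} {s t x y C C' D : ℝ} (s0 : 0 ≤ s)
    (t1 : t ≤ 1) (hC : C ≤ D) (hC' : C' ≤ D)
    (a1 : |x - m * q1 p k s| ≤ C) (a2 : |y - m * q2 p k s| ≤ C)
    (b1 : |x - m * q1 p (k - 1) t| ≤ C') (b2 : |y - m * q2 p (k - 1) t| ≤ C') :
    |x - m * (p k).1| ≤ D ∧ |y - m * (p k).2| ≤ D := by
  have hm' : (0 : ℝ) < m := by exact_mod_cast hm
  have u1 : U4 (p k - p (k - 1)) := by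
    have := h.pstep (k - 1); rwa [sub_add_cancel] at this
  have u2 : U4 (p (k + 1) - p k) := h.pstep k
  have ht : p (k + 1) ≠ p (k - 1) := by
    have := h.pturn (k - 1)
    rwa [show k - 1 + 2 = k + 1 by ring] at this
  unfold q1 at a1 b1
  unfold q2 at a2 b2
  rw [sub_add_cancel] at b1 b2
  have e1 : ∃ d : ℤ × ℤ, U4 d ∧ p (k + 1) = p k + d := ⟨_, u2, by abel⟩
  have e2 : ∃ d : ℤ × ℤ, U4 d ∧ p (k - 1) = p k - d := ⟨_, u1, by abel⟩
  obtain ⟨d, hd, ed⟩ := e1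
  obtain ⟨c, hc, ec⟩ := e2
  have hne : ¬ (d = -c) := by
    rintro rfl
    apply ht
    rw [ed, ec]; abel
  rw [ed] at a1 a2
  rw [ec] at b1 b2
  simp only [Prod.fst_add, Prod.snd_add, Prod.fst_sub, Prod.snd_sub] at a1 a2 b1 b2
  push_cast at a1 a2 b1 b2
  have f1 : (m : ℝ) * (1 - t) ≥ 0 := mul_nonneg hm'.le (by linarith)
  have f2 : (m : ℝ) * s ≥ 0 := mul_nonneg hm'.le s0
  rw [abs_le] at a1 a2 b1 b2
  rw [abs_le, abs_le]
  rcases hd with rfl | rfl | rfl | rfl <;> rcases hc with rfl | rfl | rfl | rfl <;>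
    first
    | (exfalso; apply hne; simp; done)
    | (simp only [Int.cast_one, Int.cast_zero, Int.cast_neg] at a1 a2 b1 b2
       refine ⟨⟨?_, ?_⟩, ⟨?_, ?_⟩⟩ <;> linarith [a1.1, a1.2, a2.1, a2.2, b1.1, b1.2, b2.1, b2.2])

/-- **adjacency, coordinates** -/
theorem adj (h : Seg n M m p W A) {C C' D : ℝ} (hm3 : 3 ≤ m) (hm : C + 3 + C' < m)
    (hD : C + 3 ≤ D) (hD' : C' ≤ D) {k a l : ℤ} (k1 : A k ≤ a) (k2 : a ≤ A (k + 1)) {t x y : ℝ}
    (t0 : 0 ≤ t) (t1 : t ≤ 1) (x1 : |x - (W a).1| ≤ C) (y1 : |y - (W a).2| ≤ C)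
    (x2 : |x - m * q1 p l t| ≤ C') (y2 : |y - m * q2 p l t| ≤ C') :
    (n : ℤ) ∣ l - k ∨
    ((n : ℤ) ∣ l - (k - 1) ∧ |x - m * (p k).1| ≤ D ∧ |y - m * (p k).2| ≤ D) ∨
    ((n : ℤ) ∣ l - (k + 1) ∧ |x - m * (p (k + 1)).1| ≤ D ∧ |y - m * (p (k + 1)).2| ≤ D) := by
  obtain ⟨s, s0, s1, s2, s3⟩ := h.near_edge hm3 k1 k2
  have hm' : (0 : ℝ) < m := by exact_mod_cast (show (0 : ℤ) < m by omega)
  have s2' : |x - m * q1 p k s| ≤ C + 3 := by
    rw [show x - m * q1 p k s = (x - (W a).1) + ((W a).1 - m * q1 p k s) by ring]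
    exact (abs_add_le _ _).trans (add_le_add x1 s2)
  have s3' : |y - m * q2 p k s| ≤ C + 3 := by
    rw [show y - m * q2 p k s = (y - (W a).2) + ((W a).2 - m * q2 p k s) by ring]
    exact (abs_add_le _ _).trans (add_le_add y1 s3)
  have key : ∀ {z P Q : ℝ}, |z - m * P| ≤ C + 3 → |z - m * Q| ≤ C' → ¬ 1 ≤ |P - Q| := by
    intro z P Q e1 e2 e3
    have e4 : (m : ℝ) ≤ |m * P - m * Q| := by
      rw [← mul_sub, abs_mul, abs_of_pos hm']
      nlinarith
    have e5 : |(m : ℝ) * P - m * Q| ≤ C + 3 + C' := by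
      rw [show (m : ℝ) * P - m * Q = -(z - m * P) + (z - m * Q) by ring]
      refine (abs_add_le _ _).trans ?_
      rw [abs_neg]
      exact add_le_add e1 e2
    linarith
  by_cases h0 : (n : ℤ) ∣ l - k
  · exact Or.inl h0
  by_cases h1 : (n : ℤ) ∣ l - k - 1
  · refine Or.inr (Or.inr ⟨by rwa [show l - (k + 1) = l - k - 1 by ring], ?_⟩)
    obtain ⟨j, hj⟩ := h1
    have hl : l = k + 1 + j * n := by linarith [mul_comm (n : ℤ) j]
    have e1 : p l = p (k + 1) := by rw [hl]; exact h.pper' _ _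
    have e2 : p (l + 1) = p (k + 1 + 1) := by
      rw [hl, show k + 1 + j * n + 1 = k + 1 + 1 + j * n by ring]; exact h.pper' _ _
    have e3 : q1 p l t = q1 p (k + 1) t := by unfold q1; rw [e1, e2]
    have e4 : q2 p l t = q2 p (k + 1) t := by unfold q2; rw [e1, e2]
    rw [e3] at x2
    rw [e4] at y2
    exact corner h (by omega) t0 s1 hD' hD x2 y2 (by rwa [add_sub_cancel_right])
      (by rwa [add_sub_cancel_right])
  by_cases h2 : (n : ℤ) ∣ l - k + 1
  · refine Or.inr (Or.inl ⟨by rwa [show l - (k - 1) = l - k + 1 by ring], ?_⟩)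
    obtain ⟨j, hj⟩ := h2
    have hl : l = k - 1 + j * n := by linarith [mul_comm (n : ℤ) j]
    have e1 : p l = p (k - 1) := by rw [hl]; exact h.pper' _ _
    have e2 : p (l + 1) = p (k - 1 + 1) := by
      rw [hl, show k - 1 + j * n + 1 = k - 1 + 1 + j * n by ring]; exact h.pper' _ _
    have e3 : q1 p l t = q1 p (k - 1) t := by unfold q1; rw [e1, e2]
    have e4 : q2 p l t = q2 p (k - 1) t := by unfold q2; rw [e1, e2]
    rw [e3] at x2
    rw [e4] at y2
    exact corner h (by omega) s0 t1 hD hD' s2' s3' x2 y2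
  · rcases h.far k l h0 h1 h2 s t s0 s1 t0 t1 with hf | hf
    · exact absurd hf (key s2' x2)
    · exact absurd hf (key s3' y2)

/-! ### complex form -/

theorem abs_re_sub_le (z w : ℂ) : |z.re - w.re| ≤ dist z w := by
  rw [dist_eq_norm, ← Complex.sub_re]; exact Complex.abs_re_le_norm _

theorem abs_im_sub_le (z w : ℂ) : |z.im - w.im| ≤ dist z w := by
  rw [dist_eq_norm, ← Complex.sub_im]; exact Complex.abs_im_le_norm _

/-- the coarse edge in coordinates -/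
theorem mem_ed {s : ℝ} {p : ℤ → ℤ × ℤ} {l : ℤ} {w : ℂ} :
    w ∈ ed s (p l) (p (l + 1)) ↔
      ∃ t : ℝ, 0 ≤ t ∧ t ≤ 1 ∧ w = ⟨s * q1 p l t, s * q2 p l t⟩ := by
  unfold ed
  rw [segment_eq_image_lineMap]
  constructor
  · rintro ⟨t, ⟨t0, t1⟩, rfl⟩
    refine ⟨t, t0, t1, ?_⟩
    rw [AffineMap.lineMap_apply]
    unfold pt q1 q2
    apply Complex.ext <;> simp <;> ring
  · rintro ⟨t, t0, t1, rfl⟩
    refine ⟨t, ⟨t0, t1⟩, ?_⟩
    rw [AffineMap.lineMap_apply]
    unfold pt q1 q2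
    apply Complex.ext <;> simp <;> ring

theorem cen_re' (hh : ℝ) (W : ℤ → ℤ × ℤ) (a : ℤ) : (cen hh W a).re = hh * (W a).1 :=
  FineDx576.cen_re hh W a

theorem cen_im' (hh : ℝ) (W : ℤ → ℤ × ℤ) (a : ℤ) : (cen hh W a).im = hh * (W a).2 :=
  FineDx576.cen_im hh W a

/-- scaling -/
theorem scale {hh u c K r : ℝ} (h0 : 0 < hh) (h : |u - hh * c| ≤ r) (hr : r ≤ K * hh) :
    |u / hh - c| ≤ K := by
  rw [show u / hh - c = (u - hh * c) / hh by field_simp, abs_div, abs_of_pos h0, div_le_iff₀ h0]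
  exact h.trans hr

theorem unscale {hh u c K : ℝ} (h0 : 0 < hh) (h : |u / hh - c| ≤ K) : |u - hh * c| ≤ K * hh := by
  have e : u - hh * c = hh * (u / hh - c) := by field_simp
  rw [e, abs_mul, abs_of_pos h0, mul_comm K]
  exact mul_le_mul_of_nonneg_left h h0.le

/-! ### arcs between the middles -/

variable {e : ℤ → ℤ}

/-- the part of the coarse walk between the marks `j` and `j + 1` (middles of the edges `e j`,
`e (j + 1)`) -/
def Arc (s : ℝ) (p : ℤ → ℤ × ℤ) (e : ℤ → ℤ) (j : ℤ) : Set ℂ :=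
  {w | ∃ (l : ℤ) (t : ℝ), 0 ≤ t ∧ t ≤ 1 ∧ (e j : ℝ) + 1 / 2 ≤ l + t ∧
    (l : ℝ) + t ≤ e (j + 1) + 1 / 2 ∧ w = ⟨s * q1 p l t, s * q2 p l t⟩}

/-- the mark `j` -/
def mark (s : ℝ) (p : ℤ → ℤ × ℤ) (e : ℤ → ℤ) (j : ℤ) : ℂ :=
  ⟨s * q1 p (e j) (1 / 2), s * q2 p (e j) (1 / 2)⟩

theorem q1_per (h : Seg n M m p W A) (k j : ℤ) (t : ℝ) : q1 p (k + j * n) t = q1 p k t := by
  unfold q1
  rw [h.pper', show k + j * (n : ℤ) + 1 = k + 1 + j * n by ring, h.pper']

theorem q2_per (h : Seg n M m p W A) (k j : ℤ) (t : ℝ) : q2 p (k + j * n) t = q2 p k t := by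
  unfold q2
  rw [h.pper', show k + j * (n : ℤ) + 1 = k + 1 + j * n by ring, h.pper']

theorem emono (H : Lay n M m p W A e) : StrictMono e := strictMono_int_of_lt_succ H.elt

theorem eper' (H : Lay n M m p W A e) (j q : ℤ) : e (j + 3 * q) = e j + q * n := by
  induction q using Int.induction_on with
  | zero => simp
  | succ q ih =>
    rw [show j + 3 * ((q : ℤ) + 1) = j + 3 * q + 3 by ring, H.eper, ih]; ring
  | pred q ih =>
    have := H.eper (j + 3 * (-(q : ℤ) - 1))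
    rw [show j + 3 * (-(q : ℤ) - 1) + 3 = j + 3 * -q by ring, ih] at this
    linarith

/-- the segment of a tile of the arc `j` -/
theorem seg_arc (H : Lay n M m p W A e) {a j k : ℤ} (h1 : g A e j ≤ a) (h2 : a < g A e (j + 1))
    (k1 : A k ≤ a) (k2 : a < A (k + 1)) : e j ≤ k ∧ k ≤ e (j + 1) := by
  have f1 := H.g_mem j
  have f2 := H.g_mem (j + 1)
  constructor
  · by_contra hc
    have := H.Amono.monotone (show k + 1 ≤ e j by omega)
    omega
  · by_contra hc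
    have := H.Amono.monotone (show e (j + 1) + 1 ≤ k by omega)
    omega

/-- coordinates near the middle of one edge: first half of the edge, second half of the tiles -/
theorem midA (H : Lay n M m p W A e) {k a : ℤ} (k1 : A k ≤ a) (k2 : a ≤ A (k + 1))
    {t x y C C' D : ℝ} (hC : C + 3 ≤ D) (hC' : C' ≤ D)
    (hc : m ≤ 2 * (a - A k) + 3 ∧ t ≤ 1 / 2 ∨ 2 * (a - A k) ≤ m ∧ 1 / 2 ≤ t)
    (x1 : |x - (W a).1| ≤ C) (y1 : |y - (W a).2| ≤ C)
    (x2 : |x - m * q1 p k t| ≤ C') (y2 : |y - m * q2 p k t| ≤ C') :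
    |x - m * q1 p k (1 / 2)| ≤ D ∧ |y - m * q2 p k (1 / 2)| ≤ D := by
  have hm' : (0 : ℝ) < m := by exact_mod_cast (show (0 : ℤ) < m by have := H.m10; omega)
  have hW := H.W_seg k1 k2
  obtain ⟨n1, n2⟩ := H.near k
  have n1' : |((W (A k)).1 : ℝ) - m * (p k).1| ≤ 1 := by exact_mod_cast n1
  have n2' : |((W (A k)).2 : ℝ) - m * (p k).2| ≤ 1 := by exact_mod_cast n2
  have hd : ∃ d : ℤ × ℤ, U4 d ∧ p (k + 1) = p k + d := ⟨_, H.pstep k, by abel⟩
  obtain ⟨d, hd, ed⟩ := hd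
  have c1 : ((W a).1 : ℝ) = (W (A k)).1 + (a - A k) * d.1 := by
    have := congrArg Prod.fst hW
    rw [ed] at this
    simp only [Prod.fst_add, add_sub_cancel_left] at this
    exact_mod_cast this
  have c2 : ((W a).2 : ℝ) = (W (A k)).2 + (a - A k) * d.2 := by
    have := congrArg Prod.snd hW
    rw [ed] at this
    simp only [Prod.snd_add, add_sub_cancel_left] at this
    exact_mod_cast this
  unfold q1 at x2 ⊢
  unfold q2 at y2 ⊢
  rw [ed] at x2 y2 ⊢
  simp only [Prod.fst_add, Prod.snd_add] at x2 y2 ⊢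
  push_cast at x2 y2 ⊢
  rw [c1] at x1
  rw [c2] at y1
  have hc' : ((m : ℝ) ≤ 2 * (a - A k) + 3 ∧ (m : ℝ) * t ≤ m * (1 / 2)) ∨
      (2 * ((a : ℝ) - A k) ≤ m ∧ (m : ℝ) * (1 / 2) ≤ m * t) := by
    rcases hc with ⟨h1, h2⟩ | ⟨h1, h2⟩
    · exact Or.inl ⟨by exact_mod_cast h1, mul_le_mul_of_nonneg_left h2 hm'.le⟩
    · exact Or.inr ⟨by exact_mod_cast h1, mul_le_mul_of_nonneg_left h2 hm'.le⟩
  clear hc
  rw [abs_le] at x1 y1 x2 y2 n1' n2'
  rw [abs_le, abs_le]
  rcases hd with rfl | rfl | rfl | rfl <;>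
    (simp only [Int.cast_one, Int.cast_zero, Int.cast_neg] at x1 y1 x2 y2 ⊢
     rcases hc' with ⟨h1, h2⟩ | ⟨h1, h2⟩ <;> refine ⟨⟨?_, ?_⟩, ⟨?_, ?_⟩⟩ <;>
      linarith [x1.1, x1.2, y1.1, y1.2, x2.1, x2.2, y2.1, y2.2, n1'.1, n1'.2, n2'.1, n2'.2])

/-- near the corner `p k` the parameter on the edge `k - 1` is large -/
theorem param_hi (H : Lay n M m p W A e) {k : ℤ} {t x y C' D : ℝ}
    (x1 : |x - m * (p k).1| ≤ D) (y1 : |y - m * (p k).2| ≤ D)
    (x2 : |x - m * q1 p (k - 1) t| ≤ C') (y2 : |y - m * q2 p (k - 1) t| ≤ C') :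
    m * (1 - t) ≤ C' + D := by
  have hd : ∃ d : ℤ × ℤ, U4 d ∧ p (k - 1) = p k - d := by
    have := H.pstep (k - 1)
    rw [sub_add_cancel] at this
    exact ⟨_, this, by abel⟩
  obtain ⟨d, hd, ed⟩ := hd
  unfold q1 at x2
  unfold q2 at y2
  rw [sub_add_cancel, ed] at x2 y2
  simp only [Prod.fst_sub, Prod.snd_sub] at x2 y2
  push_cast at x2 y2
  rw [abs_le] at x1 y1 x2 y2
  rcases hd with rfl | rfl | rfl | rfl <;>
    (simp only [Int.cast_one, Int.cast_zero, Int.cast_neg] at x2 y2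
     linarith [x1.1, x1.2, y1.1, y1.2, x2.1, x2.2, y2.1, y2.2])

/-- near the corner `p k` the parameter on the edge `k` is small -/
theorem param_lo (H : Lay n M m p W A e) {k : ℤ} {t x y C' D : ℝ}
    (x1 : |x - m * (p k).1| ≤ D) (y1 : |y - m * (p k).2| ≤ D)
    (x2 : |x - m * q1 p k t| ≤ C') (y2 : |y - m * q2 p k t| ≤ C') :
    m * t ≤ C' + D := by
  have hd : ∃ d : ℤ × ℤ, U4 d ∧ p (k + 1) = p k + d := ⟨_, H.pstep k, by abel⟩
  obtain ⟨d, hd, ed⟩ := hd
  unfold q1 at x2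
  unfold q2 at y2
  rw [ed] at x2 y2
  simp only [Prod.fst_add, Prod.snd_add] at x2 y2
  push_cast at x2 y2
  rw [abs_le] at x1 y1 x2 y2
  rcases hd with rfl | rfl | rfl | rfl <;>
    (simp only [Int.cast_one, Int.cast_zero, Int.cast_neg] at x2 y2
     linarith [x1.1, x1.2, y1.1, y1.2, x2.1, x2.2, y2.1, y2.2])

/-- near the corner `p k` the index of the vertex is near `A k` -/
theorem ind_lo (H : Lay n M m p W A e) {k a : ℤ} (k1 : A k ≤ a) (k2 : a ≤ A (k + 1))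
    {x y C D : ℝ} (x1 : |x - m * (p k).1| ≤ D) (y1 : |y - m * (p k).2| ≤ D)
    (x2 : |x - (W a).1| ≤ C) (y2 : |y - (W a).2| ≤ C) : ((a - A k : ℤ) : ℝ) ≤ C + D + 1 := by
  have hW := H.W_seg k1 k2
  obtain ⟨n1, n2⟩ := H.near k
  have n1' : |((W (A k)).1 : ℝ) - m * (p k).1| ≤ 1 := by exact_mod_cast n1
  have n2' : |((W (A k)).2 : ℝ) - m * (p k).2| ≤ 1 := by exact_mod_cast n2
  have hd : ∃ d : ℤ × ℤ, U4 d ∧ p (k + 1) - p k = d := ⟨_, H.pstep k, rfl⟩
  obtain ⟨d, hd, ed⟩ := hd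
  rw [ed] at hW
  have c1 : ((W a).1 : ℝ) = (W (A k)).1 + ((a - A k : ℤ) : ℝ) * d.1 := by
    have := congrArg Prod.fst hW
    simp only [Prod.fst_add] at this
    exact_mod_cast this
  have c2 : ((W a).2 : ℝ) = (W (A k)).2 + ((a - A k : ℤ) : ℝ) * d.2 := by
    have := congrArg Prod.snd hW
    simp only [Prod.snd_add] at this
    exact_mod_cast this
  rw [c1] at x2
  rw [c2] at y2
  rw [abs_le] at x1 y1 x2 y2 n1' n2'
  rcases hd with rfl | rfl | rfl | rfl <;>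
    (simp only [Int.cast_one, Int.cast_zero, Int.cast_neg] at x2 y2
     linarith [x1.1, x1.2, y1.1, y1.2, x2.1, x2.2, y2.1, y2.2, n1'.1, n1'.2, n2'.1, n2'.2])

/-- near the corner `p (k + 1)` the index of the vertex is near `A (k + 1)` -/
theorem ind_hi (H : Lay n M m p W A e) {k a : ℤ} (k1 : A k ≤ a) (k2 : a ≤ A (k + 1))
    {x y C D : ℝ} (x1 : |x - m * (p (k + 1)).1| ≤ D) (y1 : |y - m * (p (k + 1)).2| ≤ D)
    (x2 : |x - (W a).1| ≤ C) (y2 : |y - (W a).2| ≤ C) :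
    ((A (k + 1) - a : ℤ) : ℝ) ≤ C + D + 1 := by
  have hW := H.W_seg k1 k2
  have hW' := H.W_seg (k := k) (a := A (k + 1)) (by omega) le_rfl
  obtain ⟨n1, n2⟩ := H.near (k + 1)
  have n1' : |((W (A (k + 1))).1 : ℝ) - m * (p (k + 1)).1| ≤ 1 := by exact_mod_cast n1
  have n2' : |((W (A (k + 1))).2 : ℝ) - m * (p (k + 1)).2| ≤ 1 := by exact_mod_cast n2
  have hd : ∃ d : ℤ × ℤ, U4 d ∧ p (k + 1) - p k = d := ⟨_, H.pstep k, rfl⟩
  obtain ⟨d, hd, ed⟩ := hd
  rw [ed] at hW hW'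
  have c1 : ((W a).1 : ℝ) = (W (A (k + 1))).1 - ((A (k + 1) - a : ℤ) : ℝ) * d.1 := by
    have e1 := congrArg Prod.fst hW
    have e2 := congrArg Prod.fst hW'
    simp only [Prod.fst_add] at e1 e2
    have : (W a).1 = (W (A (k + 1))).1 - (A (k + 1) - a) * d.1 := by rw [e1, e2]; ring
    exact_mod_cast this
  have c2 : ((W a).2 : ℝ) = (W (A (k + 1))).2 - ((A (k + 1) - a : ℤ) : ℝ) * d.2 := by
    have e1 := congrArg Prod.snd hW
    have e2 := congrArg Prod.snd hW'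
    simp only [Prod.snd_add] at e1 e2
    have : (W a).2 = (W (A (k + 1))).2 - (A (k + 1) - a) * d.2 := by rw [e1, e2]; ring
    exact_mod_cast this
  rw [c1] at x2
  rw [c2] at y2
  rw [abs_le] at x1 y1 x2 y2 n1' n2'
  rcases hd with rfl | rfl | rfl | rfl <;>
    (simp only [Int.cast_one, Int.cast_zero, Int.cast_neg] at x2 y2
     linarith [x1.1, x1.2, y1.1, y1.2, x2.1, x2.2, y2.1, y2.2, n1'.1, n1'.2, n2'.1, n2'.2])

/-- **label lemma, coordinates** -/
theorem label_c (H : Lay n M m p W A e) {C C' D : ℝ} (hC : C + 3 ≤ D) (hC' : C' ≤ D)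
    (hm : C + 3 + C' < m) (hm2 : 2 * (C' + D) < m) (hm3 : 2 * (C + D) + 5 < m) {a i j l : ℤ}
    (h1 : g A e j ≤ a) (h2 : a < g A e (j + 1)) {t x y : ℝ} (t0 : 0 ≤ t) (t1 : t ≤ 1)
    (i1 : (e i : ℝ) + 1 / 2 ≤ l + t) (i2 : (l : ℝ) + t ≤ e (i + 1) + 1 / 2)
    (x1 : |x - (W a).1| ≤ C) (y1 : |y - (W a).2| ≤ C)
    (x2 : |x - m * q1 p l t| ≤ C') (y2 : |y - m * q2 p l t| ≤ C') :
    (3 : ℤ) ∣ i - j ∨ ∃ q, |x - m * q1 p (e q) (1 / 2)| ≤ D ∧ |y - m * q2 p (e q) (1 / 2)| ≤ D := by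
  obtain ⟨k, k1, k2⟩ := H.seg_exists a
  obtain ⟨f1, f2⟩ := seg_arc H h1 h2 k1 k2
  have hm10 := H.m10
  have hlen := abs_le.1 (H.len k)
  -- shift of the arc
  have shift : ∀ {l' q : ℤ}, l = l' + q * n → ∃ i', i = i' + 3 * q ∧
      (e i' : ℝ) + 1 / 2 ≤ l' + t ∧ (l' : ℝ) + t ≤ e (i' + 1) + 1 / 2 ∧
      |x - m * q1 p l' t| ≤ C' ∧ |y - m * q2 p l' t| ≤ C' := by
    intro l' q hl
    refine ⟨i - 3 * q, by ring, ?_, ?_, ?_, ?_⟩
    · have f1 := eper' H (i - 3 * q) q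
      rw [show i - 3 * q + 3 * q = i by ring] at f1
      rw [f1, hl] at i1
      push_cast at i1
      linarith
    · have f1 := eper' H (i - 3 * q + 1) q
      rw [show i - 3 * q + 1 + 3 * q = i + 1 by ring] at f1
      rw [f1, hl] at i2
      push_cast at i2
      linarith
    · rw [hl, q1_per H.toSeg] at x2; exact x2
    · rw [hl, q2_per H.toSeg] at y2; exact y2
  rcases adj H.toSeg (by omega) hm hC hC' k1 k2.le t0 t1 x1 y1 x2 y2 with
    ⟨q, hq⟩ | ⟨⟨q, hq⟩, c1, c2⟩ | ⟨⟨q, hq⟩, c1, c2⟩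
  · obtain ⟨i', hi, s1, s2, s3, s4⟩ := shift (l' := k) (q := q) (by linarith [mul_comm (n : ℤ) q])
    rcases lt_trichotomy i' j with hc | hc | hc
    · have g1 := (emono H).monotone (show i' + 1 ≤ j by omega)
      have g2 : k ≤ e (i' + 1) := by
        have : (k : ℝ) < e (i' + 1) + 1 := by linarith
        have : k < e (i' + 1) + 1 := by exact_mod_cast this
        omega
      have g3 : k = e j := by omega
      have g4 : (e (i' + 1) : ℝ) = k := by exact_mod_cast (show e (i' + 1) = k by omega)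
      refine Or.inr ⟨j, ?_⟩
      rw [← g3]
      refine midA H k1 k2.le hC hC' (Or.inl ⟨?_, by linarith⟩) x1 y1 s3 s4
      have g5 := (H.g_mem j).1
      rw [← g3] at g5
      omega
    · exact Or.inl ⟨q, by rw [hi, hc]; ring⟩
    · have g1 := (emono H).monotone (show j + 1 ≤ i' by omega)
      have g2 : e i' ≤ k := by
        have : (e i' : ℝ) < k + 1 := by linarith
        have : e i' < k + 1 := by exact_mod_cast this
        omega
      have g3 : k = e (j + 1) := by omega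
      have g4 : (e i' : ℝ) = k := by exact_mod_cast (show e i' = k by omega)
      refine Or.inr ⟨j + 1, ?_⟩
      rw [← g3]
      refine midA H k1 k2.le hC hC' (Or.inr ⟨?_, by linarith⟩) x1 y1 s3 s4
      have g5 : g A e (j + 1) = A k + (A (k + 1) - A k) / 2 := by
        unfold g; rw [← g3]
      omega
  · obtain ⟨i', hi, s1, s2, s3, s4⟩ := shift (l' := k - 1) (q := q)
      (by linarith [mul_comm (n : ℤ) q])
    have p1 := param_hi H c1 c2 s3 s4
    have p2 := ind_lo H k1 k2.le c1 c2 x1 y1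
    have ht : 1 / 2 < t := by
      by_contra hc
      push Not at hc
      have hmpos : (0 : ℝ) < m := by exact_mod_cast (show (0 : ℤ) < m by omega)
      nlinarith
    have r1 : e i' < k := by
      push_cast at s1
      have : (e i' : ℝ) < k := by linarith
      exact_mod_cast this
    have r2 : k ≤ e (i' + 1) := by
      push_cast at s2
      have : (k : ℝ) < e (i' + 1) + 1 := by linarith
      have : k < e (i' + 1) + 1 := by exact_mod_cast this
      omega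
    have r3 : 2 * (a - A k) + 3 < m := by
      have : ((2 * (a - A k) + 3 : ℤ) : ℝ) < m := by push_cast at p2 ⊢; linarith
      exact_mod_cast this
    have r4 : k ≠ e j := by
      intro hk
      have g5 := (H.g_mem j).1
      rw [← hk] at g5
      omega
    have r5 : i' = j := by
      rcases lt_trichotomy i' j with hc | hc | hc
      · have g1 := (emono H).monotone (show i' + 1 ≤ j by omega)
        omega
      · exact hc
      · have g1 := (emono H).monotone (show j + 1 ≤ i' by omega)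
        omega
    exact Or.inl ⟨q, by rw [hi, r5]; ring⟩
  · obtain ⟨i', hi, s1, s2, s3, s4⟩ := shift (l' := k + 1) (q := q)
      (by linarith [mul_comm (n : ℤ) q])
    have p1 := param_lo H c1 c2 s3 s4
    have p2 := ind_hi H k1 k2.le c1 c2 x1 y1
    have ht : t < 1 / 2 := by
      by_contra hc
      push Not at hc
      have hmpos : (0 : ℝ) < m := by exact_mod_cast (show (0 : ℤ) < m by omega)
      nlinarith
    have r1 : e i' ≤ k := by
      push_cast at s1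
      have : (e i' : ℝ) < k + 1 := by linarith
      have : e i' < k + 1 := by exact_mod_cast this
      omega
    have r2 : k < e (i' + 1) := by
      push_cast at s2
      have : (k : ℝ) < e (i' + 1) := by linarith
      exact_mod_cast this
    have r3 : 2 * (A (k + 1) - a) + 3 < m := by
      have : ((2 * (A (k + 1) - a) + 3 : ℤ) : ℝ) < m := by push_cast at p2 ⊢; linarith
      exact_mod_cast this
    have r4 : k ≠ e (j + 1) := by
      intro hk
      have g5 : g A e (j + 1) = A k + (A (k + 1) - A k) / 2 := by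
        unfold g; rw [← hk]
      omega
    have r5 : i' = j := by
      rcases lt_trichotomy i' j with hc | hc | hc
      · have g1 := (emono H).monotone (show i' + 1 ≤ j by omega)
        omega
      · exact hc
      · have g1 := (emono H).monotone (show j + 1 ≤ i' by omega)
        omega
    exact Or.inl ⟨q, by rw [hi, r5]; ring⟩

/-! ### distances -/

theorem coord1 {hh m : ℝ} (h0 : 0 < hh) {z : ℂ} {u v K : ℝ}
    (h : dist z ⟨m * hh * u, m * hh * v⟩ ≤ K * hh) : |z.re / hh - m * u| ≤ K := by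
  refine scale h0 (r := dist z ⟨m * hh * u, m * hh * v⟩) ?_ h
  rw [show hh * (m * u) = m * hh * u by ring]
  exact abs_re_sub_le z ⟨m * hh * u, m * hh * v⟩

theorem coord2 {hh m : ℝ} (h0 : 0 < hh) {z : ℂ} {u v K : ℝ}
    (h : dist z ⟨m * hh * u, m * hh * v⟩ ≤ K * hh) : |z.im / hh - m * v| ≤ K := by
  refine scale h0 (r := dist z ⟨m * hh * u, m * hh * v⟩) ?_ h
  rw [show hh * (m * v) = m * hh * v by ring]
  exact abs_im_sub_le z ⟨m * hh * u, m * hh * v⟩

theorem dist_of_coord {hh m : ℝ} (h0 : 0 < hh) {z : ℂ} {u v K : ℝ}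
    (h1 : |z.re / hh - m * u| ≤ K) (h2 : |z.im / hh - m * v| ≤ K) :
    dist z ⟨m * hh * u, m * hh * v⟩ ≤ 3 / 2 * (K * hh) := by
  refine FineDx576.dist_le_of ?_ ?_
  · rw [show ((⟨m * hh * u, m * hh * v⟩ : ℂ)).re = hh * (m * u) by simp only; ring]
    exact unscale h0 h1
  · rw [show ((⟨m * hh * u, m * hh * v⟩ : ℂ)).im = hh * (m * v) by simp only; ring]
    exact unscale h0 h2

theorem cen1 {hh K : ℝ} (h0 : 0 < hh) {z : ℂ} {a : ℤ} (h : dist z (cen hh W a) ≤ K * hh) :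
    |z.re / hh - (W a).1| ≤ K := by
  refine scale h0 (r := dist z (cen hh W a)) ?_ h
  rw [← cen_re']; exact abs_re_sub_le _ _

theorem cen2 {hh K : ℝ} (h0 : 0 < hh) {z : ℂ} {a : ℤ} (h : dist z (cen hh W a) ≤ K * hh) :
    |z.im / hh - (W a).2| ≤ K := by
  refine scale h0 (r := dist z (cen hh W a)) ?_ h
  rw [← cen_im']; exact abs_im_sub_le _ _

/-- **label lemma**: a point near the tile `a` of the arc `j` and near the arc `i` -/
theorem label (H : Lay n M m p W A e) {hh : ℝ} (h0 : 0 < hh) {C C' D : ℝ} (hC : C + 3 ≤ D)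
    (hC' : C' ≤ D) (hm : C + 3 + C' < m) (hm2 : 2 * (C' + D) < m) (hm3 : 2 * (C + D) + 5 < m)
    {a i j : ℤ} (h1 : g A e j ≤ a) (h2 : a < g A e (j + 1)) {z w : ℂ}
    (hz : dist z (cen hh W a) ≤ C * hh) (hw : w ∈ Arc (m * hh) p e i)
    (hzw : dist z w ≤ C' * hh) :
    (3 : ℤ) ∣ i - j ∨ ∃ q, dist z (mark (m * hh) p e q) ≤ 3 / 2 * (D * hh) := by
  obtain ⟨l, t, t0, t1, i1, i2, rfl⟩ := hw
  rcases label_c H hC hC' hm hm2 hm3 h1 h2 t0 t1 i1 i2 (cen1 h0 hz) (cen2 h0 hz)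
    (coord1 h0 hzw) (coord2 h0 hzw) with hc | ⟨q, q1, q2⟩
  · exact Or.inl hc
  · exact Or.inr ⟨q, dist_of_coord h0 q1 q2⟩

/-- parameter of a tile on its arc -/
theorem own_param (H : Lay n M m p W A e) {a j : ℤ} (h1 : g A e j ≤ a)
    (h2 : a < g A e (j + 1)) : ∃ (k : ℤ) (s : ℝ), A k ≤ a ∧ a < A (k + 1) ∧ 0 ≤ s ∧ s ≤ 1 ∧
      (e j : ℝ) + 1 / 2 ≤ k + s ∧ (k : ℝ) + s ≤ e (j + 1) + 1 / 2 ∧
      |((a - A k : ℤ) : ℝ) - m * s| ≤ 2 := by
  obtain ⟨k, k1, k2⟩ := H.seg_exists a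
  obtain ⟨f1, f2⟩ := seg_arc H h1 h2 k1 k2
  have hm10 := H.m10
  have hlen := abs_le.1 (H.len k)
  have hmpos : (0 : ℝ) < m := by exact_mod_cast (show (0 : ℤ) < m by omega)
  have hlt := H.elt j
  -- clamp into `[lo, hi]`
  have clamp : ∀ lo hi : ℝ, 0 ≤ lo → lo ≤ hi → hi ≤ 1 →
      m * lo ≤ ((a - A k : ℤ) : ℝ) + 2 → ((a - A k : ℤ) : ℝ) ≤ m * hi + 2 →
      ∃ s : ℝ, lo ≤ s ∧ s ≤ hi ∧ |((a - A k : ℤ) : ℝ) - m * s| ≤ 2 := by
    intro lo hi l0 lh h1' c1 c2
    set σ : ℝ := ((a - A k : ℤ) : ℝ) with hσ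
    by_cases c3 : m * lo ≤ σ
    · by_cases c4 : σ ≤ m * hi
      · refine ⟨σ / m, (le_div_iff₀ hmpos).2 (by linarith), (div_le_iff₀ hmpos).2 (by linarith), ?_⟩
        rw [mul_div_cancel₀ _ hmpos.ne', sub_self, abs_zero]
        norm_num
      · exact ⟨hi, lh, le_rfl, by rw [abs_le]; constructor <;> linarith⟩
    · exact ⟨lo, le_rfl, lh, by rw [abs_le]; constructor <;> linarith⟩
  have σ0 : (0 : ℝ) ≤ ((a - A k : ℤ) : ℝ) := by exact_mod_cast (show (0 : ℤ) ≤ a - A k by omega)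
  have σ1 : ((a - A k : ℤ) : ℝ) ≤ m + 2 := by
    have : (a - A k : ℤ) ≤ m + 2 := by omega
    exact_mod_cast this
  by_cases e1 : k = e j
  · have e2 : k < e (j + 1) := by omega
    have g5 := (H.g_mem j).1
    rw [← e1] at g5
    have g6 : (m : ℝ) ≤ 2 * ((a - A k : ℤ) : ℝ) + 3 := by
      have : m ≤ 2 * (a - A k) + 3 := by omega
      exact_mod_cast this
    obtain ⟨s, s1, s2, s3⟩ := clamp (1 / 2) 1 (by norm_num) (by norm_num) le_rfl (by linarith)
      (by linarith)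
    refine ⟨k, s, k1, k2, by linarith, s2, ?_, ?_, s3⟩
    · rw [← e1]; linarith
    · have : (k : ℝ) + 1 ≤ e (j + 1) := by exact_mod_cast e2
      linarith
  · have e1' : e j < k := by omega
    have e1'' : (e j : ℝ) + 1 ≤ k := by exact_mod_cast e1'
    by_cases e2 : k = e (j + 1)
    · have g5 : g A e (j + 1) = A k + (A (k + 1) - A k) / 2 := by
        unfold g; rw [← e2]
      have g6 : 2 * ((a - A k : ℤ) : ℝ) ≤ m := by
        have : 2 * (a - A k) ≤ m := by omega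
        exact_mod_cast this
      obtain ⟨s, s1, s2, s3⟩ := clamp 0 (1 / 2) le_rfl (by norm_num) (by norm_num) (by linarith)
        (by linarith)
      refine ⟨k, s, k1, k2, s1, by linarith, by linarith, ?_, s3⟩
      rw [← e2]; linarith
    · have e3 : (k : ℝ) + 1 ≤ e (j + 1) := by exact_mod_cast (show k < e (j + 1) by omega)
      obtain ⟨s, s1, s2, s3⟩ := clamp 0 1 le_rfl (by norm_num) le_rfl (by linarith)
        (by linarith)
      exact ⟨k, s, k1, k2, s1, s2, by linarith, by linarith, s3⟩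

/-- **the tile is near its own arc** -/
theorem own (H : Lay n M m p W A e) {hh : ℝ} (h0 : 0 < hh) {C : ℝ} {a j : ℤ}
    (h1 : g A e j ≤ a) (h2 : a < g A e (j + 1)) {z : ℂ} (hz : dist z (cen hh W a) ≤ C * hh) :
    ∃ w ∈ Arc (m * hh) p e j, dist z w ≤ (C + 5) * hh := by
  obtain ⟨k, s, k1, k2, s0, s1, i1, i2, hs⟩ := own_param H h1 h2
  refine ⟨⟨m * hh * q1 p k s, m * hh * q2 p k s⟩, ⟨k, s, s0, s1, i1, i2, rfl⟩, ?_⟩
  have hW := H.W_seg k1 k2.le
  obtain ⟨n1, n2⟩ := H.near k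
  obtain ⟨u1, u2⟩ := Seg.u4_abs (H.pstep k)
  have c1 := congrArg Prod.fst hW
  have c2 := congrArg Prod.snd hW
  simp only [Prod.fst_add, Prod.snd_add, Prod.fst_sub, Prod.snd_sub] at c1 c2 u1 u2
  have key : ∀ (w w0 q q' : ℤ), w = w0 + (a - A k) * (q' - q) → |w0 - m * q| ≤ 1 →
      |q' - q| ≤ 1 → |(w : ℝ) - m * (q + s * (q' - q))| ≤ 3 := by
    intro w w0 q q' e1 e2 e3
    have e1' : (w : ℝ) = w0 + ((a - A k : ℤ) : ℝ) * (q' - q) := by exact_mod_cast e1
    have e2' : |(w0 : ℝ) - m * q| ≤ 1 := by exact_mod_cast e2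
    have e3' : |(q' : ℝ) - q| ≤ 1 := by exact_mod_cast e3
    rw [e1', show (w0 : ℝ) + ((a - A k : ℤ) : ℝ) * (q' - q) - m * (q + s * (q' - q)) =
      (w0 - m * q) + (((a - A k : ℤ) : ℝ) - m * s) * (q' - q) by ring]
    refine (abs_add_le _ _).trans ?_
    rw [abs_mul]
    have : |((a - A k : ℤ) : ℝ) - m * s| * |(q' : ℝ) - q| ≤ 2 * 1 :=
      mul_le_mul hs e3' (abs_nonneg _) (by norm_num)
    linarith
  have d1 := key _ _ _ _ c1 n1 u1
  have d2 := key _ _ _ _ c2 n2 u2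
  have d3 : dist (cen hh W a) ⟨m * hh * q1 p k s, m * hh * q2 p k s⟩ ≤ 3 / 2 * (3 * hh) := by
    refine dist_of_coord h0 ?_ ?_
    · rw [cen_re', mul_div_cancel_left₀ _ h0.ne']; exact d1
    · rw [cen_im', mul_div_cancel_left₀ _ h0.ne']; exact d2
  have := dist_triangle z (cen hh W a) ⟨m * hh * q1 p k s, m * hh * q2 p k s⟩
  nlinarith

/-- the marks lie on the arcs -/
theorem mark_mem (H : Lay n M m p W A e) (s : ℝ) (j : ℤ) : mark s p e j ∈ Arc s p e j := by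
  have h1 : (e j : ℝ) ≤ e (j + 1) := by exact_mod_cast (H.elt j).le
  exact ⟨e j, 1 / 2, by norm_num, by norm_num, le_rfl, by linarith, rfl⟩

theorem mark_mem' (H : Lay n M m p W A e) (s : ℝ) (j : ℤ) : mark s p e (j + 1) ∈ Arc s p e j := by
  have h1 : (e j : ℝ) ≤ e (j + 1) := by exact_mod_cast (H.elt j).le
  exact ⟨e (j + 1), 1 / 2, by norm_num, by norm_num, by linarith, le_rfl, rfl⟩

/-- periodicity of the marks -/
theorem mark_per (H : Lay n M m p W A e) (s : ℝ) (j q : ℤ) :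
    mark s p e (j + 3 * q) = mark s p e j := by
  unfold mark
  rw [eper' H, q1_per H.toSeg, q2_per H.toSeg]

/-- periodicity of the arcs -/
theorem arc_per (H : Lay n M m p W A e) (s : ℝ) (j q : ℤ) :
    Arc s p e (j + 3 * q) = Arc s p e j := by
  have e1 := eper' H j q
  have e2 := eper' H (j + 1) q
  rw [show j + 1 + 3 * q = j + 3 * q + 1 by ring] at e2
  ext w
  unfold Arc
  simp only [Set.mem_ofPred_eq]
  rw [e1, e2]
  constructor
  · rintro ⟨l, t, t0, t1, i1, i2, hw⟩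
    refine ⟨l - q * n, t, t0, t1, by push_cast at i1 ⊢; linarith, by push_cast at i2 ⊢; linarith, ?_⟩
    have f1 := q1_per H.toSeg (l - q * n) q t
    have f2 := q2_per H.toSeg (l - q * n) q t
    rw [sub_add_cancel] at f1 f2
    rw [← f1, ← f2]
    exact hw
  · rintro ⟨l, t, t0, t1, i1, i2, hw⟩
    refine ⟨l + q * n, t, t0, t1, by push_cast at i1 ⊢; linarith, by push_cast at i2 ⊢; linarith, ?_⟩
    rw [q1_per H.toSeg, q2_per H.toSeg]
    exact hw

/-- **position of a point near the tile `a`, away from the marks**: own arc near, others far -/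
theorem nearest_arc (H : Lay n M m p W A e) {hh : ℝ} (h0 : 0 < hh) {C : ℝ} (hC : 0 ≤ C)
    (hm : 4 * C + 24 < m) {a j : ℤ} (h1 : g A e j ≤ a) (h2 : a < g A e (j + 1)) {z : ℂ}
    (hz : dist z (cen hh W a) ≤ C * hh)
    (hmk : ∀ q, 3 / 2 * ((C + 6) * hh) < dist z (mark (m * hh) p e q)) :
    Metric.infDist z (Arc (m * hh) p e j) ≤ (C + 5) * hh ∧
      ∀ i, ¬ (3 : ℤ) ∣ i - j → (C + 6) * hh ≤ Metric.infDist z (Arc (m * hh) p e i) := by
  constructor
  · obtain ⟨w, w1, w2⟩ := own H h0 h1 h2 hz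
    exact (Metric.infDist_le_dist_of_mem w1).trans w2
  · intro i hi
    rw [Metric.le_infDist ⟨_, mark_mem H _ i⟩]
    intro w hw
    by_contra hc
    push Not at hc
    rcases label H h0 (C := C) (C' := C + 6) (D := C + 6) (by linarith) le_rfl (by linarith)
      (by linarith) (by linarith) h1 h2 hz hw hc.le with h3 | ⟨q, hq⟩
    · exact hi h3
    · exact absurd hq (not_le.2 (hmk q))

end Crest.Agent.R143.LayNx811
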