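import Crest.Agent.R143.LayN_811
import Crest.Agent.R143.Fine3_422
import Crest.Agent.R143.PolyU_346
import Crest.Agent.R143.LayU_416

/-!
# Row 143 (S0194), CORE-C: link between the layout and the frozen polygon of 346 (helper811)

* `IsU u p e` : clockwise coarse walk and marks of `u : PolyUx346.Poly`; `eU`, `isU`, `exists_lay`
* `arc_eq` : `Arc u.s p e (3 - j) = u.Arc j`; `mark1`, `mark2`, `mark3`
* `Crs`, `sep` : points of two different arcs within `r < s / 2` are near a mark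
* `lab_of_foot` : position label of a point near the arc `j`, away from the marks
* `lab_tile` : position label of a point near the tile `a`, `g j ≤ a < g (j + 1)`
-/

set_option autoImplicit false

noncomputable section

open scoped Classical

namespace Crest.Agent.R143.LayUx811

open Set
open Crest.Agent.R158.Sp896 (pt ed Cyc V)
open Crest.Agent.R143.TileRx228 (U4 cz cen gz ge FPath)
open Crest.Agent.R143.LayQx811
open Crest.Agent.R143.Layx416 (Lay g)
open Crest.Agent.R143.LayNx811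
open Crest.Agent.R143.Brkx478 (cells Bk)
open Crest.Agent.R143.PolyUx346

/-! ### coarse walk with marks -/

/-- coarse closed walk -/
structure Crs (n : ℕ) (p : ℤ → ℤ × ℤ) : Prop where
  pper : ∀ k, p (k + n) = p k
  pstep : ∀ k, U4 (p (k + 1) - p k)
  pturn : ∀ k, p (k + 2) ≠ p k
  far : ∀ k l : ℤ, ¬ (n : ℤ) ∣ l - k → ¬ (n : ℤ) ∣ l - k - 1 → ¬ (n : ℤ) ∣ l - k + 1 →
    ∀ s t : ℝ, 0 ≤ s → s ≤ 1 → 0 ≤ t → t ≤ 1 →
      1 ≤ |q1 p k s - q1 p l t| ∨ 1 ≤ |q2 p k s - q2 p l t|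

theorem Crs.of_seg {n M : ℕ} {m : ℤ} {p W : ℤ → ℤ × ℤ} {A : ℤ → ℤ} (h : Seg n M m p W A) :
    Crs n p := ⟨h.pper, h.pstep, h.pturn, h.far⟩

/-- marks -/
structure Ev (n : ℕ) (e : ℤ → ℤ) : Prop where
  per : ∀ j, e (j + 3) = e j + n
  lt : ∀ j, e j < e (j + 1)

variable {n : ℕ} {p : ℤ → ℤ × ℤ} {e : ℤ → ℤ}

theorem Ev.mono (h : Ev n e) : StrictMono e := strictMono_int_of_lt_succ h.lt

theorem Ev.per' (h : Ev n e) (j q : ℤ) : e (j + 3 * q) = e j + q * n := by
  induction q using Int.induction_on with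
  | zero => simp
  | succ q ih =>
    rw [show j + 3 * ((q : ℤ) + 1) = j + 3 * q + 3 by ring, h.per, ih]; ring
  | pred q ih =>
    have := h.per (j + 3 * (-(q : ℤ) - 1))
    rw [show j + 3 * (-(q : ℤ) - 1) + 3 = j + 3 * -q by ring, ih] at this
    linarith

theorem Crs.pper' (h : Crs n p) (k j : ℤ) : p (k + j * n) = p k := by
  induction j using Int.induction_on with
  | zero => simp
  | succ j ih =>
    rw [show k + ((j : ℤ) + 1) * n = k + j * n + n by ring, h.pper, ih]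
  | pred j ih =>
    have := h.pper (k + (-(j : ℤ) - 1) * n)
    rw [show k + (-(j : ℤ) - 1) * n + n = k + -(j : ℤ) * n by ring, ih] at this
    exact this.symm

theorem Crs.q1_per (h : Crs n p) (k j : ℤ) (t : ℝ) : q1 p (k + j * n) t = q1 p k t := by
  unfold q1
  rw [h.pper', show k + j * (n : ℤ) + 1 = k + 1 + j * n by ring, h.pper']

theorem Crs.q2_per (h : Crs n p) (k j : ℤ) (t : ℝ) : q2 p (k + j * n) t = q2 p k t := by
  unfold q2
  rw [h.pper', show k + j * (n : ℤ) + 1 = k + 1 + j * n by ring, h.pper']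

/-- consecutive edges, coordinates -/
theorem Crs.corner (h : Crs n p) {k : ℤ} {s t r : ℝ} (s0 : 0 ≤ s) (t1 : t ≤ 1)
    (a1 : |q1 p (k - 1) t - q1 p k s| ≤ r) (a2 : |q2 p (k - 1) t - q2 p k s| ≤ r) :
    1 - t ≤ r ∧ s ≤ r := by
  have u1 : U4 (p k - p (k - 1)) := by
    have := h.pstep (k - 1); rwa [sub_add_cancel] at this
  have u2 : U4 (p (k + 1) - p k) := h.pstep k
  have ht : p (k + 1) ≠ p (k - 1) := by
    have := h.pturn (k - 1)
    rwa [show k - 1 + 2 = k + 1 by ring] at this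
  unfold q1 at a1
  unfold q2 at a2
  rw [sub_add_cancel] at a1 a2
  have e1 : ∃ d : ℤ × ℤ, U4 d ∧ p (k + 1) = p k + d := ⟨_, u2, by abel⟩
  have e2 : ∃ d : ℤ × ℤ, U4 d ∧ p (k - 1) = p k - d := ⟨_, u1, by abel⟩
  obtain ⟨d, hd, ed⟩ := e1
  obtain ⟨c, hc, ec⟩ := e2
  have hne : ¬ (d = -c) := by
    rintro rfl
    apply ht
    rw [ed, ec]; abel
  rw [ed, ec] at a1 a2
  simp only [Prod.fst_add, Prod.snd_add, Prod.fst_sub, Prod.snd_sub] at a1 a2
  push_cast at a1 a2
  rw [abs_le] at a1 a2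
  rcases hd with rfl | rfl | rfl | rfl <;> rcases hc with rfl | rfl | rfl | rfl <;>
    first
    | (exfalso; apply hne; simp; done)
    | (simp only [Int.cast_one, Int.cast_zero, Int.cast_neg] at a1 a2
       constructor <;> linarith [a1.1, a1.2, a2.1, a2.2])

/-- two points of one edge on both sides of the middle -/
theorem Crs.same (h : Crs n p) {k : ℤ} {s t r : ℝ} (hst : t ≤ 1 / 2 ∧ 1 / 2 ≤ s ∨
    s ≤ 1 / 2 ∧ 1 / 2 ≤ t) (a1 : |q1 p k t - q1 p k s| ≤ r) (a2 : |q2 p k t - q2 p k s| ≤ r) :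
    |q1 p k t - q1 p k (1 / 2)| ≤ r ∧ |q2 p k t - q2 p k (1 / 2)| ≤ r := by
  have hd : ∃ d : ℤ × ℤ, U4 d ∧ p (k + 1) = p k + d := ⟨_, h.pstep k, by abel⟩
  obtain ⟨d, hd, ed⟩ := hd
  unfold q1 at a1 ⊢
  unfold q2 at a2 ⊢
  rw [ed] at a1 a2 ⊢
  simp only [Prod.fst_add, Prod.snd_add] at a1 a2 ⊢
  push_cast at a1 a2 ⊢
  rw [abs_le] at a1 a2
  rw [abs_le, abs_le]
  rcases hd with rfl | rfl | rfl | rfl <;>
    (simp only [Int.cast_one, Int.cast_zero, Int.cast_neg] at a1 a2 ⊢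
     rcases hst with ⟨h1, h2⟩ | ⟨h1, h2⟩ <;> refine ⟨⟨?_, ?_⟩, ⟨?_, ?_⟩⟩ <;>
      linarith [a1.1, a1.2, a2.1, a2.2])

/-- **separation of the arcs, coordinates** -/
theorem sep_c (h : Crs n p) (he : Ev n e) {i j l k : ℤ} {t s r : ℝ} (hr : r < 1 / 2)
    (t0 : 0 ≤ t) (t1 : t ≤ 1) (s0 : 0 ≤ s) (s1 : s ≤ 1)
    (i1 : (e i : ℝ) + 1 / 2 ≤ l + t) (i2 : (l : ℝ) + t ≤ e (i + 1) + 1 / 2)
    (j1 : (e j : ℝ) + 1 / 2 ≤ k + s) (j2 : (k : ℝ) + s ≤ e (j + 1) + 1 / 2)
    (a1 : |q1 p l t - q1 p k s| ≤ r) (a2 : |q2 p l t - q2 p k s| ≤ r) :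
    (3 : ℤ) ∣ i - j ∨ ∃ q, |q1 p l t - q1 p (e q) (1 / 2)| ≤ r ∧
      |q2 p l t - q2 p (e q) (1 / 2)| ≤ r := by
  have shift : ∀ {l' q : ℤ}, l = l' + q * n → ∃ i', i = i' + 3 * q ∧
      (e i' : ℝ) + 1 / 2 ≤ l' + t ∧ (l' : ℝ) + t ≤ e (i' + 1) + 1 / 2 ∧
      q1 p l t = q1 p l' t ∧ q2 p l t = q2 p l' t := by
    intro l' q hl
    refine ⟨i - 3 * q, by ring, ?_, ?_, ?_, ?_⟩
    · have f1 := he.per' (i - 3 * q) q
      rw [show i - 3 * q + 3 * q = i by ring] at f1
      rw [f1, hl] at i1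
      push_cast at i1
      linarith
    · have f1 := he.per' (i - 3 * q + 1) q
      rw [show i - 3 * q + 1 + 3 * q = i + 1 by ring] at f1
      rw [f1, hl] at i2
      push_cast at i2
      linarith
    · rw [hl, h.q1_per]
    · rw [hl, h.q2_per]
  by_cases d0 : (n : ℤ) ∣ k - l
  · obtain ⟨q, hq⟩ := d0
    obtain ⟨i', hi, s1', s2', s3, s4⟩ := shift (l' := k) (q := -q)
      (by linarith [mul_comm (n : ℤ) q])
    rw [s3] at a1 ⊢
    rw [s4] at a2 ⊢
    rcases lt_trichotomy i' j with hc | hc | hc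
    · have g1 := he.mono.monotone (show i' + 1 ≤ j by omega)
      have g2 : k ≤ e (i' + 1) := by
        have : (k : ℝ) < e (i' + 1) + 1 := by linarith
        have : k < e (i' + 1) + 1 := by exact_mod_cast this
        omega
      have g3 : e j ≤ k := by
        have : (e j : ℝ) < k + 1 := by linarith
        have : e j < k + 1 := by exact_mod_cast this
        omega
      have g4 : k = e j := by omega
      have g5 : (e (i' + 1) : ℝ) = k := by exact_mod_cast (show e (i' + 1) = k by omega)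
      have g6 : (e j : ℝ) = k := by exact_mod_cast g4.symm
      refine Or.inr ⟨j, ?_⟩
      rw [← g4]
      exact h.same (Or.inl ⟨by linarith, by linarith⟩) a1 a2
    · exact Or.inl ⟨-q, by rw [hi, hc]; ring⟩
    · have g1 := he.mono.monotone (show j + 1 ≤ i' by omega)
      have g2 : k ≤ e (j + 1) := by
        have : (k : ℝ) < e (j + 1) + 1 := by linarith
        have : k < e (j + 1) + 1 := by exact_mod_cast this
        omega
      have g3 : e i' ≤ k := by
        have : (e i' : ℝ) < k + 1 := by linarith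
        have : e i' < k + 1 := by exact_mod_cast this
        omega
      have g4 : k = e i' := by omega
      have g5 : (e (j + 1) : ℝ) = k := by exact_mod_cast (show e (j + 1) = k by omega)
      have g6 : (e i' : ℝ) = k := by exact_mod_cast g4.symm
      refine Or.inr ⟨i', ?_⟩
      rw [← g4]
      exact h.same (Or.inr ⟨by linarith, by linarith⟩) a1 a2
  by_cases d1 : (n : ℤ) ∣ k - l - 1
  · -- `k = l + 1`
    obtain ⟨q, hq⟩ := d1
    obtain ⟨i', hi, s1', s2', s3, s4⟩ := shift (l' := k - 1) (q := -q)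
      (by linarith [mul_comm (n : ℤ) q])
    rw [s3] at a1
    rw [s4] at a2
    obtain ⟨c1, c2⟩ := h.corner s0 t1 a1 a2
    push_cast at s1' s2'
    have r1 : e i' < k := by
      have : (e i' : ℝ) < k := by linarith
      exact_mod_cast this
    have r2 : k ≤ e (i' + 1) := by
      have : (k : ℝ) < e (i' + 1) + 1 := by linarith
      have : k < e (i' + 1) + 1 := by exact_mod_cast this
      omega
    have r3 : e j < k := by
      have : (e j : ℝ) < k := by linarith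
      exact_mod_cast this
    have r4 : k ≤ e (j + 1) := by
      have : (k : ℝ) < e (j + 1) + 1 := by linarith
      have : k < e (j + 1) + 1 := by exact_mod_cast this
      omega
    have r5 : i' = j := by
      rcases lt_trichotomy i' j with hc | hc | hc
      · have g1 := he.mono.monotone (show i' + 1 ≤ j by omega)
        omega
      · exact hc
      · have g1 := he.mono.monotone (show j + 1 ≤ i' by omega)
        omega
    exact Or.inl ⟨-q, by rw [hi, r5]; ring⟩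
  by_cases d2 : (n : ℤ) ∣ k - l + 1
  · -- `k = l - 1`
    obtain ⟨q, hq⟩ := d2
    obtain ⟨i', hi, s1', s2', s3, s4⟩ := shift (l' := k + 1) (q := -q)
      (by linarith [mul_comm (n : ℤ) q])
    rw [s3, abs_sub_comm] at a1
    rw [s4, abs_sub_comm] at a2
    obtain ⟨c1, c2⟩ := h.corner (k := k + 1) (s := t) (t := s) (r := r) t0 s1
      (by rwa [add_sub_cancel_right]) (by rwa [add_sub_cancel_right])
    push_cast at s1' s2'
    have r1 : e i' ≤ k := by
      have : (e i' : ℝ) < k + 1 := by linarith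
      have : e i' < k + 1 := by exact_mod_cast this
      omega
    have r2 : k < e (i' + 1) := by
      have : (k : ℝ) < e (i' + 1) := by linarith
      exact_mod_cast this
    have r3 : e j ≤ k := by
      have : (e j : ℝ) < k + 1 := by linarith
      have : e j < k + 1 := by exact_mod_cast this
      omega
    have r4 : k < e (j + 1) := by
      have : (k : ℝ) < e (j + 1) := by linarith
      exact_mod_cast this
    have r5 : i' = j := by
      rcases lt_trichotomy i' j with hc | hc | hc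
      · have g1 := he.mono.monotone (show i' + 1 ≤ j by omega)
        omega
      · exact hc
      · have g1 := he.mono.monotone (show j + 1 ≤ i' by omega)
        omega
    exact Or.inl ⟨-q, by rw [hi, r5]; ring⟩
  · rcases h.far l k d0 d1 d2 t s t0 t1 s0 s1 with hf | hf
    · linarith
    · linarith

/-- **separation of the arcs** -/
theorem sep (h : Crs n p) (he : Ev n e) {σ : ℝ} (hσ : 0 < σ) {i j : ℤ} {w w' : ℂ} {r : ℝ}
    (hr : r < σ / 2) (hw : w ∈ Arc σ p e i) (hw' : w' ∈ Arc σ p e j) (hd : dist w w' ≤ r) :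
    (3 : ℤ) ∣ i - j ∨ ∃ q, dist w (mark σ p e q) ≤ 3 / 2 * r := by
  obtain ⟨l, t, t0, t1, i1, i2, rfl⟩ := hw
  obtain ⟨k, s, s0, s1, j1, j2, rfl⟩ := hw'
  have key : ∀ {a b : ℝ}, |σ * a - σ * b| ≤ r → |a - b| ≤ r / σ := by
    intro a b hab
    rw [← mul_sub, abs_mul, abs_of_pos hσ] at hab
    rw [le_div_iff₀ hσ]
    linarith [mul_comm σ |a - b|]
  have key' : ∀ {a b : ℝ}, |a - b| ≤ r / σ → |σ * a - σ * b| ≤ r := by
    intro a b hab
    rw [← mul_sub, abs_mul, abs_of_pos hσ]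
    rw [le_div_iff₀ hσ] at hab
    linarith [mul_comm σ |a - b|]
  have a1 := key ((abs_re_sub_le _ _).trans hd)
  have a2 := key ((abs_im_sub_le _ _).trans hd)
  rcases sep_c h he (r := r / σ) (by rw [div_lt_iff₀ hσ]; linarith) t0 t1 s0 s1 i1 i2 j1 j2 a1 a2
    with hc | ⟨q, c1, c2⟩
  · exact Or.inl hc
  · exact Or.inr ⟨q, FineDx576.dist_le_of (key' c1) (key' c2)⟩

/-! ### the polygon of 346 -/

variable (u : Poly)

/-- clockwise coarse walk and marks of `u` -/
structure IsU (p : ℤ → ℤ × ℤ) (e : ℤ → ℤ) : Prop where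
  pv : ∀ k : ℕ, p (-(k : ℤ)) = u.v k
  e1 : e 1 = -((u.k 0 : ℤ) + u.L) - 1
  e2 : e 2 = -(u.k 2 : ℤ) - 1
  e3 : e 3 = -(u.k 1 : ℤ) - 1
  e4 : e 4 = -(u.k 0 : ℤ) - 1

/-- the marks -/
def eU (j : ℤ) : ℤ := (if j % 3 = 1 then -((u.k 0 : ℤ) + u.L) - 1 else
  if j % 3 = 2 then -(u.k 2 : ℤ) - 1 else -(u.k 1 : ℤ) - 1 - u.L) + (j / 3) * u.L

theorem ev_eU : Ev u.L (eU u) where
  per j := by
    unfold eU
    rw [show (j + 3) % 3 = j % 3 by omega, show (j + 3) / 3 = j / 3 + 1 by omega]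
    ring
  lt j := by
    have h1 := u.k01
    have h2 := u.k12
    have h3 := u.k20
    unfold eU
    have h : j % 3 = 0 ∨ j % 3 = 1 ∨ j % 3 = 2 := by omega
    rcases h with h | h | h
    · rw [h, show (j + 1) % 3 = 1 by omega, show (j + 1) / 3 = j / 3 by omega]
      norm_num
      omega
    · rw [h, show (j + 1) % 3 = 2 by omega, show (j + 1) / 3 = j / 3 by omega]
      norm_num
      omega
    · rw [h, show (j + 1) % 3 = 0 by omega, show (j + 1) / 3 = j / 3 + 1 by omega, add_mul]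
      norm_num
      omega

/-- clockwise walk of `u` -/
def pU : ℤ → ℤ × ℤ := Finex422.rev u.L u.v

theorem cl_pU : Finex422.Cl (cells (u.U : Set Bk)) u.L (pU u) := Finex422.cl_of_cyc u.cyc

theorem isU : IsU u (pU u) (eU u) where
  pv k := Finex422.rev_eq u.cyc (i := k) (by simp)
  e1 := by unfold eU; norm_num
  e2 := by unfold eU; norm_num
  e3 := by unfold eU; norm_num
  e4 := by unfold eU; norm_num; ring

variable {u}

theorem crs_pU : Crs u.L (pU u) where
  pper := (cl_pU u).per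
  pstep k := Finex422.adj_un ((cl_pU u).step k)
  pturn k := by
    intro e
    have h1 := (cl_pU u).inj _ _ e
    have e2 : k + 2 - k = 2 := by ring
    rw [e2] at h1
    have := Int.le_of_dvd (by norm_num) h1
    have := (cl_pU u).n4
    omega
  far := (cl_pU u).far

/-- **existence of the layout** -/
theorem exists_lay (u : Poly) {m : ℤ} (hm : 10 ≤ m) : ∃ (M : ℕ) (W : ℤ → ℤ × ℤ) (A : ℤ → ℤ),
    Finex422.Fine (cells (u.U : Set Bk)) u.L m (pU u) M W A ∧
      Lay u.L M m (pU u) W A (eU u) := by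
  obtain ⟨M, W, A, h⟩ := Finex422.exists_fine (cl_pU u) (m := m) (by omega)
  exact ⟨M, W, A, h,
    { h.seg' with
      fp := h.fpath
      m10 := hm
      eper := (ev_eU u).per
      elt := (ev_eU u).lt }⟩

/-- middle of an edge -/
theorem mid_eq {p : ℤ → ℤ × ℤ} {e : ℤ → ℤ} (h : IsU u p e) (k : ℕ) :
    (⟨u.s * q1 p (-(k : ℤ) - 1) (1 / 2), u.s * q2 p (-(k : ℤ) - 1) (1 / 2)⟩ : ℂ) = u.mid k := by
  have a1 : p (-(k : ℤ) - 1) = u.v (k + 1) := by
    rw [← h.pv (k + 1)]; congr 1; push_cast; ring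
  have a2 : p (-(k : ℤ) - 1 + 1) = u.v k := by rw [sub_add_cancel, h.pv]
  unfold q1 q2 Poly.mid pt
  rw [a1, a2]
  apply Complex.ext <;> simp <;> ring

theorem mid_per (k : ℕ) : u.mid (k + u.L) = u.mid k := by
  unfold Poly.mid
  rw [show k + u.L + 1 = k + 1 + u.L by ring, u.cyc.per, u.cyc.per]

theorem mark1 {p : ℤ → ℤ × ℤ} {e : ℤ → ℤ} (h : IsU u p e) : mark u.s p e 1 = u.mid (u.k 0) := by
  unfold mark
  rw [h.e1, ← mid_per (u.k 0), ← mid_eq h (u.k 0 + u.L)]
  push_cast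
  rfl

theorem mark2 {p : ℤ → ℤ × ℤ} {e : ℤ → ℤ} (h : IsU u p e) : mark u.s p e 2 = u.mid (u.k 2) := by
  unfold mark
  rw [h.e2, ← mid_eq h (u.k 2)]

theorem mark3 {p : ℤ → ℤ × ℤ} {e : ℤ → ℤ} (h : IsU u p e) : mark u.s p e 3 = u.mid (u.k 1) := by
  unfold mark
  rw [h.e3, ← mid_eq h (u.k 1)]

/-- first and last edge of the arc, clockwise indices -/
theorem ends {p : ℤ → ℤ × ℤ} {e : ℤ → ℤ} (h : IsU u p e) (j : Fin 3) :
    e (3 - ((j : ℕ) : ℤ)) = -(u.k' j : ℤ) - 1 ∧ e (3 - ((j : ℕ) : ℤ) + 1) = -(u.k j : ℤ) - 1 := by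
  have a1 := h.e1
  have a2 := h.e2
  have a3 := h.e3
  have a4 := h.e4
  fin_cases j
  · exact ⟨a3, a4⟩
  · exact ⟨a2, a3⟩
  · refine ⟨?_, a2⟩
    show e 1 = -(((u.k 0 + u.L : ℕ)) : ℤ) - 1
    rw [a1]; push_cast; ring

/-- **the arcs agree** -/
theorem arc_eq {p : ℤ → ℤ × ℤ} {e : ℤ → ℤ} (h : IsU u p e) (j : Fin 3) :
    Arc u.s p e (3 - ((j : ℕ) : ℤ)) = u.Arc j := by
  obtain ⟨b1, b2⟩ := ends h j
  have hk : u.k j < u.k' j := by
    have h1 := u.k01
    have h2 := u.k12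
    have h3 := u.k20
    fin_cases j
    · exact h1
    · exact h2
    · exact h3
  -- points of the edge `k` (counterclockwise index)
  have pe : ∀ (k : ℕ) (t : ℝ), (⟨u.s * q1 p (-(k : ℤ) - 1) t, u.s * q2 p (-(k : ℤ) - 1) t⟩ : ℂ) =
      AffineMap.lineMap (pt u.s (u.v k)) (pt u.s (u.v (k + 1))) (1 - t) := by
    intro k t
    have a1 : p (-(k : ℤ) - 1) = u.v (k + 1) := by
      rw [← h.pv (k + 1)]; congr 1; push_cast; ring
    have a2 : p (-(k : ℤ) - 1 + 1) = u.v k := by rw [sub_add_cancel, h.pv]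
    unfold q1 q2 pt
    rw [a1, a2, AffineMap.lineMap_apply]
    apply Complex.ext <;> simp <;> ring
  have hmid : ∀ k : ℕ, u.mid k =
      AffineMap.lineMap (pt u.s (u.v k)) (pt u.s (u.v (k + 1))) (1 / 2 : ℝ) := by
    intro k
    unfold Poly.mid
    rw [AffineMap.lineMap_apply]
    simp only [vsub_eq_sub, vadd_eq_add, Complex.real_smul]
    push_cast
    ring
  -- the half segments
  have seg_hi : ∀ (P Q w : ℂ), w ∈ segment ℝ (AffineMap.lineMap P Q (1 / 2 : ℝ)) Q ↔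
      ∃ t : ℝ, 1 / 2 ≤ t ∧ t ≤ 1 ∧ w = AffineMap.lineMap P Q t := by
    intro P Q w
    rw [segment_eq_image_lineMap]
    constructor
    · rintro ⟨θ, ⟨h0, h1⟩, rfl⟩
      refine ⟨1 / 2 + θ / 2, by linarith, by linarith, ?_⟩
      simp only [AffineMap.lineMap_apply, vsub_eq_sub, vadd_eq_add, Complex.real_smul]
      push_cast
      ring
    · rintro ⟨t, h0, h1, rfl⟩
      refine ⟨2 * t - 1, ⟨by linarith, by linarith⟩, ?_⟩
      simp only [AffineMap.lineMap_apply, vsub_eq_sub, vadd_eq_add, Complex.real_smul]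
      push_cast
      ring
  have seg_lo : ∀ (P Q w : ℂ), w ∈ segment ℝ P (AffineMap.lineMap P Q (1 / 2 : ℝ)) ↔
      ∃ t : ℝ, 0 ≤ t ∧ t ≤ 1 / 2 ∧ w = AffineMap.lineMap P Q t := by
    intro P Q w
    rw [segment_eq_image_lineMap]
    constructor
    · rintro ⟨θ, ⟨h0, h1⟩, rfl⟩
      refine ⟨θ / 2, by linarith, by linarith, ?_⟩
      simp only [AffineMap.lineMap_apply, vsub_eq_sub, vadd_eq_add, Complex.real_smul]
      push_cast
      ring
    · rintro ⟨t, h0, h1, rfl⟩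
      refine ⟨2 * t, ⟨by linarith, by linarith⟩, ?_⟩
      simp only [AffineMap.lineMap_apply, vsub_eq_sub, vadd_eq_add, Complex.real_smul]
      push_cast
      ring
  ext w
  unfold Arc Poly.Arc
  simp only [Set.mem_ofPred_eq, Set.mem_union, Set.mem_iUnion, Set.mem_Ioo, exists_prop]
  rw [b1, b2, hmid, hmid, seg_hi, seg_lo]
  constructor
  · rintro ⟨l, t, t0, t1, i1, i2, rfl⟩
    have l0 : -(l : ℤ) - 1 ≥ 0 := by
      push_cast at i2
      have : (l : ℝ) < -(u.k j : ℝ) := by linarith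
      have : l < -(u.k j : ℤ) := by exact_mod_cast this
      omega
    obtain ⟨k, hk'⟩ := Int.eq_ofNat_of_zero_le l0
    have hl : l = -(k : ℤ) - 1 := by omega
    subst hl
    push_cast at i1 i2
    rw [pe]
    have c1 : u.k j ≤ k := by
      have : (u.k j : ℝ) < k + 1 := by linarith
      have : u.k j < k + 1 := by exact_mod_cast this
      omega
    have c2 : k ≤ u.k' j := by
      have : (k : ℝ) < u.k' j + 1 := by linarith
      have : k < u.k' j + 1 := by exact_mod_cast this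
      omega
    by_cases e1 : k = u.k j
    · rw [e1] at i2 ⊢
      exact Or.inl (Or.inl ⟨1 - t, by linarith, by linarith, rfl⟩)
    by_cases e2 : k = u.k' j
    · rw [e2] at i1 ⊢
      exact Or.inr ⟨1 - t, by linarith, by linarith, rfl⟩
    · refine Or.inl (Or.inr ⟨k, ⟨by omega, by omega⟩, ?_⟩)
      unfold ed
      rw [segment_eq_image_lineMap]
      exact ⟨1 - t, ⟨by linarith, by linarith⟩, rfl⟩
  · have hkR : (u.k j : ℝ) + 1 ≤ u.k' j := by exact_mod_cast hk
    rintro ((⟨t, t0, t1, rfl⟩ | ⟨k, ⟨k1, k2⟩, hw⟩) | ⟨t, t0, t1, rfl⟩)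
    · refine ⟨-(u.k j : ℤ) - 1, 1 - t, by linarith, by linarith, ?_, ?_, ?_⟩
      · push_cast; linarith
      · push_cast; linarith
      · rw [pe, sub_sub_cancel]
    · unfold ed at hw
      rw [segment_eq_image_lineMap] at hw
      obtain ⟨t, ⟨t0, t1⟩, rfl⟩ := hw
      have k1' : (u.k j : ℝ) + 1 ≤ k := by exact_mod_cast k1
      have k2' : (k : ℝ) + 1 ≤ u.k' j := by exact_mod_cast k2
      refine ⟨-(k : ℤ) - 1, 1 - t, by linarith, by linarith, ?_, ?_, ?_⟩
      · push_cast; linarith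
      · push_cast; linarith
      · rw [pe, sub_sub_cancel]
    · refine ⟨-(u.k' j : ℤ) - 1, 1 - t, by linarith, by linarith, ?_, ?_, ?_⟩
      · push_cast; linarith
      · push_cast; linarith
      · rw [pe, sub_sub_cancel]

/-! ### position labels -/

theorem compact_arc (j : Fin 3) : IsCompact (u.Arc j) := by
  have hseg : ∀ a b : ℂ, IsCompact (segment ℝ a b) := fun a b => by
    rw [segment_eq_image_lineMap]
    exact isCompact_Icc.image AffineMap.lineMap_continuous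
  exact ((hseg _ _).union ((Set.finite_Ioo _ _).isCompact_biUnion fun i _ => hseg _ _)).union
    (hseg _ _)

theorem arc_nonempty (j : Fin 3) : (u.Arc j).Nonempty :=
  ⟨_, Or.inl (Or.inl (left_mem_segment ℝ _ _))⟩

theorem fin3_dvd {i j : Fin 3} (h : (3 : ℤ) ∣ 3 - ((i : ℕ) : ℤ) - (3 - ((j : ℕ) : ℤ))) : i = j := by
  have h1 := i.isLt
  have h2 := j.isLt
  ext
  omega

/-- every mark of the walk is one of the three marks -/
theorem mark_cases {p : ℤ → ℤ × ℤ} {e : ℤ → ℤ} (hU : IsU u p e) (hp : Crs u.L p) (he : Ev u.L e)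
    (q : ℤ) : ∃ i : Fin 3, mark u.s p e q = u.mid (u.k i) := by
  have hper : ∀ j t : ℤ, mark u.s p e (j + 3 * t) = mark u.s p e j := by
    intro j t
    unfold mark
    rw [he.per', hp.q1_per, hp.q2_per]
  have h : q % 3 = 0 ∨ q % 3 = 1 ∨ q % 3 = 2 := by omega
  rcases h with h | h | h
  · refine ⟨1, ?_⟩
    rw [← mark3 hU, ← hper 3 (q / 3 - 1)]
    congr 1; omega
  · refine ⟨0, ?_⟩
    rw [← mark1 hU, ← hper 1 (q / 3)]
    congr 1; omega
  · refine ⟨2, ?_⟩
    rw [← mark2 hU, ← hper 2 (q / 3)]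
    congr 1; omega

/-- **separation of the arcs of `u`** -/
theorem arc_sep {i j : Fin 3} (hij : i ≠ j) {w w' : ℂ} {r : ℝ} (hr : r < u.s / 2)
    (hw : w ∈ u.Arc i) (hw' : w' ∈ u.Arc j) (hd : dist w w' ≤ r) :
    ∃ q : Fin 3, dist w (u.mid (u.k q)) ≤ 3 / 2 * r := by
  rw [← arc_eq (isU u)] at hw hw'
  rcases sep crs_pU (ev_eU u) u.s_pos hr hw hw' hd with h | ⟨q, hq⟩
  · exact absurd (fin3_dvd h) hij
  · obtain ⟨i', hi'⟩ := mark_cases (isU u) crs_pU (ev_eU u) q
    exact ⟨i', by rw [← hi']; exact hq⟩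

/-- the label is the strictly nearest arc -/
theorem lab_eq {x : ℂ} {j : Fin 3}
    (h : ∀ i, i ≠ j → Metric.infDist x (u.Arc j) < Metric.infDist x (u.Arc i)) :
    u.Lab x = ((j : ℕ) : ZMod 3) := by
  obtain ⟨j', h1, h2, -⟩ := Poly.near_lab (u := u) x
  have : j' = j := by
    by_contra hc
    exact absurd (h1 j) (not_le.2 (h j' hc))
  rw [h2, this]

/-- **label by the foot**: near the arc `j`, away from the marks -/
theorem lab_of_foot {x w : ℂ} {j : Fin 3} {r : ℝ} (hw : w ∈ u.Arc j) (hx : dist x w ≤ r)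
    (hr : r < u.s / 4) (hmk : ∀ i, 4 * r < dist x (u.mid (u.k i))) :
    u.Lab x = ((j : ℕ) : ZMod 3) := by
  refine lab_eq fun i hij => ?_
  refine lt_of_le_of_lt ((Metric.infDist_le_dist_of_mem hw).trans hx) ?_
  obtain ⟨w', h1, h2⟩ := (compact_arc i).exists_infDist_eq_dist (arc_nonempty i) x
  rw [h2]
  by_contra hc
  push Not at hc
  have h3 : dist w w' ≤ 2 * r := by
    have := dist_triangle_left w w' x
    linarith
  obtain ⟨q, hq⟩ := arc_sep (Ne.symm hij) (by linarith) hw h1 h3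
  have := dist_triangle x w (u.mid (u.k q))
  have := hmk q
  linarith

/-- **label by the tile** -/
theorem lab_tile {M : ℕ} {m : ℤ} {p W : ℤ → ℤ × ℤ} {A e : ℤ → ℤ} (H : Lay u.L M m p W A e)
    (hU : IsU u p e) {hh : ℝ} (h0 : 0 < hh) (hs : u.s = m * hh) {C : ℝ} (hC : 0 ≤ C)
    (hm : 4 * C + 24 < m) {a j : ℤ} (h1 : g A e j ≤ a) (h2 : a < g A e (j + 1)) {z : ℂ}
    (hz : dist z (cen hh W a) ≤ C * hh)
    (hmk : ∀ i, 3 / 2 * ((C + 6) * hh) < dist z (u.mid (u.k i))) :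
    u.Lab z = -(j : ZMod 3) := by
  have he : Ev u.L e := ⟨H.eper, H.elt⟩
  have hp : Crs u.L p := Crs.of_seg H.toSeg
  obtain ⟨n1, n2⟩ := nearest_arc H h0 hC hm h1 h2 hz (by
    intro q
    obtain ⟨i, hi⟩ := mark_cases hU hp he q
    rw [← hs, hi]
    exact hmk i)
  rw [← hs] at n1 n2
  -- the index in `Fin 3`
  have hj : ∃ (i : Fin 3) (q : ℤ), 3 - ((i : ℕ) : ℤ) = j + 3 * q := by
    have h : j % 3 = 0 ∨ j % 3 = 1 ∨ j % 3 = 2 := by omega
    rcases h with h | h | h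
    · exact ⟨0, 1 - j / 3, by simp; omega⟩
    · exact ⟨2, - (j / 3), by simp; omega⟩
    · exact ⟨1, - (j / 3), by simp; omega⟩
  obtain ⟨i, q, hi⟩ := hj
  have e1 : u.Arc i = Arc u.s p e j := by
    rw [← arc_eq hU, hi, arc_per H]
  have e2 : u.Lab z = ((i : ℕ) : ZMod 3) := by
    refine lab_eq fun i' hi' => ?_
    rw [e1, ← arc_eq hU i']
    have n3 := n2 (3 - ((i' : ℕ) : ℤ)) (by
      intro hc
      apply hi'
      refine fin3_dvd ?_
      rw [hi]
      obtain ⟨t, ht⟩ := hc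
      exact ⟨t - q, by linarith⟩)
    have : (C + 5) * hh < (C + 6) * hh := by nlinarith
    linarith
  rw [e2]
  have e3 : (j : ZMod 3) = -((i : ℕ) : ZMod 3) := by
    have : (j : ℤ) = 3 - ((i : ℕ) : ℤ) - 3 * q := by linarith
    rw [this]
    push_cast
    have h3 : (3 : ZMod 3) = 0 := by decide
    rw [h3]; ring
  rw [e3, neg_neg]

/-! ### with 416's `LayU` -/

theorem isU_of {m M : ℕ} {p W : ℤ → ℤ × ℤ} {A e : ℤ → ℤ}
    (H : LayUx416.LayU u m M p W A e) : IsU u p e where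
  pv k := H.pv _ _ (by simp)
  e1 := by rw [H.e1]; ring
  e2 := by rw [H.e2]
  e3 := by rw [H.e3]
  e4 := by
    have := H.lay.eper 1
    norm_num at this
    rw [this, H.e1]
    ring

/-- **label by the tile**, for 416's `LayU` -/
theorem lab_tile' {m M : ℕ} {p W : ℤ → ℤ × ℤ} {A e : ℤ → ℤ}
    (H : LayUx416.LayU u m M p W A e) {hh : ℝ} (h0 : 0 < hh) (hs : (m : ℝ) * hh = u.s) {C : ℝ}
    (hC : 0 ≤ C) (hm : 4 * C + 24 < m) {a j : ℤ} (h1 : g A e j ≤ a) (h2 : a < g A e (j + 1))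
    {z : ℂ} (hz : dist z (cen hh W a) ≤ C * hh)
    (hmk : ∀ i, 3 / 2 * ((C + 6) * hh) < dist z (u.mid (u.k i))) :
    u.Lab z = -(j : ZMod 3) :=
  lab_tile H.lay (isU_of H) h0 (by rw [Int.cast_natCast, hs]) hC (by rw [Int.cast_natCast]; exact hm)
    h1 h2 hz hmk

end Crest.Agent.R143.LayUx811
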