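import Crest.Agent.R143.LayG_583
import Crest.Agent.R143.Pw_453
import Crest.Agent.R143.Col_583

/-!
# Row 143 (S0194), K7, LAYER part 2 (helper583): the labels next to the polygon

`P = Pg s F` (`F` any set of cells, several components are allowed), `V = deep S P ρ`,
`W = deep S (Th P (2 w)) ρ`. Input: classes `A` (`Tr S A`) off `W`, every site off `W` is joined to
the classes off `W` (453's `joi_w`).

**`layer`** : classes `A'` with `Tr S A'`, `A i ⊆ A' i`, `fr S A' = V`, and a label `l k` for every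
boundary side `k = (r, δ)` (`r ∉ F`, `r + δ ∈ F`) with
* `lab` : a site of `A' i` next to `P` is at distance `≤ s / 8` from a side `k` with `l k = i`
* `thin` : if the sites off `W` are joined to the classes off `W` inside balls of radius `R`, every
  site of `A' i` is joined to `A i` inside `A' i` and the ball of radius `4 s + 24 R`
-/

set_option autoImplicit false

noncomputable section

open scoped Classical

namespace Crest.Agent.R143.Layx583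

open Set
open Crest.ProbabilityR.Voronoi
open Crest.Agent.R158 Crest.Agent.R158.Sp896
open Crest.Agent.R143.B0x346 Crest.Agent.R143.DelGx806 Crest.Agent.R143.DelRx806
  Crest.Agent.R143.JColx54 Crest.Agent.R143.RE0x723 Crest.Agent.R143.K33x877
  Crest.Agent.R143.Terr2x583 Crest.Agent.R143.Colx583 Crest.Agent.R143.Segx991
  Crest.Agent.R143.LayGx583
open Crest.Agent.R143.Tenx416 (Pg)
open Crest.Agent.R143.LabDx755 (ctr)

variable {S : Finset ℂ} {F : Set V} {A : ZMod 3 → Set ℂ} {s w d ρ : ℝ} {x y z p : ℂ}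

/-- the side `(r, δ)` -/
def Sd (F : Set V) (k : V × V) : Prop := Dr k.2 ∧ k.1 ∉ F ∧ k.1 + k.2 ∈ F

/-- thickening in 453's form -/
theorem th_eq (hs : 0 < s) {a : ℝ} (ha : 0 ≤ a) : Th (Pg s F) a = Pwx453.Pw s a F := by
  ext z
  rw [Pwx453.mem_pw]
  constructor
  · rintro ⟨y, hy, h1, h2⟩
    obtain ⟨c, hc, hyc⟩ := mem_Pg.1 hy
    obtain ⟨e1, e2, e3, e4⟩ := TentMx951.mem_sq.1 hyc
    rw [abs_le] at h1 h2
    exact ⟨c, hc, by linarith, by linarith, by linarith, by linarith⟩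
  · rintro ⟨c, hc, h1, h2, h3, h4⟩
    have key : ∀ (t : ℝ) (m : ℤ), s * m - a ≤ t → t ≤ s * (m + 1) + a →
        ∃ t' : ℝ, s * m ≤ t' ∧ t' ≤ s * (m + 1) ∧ |t - t'| ≤ a := by
      intro t m k1 k2
      rcases le_total t (s * m) with h | h
      · exact ⟨s * m, le_rfl, by nlinarith, abs_le.2 ⟨by linarith, by linarith⟩⟩
      · rcases le_total t (s * (m + 1)) with h' | h'
        · exact ⟨t, h, h', by rw [sub_self, abs_zero]; exact ha⟩
        · exact ⟨s * (m + 1), by nlinarith, le_rfl, abs_le.2 ⟨by linarith, by linarith⟩⟩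
    obtain ⟨u, u1, u2, u3⟩ := key z.re c.1 h1 h2
    obtain ⟨v, v1, v2, v3⟩ := key z.im c.2 h3 h4
    exact ⟨⟨u, v⟩, mem_Pg.2 ⟨c, hc, TentMx951.mem_sq.2 ⟨u1, u2, v1, v2⟩⟩, u3, v3⟩

theorem sub_th {P : Set ℂ} {a : ℝ} (ha : 0 ≤ a) : P ⊆ Th P a := fun z hz =>
  ⟨z, hz, by rw [sub_self, abs_zero]; exact ha, by rw [sub_self, abs_zero]; exact ha⟩

/-- sites next to the deep sites -/
theorem adj_th {P : Set ℂ} (hH : Hl S P d) (hd0 : 0 ≤ d) (hd : d < ρ) (hx : x ∈ deep S P ρ)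
    (ha : Adj S x y) : ∃ q ∈ P, ‖q - x‖ ≤ d ∧ ‖q - y‖ ≤ d := by
  obtain ⟨c, hc⟩ := G6Wx723.vedge_nonempty ha
  have c1 := G6Wx723.vedge_sub_cell hc
  have c2 := G6Wx723.vedge_sub_cell' hc
  obtain ⟨hxS, hb⟩ := mem_deep.1 hx
  have hcP : c ∈ P := by
    refine hb ?_
    by_contra hcon
    exact Pwx453.off_conn' (C := {c}) (P := Metric.closedBall x ρ)
      (fun q hq => by rw [mem_singleton_iff.1 hq]; exact hcon) (hH.mono hb) hd0 hd
      ⟨hxS, c, mem_singleton c, c1⟩ (mem_deep.2 ⟨hxS, Subset.rfl⟩)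
  obtain ⟨s, hs, h1⟩ := hH c hcP
  exact ⟨c, hcP, (c1 s (Finset.mem_coe.2 hs)).trans h1, (c2 s (Finset.mem_coe.2 hs)).trans h1⟩

/-- the input -/
structure In (S : Finset ℂ) (F : Set V) (A : ZMod 3 → Set ℂ) (s w d ρ : ℝ) : Prop where
  c3 : 3 ≤ S.card
  w0 : 0 < w
  ws : 40000 * w ≤ s
  d0 : 0 ≤ d
  dρ : d < ρ
  ρw : 10 * ρ ≤ w
  hl : Hl S (Th (Pg s F) (s / 4)) d
  tr : Tr S A
  off : ∀ x ∈ deep S (Th (Pg s F) (2 * w)) ρ, ∀ i, x ∉ A i
  joi : Joi S (deep S (Th (Pg s F) (2 * w)) ρ) (uA S A)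

/-- deep sites -/
abbrev Vd (S : Finset ℂ) (F : Set V) (s ρ : ℝ) : Finset ℂ := deep S (Pg s F) ρ
/-- deep sites of the thickened region -/
abbrev Wd (S : Finset ℂ) (F : Set V) (s w ρ : ℝ) : Finset ℂ := deep S (Th (Pg s F) (2 * w)) ρ

/-- a point of `Th P a` : the site within `ρ` is in `W` -/
theorem inW {a c : ℝ} (hz : z ∈ S) (hp : p ∈ Th (Pg s F) a) (h1 : ‖z - p‖ ≤ c)
    (h2 : a + c + ρ ≤ 2 * w) : z ∈ Wd S F s w ρ := by
  refine mem_deep.2 ⟨hz, fun q hq => ?_⟩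
  rw [Metric.mem_closedBall, dist_eq_norm] at hq
  refine Th.mono h2 ?_
  have h3 : ‖q - p‖ ≤ c + ρ := by
    have := norm_add_le (q - z) (z - p)
    rw [sub_add_sub_cancel] at this
    linarith
  have := th_add hp h3
  rwa [← add_assoc] at this

theorem bar_crv {k : V × V} : bar s w k.1 k.2 ⊆ crv s w k.1 k.2 := subset_union_left

/-- the inner part of the collar -/
def L0 (S : Finset ℂ) (F : Set V) (s w ρ : ℝ) : Finset ℂ := S.filter fun z =>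
  ∃ x k, Sd F k ∧ ∃ y ∈ Clm S (bar s w k.1 k.2),
    Pth S {u | (u ∈ Wd S F s w ρ ∧ u ∉ Vd S F s ρ) ∧ ‖u - x‖ ≤ 7 * w} z y

theorem L0_W (hz : z ∈ L0 S F s w ρ) : z ∈ Wd S F s w ρ ∧ z ∉ Vd S F s ρ := by
  obtain ⟨hzS, x, k, hk, y, hy, hp⟩ := Finset.mem_filter.1 hz
  exact hp.1.1

theorem L0_link (hz : z ∈ L0 S F s w ρ) : ∃ k, Sd F k ∧ ∃ y ∈ Clm S (bar s w k.1 k.2),
    Pth S {u | u ∈ L0 S F s w ρ ∧ ‖u - z‖ ≤ 14 * w} z y := by
  obtain ⟨hzS, x, k, hk, y, hy, hp⟩ := Finset.mem_filter.1 hz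
  refine ⟨k, hk, y, hy, hp.self.mono ?_⟩
  rintro u ⟨⟨⟨h1, h2⟩, h3⟩, h4⟩
  refine ⟨Finset.mem_filter.2 ⟨(mem_deep.1 h1).1, x, k, hk, y, hy, h4⟩, ?_⟩
  have h5 := hp.1.2
  have h6 := norm_add_le (u - x) (x - z)
  rw [sub_add_sub_cancel, norm_sub_rev x z] at h6
  linarith

section main

variable (H : In S F A s w d ρ)
include H

theorem In.ρ0 : 0 < ρ := H.d0.trans_lt H.dρ

theorem In.s0 : 0 < s := by have := H.w0; have := H.ws; linarith

theorem In.s16 : 16 * w ≤ s := by have := H.w0; have := H.ws; linarith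

theorem In.gp : GP (S : Set ℂ) := H.tr.gp

theorem In.VW : Vd S F s ρ ⊆ Wd S F s w ρ := by
  intro x hx
  obtain ⟨h1, h2⟩ := mem_deep.1 hx
  exact mem_deep.2 ⟨h1, h2.trans (sub_th (by have := H.w0; linarith))⟩

/-- points of the curves: the foot on the side -/
theorem In.crv_foot {k : V × V} (hk : Sd F k) (hz : z ∈ crv s w k.1 k.2) :
    |tc k.2 (z - ctr s k.1)| ≤ s / 2 ∧
      |nc k.2 (z - pc s k.1 k.2 (s / 2) (tc k.2 (z - ctr s k.1)))| ≤ 4 * w ∧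
      |tc k.2 (z - pc s k.1 k.2 (s / 2) (tc k.2 (z - ctr s k.1)))| = 0 := by
  have w0 := H.w0
  have s0 := H.s0
  have hb : s / 2 - 4 * w ≤ nc k.2 (z - ctr s k.1) ∧ nc k.2 (z - ctr s k.1) ≤ s / 2 - w ∧
      |tc k.2 (z - ctr s k.1)| ≤ s / 2 := by
    rcases hz with ⟨h1, h2⟩ | ⟨h1, h2, h3⟩
    · exact ⟨by linarith, by linarith, by linarith⟩
    · exact ⟨h2, h3, by rw [h1, abs_zero]; linarith⟩
  obtain ⟨h1, h2, h3⟩ := hb
  refine ⟨h3, ?_, ?_⟩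
  · rw [← nc_sub k.2 _ _ (ctr s k.1), nc_pc hk.1, abs_le]
    constructor <;> linarith
  · rw [← tc_sub k.2 _ _ (ctr s k.1), tc_pc hk.1, sub_self, abs_zero]

/-- points of the curves are in `Th P (s / 4)` -/
theorem In.crv_s {k : V × V} (hk : Sd F k) (hz : z ∈ crv s w k.1 k.2) :
    z ∈ Th (Pg s F) (s / 4) := by
  have w0 := H.w0
  have ws := H.ws
  obtain ⟨h1, h2, h3⟩ := H.crv_foot hk hz
  obtain ⟨k6, k7⟩ := sup_le_nt hk.1 h2 (h3.le.trans (by linarith : (0 : ℝ) ≤ 4 * w))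
  rw [Complex.sub_re] at k6
  rw [Complex.sub_im] at k7
  exact ⟨_, side_mem H.s0 hk.1 hk.2.2 h1, by linarith, by linarith⟩

/-- sites of the curves -/
theorem In.crv_near {k : V × V} (hk : Sd F k) (hz : z ∈ Clm S (crv s w k.1 k.2)) :
    z ∈ S ∧ z ∉ Vd S F s ρ ∧ ∃ q ∈ crv s w k.1 k.2, ‖q - z‖ ≤ d := by
  have hH : Hl S (crv s w k.1 k.2) d := H.hl.mono fun z hz => H.crv_s hk hz
  exact ⟨hz.1, off_conn (fun q hq => crv_out H.w0 H.s16 hk.1 hk.2.1 hq) hH H.dρ.le hz,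
    near hH hz⟩

theorem In.bar_W {k : V × V} (hk : Sd F k) (hz : z ∈ Clm S (bar s w k.1 k.2)) :
    z ∈ Wd S F s w ρ ∧ z ∉ Vd S F s ρ := by
  have hH : Hl S (bar s w k.1 k.2) d := H.hl.mono fun z hz => H.crv_s hk (bar_crv hz)
  obtain ⟨q, hq, h1⟩ := near hH hz
  have h2 := bar_th H.w0 H.s16 hk.1 hk.2.2 hq
  have := H.ρw
  have := H.dρ
  have := H.ρ0
  have := H.w0
  have h3 : ‖z - q‖ ≤ d := by rw [norm_sub_rev]; exact h1
  exact ⟨inW hz.1 h2 h3 (by linarith), (H.crv_near hk (Clm.mono bar_crv hz)).2.1⟩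

theorem In.bar_L0 {k : V × V} (hk : Sd F k) (hz : z ∈ Clm S (bar s w k.1 k.2)) :
    z ∈ L0 S F s w ρ :=
  Finset.mem_filter.2 ⟨hz.1, z, k, hk, z, hz, Pth.refl ⟨H.bar_W hk hz, by
    rw [sub_self, norm_zero]; have := H.w0; linarith⟩⟩

/-- **the way of a site to a bar** -/
theorem In.site_way {b : ℝ} (hx : x ∈ S) (hp : p ∉ Pg s F) (hxp : ‖x - p‖ ≤ ρ) (hb1 : w ≤ b)
    (hb2 : b ≤ 2 * w) (hpT : p ∈ Th (Pg s F) b) :
    ∃ k, Sd F k ∧ ∃ y ∈ Clm S (bar s w k.1 k.2),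
      Pth S {z | (z ∈ S ∧ z ∉ Vd S F s ρ) ∧ ‖z - x‖ ≤ 7 * w ∧
        (b + 2 * ρ ≤ 2 * w → z ∈ Wd S F s w ρ)} x y := by
  have w0 := H.w0
  have ρw := H.ρw
  have ρ0 := H.ρ0
  have ws := H.ws
  obtain ⟨r, δ, hδ, hr, hc, t, ht, hpt, hseg⟩ := way H.w0 H.s16 hb1 hb2 hp hpT
  obtain ⟨y, hyS, hyc⟩ := G6Wx723.exists_cell ⟨x, hx⟩ t
  have hHl : Hl S (segment ℝ p t) d := H.hl.mono fun q hq =>
    Th.mono (by linarith) (hseg q hq).2
  have hpx := pth_out' (r := 6 * w + ρ) H.gp H.c3 hx hp hxp (convex_segment p t).isPreconnected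
    (fun q hq => (hseg q hq).1) hHl H.dρ.le (left_mem_segment ℝ p t) (fun q hq => by
      have h1 := Nearx440.seg_add hq
      have h2 := norm_add_le (q - p) (p - x)
      rw [sub_add_sub_cancel, norm_sub_rev p x] at h2
      rw [norm_sub_rev q p] at h2
      have h3 := norm_nonneg (q - t)
      linarith) (y := y) ⟨hyS, t, right_mem_segment ℝ p t, hyc⟩
  refine ⟨(r, δ), ⟨hδ, hr, hc⟩, y, ⟨hyS, t, ht, hyc⟩, hpx.mono ?_⟩
  rintro z ⟨h1, h2, h3⟩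
  refine ⟨h1, by linarith, fun hb => ?_⟩
  rcases h3 with h3 | h3
  · exact inW h1.1 hpT ((seg_ball hx h3).trans hxp) (by linarith)
  · obtain ⟨q, hq, h4⟩ := near hHl h3
    have := H.dρ
    exact inW h1.1 (hseg q hq).2 (c := ρ) (by rw [norm_sub_rev]; linarith) (by linarith)

/-- the sites next to the region are in the inner part -/
theorem In.th_L0 (hx : x ∈ S) (hxV : x ∉ Vd S F s ρ) (hT : x ∈ Th (Pg s F) (2 * ρ)) :
    x ∈ L0 S F s w ρ := by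
  have w0 := H.w0
  have ρw := H.ρw
  have ρ0 := H.ρ0
  obtain ⟨p, hp, hxp⟩ := exists_out hx hxV
  have hpT : p ∈ Th (Pg s F) w := Th.mono (by linarith)
    (th_add (z' := p) hT (b := ρ) (by rw [norm_sub_rev]; exact hxp))
  obtain ⟨k, hk, y, hy, h1⟩ := H.site_way hx hp hxp le_rfl (by linarith) hpT
  refine Finset.mem_filter.2 ⟨hx, x, k, hk, y, hy, h1.mono ?_⟩
  rintro z ⟨h2, h3, h4⟩
  exact ⟨⟨h4 (by linarith), h2.2⟩, h3⟩

/-- every site off `V` is near the inner part or off `W` -/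
theorem In.near0 (hx : x ∈ S) (hxV : x ∉ Vd S F s ρ) :
    Near S (Vd S F s ρ) (L0 S F s w ρ ∪ (S \ Wd S F s w ρ)) (7 * w) x := by
  have w0 := H.w0
  by_cases hxW : x ∈ Wd S F s w ρ
  · obtain ⟨p, hp, hxp⟩ := exists_out hx hxV
    have hpT : p ∈ Th (Pg s F) (2 * w) := (mem_deep.1 hxW).2 (by
      rw [Metric.mem_closedBall, dist_eq_norm, norm_sub_rev]; exact hxp)
    obtain ⟨k, hk, y, hy, h1⟩ := H.site_way hx hp hxp (by linarith) le_rfl hpT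
    exact ⟨y, Finset.mem_union_left _ (H.bar_L0 hk hy), h1.mono fun z hz => ⟨hz.1, hz.2.1⟩⟩
  · exact ⟨x, Finset.mem_union_right _ (Finset.mem_sdiff.2 ⟨hx, hxW⟩), Pth.refl ⟨⟨hx, hxV⟩, by
      rw [sub_self, norm_zero]; linarith⟩⟩

/-- **the collar** -/
theorem In.part : ∃ L : Finset ℂ, L0 S F s w ρ ⊆ L ∧
    (∀ x ∈ L, x ∈ Wd S F s w ρ ∧ x ∉ Vd S F s ρ) ∧
    (∀ x ∈ L, ∃ k, Sd F k ∧ ∃ y ∈ Clm S (bar s w k.1 k.2),
      Pth S {u | u ∈ L ∧ ‖u - x‖ ≤ 182 * w} x y) ∧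
    ∀ x ∈ S, x ∉ Vd S F s ρ → x ∉ L → ∃ y, (y ∈ S ∧ y ∉ Wd S F s w ρ) ∧
      Pth S {u | (u ∈ S ∧ u ∉ Vd S F s ρ ∧ u ∉ L) ∧ ‖u - x‖ ≤ 168 * w} x y := by
  have w0 := H.w0
  have hX : L0 S F s w ρ ∪ (S \ Wd S F s w ρ) ⊆ S \ Vd S F s ρ := by
    intro x hx
    rcases Finset.mem_union.1 hx with h | h
    · have := L0_W h
      exact Finset.mem_sdiff.2 ⟨(mem_deep.1 this.1).1, this.2⟩
    · obtain ⟨h1, h2⟩ := Finset.mem_sdiff.1 h
      exact Finset.mem_sdiff.2 ⟨h1, fun h3 => h2 (H.VW h3)⟩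
  have hJ : Joi S (Vd S F s ρ) (L0 S F s w ρ ∪ (S \ Wd S F s w ρ)) := by
    intro x hx hxV
    obtain ⟨y, hy, h1⟩ := H.near0 hx hxV
    exact ⟨y, hy, h1.mono fun z hz => hz.1⟩
  obtain ⟨f, hf⟩ := exists_frs hX hJ (show 0 < 7 * w by linarith)
  have hdis : ∀ z, z ∈ L0 S F s w ρ → z ∈ S \ Wd S F s w ρ → False := fun z h1 h2 =>
    (Finset.mem_sdiff.1 h2).2 (L0_W h1).1
  set L := cl S (Vd S F s ρ) f (L0 S F s w ρ) with hL
  have hsub : L0 S F s w ρ ⊆ L := hf.cl_sub Finset.subset_union_left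
  refine ⟨L, hsub, ?_, ?_, ?_⟩
  · intro x hx
    obtain ⟨⟨h1, h2⟩, h3⟩ := mem_cl.1 hx
    refine ⟨?_, h2⟩
    by_contra hcon
    have h4 : x ∈ S \ Wd S F s w ρ := Finset.mem_sdiff.2 ⟨h1, hcon⟩
    rw [hf.fX x (Finset.mem_union_right _ h4)] at h3
    exact hdis x h3 h4
  · intro x hx
    obtain ⟨⟨h1, h2⟩, h3⟩ := mem_cl.1 hx
    obtain ⟨-, h4⟩ := hf.cl_thin hx (H.near0 h1 h2)
    obtain ⟨k, hk, y, hy, h5⟩ := L0_link h3
    refine ⟨k, hk, y, hy, (h4.mono ?_).trans (h5.mono ?_)⟩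
    · rintro u ⟨h6, h7⟩
      exact ⟨h6, by linarith⟩
    · rintro u ⟨h6, h7⟩
      refine ⟨hsub h6, ?_⟩
      have h8 := h4.snd.2
      have h9 := norm_add_le (u - f x) (f x - x)
      rw [sub_add_sub_cancel] at h9
      linarith
  · intro x hx hxV hxL
    have h3 : f x ∈ S \ Wd S F s w ρ := by
      rcases Finset.mem_union.1 (hf.mem x hx hxV) with h | h
      · exact absurd (mem_cl.2 ⟨⟨hx, hxV⟩, h⟩) hxL
      · exact h
    obtain ⟨h4, h5⟩ := Finset.mem_sdiff.1 h3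
    refine ⟨f x, ⟨h4, h5⟩, (hf.thin x hx hxV (H.near0 hx hxV)).mono ?_⟩
    rintro u ⟨⟨h6, h7⟩, h8, h9⟩
    refine ⟨⟨h6, h7, fun h10 => ?_⟩, by linarith⟩
    obtain ⟨-, h11⟩ := mem_cl.1 h10
    rw [h8] at h11
    exact hdis _ h11 h3

theorem In.wh_sub {L : Finset ℂ} (hL : ∀ x ∈ L, x ∈ Wd S F s w ρ ∧ x ∉ Vd S F s ρ)
    (hx : x ∈ Vd S F s ρ ∪ L) : x ∈ Wd S F s w ρ := by
  rcases Finset.mem_union.1 hx with h | h
  · exact H.VW h
  · exact (hL x h).1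

/-- the exit of the spoke -/
theorem In.spoke {T : ZMod 3 → Set ℂ} {L : Finset ℂ}
    (hfr : fr S T = ((Vd S F s ρ ∪ L : Finset ℂ) : Set ℂ)) (hL0 : L0 S F s w ρ ⊆ L)
    (hLW : ∀ x ∈ L, x ∈ Wd S F s w ρ ∧ x ∉ Vd S F s ρ) {k : V × V} (hk : Sd F k) :
    ∃ (i : ZMod 3) (u y : ℂ), y ∈ T i ∧ y ∈ Clm S (crv s w k.1 k.2) ∧ Adj S u y ∧
      u ∈ Clm S (crv s w k.1 k.2) ∧ u ∈ L ∧ ∀ z ∈ Clm S (bar s w k.1 k.2),
        Pth S {v | v ∈ Clm S (crv s w k.1 k.2) ∧ v ∈ L} z u := by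
  have w0 := H.w0
  have ρw := H.ρw
  have dρ := H.dρ
  have hne : S.Nonempty := Finset.card_pos.1 (by have := H.c3; omega)
  obtain ⟨u0, hu0, hu0c⟩ := G6Wx723.exists_cell hne (bp s k.1 k.2 (s / 2 - w))
  obtain ⟨e, he, hec⟩ := G6Wx723.exists_cell hne (bp s k.1 k.2 (s / 2 - 4 * w))
  have hu0b : u0 ∈ Clm S (bar s w k.1 k.2) := ⟨hu0, _, bp_bar w0 H.s16 hk.1, hu0c⟩
  have heb : bp s k.1 k.2 (s / 2 - 4 * w) ∈ crv s w k.1 k.2 := Or.inr (bp_end w0 hk.1)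
  have hee : e ∈ Clm S (crv s w k.1 k.2) := ⟨he, _, heb, hec⟩
  have hp := pth_conn H.gp H.c3 (crv_conn w0 H.s16 hk.1) (Clm.mono bar_crv hu0b) hee
  have hbL : ∀ z ∈ Clm S (bar s w k.1 k.2), z ∈ L := fun z hz => hL0 (H.bar_L0 hk hz)
  have heL : e ∉ L := by
    intro h
    have h1 := deep_mem H.ρ0.le (hLW e h).1
    obtain ⟨a, ha, h2⟩ := H.hl _ (H.crv_s hk heb)
    have h3 : ‖bp s k.1 k.2 (s / 2 - 4 * w) - e‖ ≤ d := (hec a (Finset.mem_coe.2 ha)).trans h2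
    refine end_out (a := 2 * w) w0 H.s16 hk.1 hk.2.1 ?_ h1
    rw [norm_sub_rev]
    have := H.d0
    linarith
  obtain ⟨u, y, h1, h2, h3, h4⟩ := hp.exit (Q := fun v => v ∈ L) (hbL u0 hu0b) heL
  have hyV := (H.crv_near hk h3).2.1
  have hyT : ∃ i, y ∈ T i := by
    by_contra hcon
    push Not at hcon
    have h5 : y ∈ fr S T := ⟨h3.1, hcon⟩
    rw [hfr, Finset.mem_coe, Finset.mem_union] at h5
    rcases h5 with h5 | h5
    · exact hyV h5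
    · exact h4 h5
  obtain ⟨i, hi⟩ := hyT
  refine ⟨i, u, y, hi, h3, h2, h1.snd.1, h1.snd.2, fun z hz => ?_⟩
  refine ((pth_conn H.gp H.c3 (bar_convex s w k.1 k.2).isPreconnected hz hu0b).mono ?_).trans h1
  intro v hv
  exact ⟨Clm.mono bar_crv hv, hbL v hv⟩

/-- sites of one curve are at distance `≤ 2 s` -/
theorem In.crv_diam {k : V × V} (hk : Sd F k) (hx : x ∈ Clm S (crv s w k.1 k.2))
    (hy : y ∈ Clm S (crv s w k.1 k.2)) : ‖x - y‖ ≤ 2 * s := by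
  obtain ⟨-, -, p, hp, h1⟩ := H.crv_near hk hx
  obtain ⟨-, -, q, hq, h2⟩ := H.crv_near hk hy
  obtain ⟨a1, a2⟩ := crv_core H.w0 H.s16 hk.1 hp
  obtain ⟨b1, b2⟩ := crv_core H.w0 H.s16 hk.1 hq
  have h3 := Complex.norm_le_abs_re_add_abs_im (p - q)
  have e1 : |(p - q).re| ≤ s - 2 * w := by
    rw [abs_le] at a1 b1 ⊢
    have : (p - q).re = (p - ctr s k.1).re - (q - ctr s k.1).re := by
      rw [Complex.sub_re, Complex.sub_re, Complex.sub_re]; ring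
    rw [this]
    constructor <;> linarith
  have e2 : |(p - q).im| ≤ s - 2 * w := by
    rw [abs_le] at a2 b2 ⊢
    have : (p - q).im = (p - ctr s k.1).im - (q - ctr s k.1).im := by
      rw [Complex.sub_im, Complex.sub_im, Complex.sub_im]; ring
    rw [this]
    constructor <;> linarith
  have h4 : ‖x - y‖ ≤ ‖x - p‖ + ‖p - q‖ + ‖q - y‖ := by
    have := norm_add₃_le (a := x - p) (b := p - q) (c := q - y)
    rwa [sub_add_sub_cancel, sub_add_sub_cancel] at this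
  rw [norm_sub_rev x p] at h4
  have := H.dρ
  have := H.ρw
  have := H.w0
  have := H.ρ0
  linarith

/-- sites of different curves are different -/
theorem In.crv_dis {k k' : V × V} (hk : Sd F k) (hk' : Sd F k') (hne : k ≠ k')
    (hx : x ∈ Clm S (crv s w k.1 k.2)) (hx' : x ∈ Clm S (crv s w k'.1 k'.2)) : False := by
  obtain ⟨-, -, p, hp, h1⟩ := H.crv_near hk hx
  obtain ⟨-, -, q, hq, h2⟩ := H.crv_near hk' hx'
  have h3 := crv_far H.w0 H.s16 hk.1 hk'.1 (by simpa using hne) hp hq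
  have h4 : ‖p - q‖ ≤ ‖p - x‖ + ‖x - q‖ := by
    have := norm_add_le (p - x) (x - q)
    rwa [sub_add_sub_cancel] at this
  rw [norm_sub_rev x q] at h4
  have := H.dρ
  have := H.ρw
  have := H.w0
  have := H.ρ0
  linarith

/-- **LAYER** -/
theorem In.layer {R : ℝ} (hR : 0 < R) : ∃ (l : V × V → ZMod 3) (A' : ZMod 3 → Set ℂ), Tr S A' ∧
    (∀ i, A i ⊆ A' i) ∧ fr S A' = (Vd S F s ρ : Set ℂ) ∧
    (∀ k, Sd F k → Clm S (bar s w k.1 k.2) ⊆ A' (l k)) ∧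
    (∀ i, ∀ x ∈ A' i, x ∈ Th (Pg s F) (2 * ρ) → ∃ k, Sd F k ∧ l k = i ∧
      ∃ t : ℝ, |t| ≤ s / 2 ∧ ‖x - pc s k.1 k.2 (s / 2) t‖ ≤ s / 8) ∧
    ((∀ x ∈ S, x ∉ Wd S F s w ρ → Near S (Wd S F s w ρ) (uA S A) R x) →
      ∀ i, ∀ x ∈ A' i, ∃ a ∈ A i, Pth S {z | z ∈ A' i ∧ ‖z - x‖ ≤ 4 * s + 24 * R} x a) := by
  have w0 := H.w0
  have ws := H.ws
  have ρw := H.ρw
  have dρ := H.dρ
  have ρ0 := H.ρ0
  obtain ⟨L, hL0, hLW, hLn, hLo⟩ := H.part
  set Wh : Finset ℂ := Vd S F s ρ ∪ L with hWh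
  have hWhW : ∀ x ∈ Wh, x ∈ Wd S F s w ρ := fun x hx => H.wh_sub hLW hx
  have hnWh : ∀ x, x ∉ Wd S F s w ρ → x ∉ Wh := fun x hx h => hx (hWhW x h)
  -- the classes `T`
  have hfA : (Wh : Set ℂ) ⊆ fr S A := by
    intro x hx
    have h1 := hWhW x (Finset.mem_coe.1 hx)
    exact ⟨(mem_deep.1 h1).1, H.off x h1⟩
  have hout : ∀ x ∈ S, x ∉ Wh → ∃ y, (y ∈ S ∧ y ∉ Wd S F s w ρ) ∧
      Pth S {u | (u ∈ S ∧ u ∉ Wh) ∧ ‖u - x‖ ≤ 168 * w} x y := by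
    intro x hx hxW
    obtain ⟨y, hy, hp⟩ := hLo x hx (fun h => hxW (Finset.mem_union_left _ h))
      (fun h => hxW (Finset.mem_union_right _ h))
    refine ⟨y, hy, hp.mono ?_⟩
    rintro u ⟨⟨h1, h2, h3⟩, h4⟩
    exact ⟨⟨h1, fun h => (Finset.mem_union.1 h).elim h2 h3⟩, h4⟩
  have hJ : Joi S Wh (uA S A) := by
    intro x hx hxW
    obtain ⟨y, hy, hp⟩ := hout x hx hxW
    obtain ⟨a, ha, hp'⟩ := H.joi y hy.1 hy.2
    refine ⟨a, ha, (hp.mono fun z hz => hz.1).trans (hp'.mono ?_)⟩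
    exact fun z hz => ⟨hz.1, hnWh z hz.2⟩
  obtain ⟨T, hT, hAT, hTf, hTt⟩ := tr_terr H.tr hfA hJ (show 0 < 168 * w + R by linarith)
  have hWhT : ∀ x ∈ Wh, ∀ i, x ∉ T i := fun x hx i => by
    have : x ∈ fr S T := by rw [hTf]; exact Finset.mem_coe.2 hx
    exact this.2 i
  -- the spokes
  have hsp := fun k : {k : V × V // Sd F k} => H.spoke hTf hL0 hLW k.2
  choose l u y hyT hyC hadj huC huL hbar using hsp
  set sd : {k : V × V // Sd F k} → Set ℂ := fun k =>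
    {x | Pth S {v | v ∈ Clm S (crv s w k.1.1 k.1.2) ∧ v ∈ L} x (u k)} with hsd
  have sdC : ∀ k, ∀ x ∈ sd k, x ∈ Clm S (crv s w k.1.1 k.1.2) ∧ x ∈ L := fun k x hx => hx.1
  have sdP : ∀ k, ∀ x ∈ sd k, Pth S (sd k) x (u k) := fun k x hx =>
    (Pth.self hx).mono fun z hz => hz.2
  obtain ⟨A', hA', hTA, hA'f, hsA, hcol⟩ := collar (V := Vd S F s ρ) (W := Wh)
    (ρ := 182 * w) hT hTf Finset.subset_union_left sd l (by linarith)
    (fun k x hx => ⟨Finset.mem_union_right _ (sdC k x hx).2, (hLW x (sdC k x hx).2).2⟩)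
    (fun k k' hkk => by
      rw [Set.disjoint_left]
      intro x hx hx'
      exact H.crv_dis k.2 k'.2 (fun h => hkk (by rw [Subtype.ext h])) (sdC k x hx).1
        (sdC k' x hx').1)
    (fun k x hx => ⟨y k, hyT k, ((sdP k x hx).mono fun z hz => Or.inl hz).tail (hadj k)
      (Or.inr (hyT k))⟩)
    (fun x hxW hxV => by
      have hxL : x ∈ L := (Finset.mem_union.1 hxW).resolve_left hxV
      obtain ⟨k, hk, z, hz, hp⟩ := hLn x hxL
      refine ⟨⟨k, hk⟩, z, hbar ⟨k, hk⟩ z hz, hp.mono ?_⟩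
      rintro v ⟨h1, h2⟩
      exact ⟨⟨Finset.mem_union_right _ h1, (hLW v h1).2⟩, h2⟩)
  -- a site of the collar
  have key : ∀ i, ∀ x ∈ A' i, x ∈ Wh → ∃ k, l k = i ∧ ∃ z ∈ sd k,
      Pth S {v | v ∈ A' i ∧ ‖v - x‖ ≤ s / 9} x z := by
    intro i x hx hxW
    obtain ⟨k, hk, z, hz, hp⟩ := hcol i x hx hxW
    refine ⟨k, hk, z, hz, hp.mono ?_⟩
    rintro v ⟨h1, -, h2⟩
    exact ⟨h1, by linarith⟩
  refine ⟨fun k => if h : Sd F k then l ⟨k, h⟩ else 0, A', hA', fun i => (hAT i).trans (hTA i),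
    hA'f, ?_, ?_, ?_⟩
  · intro k hk z hz
    simp only [dif_pos hk]
    exact hsA ⟨k, hk⟩ (hbar ⟨k, hk⟩ z hz)
  · intro i x hx hxT
    have hxS : x ∈ S := Finset.mem_coe.1 (hA'.sub i hx)
    have hxV : x ∉ Vd S F s ρ := fun h => by
      have : x ∈ fr S A' := by rw [hA'f]; exact Finset.mem_coe.2 h
      exact this.2 i hx
    have hxW : x ∈ Wh := Finset.mem_union_right _ (hL0 (H.th_L0 hxS hxV hxT))
    obtain ⟨k, hk, z, hz, hp⟩ := key i x hx hxW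
    obtain ⟨-, -, q, hq, h1⟩ := H.crv_near k.2 (sdC k z hz).1
    obtain ⟨f1, f2, f3⟩ := H.crv_foot k.2 hq
    refine ⟨k.1, k.2, by simp only [dif_pos k.2]; exact hk, _, f1, ?_⟩
    have f4 := norm_le_nt k.2.1 (q - pc s k.1.1 k.1.2 (s / 2) (tc k.1.2 (q - ctr s k.1.1)))
    have f5 : ‖x - pc s k.1.1 k.1.2 (s / 2) (tc k.1.2 (q - ctr s k.1.1))‖ ≤ ‖x - z‖ + ‖z - q‖ +
        ‖q - pc s k.1.1 k.1.2 (s / 2) (tc k.1.2 (q - ctr s k.1.1))‖ := by
      have := norm_add₃_le (a := x - z) (b := z - q)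
        (c := q - pc s k.1.1 k.1.2 (s / 2) (tc k.1.2 (q - ctr s k.1.1)))
      rwa [sub_add_sub_cancel, sub_add_sub_cancel] at this
    have f6 := hp.snd.2
    rw [norm_sub_rev x z, norm_sub_rev z q] at f5
    linarith
  · intro hN
    have hTthin : ∀ i, ∀ x ∈ T i, ∃ a ∈ A i,
        Pth S {z | z ∈ T i ∧ ‖z - x‖ ≤ 24 * (168 * w + R)} x a := by
      intro i x hx
      have hxS : x ∈ S := Finset.mem_coe.1 (hT.sub i hx)
      have hxW : x ∉ Wh := fun h => hWhT x h i hx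
      refine hTt i x hx ?_
      obtain ⟨y', hy', hp⟩ := hout x hxS hxW
      obtain ⟨a, ha, hp'⟩ := hN y' hy'.1 hy'.2
      refine ⟨a, ha, (hp.mono ?_).trans (hp'.mono ?_)⟩
      · rintro z ⟨h1, h2⟩
        exact ⟨h1, by linarith⟩
      · rintro z ⟨⟨h1, h2⟩, h3⟩
        refine ⟨⟨h1, hnWh z h2⟩, ?_⟩
        have h4 := hp.snd.2
        have h5 := norm_add_le (z - y') (y' - x)
        rw [sub_add_sub_cancel] at h5
        linarith
    intro i x hx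
    have hxS : x ∈ S := Finset.mem_coe.1 (hA'.sub i hx)
    by_cases hxW : x ∈ Wh
    · obtain ⟨k, hk, z, hz, hp⟩ := key i x hx hxW
      subst hk
      obtain ⟨a, ha, hp'⟩ := hTthin (l k) (y k) (hyT k)
      have h1 := hp.snd.2
      have h2 : ∀ v ∈ Clm S (crv s w k.1.1 k.1.2), ‖v - x‖ ≤ 2 * s + s / 9 := by
        intro v hv
        have h3 := H.crv_diam k.2 hv (sdC k z hz).1
        have h4 := norm_add_le (v - z) (z - x)
        rw [sub_add_sub_cancel] at h4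
        linarith
      refine ⟨a, ha, (hp.mono ?_).trans ((((sdP k z hz).mono ?_).tail (hadj k) ?_).trans
        (hp'.mono ?_))⟩
      · rintro v ⟨h3, h4⟩
        exact ⟨h3, by linarith⟩
      · intro v hv
        have := h2 v (sdC k v hv).1
        exact ⟨hsA k hv, by linarith⟩
      · have := h2 (y k) (hyC k)
        exact ⟨hTA _ (hyT k), by linarith⟩
      · rintro v ⟨h3, h4⟩
        refine ⟨hTA _ h3, ?_⟩
        have h5 := h2 (y k) (hyC k)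
        have h6 := norm_add_le (v - y k) (y k - x)
        rw [sub_add_sub_cancel] at h6
        linarith
    · have hxT : ∃ j, x ∈ T j := by
        by_contra hcon
        push Not at hcon
        have h5 : x ∈ fr S T := ⟨hxS, hcon⟩
        rw [hTf] at h5
        exact hxW (Finset.mem_coe.1 h5)
      obtain ⟨j, hj⟩ := hxT
      have hji : j = i := by
        by_contra hne
        exact Set.disjoint_left.1 (hA'.disj j i hne) (hTA j hj) hx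
      subst hji
      obtain ⟨a, ha, hp⟩ := hTthin j x hj
      refine ⟨a, ha, hp.mono ?_⟩
      rintro v ⟨h1, h2⟩
      exact ⟨hTA _ h1, by linarith⟩

end main

end Crest.Agent.R143.Layx583
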