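import Crest.Agent.R143.CloI_715
import Crest.Agent.R143.Exc6_790

/-!
# Row 143 (S0194), block H, H5, box B9: the static facts of 790's `r3` from 503's `Clo` (helper715)

* `S3.mko3` : windows of the junction gaps `r3`
* **`Lo.st_near`** : the sites of the arcs `Gc .. r3` are near the sides; **`Lo.ctr3`** : the centre of
  every pattern `AP3`; `hull3`, `far3` (277's `Geo`)
-/

set_option autoImplicit false
set_option linter.unusedSectionVars false

noncomputable section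

open scoped Classical

namespace Crest.Agent.R143.LdCx715

open Crest.Agent.R143.B0x346 Crest.Agent.R143.DelGx806 Crest.Agent.R143.DelRx806
  Crest.Agent.R143.JColx54
open Crest.Agent.R143.Frame1x395 Crest.Agent.R143.Frame2x395 Crest.Agent.R143.Frame3x395
  Crest.Agent.R143.Frame4x395 Crest.Agent.R143.Frame8x395 Crest.Agent.R143.Frame9x395
  Crest.Agent.R143.Frame10x395 Crest.Agent.R143.Frame11x395 Crest.Agent.R143.NonXx592
  Crest.Agent.R143.C2SCx395 Crest.Agent.R143.C2SDx395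
open Crest.Agent.R143.Frame5x395 (sd mem_sd th th_spec)
open Crest.Agent.R143.Junx43 (St rc)
open Crest.Agent.R143.Patx828 Crest.Agent.R143.HullKx715 Crest.Agent.R143.RingMx715
  Crest.Agent.R143.RingNx715 Crest.Agent.R143.RingOx715 Crest.Agent.R143.RingTx715
  Crest.Agent.R143.RingUx715 Crest.Agent.R143.HullGx715 Crest.Agent.R143.HullSx715
  Crest.Agent.R143.CloIx715
open Crest.Agent.R143.RingDx117 (RD DRing)
open Crest.Agent.R143.RingTx263 (RgC)
open Crest.Agent.R143.WLocx713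
open Crest.Agent.R143.FinCx811 (Cs rc0)
open Crest.Agent.R143.TileRx228 Crest.Agent.R143.SqPx503 Crest.Agent.R143.PathDx503
  Crest.Agent.R143.PathGx503 Crest.Agent.R143.RingPx503 Crest.Agent.R143.RingIx503
  Crest.Agent.R143.ConfTx503
open Crest.Agent.R143.K33x877 (CtrX)
open Crest.Agent.R143.DtaGx277 (Geo)
open Crest.Agent.R143.Exc6x790 (r3 AP3)

/-! ### any map -/

section cmap

variable {D C : Type} {M : CMap D C} {x : D → ZMod 2} {p : D} {N n s : ℕ} {T : ℕ → ℕ}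
  {Reg : ℕ → Set C} {g₀ : D} {m t a b l u : ℕ → ℕ} {q : ZMod 3 → ℕ}

/-- the marks of the base pattern -/
theorem m3o (H : S3 N n T m t a b l u) (R : TL M x p N n T Reg) :
    M3o n T (b 0) (m 0) (fun j : ZMod 3 => l j.val) (fun j => u j.val) (fun j => t j.val) := by
  have o0 := H.ord R 0
  have o1 := H.ord R 1
  have o2 := H.ord R 2
  have c0 : u 0 + 1 ≤ a 1 := H.ua 0
  have c1 : u 1 + 1 ≤ a 2 := H.ua 1
  refine ⟨H.mb 0, ?_, fun j => H.lu _, ?_, ?_, fun j => H.tl _, fun j => H.tu _⟩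
  · show b 0 ≤ l 0
    omega
  · show u 0 + 1 ≤ l 1
    omega
  · show u 1 + 1 ≤ l 2
    omega

/-- **the windows of the junction gaps** -/
theorem mko3 (H : S3 N n T m t a b l u) (L : Chordx355.Lp M x p N) (R : TL M x p N n T Reg)
    (G : GT n T (St M x p N g₀)) (ql : ∀ i : ZMod 3, q i ≤ l i.val + s)
    (qu : ∀ i : ZMod 3, u i.val + 1 ≤ q i + s) (q0 : s ≤ q 0) (q01 : q 0 + 2 * s < q 1)
    (q12 : q 1 + 2 * s < q 2) (q2 : q 2 + 2 * s < q 0 + n) :
    Mko n T (m 0) q s (r3 M x p N g₀ m t) :=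
  mko_of L R G (v₀ := a 0) (H.ma 0) (by
    show u 2 + 1 ≤ a 0 + n
    have c2 : u 2 + 1 ≤ a 3 := H.ua 2
    have c3 : a 3 = a 0 + n := H.aN 0
    omega) (m3o H R) ql qu q0 q01 q12 q2

end cmap

/-! ### the square -/

variable {S V β : Finset ℂ} {χ : ℂ → ZMod 2} {h A B A' B' κ bb m m' τ : ℝ} {a0 a1 b0 b1 : ℝ}
  {K : ℕ} {W : ℤ → ℤ × ℤ} {y x : ℤ → ℂ} {U : Set ℂ} {hS : GP (S : Set ℂ)} {hχ : HullC S χ}
  {H : Clo S V β χ h A B A' B' κ bb a0 a1 b0 b1 m m' τ (4 * K) W y x U}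
  {o s : ℕ} {T : ℕ → ℕ} {g₀ : D0 S} {v : ℤ × ℤ} {ms t a b l u : ℕ → ℕ}
  {σ : Cs hS → ZMod 2} {p : D0 S} {c : ℂ} {L d : ℝ}

/-- the three marks are near the corners -/
structure Cor (K o s : ℕ) (l u : ℕ → ℕ) : Prop where
  ho : s ≤ o
  hs : 2 * s < K
  l0 : o ≤ l 0 + s
  u0 : u 0 + 1 ≤ o + s
  l1 : o + K ≤ l 1 + s
  u1 : u 1 + 1 ≤ o + K + s
  l2 : o + 2 * K ≤ l 2 + s
  u2 : u 2 + 1 ≤ o + 2 * K + s

/-- **the sites of the arcs are near the sides** -/
theorem st_near (Q : Lo H hS hχ (o : ℤ) T g₀) (hK : 1 ≤ K) (hW : ∀ a, W a = sqW K a + v)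
    (J : S3 (T (4 * K)) (4 * K) T ms t a b l u) (E : Cor K o s l u) (i : ZMod 3) (z : ℂ)
    (hz : z ∈ st (Gc (rc0 hS) (xc hS hχ) (P (rc0 hS) (xc hS hχ) (pz hχ H (o : ℤ)) (ms 0))
      (T (4 * K)) (r3 (rc0 hS) (xc hS hχ) (pz hχ H (o : ℤ)) (T (4 * K)) g₀ ms t)) i) :
    z - (⟨h * v.1, h * v.2⟩ : ℂ) ∈ NearS K (A + τ) (B + τ) h s i := by
  let q : ZMod 3 → ℕ := fun i => if i = 0 then o else if i = 1 then o + K else o + 2 * K
  have q0 : q 0 = o := if_pos rfl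
  have q1 : q 1 = o + K := by
    show (if (1 : ZMod 3) = 0 then _ else _) = _
    rw [if_neg (by decide), if_pos rfl]
  have q2 : q 2 = o + 2 * K := by
    show (if (2 : ZMod 3) = 0 then _ else _) = _
    rw [if_neg (by decide), if_neg (by decide)]
  have hs := E.hs
  have hMk : Mko (4 * K) T (ms 0) q s
      (r3 (rc0 hS) (xc hS hχ) (pz hχ H (o : ℤ)) (T (4 * K)) g₀ ms t) := by
    refine mko3 J Q.L Q.R Q.G ?_ ?_ (by rw [q0]; exact E.ho) (by rw [q0, q1]; omega)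
      (by rw [q1, q2]; omega) (by rw [q2, q0]; omega)
    · intro i
      rcases z3e i with rfl | rfl | rfl
      · rw [q0]; exact E.l0
      · rw [q1]; exact E.l1
      · rw [q2]; exact E.l2
    · intro i
      rcases z3e i with rfl | rfl | rfl
      · rw [q0]; exact E.u0
      · rw [q1]; exact E.u1
      · rw [q2]; exact E.u2
  exact Q.near hK hW q0 q1 q2 hMk i z hz

/-- colour of the base point -/
theorem col1 (G : Geo H hS hχ σ p v c L d) : σ ((rc0 hS).cell (pz hχ H (o : ℤ))) = 1 := by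
  have hy : (pz hχ H (o : ℤ)).1.1 ∈ S := (mem_delT.1 (th_spec (pz hχ H (o : ℤ)).2)).1
  rw [G.col _ _ hy rfl]
  exact H.cy (o : ℤ)

/-- **828's `Rg3` for `r3`**, base state `p` = state `ms 0` of the loop -/
theorem rg_3 (Q : Lo H hS hχ (o : ℤ) T g₀) (G : Geo H hS hχ σ p v c L d)
    (J : S3 (T (4 * K)) (4 * K) T ms t a b l u)
    (hp : p = P (rc0 hS) (xc hS hχ) (pz hχ H (o : ℤ)) (ms 0)) :
    Rg3 (rc0 hS) σ p (T (4 * K))
      (r3 (rc0 hS) (xc hS hχ) (pz hχ H (o : ℤ)) (T (4 * K)) g₀ ms t) := by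
  have hL := Q.L; have hR := Q.R; have hG := Q.G; have hg := Q.g
  have hc := G.cfg_eq
  have h1 := col1 (o := o) G
  rw [← hc] at hL hR hG hg hp ⊢
  rw [hp]
  exact J.rg3 hL h1 hR hg hG

/-- **the centre of every pattern** -/
theorem ctr3 (Q : Lo H hS hχ (o : ℤ) T g₀) (G : Geo H hS hχ σ p v c L d)
    (J : S3 (T (4 * K)) (4 * K) T ms t a b l u)
    (hp : p = P (rc0 hS) (xc hS hχ) (pz hχ H (o : ℤ)) (ms 0)) (E : Cor K o s l u)
    (he : 2 * d + (B + τ + h * s) < h * K / 2) (k : ZMod 3) :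
    ∃ X, CtrX S (st (AP3 (rc0 hS) (xc hS hχ) (pz hχ H (o : ℤ)) (T (4 * K)) g₀ ms t k)) X := by
  have hAB : A + τ ≤ B + τ := by have := H.N.AB; linarith
  have h1 := G.ctr (rg_3 Q G J hp) hAB he rfl (by
    intro i z hz
    rw [G.cfg_eq, hp] at hz
    exact st_near Q G.K1 G.hW J E i z hz) k
  rw [G.cfg_eq, hp] at h1
  exact h1

/-- **690's `Hl`** for the mean end points of 828's data, if the data are those of the ring -/
theorem hl3 {dt : Finset ℂ → S1x828.Dt S} {Ev : Finset ℂ → Prop} (X : S1x828.Dta hS dt Ev)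
    {β' : Finset ℂ} (hβ : β' ⊆ S) (hE : Ev β') (Q : Lo H hS hχ (o : ℤ) T g₀)
    (G : Geo H hS hχ (Freshx829.scol hS (β' : Set ℂ)) p v c L d)
    (J : S3 (T (4 * K)) (4 * K) T ms t a b l u)
    (hp : p = P (rc0 hS) (xc hS hχ) (pz hχ H (o : ℤ)) (ms 0)) (E : Cor K o s l u)
    (e1 : (dt β').p = p) (e2 : (dt β').N = T (4 * K))
    (e3 : (dt β').r = r3 (rc0 hS) (xc hS hχ) (pz hχ H (o : ℤ)) (T (4 * K)) g₀ ms t) :
    KapAx690.Hl (⟨h * v.1, h * v.2⟩ : ℂ) (h * K) (2 * (B + τ + h * s))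
      (fun i : Fin 3 => S1x828.dZ hS dt β' i) := by
  have hAB : A + τ ≤ B + τ := by have := H.N.AB; linarith
  obtain ⟨p1, -, -, -, -⟩ := RingCx312.pos H
  refine hl_dz X hβ hE G.K1 p1.le hAB ?_
  intro i z hz
  rw [G.cfg_eq, e1, e2, e3, hp] at hz
  exact st_near Q G.K1 G.hW J E i z hz

end Crest.Agent.R143.LdCx715
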