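import Crest.Agent.R143.RingF_565
import Crest.Agent.R143.Exc6_790
import Crest.Agent.R143.DtaR_440

/-!
# Row 143 (S0194), block H, H5, box B2 of 440's skeleton (helper43): data of a representative and the
transfer to the other members of its class

* `Ld` : data of a representative (790 / 715); `LdOK` : its facts (440's note 4856)
* `Rb`, `pS`, `fl3` : exploration of the arm box `k`, canonical state, flipped set of sites
* `Ld.dt` : 828's ring data; `A3`, `g3` : giants and root gap of the pattern `k`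
* `flk_tr` : `FlK` for two colourings with the same loop
* `LdOK.tg`, `agr` : a member `b'` of the class has the same loop; `start`, `ra_eq`, `hit'`, `ta'`, `tb'`
* **`LdOK.flk`** : the flipped configuration of `b'` is `FlK` for the representative
* `dA_eq`, `dg_eq` : 828's giants and root gap at `b'`
-/

set_option autoImplicit false
set_option linter.unusedSectionVars false

noncomputable section

open scoped Classical ComplexConjugate

namespace Crest.Agent.R143.LdOx43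

open Crest.Agent.R143.B0x346 Crest.Agent.R143.SumScx302 Crest.Agent.R143.Mass1x302
  Crest.Agent.R143.Mass2x302 Crest.Agent.R143.Mass3x302
  Crest.Agent.R143.Mass4x302 Crest.Agent.R143.Mass5x302 Crest.Agent.R143.DelGx806
  Crest.Agent.R143.DelRx806 Crest.Agent.R143.JColx54
open Crest.Agent.R143.Frame1x395 Crest.Agent.R143.Frame2x395 Crest.Agent.R143.Frame3x395
  Crest.Agent.R143.Frame4x395 Crest.Agent.R143.Frame8x395 Crest.Agent.R143.Frame9x395
  Crest.Agent.R143.Frame10x395 Crest.Agent.R143.Frame11x395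
  Crest.Agent.R143.NonXx592 Crest.Agent.R143.Coarsex166 Crest.Agent.R143.Coarse2x166
open Crest.Agent.R143.FinCx811
open Crest.Agent.R143.SmallAx304 (rp cs_rp rp_inner chiS)
open Crest.Agent.R143.HRevx432 (Kc kc_sub coins_rc)
open Crest.Agent.R143.RevCx389 (Rg p0 Ra ra_stop p0_dec)
open Crest.Agent.R143.Harx315 (IsStop)
open Crest.Agent.R143.RingFx565 (kap ck_rc in_rc Hit Qb flc ta tb ma)
open Crest.Agent.R143.Two3x565 (FlK Dk JdK)
open Crest.Agent.R143.RingTx715 (S3)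
open Crest.Agent.R143.HullKx715 (TL GT)
open Crest.Agent.R143.Junx43 (St Tch)
open Crest.Agent.R143.Exc6x790 (r3 AP3 rg3 RJ)
open Crest.Agent.R143.Patx828 (Rg3 Lf Wc Gc AP)
open Crest.Agent.R143.DtaRx440 (Tg stab2 lf2 wc2 ap2 gp2)
open Crest.Agent.R143.S1x828 (Dt dA dg dF dV dW Vk Wk pk)
open Crest.Agent.R143.NetUx346 (ff)
open Crest.Agent.R143.C2SCx395 (st pr pr_con pr_cq)
open Crest.Agent.R143.K33x877 (CtrX)
open Crest.Agent.R143.Freshx829 (scol Inn rep rep_eq rep_spec)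
open Crest.Agent.R143.RingNx715 (fx)

/-! ### two colourings with the same loop -/

section cmap

variable {D C : Type} {M : CMap D C} [Fintype D] {σ μ χ' : C → ZMod 2} {p : D}

/-- the cells touched by the same loop -/
theorem tch_tg (h : Tg M σ μ p) (hσ : cfg M σ p = 1) (n : ℕ) :
    Tch M (cfg M μ) p n = Tch M (cfg M σ) p n := by
  ext c
  constructor
  · rintro ⟨u, h1, h2⟩
    refine ⟨u, h1, ?_⟩
    unfold Chordx355.lc Junx43.rc at h2 ⊢
    rwa [h.walk hσ u] at h2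
  · rintro ⟨u, h1, h2⟩
    refine ⟨u, h1, ?_⟩
    unfold Chordx355.lc Junx43.rc at h2 ⊢
    rwa [h.walk hσ u]

theorem dk_tg (h : Tg M σ μ p) (hσ : cfg M σ p = 1) (Q : Set C) (T₁ T₂ : ℕ) :
    Dk M (cfg M μ) p Q T₁ T₂ = Dk M (cfg M σ) p Q T₁ T₂ := by
  unfold Two3x565.Dk Jun3x565.Ov
  rw [tch_tg h hσ, tch_tg h hσ]

/-- **`FlK` for two colourings with the same loop** -/
theorem flk_tr (h : Tg M σ μ p) (hσ : cfg M σ p = 1) {Q : Set C} {T₁ T₂ : ℕ}
    (F : FlK M μ p Q T₁ T₂ χ') : FlK M σ p Q T₁ T₂ χ' := by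
  intro u
  obtain ⟨h1, h2⟩ := F u
  have hw := h.walk hσ u
  have e1 : Chordx355.lc M (cfg M μ) p u = Chordx355.lc M (cfg M σ) p u := by
    unfold Chordx355.lc
    rw [hw]
  have e2 : Junx43.rc M (cfg M μ) p u = Junx43.rc M (cfg M σ) p u := by
    unfold Junx43.rc
    rw [hw]
  rw [e1, dk_tg h hσ] at h1
  rw [e2, dk_tg h hσ] at h2
  have h3 : μ (Chordx355.lc M (cfg M σ) p u) = σ (Chordx355.lc M (cfg M σ) p u) := (h u).1
  have h4 : μ (Junx43.rc M (cfg M σ) p u) = σ (Junx43.rc M (cfg M σ) p u) := (h u).2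
  rw [h3] at h1
  rw [h4] at h2
  exact ⟨h1, h2⟩

omit [Fintype D] in
/-- the same first time -/
theorem fx_walk {x y : D → ZMod 2} (h : ∀ u, P M y p u = P M x p u) (B : Set D) :
    fx M y p B = fx M x p B := by
  have e : {s | P M y p s ∈ B} = {s | P M x p s ∈ B} := by
    ext s
    show P M y p s ∈ B ↔ P M x p s ∈ B
    rw [h]
  unfold RingNx715.fx
  rw [e]

omit [Fintype D] in
/-- the same walk from a later state -/
theorem walk_later {x y : D → ZMod 2} (h : ∀ u, P M y p u = P M x p u) (k u : ℕ) :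
    P M y (P M x p k) u = P M x (P M x p k) u := by
  rw [← h k, ← P_add, h, h k, P_add]

end cmap

/-! ### data of a representative -/

variable {S : Finset ℂ}

/-- data of a representative -/
structure Ld (hS : GP (S : Set ℂ)) where
  q : D0 S
  g₀ : D0 S
  N : ℕ
  n : ℕ
  T : ℕ → ℕ
  Reg : ℕ → Set (Cs hS)
  m : ℕ → ℕ
  t : ℕ → ℕ
  a : ℕ → ℕ
  b : ℕ → ℕ
  l : ℕ → ℕ
  u : ℕ → ℕ

variable (hS : GP (S : Set ℂ)) (h3 : 3 ≤ S.card) (G : ZMod 3 → Rg (D0 S) (Cs hS))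
  (X : ZMod 3 → Set (D0 S))

/-- exploration of the arm box `k` -/
def Rb (k : ZMod 3) : Finset ℂ → Finset ℂ := Ra (rc0 hS) (G k) S (chiS hS h3) (Kc hS h3)

/-- canonical state of the arm box `k` -/
def pS (k : ZMod 3) (b : Finset ℂ) : D0 S := p0 (rc0 hS) (G k) (chiS hS h3 b)

/-- the set of sites with the coins of the pattern `k` inverted -/
def fl3 (k : ZMod 3) (b : Finset ℂ) : Finset ℂ :=
  flc (rc0 hS) S (chiS hS h3) (Kc hS h3) (Rb hS h3 G k) (pS hS h3 G k) (fun _ => X k)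
    (fun _ => X (k + 1)) b

variable {hS}

/-- the configuration of `b` -/
abbrev xb (b : Finset ℂ) : D0 S → ZMod 2 := cfg (rc0 hS) (chiS hS h3 b)

/-- 828's ring data of a representative -/
def Ld.dt (d : Ld hS) (b : Finset ℂ) : Dt S :=
  ⟨P (rc0 hS) (xb (hS := hS) h3 b) d.q (d.m 0), d.N,
    r3 (rc0 hS) (xb (hS := hS) h3 b) d.q d.N d.g₀ d.m d.t⟩

/-- giants of the pattern `k` of the representative -/
def A3 (b : Finset ℂ) (d : Ld hS) (k : ZMod 3) : ZMod 3 → Set (Cs hS) :=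
  AP3 (rc0 hS) (xb (hS := hS) h3 b) d.q d.N d.g₀ d.m d.t k

/-- root gap of the pattern `k` of the representative -/
def g3 (b : Finset ℂ) (d : Ld hS) (k : ZMod 3) : D0 S :=
  rg3 (rc0 hS) (chiS hS h3 b) d.q d.N d.g₀ d.m d.t k

/-- the outside -/
def W3 (b : Finset ℂ) (d : Ld hS) : Set (Cs hS) :=
  Wc (rc0 hS) (xb (hS := hS) h3 b) (P (rc0 hS) (xb (hS := hS) h3 b) d.q (d.m 0))

/-- **facts of one representative `b`** (note 4856) -/
structure LdOK (Rf : Finset ℂ → Finset ℂ) (b : Finset ℂ) (d : Ld hS) : Prop where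
  s3 : S3 d.N d.n d.T d.m d.t d.a d.b d.l d.u
  lp : Chordx355.Lp (rc0 hS) (xb (hS := hS) h3 b) d.q d.N
  col : chiS hS h3 b ((rc0 hS).cell d.q) = 1
  tl : TL (rc0 hS) (xb (hS := hS) h3 b) d.q d.N d.n d.T d.Reg
  gg : Gp (rc0 hS) (xb (hS := hS) h3 b) d.g₀
  gt : GT d.n d.T (St (rc0 hS) (xb (hS := hS) h3 b) d.q d.N d.g₀)
  start : ∀ k : ZMod 3, P (rc0 hS) (xb (hS := hS) h3 b) d.q (d.m k.val) = pS hS h3 G k b
  ta : ∀ k : ZMod 3, d.t k.val - d.m k.val =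
    ta (rc0 hS) (chiS hS h3) (pS hS h3 G k) (fun _ => X k) b
  tb : ∀ k : ZMod 3, d.t (k.val + 1) - d.m k.val =
    tb (rc0 hS) (chiS hS h3) (pS hS h3 G k) (fun _ => X k) (fun _ => X (k + 1)) b
  hit : ∀ k : ZMod 3, Hit (rc0 hS) (chiS hS h3) (pS hS h3 G k) (fun _ => X k)
    (fun _ => X (k + 1)) b
  dis : ∀ k : ZMod 3, ∀ i, d.l k.val ≤ i → i < d.u (k.val + 1) →
    Disjoint (d.Reg i) (Qb (kap hS h3) (Rb hS h3 G k) b)
  look : ∀ v, kap hS h3 ((rc0 hS).cell (P (rc0 hS) (xb (hS := hS) h3 b) d.q v)) ∈ Rf b ∧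
    kap hS h3 ((rc0 hS).cell ((rc0 hS).rho (P (rc0 hS) (xb (hS := hS) h3 b) d.q v))) ∈ Rf b
  rbf : ∀ k : ZMod 3, Rb hS h3 G k b ⊆ Rf b
  frees : Rf b ⊆ S \ ff S (st (A3 h3 b d 0))
  hull : ∀ c : Cs hS, ∀ v, OnHull S v → c.1 = Quot.mk (hullE S) v → c ∈ W3 h3 b d
  far : ∀ e : D0 S, OnHull S e.1.1 → (rc0 hS).cell e ∈ W3 h3 b d ∧
    (rc0 hS).cell ((rc0 hS).rho e) ∈ W3 h3 b d ∧
    (rc0 hS).cell ((rc0 hS).rho ((rc0 hS).rho e)) ∈ W3 h3 b d
  ctr : ∃ Y, CtrX S (st (A3 h3 b d 0)) Y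

variable {h3 G X} {Rf : Finset ℂ → Finset ℂ} {b b' : Finset ℂ} {d : Ld hS}

/-! ### the members of the class -/

/-- a looked coin has the same colour -/
theorem agr (e : b' ∩ Rf b = b ∩ Rf b) {c : Cs hS} (h : kap hS h3 c ∈ Rf b) :
    chiS hS h3 b' c = chiS hS h3 b c := by
  have h1 : kap hS h3 c ∈ b' ↔ kap hS h3 c ∈ b := by
    constructor
    · intro h2
      have : kap hS h3 c ∈ b' ∩ Rf b := Finset.mem_inter.2 ⟨h2, h⟩
      rw [e] at this
      exact (Finset.mem_inter.1 this).1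
    · intro h2
      have : kap hS h3 c ∈ b ∩ Rf b := Finset.mem_inter.2 ⟨h2, h⟩
      rw [← e] at this
      exact (Finset.mem_inter.1 this).1
  unfold SmallAx304.chiS
  exact if_congr h1 rfl rfl

/-- colours by sites of the inner cells -/
theorem chi_scol {β : Finset ℂ} {c : Cs hS} {v : ℂ} (hv : v ∈ S) (hn : ¬ OnHull S v)
    (e : c.1 = Quot.mk (hullE S) v) : chiS hS h3 β c = scol hS (β : Set ℂ) c := by
  have e1 : c = cs hS h3 ⟨v, hv⟩ := Subtype.ext e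
  rw [e1, SmallAx304.chiS_inner hS h3 β hn, Freshx829.scol_inn h3 hn]
  by_cases h : v ∈ β
  · rw [if_pos h, if_pos (Finset.mem_coe.2 h)]
  · rw [if_neg h, if_neg fun h' => h (Finset.mem_coe.1 h')]

namespace LdOK

variable (H : LdOK h3 G X Rf b d)

include H

/-- the same loop from every start -/
theorem tg (e : b' ∩ Rf b = b ∩ Rf b) (m : ℕ) : Tg (rc0 hS) (chiS hS h3 b) (chiS hS h3 b')
    (P (rc0 hS) (xb (hS := hS) h3 b) d.q m) := by
  intro u
  rw [← P_add]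
  exact ⟨agr e (H.look _).1, agr e (H.look _).2⟩

theorem occ (m : ℕ) : xb (hS := hS) h3 b (P (rc0 hS) (xb (hS := hS) h3 b) d.q m) = 1 :=
  P_occ H.lp.ev H.lp.occ m

theorem walk (e : b' ∩ Rf b = b ∩ Rf b) (m u : ℕ) :
    P (rc0 hS) (xb (hS := hS) h3 b') (P (rc0 hS) (xb (hS := hS) h3 b) d.q m) u =
      P (rc0 hS) (xb (hS := hS) h3 b) (P (rc0 hS) (xb (hS := hS) h3 b) d.q m) u :=
  (H.tg e m).walk (H.occ m) u

/-- the same outcome of the arm box -/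
theorem rb_out (e : b' ∩ Rf b = b ∩ Rf b) (k : ZMod 3) :
    b ∩ Rb hS h3 G k b = b' ∩ Rb hS h3 G k b := by
  ext v
  rw [Finset.mem_inter, Finset.mem_inter]
  constructor
  · rintro ⟨h1, h2⟩
    have : v ∈ b ∩ Rf b := Finset.mem_inter.2 ⟨h1, H.rbf k h2⟩
    rw [← e] at this
    exact ⟨(Finset.mem_inter.1 this).1, h2⟩
  · rintro ⟨h1, h2⟩
    have : v ∈ b' ∩ Rf b := Finset.mem_inter.2 ⟨h1, H.rbf k h2⟩
    rw [e] at this
    exact ⟨(Finset.mem_inter.1 this).1, h2⟩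

theorem rb_eq (hb : b ⊆ S) (hb' : b' ⊆ S) (e : b' ∩ Rf b = b ∩ Rf b) (k : ZMod 3) :
    Rb hS h3 G k b' = Rb hS h3 G k b :=
  (ra_stop (coins_rc hS h3) (kc_sub hS h3)).stop b b' hb hb' (H.rb_out e k)

theorem ps_eq (hb : b ⊆ S) (hb' : b' ⊆ S) (e : b' ∩ Rf b = b ∩ Rf b) (k : ZMod 3) :
    pS hS h3 G k b' = pS hS h3 G k b :=
  (p0_dec (coins_rc hS h3) (kc_sub hS h3) b b' hb hb' (H.rb_out e k)).symm

theorem qb_eq (hb : b ⊆ S) (hb' : b' ⊆ S) (e : b' ∩ Rf b = b ∩ Rf b) (k : ZMod 3) :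
    Qb (kap hS h3) (Rb hS h3 G k) b' = Qb (kap hS h3) (Rb hS h3 G k) b := by
  unfold RingFx565.Qb
  rw [H.rb_eq hb hb' e k]

/-- the walk from the canonical state -/
theorem pwalk (e : b' ∩ Rf b = b ∩ Rf b) (k : ZMod 3) (u : ℕ) :
    P (rc0 hS) (xb (hS := hS) h3 b') (pS hS h3 G k b) u =
      P (rc0 hS) (xb (hS := hS) h3 b) (pS hS h3 G k b) u := by
  rw [← H.start k]
  exact H.walk e _ u

theorem ptg (e : b' ∩ Rf b = b ∩ Rf b) (k : ZMod 3) :
    Tg (rc0 hS) (chiS hS h3 b) (chiS hS h3 b') (pS hS h3 G k b) := by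
  rw [← H.start k]
  exact H.tg e _

theorem pocc (k : ZMod 3) : xb (hS := hS) h3 b (pS hS h3 G k b) = 1 := by
  rw [← H.start k]
  exact H.occ _

theorem ma_eq (hb : b ⊆ S) (hb' : b' ⊆ S) (e : b' ∩ Rf b = b ∩ Rf b) (k : ZMod 3) :
    ma (rc0 hS) (chiS hS h3) (pS hS h3 G k) (fun _ => X k) b' =
      ma (rc0 hS) (chiS hS h3) (pS hS h3 G k) (fun _ => X k) b := by
  unfold RingFx565.ma
  rw [H.ps_eq hb hb' e k, fx_walk (H.pwalk e k), H.pwalk e k]

theorem ta_eq (hb : b ⊆ S) (hb' : b' ⊆ S) (e : b' ∩ Rf b = b ∩ Rf b) (k : ZMod 3) :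
    RingFx565.ta (rc0 hS) (chiS hS h3) (pS hS h3 G k) (fun _ => X k) b' =
      RingFx565.ta (rc0 hS) (chiS hS h3) (pS hS h3 G k) (fun _ => X k) b := by
  unfold RingFx565.ta
  rw [H.ps_eq hb hb' e k, fx_walk (H.pwalk e k)]

theorem mwalk (e : b' ∩ Rf b = b ∩ Rf b) (k : ZMod 3) (u : ℕ) :
    P (rc0 hS) (xb (hS := hS) h3 b')
        (ma (rc0 hS) (chiS hS h3) (pS hS h3 G k) (fun _ => X k) b) u =
      P (rc0 hS) (xb (hS := hS) h3 b)
        (ma (rc0 hS) (chiS hS h3) (pS hS h3 G k) (fun _ => X k) b) u :=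
  walk_later (H.pwalk e k) _ u

theorem tb_eq (hb : b ⊆ S) (hb' : b' ⊆ S) (e : b' ∩ Rf b = b ∩ Rf b) (k : ZMod 3) :
    RingFx565.tb (rc0 hS) (chiS hS h3) (pS hS h3 G k) (fun _ => X k) (fun _ => X (k + 1)) b' =
      RingFx565.tb (rc0 hS) (chiS hS h3) (pS hS h3 G k) (fun _ => X k) (fun _ => X (k + 1)) b := by
  unfold RingFx565.tb
  rw [H.ma_eq hb hb' e k, fx_walk (H.mwalk e k), H.ps_eq hb hb' e k, fx_walk (H.pwalk e k)]

/-- **the marks are hit in every member of the class** -/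
theorem hit' (hb : b ⊆ S) (hb' : b' ⊆ S) (e : b' ∩ Rf b = b ∩ Rf b) (k : ZMod 3) :
    Hit (rc0 hS) (chiS hS h3) (pS hS h3 G k) (fun _ => X k) (fun _ => X (k + 1)) b' := by
  obtain ⟨h0, ⟨n1, h1⟩, n2, h2⟩ := H.hit k
  refine ⟨?_, ⟨n1, ?_⟩, n2, ?_⟩
  · rw [H.ps_eq hb hb' e k]
    exact (H.ptg e k).occ (H.pocc k)
  · rw [H.ps_eq hb hb' e k, H.pwalk e k]
    exact h1
  · rw [H.ma_eq hb hb' e k, H.mwalk e k]
    exact h2

/-- **the flipped configuration of `b'` is `FlK` for the representative** -/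
theorem flk (hb : b ⊆ S) (hb' : b' ⊆ S) (e : b' ∩ Rf b = b ∩ Rf b) (k : ZMod 3) :
    FlK (rc0 hS) (chiS hS h3 b) (P (rc0 hS) (xb (hS := hS) h3 b) d.q (d.m k.val))
      (Qb (kap hS h3) (Rb hS h3 G k) b) (d.t k.val - d.m k.val) (d.t (k.val + 1) - d.m k.val)
      (chiS hS h3 (fl3 hS h3 G X k b')) := by
  have h1 := (ck_rc (hS := hS) (h3 := h3)).flk (Rb := Rb hS h3 G k) (H.hit' hb hb' e k)
  rw [H.ps_eq hb hb' e k, H.qb_eq hb hb' e k, H.ta_eq hb hb' e k, H.tb_eq hb hb' e k, ← H.ta,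
    ← H.tb] at h1
  rw [H.start k]
  exact flk_tr (H.ptg e k) (H.pocc k) h1

/-! ### the patterns -/

/-- **828's `Rg3` at the representative** -/
theorem rg3 : Rg3 (rc0 hS) (chiS hS h3 b) (P (rc0 hS) (xb (hS := hS) h3 b) d.q (d.m 0)) d.N
    (r3 (rc0 hS) (xb (hS := hS) h3 b) d.q d.N d.g₀ d.m d.t) :=
  H.s3.rg3 H.lp H.col H.tl H.gg H.gt

theorem gi (k : ZMod 3) : C2SBx395.Gi (rc0 hS) (A3 h3 b d k) := H.rg3.gi k

/-- a cell which is not in the outside is an inner cell -/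
theorem inner {c : Cs hS} (h : c ∉ W3 h3 b d) :
    ∃ v ∈ S, ¬ OnHull S v ∧ c.1 = Quot.mk (hullE S) v := by
  obtain ⟨v, hv, e⟩ := C2SDx395.site_of c
  exact ⟨v, hv, fun ho => h (H.hull c v ho e), e⟩

/-- the loop in 828's colouring -/
theorem tgs (e : b' ∩ Rf b = b ∩ Rf b) :
    Tg (rc0 hS) (chiS hS h3 b) (scol hS (b' : Set ℂ))
      (P (rc0 hS) (xb (hS := hS) h3 b) d.q (d.m 0)) := by
  intro u
  obtain ⟨h1, h2⟩ := H.tg e (d.m 0) u
  constructor
  · have h5 : (rc0 hS).cell (P (rc0 hS) (cfg (rc0 hS) (chiS hS h3 b))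
        (P (rc0 hS) (xb (hS := hS) h3 b) d.q (d.m 0)) u) ∉ W3 h3 b d := fun h => h.1 ⟨u, rfl⟩
    obtain ⟨v, hv, hn, ev⟩ := H.inner h5
    rw [← chi_scol (h3 := h3) hv hn ev, h1]
  · have h4 := H.rg3.rcol u
    obtain ⟨v, hv, ev⟩ := C2SDx395.site_of ((rc0 hS).cell ((rc0 hS).rho (P (rc0 hS)
      (cfg (rc0 hS) (chiS hS h3 b)) (P (rc0 hS) (xb (hS := hS) h3 b) d.q (d.m 0)) u)))
    by_cases hn : OnHull S v
    · rw [h4]
      unfold Freshx829.scol
      refine if_neg fun h' => ?_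
      obtain ⟨w, hw, e1, e2⟩ := h'.1
      have : v = w := Frame10x395.quot_inner hS e2 (e1.symm.trans ev)
      rw [this] at hn
      exact e2 hn
    · rw [← chi_scol (h3 := h3) hv hn ev, h2]

variable {dt : Finset ℂ → Dt S}

/-- **828's giants at `b'`** -/
theorem dA_eq (e : b' ∩ Rf b = b ∩ Rf b) (hd : dt b' = d.dt h3 b) (k : ZMod 3) :
    dA hS dt b' k = A3 h3 b d k := by
  unfold S1x828.dA
  rw [hd]
  exact ap2 (H.tgs e) (H.occ _) k

/-- 828's root gap at `b'` -/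
theorem dg_eq (e : b' ∩ Rf b = b ∩ Rf b) (hd : dt b' = d.dt h3 b) (k : ZMod 3) :
    dg hS dt b' k = g3 h3 b d k := by
  unfold S1x828.dg
  rw [hd]
  exact gp2 (H.tgs e) (H.occ _) _

end LdOK

end Crest.Agent.R143.LdOx43
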