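import Crest.Agent.R143.RingU_715
import Crest.Agent.R143.RWr_355

/-!
# Row 143 (S0194), block H, H5, box (B10) of helper440's skeleton: the three starts (helper790)

Ring loop `P M x q ·` with the tiles `TL` (base gate `0`), three arm boxes (389's regions `G k`), arm
box `k` = tiles `a k .. a k + m' - 1`.
* `box_state` : 389's `RX` for the arm box with the base gate `s` ⟹ its canonical state `p0` is a state
  of the ring loop between the gates `s` and `s + 3`
* `jn_of` : three states in the windows `[a k, a k + 3]` ⟹ 715's `Jn`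
* `ra_reg`, `dis_of` : the exploration of an arm box looks only at cells of `Ann` and `Dw`
* **`start`** : all the fields `s3`, `st`, `ta`, `tb`, `hit`, `dis`
-/

set_option autoImplicit false
set_option linter.unusedSectionVars false

noncomputable section

open scoped Classical

namespace Crest.Agent.R143.StartAx790

open Finset
open Crest.Agent.R143.Frame1x395 Crest.Agent.R143.Frame2x395 Crest.Agent.R143.Frame3x395
  Crest.Agent.R143.Frame8x395 Crest.Agent.R143.Frame9x395 Crest.Agent.R143.Frame11x395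
  Crest.Agent.R143.NonXx592 Crest.Agent.R143.Histx389 Crest.Agent.R143.RevAx389
  Crest.Agent.R143.RevCx389 Crest.Agent.R143.RingFx565
open Crest.Agent.R143.Junx43 (St Tch)
open Crest.Agent.R143.HullKx715 (TL GT)
open Crest.Agent.R143.RingTx715 (S3)
open Crest.Agent.R143.RingUx715
open Crest.Agent.R143.RWrx355 (RLW)

variable {α D C : Type} {M : CMap D C} {x : D → ZMod 2} {q : D} {N n : ℕ} {T : ℕ → ℕ}
  {Reg : ℕ → Set C}

/-! ### the canonical state of an arm box -/

/-- **the canonical state of the arm box is a state of the ring loop in its first three tiles** -/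
theorem box_state [Fintype D] {ψ : C → ZMod 2} {G : Rg D C} {B' : Set C} {s m : ℕ}
    (hT : ∀ k, T s ≤ T (s + k))
    (X : RingWx389.RX M G ψ (P M (cfg M ψ) q (T s)) (fun k => T (s + k) - T s) m n
      (fun k => Reg (s + k)) B') :
    ∃ t, T s ≤ t ∧ t < T (s + 3) ∧ p0 M G ψ = P M (cfg M ψ) q t := by
  obtain ⟨tp, tq, h1, -, -, -, h5, -, -⟩ := X.pq
  have h2 : tp < T (s + 3) - T s := h1
  have h3 := hT 3
  refine ⟨T s + tp, by omega, by omega, ?_⟩
  rw [h5, ← P_add, Nat.add_comm]

/-! ### the starts as periodic times -/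

/-- **715's `Jn` from three states in the windows** -/
theorem jn_of (R : TL M x q N n T Reg) {a j : ℕ → ℕ} (aN : ∀ k, a (k + 3) = a k + n)
    (bj : ∀ k, a k + 5 ≤ j k) (ja : ∀ k, j k + 1 ≤ a (k + 1)) {pS : ZMod 3 → D}
    (hp : ∀ k : ZMod 3, ∃ t, T (a k.val) ≤ t ∧ t ≤ T (a k.val + 3) ∧ pS k = P M x q t) :
    ∃ m : ℕ → ℕ, Jn N n T m a (fun k => a k + 3) j ∧ ∀ k : ZMod 3, P M x q (m k.val) = pS k := by
  choose t h1 h2 h3 using hp
  have hmod : ∀ k : ℕ, ((k : ZMod 3)).val = k % 3 := fun k => ZMod.val_natCast 3 k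
  have ha : ∀ c k : ℕ, a (k + 3 * c) = a k + c * n := by
    intro c
    induction c with
    | zero => intro k; simp
    | succ c ih =>
      intro k
      rw [show k + 3 * (c + 1) = k + 3 * c + 3 by ring, aN, ih, Nat.succ_mul, Nat.add_assoc]
  have hTp : ∀ c k : ℕ, T (k + c * n) = T k + c * N := by
    intro c
    induction c with
    | zero => intro k; simp
    | succ c ih =>
      intro k
      rw [show k + (c + 1) * n = k + c * n + n by ring, R.per, ih]
      ring
  have key : ∀ k : ℕ, T (a k) = T (a (k % 3)) + k / 3 * N ∧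
      T (a k + 3) = T (a (k % 3) + 3) + k / 3 * N := by
    intro k
    have e : a k = a (k % 3) + k / 3 * n := by
      rw [← ha]
      congr 1
      omega
    refine ⟨by rw [e, hTp], ?_⟩
    rw [e, show a (k % 3) + k / 3 * n + 3 = a (k % 3) + 3 + k / 3 * n by ring, hTp]
  refine ⟨fun k => t (k : ZMod 3) + k / 3 * N, ⟨fun k => ?_, aN, fun k => ?_, fun k => ?_,
    fun k => ?_, ja⟩, fun k => ?_⟩
  · have e1 : ((k + 3 : ℕ) : ZMod 3) = (k : ZMod 3) := by
      rw [Nat.cast_add]
      have : ((3 : ℕ) : ZMod 3) = 0 := by decide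
      rw [this, add_zero]
    show t ((k + 3 : ℕ) : ZMod 3) + (k + 3) / 3 * N = t (k : ZMod 3) + k / 3 * N + N
    rw [e1, show (k + 3) / 3 = k / 3 + 1 by omega]
    ring
  · have h := h1 (k : ZMod 3)
    rw [hmod] at h
    show T (a k) ≤ t (k : ZMod 3) + k / 3 * N
    rw [(key k).1]
    omega
  · have h := h2 (k : ZMod 3)
    rw [hmod] at h
    show t (k : ZMod 3) + k / 3 * N ≤ T (a k + 3)
    rw [(key k).2]
    omega
  · show a k + 3 + 2 ≤ j k
    have := bj k
    omega
  · have hk : k.val < 3 := ZMod.val_lt k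
    have e1 : ((k.val : ℕ) : ZMod 3) = k := ZMod.natCast_zmod_val k
    show P M x q (t ((k.val : ℕ) : ZMod 3) + k.val / 3 * N) = pS k
    rw [e1, show k.val / 3 = 0 by omega, Nat.zero_mul, Nat.add_zero, ← h3]

/-! ### what an arm box looks at -/

section look

variable {V b : Finset α} {χ : Finset α → C → ZMod 2} {K : C → Finset α} {κ : C → α} {G : Rg D C}

/-- **the exploration of an arm box looks only at cells of `Ann` and `Dw`** -/
theorem ra_reg (H : Ck V χ K κ) {c : C} (h : κ c ∈ Ra M G V χ K b) : c ∈ G.Ann ∨ c ∈ G.Dw := by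
  have key : ∀ X : Set C, κ c ∈ coins V K X → c ∈ X := by
    intro X hc
    obtain ⟨-, c', h1, h2⟩ := mem_filter.1 hc
    rw [H.mk'] at h2
    rwa [H.inj h2]
  rcases mem_union.1 h with h | h
  · exact Or.inl (key _ h).1
  · exact Or.inr (key _ h).1

theorem dis_of (H : Ck V χ K κ) {A : Set C} (h : ∀ c ∈ A, c ∉ G.Ann ∧ c ∉ G.Dw) :
    Disjoint A (Qb κ (Ra M G V χ K) b) := by
  refine Set.disjoint_left.2 fun c h1 h2 => ?_
  rcases ra_reg H h2 with h3 | h3
  · exact (h c h1).1 h3
  · exact (h c h1).2 h3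

end look

/-! ### all the fields -/

section start

variable [Fintype D] {V b : Finset α} {χ : Finset α → C → ZMod 2} {K : C → Finset α} {κ : C → α}

/-- **START**: arm boxes `G k` (tiles `a k, a k + 1, ..`), marks `X k.val` (715's `Xk`) -/
theorem start (H : Ck V χ K κ) (L : Chordx355.Lp M (cfg M (χ b)) q N)
    (R : TL M (cfg M (χ b)) q N n T Reg) {a j : ℕ → ℕ} (aN : ∀ k, a (k + 3) = a k + n)
    (bj : ∀ k, a k + 5 ≤ j k) (ja : ∀ k, j k + 1 ≤ a (k + 1))
    {G : ZMod 3 → Rg D C} {X : ℕ → Set D} (XK : Xk M (cfg M (χ b)) q T Reg j X)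
    (hG : ∀ k : ZMod 3, ∃ t, T (a k.val) ≤ t ∧ t ≤ T (a k.val + 3) ∧
      p0 M (G k) (χ b) = P M (cfg M (χ b)) q t)
    (hD : ∀ k : ZMod 3, ∀ i, j k.val - 1 ≤ i → i < j (k.val + 1) → ∀ c ∈ Reg i,
      c ∉ (G k).Ann ∧ c ∉ (G k).Dw) :
    ∃ m t : ℕ → ℕ, Jn N n T m a (fun k => a k + 3) j ∧
      S3 N n T m t a (fun k => a k + 3) (fun k => j k - 1) j ∧
      (∀ k, t k = tt M (cfg M (χ b)) q m X k) ∧
      ∀ k : ZMod 3, P M (cfg M (χ b)) q (m k.val) = p0 M (G k) (χ b) ∧
        t k.val - m k.val = ta M χ (fun b => p0 M (G k) (χ b)) (fun _ => X k.val) b ∧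
        t (k.val + 1) - m k.val =
          tb M χ (fun b => p0 M (G k) (χ b)) (fun _ => X k.val) (fun _ => X (k + 1).val) b ∧
        Hit M χ (fun b => p0 M (G k) (χ b)) (fun _ => X k.val) (fun _ => X (k + 1).val) b ∧
        ∀ i, j k.val - 1 ≤ i → i < j (k.val + 1) →
          Disjoint (Reg i) (Qb κ (Ra M (G k) V χ K) b) := by
  obtain ⟨m, J, hm⟩ := jn_of (pS := fun k => p0 M (G k) (χ b)) R aN bj ja hG
  have hv1 : ∀ k : ZMod 3, X (k.val + 1) = X (k + 1).val := fun k => by
    rcases Patx828.z3e k with rfl | rfl | rfl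
    · rfl
    · rfl
    · exact XK.per 0
  refine ⟨m, tt M (cfg M (χ b)) q m X, J, J.s3 R XK L, fun _ => rfl, fun k => ⟨hm k, ?_, ?_, ?_,
    ?_⟩⟩
  · exact (ta_eq (χ := χ) (bb := b) (m := m) (X := X) (p := q) k.val
      (fun b => p0 M (G k) (χ b)) (hm k).symm).symm
  · have h := tb_eq (χ := χ) (bb := b) J R XK k.val (fun b => p0 M (G k) (χ b)) (hm k).symm
    rw [hv1] at h
    exact h.symm
  · have h := hit_of (χ := χ) (bb := b) L J R XK k.val (fun b => p0 M (G k) (χ b)) (hm k).symm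
    rw [hv1] at h
    exact h
  · exact fun i h1 h2 => dis_of H (hD k i h1 h2)

end start

end Crest.Agent.R143.StartAx790
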