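import Crest.Agent.R143.LdC_715
import Crest.Agent.R143.LdO_43
import Crest.Agent.R143.StartA_790

/-!
# Row 143 (S0194), block H, H5, box B9: 43's `LdOK` from 503's `Clo` (helper715)

* `LdG` : the geometric fields of `LdOK` (all but `look`, `rbf`, `frees`); `LdG.ok`
* `geo_mv` : 277's `Geo` for any state of the loop
* **`ld_of`** : `Lo` (loop of `Clo`), `Geo` for the colours `chiS hS h3 b`, the canonical states of the arm
  boxes in the windows (790's `start`) ⟹ `LdG`, with the data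
* **`ld_near`** : the sites of the arcs are near the sides; **`ld_hl`** : 690's `Hl` for 828's `dZ` at
  every member of the class
-/

set_option autoImplicit false
set_option linter.unusedSectionVars false

noncomputable section

open scoped Classical

namespace Crest.Agent.R143.LdDx715

open Crest.Agent.R143.B0x346 Crest.Agent.R143.DelGx806 Crest.Agent.R143.DelRx806
  Crest.Agent.R143.JColx54
open Crest.Agent.R143.Frame1x395 Crest.Agent.R143.Frame2x395 Crest.Agent.R143.Frame3x395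
  Crest.Agent.R143.Frame4x395 Crest.Agent.R143.Frame8x395 Crest.Agent.R143.Frame9x395
  Crest.Agent.R143.Frame10x395 Crest.Agent.R143.Frame11x395 Crest.Agent.R143.NonXx592
  Crest.Agent.R143.C2SCx395 Crest.Agent.R143.C2SDx395
open Crest.Agent.R143.Frame5x395 (sd mem_sd th th_spec)
open Crest.Agent.R143.Junx43 (St rc)
open Crest.Agent.R143.Patx828 Crest.Agent.R143.HullKx715 Crest.Agent.R143.RingMx715
  Crest.Agent.R143.RingTx715 Crest.Agent.R143.RingUx715 Crest.Agent.R143.HullGx715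
  Crest.Agent.R143.HullSx715 Crest.Agent.R143.CloIx715 Crest.Agent.R143.LdCx715
open Crest.Agent.R143.WLocx713
open Crest.Agent.R143.FinCx811 (Cs rc0)
open Crest.Agent.R143.SmallAx304 (chiS)
open Crest.Agent.R143.HRevx432 (Kc)
open Crest.Agent.R143.TileRx228 Crest.Agent.R143.SqPx503 Crest.Agent.R143.RingPx503
  Crest.Agent.R143.RingIx503
open Crest.Agent.R143.K33x877 (CtrX)
open Crest.Agent.R143.NetUx346 (ff)
open Crest.Agent.R143.DtaGx277 (Geo)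
open Crest.Agent.R143.DtaRx440 (gc2)
open Crest.Agent.R143.Exc6x790 (r3 AP3)
open Crest.Agent.R143.RevCx389 (p0 Ra)
open Crest.Agent.R143.RingFx565 (kap ck_rc Hit Qb)
open Crest.Agent.R143.LdOx43

/-! ### the geometric fields -/

section fields

variable {S : Finset ℂ} {hS : GP (S : Set ℂ)}

/-- the geometric fields of `LdOK` -/
structure LdG (h3 : 3 ≤ S.card) (G : ZMod 3 → RevCx389.Rg (D0 S) (Cs hS)) (X : ZMod 3 → Set (D0 S))
    (b : Finset ℂ) (d : Ld hS) : Prop where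
  s3 : S3 d.N d.n d.T d.m d.t d.a d.b d.l d.u
  lp : Chordx355.Lp (rc0 hS) (xb (hS := hS) h3 b) d.q d.N
  col : chiS hS h3 b ((rc0 hS).cell d.q) = 1
  tl : TL (rc0 hS) (xb (hS := hS) h3 b) d.q d.N d.n d.T d.Reg
  gg : Gp (rc0 hS) (xb (hS := hS) h3 b) d.g₀
  gt : GT d.n d.T (St (rc0 hS) (xb (hS := hS) h3 b) d.q d.N d.g₀)
  start : ∀ k : ZMod 3, P (rc0 hS) (xb (hS := hS) h3 b) d.q (d.m k.val) = pS hS h3 G k b
  ta : ∀ k : ZMod 3, d.t k.val - d.m k.val =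
    RingFx565.ta (rc0 hS) (chiS hS h3) (pS hS h3 G k) (fun _ => X k) b
  tb : ∀ k : ZMod 3, d.t (k.val + 1) - d.m k.val =
    RingFx565.tb (rc0 hS) (chiS hS h3) (pS hS h3 G k) (fun _ => X k) (fun _ => X (k + 1)) b
  hit : ∀ k : ZMod 3, Hit (rc0 hS) (chiS hS h3) (pS hS h3 G k) (fun _ => X k)
    (fun _ => X (k + 1)) b
  dis : ∀ k : ZMod 3, ∀ i, d.l k.val ≤ i → i < d.u (k.val + 1) →
    Disjoint (d.Reg i) (Qb (kap hS h3) (Rb hS h3 G k) b)
  hull : ∀ c : Cs hS, ∀ v, OnHull S v → c.1 = Quot.mk (hullE S) v → c ∈ W3 h3 b d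
  far : ∀ e : D0 S, OnHull S e.1.1 → (rc0 hS).cell e ∈ W3 h3 b d ∧
    (rc0 hS).cell ((rc0 hS).rho e) ∈ W3 h3 b d ∧
    (rc0 hS).cell ((rc0 hS).rho ((rc0 hS).rho e)) ∈ W3 h3 b d
  ctr : ∃ Y, CtrX S (st (A3 h3 b d 0)) Y

variable {h3 : 3 ≤ S.card} {G : ZMod 3 → RevCx389.Rg (D0 S) (Cs hS)} {X : ZMod 3 → Set (D0 S)}
  {b : Finset ℂ} {d : Ld hS} {Rf : Finset ℂ → Finset ℂ}

/-- **43's `LdOK`** from the geometric fields and the three fields of the exploration -/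
theorem LdG.ok (H : LdG h3 G X b d)
    (look : ∀ v, kap hS h3 ((rc0 hS).cell (P (rc0 hS) (xb (hS := hS) h3 b) d.q v)) ∈ Rf b ∧
      kap hS h3 ((rc0 hS).cell ((rc0 hS).rho (P (rc0 hS) (xb (hS := hS) h3 b) d.q v))) ∈ Rf b)
    (rbf : ∀ k : ZMod 3, Rb hS h3 G k b ⊆ Rf b)
    (frees : Rf b ⊆ S \ ff S (st (A3 h3 b d 0))) : LdOK h3 G X Rf b d :=
  ⟨H.s3, H.lp, H.col, H.tl, H.gg, H.gt, H.start, H.ta, H.tb, H.hit, H.dis, look, rbf, frees,
    H.hull, H.far, H.ctr⟩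

end fields

/-! ### the loop of `Clo` -/

variable {S V β : Finset ℂ} {χ : ℂ → ZMod 2} {h A B A' B' κ bb m m' τ : ℝ} {a0 a1 b0 b1 : ℝ}
  {K : ℕ} {W : ℤ → ℤ × ℤ} {y x : ℤ → ℂ} {U : Set ℂ} {hS : GP (S : Set ℂ)} {hχ : HullC S χ}
  {H : Clo S V β χ h A B A' B' κ bb a0 a1 b0 b1 m m' τ (4 * K) W y x U}
  {o s : ℕ} {T : ℕ → ℕ} {g₀ : D0 S} {v : ℤ × ℤ}
  {σ : Cs hS → ZMod 2} {p : D0 S} {c : ℂ} {L d : ℝ}

/-- 277's `Geo` for another state of the loop -/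
theorem geo_mv (G : Geo H hS hχ σ p v c L d) (o : ℤ) (t : ℕ) :
    Geo H hS hχ σ (P (rc0 hS) (xc hS hχ) (pz hχ H o) t) v c L d :=
  ⟨G.D, G.Q, G.hW, G.hb, G.hin, G.col, ⟨o, t, rfl⟩⟩

/-- the sets of states of the marks -/
def Xm (S : Finset ℂ) (A B h : ℝ) (W : ℤ → ℤ × ℤ) (o : ℤ) (j : ℕ → ℕ) (k : ZMod 3) :
    Set (D0 S) := Lo.XR S A B h W o (j k.val)

/-- the data of the loop of `Clo` -/
def ldc (hS : GP (S : Set ℂ)) (hχ : HullC S χ)
    (H : Clo S V β χ h A B A' B' κ bb a0 a1 b0 b1 m m' τ (4 * K) W y x U) (o : ℕ) (T : ℕ → ℕ)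
    (g₀ : D0 S) (ms t a j : ℕ → ℕ) : Ld hS where
  q := pz hχ H (o : ℤ)
  g₀ := g₀
  N := T (4 * K)
  n := 4 * K
  T := T
  Reg := Rg hS (A + τ) (B + τ) h W (o : ℤ)
  m := ms
  t := t
  a := a
  b := fun k => a k + 3
  l := fun k => j k - 1
  u := j

/-- **the geometric fields of `LdOK`** -/
theorem ld_of (Q : Lo H hS hχ (o : ℤ) T g₀) {h3 : 3 ≤ S.card} {b : Finset ℂ}
    (G : Geo H hS hχ (chiS hS h3 b) p v c L d) {a j : ℕ → ℕ} (aN : ∀ k, a (k + 3) = a k + 4 * K)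
    (jN : ∀ k, j (k + 3) = j k + 4 * K) (bj : ∀ k, a k + 5 ≤ j k) (ja : ∀ k, j k + 1 ≤ a (k + 1))
    (E : Cor K o s (fun k => j k - 1) j) (he : 2 * d + (B + τ + h * s) < h * K / 2)
    {Gb : ZMod 3 → RevCx389.Rg (D0 S) (Cs hS)}
    (hG : ∀ k : ZMod 3, ∃ t, T (a k.val) ≤ t ∧ t ≤ T (a k.val + 3) ∧
      p0 (rc0 hS) (Gb k) (chiS hS h3 b) = P (rc0 hS) (xc hS hχ) (pz hχ H (o : ℤ)) t)
    (hD : ∀ k : ZMod 3, ∀ i, j k.val - 1 ≤ i → i < j (k.val + 1) →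
      ∀ e ∈ Rg hS (A + τ) (B + τ) h W (o : ℤ) i, e ∉ (Gb k).Ann ∧ e ∉ (Gb k).Dw) :
    ∃ ms t : ℕ → ℕ, LdG h3 Gb (Xm S (A + τ) (B + τ) h W (o : ℤ) j) b
      (ldc hS hχ H o T g₀ ms t a j) := by
  have hc : xb (hS := hS) h3 b = xc hS hχ := G.cfg_eq
  have hL := Q.L; have hR := Q.R; have hGT := Q.G; have hg := Q.g
  have Y := Q.xk jN
  have G0 := col1 (o := o) G
  rw [← hc] at hL hR hGT hg Y hG
  obtain ⟨ms, t, J, J3, -, hk⟩ := StartAx790.start (ck_rc (hS := hS) (h3 := h3)) hL hR aN bj ja Y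
    hG hD
  refine ⟨ms, t, J3, hL, G0, hR, hg, hGT, fun k => (hk k).1, fun k => (hk k).2.1,
    fun k => (hk k).2.2.1, fun k => (hk k).2.2.2.1, fun k => (hk k).2.2.2.2, ?_, ?_, ?_⟩
  · intro q' u hu hq
    have h1 := (geo_mv G (o : ℤ) (ms 0)).hull q' u hu hq
    rw [← hc] at h1
    exact h1
  · intro e he
    have h1 := (geo_mv G (o : ℤ) (ms 0)).far e he
    rw [← hc] at h1
    exact h1
  · have h1 := ctr3 Q (geo_mv G (o : ℤ) (ms 0)) J3 rfl E he 0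
    rw [← hc] at h1
    exact h1

/-- **the sites of the arcs of the representative are near the sides** -/
theorem ld_near (Q : Lo H hS hχ (o : ℤ) T g₀) {h3 : 3 ≤ S.card} {b : Finset ℂ}
    (G : Geo H hS hχ (chiS hS h3 b) p v c L d) {ms t a j : ℕ → ℕ}
    (J : S3 (T (4 * K)) (4 * K) T ms t a (fun k => a k + 3) (fun k => j k - 1) j)
    (E : Cor K o s (fun k => j k - 1) j) (i : ZMod 3) (z : ℂ)
    (hz : z ∈ st (Gc (rc0 hS) (xb (hS := hS) h3 b)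
      ((ldc hS hχ H o T g₀ ms t a j).dt h3 b).p ((ldc hS hχ H o T g₀ ms t a j).dt h3 b).N
      ((ldc hS hχ H o T g₀ ms t a j).dt h3 b).r) i) :
    z - (⟨h * v.1, h * v.2⟩ : ℂ) ∈ NearS K (A + τ) (B + τ) h s i := by
  have hc : xb (hS := hS) h3 b = xc hS hχ := G.cfg_eq
  unfold LdOx43.Ld.dt at hz
  simp only [hc] at hz
  exact st_near Q G.K1 G.hW J E i z hz

/-- **690's `Hl` for 828's mean end points** at every member of the class of the representative -/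
theorem ld_hl {h3 : 3 ≤ S.card} {Gb : ZMod 3 → RevCx389.Rg (D0 S) (Cs hS)}
    {X : ZMod 3 → Set (D0 S)} {Rf : Finset ℂ → Finset ℂ} {b b' : Finset ℂ} {l : Ld hS}
    (OK : LdOK h3 Gb X Rf b l) (e : b' ∩ Rf b = b ∩ Rf b) {dt : Finset ℂ → S1x828.Dt S}
    {Ev : Finset ℂ → Prop} (DD : S1x828.Dta hS dt Ev) (hb' : b' ⊆ S) (hE : Ev b')
    (hd : dt b' = l.dt h3 b) {K : ℕ} (hK : 1 ≤ K) {A B h jj : ℝ} (hh : 0 ≤ h) (hAB : A ≤ B)
    {w : ℂ} (hn : ∀ i, ∀ z ∈ st (Gc (rc0 hS) (xb (hS := hS) h3 b) (l.dt h3 b).p (l.dt h3 b).N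
      (l.dt h3 b).r) i, z - w ∈ NearS K A B h jj i) :
    KapAx690.Hl w (h * K) (2 * (B + h * jj)) (fun i : Fin 3 => S1x828.dZ hS dt b' i) := by
  refine hl_dz DD hb' hE hK hh hAB ?_
  intro i z hz
  rw [hd] at hz
  have h1 := gc2 (OK.tgs e) (OK.occ _) (N := l.N)
    (r := r3 (rc0 hS) (xb (hS := hS) h3 b) l.q l.N l.g₀ l.m l.t)
  unfold LdOx43.Ld.dt at hz hn
  simp only at hz hn
  rw [h1] at hz
  exact hn i z hz

end Crest.Agent.R143.LdDx715
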