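import Crest.Agent.R143.FactJ_432

/-!
# Row 143 (S0194), block H (helper432): the left cells of a loop do not depend on the base and the time

* `La M x p` : all the left cells of the walk
* `lf_all` : `Lf M x p n = La M x p` if `N` is a period and `N ≤ n + 1`
* `la_base` : `La M x (P M x p t) = La M x p`
* `lf_eq` : `Lf M x (P M x p t) n = Lf M x p N`
-/

set_option autoImplicit false

noncomputable section

open scoped Classical

namespace Crest.Agent.R143.LfEx432

open Crest.Agent.R143.Frame1x395 Crest.Agent.R143.Frame2x395 Crest.Agent.R143.Frame3x395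
  Crest.Agent.R143.Frame8x395 Crest.Agent.R143.NonXx592 Crest.Agent.R143.GiantEx197

variable {D C : Type} {M : CMap D C} {x : D → ZMod 2} {p q : D} {N n t : ℕ}

/-- all the left cells -/
def La (M : CMap D C) (x : D → ZMod 2) (p : D) : Set C := {c | ∃ j, M.cell (P M x p j) = c}

theorem P_mul (h : P M x p N = p) (t k : ℕ) : P M x p (t + k * N) = P M x p t := by
  induction k with
  | zero => rw [zero_mul, add_zero]
  | succ k ih =>
    rw [show t + (k + 1) * N = (t + k * N) + N by ring, P_per h, ih]

theorem lf_all (h : P M x p N = p) (hN : 0 < N) (hn : N ≤ n + 1) : Lf M x p n = La M x p := by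
  ext c
  constructor
  · rintro ⟨j, -, e⟩
    exact ⟨j, e⟩
  · rintro ⟨j, e⟩
    have h1 := Nat.mod_lt j hN
    refine ⟨j % N, by omega, ?_⟩
    have h2 := P_mul h (j % N) (j / N)
    rw [mul_comm, Nat.mod_add_div] at h2
    rw [← h2]
    exact e

theorem la_base (h : P M x p N = p) (hN : 0 < N) (t : ℕ) : La M x (P M x p t) = La M x p := by
  ext c
  constructor
  · rintro ⟨j, e⟩
    rw [← P_add] at e
    exact ⟨_, e⟩
  · rintro ⟨j, e⟩
    refine ⟨j + t * N - t, ?_⟩
    have h1 : t ≤ t * N := Nat.le_mul_of_pos_right t hN
    rw [← P_add, Nat.sub_add_cancel (by omega), P_mul h]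
    exact e

/-- **the left cells of a loop, any base, any time after one period** -/
theorem lf_eq (h : P M x p N = p) (hN : 0 < N) (hq : P M x p t = q) (hn : N ≤ n + 1) :
    Lf M x q n = Lf M x p N := by
  subst hq
  have h1 : P M x (P M x p t) N = P M x p t := by
    rw [← P_add, Nat.add_comm, P_per h]
  rw [lf_all h1 hN hn, la_base h hN, lf_all h hN (Nat.le_succ N)]

/-- the period is at most the number of the darts -/
theorem per_le [Fintype D] (Lp : Chordx355.Lp M x p N) : N ≤ Fintype.card D := by
  have h : Function.Injective fun i : Fin N => P M x p i.1 := by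
    intro i j hij
    rcases lt_trichotomy i.1 j.1 with h | h | h
    · exact absurd hij (Lp.inj _ _ h j.2)
    · exact Fin.ext h
    · exact absurd hij.symm (Lp.inj _ _ h i.2)
  have := Fintype.card_le_of_injective _ h
  rwa [Fintype.card_fin] at this

end Crest.Agent.R143.LfEx432
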