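import Crest.Agent.R143.Spine3_422
import Crest.Agent.R143.Spine5_422

/-!
# Row 143 (S0194), SPINE 7: the weak spine with the dichotomy (helper422)

* `LMinW` : leaf: pairwise minimum of the weak `∂̄` and the weak `∂` of the annealed observable
* `lminW_of_hol`, `lminW_of_test`, `lminW_of_dich` : sufficient conditions
* `finalW`, `body_minW`
-/

set_option autoImplicit false

noncomputable section

namespace Crest.Agent.R143.Spinex422

open Complex Set Filter Topology MeasureTheory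
open Crest.ProbabilityR.Voronoi
open Crest.Agent.R143.B0x346 Crest.Agent.R143.B0Dx346 Crest.Agent.R143.PP1x831
open Crest.Agent.R143.BC0x336 Crest.Agent.R143.EndAx336 Crest.Agent.R143.EndBx336
open Crest.Agent.R143.Mollx887

/-! ### the end theorem -/

section ptw

variable {ι : Type} {D : Set ℂ}

/-- hypotheses of the end theorem, weak dichotomy -/
structure EndW2 (D : Set ℂ) (φ : ℂ → ℂ) (d b : ℂ) (l : Filter ι) (H : ι → ℂ → ℂ) (c : ι → ℝ) :
    Prop where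
  bd : ∃ M : ℝ, ∀ i, ∀ z, ‖H i z‖ ≤ M
  ms : ∀ᶠ i in l, AEStronglyMeasurable (H i) volume
  equi : AEqui D l H
  /-- weakly holomorphic or antiholomorphic -/
  wk : ∀ z ∈ D, ∀ r > 0, Metric.closedBall z (4 * r) ⊆ D →
    ∀ z' ∈ D, ∀ r' > 0, Metric.closedBall z' (4 * r') ⊆ D →
    Tendsto (fun i => min ‖Sb r (H i) z‖ ‖Sb r' (cj (H i)) z'‖) l (𝓝 0)
  b1 : ∀ p ∈ frontier D, p ≠ d → (φ p).im = 0 → 0 < (φ p).re → (φ p).re < 1 →
    ALBP D l H 1 (tau3 - 1) p
  b2 : ∀ p ∈ frontier D, p ≠ d → (φ p).im = 0 → 1 < (φ p).re →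
    ALBP D l H tau3 (tau3 ^ 2 - tau3) p
  b3 : ∀ p ∈ frontier D, p ≠ d → (φ p).im = 0 → (φ p).re < 0 →
    ALBP D l H (tau3 ^ 2) (1 - tau3 ^ 2) p
  val : ∀ η > 0, ∃ δ > 0, ∀ z ∈ D, dist z b < δ → ∀ᶠ i in l,
    dist (H i z) (1 + (c i : ℂ) * (tau3 - 1)) ≤ η

theorem EndW2.mono {φ : ℂ → ℂ} {d b : ℂ} {l l' : Filter ι} {H : ι → ℂ → ℂ} {c : ι → ℝ}
    (h : EndW2 D φ d b l H c) (hl : l' ≤ l) : EndW2 D φ d b l' H c where
  bd := h.bd
  ms := hl h.ms
  equi := h.equi.mono hl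
  wk z hz r hr hb z' hz' r' hr' hb' := (h.wk z hz r hr hb z' hz' r' hr' hb').mono_left hl
  b1 p hp h1 h2 h3 h4 := (h.b1 p hp h1 h2 h3 h4).mono hl
  b2 p hp h1 h2 h3 := (h.b2 p hp h1 h2 h3).mono hl
  b3 p hp h1 h2 h3 := (h.b3 p hp h1 h2 h3).mono hl
  val η hη := by
    obtain ⟨δ, hδ, h1⟩ := h.val η hη
    exact ⟨δ, hδ, fun z hz hzb => hl (h1 z hz hzb)⟩

/-- along an ultrafilter, one of the two factors of a vanishing minimum vanishes -/
theorem alt_min {U : Ultrafilter ι} {a b : ι → ℝ} (h : Tendsto (fun i => min (a i) (b i)) U (𝓝 0)) :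
    Tendsto a U (𝓝 0) ∨ Tendsto b U (𝓝 0) := by
  rcases U.em (fun i => a i ≤ b i) with h1 | h1
  · left
    refine h.congr' ?_
    filter_upwards [h1] with i hi
    exact min_eq_left hi
  · right
    refine h.congr' ?_
    filter_upwards [h1] with i hi
    exact min_eq_right (not_le.1 hi).le

/-- along an ultrafilter the dichotomy gives one of the two alternatives of `EndW` -/
theorem EndW2.toW {φ : ℂ → ℂ} {d b : ℂ} {U : Ultrafilter ι} {H : ι → ℂ → ℂ} {c : ι → ℝ}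
    (h : EndW2 D φ d b U H c) : EndW D φ d b U H c where
  bd := h.bd
  ms := h.ms
  equi := h.equi
  wk := by
    by_cases h1 : ∀ z ∈ D, ∀ r > 0, Metric.closedBall z (4 * r) ⊆ D →
        Tendsto (fun i => Sb r (H i) z) U (𝓝 0)
    · exact ⟨fun _ => false, h1⟩
    · push Not at h1
      obtain ⟨z, hz, r, hr, hb, hn⟩ := h1
      refine ⟨fun _ => true, fun z' hz' r' hr' hb' => ?_⟩
      rcases alt_min (h.wk z hz r hr hb z' hz' r' hr' hb') with h2 | h2
      · exact absurd (tendsto_zero_iff_norm_tendsto_zero.2 h2) hn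
      · exact tendsto_zero_iff_norm_tendsto_zero.2 h2
  b1 := h.b1
  b2 := h.b2
  b3 := h.b3
  val := h.val

/-- **end theorem**, weak dichotomy -/
theorem end_coreW2 (hD : IsOpen D) {φ : ℂ → ℂ} {d b : ℂ} (hid : Ident D φ d)
    (hb : b ∈ frontier D) (hbd : b ≠ d) {x : ℝ} (hx0 : 0 < x) (hx1 : x < 1) (hφb : φ b = x)
    {l : Filter ι} {H : ι → ℂ → ℂ} {c : ι → ℝ} (h : EndW2 D φ d b l H c) :
    Tendsto c l (𝓝 (crossingFormula x)) := by
  rw [tendsto_iff_ultrafilter]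
  intro U hU
  exact end_coreW hD hid hb hbd hx0 hx1 hφb (h.mono hU).toW

end ptw

/-- **top of the assembly**, weak dichotomy -/
theorem topW2 (S : Dat) {b : ℂ} (hb : b ∈ frontier S.D) (hbd : b ≠ S.d) (hφb : S.φ b = S.x)
    {H H' : ℕ × ℝ → ℂ → ℂ} {c c' : ℕ × ℝ → ℝ}
    (h : EndW2 S.D S.φ S.d b lc H c) (h' : EndW2 S.D S.φ S.d b lc H' c')
    (hle : ∀ η > 0, ∀ᶠ i in lc, c i - η ≤ S.P i.2)
    (hle' : ∀ η > 0, ∀ᶠ i in lc, S.P i.2 ≤ c' i + η) :
    Tendsto (fun ε : ℝ => sampleLaw (crossingEvent ε S.D S.A1 S.A2)) (𝓝[>] 0)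
      (𝓝 (ENNReal.ofReal (crossingFormula S.x))) := by
  have hid : Ident S.D S.φ S.d :=
    IdentDx439.bc5 S.D S.hD S.hDb S.hDc S.φ S.hφ S.hφi S.hφD S.d S.hd S.hφc S.hφd
  have h1 := end_coreW2 S.hD hid hb hbd S.hx0 S.hx1 hφb h
  have h2 := end_coreW2 S.hD hid hb hbd S.hx0 S.hx1 hφb h'
  have h3 : Tendsto S.P (𝓝[>] 0) (𝓝 (crossingFormula S.x)) := by
    rw [Metric.tendsto_nhds]
    intro η hη
    have h4 : ∀ᶠ i in lc, dist (S.P i.2) (crossingFormula S.x) < η := by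
      filter_upwards [Metric.tendsto_nhds.1 h1 (η / 2) (by linarith),
        Metric.tendsto_nhds.1 h2 (η / 2) (by linarith), hle (η / 2) (by linarith),
        hle' (η / 2) (by linarith)] with i e1 e2 e3 e4
      rw [Real.dist_eq, abs_lt] at e1 e2 ⊢
      constructor <;> linarith [e1.1, e1.2, e2.1, e2.2]
    rw [ev_lc] at h4
    exact h4.exists.choose_spec
  have h4 := ENNReal.tendsto_ofReal h3
  refine h4.congr fun ε => ?_
  exact ENNReal.ofReal_toReal (measure_ne_top _ _)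

/-! ### the leaf -/

/-- **leaf MINW** (no part A): the annealed observable is asymptotically weakly holomorphic or weakly
antiholomorphic, pairwise form at fixed points and scales -/
def LMinW (Adm : Dom → ℝ → Prop) : Prop := ∀ (D : Dom) (δ : ℝ), Adm D δ →
  ∀ G : ℝ → Set Sample, GoodFam D G → ∀ m > 0,
  ∀ r > 0, ∀ z : ℂ, Room D (4 * r) z → Linked D m z →
  ∀ r' > 0, ∀ z' : ℂ, Room D (4 * r') z' → Linked D m z' →
    Tendsto (fun ε : ℝ => min ‖Sb r (HG D G ε) z‖ ‖Sb r' (cj (HG D G ε)) z'‖) (𝓝[>] 0) (𝓝 0)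

/-- the four leaves, weak dichotomy -/
structure LeavesW (Adm : Dom → ℝ → Prop) : Prop where
  good : LGood Adm
  equi : LEqui Adm
  mn : LMinW Adm
  dom : LDom Adm

theorem cj_tr (w : ℂ) : (starRingEnd ℂ) (tr true w) = (starRingEnd ℂ) om * w := by
  simp [tr]

theorem endW2_of {Adm : Dom → ℝ → Prop} (hE : LEqui Adm) (hM : LMinW Adm) (hG : LGood Adm)
    (S : Dat) (b : ℂ) {rv : ℕ → Bool} {Dm : ℕ → Dom} {δ m : ℕ → ℝ}
    (hOK : ∀ n, Adm (Dm n) (δ n)) (hR : RoomOK S.D Dm m) {P : (ℕ × ℝ → ℝ) → Prop}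
    (h : ∀ G : ℕ → ℝ → Set Sample, (∀ n, GoodFam (Dm n) (G n)) →
      ∃ c : ℕ × ℝ → ℝ, Bdry S b (Hs rv Dm G) c ∧ P c) :
    ∃ (H : ℕ × ℝ → ℂ → ℂ) (c : ℕ × ℝ → ℝ), EndW2 S.D S.φ S.d b lc H c ∧ P c := by
  choose G hGf using fun n => hG (Dm n) (δ n) (hOK n)
  obtain ⟨c, hc, hP⟩ := h G hGf
  obtain ⟨hm0, hR⟩ := hR
  have hbm : ∀ n, ∀ᶠ ε in 𝓝[>] (0 : ℝ), BM (HG (Dm n) (G n) ε) 3 := by
    intro n
    filter_upwards [(hGf n).hm2] with ε hε
    exact bm_HG hε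
  refine ⟨Hs rv Dm G, c, ?_, hP⟩
  refine ⟨⟨3, fun i z => ?_⟩, ?_, ?_, ?_, hc.b1, hc.b2, hc.b3, hc.val⟩
  · rw [Hs, norm_tr]; exact norm_HG_le _ _ _ _
  · rw [ev_lc]
    refine Eventually.of_forall fun n => ?_
    filter_upwards [hbm n] with ε hε
    exact (tr_cont (rv n)).comp_aestronglyMeasurable hε.meas
  · -- equicontinuity
    intro K hK hKD η hη
    obtain ⟨ρ, hρ0, hρ1⟩ := hR K hK hKD
    obtain ⟨s, hs, h1⟩ := hE ρ hρ0 η hη
    refine ⟨s, hs, ?_⟩
    rw [ev_lc]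
    filter_upwards [hρ1] with n hn
    filter_upwards [h1 (Dm n) (δ n) (hOK n) (G n) (hGf n) (m n) (hm0 n)] with ε hε z hz w hw hzw
    rw [Hs, Hs, tr_dist]
    exact hε z w (hn z hz).1 (hn w hw).1 (hn z hz).2 (hn w hw).2 hzw
  · -- weak dichotomy
    intro z hz r hr hb z' hz' r' hr' hb'
    refine tendsto_lc ?_
    obtain ⟨ρ, hρ0, hρ1⟩ := hR _ (isCompact_closedBall z (4 * r)) hb
    obtain ⟨ρ', hρ0', hρ1'⟩ := hR _ (isCompact_closedBall z' (4 * r')) hb'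
    filter_upwards [hρ1, hρ1'] with n hn hn'
    have hz4 : z ∈ Metric.closedBall z (4 * r) := Metric.mem_closedBall_self (by linarith)
    have hz4' : z' ∈ Metric.closedBall z' (4 * r') := Metric.mem_closedBall_self (by linarith)
    have r1 : Room (Dm n) (4 * r) z := room_of_ball (by linarith) hρ0 fun y hy => (hn y hy).1
    have r2 : Room (Dm n) (4 * r') z' := room_of_ball (by linarith) hρ0' fun y hy => (hn' y hy).1
    have nom : ‖(starRingEnd ℂ) om‖ = 1 := by rw [Complex.norm_conj, norm_om]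
    cases hrv : rv n
    · have e1 : ∀ ε : ℝ, Hs rv Dm G (n, ε) = HG (Dm n) (G n) ε := by
        intro ε
        funext w
        rw [Hs]
        simp only [hrv]
        rfl
      simp only [e1]
      exact hM (Dm n) (δ n) (hOK n) (G n) (hGf n) (m n) (hm0 n) r hr z r1 (hn z hz4).2 r' hr' z' r2
        (hn' z' hz4').2
    · have e1 : ∀ ε : ℝ, ‖Sb r (Hs rv Dm G (n, ε)) z‖ = ‖Sb r (cj (HG (Dm n) (G n) ε)) z‖ := by
        intro ε
        have e2 : Hs rv Dm G (n, ε) = fun w => om * cj (HG (Dm n) (G n) ε) w := by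
          funext w
          rw [Hs]
          simp only [hrv]
          rfl
        rw [e2, Sb_mul, norm_mul, norm_om, one_mul]
      have e3 : ∀ ε : ℝ, ‖Sb r' (cj (Hs rv Dm G (n, ε))) z'‖ = ‖Sb r' (HG (Dm n) (G n) ε) z'‖ := by
        intro ε
        have e2 : cj (Hs rv Dm G (n, ε)) =
            fun w => (starRingEnd ℂ) om * HG (Dm n) (G n) ε w := by
          funext w
          show (starRingEnd ℂ) (Hs rv Dm G (n, ε) w) = _
          rw [Hs]
          simp only [hrv]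
          exact cj_tr _
        rw [e2, Sb_mul, norm_mul, nom, one_mul]
      simp only [e1, e3]
      have h5 := hM (Dm n) (δ n) (hOK n) (G n) (hGf n) (m n) (hm0 n) r' hr' z' r2
        (hn' z' hz4').2 r hr z r1 (hn z hz4).2
      refine h5.congr fun ε => ?_
      exact min_comm _ _

/-- **the spine, weak dichotomy** -/
theorem finalW {Adm : Dom → ℝ → Prop} (L : LeavesW Adm) : Body := by
  intro S
  obtain ⟨b, hb, hbd, hφb⟩ := S.exists_b
  obtain ⟨v1, D1, d1, m1, ok1, r1, e1⟩ := L.dom S b hb hbd hφb false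
  obtain ⟨v2, D2, d2, m2, ok2, r2, e2⟩ := L.dom S b hb hbd hφb true
  obtain ⟨H, c, h, hc⟩ := endW2_of L.equi L.mn L.good S b ok1 r1 e1
  obtain ⟨H', c', h', hc'⟩ := endW2_of L.equi L.mn L.good S b ok2 r2 e2
  exact topW2 S hb hbd hφb h h' (fun η hη => by simpa using hc η hη)
    (fun η hη => by simpa using hc' η hη)

/-- **the whole row** modulo LEqui, LALB, VAL (RSW) and LMinW (core) -/
theorem body_minW (he : LEqui Dom.Ad) (ha : LALB Dom.Ad) (hV : Cfgx416.VAL) (hh : LMinW Dom.Ad) :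
    Body :=
  finalW (Adm := Dom.Ad) ⟨lgood_ad, he, hh,
    dom_of ha (GeoSeqx416.ldom geo Cara4x723.cara hV D4Lx408.d4lo D4Ux408.d4up D4Lx606.d4col
      Crs6x117.p2b DomEx722.d2)⟩

/-! ### sufficient conditions -/

theorem lminW_of_hol {Adm : Dom → ℝ → Prop} (h : LHol Adm) : LMinW Adm := by
  intro D δ hD G hG m hm r hr z hz hl r' hr' z' hz' hl'
  have h1 := (h D δ hD G hG m hm r hr z hz hl).norm
  rw [norm_zero] at h1
  exact squeeze_zero (fun ε => le_min (norm_nonneg _) (norm_nonneg _)) (fun ε => min_le_left _ _) h1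

/-- the test function of `Sb` -/
def tst (r : ℝ) (z : ℂ) (w : ℂ) : ℝ := ker r (w - z)

theorem tst_contDiff (r : ℝ) (z : ℂ) {n : ℕ∞} : ContDiff ℝ n (tst r z) :=
  (ker_contDiff r).comp (contDiff_id.sub contDiff_const)

theorem tst_supp {r : ℝ} (hr : 0 < r) (z : ℂ) : tsupport (tst r z) ⊆ Metric.closedBall z r := by
  refine closure_minimal ?_ Metric.isClosed_closedBall
  intro w hw
  rw [Function.mem_support] at hw
  rw [mem_closedBall_iff_norm]
  by_contra hcon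
  push Not at hcon
  exact hw (ker_zero hr hcon.le)

theorem tst_compact {r : ℝ} (hr : 0 < r) (z : ℂ) : HasCompactSupport (tst r z) :=
  (isCompact_closedBall z r).of_isClosed_subset (isClosed_tsupport _) (tst_supp hr z)

theorem fderiv_tst (r : ℝ) (z w v : ℂ) :
    fderiv ℝ (fun w => (tst r z w : ℂ)) w v = ((fderiv ℝ (ker r) (w - z) v : ℝ) : ℂ) := by
  have h1 : HasFDerivAt (ker r) (fderiv ℝ (ker r) (w - z)) (w - z) :=
    ((ker_contDiff r (n := 1)).differentiable (by norm_num)).differentiableAt.hasFDerivAt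
  have h2 : HasFDerivAt (fun w : ℂ => w - z) (ContinuousLinearMap.id ℝ ℂ) w :=
    (hasFDerivAt_id w).sub_const z
  have h3 := h1.comp w h2
  have h4 : HasFDerivAt (fun w => (tst r z w : ℂ))
      (Complex.ofRealCLM.comp ((fderiv ℝ (ker r) (w - z)).comp (ContinuousLinearMap.id ℝ ℂ))) w :=
    Complex.ofRealCLM.hasFDerivAt.comp w h3
  rw [h4.fderiv]
  rfl

theorem dbar_tst (r : ℝ) (z w : ℂ) : dbar (fun w => (tst r z w : ℂ)) w = -kb r (w - z) := by
  unfold dbar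
  rw [fderiv_tst, fderiv_tst, ker_fderiv, ker_fderiv, kb]
  simp only [Complex.one_re, Complex.one_im, Complex.I_re, Complex.I_im]
  set u := w - z with hu
  have hz : u = (u.re : ℂ) + (u.im : ℂ) * I := (Complex.re_add_im u).symm
  conv_rhs => rw [hz]
  push_cast
  have hn : ‖(u.re : ℂ) + (u.im : ℂ) * I‖ = ‖u‖ := by rw [← hz]
  rw [hn]
  ring

theorem del_tst (r : ℝ) (z w : ℂ) :
    del (fun w => (tst r z w : ℂ)) w = -(starRingEnd ℂ) (kb r (w - z)) := by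
  unfold del
  rw [fderiv_tst, fderiv_tst, ker_fderiv, ker_fderiv, kb]
  simp only [Complex.one_re, Complex.one_im, Complex.I_re, Complex.I_im]
  set u := w - z with hu
  have hz : u = (u.re : ℂ) + (u.im : ℂ) * I := (Complex.re_add_im u).symm
  rw [map_mul, Complex.conj_ofReal]
  have hc : (starRingEnd ℂ) u = (u.re : ℂ) - (u.im : ℂ) * I := by
    apply Complex.ext <;> simp
  rw [hc]
  push_cast
  ring

/-- `Sb` as an integral against the test function -/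
theorem Sb_tst (r : ℝ) (h : ℂ → ℂ) (z : ℂ) :
    Sb r h z = -∫ w, h w * dbar (fun w => (tst r z w : ℂ)) w := by
  unfold Sb
  have h1 := integral_add_left_eq_self (μ := (volume : Measure ℂ)) (fun t => kb r (t - z) * h t) z
  simp_rw [add_sub_cancel_left] at h1
  rw [h1, ← integral_neg]
  refine integral_congr_ae (ae_of_all _ fun t => ?_)
  simp only
  rw [dbar_tst]
  ring

theorem Sb_cj_tst (r : ℝ) (h : ℂ → ℂ) (z : ℂ) :
    Sb r (cj h) z = -(starRingEnd ℂ) (∫ w, h w * del (fun w => (tst r z w : ℂ)) w) := by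
  rw [Sb_tst, ← integral_conj]
  congr 1
  refine integral_congr_ae (ae_of_all _ fun t => ?_)
  simp only
  rw [dbar_tst, del_tst, map_mul, map_neg, Complex.conj_conj]
  rfl

/-- the pairwise condition with general test functions gives the leaf -/
theorem lminW_of_test {Adm : Dom → ℝ → Prop} (h : ∀ (D : Dom) (δ : ℝ), Adm D δ →
    ∀ G : ℝ → Set Sample, GoodFam D G → ∀ m > 0, ∀ ρ > 0, ∀ φ ψ : ℂ → ℝ,
    (∀ n : ℕ∞, ContDiff ℝ n φ) → HasCompactSupport φ → (∀ z, 0 ≤ φ z) →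
    (∀ n : ℕ∞, ContDiff ℝ n ψ) → HasCompactSupport ψ → (∀ z, 0 ≤ ψ z) →
    (∀ z ∈ tsupport φ, Room D ρ z ∧ Linked D m z) → (∀ z ∈ tsupport ψ, Room D ρ z ∧ Linked D m z) →
    Tendsto (fun ε : ℝ => min ‖∫ z, HG D G ε z * dbar (fun w => (φ w : ℂ)) z‖
      ‖∫ z, HG D G ε z * del (fun w => (ψ w : ℂ)) z‖) (𝓝[>] 0) (𝓝 0)) : LMinW Adm := by
  intro D δ hD G hG m hm r hr z hz hl r' hr' z' hz' hl'
  set ρ := min r r' with hρ
  have hρ0 : 0 < ρ := lt_min hr hr'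
  set m' := min m ρ with hm'
  have hm0 : 0 < m' := lt_min hm hρ0
  have key : ∀ (r z), 0 < r → Room D (4 * r) z → Linked D m z → ρ ≤ r → ∀ w ∈ tsupport (tst r z),
      Room D ρ w ∧ Linked D m' w := by
    intro r z hr hz hl hρr w hw
    have h1 := tst_supp hr z hw
    rw [Metric.mem_closedBall] at h1
    refine ⟨hz.mono (by linarith), (hl.mono (min_le_left _ _)).move hz hm0 ?_⟩
    have := min_le_right m ρ
    linarith
  have h1 := h D δ hD G hG m' hm0 ρ hρ0 (tst r z) (tst r' z') (fun n => tst_contDiff r z)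
    (tst_compact hr z) (fun w => ker_nonneg r _) (fun n => tst_contDiff r' z') (tst_compact hr' z')
    (fun w => ker_nonneg r' _) (key r z hr hz hl (min_le_left _ _))
    (key r' z' hr' hz' hl' (min_le_right _ _))
  refine h1.congr fun ε => ?_
  rw [Sb_tst, Sb_cj_tst, norm_neg, norm_neg, Complex.norm_conj]

/-- 831's form of the dichotomy -/
theorem lminW_of_dich {Adm : Dom → ℝ → Prop} (h : ∀ (D : Dom) (δ : ℝ), Adm D δ →
    ∀ G : ℝ → Set Sample, GoodFam D G → ∃ κ : ℝ → ℂ, ∀ m > 0, ∀ ρ > 0, ∀ φ : ℂ → ℝ,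
    (∀ n : ℕ∞, ContDiff ℝ n φ) → HasCompactSupport φ → (∀ z, 0 ≤ φ z) →
    (∀ z ∈ tsupport φ, Room D ρ z ∧ Linked D m z) →
    Tendsto (fun ε : ℝ => (κ ε + Real.sqrt 3 / 2) *
      ∫ z, HG D G ε z * dbar (fun w => (φ w : ℂ)) z) (𝓝[>] 0) (𝓝 0) ∧
    Tendsto (fun ε : ℝ => (κ ε - Real.sqrt 3 / 2) *
      ∫ z, HG D G ε z * del (fun w => (φ w : ℂ)) z) (𝓝[>] 0) (𝓝 0)) : LMinW Adm := by
  apply lminW_of_test
  intro D δ hD G hG m hm ρ hρ φ ψ h1 h2 h2' h3 h4 h4' h5 h6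
  obtain ⟨κ, hκ⟩ := h D δ hD G hG
  have a1 := (hκ m hm ρ hρ φ h1 h2 h2' h5).1.norm
  have a2 := (hκ m hm ρ hρ ψ h3 h4 h4' h6).2.norm
  rw [norm_zero] at a1 a2
  have a3 := (a1.add a2).const_mul 2
  rw [add_zero, mul_zero] at a3
  refine squeeze_zero (fun ε => le_min (norm_nonneg _) (norm_nonneg _)) (fun ε => ?_) a3
  rw [norm_mul, norm_mul]
  set A := ‖∫ z, HG D G ε z * dbar (fun w => (φ w : ℂ)) z‖
  set B := ‖∫ z, HG D G ε z * del (fun w => (ψ w : ℂ)) z‖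
  have hs : (3 : ℝ) / 2 ≤ Real.sqrt 3 := by
    rw [Real.le_sqrt' (by norm_num)]
    norm_num
  have h7 : Real.sqrt 3 ≤ ‖κ ε + Real.sqrt 3 / 2‖ + ‖κ ε - Real.sqrt 3 / 2‖ := by
    have h8 := norm_sub_le (κ ε + Real.sqrt 3 / 2) (κ ε - Real.sqrt 3 / 2)
    have h9 : (κ ε + Real.sqrt 3 / 2) - (κ ε - Real.sqrt 3 / 2) = ((Real.sqrt 3 : ℝ) : ℂ) := by
      ring
    rw [h9, Complex.norm_real, Real.norm_of_nonneg (Real.sqrt_nonneg _)] at h8
    exact h8
  have hA : 0 ≤ A := norm_nonneg _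
  have hB : 0 ≤ B := norm_nonneg _
  have n1 : 0 ≤ ‖κ ε + Real.sqrt 3 / 2‖ := norm_nonneg _
  have n2 : 0 ≤ ‖κ ε - Real.sqrt 3 / 2‖ := norm_nonneg _
  rcases le_total (3 / 4) ‖κ ε + Real.sqrt 3 / 2‖ with h8 | h8
  · refine (min_le_left _ _).trans ?_
    nlinarith [mul_nonneg n2 hB]
  · refine (min_le_right _ _).trans ?_
    have h9 : 3 / 4 ≤ ‖κ ε - Real.sqrt 3 / 2‖ := by linarith
    nlinarith [mul_nonneg n1 hA]

end Crest.Agent.R143.Spinex422
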