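import Crest.Agent.R143.ValE_422
import Crest.Agent.R143.D3J_802
import Crest.Agent.R143.D3I_802
import Crest.Agent.R143.D3M_802

/-!
# Row 143 (S0194), block D3: leaf VAL without (E3) (helper422)

* `val_of` : BDE → INTF → MONO → `Cfgx416.VAL`
* `valE` : BDE → `Cfgx416.VAL`
-/

set_option autoImplicit false

noncomputable section

open scoped Classical ENNReal

namespace Crest.Agent.R143.ValFx422

open Set MeasureTheory Filter Topology
open Crest.ProbabilityR.Voronoi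
open Crest.Agent.R143.B0x346 Crest.Agent.R143.B0Dx346 Crest.Agent.R143.Oscx63
open Crest.Agent.R143.DelGx806 Crest.Agent.R143.Circx63 Crest.Agent.R143.Scalx63
open Crest.Agent.R143.EQ2x63 Crest.Agent.R143.Locx922 Crest.Agent.R143.Cfgx416
open Crest.Agent.R143.Ex0x922 Crest.Agent.R143.Wlkx802 Crest.Agent.R143.D3Ax802
open Crest.Agent.R143.Sidesx697 Crest.Agent.R143.G6Wx723 Crest.Agent.R143.PP1x831
open Crest.Agent.R143.D3Bx802 Crest.Agent.R143.D3Cx802 Crest.Agent.R143.EQ5x63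
open Crest.Agent.R143.Spinex422 Crest.Agent.R143.D3Vx802 Crest.Agent.R143.ValEx422
open Crest.Agent.R143.VALx422 (dom0)
open Crest.Agent.R143.D3Jx802 (BDE BDEat)

/-- **leaf VAL of block D, from the boundary estimate only** -/
theorem val_of (hB : BDE) (hI : INTF) (hMo : MONO) : Cfgx416.VAL := by
  intro η hη
  obtain ⟨N, c1, hN, hc1, hbd⟩ := hB (η / 12) (by linarith)
  refine ⟨(2 : ℝ) ^ (N + 2), one_lt_pow₀ (by norm_num) (by omega), ?_⟩
  intro C δ hC b R0 s κ Q TB hs hR1 hΛ hκ hball hdis hQ hTB hcone hR z P hz hP hzP hPs hPb hPq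
    hPk hL
  have hΛ0 : (0 : ℝ) < (2 : ℝ) ^ (N + 2) := by positivity
  have hR0 : 0 < R0 := lt_of_lt_of_le (mul_pos hΛ0 hs) hΛ
  obtain ⟨k0, hk0⟩ := exists_mem_Ico_zpow (x := R0 / 2) (y := (2 : ℝ)) (by linarith) (by norm_num)
  rw [mem_Ico] at hk0
  have hk1 : (2 : ℝ) ^ (k0 + 1) ≤ 1 := by
    rw [zpow_add₀ (by norm_num), zpow_one]
    linarith [hk0.1]
  have hk2 : (2 : ℝ) ^ k0 < R0 := by linarith [hk0.1]
  have hsk : s < (2 : ℝ) ^ (k0 - N) := by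
    have h1 : (2 : ℝ) ^ (k0 + 1) = (2 : ℝ) ^ (k0 - N) * (2 : ℝ) ^ (N + 1) := by
      rw [← zpow_natCast, ← zpow_add₀ (by norm_num)]
      congr 1
      push_cast
      ring
    have h2 : (2 : ℝ) ^ (N + 2) = 2 * (2 : ℝ) ^ (N + 1) := by ring
    have h3 : (0 : ℝ) < (2 : ℝ) ^ (N + 1) := by positivity
    have h4 : (2 : ℝ) ^ (N + 1) * s < (2 : ℝ) ^ (N + 1) * (2 : ℝ) ^ (k0 - N) := by
      rw [h2] at hΛ
      have h5 := hk0.2
      rw [h1] at h5
      linarith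
    exact lt_of_mul_lt_mul_left h4 h3.le
  have hbpos : 0 < (2 : ℝ) ^ (k0 - N) := by positivity
  have hle : (2 : ℝ) ^ (k0 - N) ≤ (2 : ℝ) ^ k0 := zpow_le_zpow_right₀ (by norm_num) (by omega)
  obtain ⟨c2', hc2', hq⟩ := quenchedVE hI hMo hC hs hκ hball hdis hQ hTB hcone hz hP hzP hPs
    hPb hPq hPk hL (r0 := (2 : ℝ) ^ (k0 - N)) hsk (by linarith)
  set c2 := min c2' (min (c1 * (2 : ℝ) ^ (k0 - N))
    (min ((R0 - (2 : ℝ) ^ k0) / 4) (((2 : ℝ) ^ (k0 - N) - s) / 5))) with hc2d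
  have hc2 : 0 < c2 := by
    rw [hc2d]
    exact lt_min hc2' (lt_min (by positivity) (lt_min (by linarith) (by linarith)))
  set R := ‖C.dom.c‖ + C.dom.L + 1 with hRdef
  obtain ⟨C0, hC0, hhole⟩ := PoisM3cx501.m3c R 1
  have hrad := rad_lim C0
  have e1 : ∀ᶠ ε : ℝ in 𝓝[>] 0, 0 < ε := eventually_mem_nhdsWithin
  have e2 : ∀ᶠ ε : ℝ in 𝓝[>] 0, ε < min (1 / 2) (η / 2) :=
    nhdsWithin_le_nhds (eventually_lt_nhds (by positivity))
  have e3 : ∀ᶠ ε : ℝ in 𝓝[>] 0, rad C0 ε < c2 := hrad.eventually_lt_const hc2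
  have e4 : ∀ᶠ ε : ℝ in 𝓝[>] 0, ε * Real.log (1 / ε) ^ (8 : ℕ) < (2 : ℝ) ^ (k0 - N) :=
    scale_lim.eventually_lt_const (by positivity)
  filter_upwards [e1, e2, e3, e4, hhole, m4u R 1] with ε h1 h2 h3 h4 h5 h6
  have hε1 : ε < 1 / 2 := h2.trans_le (min_le_left _ _)
  have hε2 : ε < η / 2 := h2.trans_le (min_le_right _ _)
  have hdpos : 0 < rad C0 ε := by
    unfold rad
    have : 0 < Real.log (1 / ε) := Real.log_pos (by
      rw [lt_div_iff₀ h1]; linarith)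
    positivity
  -- the bad event
  set B1 : Set Sample := {ω | ∃ z ∈ Metric.closedBall (0 : ℂ) R,
    points ε ω ∩ Metric.ball z (rad C0 ε) = ∅} with hB1
  set B2 : Set Sample := {ω | ¬ ∀ z ∈ Metric.closedBall (0 : ℂ) R, ∀ ρ : ℝ,
      ε * Real.log (1 / ε) ^ (8 : ℕ) ≤ ρ → ρ ≤ 1 →
      diamSum (points ε ω) (Metric.ball z ρ) ≤ ENNReal.ofReal (CM * ρ ^ 2)} with hB2
  obtain ⟨Z, hZ0, hZ⟩ : ∃ Z : Set Sample, sampleLaw Z = 0 ∧ ∀ ω ∉ Z,
      (GP (points ε ω) ∧ ∀ r : ℝ, (points ε ω ∩ Metric.closedBall 0 r).Finite) ∧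
      ∀ a ∈ points ε ω, ∀ b ∈ points ε ω, a ≠ b → cr (b - a) (z - a) ≠ 0 := by
    have hae : ∀ᵐ ω ∂sampleLaw,
        (GP (points ε ω) ∧ ∀ r : ℝ, (points ε ω ∩ Metric.closedBall 0 r).Finite) ∧
        ∀ a ∈ points ε ω, ∀ b ∈ points ε ω, a ≠ b → cr (b - a) (z - a) ≠ 0 := by
      filter_upwards [PoisM3x930.m3a ε h1, M3ex63.m3e ε h1 z] with ω g1 g2
      exact ⟨⟨g1.1, g1.2.2⟩, g2⟩
    refine ⟨_, mem_ae_iff.1 hae, fun ω hω => ?_⟩
    by_contra hcon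
    exact hω hcon
  refine ⟨B1 ∪ B2 ∪ Z, ?_, ?_⟩
  · refine (measure_union_le _ _).trans ?_
    rw [hZ0, add_zero]
    refine (measure_union_le _ _).trans ?_
    rw [Real.rpow_one] at h5 h6
    refine (add_le_add h5 h6).trans ?_
    rw [← ENNReal.ofReal_add h1.le h1.le]
    exact ENNReal.ofReal_le_ofReal (by linarith)
  · intro ω hω
    simp only [mem_union, not_or] at hω
    obtain ⟨⟨b1, b2⟩, hz'⟩ := hω
    obtain ⟨⟨g1, g2⟩, g3⟩ := hZ ω hz'
    have hholes : ∀ z ∈ Metric.closedBall (0 : ℂ) R,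
        (points ε ω ∩ Metric.ball z (rad C0 ε)).Nonempty := by
      intro z hz
      by_contra hcon
      rw [Set.not_nonempty_iff_eq_empty] at hcon
      exact b1 ⟨z, hz, hcon⟩
    obtain ⟨M, hEnv⟩ := env_of (D := C.dom) (R := R) (by linarith) hdpos g1 g2 hholes
    rw [hB2, Set.mem_ofPred_eq, not_not] at b2
    have d1 : rad C0 ε ≤ c2' := h3.le.trans (min_le_left _ _)
    have d2 : rad C0 ε ≤ c1 * (2 : ℝ) ^ (k0 - N) :=
      h3.le.trans ((min_le_right _ _).trans (min_le_left _ _))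
    have d3 : rad C0 ε ≤ (R0 - (2 : ℝ) ^ k0) / 4 := h3.le.trans ((min_le_right _ _).trans
      ((min_le_right _ _).trans (min_le_left _ _)))
    have d4 : rad C0 ε ≤ ((2 : ℝ) ^ (k0 - N) - s) / 5 := h3.le.trans ((min_le_right _ _).trans
      ((min_le_right _ _).trans (min_le_right _ _)))
    obtain ⟨hG, hfin⟩ := hq ε (rad C0 ε) M ω hEnv hdpos d1
    obtain ⟨k1, k2⟩ := hbd C ε δ (rad C0 ε) M ω 0 b R0 s κ (Q ∪ TB) TB k0 hG hEnv
      (by linarith) (by linarith) d2 hk1 (by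
        intro y hy r hr hr1
        exact b2 y hy r (h4.le.trans hr) hr1) (by
        obtain ⟨y, hy, hys⟩ := hR.1
        exact ⟨y, dom0 (Or.inl hy), hys⟩)
    refine (hfin (η / 12) k1 k2 g3).trans ?_
    linarith

theorem valE (hB : BDE) : Cfgx416.VAL := val_of hB D3Ix802.intf D3Mx802.mono

end Crest.Agent.R143.ValFx422
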