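import Crest.Agent.R143.BdeM_422
import Crest.Agent.R143.RBmF_54
import Crest.Agent.R143.D3K_802
import Crest.Agent.R143.ValF_422
import Crest.Agent.R143.Spine7_422

/-!
# Row 143 (S0194): the limit part with the quenched RSW (helper422)

* `bde`, `lalb`, `val` : boundary estimate, boundary conditions, value near `b`, outright
* `body_two` : the statement from the interior equicontinuity and the leaf `LMinW`
-/

set_option autoImplicit false

noncomputable section

namespace Crest.Agent.R143.LimRx422

open Crest.Agent.R143.B0Dx346 Crest.Agent.R143.Spinex422 Crest.Agent.R143.Cfgx416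

theorem bde : D3Jx802.BDE := BdeMx422.bde_of_rbm RBmFx54.rbm

theorem lalb : LALB Dom.Ad := D3Kx802.lalb_of_bde bde

theorem val : Cfgx416.VAL := ValFx422.valE bde

/-- **the statement from two leaves** -/
theorem body_two (h1 : LEqui Dom.Ad) (h2 : LMinW Dom.Ad) : Body := body_minW h1 lalb val h2

end Crest.Agent.R143.LimRx422
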