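import Crest.Agent.R143.LdO_43
import Crest.Agent.R143.DtaB_440
import Crest.Agent.R143.Exc7_790

/-!
# Row 143 (S0194), block H, H5, box B2 of 440's skeleton (helper43): LINK

`b` = representative with `LdOK`, `b'` = member of its `Rf`-class, `dt b' = d.dt h3 b`.
* `LdOK.fb` : 440's `Fb` at the representative
* `Jn` : the pattern `k` is joined (data of the representative); `LdOK.two` : two joined patterns
* `rc_pk`, `LdOK.free` : colours of the static net of the pattern `k` at `b'`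
* **`LdOK.link`** : 790's `RJt` for the net at `b'` and the flipped configuration of `b'` (joined
  chord, sums, last cell of the chord, end times on the outer arc)
* `LdOK.same` : same states on the outer arc
* **`LdOK.dV_eq`, `LdOK.dW_eq`** : 828's charge and displacement at `b'` = one block of the flipped
  configuration - potential difference
-/

set_option autoImplicit false
set_option linter.unusedSectionVars false

noncomputable section

open scoped Classical ComplexConjugate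

namespace Crest.Agent.R143.LdOx43

open Crest.Agent.R143.B0x346 Crest.Agent.R143.SumScx302 Crest.Agent.R143.Mass1x302
  Crest.Agent.R143.Mass2x302 Crest.Agent.R143.Mass3x302
  Crest.Agent.R143.Mass4x302 Crest.Agent.R143.Mass5x302 Crest.Agent.R143.DelGx806
  Crest.Agent.R143.DelRx806 Crest.Agent.R143.JColx54
open Crest.Agent.R143.Frame1x395 Crest.Agent.R143.Frame2x395 Crest.Agent.R143.Frame3x395
  Crest.Agent.R143.Frame4x395 Crest.Agent.R143.Frame8x395 Crest.Agent.R143.Frame9x395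
  Crest.Agent.R143.Frame10x395 Crest.Agent.R143.Frame11x395
  Crest.Agent.R143.NonXx592 Crest.Agent.R143.Coarsex166 Crest.Agent.R143.Coarse2x166
open Crest.Agent.R143.FinCx811
open Crest.Agent.R143.SmallAx304 (rp cs_rp rp_inner chiS)
open Crest.Agent.R143.HRevx432 (Kc kc_sub coins_rc)
open Crest.Agent.R143.RevCx389 (Rg p0 Ra ra_stop p0_dec)
open Crest.Agent.R143.Harx315 (IsStop)
open Crest.Agent.R143.RingFx565 (kap ck_rc in_rc Hit Qb flc ta tb ma)
open Crest.Agent.R143.Two3x565 (FlK Dk JdK)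
open Crest.Agent.R143.RingTx715 (S3)
open Crest.Agent.R143.RingOx715 (AG)
open Crest.Agent.R143.HullKx715 (TL GT)
open Crest.Agent.R143.Junx43 (St Tch)
open Crest.Agent.R143.Exc6x790 (r3 AP3 rg3 RJ)
open Crest.Agent.R143.Exc7x790 (RJt)
open Crest.Agent.R143.Patx828 (Rg3 Lf Wc Gc AP)
open Crest.Agent.R143.DtaRx440 (Tg stab2 lf2 wc2 ap2 gp2)
open Crest.Agent.R143.DtaBx440 (Fb)
open Crest.Agent.R143.S1x828 (Dt dA dg dF dV dW Vk Wk pk)
open Crest.Agent.R143.StQx828 (Vs Ds)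
open Crest.Agent.R143.NetUx346 (ff)
open Crest.Agent.R143.C2SBx395 (Free Rc)
open Crest.Agent.R143.C2SCx395 (st pr pr_con pr_cq)
open Crest.Agent.R143.C2SDx395 (rsum)
open Crest.Agent.R143.RE0x723
open Crest.Agent.R143.DefsNx346 (RE)
open Crest.Agent.R143.K33x877 (CtrX)
open Crest.Agent.R143.Freshx829 (scol Inn rep rep_eq rep_spec)
open Crest.Agent.R143.Chord2x355 (pot)


variable {S : Finset ℂ} {hS : GP (S : Set ℂ)} {h3 : 3 ≤ S.card}
  {G : ZMod 3 → Rg (D0 S) (Cs hS)} {X : ZMod 3 → Set (D0 S)} {Rf : Finset ℂ → Finset ℂ}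
  {b b' : Finset ℂ} {d : Ld hS} {k : ZMod 3}

/-- the coin of an inner cell is its site -/
theorem kap_rep {c : Cs hS} (h : Inn hS c) : kap hS h3 c = rep hS c := by
  obtain ⟨v, hv, e, hn⟩ := h
  have e1 : c = cs hS h3 ⟨v, hv⟩ := Subtype.ext e
  rw [e1, Freshx829.rep_cs h3 hn]
  unfold RingFx565.kap
  rw [rp_inner hS h3 hn]

/-! ### colours of the static net -/

/-- colours of the giants in the pattern `k` -/
theorem rc_pk {A : ZMod 3 → Set (Cs hS)} (Gi : C2SBx395.Gi (rc0 hS) A) (k : ZMod 3)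
    (μ : Cs hS → ZMod 2) : Rc A (k + 1) (pk A k μ) := by
  have n1 : ∀ k : ZMod 3, k + 1 + 1 ≠ k := by decide
  have n2 : ∀ k : ZMod 3, k + 1 ≠ k := by decide
  have n3 : ∀ k : ZMod 3, k + 1 + 2 = k := by decide
  refine ⟨fun c hc => ?_, fun c hc => ?_, fun c hc => ?_⟩
  · unfold S1x828.pk
    rw [if_neg fun h => n1 k (Gi.disj _ _ c hc h), if_neg fun h => h _ hc]
  · unfold S1x828.pk
    rw [if_neg fun h => n2 k (Gi.disj _ _ c hc h), if_neg fun h => h _ hc]
  · rw [n3] at hc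
    unfold S1x828.pk
    rw [if_pos hc]

/-! ### joined patterns -/

/-- **the pattern `k` is joined**, data of the representative -/
def Jn (h3 : 3 ≤ S.card) (G : ZMod 3 → Rg (D0 S) (Cs hS)) (b : Finset ℂ) (d : Ld hS)
    (k : ZMod 3) : Prop :=
  ∀ χ', FlK (rc0 hS) (chiS hS h3 b) (P (rc0 hS) (xb (hS := hS) h3 b) d.q (d.m k.val))
      (Qb (kap hS h3) (Rb hS h3 G k) b) (d.t k.val - d.m k.val) (d.t (k.val + 1) - d.m k.val) χ' →
    JdK (rc0 hS) (chiS hS h3 b) (P (rc0 hS) (xb (hS := hS) h3 b) d.q (d.m k.val))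
      (d.t k.val - d.m k.val) (d.t (k.val + 1) - d.m k.val)
      (d.T (d.u (k.val + 1) + 1) - d.m k.val)
      (St (rc0 hS) (xb (hS := hS) h3 b) (P (rc0 hS) (xb (hS := hS) h3 b) d.q (d.m k.val)) d.N d.g₀)
      (Qb (kap hS h3) (Rb hS h3 G k) b) χ'

/-- the mark event of the pattern `k` at `b'` : the end cell `kB` is left at a gap time of the block
in the window of the mark `t (k + 1)` -/
def MkE (h3 : 3 ≤ S.card) (b : Finset ℂ) (d : Ld hS) (Gi : C2SBx395.Gi (rc0 hS) (A3 h3 b d k))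
    (b' : Finset ℂ) : Prop :=
  ∃ s, AG (rc0 hS) (xb (hS := hS) h3 b) d.q d.g₀ s ∧ d.t (k.val + 1) ≤ s ∧
    s < d.T (d.u (k.val + 1) + 1) ∧
    (rc0 hS).cell (P (rc0 hS) (xb (hS := hS) h3 b) d.q s) =
      (rc0 hS).cell (kB (coarse (rc0 hS) (pr (A3 h3 b d k)) (pr_con Gi))
        (cfg (rc0 hS) (pk (A3 h3 b d k) k (scol hS (b' : Set ℂ)))) (g3 h3 b d k))

/-- first state of the outer arc of the pattern `k` -/
def o3 (h3 : 3 ≤ S.card) (b : Finset ℂ) (d : Ld hS) (k : ZMod 3) : D0 S :=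
  P (rc0 hS) (xb (hS := hS) h3 b) d.q (d.T (d.u (k.val + 1) + 1))

/-- number of states of the outer arc of the pattern `k` -/
def l3 (d : Ld hS) (k : ZMod 3) : ℕ := d.t k.val + d.N - d.T (d.u (k.val + 1) + 1) + 1

namespace LdOK

variable (H : LdOK h3 G X Rf b d)

include H

/-- **at least two of the three patterns are joined** -/
theorem two : ∃ i : ZMod 3, ∀ k, k ≠ i → Jn h3 G b d k :=
  (H.s3.two H.lp H.tl H.gg H.gt (Q := fun k => Qb (kap hS h3) (Rb hS h3 G k) b) H.dis).2.2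

theorem two' : ∃ i j : Fin 3, i ≠ j ∧ Jn h3 G b d (i : ZMod 3) ∧ Jn h3 G b d (j : ZMod 3) := by
  obtain ⟨i, hi⟩ := H.two
  have e : ∀ i : ZMod 3, i + 1 ≠ i ∧ i + 2 ≠ i ∧ i + 1 ≠ i + 2 := by decide
  obtain ⟨e1, e2, e3⟩ := e i
  exact ⟨(show Fin 3 from (i + 1 : ZMod 3)), (show Fin 3 from (i + 2 : ZMod 3)), e3, hi _ e1,
    hi _ e2⟩

/-- the colours of the free cells at `b'` -/
theorem free (hb : b ⊆ S) (hb' : b' ⊆ S) (e : b' ∩ Rf b = b ∩ Rf b) (k : ZMod 3) {c : Cs hS}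
    (hc : Free (A3 h3 b d k) c) :
    chiS hS h3 (fl3 hS h3 G X k b') c = pk (A3 h3 b d k) k (scol hS (b' : Set ℂ)) c := by
  obtain ⟨h1, h2⟩ := H.rg3.free_lf hc
  obtain ⟨v, hv, hn, ev⟩ := H.inner h2
  have hp : pk (A3 h3 b d k) k (scol hS (b' : Set ℂ)) c = scol hS (b' : Set ℂ) c := by
    unfold S1x828.pk
    rw [if_neg (hc k), if_pos hc]
  rw [hp, ← chi_scol (h3 := h3) hv hn ev]
  -- the cell is not touched
  refine (ck_rc (hS := hS) (h3 := h3)).fresh (Rb := Rb hS h3 G k) (H.hit' hb hb' e k) ?_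
  rw [H.ps_eq hb hb' e k, tch_tg (H.ptg e k) (H.pocc k)]
  rintro ⟨u, -, hu⟩
  rw [← H.start k] at hu
  -- the states of the loop from the start `m k` are states of the loop from the start `m 0`
  obtain ⟨w, hw⟩ : ∃ w, P (rc0 hS) (xb (hS := hS) h3 b)
      (P (rc0 hS) (xb (hS := hS) h3 b) d.q (d.m 0)) w =
      P (rc0 hS) (xb (hS := hS) h3 b) (P (rc0 hS) (xb (hS := hS) h3 b) d.q (d.m k.val)) u := by
    refine ⟨u + d.m k.val + d.m 0 * d.N - d.m 0, ?_⟩
    have hN : 1 ≤ d.N := H.lp.pos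
    have h0 : d.m 0 ≤ d.m 0 * d.N := Nat.le_mul_of_pos_right _ hN
    have hper : ∀ i j, P (rc0 hS) (xb (hS := hS) h3 b) d.q (i + j * d.N) =
        P (rc0 hS) (xb (hS := hS) h3 b) d.q i := by
      intro i j
      induction j with
      | zero => rw [Nat.zero_mul, Nat.add_zero]
      | succ j ih =>
        rw [show i + (j + 1) * d.N = i + j * d.N + d.N by ring, NonXx592.P_per H.lp.per]
        exact ih
    rw [← P_add, ← P_add, show u + d.m k.val + d.m 0 * d.N - d.m 0 + d.m 0 =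
      u + d.m k.val + d.m 0 * d.N by omega, hper]
  rcases hu with hu | hu
  · apply h1
    refine ⟨w, ?_⟩
    rw [← hu]
    unfold Flipx166.lc Chordx355.lc
    rw [hw]
  · apply h2
    have h5 := H.rg3.rc_wc w
    rw [hw] at h5
    rw [← hu]
    exact h5

/-- **LINK** : the root block of the net of the pattern `k` at `b'` is a joined chord of the flipped
configuration of `b'` -/
theorem link (hb : b ⊆ S) (hb' : b' ⊆ S) (e : b' ∩ Rf b = b ∩ Rf b) (J : Jn h3 G b d k)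
    (mk : ¬ MkE h3 b d (H.gi k) b') :
    RJt (rc0 hS) (pr (A3 h3 b d k)) (pr_con (H.gi k))
      (pk (A3 h3 b d k) k (scol hS (b' : Set ℂ))) (chiS hS h3 (fl3 hS h3 G X k b'))
      (g3 h3 b d k) (o3 h3 b d k) (l3 d k) (W3 h3 b d) (xb (hS := hS) h3 b) d.q
      (d.T (d.u (k.val + 1) + 1)) (d.t k.val + d.N) :=
  H.s3.cjt H.lp H.col H.tl H.gg H.gt k (H.dis k) (H.flk hb hb' e k) (pr_cq (H.gi k))
    (rc_pk (H.gi k) k _) (fun _ hc => H.free hb hb' e k hc) (J _ (H.flk hb hb' e k))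
    fun s h1 h2 h4 h5 => mk ⟨s, h1, h2, h4, h5⟩

/-- **same states on the outer arc** -/
theorem same (hb : b ⊆ S) (hb' : b' ⊆ S) (e : b' ∩ Rf b = b ∩ Rf b) (k : ZMod 3) {s : ℕ}
    (hs : s < l3 d k) :
    P (rc0 hS) (cfg (rc0 hS) (chiS hS h3 (fl3 hS h3 G X k b'))) (o3 h3 b d k) s =
      P (rc0 hS) (xb (hS := hS) h3 b) d.q (d.T (d.u (k.val + 1) + 1) + s) :=
  H.s3.same H.lp H.tl H.gg H.gt k (H.dis k) (H.flk hb hb' e k) (by unfold l3 at hs; omega)

/-- **440's `Fb` at the representative** -/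
theorem fb {D : Finset ℂ → Dt S} (hD : D b = d.dt h3 b) : Fb hS D Rf b := by
  have hT := H.tgs (b' := b) rfl
  have ho := H.occ (d.m 0)
  have eW : Wc (rc0 hS) (cfg (rc0 hS) (scol hS (b : Set ℂ))) (D b).p = W3 h3 b d := by
    rw [hD]
    exact wc2 hT ho
  have eA : ∀ k, dA hS D b k = A3 h3 b d k := fun k => H.dA_eq rfl hD k
  refine ⟨?_, ?_, ?_, ?_, ?_, ?_⟩
  · rw [hD]
    exact stab2 H.rg3 hT
  · rw [hD]
    intro u
    have hw : P (rc0 hS) (cfg (rc0 hS) (scol hS (b : Set ℂ))) (d.dt h3 b).p u =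
        P (rc0 hS) (xb (hS := hS) h3 b) d.q (u + d.m 0) := by
      rw [P_add]
      exact hT.walk ho u
    rw [hw]
    obtain ⟨h1, h2⟩ := H.look (u + d.m 0)
    exact ⟨fun hi => by rw [← kap_rep (h3 := h3) hi]; exact h1,
      fun hi => by rw [← kap_rep (h3 := h3) hi]; exact h2⟩
  · unfold S1x828.dF
    rw [eA]
    exact H.frees
  · rw [eW]
    exact H.hull
  · rw [eW]
    exact H.far
  · rw [eA]
    exact H.ctr

/-! ### charge and displacement -/

variable {dt : Finset ℂ → Dt S}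

theorem dV_sum (e : b' ∩ Rf b = b ∩ Rf b) (hd : dt b' = d.dt h3 b) (k : ZMod 3) :
    dV hS dt k b' = conj (rsum (coarse (rc0 hS) (pr (A3 h3 b d k)) (pr_con (H.gi k)))
      (cfg (rc0 hS) (pk (A3 h3 b d k) k (scol hS (b' : Set ℂ)))) (g3 h3 b d k)
      fun h => RE S h.1) := by
  unfold S1x828.dV
  rw [H.dA_eq e hd, H.dg_eq e hd]
  unfold S1x828.Vk
  rw [dif_pos (H.gi k)]
  rfl

theorem dW_sum (e : b' ∩ Rf b = b ∩ Rf b) (hd : dt b' = d.dt h3 b) (k : ZMod 3) :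
    dW hS dt k b' = rsum (coarse (rc0 hS) (pr (A3 h3 b d k)) (pr_con (H.gi k)))
      (cfg (rc0 hS) (pk (A3 h3 b d k) k (scol hS (b' : Set ℂ)))) (g3 h3 b d k)
      fun h => h.1.2 - h.1.1 := by
  unfold S1x828.dW
  rw [H.dA_eq e hd, H.dg_eq e hd]
  unfold S1x828.Wk
  rw [dif_pos (H.gi k)]
  rfl

/-- **the charge of the root chord = one block of the flipped configuration - potential
difference** -/
theorem dV_eq (hb : b ⊆ S) (hb' : b' ⊆ S) (e : b' ∩ Rf b = b ∩ Rf b) (hd : dt b' = d.dt h3 b)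
    (J : Jn h3 G b d k) (mk : ¬ MkE h3 b d (H.gi k) b') :
    dV hS dt k b' = conj (∑ h ∈ blk (rc0 hS) (cfg (rc0 hS) (chiS hS h3 (fl3 hS h3 G X k b')))
        (kA (coarse (rc0 hS) (pr (A3 h3 b d k)) (pr_con (H.gi k)))
          (cfg (rc0 hS) (pk (A3 h3 b d k) k (scol hS (b' : Set ℂ)))) (g3 h3 b d k)), RE S h.1 -
      (pot (rc0 hS) (cfg (rc0 hS) (chiS hS h3 (fl3 hS h3 G X k b'))) (o3 h3 b d k) (l3 d k)
          (fun h => RE S h.1) ((rc0 hS).cell ((rc0 hS).rho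
            (kA (coarse (rc0 hS) (pr (A3 h3 b d k)) (pr_con (H.gi k)))
              (cfg (rc0 hS) (pk (A3 h3 b d k) k (scol hS (b' : Set ℂ)))) (g3 h3 b d k)))) -
        pot (rc0 hS) (cfg (rc0 hS) (chiS hS h3 (fl3 hS h3 G X k b'))) (o3 h3 b d k) (l3 d k)
          (fun h => RE S h.1) ((rc0 hS).cell
            (kB (coarse (rc0 hS) (pr (A3 h3 b d k)) (pr_con (H.gi k)))
              (cfg (rc0 hS) (pk (A3 h3 b d k) k (scol hS (b' : Set ℂ)))) (g3 h3 b d k))))) := by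
  rw [H.dV_sum e hd k]
  congr 1
  exact (H.link hb hb' e J mk).toRJ.sum ℂ fun h => RE S h.1

theorem dW_eq (hb : b ⊆ S) (hb' : b' ⊆ S) (e : b' ∩ Rf b = b ∩ Rf b) (hd : dt b' = d.dt h3 b)
    (J : Jn h3 G b d k) (mk : ¬ MkE h3 b d (H.gi k) b') :
    dW hS dt k b' = ∑ h ∈ blk (rc0 hS) (cfg (rc0 hS) (chiS hS h3 (fl3 hS h3 G X k b')))
        (kA (coarse (rc0 hS) (pr (A3 h3 b d k)) (pr_con (H.gi k)))
          (cfg (rc0 hS) (pk (A3 h3 b d k) k (scol hS (b' : Set ℂ)))) (g3 h3 b d k)),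
          (h.1.2 - h.1.1) -
      (pot (rc0 hS) (cfg (rc0 hS) (chiS hS h3 (fl3 hS h3 G X k b'))) (o3 h3 b d k) (l3 d k)
          (fun h => h.1.2 - h.1.1) ((rc0 hS).cell ((rc0 hS).rho
            (kA (coarse (rc0 hS) (pr (A3 h3 b d k)) (pr_con (H.gi k)))
              (cfg (rc0 hS) (pk (A3 h3 b d k) k (scol hS (b' : Set ℂ)))) (g3 h3 b d k)))) -
        pot (rc0 hS) (cfg (rc0 hS) (chiS hS h3 (fl3 hS h3 G X k b'))) (o3 h3 b d k) (l3 d k)
          (fun h => h.1.2 - h.1.1) ((rc0 hS).cell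
            (kB (coarse (rc0 hS) (pr (A3 h3 b d k)) (pr_con (H.gi k)))
              (cfg (rc0 hS) (pk (A3 h3 b d k) k (scol hS (b' : Set ℂ)))) (g3 h3 b d k)))) := by
  rw [H.dW_sum e hd k]
  exact (H.link hb hb' e J mk).toRJ.sum ℂ fun h => h.1.2 - h.1.1

end LdOK

end Crest.Agent.R143.LdOx43
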