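import Crest.Agent.R143.Cfg_416

/-!
# Row 143 (S0194), BLOCK D, leaf LINK (helper606)

* `join_disc` : modulus of local connectedness of a uniformised closed Jordan domain, and joining sets
  which stay away from a closed part of the boundary
* `link` : the fields `lk`, `lkm` of `Mac` (416) from one connected set per tentacle
-/

set_option autoImplicit false

noncomputable section

namespace Crest.Agent.R143.Linkx606

open Set Topology Filter Metric
open Crest Crest.ProbabilityR Crest.ProbabilityR.Percolation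
open Crest.Agent.R158.Jt785
open Crest.Agent.R143.B0x346 Crest.Agent.R143.B0Dx346
open Crest.Agent.R143.Spinex422 Crest.Agent.R143.Cfgx416

variable {g : ℝ → ℂ} {f : ℂ → ℂ}

/-- modulus of local connectedness, and joining sets away from a closed part `A` of the boundary -/
theorem join_disc (h : Unif g f) : ∃ md : ℝ → ℝ, (∀ s > 0, 0 < md s ∧ md s ≤ s) ∧
    ∀ K : Set ℂ, IsCompact K → K ⊆ jordanInterior g →
    ∀ A : Set ℂ, IsClosed A → A ⊆ curveTrace g →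
    ∀ p : ℂ, p ∉ A →
    ∃ κ0 > 0, ∃ δ2 > 0, ∀ z ∈ K, ∀ q ∈ closure (jordanInterior g), dist q p < δ2 →
      ∃ P : Set ℂ, IsPreconnected P ∧ z ∈ P ∧ q ∈ P ∧ P ⊆ closure (jordanInterior g) ∧
        (∀ y ∈ P, ∀ w ∈ A, κ0 ≤ dist y w) ∧
        ∀ s > 0, ∀ m ∈ closure (jordanInterior g), dist q m < md s → dist z m < md s →
          P ⊆ ball m s := by
  obtain ⟨ψ, hc, h1, h2, h3⟩ := h.exists_inv
  have hX : IsCompact (closure (jordanInterior g)) := h.isCompact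
  have hf1 : ∀ z ∈ closure (jordanInterior g), f z ∈ closedBall (0 : ℂ) 1 := by
    intro z hz
    rw [← h.img_closure]
    exact mem_image_of_mem _ hz
  have hseg : ∀ z ∈ closure (jordanInterior g), ∀ q ∈ closure (jordanInterior g),
      segment ℝ (f z) (f q) ⊆ closedBall (0 : ℂ) 1 := fun z hz q hq =>
    (convex_closedBall 0 1).segment_subset (hf1 z hz) (hf1 q hq)
  -- the modulus
  have hmd : ∀ s : ℝ, ∃ d : ℝ, 0 < s → (0 < d ∧ d ≤ s ∧ ∀ m ∈ closure (jordanInterior g),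
      ∀ z ∈ closure (jordanInterior g), ∀ q ∈ closure (jordanInterior g), dist z m < d →
      dist q m < d → ψ '' segment ℝ (f z) (f q) ⊆ ball m s) := by
    intro s
    by_cases hs : 0 < s
    · have hu := (isCompact_closedBall (0 : ℂ) 1).uniformContinuousOn_of_continuous hc
      rw [Metric.uniformContinuousOn_iff] at hu
      obtain ⟨d1, hd1, hu1⟩ := hu s hs
      have hv := hX.uniformContinuousOn_of_continuous h.cont
      rw [Metric.uniformContinuousOn_iff] at hv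
      obtain ⟨d2, hd2, hv1⟩ := hv d1 hd1
      refine ⟨min d2 s, fun _ => ⟨lt_min hd2 hs, min_le_right _ _, ?_⟩⟩
      rintro m hm z hz q hq hzm hqm _ ⟨y, hy, rfl⟩
      have e1 : f z ∈ ball (f m) d1 := hv1 z hz m hm (hzm.trans_le (min_le_left _ _))
      have e2 : f q ∈ ball (f m) d1 := hv1 q hq m hm (hqm.trans_le (min_le_left _ _))
      have e3 : y ∈ ball (f m) d1 := (convex_ball (f m) d1).segment_subset e1 e2 hy
      have e4 := hu1 y (hseg z hz q hq hy) (f m) (hf1 m hm) e3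
      rw [h1 m hm] at e4
      exact e4
    · exact ⟨0, fun h => absurd h hs⟩
  choose md hmd using hmd
  refine ⟨md, fun s hs => ⟨(hmd s hs).1, (hmd s hs).2.1⟩, ?_⟩
  intro K hK hKD A hA hAs p hpA
  have hKX : K ⊆ closure (jordanInterior g) := hKD.trans subset_closure
  -- a ball around `p` free of `A`
  obtain ⟨δ2, hδ2, hδA⟩ : ∃ δ2 > 0, closedBall p δ2 ⊆ Aᶜ :=
    Metric.nhds_basis_closedBall.mem_iff.1 (hA.isOpen_compl.mem_nhds hpA)
  let F : ℂ × ℂ × ℝ → ℂ := fun x => ψ ((1 - x.2.2) • f x.1 + x.2.2 • f x.2.1)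
  let Z : Set (ℂ × ℂ × ℝ) :=
    K ×ˢ ((closedBall p δ2 ∩ closure (jordanInterior g)) ×ˢ Icc (0 : ℝ) 1)
  have hZ : IsCompact Z :=
    hK.prod ((hX.inter_left isClosed_closedBall).prod isCompact_Icc)
  have hin : ∀ x ∈ Z, (1 - x.2.2) • f x.1 + x.2.2 • f x.2.1 ∈ closedBall (0 : ℂ) 1 := by
    rintro ⟨z, q, t⟩ ⟨hz, ⟨-, hq⟩, ht⟩
    refine convex_closedBall (0 : ℂ) 1 (hf1 z (hKX hz)) (hf1 q hq) (by linarith [ht.2]) ht.1 ?_
    ring
  have hF : ContinuousOn F Z := by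
    refine hc.comp ?_ hin
    have c1 : ContinuousOn (fun x : ℂ × ℂ × ℝ => f x.1) Z :=
      h.cont.comp continuous_fst.continuousOn fun x hx => hKX hx.1
    have c2 : ContinuousOn (fun x : ℂ × ℂ × ℝ => f x.2.1) Z :=
      h.cont.comp (continuous_fst.comp continuous_snd).continuousOn fun x hx => hx.2.1.2
    have c3 : ContinuousOn (fun x : ℂ × ℂ × ℝ => x.2.2) Z :=
      (continuous_snd.comp continuous_snd).continuousOn
    exact ((continuousOn_const.sub c3).smul c1).add (c3.smul c2)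
  have hFc : IsCompact (F '' Z) := hZ.image_of_continuousOn hF
  have hFA : F '' Z ⊆ Aᶜ := by
    rintro _ ⟨⟨z, q, t⟩, ⟨hz, ⟨hqp, hq⟩, ht⟩, rfl⟩ hA'
    have hw := hin ⟨z, q, t⟩ ⟨hz, ⟨hqp, hq⟩, ht⟩
    have e1 : ‖f (F (z, q, t))‖ = 1 := h.norm_eq (hAs hA')
    have e2 : f (F (z, q, t)) = (1 - t) • f z + t • f q := (h2 _ hw).1
    rw [e2] at e1
    have e3 : ‖f z‖ < 1 := h.norm_lt (hKD hz)
    have e4 : ‖f q‖ ≤ 1 := by simpa using hf1 q hq
    have ht0 : 0 ≤ t := ht.1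
    have ht1 : t ≤ 1 := ht.2
    rcases eq_or_lt_of_le ht1 with h5 | h5
    · have e5 : F (z, q, t) = q := by
        show ψ ((1 - t) • f z + t • f q) = q
        rw [h5, sub_self, zero_smul, one_smul, zero_add]
        exact h1 q hq
      rw [e5] at hA'
      exact hδA hqp hA'
    · have e5 : ‖(1 - t) • f z + t • f q‖ ≤ (1 - t) * ‖f z‖ + t * ‖f q‖ := by
        refine (norm_add_le _ _).trans ?_
        rw [norm_smul, norm_smul, Real.norm_eq_abs, Real.norm_eq_abs,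
          abs_of_nonneg (by linarith : (0 : ℝ) ≤ 1 - t), abs_of_nonneg ht0]
      nlinarith
  obtain ⟨κ0, hκ0, hth⟩ := hFc.exists_thickening_subset_open hA.isOpen_compl hFA
  refine ⟨κ0, hκ0, δ2, hδ2, ?_⟩
  intro z hz q hq hqp
  refine ⟨ψ '' segment ℝ (f z) (f q), ?_, ?_, ?_, ?_, ?_, ?_⟩
  · exact (convex_segment (f z) (f q)).isPreconnected.image ψ (hc.mono (hseg z (hKX hz) q hq))
  · exact ⟨f z, left_mem_segment ℝ _ _, h1 z (hKX hz)⟩
  · exact ⟨f q, right_mem_segment ℝ _ _, h1 q hq⟩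
  · rintro _ ⟨y, hy, rfl⟩
    exact (h2 y (hseg z (hKX hz) q hq hy)).2
  · rintro _ ⟨y, hy, rfl⟩ w hw
    by_contra hlt
    push Not at hlt
    have e1 : w ∈ thickening κ0 (F '' Z) := by
      rw [mem_thickening_iff]
      obtain ⟨a, b, ha, hb, hab, rfl⟩ := hy
      refine ⟨ψ (a • f z + b • f q), ⟨(z, q, b), ⟨hz, ⟨mem_closedBall.2 hqp.le, hq⟩, hb,
        by linarith⟩, ?_⟩, by rw [dist_comm]; exact hlt⟩
      show ψ ((1 - b) • f z + b • f q) = _
      rw [show 1 - b = a by linarith]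
    exact hth e1 hw
  · intro s hs m hm hqm hzm
    exact (hmd s hs).2.2 m hm z (hKX hz) q hq hzm hqm

/-- **leaf LINK**: the fields `lk`, `lkm` of `Mac`. `A` = union of the swallowed arcs, `p k` = shifted
marks, `q k` = a point of the closed domain in the cell of the mouth of the tentacle `k`, `Tn k` = a
connected set which joins `q k` to the end of the tentacle `k` -/
theorem link (h : Unif g f) : ∃ md : ℝ → ℝ, (∀ s > 0, 0 < md s) ∧
    ∀ K : Set ℂ, IsCompact K → K ⊆ jordanInterior g → ∃ r1 > 0,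
    ∀ (A : Set ℂ) (p : ZMod 4 → ℂ), IsClosed A → A ⊆ curveTrace g → (∀ k, p k ∉ A) →
    ∃ κ0 > 0, ∃ δ2 > 0, ∀ (C : Cfg 4) (κ e : ℝ) (G : Set ℂ) (B : ZMod 4 → Set ℂ)
      (m q : ZMod 4 → ℂ) (Tn : ZMod 4 → Set ℂ), 0 < e →
      (∀ k, m k ∈ curveTrace g) → (∀ k, dist (p k) (m k) < r1) →
      (∀ k, q k ∈ closure (jordanInterior g)) → (∀ k, dist (q k) (p k) < δ2) →
      closure (jordanInterior g) ⊆ G →
      closure (jordanInterior g) ⊆ closedBall C.c (3 / 4 * C.L) →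
      (∀ y ∈ closure (jordanInterior g), (∀ w ∈ A, κ0 ≤ dist y w) → Disjoint (ball y κ) C.out) →
      (∀ k, IsPreconnected (Tn k)) → (∀ k, q k ∈ Tn k) →
      (∀ k, C.c + ((3 / 4 * C.L : ℝ) : ℂ) * C.q k ∈ Tn k) →
      (∀ k, Tn k ⊆ (G ∩ ball (q k) e) ∪ B k) → (∀ k, Tn k ⊆ closedBall C.c (3 / 4 * C.L)) →
      (∀ k, ∀ y ∈ Tn k, Disjoint (ball y κ) C.out) →
      (∀ z ∈ K, ∃ P : Set ℂ, IsPreconnected P ∧ z ∈ P ∧ P ⊆ closedBall C.c (3 / 4 * C.L) ∧
        (∀ k, C.c + ((3 / 4 * C.L : ℝ) : ℂ) * C.q k ∈ P) ∧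
        ∀ y ∈ P, Disjoint (ball y κ) C.out) ∧
      (∀ k, ∀ s > 0, ∀ z ∈ K, dist z (m k) < md s → ∃ P : Set ℂ, IsPreconnected P ∧ z ∈ P ∧
        P ⊆ (G ∩ ball (m k) (s + e)) ∪ B k ∧ P ⊆ closedBall C.c (3 / 4 * C.L) ∧
        C.c + ((3 / 4 * C.L : ℝ) : ℂ) * C.q k ∈ P ∧ ∀ y ∈ P, Disjoint (ball y κ) C.out) := by
  obtain ⟨md, hmd, hjoin⟩ := join_disc h
  refine ⟨md, fun s hs => (hmd s hs).1, fun K hK hKD => ?_⟩
  obtain ⟨r, hr, hrK⟩ := hK.exists_thickening_subset_open (isOpen_ji h.jc) hKD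
  have hfar : ∀ z ∈ K, ∀ w ∈ curveTrace g, r ≤ dist z w := by
    intro z hz w hw
    by_contra hlt
    push Not at hlt
    have e1 : w ∈ thickening r K := by
      rw [mem_thickening_iff]
      exact ⟨z, hz, by rw [dist_comm]; exact hlt⟩
    exact (hrK e1).1 hw
  refine ⟨r / 2, by linarith, fun A p hA hAs hpA => ?_⟩
  choose κ1 hκ1 δ1 hδ1 hj using fun k => hjoin K hK hKD A hA hAs (p k) (hpA k)
  obtain ⟨κ0, hκ0, hκle⟩ : ∃ κ0 > 0, ∀ k, κ0 ≤ κ1 k := by
    refine ⟨Finset.univ.inf' ⟨0, Finset.mem_univ _⟩ κ1, ?_, fun k =>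
      Finset.inf'_le _ (Finset.mem_univ k)⟩
    rw [gt_iff_lt, Finset.lt_inf'_iff]
    exact fun k _ => hκ1 k
  obtain ⟨δ0, hδ0, hδle⟩ : ∃ δ0 > 0, ∀ k, δ0 ≤ δ1 k := by
    refine ⟨Finset.univ.inf' ⟨0, Finset.mem_univ _⟩ δ1, ?_, fun k =>
      Finset.inf'_le _ (Finset.mem_univ k)⟩
    rw [gt_iff_lt, Finset.lt_inf'_iff]
    exact fun k _ => hδ1 k
  refine ⟨κ0, hκ0, min δ0 (r / 2), lt_min hδ0 (by linarith), ?_⟩
  intro C κ e G B m q Tn he hm hpm hq hqp hDG hDC hcl hT1 hT2 hT3 hT4 hT5 hT6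
  have hqδ : ∀ k, dist (q k) (p k) < δ1 k := fun k =>
    ((hqp k).trans_le (min_le_left _ _)).trans_le (hδle k)
  have hqm : ∀ k, dist (q k) (m k) < r := fun k => by
    have e1 := (hqp k).trans_le (min_le_right _ _)
    linarith [dist_triangle (q k) (p k) (m k), hpm k]
  have key : ∀ z ∈ K, ∀ k, ∃ P : Set ℂ, IsPreconnected P ∧ z ∈ P ∧
      P ⊆ closedBall C.c (3 / 4 * C.L) ∧ C.c + ((3 / 4 * C.L : ℝ) : ℂ) * C.q k ∈ P ∧
      (∀ y ∈ P, Disjoint (ball y κ) C.out) ∧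
      ∀ s > 0, dist z (m k) < md s → P ⊆ (G ∩ ball (m k) (s + e)) ∪ B k := by
    intro z hz k
    obtain ⟨P, p1, p2, p3, p4, p5, p6⟩ := hj k z hz (q k) (hq k) (hqδ k)
    refine ⟨P ∪ Tn k, p1.union (q k) p3 (hT2 k) (hT1 k), Or.inl p2,
      union_subset (p4.trans hDC) (hT5 k), Or.inr (hT3 k), ?_, ?_⟩
    · rintro y (hy | hy)
      · exact hcl y (p4 hy) fun w hw => (hκle k).trans (p5 y hy w hw)
      · exact hT6 k y hy
    · intro s hs hzs
      have e1 : dist (q k) (m k) < md s :=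
        (hqm k).trans ((hfar z hz (m k) (hm k)).trans_lt hzs)
      have e2 : P ⊆ ball (m k) s := p6 s hs (m k) (h.tr_subset (hm k)) e1 hzs
      refine union_subset (fun y hy => Or.inl ⟨hDG (p4 hy), ?_⟩) ((hT4 k).trans
        (union_subset_union_left _ (inter_subset_inter_right _ ?_)))
      · exact ball_subset_ball (by linarith) (e2 hy)
      · refine ball_subset_ball' ?_
        have := (hmd s hs).2
        linarith
  refine ⟨fun z hz => ?_, fun k s hs z hz hzs => ?_⟩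
  · choose P p1 p2 p3 p4 p5 _ using key z hz
    refine ⟨⋃ k, P k, isPreconnected_iUnion ⟨z, mem_iInter.2 p2⟩ p1,
      mem_iUnion.2 ⟨0, p2 0⟩, iUnion_subset p3, fun k => mem_iUnion.2 ⟨k, p4 k⟩, ?_⟩
    intro y hy
    obtain ⟨k, hk⟩ := mem_iUnion.1 hy
    exact p5 k y hk
  · obtain ⟨P, p1, p2, p3, p4, p5, p6⟩ := key z hz k
    exact ⟨P, p1, p2, p6 s hs hzs, p3, p4, p5⟩

end Crest.Agent.R143.Linkx606
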