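import Crest.Agent.R143.LnkG_927
import Crest.Agent.R143.LocT_776

/-!
# Row 143 (S0194), LOCX, item (C1) of 776's list (helper927)

* **`gate_far4`** : a point above a gate `a` with `A k + 3 ≤ a`, `a + 2 ≤ A (k + 1)` is in `Far`
* `strg_ge` : the four tiles next to such a gate are straight
* `strg_of` : the strong form (`A k + 4 ≤ g`, `g + 3 ≤ A (k + 1)`) gives `Strg`
-/

set_option autoImplicit false
set_option linter.unusedVariables false

noncomputable section

open scoped Classical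

namespace Crest.Agent.R143.LnkG2x927

open Set
open Crest.ProbabilityR.Voronoi
open Crest.Agent.R158.Sp896
open Crest.Agent.R143.B0x346
open Crest.Agent.R143.Tenx416 (Pg)
open Crest.Agent.R143.OutCx571 Crest.Agent.R143.TileRx228
open Crest.Agent.R143.Gatex838 (X Y)
open Crest.Agent.R143.Finex422 (Fine ro adj_un)
open Crest.Agent.R143.LnkGx927 (far_of_cell)
open Crest.Agent.R143.LocTx776 (Strg)

variable {ρ h : ℝ} {F : Set V} {n m M : ℕ} {p W : ℤ → V} {A : ℤ → ℤ}

/-- **a point above a gate with four straight tiles is far from the polygon** -/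
theorem gate_far4 (hF : Fine F n (m : ℤ) p M W A) (hh : 0 < h) {k a : ℤ} (h1 : A k + 3 ≤ a)
    (h2 : a + 2 ≤ A (k + 1)) {s : ℂ} (hx : |X (gz h W a) (ge W a) s| < 3 / 2 * h - ρ)
    (hy1 : ρ - h < Y (gz h W a) (ge W a) s) (hy2 : Y (gz h W a) (ge W a) s < (m - 1) * h - ρ) :
    s ∈ Far (m * h) ρ F := by
  have hm : (0 : ℝ) ≤ m := Nat.cast_nonneg m
  obtain ⟨t, g1, g2, g3⟩ := hF.exact k (a - 1) (by omega) (by omega)
  have hst := hF.step k (a - 1) (by omega) (by omega)
  rw [sub_add_cancel] at hst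
  have sg1 := hF.seg k (a - 1) (by omega) (by omega)
  have sg2 := hF.seg k (A (k + 1)) (by omega) le_rfl
  have v1 := hF.vert k
  have v2 := hF.vert (k + 1)
  have hd := adj_un (hF.cl.step k)
  have hl := hF.cl.left k
  have e0 : p (k + 1) = p k + (p (k + 1) - p k) := by abel
  -- bounds of `t`
  have hW : W a = W (a - 1) + (p (k + 1) - p k) := by rw [← hst]; abel
  have ge' : ge W a = cz (p (k + 1) - p k) := by rw [ge, hst]
  have gzr : (gz h W a).re = h * (((W (a - 1)).1 : ℝ) + (p (k + 1) - p k).1 / 2) := by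
    have : (cz (W a)).re = ((W (a - 1)).1 : ℝ) + (p (k + 1) - p k).1 := by
      rw [hW]; simp [cz]
    have h3 : (gz h W a).re = h * (((cz (W (a - 1))).re + (cz (W a)).re) / 2) := by
      simp [gz]
    rw [h3, this]
    simp only [cz]
    ring
  have gzi : (gz h W a).im = h * (((W (a - 1)).2 : ℝ) + (p (k + 1) - p k).2 / 2) := by
    have : (cz (W a)).im = ((W (a - 1)).2 : ℝ) + (p (k + 1) - p k).2 := by
      rw [hW]; simp [cz]
    have h3 : (gz h W a).im = h * (((cz (W (a - 1))).im + (cz (W a)).im) / 2) := by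
      simp [gz]
    rw [h3, this]
    simp only [cz]
    ring
  rw [ge', FineDx576.X_eq hd] at hx
  rw [ge', FineDx576.Y_eq hd] at hy1 hy2
  rw [gzr, gzi] at hx hy1 hy2
  rw [sg2] at v2
  rw [g3] at sg1
  rw [g3] at hx hy1 hy2
  rw [e0] at hl v2
  simp only [abs_le] at v1 v2
  rw [abs_lt] at hx
  generalize p (k + 1) - p k = D at *
  generalize W (A k) = w at *
  generalize p k = P at *
  obtain ⟨x, y⟩ := P
  obtain ⟨w1, w2⟩ := w
  rw [Prod.ext_iff] at sg1
  obtain ⟨s1, s2⟩ := sg1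
  clear hW ge' gzr gzi hst g3 e0 sg2
  rcases hd with rfl | rfl | rfl | rfl
  · have e : lc (x, y) ((x, y) + (1, 0)) = (x, y) := by
      simp only [lc, Prod.mk_add_mk, Prod.mk.injEq]; omega
    rw [e] at hl
    simp [ro] at s1 s2 v1 v2 hx hy1 hy2
    have t2 : 1 ≤ t := by linarith [v1.1.1, v1.1.2, v1.2.1, v1.2.2]
    have t3 : t ≤ m - 2 := by linarith [v2.1.1, v2.1.2, v2.2.1, v2.2.2]
    have t2' : (1 : ℝ) ≤ t := by exact_mod_cast t2
    have t3' : (t : ℝ) ≤ m - 2 := by exact_mod_cast t3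
    have q1 : h * 1 ≤ h * t := mul_le_mul_of_nonneg_left t2' hh.le
    have q2 : h * t ≤ h * (m - 2) := mul_le_mul_of_nonneg_left t3' hh.le
    refine far_of_cell (by positivity) hl ?_ ?_ ?_ ?_ <;> push_cast <;>
      linarith [hx.1, hx.2]
  · have e : lc (x, y) ((x, y) + (0, 1)) = (x - 1, y) := by
      simp only [lc, Prod.mk_add_mk, Prod.mk.injEq]; omega
    rw [e] at hl
    simp [ro] at s1 s2 v1 v2 hx hy1 hy2
    have t2 : 1 ≤ t := by linarith [v1.1.1, v1.1.2, v1.2.1, v1.2.2]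
    have t3 : t ≤ m - 2 := by linarith [v2.1.1, v2.1.2, v2.2.1, v2.2.2]
    have t2' : (1 : ℝ) ≤ t := by exact_mod_cast t2
    have t3' : (t : ℝ) ≤ m - 2 := by exact_mod_cast t3
    have q1 : h * 1 ≤ h * t := mul_le_mul_of_nonneg_left t2' hh.le
    have q2 : h * t ≤ h * (m - 2) := mul_le_mul_of_nonneg_left t3' hh.le
    refine far_of_cell (by positivity) hl ?_ ?_ ?_ ?_ <;> push_cast <;>
      linarith [hx.1, hx.2]
  · have e : lc (x, y) ((x, y) + (-1, 0)) = (x - 1, y - 1) := by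
      simp only [lc, Prod.mk_add_mk, Prod.mk.injEq]; omega
    rw [e] at hl
    simp [ro] at s1 s2 v1 v2 hx hy1 hy2
    have t2 : 1 ≤ t := by linarith [v1.1.1, v1.1.2, v1.2.1, v1.2.2]
    have t3 : t ≤ m - 2 := by linarith [v2.1.1, v2.1.2, v2.2.1, v2.2.2]
    have t2' : (1 : ℝ) ≤ t := by exact_mod_cast t2
    have t3' : (t : ℝ) ≤ m - 2 := by exact_mod_cast t3
    have q1 : h * 1 ≤ h * t := mul_le_mul_of_nonneg_left t2' hh.le
    have q2 : h * t ≤ h * (m - 2) := mul_le_mul_of_nonneg_left t3' hh.le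
    refine far_of_cell (by positivity) hl ?_ ?_ ?_ ?_ <;> push_cast <;>
      linarith [hx.1, hx.2]
  · have e : lc (x, y) ((x, y) + (0, -1)) = (x, y - 1) := by
      simp only [lc, Prod.mk_add_mk, Prod.mk.injEq]; omega
    rw [e] at hl
    simp [ro] at s1 s2 v1 v2 hx hy1 hy2
    have t2 : 1 ≤ t := by linarith [v1.1.1, v1.1.2, v1.2.1, v1.2.2]
    have t3 : t ≤ m - 2 := by linarith [v2.1.1, v2.1.2, v2.2.1, v2.2.2]
    have t2' : (1 : ℝ) ≤ t := by exact_mod_cast t2
    have t3' : (t : ℝ) ≤ m - 2 := by exact_mod_cast t3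
    have q1 : h * 1 ≤ h * t := mul_le_mul_of_nonneg_left t2' hh.le
    have q2 : h * t ≤ h * (m - 2) := mul_le_mul_of_nonneg_left t3' hh.le
    refine far_of_cell (by positivity) hl ?_ ?_ ?_ ?_ <;> push_cast <;>
      linarith [hx.1, hx.2]

/-- the four tiles next to the gate are straight -/
theorem strg_ge (hF : Fine F n (m : ℤ) p M W A) {g : ℤ} (hg : Strg A g) :
    ∀ j, g - 2 ≤ j → j ≤ g + 1 → ge W (j + 1) = ge W j := by
  obtain ⟨k, h1, h2⟩ := hg
  intro j h3 h4
  have e1 := hF.step k j (by omega) (by omega)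
  have e2 := hF.step k (j - 1) (by omega) (by omega)
  rw [sub_add_cancel] at e2
  unfold ge
  rw [add_sub_cancel_right, e1, e2]

theorem strg_of {k g : ℤ} (h1 : A k + 4 ≤ g) (h2 : g + 3 ≤ A (k + 1)) : Strg A g :=
  ⟨k, by omega, by omega⟩

end Crest.Agent.R143.LnkG2x927
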