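import Crest.Agent.R143.Frame9_395

/-!
# Row 143 (S0194): lobes are blocks (helper565, after helper592, note 2958 (A))

A lobe: the gap `k` leaves the genuine cell `c`, the walker comes back to `c` at the gap `g` after `m`
steps (`Lobe M x k g m`, states `st M x k j`, `j ≤ m`).

* `Per`, `Per.rel_iff` : the relation `Rel` in terms of the positions on the loop
* `Lobe.rel_iff`, `Lobe.rel_k`, `Lobe.rel_out` : the relation inside a lobe
* `Lobe.mem_blk` : **the block of `k` is a function of the lobe**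
* `Emb`, `Lobe.transfer` : the block is the same in every other map / configuration which has the
  same lobe
* `LB M x K` : local blocks; `LB_mono`, `LB_disj`, `LB_sum_le`, `LB_frame`
-/

set_option autoImplicit false

noncomputable section

open scoped Classical

namespace Crest.Agent.R143.Lobex565

open Crest.Agent.R143.Frame1x395 Crest.Agent.R143.Frame2x395 Crest.Agent.R143.Frame3x395
  Crest.Agent.R143.Frame4x395 Crest.Agent.R143.Frame8x395 Crest.Agent.R143.Frame9x395

variable {D C : Type} {M : CMap D C} {x : D → ZMod 2} {a b k g : D} {m N : ℕ}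

theorem rel_symm' (H : Rel M x a b) : Rel M x b a := fun c => (H c).symm

/-- the states of the walker after the gap `k` -/
def st (M : CMap D C) (x : D → ZMod 2) (k : D) (j : ℕ) : D := (stp M x)^[j] (out M k)

theorem st_zero : st M x k 0 = out M k := rfl

theorem st_succ (j : ℕ) : st M x k (j + 1) = stp M x (st M x k j) :=
  Function.iterate_succ_apply' _ _ _

theorem st_add (i j : ℕ) : (stp M x)^[i] (st M x k j) = st M x k (i + j) :=
  (Function.iterate_add_apply _ _ _ _).symm

theorem st_occ (h : IsC M ∅ x) (hk : Gp M x k) (j : ℕ) : x (st M x k j) = 1 :=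
  occ_it h (hk.out h) j

/-- minimal period of the loop -/
structure Per (M : CMap D C) (x : D → ZMod 2) (k : D) (N : ℕ) : Prop where
  pos : 0 < N
  per : st M x k N = st M x k 0
  inj : ∀ i < N, ∀ j < N, st M x k i = st M x k j → i = j

theorem exists_per [Finite D] (h : IsC M ∅ x) (hk : Gp M x k) : ∃ N, Per M x k N := by
  have E : ∃ N, 0 < N ∧ st M x k N = st M x k 0 := periodic h (hk.out h)
  have key : ∀ i j : ℕ, i < j → j < Nat.find E → st M x k i = st M x k j → False := by
    intro i j hij hj e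
    have e1 : (stp M x)^[i] (st M x k 0) = (stp M x)^[i] (st M x k (j - i)) := by
      rw [st_add, st_add, add_zero, show i + (j - i) = j by omega, e]
    have e2 := it_inj h (st_occ h hk _) (st_occ h hk _) i e1
    exact Nat.find_min E (m := j - i) (by omega) ⟨by omega, e2.symm⟩
  refine ⟨Nat.find E, (Nat.find_spec E).1, (Nat.find_spec E).2, fun i hi j hj e => ?_⟩
  rcases lt_trichotomy i j with hl | hl | hl
  · exact (key i j hl hj e).elim
  · exact hl
  · exact (key j i hl hi e.symm).elim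

theorem Per.mod (P : Per M x k N) (j : ℕ) : st M x k (j + N) = st M x k j := by
  rw [← st_add, P.per, st_add, add_zero]

theorem Per.last (P : Per M x k N) (h : IsC M ∅ x) (hk : Gp M x k) :
    st M x k (N - 1) = M.rho k := by
  have h1 : stp M x (st M x k (N - 1)) = stp M x (M.rho k) := by
    rw [← st_succ, show N - 1 + 1 = N by have := P.pos; omega, P.per, hk.stp h]
    rfl
  exact stp_inj h (st_occ h hk _) (Set.notMem_empty _) hk.2 (Set.notMem_empty _) h1

theorem out_of (h : IsC M ∅ x) (ha : Gp M x a) {i : ℕ} (e : M.rho a = st M x k i) :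
    out M a = st M x k (i + 1) := by
  rw [st_succ, ← e, ha.stp h]

theorem Per.av1 (P : Per M x k N) {i j : ℕ} (hij : i < j) (hj : j < N) {e : C} :
    Av M x e (st M x k (i + 1)) (st M x k j) ↔
      ∀ s, i < s → s ≤ j → M.cell (st M x k s) ≠ e := by
  constructor
  · rintro ⟨n, h1, h2⟩ s hs hsj
    rw [st_add] at h1
    have hn : j - i - 1 ≤ n := by
      by_contra hc
      push Not at hc
      have := P.inj _ (by omega) _ hj h1
      omega
    have := h2 (s - (i + 1)) (by omega)
    rwa [st_add, show s - (i + 1) + (i + 1) = s by omega] at this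
  · intro H
    refine ⟨j - (i + 1), ?_, fun s hs => ?_⟩
    · rw [st_add, show j - (i + 1) + (i + 1) = j by omega]
    · rw [st_add]
      exact H _ (by omega) (by omega)

theorem Per.av2 (P : Per M x k N) {i j : ℕ} (hij : i < j) (hj : j < N) {e : C} :
    Av M x e (st M x k (j + 1)) (st M x k i) ↔
      ∀ t < N, (t ≤ i ∨ j < t) → M.cell (st M x k t) ≠ e := by
  constructor
  · rintro ⟨n, h1, h2⟩ t ht htt
    rw [st_add] at h1
    have hn : N + i ≤ n + (j + 1) := by
      by_contra hc
      push Not at hc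
      by_cases hl : n + (j + 1) < N
      · have := P.inj _ hl _ (by omega) h1
        omega
      · have h3 : st M x k (n + (j + 1)) = st M x k (n + (j + 1) - N) := by
          rw [← P.mod (n + (j + 1) - N), Nat.sub_add_cancel (by omega)]
        rw [h3] at h1
        have := P.inj _ (by omega) _ (by omega) h1
        omega
    rcases htt with htt | htt
    · have := h2 (t + N - (j + 1)) (by omega)
      rwa [st_add, show t + N - (j + 1) + (j + 1) = t + N by omega, P.mod] at this
    · have := h2 (t - (j + 1)) (by omega)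
      rwa [st_add, show t - (j + 1) + (j + 1) = t by omega] at this
  · intro H
    refine ⟨N + i - (j + 1), ?_, fun s hs => ?_⟩
    · rw [st_add, show N + i - (j + 1) + (j + 1) = i + N by omega, P.mod]
    · rw [st_add]
      by_cases hl : s + (j + 1) < N
      · exact H _ hl (Or.inr (by omega))
      · have h3 : st M x k (s + (j + 1)) = st M x k (s + (j + 1) - N) := by
          rw [← P.mod (s + (j + 1) - N), Nat.sub_add_cancel (by omega)]
        rw [h3]
        exact H _ (by omega) (Or.inl (by omega))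

/-- **the relation in terms of the positions on the loop** -/
theorem Per.rel_iff (P : Per M x k N) (h : IsC M ∅ x) (ha : Gp M x a) (hb : Gp M x b)
    {i j : ℕ} (ei : M.rho a = st M x k i) (ej : M.rho b = st M x k j) (hij : i < j) (hj : j < N) :
    Rel M x a b ↔ ∀ e, (∀ s, i < s → s ≤ j → M.cell (st M x k s) ≠ e) ∨
      (∀ t < N, (t ≤ i ∨ j < t) → M.cell (st M x k t) ≠ e) := by
  have hne : a ≠ b := by
    rintro rfl
    have := P.inj i (by omega) j hj (ei.symm.trans ej)
    omega
  refine forall_congr' fun e => ?_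
  have e1 := P.av1 hij hj (e := e)
  have e2 := P.av2 hij hj (e := e)
  rw [← out_of h ha ei, ← ej] at e1
  rw [← out_of h hb ej, ← ei] at e2
  rw [← e1, ← e2]
  constructor
  · rintro (H | H | H)
    · exact absurd H hne
    · exact Or.inl H
    · exact Or.inr H
  · exact Or.inr

/-- gaps which are related are on the same loop -/
theorem rel_pos (P : Per M x k N) (h : IsC M ∅ x) (ha : Gp M x a) {i : ℕ}
    (ei : M.rho a = st M x k i) (hb : Gp M x b) (H : Rel M x a b) :
    ∃ j < N, M.rho b = st M x k j := by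
  have key : ∃ j, M.rho b = st M x k j := by
    rcases H (M.cell a) with h1 | ⟨n, h1, -⟩ | ⟨n, h1, -⟩
    · exact ⟨i, h1 ▸ ei⟩
    · rw [out_of h ha ei, st_add] at h1
      exact ⟨_, h1.symm⟩
    · -- from `b` to `a`
      have h2 : (stp M x)^[n + 1] (M.rho b) = st M x k i := by
        rw [Function.iterate_succ_apply, hb.stp h, h1, ei]
      have h3 : st M x k i = (stp M x)^[n + 1] (st M x k (i + (n + 1) * N - (n + 1))) := by
        have hN := P.pos
        have h4 : n + 1 ≤ (n + 1) * N := Nat.le_mul_of_pos_right _ hN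
        rw [st_add, show n + 1 + (i + (n + 1) * N - (n + 1)) = i + (n + 1) * N by omega]
        have h5 : ∀ r : ℕ, st M x k (i + r * N) = st M x k i := by
          intro r
          induction r with
          | zero => simp
          | succ r ih => rw [Nat.succ_mul, ← add_assoc, P.mod, ih]
        rw [h5]
      rw [h3] at h2
      have hxk : ∀ j, x (st M x k j) = 1 := by
        intro j
        have h0 : x (st M x k 0) = 1 := by
          have h6 := ha.2
          rw [ei] at h6
          -- `st i` is occupied, go on to `st N = st 0`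
          have h7 : ∀ r, x (st M x k (r + i)) = 1 := by
            intro r
            rw [← st_add]
            exact occ_it h h6 r
          have h8 := h7 (i * N + N - i)
          have h9 : i ≤ i * N + N := by
            have := P.pos
            nlinarith
          rw [Nat.sub_add_cancel h9] at h8
          have h5 : ∀ r : ℕ, st M x k (r * N) = st M x k 0 := by
            intro r
            induction r with
            | zero => simp
            | succ r ih => rw [Nat.succ_mul, P.mod, ih]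
          rw [P.mod, h5] at h8
          exact h8
        rw [← add_zero j, ← st_add]
        exact occ_it h h0 j
      exact ⟨_, it_inj h hb.2 (hxk _) _ h2⟩
  obtain ⟨j, hj⟩ := key
  refine ⟨j % N, Nat.mod_lt _ P.pos, ?_⟩
  have h5 : ∀ r j : ℕ, st M x k (j + r * N) = st M x k j := by
    intro r j
    induction r with
    | zero => simp
    | succ r ih => rw [Nat.succ_mul, ← add_assoc, P.mod, ih]
  rw [hj]
  conv_lhs => rw [← Nat.mod_add_div j N, mul_comm N]
  exact h5 _ _

/-! ### lobes -/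

/-- **lobe**: the gap `k` leaves the cell `c`, the walker comes back to `c` at the gap `g` -/
structure Lobe (M : CMap D C) (x : D → ZMod 2) (k g : D) (m : ℕ) : Prop where
  hk : Gp M x k
  hg : Gp M x g
  cg : M.cell g = M.cell (M.rho k)
  em : st M x k m = M.rho g
  av : ∀ j ≤ m, M.cell (st M x k j) ≠ M.cell (M.rho k)

theorem Lobe.ne (H : Lobe M x k g m) (h : IsC M ∅ x) : k ≠ g := by
  intro e
  have h1 := H.av 0 (Nat.zero_le _)
  rw [st_zero, cell_out h H.hk] at h1
  exact h1 (by rw [← H.cg, e])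

/-- every gap which leaves its cell is the beginning of a lobe -/
theorem exists_lobe [Finite D] (h : IsC M ∅ x) (hk : Gp M x k)
    (hne : M.cell k ≠ M.cell (M.rho k)) : ∃ g m, Lobe M x k g m := by
  obtain ⟨g, hg, h1, m, h2, h3⟩ := nx_exists h hk hne
  exact ⟨g, m, hk, hg, h1, h2, h3⟩

theorem Lobe.nx (H : Lobe M x k g m) : Nx M x k g := ⟨H.cg, m, H.em, H.av⟩

theorem Lobe.lt (H : Lobe M x k g m) (h : IsC M ∅ x) (P : Per M x k N) : m + 1 < N := by
  by_contra hc
  push Not at hc
  refine H.av (N - 1) (by omega) ?_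
  rw [P.last h H.hk]

/-- **planarity in a lobe** -/
theorem Lobe.nc (H : Lobe M x k g m) (h : IsC M ∅ x) (P : Per M x k N)
    (G : Gen M (M.cell (M.rho k))) {i n : ℕ} (hi : i ≤ m) (hn : m < n) (hN : n < N)
    (hc : M.cell (st M x k n) ≠ M.cell (M.rho k)) :
    M.cell (st M x k i) ≠ M.cell (st M x k n) := by
  have hk := H.hk
  have hg := H.hg
  have hmN := H.lt h P
  -- colours
  obtain ⟨ψ, hψ⟩ := M.ex x h.dead h.iot (fun d => by rw [h.par d, if_neg (Set.notMem_empty d)])
  have hψ0 : ∀ d, x d = 0 → ψ (M.cell d) = ψ (M.cell (M.rho d)) := by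
    intro d hd
    rw [hψ d] at hd
    revert hd
    generalize ψ (M.cell d) = a
    generalize ψ (M.cell (M.rho d)) = b
    revert a b; decide
  have hψ1 : ∀ d, x d = 1 → ψ (M.cell d) ≠ ψ (M.cell (M.rho d)) := by
    intro d hd
    rw [hψ d] at hd
    revert hd
    generalize ψ (M.cell d) = a
    generalize ψ (M.cell (M.rho d)) = b
    revert a b; decide
  have hxk : x (out M k) = 1 := hk.out h
  have lc : ∀ n, ψ (M.cell (st M x k n)) = ψ (M.cell (M.rho k)) := by
    intro n
    have := it_col h hxk hψ0 n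
    unfold st
    rw [this, cell_out h hk]
    exact hψ0 _ hk.1
  have nb : ∀ j < m, st M x k j ∉ BB M k g := by
    intro j hj hB
    have xo := st_occ h hk j
    rcases hB with (hB | hB | hB) | (hB | hB | hB)
    · rw [hB, hk.1] at xo; exact absurd xo (by decide)
    · exact H.av j hj.le (by rw [hB])
    · have h2 := lc j
      rw [hB] at h2
      exact hψ1 _ hk.2 h2.symm
    · rw [hB, hg.1] at xo; exact absurd xo (by decide)
    · refine H.av (j + 1) (by omega) ?_
      rw [st_succ, hB, hg.stp h, cell_out h hg, H.cg]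
    · have h2 := lc j
      rw [hB] at h2
      have h3 := lc m
      rw [H.em] at h3
      exact hψ1 _ hg.2 (h3.trans h2.symm)
  have hTr2 : ∀ p, p ∈ Tr M x (BB M k g) (out M k) ↔ ∃ j ≤ m, st M x k j = p := by
    intro p
    constructor
    · rintro ⟨j, hj, hj'⟩
      refine ⟨j, ?_, hj⟩
      by_contra hc
      push Not at hc
      apply hj' m hc
      show st M x k m ∈ BB M k g
      rw [H.em]; exact memh1 M k g
    · rintro ⟨j, hj, rfl⟩
      exact ⟨j, rfl, fun i hi => nb i (by omega)⟩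
  refine noncross h hk hg (H.ne h) rfl H.cg G ((hTr2 _).2 ⟨m, le_rfl, H.em⟩) ?_
    ((hTr2 _).2 ⟨i, hi, rfl⟩) (n := n) rfl hc ?_
  · intro p hp
    obtain ⟨j, hj, rfl⟩ := (hTr2 p).1 hp
    exact H.av j hj
  · intro hq
    obtain ⟨j, hj, e⟩ := (hTr2 _).1 hq
    have := P.inj j (by omega) n hN e
    omega

/-- after the lobe the walker is at the cell `c` -/
theorem Lobe.back (H : Lobe M x k g m) (h : IsC M ∅ x) :
    M.cell (st M x k (m + 1)) = M.cell (M.rho k) := by
  rw [← out_of h H.hg H.em.symm, cell_out h H.hg, H.cg]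

/-- **the relation inside a lobe** -/
theorem Lobe.rel_iff (H : Lobe M x k g m) (h : IsC M ∅ x) (P : Per M x k N)
    (G : Gen M (M.cell (M.rho k))) (ha : Gp M x a) (hb : Gp M x b) {i j : ℕ}
    (ei : M.rho a = st M x k i) (ej : M.rho b = st M x k j) (hij : i < j) (hj : j ≤ m) :
    Rel M x a b ↔ ∀ s t, i < s → s ≤ j → t ≤ m → (t ≤ i ∨ j < t) →
      M.cell (st M x k s) ≠ M.cell (st M x k t) := by
  have hmN := H.lt h P
  rw [P.rel_iff h ha hb ei ej hij (by omega)]
  constructor
  · intro K s t h1 h2 h3 h4 e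
    rcases K (M.cell (st M x k s)) with K | K
    · exact K s h1 h2 rfl
    · exact K t (by omega) h4 e.symm
  · intro K e
    by_cases hs : ∀ s, i < s → s ≤ j → M.cell (st M x k s) ≠ e
    · exact Or.inl hs
    · right
      push Not at hs
      obtain ⟨s, h1, h2, rfl⟩ := hs
      intro t ht htt e
      by_cases htm : t ≤ m
      · exact K s t h1 h2 htm htt e.symm
      · push Not at htm
        by_cases hc : M.cell (st M x k t) = M.cell (M.rho k)
        · exact H.av s (by omega) (e.symm.trans hc)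
        · exact H.nc h P G (show s ≤ m by omega) htm ht hc e.symm

/-- **the relation with the first gap** -/
theorem Lobe.rel_k (H : Lobe M x k g m) (h : IsC M ∅ x) (P : Per M x k N)
    (G : Gen M (M.cell (M.rho k))) (ha : Gp M x a) {i : ℕ}
    (ei : M.rho a = st M x k i) (hi : i ≤ m) :
    Rel M x k a ↔ ∀ s t, i < s → s ≤ m → t ≤ i →
      M.cell (st M x k s) ≠ M.cell (st M x k t) := by
  have hmN := H.lt h P
  have hs : Rel M x k a ↔ Rel M x a k := ⟨rel_symm', rel_symm'⟩
  rw [hs, P.rel_iff h ha H.hk ei (P.last h H.hk).symm (by omega) (by omega)]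
  constructor
  · intro K s t h1 h2 h3 e
    rcases K (M.cell (st M x k s)) with K | K
    · exact K s h1 (by omega) rfl
    · exact K t (by omega) (Or.inl h3) e.symm
  · intro K e
    by_cases ht : ∀ t ≤ i, M.cell (st M x k t) ≠ e
    · right
      rintro t h1 (h2 | h2)
      · exact ht t h2
      · omega
    · left
      push Not at ht
      obtain ⟨t, h1, rfl⟩ := ht
      intro s h2 h3 e
      by_cases hsm : s ≤ m
      · exact K s t h2 hsm h1 e
      · push Not at hsm
        by_cases hc : M.cell (st M x k s) = M.cell (M.rho k)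
        · exact H.av t (by omega) (e.symm.trans hc)
        · exact H.nc h P G (show t ≤ m by omega) hsm (by omega) hc e.symm

/-- **gaps outside the lobe are not related to gaps inside** -/
theorem Lobe.rel_out (H : Lobe M x k g m) (h : IsC M ∅ x) (P : Per M x k N)
    (ha : Gp M x a) (hb : Gp M x b) {i j : ℕ}
    (ei : M.rho a = st M x k i) (ej : M.rho b = st M x k j) (hi : i ≤ m) (hj : m < j)
    (hjN : j < N - 1) : ¬ Rel M x a b := by
  intro K
  rw [P.rel_iff h ha hb ei ej (by omega) (by omega)] at K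
  rcases K (M.cell (M.rho k)) with K | K
  · exact K (m + 1) (by omega) (by omega) (H.back h)
  · exact K (N - 1) (by omega) (Or.inr (by omega)) (by rw [P.last h H.hk])

theorem Lobe.rel_out_k (H : Lobe M x k g m) (h : IsC M ∅ x) (P : Per M x k N)
    (hb : Gp M x b) {j : ℕ} (ej : M.rho b = st M x k j) (hj : m < j) (hjN : j < N - 1) :
    ¬ Rel M x k b := by
  intro K
  have K' := rel_symm' K
  rw [P.rel_iff h hb H.hk ej (P.last h H.hk).symm (by omega) (by omega)] at K'
  rcases K' (M.cell (M.rho k)) with K | K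
  · exact K (N - 1) (by omega) le_rfl (by rw [P.last h H.hk])
  · exact K (m + 1) (by omega) (Or.inl (by omega)) (H.back h)

/-- **the block of the first gap is a function of the lobe** -/
theorem Lobe.mem_blk [Fintype D] (H : Lobe M x k g m) (h : IsC M ∅ x)
    (G : Gen M (M.cell (M.rho k))) :
    b ∈ blk M x k ↔ b = k ∨ ∃ i ≤ m, M.rho b = st M x k i ∧ x b = 0 ∧
      ∀ s t, i < s → s ≤ m → t ≤ i → M.cell (st M x k s) ≠ M.cell (st M x k t) := by
  obtain ⟨N, P⟩ := exists_per h H.hk
  have hmN := H.lt h P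
  rw [Frame8x395.mem_blk]
  constructor
  · rintro ⟨hb, K⟩
    obtain ⟨j, hj, ej⟩ := rel_pos P h H.hk (P.last h H.hk).symm hb K
    by_cases h1 : j ≤ m
    · exact Or.inr ⟨j, h1, ej, hb.1, (H.rel_k h P G hb ej h1).1 K⟩
    · by_cases h2 : j < N - 1
      · exact absurd K (H.rel_out_k h P hb ej (by omega) h2)
      · left
        have h3 : j = N - 1 := by omega
        rw [h3, P.last h H.hk] at ej
        exact rho_inj M ej
  · rintro (rfl | ⟨i, hi, ei, hx, K⟩)
    · exact ⟨H.hk, rel_refl _⟩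
    · have hb : Gp M x b := ⟨hx, by rw [ei]; exact st_occ h H.hk i⟩
      exact ⟨hb, (H.rel_k h P G hb ei hi).2 K⟩

theorem Lobe.g_mem [Fintype D] (H : Lobe M x k g m) (h : IsC M ∅ x)
    (G : Gen M (M.cell (M.rho k))) : g ∈ blk M x k :=
  (H.mem_blk h G).2 (Or.inr ⟨m, le_rfl, H.em.symm, H.hg.1, fun s t h1 h2 _ => by omega⟩)

/-! ### transfer to another map or configuration -/

/-- the darts of the lobe are in `A` -/
def LIn (M : CMap D C) (x : D → ZMod 2) (k : D) (m : ℕ) (A : Set D) : Prop :=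
  k ∈ A ∧ ∀ j ≤ m, st M x k j ∈ A

/-- the block of `k` is contained in the faces of the lobe -/
theorem Lobe.blk_sub [Fintype D] (H : Lobe M x k g m) (h : IsC M ∅ x)
    (G : Gen M (M.cell (M.rho k))) {A : Set D} (hA : ∀ a, M.rho a ∈ A ↔ a ∈ A)
    (hL : LIn M x k m A) {b : D} (hb : b ∈ blk M x k) : b ∈ A := by
  rcases (H.mem_blk h G).1 hb with rfl | ⟨i, hi, e, -⟩
  · exact hL.1
  · rw [← hA, e]
    exact hL.2 i hi

variable {D' C' : Type} {M' : CMap D' C'} {x' : D' → ZMod 2}

/-- partial embedding, defined on the faces `A` -/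
structure Emb (M : CMap D C) (x : D → ZMod 2) (M' : CMap D' C') (x' : D' → ZMod 2) (A : Set D)
    (φ : D → D') : Prop where
  face : ∀ a, M.rho a ∈ A ↔ a ∈ A
  rho : ∀ a ∈ A, φ (M.rho a) = M'.rho (φ a)
  iota : ∀ a ∈ A, M.iota a ∈ A → φ (M.iota a) = M'.iota (φ a)
  x : ∀ a ∈ A, x' (φ a) = x a
  cell : ∀ a ∈ A, ∀ b ∈ A, M'.cell (φ a) = M'.cell (φ b) ↔ M.cell a = M.cell b

variable {A : Set D} {φ : D → D'}

theorem Emb.gp (E : Emb M x M' x' A φ) (ha : a ∈ A) : Gp M' x' (φ a) ↔ Gp M x a := by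
  unfold Gp
  rw [E.x a ha, ← E.rho a ha, E.x _ ((E.face a).2 ha)]

theorem Emb.stp (E : Emb M x M' x' A φ) {p : D} (hp : p ∈ A) (hs : stp M x p ∈ A) :
    stp M' x' (φ p) = φ (stp M x p) := by
  have h1 : M.rho p ∈ A := (E.face p).2 hp
  have h2 : M.rho (M.rho p) ∈ A := (E.face _).2 h1
  unfold Frame1x395.stp at hs ⊢
  rw [← E.rho p hp, E.x _ h1]
  by_cases hx : x (M.rho p) = 1
  · rw [if_pos hx] at hs ⊢
    rw [if_pos hx, E.iota _ h1 hs]
  · rw [if_neg hx] at hs ⊢
    rw [if_neg hx, E.iota _ h2 hs, E.rho _ h1]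

theorem Emb.out (E : Emb M x M' x' A φ) (hk : k ∈ A) (ho : out M k ∈ A) :
    out M' (φ k) = φ (out M k) := by
  have h1 : M.rho k ∈ A := (E.face k).2 hk
  have h2 : M.rho (M.rho k) ∈ A := (E.face _).2 h1
  unfold Frame3x395.out at ho ⊢
  rw [E.iota _ h2 ho, E.rho _ h1, E.rho _ hk]

theorem Emb.st (E : Emb M x M' x' A φ) (hL : LIn M x k m A) {j : ℕ} (hj : j ≤ m) :
    st M' x' (φ k) j = φ (st M x k j) := by
  induction j with
  | zero => exact E.out hL.1 (hL.2 0 (Nat.zero_le _))
  | succ j ih =>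
    have h1 := hL.2 (j + 1) hj
    rw [st_succ] at h1
    rw [st_succ, ih (by omega), E.stp (hL.2 j (by omega)) h1, st_succ]

/-- **lobes are transferred** -/
theorem Emb.lobe (E : Emb M x M' x' A φ) (H : Lobe M x k g m) (hL : LIn M x k m A) :
    Lobe M' x' (φ k) (φ g) m ∧ LIn M' x' (φ k) m (φ '' A) := by
  have hg : g ∈ A := by
    rw [← E.face, ← H.em]
    exact hL.2 m le_rfl
  have hk := hL.1
  have hrk : M.rho k ∈ A := (E.face k).2 hk
  refine ⟨⟨(E.gp hk).2 H.hk, (E.gp hg).2 H.hg, ?_, ?_, ?_⟩, ⟨k, hk, rfl⟩, ?_⟩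
  · rw [← E.rho k hk, E.cell g hg _ hrk]
    exact H.cg
  · rw [E.st hL le_rfl, H.em, E.rho g hg]
  · intro j hj
    rw [E.st hL hj, ← E.rho k hk, Ne, E.cell _ (hL.2 j hj) _ hrk]
    exact H.av j hj
  · intro j hj
    rw [E.st hL hj]
    exact ⟨_, hL.2 j hj, rfl⟩

/-- **lobes are blocks: the block of the first gap of a lobe does not depend on what is outside of
the lobe** -/
theorem Emb.blk [Fintype D] [Fintype D'] (E : Emb M x M' x' A φ) (h : IsC M ∅ x)
    (h' : IsC M' ∅ x') (H : Lobe M x k g m) (hL : LIn M x k m A)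
    (G : Gen M (M.cell (M.rho k))) (G' : Gen M' (M'.cell (M'.rho (φ k)))) :
    blk M' x' (φ k) = (blk M x k).image φ := by
  have H' := (E.lobe H hL).1
  have hk := hL.1
  ext b
  rw [H'.mem_blk h' G', Finset.mem_image]
  constructor
  · rintro (rfl | ⟨i, hi, ei, hx, K⟩)
    · exact ⟨k, (H.mem_blk h G).2 (Or.inl rfl), rfl⟩
    · have hs := hL.2 i hi
      have hs1 := (E.face _).2 hs
      have hs2 := (E.face _).2 hs1
      rw [E.st hL hi] at ei
      have eb : φ (M.rho (M.rho (Lobex565.st M x k i))) = b := by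
        rw [E.rho _ hs1, E.rho _ hs, ← ei, M'.rho3]
      refine ⟨M.rho (M.rho (Lobex565.st M x k i)), (H.mem_blk h G).2 (Or.inr ⟨i, hi, ?_, ?_, ?_⟩),
        eb⟩
      · rw [M.rho3]
      · rw [← E.x _ hs2, eb]
        exact hx
      · intro s t h1 h2 h3 e
        refine K s t h1 h2 h3 ?_
        rw [E.st hL h2, E.st hL (by omega), E.cell _ (hL.2 s h2) _ (hL.2 t (by omega))]
        exact e
  · rintro ⟨c, hc, rfl⟩
    rcases (H.mem_blk h G).1 hc with rfl | ⟨i, hi, ei, hx, K⟩
    · exact Or.inl rfl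
    · have hcA : c ∈ A := by
        rw [← E.face, ei]
        exact hL.2 i hi
      refine Or.inr ⟨i, hi, ?_, ?_, ?_⟩
      · rw [E.st hL hi, ← ei, E.rho c hcA]
      · rw [E.x c hcA]
        exact hx
      · intro s t h1 h2 h3 e
        rw [E.st hL h2, E.st hL (by omega), E.cell _ (hL.2 s h2) _ (hL.2 t (by omega))] at e
        exact K s t h1 h2 h3 e

/-! ### local blocks -/

/-- **local blocks**: blocks which contain a gap whose lobe is inside `K` (`K` = set of faces) -/
def LB [Fintype D] (M : CMap D C) (x : D → ZMod 2) (K : Set D) : Finset (Finset D) :=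
  (blks M x).filter fun β => ∃ k ∈ β, Gen M (M.cell (M.rho k)) ∧
    ∃ g m, Lobe M x k g m ∧ LIn M x k m K

section LBs

variable [Fintype D] {K K' : Set D}

theorem mem_LB {β : Finset D} : β ∈ LB M x K ↔ β ∈ blks M x ∧ ∃ k ∈ β,
    Gen M (M.cell (M.rho k)) ∧ ∃ g m, Lobe M x k g m ∧ LIn M x k m K := by
  unfold LB
  rw [Finset.mem_filter]

theorem LB_mono (h : K ⊆ K') : LB M x K ⊆ LB M x K' := by
  intro β hβ
  rw [mem_LB] at hβ ⊢
  obtain ⟨h1, k, hk, G, g, m, H, hL⟩ := hβ
  exact ⟨h1, k, hk, G, g, m, H, h hL.1, fun j hj => h (hL.2 j hj)⟩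

/-- local blocks are inside -/
theorem LB_sub (h : IsC M ∅ x) (hK : ∀ a, M.rho a ∈ K ↔ a ∈ K) {β : Finset D}
    (hβ : β ∈ LB M x K) : (β : Set D) ⊆ K := by
  rw [mem_LB] at hβ
  obtain ⟨h1, k, hk, G, g, m, H, hL⟩ := hβ
  have e := (mem_blks h h1 hk).2
  intro b hb
  rw [Finset.mem_coe, e] at hb
  exact H.blk_sub h G hK hL hb

theorem LB_nonempty {β : Finset D} (hβ : β ∈ LB M x K) : β.Nonempty := by
  rw [mem_LB] at hβ
  obtain ⟨-, k, hk, -⟩ := hβ
  exact ⟨k, hk⟩

theorem LB_disj (h : IsC M ∅ x) (hK : ∀ a, M.rho a ∈ K ↔ a ∈ K)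
    (hK' : ∀ a, M.rho a ∈ K' ↔ a ∈ K') (hd : Disjoint K K') :
    Disjoint (LB M x K) (LB M x K') := by
  rw [Finset.disjoint_left]
  intro β h1 h2
  obtain ⟨b, hb⟩ := LB_nonempty h1
  exact Set.disjoint_left.1 hd (LB_sub h hK h1 hb) (LB_sub h hK' h2 hb)

/-- **superadditivity** -/
theorem LB_super (h : IsC M ∅ x) {ι : Type*} (s : Finset ι) {Q : ι → Set D}
    (hQ : ∀ i ∈ s, ∀ a, M.rho a ∈ Q i ↔ a ∈ Q i) (hQK : ∀ i ∈ s, Q i ⊆ K)
    (hd : ∀ i ∈ s, ∀ j ∈ s, i ≠ j → Disjoint (Q i) (Q j)) {F : Finset D → ℝ}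
    (hF : ∀ β, 0 ≤ F β) :
    ∑ i ∈ s, ∑ β ∈ LB M x (Q i), F β ≤ ∑ β ∈ LB M x K, F β := by
  have hd' : (s : Set ι).PairwiseDisjoint fun i => LB M x (Q i) := by
    intro i hi j hj hij
    exact LB_disj h (hQ i hi) (hQ j hj) (hd i hi j hj hij)
  rw [← Finset.sum_biUnion hd']
  refine Finset.sum_le_sum_of_subset_of_nonneg ?_ fun β _ _ => hF β
  intro β hβ
  obtain ⟨i, hi, hβ⟩ := Finset.mem_biUnion.1 hβ
  exact LB_mono (hQK i hi) hβ

/-- **the frame bound for local blocks** -/
theorem LB_frame {w : ℂ} (w3 : w ^ 3 = 1) (w1 : w ≠ 1) (wc : (starRingEnd ℂ) w = w ^ 2)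
    {a : D → ℂ} (ha : Spin M w a) (hK : ∀ a, M.rho a ∈ K ↔ a ∈ K) :
    ∑ x ∈ ev M, ∑ β ∈ LB M x K, ‖∑ g ∈ β, a g‖ ^ 2 ≤
      ∑ g ∈ Finset.univ.filter (· ∈ K), ‖a g‖ ^ 2 * (nG M g : ℝ) := by
  set a' : D → ℂ := fun d => if d ∈ K then a d else 0 with ha'
  have hs : Spin M w a' := by
    intro d
    by_cases hd : d ∈ K
    · simp only [ha', if_pos hd, if_pos ((hK d).2 hd)]
      exact ha d
    · simp only [ha', if_neg hd, if_neg fun h => hd ((hK d).1 h), mul_zero]
  have e := i1_norm (M := M) w3 w1 wc hs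
  have e2 : ∑ g, ‖a' g‖ ^ 2 * (nG M g : ℝ) =
      ∑ g ∈ Finset.univ.filter (· ∈ K), ‖a g‖ ^ 2 * (nG M g : ℝ) := by
    rw [Finset.sum_filter]
    refine Finset.sum_congr rfl fun g _ => ?_
    by_cases hg : g ∈ K
    · simp only [ha', if_pos hg]
    · simp only [ha', if_neg hg]
      simp
  rw [← e2, ← e]
  refine Finset.sum_le_sum fun y hy => ?_
  rw [mem_ev] at hy
  calc ∑ β ∈ LB M y K, ‖∑ g ∈ β, a g‖ ^ 2 = ∑ β ∈ LB M y K, ‖∑ g ∈ β, a' g‖ ^ 2 := by
        refine Finset.sum_congr rfl fun β hβ => ?_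
        congr 2
        refine Finset.sum_congr rfl fun g hg => ?_
        simp only [ha', if_pos (LB_sub hy hK hβ hg)]
    _ ≤ _ := by
        refine Finset.sum_le_sum_of_subset_of_nonneg (Finset.filter_subset _ _) fun β _ _ => ?_
        positivity

end LBs

/-- **local blocks are transferred** -/
theorem Emb.LB [Fintype D] [Fintype D'] (E : Emb M x M' x' A φ) (h : IsC M ∅ x)
    (h' : IsC M' ∅ x') {K : Set D} (hKA : K ⊆ A)
    (hG : ∀ k ∈ K, Gen M (M.cell (M.rho k)) → Gen M' (M'.cell (M'.rho (φ k))))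
    {β : Finset D} (hβ : β ∈ LB M x K) : β.image φ ∈ LB M' x' (φ '' K) := by
  rw [mem_LB] at hβ ⊢
  obtain ⟨h1, k, hk, G, g, m, H, hL⟩ := hβ
  have hLA : LIn M x k m A := ⟨hKA hL.1, fun j hj => hKA (hL.2 j hj)⟩
  have G' := hG k hL.1 G
  have e := (mem_blks h h1 hk).2
  have e' := E.blk h h' H hLA G G'
  have H' := (E.lobe H hLA).1
  rw [e, ← e']
  refine ⟨Finset.mem_image.2 ⟨φ k, mem_gaps.2 H'.hk, rfl⟩, φ k, self_mem H'.hk, G', φ g, m, H',
    ⟨k, hL.1, rfl⟩, fun j hj => ?_⟩
  rw [E.st hLA hj]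
  exact ⟨_, hL.2 j hj, rfl⟩

end Crest.Agent.R143.Lobex565
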