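import Crest.Agent.R143.J4_872

/-!
# Row 143, leaf LOC (STEP 4 of 308's route), part A: removing a leg

`Rm` : the half edges of the walk which starts at `P0`.
* `pair_rm` : the two occupied sides of an even triangle are both on the walk or both off.
* `drop_leg` : a join with three legs from the odd triangle `t` to the three marks contains a join
  without odd triangle and with the two marks `Dd N d` only (the leg to `ex d` is removed).
-/

set_option autoImplicit false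

noncomputable section

open scoped Classical

namespace Crest.Agent.R143.LocAx873

open Crest.Agent.R143.B0x346 Crest.Agent.R143.JCardx872 Crest.Agent.R143.JWalkx872
  Crest.Agent.R143.J1x872 Crest.Agent.R143.J4x872

variable {V : Type} {G : Trg V} {kl : Set (V × V)} {O : Set (V × V × V)} {D : Set (V × V)}
  {J : Finset (V × V)} {N : Net V} {t : V × V × V}

/-- half edges on the walk from `P0` -/
def Rm (G : Trg V) (O : Set (V × V × V)) (D : Set (V × V)) (J : Finset (V × V))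
    (P0 p : V × V) : Prop := Leads G O D J P0 p ∨ Leads G O D J P0 (sw p)

theorem rm_sw {P0 p : V × V} : Rm G O D J P0 (sw p) ↔ Rm G O D J P0 p := by
  unfold Rm
  rw [sw_sw]
  exact or_comm

theorem walk_mem (hJ : IsJoin G kl O D J) {P0 m q : V × V} (h0 : P0 ∈ J ∨ sw P0 ∈ D)
    (h : Leads G O D J P0 m) (hs : Step G O D J m q) : m ∈ J := by
  rcases h0 with h0 | h0
  · exact leads_step_mem hJ h0 h hs
  · exfalso
    rcases Relation.ReflTransGen.cases_head h with h | ⟨x, hx, _⟩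
    · subst h
      exact step_pre hs h0
    · exact step_pre hx h0

theorem pair_rm (hJ : IsJoin G kl O D J) (hO : RotInv O) {P0 : V × V}
    (h0 : P0 ∈ J ∨ sw P0 ∈ D)
    (hP : ∀ c, (P0.2, P0.1, c) ∈ G.T → (P0.2, P0.1, c) ∈ O)
    {a b c : V} (ht : (a, b, c) ∈ G.T) (htO : (a, b, c) ∉ O) (h1 : (a, b) ∈ J)
    (h2 : (b, c) ∈ J) : Rm G O D J P0 (a, b) ↔ Rm G O D J P0 (b, c) := by
  have hpar := hJ.par _ _ _ ht
  rw [if_neg htO] at hpar
  have h3 : (c, a) ∉ J := by
    intro h3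
    simp only [h1, h2, h3, if_true] at hpar
    omega
  have htO' : (b, c, a) ∉ O := fun h => htO (hO _ _ _ (hO _ _ _ h))
  have s1 : Step G O D J (a, b) (c, b) := ⟨c, ht, htO, occ_notMark hJ h1, Or.inl ⟨h2, rfl⟩⟩
  have s2 : Step G O D J (b, c) (b, a) :=
    ⟨a, G.rot ht, htO', occ_notMark hJ h2, Or.inr ⟨h1, h3, rfl⟩⟩
  constructor
  · rintro (h | h)
    · exact Or.inr (h.tail s1)
    · rcases Relation.ReflTransGen.cases_tail h with h | ⟨m, hm, hs⟩
      · exfalso
        apply htO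
        have e : P0 = (b, a) := h.symm
        rw [e] at hP
        exact hP c ht
      · have hmJ := walk_mem hJ h0 hm hs
        have hr : Step G O D J (a, b) (m.2, m.1) := step_rev hJ hO hmJ hs
        have e := step_det hr s1
        have : m = (b, c) := by
          rw [Prod.mk.injEq] at e
          exact Prod.ext e.2 e.1
        rw [this] at hm
        exact Or.inl hm
  · rintro (h | h)
    · exact Or.inr (h.tail s2)
    · rcases Relation.ReflTransGen.cases_tail h with h | ⟨m, hm, hs⟩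
      · exfalso
        apply htO'
        have e : P0 = (c, b) := h.symm
        rw [e] at hP
        exact hP a (G.rot ht)
      · have hmJ := walk_mem hJ h0 hm hs
        have hr : Step G O D J (b, c) (m.2, m.1) := step_rev hJ hO hmJ hs
        have e := step_det hr s2
        have : m = (a, b) := by
          rw [Prod.mk.injEq] at e
          exact Prod.ext e.2 e.1
        rw [this] at hm
        exact Or.inl hm

/-- the marks different from `ex d` -/
def Dd (N : Net V) (d : ZMod 3) : Set (V × V) := N.exS \ {N.ex d}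

theorem Dd_sub {d : ZMod 3} : Dd N d ⊆ N.exS := fun _ h => h.1

theorem ex_Dd (hg : Good N) {d s : ZMod 3} (h : s ≠ d) : N.ex s ∈ Dd N d :=
  ⟨⟨s, rfl⟩, fun e => h (hg.inj e)⟩

theorem exS_cases {d : ZMod 3} {p : V × V} (hp : p ∈ N.exS) : p = N.ex d ∨ p ∈ Dd N d := by
  by_cases h : p = N.ex d
  · exact Or.inl h
  · exact Or.inr ⟨hp, h⟩

theorem par_remove (X1 X2 X3 R1 R2 R3 : Prop) {d1 : Decidable X1} {d2 : Decidable X2}
    {d3 : Decidable X3} {e1 : Decidable (X1 ∧ ¬ R1)} {e2 : Decidable (X2 ∧ ¬ R2)}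
    {e3 : Decidable (X3 ∧ ¬ R3)}
    (h : (((if X1 then 1 else 0) + (if X2 then 1 else 0) + (if X3 then 1 else 0) : ℕ) % 2 = 0))
    (h12 : X1 → X2 → (R1 ↔ R2)) (h23 : X2 → X3 → (R2 ↔ R3)) (h31 : X3 → X1 → (R3 ↔ R1)) :
    (((if X1 ∧ ¬ R1 then 1 else 0) + (if X2 ∧ ¬ R2 then 1 else 0) +
      (if X3 ∧ ¬ R3 then 1 else 0) : ℕ) % 2 = 0) := by
  by_cases q1 : X1 <;> by_cases q2 : X2 <;> by_cases q3 : X3
  · simp [q1, q2, q3] at h
  · have e := h12 q1 q2
    by_cases g : R1
    · have g' := e.1 g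
      simp [q3, g, g']
    · have g' : ¬ R2 := fun h => g (e.2 h)
      simp [q1, q2, q3, g, g']
  · have e := h31 q3 q1
    by_cases g : R1
    · have g' := e.2 g
      simp [q2, g, g']
    · have g' : ¬ R3 := fun h => g (e.1 h)
      simp [q1, q2, q3, g, g']
  · simp [q1, q2, q3] at h
  · have e := h23 q2 q3
    by_cases g : R2
    · have g' := e.1 g
      simp [q1, g, g']
    · have g' : ¬ R3 := fun h => g (e.2 h)
      simp [q1, q2, q3, g, g']
  · simp [q1, q2, q3] at h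
  · simp [q1, q2, q3] at h
  · simp [q1, q2, q3]

theorem par_two (P0 P1 P2 X0 X1 X2 : Prop) {d0 : Decidable X0} {d1 : Decidable X1}
    {d2 : Decidable X2} (h0 : X0 ↔ ¬ P0) (h1 : X1 ↔ ¬ P1) (h2 : X2 ↔ ¬ P2)
    (h : (P0 ∧ ¬ P1 ∧ ¬ P2) ∨ (¬ P0 ∧ P1 ∧ ¬ P2) ∨ (¬ P0 ∧ ¬ P1 ∧ P2)) :
    ((if X0 then 1 else 0) + (if X1 then 1 else 0) + (if X2 then 1 else 0) : ℕ) % 2 = 0 := by
  rcases h with ⟨a0, a1, a2⟩ | ⟨a0, a1, a2⟩ | ⟨a0, a1, a2⟩
  · rw [if_neg (fun h => h0.1 h a0), if_pos (h1.2 a1), if_pos (h2.2 a2)]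
  · rw [if_pos (h0.2 a0), if_neg (fun h => h1.1 h a1), if_pos (h2.2 a2)]
  · rw [if_pos (h0.2 a0), if_pos (h1.2 a1), if_neg (fun h => h2.1 h a2)]

theorem rot_one (P0 P1 P2 : Prop)
    (h : (P0 ∧ ¬ P1 ∧ ¬ P2) ∨ (¬ P0 ∧ P1 ∧ ¬ P2) ∨ (¬ P0 ∧ ¬ P1 ∧ P2)) :
    (P1 ∧ ¬ P2 ∧ ¬ P0) ∨ (¬ P1 ∧ P2 ∧ ¬ P0) ∨ (¬ P1 ∧ ¬ P2 ∧ P0) := by
  rcases h with ⟨a0, a1, a2⟩ | ⟨a0, a1, a2⟩ | ⟨a0, a1, a2⟩
  · exact Or.inr (Or.inr ⟨a1, a2, a0⟩)
  · exact Or.inl ⟨a1, a2, a0⟩
  · exact Or.inr (Or.inl ⟨a1, a2, a0⟩)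

/-- removal of the leg to `ex d` -/
theorem drop_leg (hg : Good N) (ht : t ∈ N.T) (hJ : IsJoin N.toTrg N.kl (rots t) N.exS J)
    {k : ZMod 3} (h3 : N.Tri3 t k J) (d : ZMod 3) :
    ∃ J' ⊆ J, IsJoin N.toTrg N.kl ∅ (Dd N d) J' := by
  rw [tri3_iff] at h3
  obtain ⟨hall, hen⟩ := h3
  set i0 : ZMod 3 := d - k with hi0
  have hen0 : En N t J i0 d := by
    have := hen i0
    have e : i0 + k = d := by rw [hi0]; ring
    rwa [e] at this
  set P0 : V × V := sw (sd t i0) with hP0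
  set R : V × V → Prop := Rm N.toTrg (rots t) N.exS J P0 with hR
  have hO := rotInv_rots t
  have h0 : P0 ∈ J ∨ sw P0 ∈ N.exS := sw_occ hg ht hJ (hall i0)
  -- the triangle behind `P0`
  have hP : ∀ c, (P0.2, P0.1, c) ∈ N.T → (P0.2, P0.1, c) ∈ rots t := by
    intro c hc
    obtain ⟨z, hz, hz'⟩ := sd_tri ht i0
    have e : (P0.2, P0.1, c) = ((sd t i0).1, (sd t i0).2, c) := rfl
    rw [e] at hc ⊢
    have := N.uniq hc hz
    rw [this]
    exact hz'
  have R0 : R (N.ex d) := Or.inr hen0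
  -- the other marks stay
  have hmk : ∀ j : ZMod 3, j ≠ d → ¬ R (N.ex j) := by
    rintro j hj (h | h)
    · rcases Relation.ReflTransGen.cases_tail h with h | ⟨m, _, hs⟩
      · exact sw_sd_notMark hg ht i0 ⟨j, h⟩
      · exact mark_pre hJ (mem_exS j) m hs
    · exact hj (ends_unique hg (le_refl _) h hen0)
  have Ri0 : R (sd t i0) := by
    right
    exact Relation.ReflTransGen.refl
  have Rj : ∀ j, j ≠ i0 → ¬ R (sd t j) := by
    rintro j hj (h | h)
    · exact en_ba hg ht (hall j) hen0 h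
    · rcases Relation.ReflTransGen.cases_tail h with h | ⟨m, _, hs⟩
      · have : sd t j = sd t i0 := by
          have := congrArg sw h
          rwa [sw_sw, hP0, sw_sw] at this
        exact hj (sd_inj ht this)
      · obtain ⟨z, hz, hz'⟩ := sd_tri ht j
        exact side_pre hO hz hz' m hs
  have memJ' : ∀ p, p ∈ J.filter (fun p => ¬ R p) ↔ p ∈ J ∧ ¬ R p := fun p => Finset.mem_filter
  refine ⟨J.filter (fun p => ¬ R p), Finset.filter_subset _ _, ?_, ?_, ?_, ?_, ?_, ?_⟩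
  · exact (Finset.filter_subset _ _).trans hJ.sub
  · intro a b h1 h2
    have hsw : R (b, a) ↔ R (a, b) := rm_sw (p := (a, b))
    rw [memJ', memJ', hsw]
    by_cases e1 : (a, b) ∈ N.exS
    · rcases exS_cases (d := d) e1 with e | e
      · rw [e]
        exact ⟨fun h => absurd R0 h.2, fun h => absurd R0 h.2⟩
      · exact absurd e h1
    · by_cases e2 : (b, a) ∈ N.exS
      · rcases exS_cases (d := d) e2 with e | e
        · have : R (a, b) := by rw [← hsw, e]; exact R0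
          exact ⟨fun h => absurd this h.2, fun h => absurd this h.2⟩
        · exact absurd e h2
      · have := hJ.sym a b e1 e2
        tauto
  · intro a b h
    have hm := hJ.mark a b (Dd_sub h)
    rw [memJ', memJ']
    refine ⟨⟨hm.1, ?_⟩, fun h' => hm.2 h'.1⟩
    obtain ⟨⟨j, hj⟩, h2⟩ := h
    rw [← hj]
    refine hmk j ?_
    rintro rfl
    exact h2 hj.symm
  · intro a b h1 h2
    have hsw : R (b, a) ↔ R (a, b) := rm_sw (p := (a, b))
    rw [memJ', memJ', hsw]
    by_cases e1 : (a, b) ∈ N.exS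
    · rcases exS_cases (d := d) e1 with e | e
      · rw [e]
        exact ⟨fun h => h.2 R0, fun h => h.2 R0⟩
      · exact absurd e h2
    · have := hJ.bdr a b h1 e1
      tauto
  · intro a b h1 h2 h3
    rw [memJ', memJ']
    have e1 : (a, b) ∉ N.exS := by
      intro e1
      rcases exS_cases (d := d) e1 with e | e
      · exact hg.live d (e ▸ h1)
      · exact h2 e
    have e2 : (b, a) ∉ N.exS := by
      intro e2
      rcases exS_cases (d := d) e2 with e | e
      · exact hg.live d (e ▸ N.klsym _ _ h1)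
      · exact h3 e
    have := hJ.kill a b h1 e1 e2
    tauto
  · intro a b c hT
    rw [if_neg (Set.notMem_empty _)]
    by_cases hs : (a, b, c) ∈ rots t
    · -- all three sides of `t` are occupied, exactly one is removed
      have c0 : R (sd t 0) ↔ i0 = 0 := ⟨fun h => by
        by_contra h'
        exact Rj 0 (fun e => h' e.symm) h, fun h => by rw [← h]; exact Ri0⟩
      have c1 : R (sd t 1) ↔ i0 = 1 := ⟨fun h => by
        by_contra h'
        exact Rj 1 (fun e => h' e.symm) h, fun h => by rw [← h]; exact Ri0⟩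
      have c2 : R (sd t 2) ↔ i0 = 2 := ⟨fun h => by
        by_contra h'
        exact Rj 2 (fun e => h' e.symm) h, fun h => by rw [← h]; exact Ri0⟩
      have m0 := (memJ' (sd t 0)).trans ((by rw [c0]) : _ ↔ (sd t 0 ∈ J ∧ ¬ i0 = 0))
      have m1 := (memJ' (sd t 1)).trans ((by rw [c1]) : _ ↔ (sd t 1 ∈ J ∧ ¬ i0 = 1))
      have m2 := (memJ' (sd t 2)).trans ((by rw [c2]) : _ ↔ (sd t 2 ∈ J ∧ ¬ i0 = 2))
      rw [and_iff_right (hall 0), sd0] at m0
      rw [and_iff_right (hall 1), sd1] at m1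
      rw [and_iff_right (hall 2), sd2] at m2
      have h01 : (0 : ZMod 3) ≠ 1 := by decide
      have h02 : (0 : ZMod 3) ≠ 2 := by decide
      have h12 : (1 : ZMod 3) ≠ 2 := by decide
      have one : (i0 = 0 ∧ ¬ i0 = 1 ∧ ¬ i0 = 2) ∨ (¬ i0 = 0 ∧ i0 = 1 ∧ ¬ i0 = 2) ∨
          (¬ i0 = 0 ∧ ¬ i0 = 1 ∧ i0 = 2) := by
        rcases cases_z3 i0 with h | h | h
        · rw [h]; exact Or.inl ⟨rfl, h01, h02⟩
        · rw [h]; exact Or.inr (Or.inl ⟨h01.symm, rfl, h12⟩)
        · rw [h]; exact Or.inr (Or.inr ⟨h02.symm, h12.symm, rfl⟩)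
      obtain ⟨x, y, z⟩ := t
      simp only [rots, Set.mem_insert_iff, Set.mem_singleton_iff, Prod.mk.injEq] at hs
      simp only at m0 m1 m2
      rcases hs with ⟨rfl, rfl, rfl⟩ | ⟨rfl, rfl, rfl⟩ | ⟨rfl, rfl, rfl⟩
      · exact par_two _ _ _ _ _ _ m0 m1 m2 one
      · exact par_two _ _ _ _ _ _ m1 m2 m0 (rot_one _ _ _ one)
      · exact par_two _ _ _ _ _ _ m2 m0 m1 (rot_one _ _ _ (rot_one _ _ _ one))
    · have hpar := hJ.par _ _ _ hT
      rw [if_neg hs] at hpar
      have hs1 : (b, c, a) ∉ rots t := fun h => hs (hO _ _ _ (hO _ _ _ h))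
      have hs2 : (c, a, b) ∉ rots t := fun h => hs (hO _ _ _ h)
      have p1 := pair_rm hJ hO h0 hP hT hs
      have p2 := pair_rm hJ hO h0 hP (N.rot hT) hs1
      have p3 := pair_rm hJ hO h0 hP (N.rot (N.rot hT)) hs2
      simp only [memJ']
      exact par_remove _ _ _ _ _ _ hpar p1 p2 p3

end Crest.Agent.R143.LocAx873
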