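import Crest.Agent.R143.Sep3_686

/-!
# Row 143 (S0194), LOCX of note 3970: crossing half (helper336)

* `first_mem` : the first element of a list which lies in a set
* `KR`, `KL` : right / left sites of the two arcs next to the gate `k`
* **`col_link`** : the upper arm of the neck of the gate `k`, cut at its first right site `u`, is
  linked to `y k` through left and right sites of the two arcs
* **`col_cross`** : a chain inside the strip which crosses the window of the gate `k` and avoids the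
  left and right sites of the two arcs and the lower part `DN` meets the upper arm ABOVE `u`
* **`cross_gate`** : the form of 776: `InG` at the gate `k`, `Z0` contains the right sites; a link
  `PA` off `Z0`, off `dn`, inside `b0 < Y < b1`, from `X ≤ x0` to `x1 ≤ X` contains a site `s` of `up`
  above the first site of `up` in `Z0`: `Lk S {s | s ∈ up ∧ s ∉ Z0} (up.head) s`
* `cross_gate_list` : the same for a list
* **`vert_chain`** : the vertical chain itself (776's refined form)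
-/

set_option autoImplicit false

noncomputable section

open scoped Classical

namespace Crest.Agent.R143.LocBx336

open Crest.Agent.R143.B0x346 Crest.Agent.R143.DelGx806 Crest.Agent.R143.DelRx806
open Crest.Agent.R143.JColx54 (delT_rot)
open Crest.Agent.R143.ToolWx838 Crest.Agent.R143.Blkx838 Crest.Agent.R143.ToolW2x838
open Crest.Agent.R143.ToolW3x838 Crest.Agent.R143.Gatex838 Crest.Agent.R143.Neckx921
open Crest.Agent.R143.Frame1x395 Crest.Agent.R143.Frame2x395 Crest.Agent.R143.Frame3x395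
  Crest.Agent.R143.Frame4x395 Crest.Agent.R143.Frame8x395 Crest.Agent.R143.Frame9x395
  Crest.Agent.R143.Frame10x395 Crest.Agent.R143.Frame11x395
open Crest.Agent.R143.Frame5x395 (sd mem_sd th th_spec)
open Crest.Agent.R143.Splx117 Crest.Agent.R143.WLocx713 Crest.Agent.R143.RingDx117
  Crest.Agent.R143.CorrDx117 Crest.Agent.R143.Sepx686

variable {S : Finset ℂ} {χ : ℂ → ZMod 2}

/-- the first element of `l` in the set `R` -/
theorem first_mem {R : Set ℂ} (l : List ℂ) (h : ∃ s ∈ l, s ∈ R) :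
    ∃ l1 u l2, l = l1 ++ u :: l2 ∧ u ∈ R ∧ ∀ s ∈ l1, s ∉ R := by
  induction l with
  | nil => simp at h
  | cons a l ih =>
    by_cases ha : a ∈ R
    · exact ⟨[], a, l, rfl, ha, by simp⟩
    · obtain ⟨s, hs, hs'⟩ := h
      have hsl : s ∈ l := by
        rcases List.mem_cons.1 hs with h | h
        · exact absurd (h ▸ hs') ha
        · exact h
      obtain ⟨l1, u, l2, e, hu, hl⟩ := ih ⟨s, hsl, hs'⟩
      refine ⟨a :: l1, u, l2, by rw [e]; rfl, hu, ?_⟩
      intro s hs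
      rcases List.mem_cons.1 hs with h | h
      · rw [h]; exact ha
      · exact hl s h

section corr

variable {hS : GP (S : Set ℂ)} {hχ : HullC S χ} {n : ℕ} {y z : ℕ → ℂ} {A B : ℕ → Set ℂ}
  {p : ℕ → D0 S}

/-- right sites of the two arcs next to the gate `k` -/
def KR (S : Finset ℂ) (χ : ℂ → ZMod 2) (p : ℕ → D0 S) (t : ℕ → ℕ) (k : ℕ) : Set ℂ :=
  {s | ∃ j, (j = k ∨ j + 1 = k) ∧ s ∈ RS S χ (p (j + 1)).1 (t j)}

/-- left sites of the two arcs next to the gate `k` -/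
def KL (S : Finset ℂ) (χ : ℂ → ZMod 2) (p : ℕ → D0 S) (t : ℕ → ℕ) (k : ℕ) : Set ℂ :=
  {s | ∃ j, (j = k ∨ j + 1 = k) ∧ s ∈ LS S χ (p (j + 1)).1 (t j)}

variable {D : DCorr hS hχ n y z A B p} {t : ℕ → ℕ}

/-- every right site has a left neighbour with the same time -/
theorem right_left (hS : GP (S : Set ℂ)) (hχ : HullC S χ) {e : ℂ × ℂ} (h : Occ S χ e) {m : ℕ}
    {s : ℂ} (hs : s ∈ RS S χ e m) : ∃ v ∈ LS S χ e m, DE S v s := by
  obtain ⟨i, hi, rfl⟩ := hs
  have ho := (h.it hS hχ i).1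
  exact ⟨_, ⟨i, hi, rfl⟩, Or.inl ⟨_, th_spec ho⟩⟩

/-- a right site is linked to `y k` through itself and left sites -/
theorem Back.to_y (T : Back D t) {k : ℕ} (_hk1 : 1 ≤ k) (hkn : k < n) {s : ℂ}
    (hs : s ∈ KR S χ p t k) : Lk S (KR S χ p t k ∪ KL S χ p t k) s (y k) := by
  obtain ⟨j, hj, hs'⟩ := hs
  have hjn : j < n := by omega
  obtain ⟨v, hv, hd⟩ := right_left hS hχ (occ_p D (show j + 1 ≤ n by omega)) hs'
  have hvL : v ∈ KL S χ p t k := ⟨j, hj, hv⟩
  have h1 : Lk S (KR S χ p t k ∪ KL S χ p t k) s v :=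
    ⟨⟨Or.inl ⟨j, hj, hs'⟩, Or.inr hvL⟩, .single ⟨hd.symm, Or.inl ⟨j, hj, hs'⟩, Or.inr hvL⟩⟩
  have h2 : Lk S (LS S χ (p (j + 1)).1 (t j)) (y k) v := by
    have h3 := T.llk hjn hv
    rcases hj with h | h
    · rw [← h]; exact h3.2
    · rw [← h]; exact h3.1
  exact h1.trans ((h2.mono fun s hs => Or.inr ⟨j, hj, hs⟩).symm)

theorem z_KR (T : Back D t) {k : ℕ} (hkn : k < n) : z k ∈ KR S χ p t k := by
  refine ⟨k, Or.inl rfl, t k, le_rfl, ?_⟩
  rw [T.arr k hkn, D.st k (by omega)]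

theorem y_KL (T : Back D t) {k : ℕ} (hkn : k < n) : y k ∈ KL S χ p t k := by
  refine ⟨k, Or.inl rfl, t k, le_rfl, ?_⟩
  rw [T.arr k hkn, D.st k (by omega)]

/-- **the upper arm, cut at its first right site, is linked to `y k`** -/
theorem Back.col_link (T : Back D t) {k : ℕ} (hk1 : 1 ≤ k) (hkn : k < n) {up : List ℂ}
    (hup : up ≠ []) (dup : ∀ q ∈ prs up, DE S q.1 q.2) (hlast : up.getLast hup = z k) :
    ∃ up1 u up2, up = up1 ++ u :: up2 ∧ u ∈ KR S χ p t k ∧ (∀ s ∈ up1, s ∉ KR S χ p t k) ∧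
      Lk S ({s | s ∈ up1} ∪ (KR S χ p t k ∪ KL S χ p t k)) (up.head hup) (y k) := by
  obtain ⟨up1, u, up2, e, hu, h1⟩ := first_mem (R := KR S χ p t k) up
    ⟨z k, by rw [← hlast]; exact List.getLast_mem _, z_KR T hkn⟩
  refine ⟨up1, u, up2, e, hu, h1, ?_⟩
  have hc : ∀ q ∈ prs (up1 ++ [u]), DE S q.1 q.2 := by
    have h2 := (isChain_iff_prs (R := DE S) up).2 dup
    rw [e, show up1 ++ u :: up2 = (up1 ++ [u]) ++ up2 by simp, List.isChain_append] at h2
    exact (isChain_iff_prs (R := DE S) _).1 h2.1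
  have hne : up1 ++ [u] ≠ [] := by simp
  have hhead : (up1 ++ [u]).head hne = up.head hup := by
    subst e
    cases up1 <;> rfl
  have h3 : Lk S {s | s ∈ up1 ++ [u]} (up.head hup) u := by
    refine lk_list hc (fun s hs => hs) ?_ (by simp)
    rw [← hhead]
    exact List.head_mem _
  refine (h3.mono ?_).trans ((Back.to_y T hk1 hkn hu).mono Set.subset_union_right)
  intro s hs
  rcases List.mem_append.1 hs with h | h
  · exact Or.inl h
  · rw [List.mem_singleton] at h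
    rw [h]
    exact Or.inr (Or.inl hu)

/-- **the crossing**: `P` crosses the window of the gate `k` inside `c0 < Y < c1` and avoids the left
and right sites of the two arcs and the lower part `DN`; then it meets the upper arm above `u` -/
theorem Back.col_cross (T : Back D t) (hS' : GP (S : Set ℂ)) {k : ℕ} (hk1 : 1 ≤ k) (hkn : k < n)
    {z0 e : ℂ} (he : e ≠ 0) {c0 c1 x0 x1 : ℝ} {up : List ℂ} (hup : up ≠ [])
    (dup : ∀ q ∈ prs up, DE S q.1 q.2) (hlast : up.getLast hup = z k)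
    (hupX : ∀ s ∈ up, x0 < X z0 e s ∧ X z0 e s < x1) (htop : c1 ≤ Y z0 e (up.head hup))
    (hBX : ∀ j, j = k ∨ j + 1 = k → ∀ s ∈ S, s ∈ B j → x0 < X z0 e s ∧ X z0 e s < x1)
    {DN : Set ℂ} {w : ℂ} (hDN : Lk S DN (y k) w) (hw : Y z0 e w ≤ c0)
    (hDNX : ∀ s ∈ DN, x0 < X z0 e s ∧ X z0 e s < x1) :
    ∃ up1 u up2, up = up1 ++ u :: up2 ∧ u ∈ KR S χ p t k ∧ (∀ s ∈ up1, s ∉ KR S χ p t k) ∧
      ∀ (P : List ℂ) (hP : P ≠ []), (∀ q ∈ prs P, DE S q.1 q.2) →
        (∀ s ∈ P, c0 < Y z0 e s ∧ Y z0 e s < c1) → X z0 e (P.head hP) ≤ x0 →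
        x1 ≤ X z0 e (P.getLast hP) →
        (∀ s ∈ P, s ∉ KR S χ p t k ∧ s ∉ KL S χ p t k ∧ s ∉ DN) → ∃ s, s ∈ P ∧ s ∈ up1 := by
  obtain ⟨up1, u, up2, e1, hu, h1, h2⟩ := Back.col_link T hk1 hkn hup dup hlast
  refine ⟨up1, u, up2, e1, hu, h1, ?_⟩
  intro P hP dP hPy hP0 hP1 hoff
  have hKS : ∀ s ∈ KR S χ p t k ∪ KL S χ p t k, x0 < X z0 e s ∧ X z0 e s < x1 := by
    have key : ∀ (j i : ℕ), j = k ∨ j + 1 = k →
        ((nx S χ)^[i] (p (j + 1)).1).1 ∈ S ∧ ((nx S χ)^[i] (p (j + 1)).1).2 ∈ S := by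
      intro j i hj
      have ho := ((occ_p D (show j + 1 ≤ n by omega)).it hS hχ i).1
      have h3 := mem_delT.1 (th_spec ho)
      exact ⟨h3.1, h3.2.1⟩
    rintro s (⟨j, hj, hs⟩ | ⟨j, hj, hs⟩)
    · have hB := T.rB j (by omega) hs
      obtain ⟨i, hi, rfl⟩ := hs
      exact hBX j hj _ (key j i hj).2 hB
    · have hB := T.lB j (by omega) hs
      obtain ⟨i, hi, rfl⟩ := hs
      exact hBX j hj _ (key j i hj).1 hB
  have h3 : Lk S (({s | s ∈ up1} ∪ (KR S χ p t k ∪ KL S χ p t k)) ∪ DN) w (up.head hup) :=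
    ((h2.mono Set.subset_union_left).trans (hDN.mono Set.subset_union_right)).symm
  obtain ⟨s, hs1, hs2⟩ := cross_lk hS' he hP dP hPy hP0 hP1
    (A := ({s | s ∈ up1} ∪ (KR S χ p t k ∪ KL S χ p t k)) ∪ DN)
    (by
      rintro s ((hs | hs) | hs)
      · exact hupX s (by rw [e1]; exact List.mem_append_left _ hs)
      · exact hKS s hs
      · exact hDNX s hs) h3 hw htop
  refine ⟨s, hs1, ?_⟩
  obtain ⟨g1, g2, g3⟩ := hoff s hs1
  rcases hs2 with (hs2 | hs2 | hs2) | hs2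
  · exact hs2
  · exact absurd hs2 g1
  · exact absurd hs2 g2
  · exact absurd hs2 g3

/-- a list of sites cut at its first site in `Z0`: the prefix is linked to the head -/
theorem prefix_lk {Z0 : Set ℂ} {up up1 up2 : List ℂ} {u : ℂ} (hup : up ≠ [])
    (dup : ∀ q ∈ prs up, DE S q.1 q.2) (e : up = up1 ++ u :: up2) (h1 : ∀ s ∈ up1, s ∉ Z0) {s : ℂ}
    (hs : s ∈ up1) : Lk S {s | s ∈ up ∧ s ∉ Z0} (up.head hup) s := by
  have hc : ∀ q ∈ prs up1, DE S q.1 q.2 := by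
    have h2 := (isChain_iff_prs (R := DE S) up).2 dup
    rw [e, List.isChain_append] at h2
    exact (isChain_iff_prs (R := DE S) _).1 h2.1
  have hne : up1 ≠ [] := by rintro rfl; simp at hs
  have hhead : up1.head hne = up.head hup := by
    subst e
    cases up1 with
    | nil => exact absurd rfl hne
    | cons a l => rfl
  have h3 : Lk S {s | s ∈ up1} (up.head hup) s := by
    refine lk_list hc (fun s hs => hs) ?_ hs
    rw [← hhead]
    exact List.head_mem _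
  refine h3.mono fun s hs => ⟨?_, h1 s hs⟩
  rw [e]
  exact List.mem_append_left _ hs

/-- **LOCX, the crossing at one straight gate** (776's form, link) -/
theorem cross_gate (T : Back D t) {k : ℕ} {z0 e : ℂ} {a0 a1 b0 b1 m x0 x1 : ℝ} {V β : Finset ℂ}
    {up dn : List ℂ} (G : InG S χ n y z A B k z0 e a0 a1 b0 b1 m x0 x1 V β up dn)
    (farU : ∀ j, j < n → j ≠ k → j + 1 ≠ k → ∀ s ∈ up, s ∉ B j) {Z0 : Set ℂ}
    (hR : ∀ j, j < n → ∀ s ∈ RS S χ (p (j + 1)).1 (t j), s ∈ Z0) (hy : y k ∈ Z0)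
    (hZu : ∀ s ∈ up, s ∈ Z0 → ∃ j, j < n ∧ s ∈ RS S χ (p (j + 1)).1 (t j)) {PA : Set ℂ} {a b : ℂ}
    (hP : Lk S PA a b) (hPZ : ∀ s ∈ PA, s ∉ Z0) (hPd : ∀ s ∈ PA, s ∉ dn)
    (hPy : ∀ s ∈ PA, b0 < Y z0 e s ∧ Y z0 e s < b1) (ha : X z0 e a ≤ x0) (hb : x1 ≤ X z0 e b) :
    ∃ s, s ∈ PA ∧ s ∈ up ∧ Lk S {s | s ∈ up ∧ s ∉ Z0} (up.head G.neck.nu) s := by
  have hadj := G.neck.adj
  rw [← isChain_iff_prs, List.isChain_append] at hadj
  obtain ⟨c1, c2, -⟩ := hadj
  have dup := (isChain_iff_prs (R := DE S) up).1 c1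
  have hk2 := G.h2
  have hk3 := G.h3
  have hzk : z k ∈ RS S χ (p (k + 1)).1 (t k) := by
    refine ⟨t k, le_rfl, ?_⟩
    rw [T.arr k (by omega), D.st k (by omega)]
  obtain ⟨up1, u, up2, e1, hu, h1⟩ := first_mem (R := Z0) up
    ⟨z k, by rw [← G.upz]; exact List.getLast_mem _, hR k (by omega) _ hzk⟩
  have huup : u ∈ up := by rw [e1]; simp
  obtain ⟨j, hj, huj⟩ := hZu u huup hu
  have hjk : j = k ∨ j + 1 = k := by
    by_contra hc
    push Not at hc
    exact farU j hj hc.1 hc.2 u huup (T.rB j hj huj)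
  have hlk : Lk S (RS S χ (p (j + 1)).1 (t j)) (z k) u := by
    have h3 := T.rlk hj huj
    rcases hjk with h | h
    · rw [← h]; exact h3.2
    · rw [← h]; exact h3.1
  -- the vertical link
  set RJ : Set ℂ := RS S χ (p (j + 1)).1 (t j) with hRJ
  set VV : Set ℂ := ({s | s ∈ up1} ∪ RJ) ∪ {s | s ∈ y k :: dn} with hVV
  have l1 : Lk S ({s | s ∈ up1} ∪ RJ) (up.head G.neck.nu) (z k) := by
    have hc : ∀ q ∈ prs (up1 ++ [u]), DE S q.1 q.2 := by
      have h2 := (isChain_iff_prs (R := DE S) up).2 dup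
      rw [e1, show up1 ++ u :: up2 = (up1 ++ [u]) ++ up2 by simp, List.isChain_append] at h2
      exact (isChain_iff_prs (R := DE S) _).1 h2.1
    have hne : up1 ++ [u] ≠ [] := by simp
    have hhead : (up1 ++ [u]).head hne = up.head G.neck.nu := by
      subst e1
      cases up1 <;> rfl
    have h3 : Lk S {s | s ∈ up1 ++ [u]} (up.head G.neck.nu) u := by
      refine lk_list hc (fun s hs => hs) ?_ (by simp)
      rw [← hhead]
      exact List.head_mem _
    refine (h3.mono ?_).trans ((hlk.mono Set.subset_union_right).symm)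
    intro s hs
    rcases List.mem_append.1 hs with h | h
    · exact Or.inl h
    · rw [List.mem_singleton] at h
      rw [h]
      exact Or.inr huj
  have l2 : Lk S {s | s ∈ y k :: dn} (y k) (dn.getLast G.neck.nd) :=
    lk_list ((isChain_iff_prs (R := DE S) (y k :: dn)).1 c2) (fun s hs => hs) (by simp)
      (List.mem_cons_of_mem _ (List.getLast_mem _))
  have l3 : Lk S VV (z k) (y k) := by
    have hde := G.neck.de
    rw [G.upz] at hde
    have hz' : z k ∈ VV := Or.inl (Or.inr hlk.1.1)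
    have hy' : y k ∈ VV := Or.inr (by simp)
    exact ⟨⟨hz', hy'⟩, .single ⟨hde, hz', hy'⟩⟩
  have l4 : Lk S VV (dn.getLast G.neck.nd) (up.head G.neck.nu) :=
    (((l1.mono Set.subset_union_left).trans l3).trans (l2.mono Set.subset_union_right)).symm
  obtain ⟨P, hPn, dP, mP, P0, P1⟩ := lk_to_list hP
  obtain ⟨s, hs1, hs2⟩ := cross_lk hS G.he (x0 := x0) (x1 := x1) hPn dP
    (fun s hs => hPy s (mP s hs)) (P0.symm ▸ ha) (P1.symm ▸ hb) (A := VV)
    (by
      have hwin : ∀ s ∈ up ++ y k :: dn, x0 < X z0 e s ∧ X z0 e s < x1 := fun s hs =>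
        ⟨G.x0a.trans_lt (G.neck.win s hs).1.1, (G.neck.win s hs).1.2.trans_le G.a1x⟩
      rintro s ((hs | hs) | hs)
      · exact hwin s (List.mem_append_left _ (by rw [e1]; exact List.mem_append_left _ hs))
      · exact G.mid j (by omega) (by omega) s (RS_S D hj hs) (T.rB j hj hs)
      · exact hwin s (List.mem_append_right _ hs)) l4 G.neck.bot G.neck.top
  have hsZ := hPZ s (mP s hs1)
  have hsd := hPd s (mP s hs1)
  rcases hs2 with (hs2 | hs2) | hs2
  · refine ⟨s, mP s hs1, ?_, prefix_lk G.neck.nu dup e1 h1 hs2⟩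
    rw [e1]
    exact List.mem_append_left _ hs2
  · exact absurd (hR j hj s hs2) hsZ
  · rcases List.mem_cons.1 hs2 with h | h
    · exact absurd (h ▸ hy) hsZ
    · exact absurd h hsd

/-- **LOCX, the crossing at one straight gate** (list, any direction) -/
theorem cross_gate_list (T : Back D t) {k : ℕ} {z0 e : ℂ} {a0 a1 b0 b1 m x0 x1 : ℝ}
    {V β : Finset ℂ} {up dn : List ℂ}
    (G : InG S χ n y z A B k z0 e a0 a1 b0 b1 m x0 x1 V β up dn)
    (farU : ∀ j, j < n → j ≠ k → j + 1 ≠ k → ∀ s ∈ up, s ∉ B j) {Z0 : Set ℂ}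
    (hR : ∀ j, j < n → ∀ s ∈ RS S χ (p (j + 1)).1 (t j), s ∈ Z0) (hy : y k ∈ Z0)
    (hZu : ∀ s ∈ up, s ∈ Z0 → ∃ j, j < n ∧ s ∈ RS S χ (p (j + 1)).1 (t j)) {P : List ℂ}
    (dP : ∀ q ∈ prs P, DE S q.1 q.2) (hPZ : ∀ s ∈ P, s ∉ Z0) (hPd : ∀ s ∈ P, s ∉ dn)
    (hPy : ∀ s ∈ P, b0 < Y z0 e s ∧ Y z0 e s < b1) {a b : ℂ} (ha : a ∈ P) (hb : b ∈ P)
    (ha' : X z0 e a ≤ x0) (hb' : x1 ≤ X z0 e b) :
    ∃ s, s ∈ P ∧ s ∈ up ∧ Lk S {s | s ∈ up ∧ s ∉ Z0} (up.head G.neck.nu) s :=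
  cross_gate T G farU hR hy hZu (PA := {s | s ∈ P}) (lk_list dP (fun _ hs => hs) ha hb) hPZ hPd hPy
    ha' hb'

/-- **LOCX, the vertical chain of one straight gate**, with the origin of its sites: from the last
site of `dn` to the first site of `up`; its sites are in `Z0`, or in `dn`, or in the part of `up`
above the first site of `up` in `Z0` -/
theorem vert_chain' (T : Back D t) {k : ℕ} {z0 e : ℂ} {a0 a1 b0 b1 m x0 x1 : ℝ} {V β : Finset ℂ}
    {up dn : List ℂ} (G : InG S χ n y z A B k z0 e a0 a1 b0 b1 m x0 x1 V β up dn) {Z0 : Set ℂ}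
    (hR : ∀ j, j = k ∨ j + 1 = k → ∀ s ∈ RS S χ (p (j + 1)).1 (t j), s ∈ Z0) (hy : y k ∈ Z0)
    (hZu : ∀ s ∈ up, s ∈ Z0 → ∃ j, (j = k ∨ j + 1 = k) ∧ s ∈ RS S χ (p (j + 1)).1 (t j)) :
    ∃ VV : Set ℂ, Lk S VV (dn.getLast G.neck.nd) (up.head G.neck.nu) ∧
      (∀ s ∈ VV, x0 < X z0 e s ∧ X z0 e s < x1) ∧
      (∀ s ∈ VV, s ∈ Z0 ∨ s ∈ dn ∨ Lk S {s | s ∈ up ∧ s ∉ Z0} (up.head G.neck.nu) s) ∧
      y k ∈ VV ∧ (∀ s ∈ dn, s ∈ VV) ∧
      ∀ s ∈ VV, s ∈ up ∨ (∃ j, (j = k ∨ j + 1 = k) ∧ s ∈ RS S χ (p (j + 1)).1 (t j)) ∨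
        s = y k ∨ s ∈ dn := by
  have hadj := G.neck.adj
  rw [← isChain_iff_prs, List.isChain_append] at hadj
  obtain ⟨c1, c2, -⟩ := hadj
  have dup := (isChain_iff_prs (R := DE S) up).1 c1
  have hk2 := G.h2
  have hk3 := G.h3
  have hzk : z k ∈ RS S χ (p (k + 1)).1 (t k) := by
    refine ⟨t k, le_rfl, ?_⟩
    rw [T.arr k (by omega), D.st k (by omega)]
  obtain ⟨up1, u, up2, e1, hu, h1⟩ := first_mem (R := Z0) up
    ⟨z k, by rw [← G.upz]; exact List.getLast_mem _, hR k (Or.inl rfl) _ hzk⟩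
  have huup : u ∈ up := by rw [e1]; simp
  obtain ⟨j, hjk, huj⟩ := hZu u huup hu
  have hj : j < n := by omega
  have hlk : Lk S (RS S χ (p (j + 1)).1 (t j)) (z k) u := by
    have h3 := T.rlk hj huj
    rcases hjk with h | h
    · rw [← h]; exact h3.2
    · rw [← h]; exact h3.1
  set RJ : Set ℂ := RS S χ (p (j + 1)).1 (t j) with hRJ
  set VV : Set ℂ := ({s | s ∈ up1} ∪ RJ) ∪ {s | s ∈ y k :: dn} with hVV
  have l1 : Lk S ({s | s ∈ up1} ∪ RJ) (up.head G.neck.nu) (z k) := by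
    have hc : ∀ q ∈ prs (up1 ++ [u]), DE S q.1 q.2 := by
      have h2 := (isChain_iff_prs (R := DE S) up).2 dup
      rw [e1, show up1 ++ u :: up2 = (up1 ++ [u]) ++ up2 by simp, List.isChain_append] at h2
      exact (isChain_iff_prs (R := DE S) _).1 h2.1
    have hne : up1 ++ [u] ≠ [] := by simp
    have hhead : (up1 ++ [u]).head hne = up.head G.neck.nu := by
      subst e1
      cases up1 <;> rfl
    have h3 : Lk S {s | s ∈ up1 ++ [u]} (up.head G.neck.nu) u := by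
      refine lk_list hc (fun s hs => hs) ?_ (by simp)
      rw [← hhead]
      exact List.head_mem _
    refine (h3.mono ?_).trans ((hlk.mono Set.subset_union_right).symm)
    intro s hs
    rcases List.mem_append.1 hs with h | h
    · exact Or.inl h
    · rw [List.mem_singleton] at h
      rw [h]
      exact Or.inr huj
  have l2 : Lk S {s | s ∈ y k :: dn} (y k) (dn.getLast G.neck.nd) :=
    lk_list ((isChain_iff_prs (R := DE S) (y k :: dn)).1 c2) (fun s hs => hs) (by simp)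
      (List.mem_cons_of_mem _ (List.getLast_mem _))
  have l3 : Lk S VV (z k) (y k) := by
    have hde := G.neck.de
    rw [G.upz] at hde
    have hz' : z k ∈ VV := Or.inl (Or.inr hlk.1.1)
    have hy' : y k ∈ VV := Or.inr (by simp)
    exact ⟨⟨hz', hy'⟩, .single ⟨hde, hz', hy'⟩⟩
  refine ⟨VV, (((l1.mono Set.subset_union_left).trans l3).trans
    (l2.mono Set.subset_union_right)).symm, ?_, ?_, Or.inr (by simp), fun s hs =>
      Or.inr (List.mem_cons_of_mem _ hs), ?_⟩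
  · have hwin : ∀ s ∈ up ++ y k :: dn, x0 < X z0 e s ∧ X z0 e s < x1 := fun s hs =>
      ⟨G.x0a.trans_lt (G.neck.win s hs).1.1, (G.neck.win s hs).1.2.trans_le G.a1x⟩
    rintro s ((hs | hs) | hs)
    · exact hwin s (List.mem_append_left _ (by rw [e1]; exact List.mem_append_left _ hs))
    · exact G.mid j (by omega) (by omega) s (RS_S D hj hs) (T.rB j hj hs)
    · exact hwin s (List.mem_append_right _ hs)
  · rintro s ((hs | hs) | hs)
    · exact Or.inr (Or.inr (prefix_lk G.neck.nu dup e1 h1 hs))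
    · exact Or.inl (hR j hjk s hs)
    · rcases List.mem_cons.1 hs with h | h
      · exact Or.inl (h ▸ hy)
      · exact Or.inr (Or.inl h)
  · rintro s ((hs | hs) | hs)
    · exact Or.inl (by rw [e1]; exact List.mem_append_left _ hs)
    · exact Or.inr (Or.inl ⟨j, hjk, hs⟩)
    · rcases List.mem_cons.1 hs with h | h
      · exact Or.inr (Or.inr (Or.inl h))
      · exact Or.inr (Or.inr (Or.inr h))

/-- **LOCX, the vertical chain of one straight gate** (776's refined form): from the last site of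
`dn` to the first site of `up`; its sites are in `Z0`, or in `dn`, or in the part of `up` above the
first site of `up` in `Z0` -/
theorem vert_chain (T : Back D t) {k : ℕ} {z0 e : ℂ} {a0 a1 b0 b1 m x0 x1 : ℝ} {V β : Finset ℂ}
    {up dn : List ℂ} (G : InG S χ n y z A B k z0 e a0 a1 b0 b1 m x0 x1 V β up dn) {Z0 : Set ℂ}
    (hR : ∀ j, j < n → ∀ s ∈ RS S χ (p (j + 1)).1 (t j), s ∈ Z0)
    (hL : ∀ j, j < n → ∀ s ∈ LS S χ (p (j + 1)).1 (t j), s ∈ Z0)
    (hZu : ∀ s ∈ up, s ∈ Z0 → ∃ j, (j = k ∨ j + 1 = k) ∧ s ∈ RS S χ (p (j + 1)).1 (t j)) :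
    ∃ VV : Set ℂ, Lk S VV (dn.getLast G.neck.nd) (up.head G.neck.nu) ∧
      (∀ s ∈ VV, x0 < X z0 e s ∧ X z0 e s < x1) ∧
      (∀ s ∈ VV, s ∈ Z0 ∨ s ∈ dn ∨ Lk S {s | s ∈ up ∧ s ∉ Z0} (up.head G.neck.nu) s) ∧
      y k ∈ VV ∧ (∀ s ∈ dn, s ∈ VV) := by
  have hk2 := G.h2
  have hk3 := G.h3
  have hyk : y k ∈ LS S χ (p (k + 1)).1 (t k) := by
    refine ⟨t k, le_rfl, ?_⟩
    rw [T.arr k (by omega), D.st k (by omega)]
  obtain ⟨VV, h1, h2, h3, h4, h5, -⟩ := vert_chain' T G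
    (fun j hj => hR j (by omega)) (hL k (by omega) _ hyk) hZu
  exact ⟨VV, h1, h2, h3, h4, h5⟩

/-- the hypothesis `hZu` from the confinement of the arcs -/
theorem hZu_of (T : Back D t) {k : ℕ} {up : List ℂ}
    (farU : ∀ j, j < n → j ≠ k → j + 1 ≠ k → ∀ s ∈ up, s ∉ B j) {Z0 : Set ℂ}
    (hZu : ∀ s ∈ up, s ∈ Z0 → ∃ j, j < n ∧ s ∈ RS S χ (p (j + 1)).1 (t j)) :
    ∀ s ∈ up, s ∈ Z0 → ∃ j, (j = k ∨ j + 1 = k) ∧ s ∈ RS S χ (p (j + 1)).1 (t j) := by
  intro s hs hz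
  obtain ⟨j, hj, h⟩ := hZu s hs hz
  refine ⟨j, ?_, h⟩
  by_contra hc
  push Not at hc
  exact farU j hj hc.1 hc.2 s hs (T.rB j hj h)

end corr

end Crest.Agent.R143.LocBx336
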