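import Crest.Agent.R143.LocA_873

/-!
# Row 143, leaf LOC, part B: the spin amplitude and the stopped leg (domain Markov for `Q`)

The stopped leg of the mark `ex s` is read in the joins WITHOUT odd triangle and with the two marks
different from `ex d` only (`wj N d`, `s ≠ d`), which do not know the triangle `t`.

* `nf N` = number of joins without marks; `pw N L = nf (knet N L) / nf N`.
* `SP N d s stop` = the stopped paths from `ex s` in `wj N d`; `sum_pw` : the weights sum to `1`.
* `LP N d s stop` = those which do not cut off a mark (`Lv`).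
* `mq` : if every state entering `t` is in `stop`, then
  `N.Q t = ∑ x ∈ LP N d s stop, pw N x.1 * (knet N x.1).Q t`.
-/

set_option autoImplicit false

noncomputable section

open scoped Classical

namespace Crest.Agent.R143.LocBx873

open Crest.Agent.R143.B0x346 Crest.Agent.R143.JCardx872 Crest.Agent.R143.JWalkx872
  Crest.Agent.R143.J1x872 Crest.Agent.R143.J4x872 Crest.Agent.R143.LocAx873

variable {V : Type} {d s : ZMod 3} {G : Trg V} {kl : Set (V × V)} {O : Set (V × V × V)} {D : Set (V × V)}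
  {J : Finset (V × V)} {N : Net V} {t : V × V × V}

theorem empty_join : IsJoin G kl ∅ ∅ ∅ := by
  refine ⟨by simp, by simp, by simp, by simp, by simp, ?_⟩
  intro a b c _
  simp

/-- number of joins without marks -/
def nf (N : Net V) : ℕ := (joins N.toTrg N.kl ∅ ∅).card

theorem nf_pos (N : Net V) : 0 < nf N :=
  Finset.card_pos.2 ⟨∅, mem_joins.2 empty_join⟩

/-- joins with the two marks different from `ex d` -/
def wj (N : Net V) (d : ZMod 3) : Finset (Finset (V × V)) := joins N.toTrg N.kl ∅ (Dd N d)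

/-- stopped paths from `ex s` -/
def SP (N : Net V) (d s : ZMod 3) (stop : V × V → Prop) : Finset (List ((V × V) × (V × V)) × (V × V)) :=
  stopPaths N.toTrg N.kl ∅ (Dd N d) stop (N.ex s)

/-- the marks stay live -/
def Lv (N : Net V) (L : List ((V × V) × (V × V))) : Prop := ∀ k, N.ex k ∉ unc L

/-- stopped paths which keep the marks live -/
def LP (N : Net V) (d s : ZMod 3) (stop : V × V → Prop) : Finset (List ((V × V) × (V × V)) × (V × V)) :=
  (SP N d s stop).filter (fun x => Lv N x.1)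

/-- weight of a path -/
def pw (N : Net V) (L : List ((V × V) × (V × V))) : ℝ := (nf (knet N L) : ℝ) / (nf N : ℝ)

theorem pw_nonneg (N : Net V) (L : List ((V × V) × (V × V))) : 0 ≤ pw N L := by
  unfold pw; positivity

theorem bd_exS (hg : Good N) (a b : V) (h : (a, b) ∈ N.exS) (c : V) : (b, a, c) ∉ N.T := by
  obtain ⟨k, hk⟩ := h
  have := hg.bd k c
  rw [hk] at this
  exact this

theorem card_tj (hg : Good N) (hne : (N.tj t).Nonempty) : (N.tj t).card = nf N :=
  card_joins_bdry (bd_exS hg) hne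

theorem card_wj (hg : Good N) (hne : (wj N d).Nonempty) : (wj N d).card = nf N :=
  card_joins_bdry (fun a b h => bd_exS hg a b (Dd_sub h)) hne

/-- more killed edges -/
theorem isJoin_mono {U : Set (V × V)} (h : IsJoin G (kl ∪ U) O D J) : IsJoin G kl O D J :=
  ⟨h.sub, h.sym, h.mark, h.bdr, fun a b hk => h.kill a b (Or.inl hk), h.par⟩

theorem stopPath_fol {stop : V × V → Prop} {p : V × V} (hO : RotInv O) (hp : p ∈ D)
    {x : List ((V × V) × (V × V)) × (V × V)} (hx : x ∈ stopPaths G kl O D stop p) :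
    ∃ J ∈ joins G kl O D, Fol G O D J p x.1 x.2 := by
  obtain ⟨J0, hJ0, rfl⟩ := Finset.mem_image.1 hx
  exact ⟨J0, hJ0, (sPath_spec (mem_joins.1 hJ0) hO hp stop).1⟩

theorem wj_knet_nonempty (hg : Good N) (hds : s ≠ d) {stop : V × V → Prop} {x : List ((V × V) × (V × V)) × (V × V)}
    (hx : x ∈ SP N d s stop) : (wj (knet N x.1) d).Nonempty := by
  have h := stopPath_fol rotInv_empty (ex_Dd hg hds) hx
  obtain ⟨J, hJ, hf⟩ := h
  refine ⟨J, ?_⟩
  have := joins_path' (G := N.toTrg) (kl := N.kl) (O := ∅) (D := Dd N d) (ex_Dd hg hds)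
    ⟨J, hJ, hf⟩
  change J ∈ joins N.toTrg (N.kl ∪ unc x.1) ∅ (Dd N d)
  rw [this, Finset.mem_filter]
  exact ⟨hJ, hf⟩

theorem bd_knet (hg : Good N) (L : List ((V × V) × (V × V))) {O : Set (V × V × V)}
    {D : Set (V × V)} (hD : D ⊆ N.exS)
    (hne : (joins N.toTrg (N.kl ∪ unc L) O D).Nonempty) :
    (joins N.toTrg (N.kl ∪ unc L) O D).card = nf (knet N L) :=
  card_joins_bdry (fun a b h => bd_exS hg a b (hD h)) hne

/-- the weights of the stopped paths sum to `1` -/
theorem sum_pw (hg : Good N) (hds : s ≠ d) (hne : (wj N d).Nonempty) (stop : V × V → Prop) :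
    ∑ x ∈ SP N d s stop, pw N x.1 = 1 := by
  have h := card_markov (G := N.toTrg) (kl := N.kl) (O := ∅) (D := Dd N d) rotInv_empty
    (ex_Dd hg hds) stop (fun _ => True)
  simp only [Finset.filter_true] at h
  have h1 : (nf N : ℝ) = ∑ x ∈ SP N d s stop, (nf (knet N x.1) : ℝ) := by
    have e1 : (joins N.toTrg N.kl ∅ (Dd N d)).card = nf N := card_wj hg hne
    rw [e1] at h
    rw [h]
    push_cast
    refine Finset.sum_congr rfl fun x hx => ?_
    rw [bd_knet hg x.1 Dd_sub (wj_knet_nonempty hg hds hx)]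
  unfold pw
  rw [← Finset.sum_div, ← h1]
  have := nf_pos N
  field_simp

theorem sum_pw_le (hg : Good N) (hds : s ≠ d) (stop : V × V → Prop) :
    ∑ x ∈ LP N d s stop, pw N x.1 ≤ 1 := by
  by_cases hne : (wj N d).Nonempty
  · rw [← sum_pw hg hds hne stop]
    exact Finset.sum_le_sum_of_subset_of_nonneg (Finset.filter_subset _ _)
      fun x _ _ => pw_nonneg N x.1
  · have : LP N d s stop = ∅ := by
      unfold LP SP stopPaths
      have e : joins N.toTrg N.kl ∅ (Dd N d) = ∅ := Finset.not_nonempty_iff_eq_empty.1 hne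
      rw [e]
      simp
    rw [this]
    simp

theorem good_knet (hg : Good N) {L : List ((V × V) × (V × V))} (hL : Lv N L) :
    Good (knet N L) where
  inj := hg.inj
  bd := hg.bd
  live := by
    rintro k (hk | hk)
    · exact hg.live k hk
    · exact hL k hk

theorem hnet_knet' {S : Finset ℂ} {N : Net ℂ} (h : HNet S N) {L : List ((ℂ × ℂ) × (ℂ × ℂ))}
    (hL : Lv N L) : HNet S (knet N L) where
  gp := h.gp
  tri := h.tri
  hex := h.hex
  live := by
    rintro k (hk | hk)
    · exact h.live k hk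
    · exact hL k hk
  ccw := h.ccw

/-- a stopped path is the stopped path -/
theorem sPath_of_stopped (hJ : IsJoin G kl O D J) (hO : RotInv O) {p : V × V} (hp : p ∈ D)
    {stop : V × V → Prop} {x : List ((V × V) × (V × V)) × (V × V)}
    (h : Stopped G O D stop J p x.1 x.2) : sPath G O D stop p J = x := by
  have h1 := sPath_spec hJ hO hp stop
  obtain ⟨e1, e2⟩ := stop_unique _ _ _ _ _ h1 h
  exact Prod.ext e1 e2

/-- a leg read backwards -/
theorem en_rev (hg : Good N) (ht : t ∈ N.T) (hJ : IsJoin N.toTrg N.kl (rots t) N.exS J)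
    {i k : ZMod 3} (hi : sd t i ∈ J) (h : En N t J i k) :
    Leads N.toTrg (rots t) N.exS J (N.ex k) (sd t i) := by
  by_cases hm : sd t i ∈ N.exS
  · have hT : Term N.toTrg (rots t) N.exS J (sw (sd t i)) := Or.inl hm
    have e := term_leads hT h
    have e' : N.ex k = sd t i := by
      have := congrArg sw e
      exact this
    rw [e']
    exact Relation.ReflTransGen.refl
  · have := leads_rev hJ (rotInv_rots t) (sw_mem hg ht hJ hi hm) h
    exact this

/-- with three legs from `t`, the leg of the mark `1` does not end at a mark -/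
theorem no_mark_end (hg : Good N) (ht : t ∈ N.T) (hJ : IsJoin N.toTrg N.kl (rots t) N.exS J)
    {k : ZMod 3} (h3 : N.Tri3 t k J) (j : ZMod 3) {q : V × V} (hq : sw q ∈ N.exS)
    (h : Leads N.toTrg (rots t) N.exS J (N.ex j) q) : False := by
  rw [tri3_iff] at h3
  obtain ⟨hall, hen⟩ := h3
  have h1 := hen (j - k)
  have e : j - k + k = j := by ring
  rw [e] at h1
  have h2 := en_rev hg ht hJ (hall (j - k)) h1
  have h4 := term_unique (Or.inl hq) (term_side ht (hall (j - k))) h h2
  obtain ⟨z, hz, _⟩ := sd_tri ht (j - k)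
  rw [← h4] at hz
  obtain ⟨m, hm⟩ := hq
  have h5 : q = sw (N.ex m) := by rw [hm, sw_sw]
  rw [h5] at hz
  exact hg.bd m z hz

/-- (3): a stopped path with a three leg continuation is a stopped path of `wj N` -/
theorem in_SP (hg : Good N) (hds : s ≠ d) (ht : t ∈ N.T) {stop : V × V → Prop} (hout : ∀ i, stop (sd t i))
    {x : List ((V × V) × (V × V)) × (V × V)}
    (hx : x ∈ stopPaths N.toTrg N.kl (rots t) N.exS stop (N.ex s)) {k : ZMod 3}
    (hJ : J ∈ (knet N x.1).tj t) (h3 : N.Tri3 t k J) : x ∈ LP N d s stop := by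
  have hO := rotInv_rots t
  have hmem := joins_path' (G := N.toTrg) (kl := N.kl) (O := rots t) (D := N.exS) (mem_exS s)
    (stopPath_fol hO (mem_exS s) hx)
  have hJ1 : J ∈ joins N.toTrg (N.kl ∪ unc x.1) (rots t) N.exS := hJ
  rw [hmem, Finset.mem_filter] at hJ1
  obtain ⟨hJN, hf⟩ := hJ1
  have hJN' := mem_joins.1 hJN
  have hsp := (sPath_eq_iff hJN hO (mem_exS s) hx).2 hf
  have hst := sPath_spec hJN' hO (mem_exS s) stop
  rw [hsp] at hst
  obtain ⟨J', hsub, hJ'⟩ := drop_leg hg ht hJN' h3 d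
  have hpth := fol_pth _ _ _ hf
  have hfree := fol_free _ _ _ hf
  have hunc := (fol_iff hJN' _ _ _ (Or.inl (hJN'.mark _ _ (mem_exS s)).1) hpth hfree).1 hf
  have hf' : Fol N.toTrg ∅ (Dd N d) J' (N.ex s) x.1 x.2 := by
    refine (fol_iff hJ' _ _ _ (Or.inl (hJ'.mark _ _ (ex_Dd hg hds)).1) hpth ?_).2 ?_
    · intro a ha
      refine ⟨fun h => (hfree a ha).1 (Dd_sub h), fun c _ h => h⟩
    · intro a ha h
      exact hunc a ha (hsub h)
  have hstop : stop x.2 := by
    rcases hst.2.2 with h | h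
    · exact h
    · rcases h with h | ⟨_, c, hc, hcO⟩
      · exact (no_mark_end hg ht hJN' h3 s h (fol_leads _ _ _ hf)).elim
      · obtain ⟨i, hi⟩ := of_rots hcO
        have := hout i
        rw [← hi] at this
        exact this
  have hS' : Stopped N.toTrg ∅ (Dd N d) stop J' (N.ex s) x.1 x.2 := ⟨hf', hst.2.1, Or.inl hstop⟩
  have hxSP : x ∈ SP N d s stop := by
    refine Finset.mem_image.2 ⟨J', mem_joins.2 hJ', ?_⟩
    exact sPath_of_stopped hJ' rotInv_empty (ex_Dd hg hds) hS'
  refine Finset.mem_filter.2 ⟨hxSP, ?_⟩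
  -- the marks stay live
  intro j hj
  obtain ⟨a, ha, h | h⟩ := hj
  · exact hunc a ha (h ▸ (hJN'.mark _ _ (mem_exS j)).1)
  · -- the uncrossed side has a triangle on its left
    obtain ⟨c, hc⟩ := pth_tri _ _ _ hpth a ha
    apply hg.bd j c
    rw [h]
    exact hc
where
  pth_tri {G : Trg V} : ∀ (L : List ((V × V) × (V × V))) (p q : V × V), Pth G p L q →
      ∀ a ∈ L, ∃ c, (a.2.1, a.2.2, c) ∈ G.T
    | [], _, _, _, a, ha => by simp at ha
    | b :: L, p, q, ⟨_, m, ⟨c, hc, hm⟩, hrest⟩, a, ha => by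
      rcases List.mem_cons.1 ha with rfl | ha
      · rcases hm with ⟨_, hm⟩ | ⟨_, hm⟩
        · exact ⟨p.2, by rw [hm]; exact G.rot (G.rot hc)⟩
        · exact ⟨p.1, by rw [hm]; exact G.rot hc⟩
      · exact pth_tri L m q hrest a ha

theorem pth_state {G : Trg V} : ∀ (L : List ((V × V) × (V × V))) (p q : V × V), Pth G p L q →
    ∀ a ∈ L, ∃ c, (a.1.1, a.1.2, c) ∈ G.T
  | [], _, _, _, a, ha => by simp at ha
  | b :: L, p, q, ⟨h, m, ⟨c, hc, _⟩, hrest⟩, a, ha => by
    rcases List.mem_cons.1 ha with rfl | ha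
    · exact ⟨c, by rw [h]; exact hc⟩
    · exact pth_state L m q hrest a ha

/-- (4): a stopped path of `wj N` with a three leg continuation is a stopped path for `t` -/
theorem of_LP (hg : Good N) (hds : s ≠ d) {stop : V × V → Prop} (hout : ∀ i, stop (sd t i))
    {x : List ((V × V) × (V × V)) × (V × V)} (hx : x ∈ LP N d s stop)
    (hJ : J ∈ (knet N x.1).tj t) :
    x ∈ stopPaths N.toTrg N.kl (rots t) N.exS stop (N.ex s) := by
  have hO := rotInv_rots t
  obtain ⟨hx, hLv⟩ := Finset.mem_filter.1 hx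
  obtain ⟨J0, hJ0, hJx⟩ := Finset.mem_image.1 hx
  have hJ0' := mem_joins.1 hJ0
  have hst := sPath_spec hJ0' rotInv_empty (ex_Dd hg hds) stop
  rw [hJx] at hst
  have hJk : IsJoin N.toTrg (N.kl ∪ unc x.1) (rots t) N.exS J := mem_joins.1 hJ
  have hJN := isJoin_mono hJk
  have hpth := fol_pth _ _ _ hst.1
  have hfree : Free N.toTrg (rots t) N.exS x.1 := by
    intro a ha
    constructor
    · rintro ⟨k, hk⟩
      obtain ⟨c, hc⟩ := pth_state _ _ _ hpth a ha
      apply hg.bd k c
      rw [hk]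
      exact hc
    · intro c _ hcO
      obtain ⟨i, hi⟩ := of_rots hcO
      apply hst.2.1 a ha
      have := hout i
      rw [← hi] at this
      exact this
  have hf : Fol N.toTrg (rots t) N.exS J (N.ex s) x.1 x.2 := by
    refine (fol_iff hJN _ _ _ (Or.inl (hJN.mark _ _ (mem_exS s)).1) hpth hfree).2 ?_
    intro a ha
    refine (hJk.kill a.2.1 a.2.2 (Or.inr ⟨a, ha, Or.inl rfl⟩) ?_ ?_).1
    · rintro ⟨k, hk⟩
      exact hLv k ⟨a, ha, Or.inl hk⟩
    · rintro ⟨k, hk⟩
      exact hLv k ⟨a, ha, Or.inr hk⟩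
  have hS : Stopped N.toTrg (rots t) N.exS stop J (N.ex s) x.1 x.2 := by
    refine ⟨hf, hst.2.1, ?_⟩
    rcases hst.2.2 with h | h
    · exact Or.inl h
    · right
      rcases h with h | ⟨_, c, _, hcO⟩
      · exact Or.inl (Dd_sub h)
      · exact hcO.elim
  exact Finset.mem_image.2 ⟨J, mem_joins.2 hJN, sPath_of_stopped hJN hO (mem_exS s) hS⟩

/-- a nonzero amplitude has a three leg join -/
theorem exists_tri3 (h : N.Q t ≠ 0) : ∃ k, ∃ J ∈ N.tj t, N.Tri3 t k J := by
  by_contra hn
  push Not at hn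
  apply h
  unfold Net.Q
  refine Finset.sum_eq_zero fun k _ => ?_
  have : N.triA t k = 0 := by
    unfold Net.triA
    rw [Finset.filter_false_of_mem (fun J hJ => hn k J hJ)]
    simp
  rw [this]
  simp

theorem q_mul_card (N : Net V) (t : V × V × V) :
    N.Q t * ((N.tj t).card : ℂ) =
      ∑ k : ZMod 3, (((N.tj t).filter (N.Tri3 t k)).card : ℂ) * omz k := by
  by_cases h : (N.tj t).card = 0
  · have e : N.tj t = ∅ := Finset.card_eq_zero.1 h
    rw [h, e]
    simp
  · unfold Net.Q Net.triA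
    rw [Finset.sum_mul]
    refine Finset.sum_congr rfl fun k _ => ?_
    have : ((N.tj t).card : ℂ) ≠ 0 := by exact_mod_cast h
    push_cast
    field_simp

/-- **domain Markov for the spin amplitude** -/
theorem mq (hg : Good N) (hds : s ≠ d) (ht : t ∈ N.T) {stop : V × V → Prop} (hout : ∀ i, stop (sd t i)) :
    N.Q t = ∑ x ∈ LP N d s stop, (pw N x.1 : ℂ) * (knet N x.1).Q t := by
  by_cases hne : (N.tj t).Nonempty
  swap
  · have e : N.tj t = ∅ := Finset.not_nonempty_iff_eq_empty.1 hne
    have h1 : ∀ L, (knet N L).tj t = ∅ := by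
      intro L
      rw [Finset.eq_empty_iff_forall_notMem]
      intro J hJ
      have : J ∈ N.tj t := mem_joins.2 (isJoin_mono (mem_joins.1 hJ))
      rw [e] at this
      simp at this
    have h2 : ∀ M : Net V, M.tj t = ∅ → M.Q t = 0 := by
      intro M hM
      by_contra h
      obtain ⟨k, J, hJ, _⟩ := exists_tri3 h
      rw [hM] at hJ
      simp at hJ
    rw [h2 N e]
    symm
    refine Finset.sum_eq_zero fun x _ => ?_
    rw [h2 _ (h1 x.1), mul_zero]
  have hO := rotInv_rots t
  have hN : (nf N : ℂ) ≠ 0 := by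
    have := nf_pos N
    exact_mod_cast this.ne'
  -- sum over the stopped paths of `t`
  have hA : N.Q t = ∑ x ∈ stopPaths N.toTrg N.kl (rots t) N.exS stop (N.ex s),
      (pw N x.1 : ℂ) * (knet N x.1).Q t := by
    have h1 := q_mul_card N t
    rw [card_tj hg hne] at h1
    have h2 : ∀ k, (((N.tj t).filter (N.Tri3 t k)).card : ℂ) =
        ∑ x ∈ stopPaths N.toTrg N.kl (rots t) N.exS stop (N.ex s),
          ((((knet N x.1).tj t).filter ((knet N x.1).Tri3 t k)).card : ℂ) := by
      intro k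
      rw [tri_markov N t s stop k]
      push_cast
      rfl
    rw [Finset.sum_congr rfl (fun k _ => by rw [h2 k])] at h1
    rw [Finset.sum_congr rfl (fun k _ => Finset.sum_mul ..), Finset.sum_comm] at h1
    rw [eq_div_of_mul_eq hN h1, Finset.sum_div]
    refine Finset.sum_congr rfl fun x hx => ?_
    rw [← q_mul_card]
    have hne' : ((knet N x.1).tj t).Nonempty := by
      obtain ⟨J, hJ, hf⟩ := stopPath_fol hO (mem_exS s) hx
      refine ⟨J, ?_⟩
      change J ∈ joins N.toTrg (N.kl ∪ unc x.1) (rots t) N.exS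
      rw [joins_path' (mem_exS s) ⟨J, hJ, hf⟩, Finset.mem_filter]
      exact ⟨hJ, hf⟩
    have hc : ((knet N x.1).tj t).card = nf (knet N x.1) := bd_knet hg x.1 (le_refl _) hne'
    rw [hc]
    unfold pw
    push_cast
    field_simp
  rw [hA]
  -- both sums only see the paths with a nonzero amplitude
  set g : List ((V × V) × (V × V)) × (V × V) → ℂ :=
    fun x => (pw N x.1 : ℂ) * (knet N x.1).Q t with hgdef
  rw [← Finset.sum_filter_ne_zero (s := stopPaths _ _ _ _ _ _), ← Finset.sum_filter_ne_zero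
    (s := LP N d s stop)]
  refine Finset.sum_congr ?_ fun _ _ => rfl
  ext x
  rw [Finset.mem_filter, Finset.mem_filter]
  constructor
  · rintro ⟨h1, h2⟩
    refine ⟨?_, h2⟩
    have h3 : (knet N x.1).Q t ≠ 0 := fun h => h2 (by rw [h, mul_zero])
    obtain ⟨k, J, hJ, h4⟩ := exists_tri3 h3
    exact in_SP hg hds ht hout h1 hJ h4
  · rintro ⟨h1, h2⟩
    refine ⟨?_, h2⟩
    have h3 : (knet N x.1).Q t ≠ 0 := fun h => h2 (by rw [h, mul_zero])
    obtain ⟨k, J, hJ, h4⟩ := exists_tri3 h3
    exact of_LP hg hds hout h1 hJ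

end Crest.Agent.R143.LocBx873
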