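import Crest.Agent.R143.Sep3_686
import Crest.Agent.R143.Ext_358

/-!
# Row 143 (S0194), RIG, LOCX of note 3970 (R-f), combinatorial half (helper776)

* `Ch R N` : chains inside `N`; `Crs R N In W Out` : a chain from `In` to `Out` through `W`
* `crs_of` : a chain from `In` to `Out` crosses one of the two separators `WL`, `WR`
* `ext_or` : a cell of `Ext` is in `Ext'` (off the window `T`) or is joined to `T` by bad cells
* **`locx`** : no crossing of the two separators inside the bad cells: the cells of `Ext` off the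
  enlarged window are in `Ext'`; `locx_bd` : the same for the boundary cells
-/

set_option autoImplicit false

noncomputable section

open scoped Classical

namespace Crest.Agent.R143.LocCx776

open Crest.Agent.R143.B0x346 Crest.Agent.R143.DelGx806 Crest.Agent.R143.DelRx806
open Crest.Agent.R143.Blkx838 (DE)
open Crest.Agent.R143.Neckx921 (Lk)
open Crest.Agent.R143.Frame1x395 Crest.Agent.R143.Frame2x395 Crest.Agent.R143.Frame3x395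
  Crest.Agent.R143.Frame4x395 Crest.Agent.R143.Frame8x395 Crest.Agent.R143.Frame9x395
  Crest.Agent.R143.Frame10x395 Crest.Agent.R143.Frame11x395
open Crest.Agent.R143.Frame5x395 (sd mem_sd th th_spec)
open Crest.Agent.R143.Extx358 (Ad Ext Bd)
open Crest.Agent.R143.Sepx686 (AdjC adj_inner)

/-! ### chains with two separators -/

section ring

variable {α : Type} {R : α → α → Prop} {In W WL WR Out N N' : Set α}

/-- a chain inside `N` -/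
def Ch (R : α → α → Prop) (N : Set α) : α → α → Prop :=
  Relation.ReflTransGen fun a b => R a b ∧ a ∈ N ∧ b ∈ N

theorem Ch.mono (h : N ⊆ N') {a b : α} (hc : Ch R N a b) : Ch R N' a b :=
  Relation.ReflTransGen.mono (fun _ _ g => ⟨g.1, h g.2.1, h g.2.2⟩) _ _ hc

/-- a chain inside `N` from `In` to `Out` through `W` -/
def Crs (R : α → α → Prop) (N In W Out : Set α) : Prop :=
  ∃ a b w w', (a ∈ In ∧ a ∈ N) ∧ (b ∈ Out ∧ b ∈ N) ∧ (w ∈ W ∧ w ∈ N) ∧ (w' ∈ W ∧ w' ∈ N) ∧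
    R a w ∧ Ch R (N ∩ W) w w' ∧ R w' b

/-- half of a crossing -/
def Hf (R : α → α → Prop) (N In W : Set α) (c : α) : Prop :=
  ∃ a w, (a ∈ In ∧ a ∈ N) ∧ (w ∈ W ∧ w ∈ N) ∧ (c ∈ W ∧ c ∈ N) ∧ R a w ∧ Ch R (N ∩ W) w c

/-- **a chain from `In` to `Out` crosses a separator** -/
theorem crs_of (hIO : ∀ u ∈ In, ∀ v ∈ Out, u ∈ N → v ∈ N → ¬ R u v)
    (hLR : ∀ u ∈ WL, ∀ v ∈ WR, u ∈ N → v ∈ N → ¬ R u v ∧ ¬ R v u)
    (cov : ∀ s ∈ N, s ∈ In ∨ s ∈ WL ∨ s ∈ WR ∨ s ∈ Out)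
    (dO : ∀ s ∈ Out, s ∉ In ∧ s ∉ WL ∧ s ∉ WR) {t c : α} (ht : t ∈ In)
    (h : Ch R N t c) (hc : c ∈ Out) : Crs R N In WL Out ∨ Crs R N In WR Out := by
  have key : (c ∈ In ∨ Hf R N In WL c ∨ Hf R N In WR c) ∨ Crs R N In WL Out ∨
      Crs R N In WR Out := by
    clear hc
    induction h with
    | refl => exact Or.inl (Or.inl ht)
    | @tail b c _ hs ih =>
      obtain ⟨hR, hb, hc⟩ := hs
      rcases ih with (ih | ih | ih) | ih
      · rcases cov c hc with h1 | h1 | h1 | h1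
        · exact Or.inl (Or.inl h1)
        · exact Or.inl (Or.inr (Or.inl ⟨b, c, ⟨ih, hb⟩, ⟨h1, hc⟩, ⟨h1, hc⟩, hR, .refl⟩))
        · exact Or.inl (Or.inr (Or.inr ⟨b, c, ⟨ih, hb⟩, ⟨h1, hc⟩, ⟨h1, hc⟩, hR, .refl⟩))
        · exact absurd hR (hIO b ih c h1 hb hc)
      · obtain ⟨a, w, h2, h3, h4, h5, h6⟩ := ih
        rcases cov c hc with h1 | h1 | h1 | h1
        · exact Or.inl (Or.inl h1)
        · exact Or.inl (Or.inr (Or.inl ⟨a, w, h2, h3, ⟨h1, hc⟩, h5,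
            h6.tail ⟨hR, ⟨hb, h4.1⟩, ⟨hc, h1⟩⟩⟩))
        · exact absurd hR (hLR b h4.1 c h1 hb hc).1
        · exact Or.inr (Or.inl ⟨a, c, w, b, h2, ⟨h1, hc⟩, h3, h4, h5, h6, hR⟩)
      · obtain ⟨a, w, h2, h3, h4, h5, h6⟩ := ih
        rcases cov c hc with h1 | h1 | h1 | h1
        · exact Or.inl (Or.inl h1)
        · exact absurd hR (hLR c h1 b h4.1 hc hb).2
        · exact Or.inl (Or.inr (Or.inr ⟨a, w, h2, h3, ⟨h1, hc⟩, h5,
            h6.tail ⟨hR, ⟨hb, h4.1⟩, ⟨hc, h1⟩⟩⟩))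
        · exact Or.inr (Or.inr ⟨a, c, w, b, h2, ⟨h1, hc⟩, h3, h4, h5, h6, hR⟩)
      · exact Or.inr ih
  rcases key with (h1 | h1 | h1) | h1
  · exact absurd h1 (dO c hc).1
  · obtain ⟨_, _, _, _, h4, _⟩ := h1
    exact absurd h4.1 (dO c hc).2.1
  · obtain ⟨_, _, _, _, h4, _⟩ := h1
    exact absurd h4.1 (dO c hc).2.2
  · exact h1

end ring

/-! ### cells -/

section cells

variable {D C : Type} {M : CMap D C} {H Z Z' T Cor : Set C}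

/-- the bad cells: in `Ext`, in the corridor, not in `Ext'` -/
def Nn (M : CMap D C) (H Z Z' T Cor : Set C) : Set C :=
  {c | Ext M H Z c ∧ c ∈ Cor ∧ ¬ Ext M H (Z' ∪ T) c}

/-- **a cell of `Ext` is in `Ext'` or joined to the window by bad cells** -/
theorem ext_or (hZ : Z' ⊆ Z) (hT : T ⊆ Cor)
    (top : ∀ c, Ext M H Z c → c ∉ Cor → Ext M H (Z' ∪ T) c) {c : C} (h : Ext M H Z c) :
    Ext M H (Z' ∪ T) c ∨ ∃ t ∈ T, t ∈ Nn M H Z Z' T Cor ∧ c ∈ Nn M H Z Z' T Cor ∧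
      Ch (Ad M) (Nn M H Z Z' T Cor) t c := by
  have hw : ∀ c, Ext M H Z c → c ∈ T → c ∈ Nn M H Z Z' T Cor := fun c h1 h2 =>
    ⟨h1, hT h2, fun h3 => h3.off (Or.inr h2)⟩
  induction h with
  | @hull c h1 h2 =>
    by_cases hc : c ∈ T
    · have := hw c (Ext.hull h1 h2) hc
      exact Or.inr ⟨c, hc, this, this, .refl⟩
    · exact Or.inl (Ext.hull h1 fun h3 => h3.elim (fun h4 => h2 (hZ h4)) hc)
  | @step c c' h1 h2 h3 ih =>
    have h4 := Ext.step h1 h2 h3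
    by_cases hc : c' ∈ T
    · have := hw c' h4 hc
      exact Or.inr ⟨c', hc, this, this, .refl⟩
    by_cases h5 : Ext M H (Z' ∪ T) c'
    · exact Or.inl h5
    rcases ih with ih | ⟨t, ht, g1, g2, g3⟩
    · exact Or.inl (Ext.step ih h2 fun h6 => h6.elim (fun h7 => h3 (hZ h7)) hc)
    · have h6 : c' ∈ Cor := by
        by_contra h7
        exact h5 (top c' h4 h7)
      have h7 : c' ∈ Nn M H Z Z' T Cor := ⟨h4, h6, h5⟩
      exact Or.inr ⟨t, ht, g1, h7, g3.tail ⟨h2, g2, h7⟩⟩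

end cells

/-! ### sites -/

section sites

variable {S : Finset ℂ} {hS : GP (S : Set ℂ)} {H Z Z' T : Set (Quot (hullE S))} {U : Set ℂ}

/-- the cell of a site -/
abbrev mk (S : Finset ℂ) (s : ℂ) : Quot (hullE S) := Quot.mk (hullE S) s

/-- the cells of the sites of `U` -/
def Ce (S : Finset ℂ) (U : Set ℂ) : Set (Quot (hullE S)) := {c | ∃ s ∈ S, s ∈ U ∧ c = mk S s}

/-- the bad sites -/
def Ns (hS : GP (S : Set ℂ)) (H Z Z' T : Set (Quot (hullE S))) (U : Set ℂ) : Set ℂ :=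
  {s | s ∈ S ∧ s ∈ U ∧ Ext (cm0 hS) H Z (mk S s) ∧ ¬ Ext (cm0 hS) H (Z' ∪ T) (mk S s)}

theorem ad_de {u v : ℂ} (hu : ¬ OnHull S u) (hv : ¬ OnHull S v)
    (h : Ad (cm0 hS) (mk S u) (mk S v)) : DE S u v := by
  obtain ⟨d, -, h1, h2⟩ := h
  obtain ⟨w, hw, h3⟩ := adj_inner hS hu ⟨d, Or.inl ⟨h1, h2⟩⟩
  rwa [← quot_inner hS hv h3]

/-- a chain of bad cells is a chain of bad sites -/
theorem ch_sites (inn : ∀ s ∈ S, s ∈ U → ¬ OnHull S s) {t : ℂ} (htS : t ∈ S) (htU : t ∈ U)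
    {c : Quot (hullE S)} (h : Ch (Ad (cm0 hS)) (Nn (cm0 hS) H Z Z' T (Ce S U)) (mk S t) c)
    (ht : mk S t ∈ Nn (cm0 hS) H Z Z' T (Ce S U)) :
    ∃ s, c = mk S s ∧ s ∈ Ns hS H Z Z' T U ∧ Ch (DE S) (Ns hS H Z Z' T U) t s := by
  induction h with
  | refl => exact ⟨t, rfl, ⟨htS, htU, ht.1, ht.2.2⟩, .refl⟩
  | @tail b c _ hs ih =>
    obtain ⟨s, rfl, h1, h2⟩ := ih
    obtain ⟨had, -, hc⟩ := hs
    obtain ⟨g1, ⟨s', g2, g3, rfl⟩, g4⟩ := hc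
    have h3 : s' ∈ Ns hS H Z Z' T U := ⟨g2, g3, g1, g4⟩
    exact ⟨s', rfl, h3, h2.tail ⟨ad_de (inn s h1.1 h1.2.1) (inn s' g2 g3) had, h1, h3⟩⟩

variable {In WL WR Out : Set ℂ}

/-- **LOCX, combinatorial half.** `U` = wide corridor, `T` = window, `WL`, `WR` = the two separators:
the cells of `Ext` which are not in `U`, or in `Out`, are in `Ext'`. -/
theorem locx (hZ : Z' ⊆ Z) (inn : ∀ s ∈ S, s ∈ U → ¬ OnHull S s)
    (hT : ∀ c ∈ T, ∃ s ∈ S, s ∈ U ∧ s ∈ In ∧ c = mk S s)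
    (top : ∀ c, Ext (cm0 hS) H Z c → c ∉ Ce S U → Ext (cm0 hS) H (Z' ∪ T) c)
    (hIO : ∀ u ∈ In, ∀ v ∈ Out, u ∈ S → v ∈ S → ¬ DE S u v)
    (hLR : ∀ u ∈ WL, ∀ v ∈ WR, u ∈ S → v ∈ S → ¬ DE S u v)
    (cov : ∀ s ∈ S, s ∈ U → s ∈ In ∨ s ∈ WL ∨ s ∈ WR ∨ s ∈ Out)
    (dO : ∀ s ∈ Out, s ∉ In ∧ s ∉ WL ∧ s ∉ WR)
    (cL : ¬ Crs (DE S) (Ns hS H Z Z' T U) In WL Out)
    (cR : ¬ Crs (DE S) (Ns hS H Z Z' T U) In WR Out) {c : Quot (hullE S)}
    (hc : ∀ s ∈ S, s ∈ U → c = mk S s → s ∈ Out) (h : Ext (cm0 hS) H Z c) :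
    Ext (cm0 hS) H (Z' ∪ T) c := by
  rcases ext_or hZ (Cor := Ce S U) (fun c hc => by
      obtain ⟨s, h1, h2, -, h3⟩ := hT c hc
      exact ⟨s, h1, h2, h3⟩) top h with h1 | ⟨t, ht, g1, g2, g3⟩
  · exact h1
  exfalso
  obtain ⟨s, h1, h2, h3, rfl⟩ := hT t ht
  obtain ⟨s', rfl, h4, h5⟩ := ch_sites inn h1 h2 g3 g1
  have h6 := hc s' h4.1 h4.2.1 rfl
  rcases crs_of (fun u hu v hv hu' hv' => hIO u hu v hv hu'.1 hv'.1)
    (fun u hu v hv hu' hv' => ⟨hLR u hu v hv hu'.1 hv'.1, fun h => hLR u hu v hv hu'.1 hv'.1 h.symm⟩)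
    (fun s hs => cov s hs.1 hs.2.1) dO h3 h5 h6
    with h7 | h7
  · exact cL h7
  · exact cR h7

end sites

/-- the form for the boundary cells -/
theorem locx_bd {D C : Type} {M : CMap D C} {H Z Z' T L L1 : Set C}
    (hx : ∀ c ∈ L1, Ext M H Z c → Ext M H (Z' ∪ T) c) (hZL : ∀ c ∈ L, c ∈ Z → c ∈ Z')
    (hL : ∀ c ∈ L, ∀ e, Ad M e c → e ∈ L1) {c : C} (hc : c ∈ L) (h : c ∈ Bd M H Z) :
    c ∈ Z' ∧ ∃ e, Ext M H (Z' ∪ T) e ∧ Ad M e c := by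
  obtain ⟨h1, e, h2, h3⟩ := h
  exact ⟨hZL c hc h1, e, hx e (hL c hc e h3) h2, h3⟩

end Crest.Agent.R143.LocCx776
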