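import Crest.Agent.R143.LocB_873
import Crest.Agent.R143.Frame7_395

/-!
# Row 143, leaf LOC, part C: one step of the exploration, frame bound

* `aQ N u = ∑ t ∈ N.T, u t * N.Q t`.
* `cs` : `‖∑ t ∈ U, u t * N.Q t‖ ≤ √3 * √(∑ t ∈ U, ‖u t‖ ^ 2)` (frame).
* `one_step` : for every `stop`,
  `‖aQ N u - ∑ x ∈ LP N d s stop, pw N x.1 * aQ (knet N x.1) u‖ ≤ 2 √3 √(∑ t ∈ Bs N stop, ‖u t‖ ^ 2)`,
  `Bs N stop` = live triangles with an entering state which is not in `stop`.
* `prefix_stop` : the stopped path extends every followed path without stopping states.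
-/

set_option autoImplicit false

noncomputable section

open scoped Classical

namespace Crest.Agent.R143.LocCx873

open Crest.Agent.R143.B0x346 Crest.Agent.R143.JCardx872 Crest.Agent.R143.JWalkx872
  Crest.Agent.R143.J1x872 Crest.Agent.R143.J4x872 Crest.Agent.R143.LocAx873
  Crest.Agent.R143.LocBx873

/-- path followed so far and tip -/
abbrev Sta (V : Type) : Type := List ((V × V) × (V × V)) × (V × V)

section comb

variable {V : Type} {d s : ZMod 3} {G : Trg V} {kl : Set (V × V)} {O : Set (V × V × V)}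
  {D : Set (V × V)} {J : Finset (V × V)} {N : Net V} {t : V × V × V}

theorem om_ne_zero : om ≠ 0 := Complex.exp_ne_zero _

/-- a triangle with a killed side has amplitude zero -/
theorem q_dead (hg : Good N) (ht : t ∈ N.T) {i : ZMod 3} (hk : sd t i ∈ N.kl) : N.Q t = 0 := by
  obtain ⟨a, b, c⟩ := t
  have r1 : N.Q (b, c, a) = om * N.Q (a, b, c) := q_rot a b c
  have r2 : N.Q (c, a, b) = om * N.Q (b, c, a) := q_rot b c a
  rcases cases_z3 i with rfl | rfl | rfl
  · rw [sd0] at hk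
    exact q_killed hg ht hk
  · rw [sd1] at hk
    have := q_killed hg (N.rot ht) hk
    rw [r1] at this
    exact (mul_eq_zero.1 this).resolve_left om_ne_zero
  · rw [sd2] at hk
    have := q_killed hg (N.rot (N.rot ht)) hk
    rw [r2, r1] at this
    exact (mul_eq_zero.1 ((mul_eq_zero.1 this).resolve_left om_ne_zero)).resolve_left om_ne_zero

/-- live triangles with an entering state which is not in `stop` -/
def Bs (N : Net V) (stop : V × V → Prop) : Finset (V × V × V) :=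
  N.T.filter (fun t => (∃ i, ¬ stop (sd t i)) ∧ ∀ i, sd t i ∉ N.kl)

/-- the stopped path extends every followed path without stopping states -/
theorem prefix_stop {stop : V × V → Prop} : ∀ (L L' : List ((V × V) × (V × V))) (p q q' : V × V),
    Fol G O D J p L q → (∀ a ∈ L, ¬ stop a.1) → Stopped G O D stop J p L' q' →
    ∃ K, L' = L ++ K ∧ Stopped G O D stop J q K q' := by
  intro L
  induction L with
  | nil =>
    rintro L' p q q' h1 _ h3
    change p = q at h1
    subst h1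
    exact ⟨L', rfl, h3⟩
  | cons a L ih =>
    rintro L' p q q' ⟨ha, m, hm, hst, hf⟩ h2 ⟨h1', h2', h3'⟩
    rcases L' with _ | ⟨b, L'⟩
    · exfalso
      change p = q' at h1'
      subst h1'
      rcases h3' with h3' | h3'
      · exact h2 a (List.mem_cons_self ..) (ha ▸ h3')
      · exact term_noStep h3' hst
    · obtain ⟨hb, m', hm', hst', hf'⟩ := h1'
      have e := step_det hst hst'
      subst e
      have hu := turn_unc_unique hm hm'
      have hab : a = b := Prod.ext (ha.trans hb.symm) hu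
      obtain ⟨K, e1, e2⟩ := ih L' m q q' hf (fun c hc => h2 c (List.mem_cons_of_mem _ hc))
        ⟨hf', fun c hc => h2' c (List.mem_cons_of_mem _ hc), h3'⟩
      exact ⟨K, by rw [hab, e1]; rfl, e2⟩

theorem unc_append (L K : List ((V × V) × (V × V))) : unc (L ++ K) = unc L ∪ unc K := by
  ext u
  unfold unc
  simp only [List.mem_append, Set.mem_union]
  change (∃ a, (a ∈ L ∨ a ∈ K) ∧ (u = a.2 ∨ u = sw a.2)) ↔
    (∃ a ∈ L, u = a.2 ∨ u = sw a.2) ∨ ∃ a ∈ K, u = a.2 ∨ u = sw a.2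
  constructor
  · rintro ⟨a, ha | ha, h⟩
    · exact Or.inl ⟨a, ha, h⟩
    · exact Or.inr ⟨a, ha, h⟩
  · rintro (⟨a, ha, h⟩ | ⟨a, ha, h⟩)
    · exact ⟨a, Or.inl ha, h⟩
    · exact ⟨a, Or.inr ha, h⟩

theorem net_ext {M M' : Net V} (h1 : M.toTrg = M'.toTrg) (h2 : M.kl = M'.kl)
    (h3 : M.ex = M'.ex) : M = M' := by
  cases M
  cases M'
  simp only at h1 h2 h3
  subst h1 h2 h3
  rfl

theorem knet_knet {L L' : List ((V × V) × (V × V))} (hs : unc L ⊆ unc L') :
    knet (knet N L) L' = knet N L' := by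
  refine net_ext rfl ?_ rfl
  change (N.kl ∪ unc L) ∪ unc L' = N.kl ∪ unc L'
  rw [Set.union_assoc, Set.union_eq_self_of_subset_left hs]

/-- a join of the killed net follows the path -/
theorem wj_knet_eq (hg : Good N) (hds : s ≠ d) {L : List ((V × V) × (V × V))} {q : V × V}
    (hL : ∃ J ∈ wj N d, Fol N.toTrg ∅ (Dd N d) J (N.ex s) L q) :
    wj (knet N L) d = (wj N d).filter (fun J => Fol N.toTrg ∅ (Dd N d) J (N.ex s) L q) :=
  joins_path' (ex_Dd hg hds) hL

/-- fibres of the stopped path -/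
theorem fiber (hg : Good N) (hds : s ≠ d) {stop : V × V → Prop} {x : Sta V}
    (hx : x ∈ SP N d s stop) :
    (wj N d).filter (fun J => sPath N.toTrg ∅ (Dd N d) stop (N.ex s) J = x) =
      wj (knet N x.1) d := by
  rw [wj_knet_eq hg hds (stopPath_fol rotInv_empty (ex_Dd hg hds) hx)]
  refine Finset.filter_congr fun J hJ => ?_
  exact sPath_eq_iff hJ rotInv_empty (ex_Dd hg hds) hx

/-- sum over the joins = sum over the stopped paths -/
theorem sum_joins {A : Type} [AddCommMonoid A] (hg : Good N) (hds : s ≠ d) (stop : V × V → Prop)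
    (g : Finset (V × V) → A) :
    ∑ J ∈ wj N d, g J = ∑ x ∈ SP N d s stop, ∑ J ∈ wj (knet N x.1) d, g J := by
  have h := Finset.sum_fiberwise_of_maps_to (s := wj N d) (t := SP N d s stop)
    (g := fun J => sPath N.toTrg ∅ (Dd N d) stop (N.ex s) J)
    (fun J hJ => Finset.mem_image_of_mem _ hJ) g
  rw [← h]
  refine Finset.sum_congr rfl fun x hx => ?_
  rw [fiber hg hds hx]

theorem card_wj_knet (hg : Good N) (hds : s ≠ d) {stop : V × V → Prop} {x : Sta V}
    (hx : x ∈ SP N d s stop) : (wj (knet N x.1) d).card = nf (knet N x.1) :=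
  bd_knet hg x.1 Dd_sub (wj_knet_nonempty hg hds hx)

theorem sum_joins_sta {A : Type} [AddCommMonoid A] (hg : Good N) (hds : s ≠ d)
    (stop : V × V → Prop) (g : Sta V → A) :
    ∑ J ∈ wj N d, g (sPath N.toTrg ∅ (Dd N d) stop (N.ex s) J) =
      ∑ x ∈ SP N d s stop, nf (knet N x.1) • g x := by
  rw [sum_joins hg hds stop]
  refine Finset.sum_congr rfl fun x hx => ?_
  rw [← card_wj_knet hg hds hx, ← Finset.sum_const]
  refine Finset.sum_congr rfl fun J hJ => ?_
  rw [← fiber hg hds hx, Finset.mem_filter] at hJ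
  rw [hJ.2]

end comb

section frame

variable {S : Finset ℂ} {N : Net ℂ} {d s : ZMod 3}

/-- `∑ t, u t * N.Q t` over all triangles (three rotations each) -/
def aQ (N : Net ℂ) (u : ℂ × ℂ × ℂ → ℂ) : ℂ := ∑ t ∈ N.T, u t * N.Q t

theorem cs (h : HNet S N) {U : Finset (ℂ × ℂ × ℂ)} (hU : U ⊆ N.T) (u : ℂ × ℂ × ℂ → ℂ) :
    ‖∑ t ∈ U, u t * N.Q t‖ ≤ √3 * √(∑ t ∈ U, ‖u t‖ ^ 2) := by
  have h1 : ‖∑ t ∈ U, u t * N.Q t‖ ≤ ∑ t ∈ U, ‖u t‖ * ‖N.Q t‖ := by
    refine (norm_sum_le _ _).trans (le_of_eq ?_)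
    exact Finset.sum_congr rfl fun t _ => norm_mul _ _
  have h2 := Finset.sum_mul_sq_le_sq_mul_sq U (fun t => ‖u t‖) (fun t => ‖N.Q t‖)
  have h3 : ∑ t ∈ U, ‖N.Q t‖ ^ 2 ≤ 3 := Frame7x395.frame3 h (by rw [← h.tri]; exact hU)
  have h4 : 0 ≤ ∑ t ∈ U, ‖u t‖ ^ 2 := Finset.sum_nonneg fun _ _ => by positivity
  rw [← Real.sqrt_mul (by norm_num)]
  refine h1.trans (Real.le_sqrt_of_sq_le ?_)
  refine h2.trans ?_
  rw [mul_comm]
  exact mul_le_mul_of_nonneg_right h3 h4

/-- the field only counts on the live triangles -/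
theorem aQ_live (hg : Good N) (u : ℂ × ℂ × ℂ → ℂ) {P : ℂ × ℂ × ℂ → Prop}
    (hP : ∀ t ∈ N.T, ¬ P t → ∃ i, sd t i ∈ N.kl) :
    aQ N u = ∑ t ∈ N.T.filter P, u t * N.Q t := by
  unfold aQ
  rw [Finset.sum_filter]
  refine Finset.sum_congr rfl fun t ht => ?_
  split_ifs with h
  · rfl
  · obtain ⟨i, hi⟩ := hP t ht h
    rw [q_dead hg ht hi, mul_zero]

/-- **one step of the exploration** -/
theorem one_step (h : HNet S N) (hds : s ≠ d) (stop : ℂ × ℂ → Prop) (u : ℂ × ℂ × ℂ → ℂ) :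
    ‖aQ N u - ∑ x ∈ LP N d s stop, (pw N x.1 : ℂ) * aQ (knet N x.1) u‖ ≤
      2 * √3 * √(∑ t ∈ Bs N stop, ‖u t‖ ^ 2) := by
  have hg := good_of_hnet h
  have hB : Bs N stop ⊆ N.T := Finset.filter_subset _ _
  -- outside of `Bs` the difference vanishes
  have key : aQ N u - ∑ x ∈ LP N d s stop, (pw N x.1 : ℂ) * aQ (knet N x.1) u =
      (∑ t ∈ Bs N stop, u t * N.Q t) -
        ∑ x ∈ LP N d s stop, (pw N x.1 : ℂ) * ∑ t ∈ Bs N stop, u t * (knet N x.1).Q t := by
    have e1 : ∀ M : Net ℂ, M.T = N.T → aQ M u = (∑ t ∈ Bs N stop, u t * M.Q t) +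
        ∑ t ∈ N.T \ Bs N stop, u t * M.Q t := by
      intro M hM
      unfold aQ
      rw [hM, ← Finset.sum_sdiff hB, add_comm]
    have e3 : ∑ x ∈ LP N d s stop, (pw N x.1 : ℂ) * aQ (knet N x.1) u =
        ∑ x ∈ LP N d s stop, (pw N x.1 : ℂ) * ((∑ t ∈ Bs N stop, u t * (knet N x.1).Q t) +
          ∑ t ∈ N.T \ Bs N stop, u t * (knet N x.1).Q t) :=
      Finset.sum_congr rfl fun x _ => by rw [e1 (knet N x.1) rfl]
    rw [e1 N rfl, e3]
    have e2 : ∑ t ∈ N.T \ Bs N stop, u t * N.Q t =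
        ∑ x ∈ LP N d s stop, (pw N x.1 : ℂ) * ∑ t ∈ N.T \ Bs N stop, u t * (knet N x.1).Q t := by
      simp_rw [Finset.mul_sum]
      rw [Finset.sum_comm]
      refine Finset.sum_congr rfl fun t ht => ?_
      obtain ⟨htT, htB⟩ := Finset.mem_sdiff.1 ht
      by_cases hk : ∃ i, sd t i ∈ N.kl
      · obtain ⟨i, hi⟩ := hk
        rw [q_dead hg htT hi, mul_zero]
        symm
        refine Finset.sum_eq_zero fun x hx => ?_
        have hLv := (Finset.mem_filter.1 hx).2
        have : (knet N x.1).Q t = 0 :=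
          q_dead (good_knet hg hLv) htT (i := i) (Or.inl hi)
        rw [this]
        simp
      · push Not at hk
        have hout : ∀ i, stop (sd t i) := by
          by_contra hn
          push Not at hn
          exact htB (Finset.mem_filter.2 ⟨htT, hn, hk⟩)
        rw [mq hg hds htT hout, Finset.mul_sum]
        refine Finset.sum_congr rfl fun x _ => ?_
        ring
    rw [e2]
    simp_rw [mul_add, Finset.sum_add_distrib]
    ring
  rw [key]
  have b0 := cs h hB u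
  have b1 : ∀ x ∈ LP N d s stop, ‖(pw N x.1 : ℂ) * ∑ t ∈ Bs N stop, u t * (knet N x.1).Q t‖ ≤
      pw N x.1 * (√3 * √(∑ t ∈ Bs N stop, ‖u t‖ ^ 2)) := by
    intro x hx
    have hLv := (Finset.mem_filter.1 hx).2
    have := cs (hnet_knet' h hLv) (U := Bs N stop) hB u
    rw [norm_mul, Complex.norm_real, Real.norm_eq_abs, abs_of_nonneg (pw_nonneg N x.1)]
    exact mul_le_mul_of_nonneg_left this (pw_nonneg N x.1)
  have b2 : ‖∑ x ∈ LP N d s stop, (pw N x.1 : ℂ) * ∑ t ∈ Bs N stop, u t * (knet N x.1).Q t‖ ≤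
      √3 * √(∑ t ∈ Bs N stop, ‖u t‖ ^ 2) := by
    refine (norm_sum_le _ _).trans ((Finset.sum_le_sum b1).trans ?_)
    rw [← Finset.sum_mul]
    have h0 : 0 ≤ √3 * √(∑ t ∈ Bs N stop, ‖u t‖ ^ 2) := by positivity
    calc _ ≤ 1 * (√3 * √(∑ t ∈ Bs N stop, ‖u t‖ ^ 2)) :=
          mul_le_mul_of_nonneg_right (sum_pw_le hg hds stop) h0
      _ = _ := one_mul _
  calc _ ≤ _ := norm_sub_le _ _
    _ ≤ √3 * √(∑ t ∈ Bs N stop, ‖u t‖ ^ 2) + √3 * √(∑ t ∈ Bs N stop, ‖u t‖ ^ 2) :=
        add_le_add b0 b2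
    _ = _ := by ring

end frame

end Crest.Agent.R143.LocCx873
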