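import Crest.Agent.R143.LocP_776
import Crest.Agent.R143.RcT_422

/-!
# Row 143 (S0194), RIG, LOCX: cells, `rc0` form (helper776)

`M = rc0 hS`, `H = Hc hS`; `Z' ⊆ Z` blocking cells, `T` = cells of the window.

* `Ns hS Z Z' T` : the bad sites (inner sites, cell in `Ext Z`, not in `Ext (Z' ∪ T)`)
* **`bad_chain`** : a cell of `Ext Z` is in `Ext (Z' ∪ T)` or it is joined by bad sites to a site of the
  window
* `Cur` : a closed curtain (776's `no_passL`); **`Cur.loc`** : the cells of the sites of `Co` which are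
  in `Ext Z` are in `Ext (Z' ∪ T)`, if every site of the curtain is in `Z`, or not in `Ext Z`, or in
  `Ext (Z' ∪ T)`; `Cur.loc_bd` : boundary form
* `ext_lk` : linked sites off `Z' ∪ T`: both in `Ext` or none; `ext_hull` : a site on the hull
-/

set_option autoImplicit false

noncomputable section

open scoped Classical

namespace Crest.Agent.R143.LocDx776

open Crest.Agent.R143.B0x346 Crest.Agent.R143.DelGx806 Crest.Agent.R143.DelRx806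
open Crest.Agent.R143.Blkx838 (DE)
open Crest.Agent.R143.Neckx921 (Lk)
open Crest.Agent.R143.ToolW2x838 Crest.Agent.R143.ToolW3x838 Crest.Agent.R143.Gatex838
open Crest.Agent.R143.Frame1x395 Crest.Agent.R143.Frame2x395 Crest.Agent.R143.Frame3x395
  Crest.Agent.R143.Frame4x395 Crest.Agent.R143.Frame8x395 Crest.Agent.R143.Frame9x395
  Crest.Agent.R143.Frame10x395 Crest.Agent.R143.Frame11x395
open Crest.Agent.R143.Extx358 (Ad Ext Bd)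
open Crest.Agent.R143.Sepx686 (AdjC adj_inner)
open Crest.Agent.R143.FinCx811 (Cs rc0 cs rcol cell_mem cs_inj cs_surj)
open Crest.Agent.R143.RcTx422 (Hc RC ad_adjc exists_Hc)
open Crest.Agent.R143.LocCx776 (Ch Nn ext_or)
open Crest.Agent.R143.LocPx776 (ax no_passL)

variable {S : Finset ℂ} {hS : GP (S : Set ℂ)} {Z Z' T : Set (Cs hS)}

/-- the bad sites -/
def Ns (hS : GP (S : Set ℂ)) (Z Z' T : Set (Cs hS)) : Set ℂ :=
  {s | s ∈ S ∧ ¬ OnHull S s ∧ ∃ c : Cs hS, c.1 = Quot.mk (hullE S) s ∧ Ext (rc0 hS) (Hc hS) Z c ∧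
    ¬ Ext (rc0 hS) (Hc hS) (Z' ∪ T) c}

/-- a cell which is not the hull cell is the cell of an inner site -/
theorem site_of {c : Cs hS} (h : c ∉ Hc hS) : ∃ s ∈ S, ¬ OnHull S s ∧ c.1 = Quot.mk (hullE S) s := by
  obtain ⟨_, ⟨d, rfl⟩⟩ := c
  refine ⟨d.1.1, (Sepx686.dart_mem d).1, fun hh => h ⟨d.1.1, hh, rfl⟩, rfl⟩

theorem ad_de {u v : ℂ} (hu : ¬ OnHull S u) (hv : ¬ OnHull S v) {a b : Cs hS} (ha : a.1 = Quot.mk (hullE S) u)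
    (hb : b.1 = Quot.mk (hullE S) v) (h : Ad (rc0 hS) a b) : DE S u v := by
  have h1 := ad_adjc h
  rw [ha, hb] at h1
  obtain ⟨w, hw, h3⟩ := adj_inner hS hu h1
  rwa [← quot_inner hS hv h3]

/-- **bad chain** -/
theorem bad_chain (hZ : Z' ⊆ Z) (hT : ∀ c ∈ T, c ∉ Hc hS) {c : Cs hS}
    (h : Ext (rc0 hS) (Hc hS) Z c) : Ext (rc0 hS) (Hc hS) (Z' ∪ T) c ∨
      ∃ t s, (∃ ct ∈ T, ct.1 = Quot.mk (hullE S) t) ∧ ¬ OnHull S t ∧ ¬ OnHull S s ∧ c.1 = Quot.mk (hullE S) s ∧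
        Lk S (Ns hS Z Z' T) t s := by
  rcases ext_or hZ (Cor := {c | c ∉ Hc hS}) hT (fun c h1 h2 => by
      have h3 : c ∈ Hc hS := by simpa using h2
      exact Ext.hull h3 fun h4 => h4.elim (fun h5 => h1.off (hZ h5)) fun h5 => hT c h5 h3) h
    with h1 | ⟨t, ht, g1, g2, g3⟩
  · exact Or.inl h1
  right
  obtain ⟨t', ht', hth, et⟩ := site_of (hT t ht)
  have g1' : t' ∈ Ns hS Z Z' T := ⟨ht', hth, t, et, g1.1, g1.2.2⟩
  have key : ∃ s, ¬ OnHull S s ∧ c.1 = Quot.mk (hullE S) s ∧ s ∈ Ns hS Z Z' T ∧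
      Relation.ReflTransGen (fun u v => DE S u v ∧ u ∈ Ns hS Z Z' T ∧ v ∈ Ns hS Z Z' T) t' s := by
    clear g2
    induction g3 with
    | refl => exact ⟨t', hth, et, g1', .refl⟩
    | @tail b c _ hs ih =>
      obtain ⟨s, k1, k2, k3, k4⟩ := ih (by
        rcases hs with ⟨-, hb, -⟩
        exact hb.1)
      obtain ⟨had, -, hc⟩ := hs
      obtain ⟨s', m1, m2, m3⟩ := site_of hc.2.1
      have m4 : s' ∈ Ns hS Z Z' T := ⟨m1, m2, c, m3, hc.1, hc.2.2⟩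
      exact ⟨s', m2, m3, m4, k4.tail ⟨ad_de k1 m2 k2 m3 had, k3, m4⟩⟩
  obtain ⟨s, k1, k2, k3, k4⟩ := key
  exact ⟨t', s, ⟨t, ht, et⟩, hth, k1, k2, ⟨g1', k3⟩, k4⟩

/-! ### the closed curtain -/

/-- **a closed curtain** -/
structure Cur (S : Finset ℂ) (z0 e : ℂ) (x0 x1 : ℝ) (VR VF VL VK Ci Co : Set ℂ) (a b b' a' : ℂ) :
    Prop where
  he : e ≠ 0
  lR : Lk S VR a b
  lF : Lk S VF b b'
  lL : Lk S VL b' a'
  lK : Lk S VK a' a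
  h01 : x0 ≤ x1
  hRx : ∀ s ∈ VR, x0 < X z0 e s ∧ X z0 e s < x1
  ha : Y z0 e a < 0
  hb : 0 < Y z0 e b
  hw : ∀ u v, DE S u v → ((u ∈ VF ∧ v ∈ VF) ∨ (u ∈ VL ∧ v ∈ VL) ∨ (u ∈ VK ∧ v ∈ VK)) →
    ∀ x, x0 ≤ x → x ≤ x1 → ax z0 e x ∉ segment ℝ u v
  hCi : IsPreconnected Ci
  hCo : IsPreconnected Co
  hi : ax z0 e x0 ∈ Ci
  ho : ax z0 e x1 ∈ Co
  hC : ∀ w, w ∈ Ci ∨ w ∈ Co → ∀ u v, DE S u v → ((u ∈ VR ∧ v ∈ VR) ∨ (u ∈ VF ∧ v ∈ VF) ∨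
    (u ∈ VL ∧ v ∈ VL) ∨ (u ∈ VK ∧ v ∈ VK)) → w ∉ segment ℝ u v

variable {z0 e : ℂ} {x0 x1 : ℝ} {VR VF VL VK Ci Co : Set ℂ} {a b b' a' : ℂ}

/-- the site `s` is not bad -/
def Ok (hS : GP (S : Set ℂ)) (Z Z' T : Set (Cs hS)) (s : ℂ) : Prop :=
  ∀ c : Cs hS, c.1 = Quot.mk (hullE S) s → c ∈ Z ∨ ¬ Ext (rc0 hS) (Hc hS) Z c ∨
    Ext (rc0 hS) (Hc hS) (Z' ∪ T) c

theorem Ok.not {s : ℂ} (h : Ok hS Z Z' T s) : s ∉ Ns hS Z Z' T := by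
  rintro ⟨-, -, c, e, h1, h2⟩
  rcases h c e with h3 | h3 | h3
  · exact h1.off h3
  · exact h3 h1
  · exact h2 h3

/-- **LOCX from a closed curtain** -/
theorem Cur.loc (K : Cur S z0 e x0 x1 VR VF VL VK Ci Co a b b' a') (hZ : Z' ⊆ Z)
    (hT : ∀ c ∈ T, ∃ t ∈ S, ¬ OnHull S t ∧ t ∈ Ci ∧ c.1 = Quot.mk (hullE S) t)
    (hV : ∀ s, s ∈ VR ∨ s ∈ VF ∨ s ∈ VL ∨ s ∈ VK → Ok hS Z Z' T s) {c : Cs hS}
    (hc : (∃ s, s ∈ Co ∧ c.1 = Quot.mk (hullE S) s) ∨ c ∈ Hc hS) (h : Ext (rc0 hS) (Hc hS) Z c) :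
    Ext (rc0 hS) (Hc hS) (Z' ∪ T) c := by
  have hT' : ∀ c ∈ T, c ∉ Hc hS := by
    rintro c hc ⟨w, hw, e'⟩
    obtain ⟨t, -, h2, -, e2⟩ := hT c hc
    rw [e2] at e'
    exact h2 (quot_inner hS h2 e' ▸ hw)
  rcases bad_chain hZ hT' h with h1 | ⟨t, s, ⟨ct, h2, h3⟩, h4, h5, h6, h7⟩
  · exact h1
  exfalso
  obtain ⟨t', -, k2, k3, k4⟩ := hT ct h2
  have e1 : t = t' := (quot_inner hS h4 (h3.symm.trans k4)).symm
  rcases hc with ⟨s', h8, h9⟩ | ⟨w, hw, h9⟩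
  · have e2 : s = s' := (quot_inner hS h5 (h6.symm.trans h9)).symm
    refine no_passL hS K.he K.lR K.lF K.lL K.lK K.h01 K.hRx K.ha K.hb K.hw K.hCi K.hCo K.hi K.ho
      K.hC (A := Ns hS Z Z' T) ?_ (e1 ▸ k3 : t ∈ Ci) (e2 ▸ h8 : s ∈ Co) h7
    intro u hu
    exact ⟨fun h => (hV u (Or.inl h)).not hu, fun h => (hV u (Or.inr (Or.inl h))).not hu,
      fun h => (hV u (Or.inr (Or.inr (Or.inl h)))).not hu,
      fun h => (hV u (Or.inr (Or.inr (Or.inr h)))).not hu⟩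
  · have e2 : w = s := quot_inner hS h5 (h6.symm.trans h9)
    exact h5 (e2 ▸ hw)

/-- **boundary form** -/
theorem Cur.loc_bd (K : Cur S z0 e x0 x1 VR VF VL VK Ci Co a b b' a') (hZ : Z' ⊆ Z)
    (hT : ∀ c ∈ T, ∃ t ∈ S, ¬ OnHull S t ∧ t ∈ Ci ∧ c.1 = Quot.mk (hullE S) t)
    (hV : ∀ s, s ∈ VR ∨ s ∈ VF ∨ s ∈ VL ∨ s ∈ VK → Ok hS Z Z' T s) {c : Cs hS} {s : ℂ}
    (hs : c.1 = Quot.mk (hullE S) s) (hsi : ¬ OnHull S s) (hn : ∀ u, DE S s u → u ∈ Co ∨ OnHull S u)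
    (h : c ∈ Bd (rc0 hS) (Hc hS) Z) :
    ∃ e, Ext (rc0 hS) (Hc hS) (Z' ∪ T) e ∧ Ad (rc0 hS) e c := by
  obtain ⟨-, e, h2, h3⟩ := h
  refine ⟨e, K.loc hZ hT hV ?_ h2, h3⟩
  by_cases he : e ∈ Hc hS
  · exact Or.inr he
  obtain ⟨u, h4, h5, h6⟩ := site_of he
  rcases hn u (ad_de hsi h5 hs h6 h3.symm) with h7 | h7
  · exact Or.inl ⟨u, h7, h6⟩
  · exact absurd h7 h5

/-! ### sites linked to the hull -/

/-- a site on the hull off `Y` -/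
theorem ext_hull {Y : Set (Cs hS)} {w : ℂ} (hw : OnHull S w) {c : Cs hS} (e : c.1 = Quot.mk (hullE S) w)
    (hY : c ∉ Y) : Ext (rc0 hS) (Hc hS) Y c := Ext.hull ⟨w, hw, e⟩ hY

/-- **sites linked off `Y` to a site of `Ext` are in `Ext`** -/
theorem ext_lk {Y : Set (Cs hS)} {A : Set ℂ}
    (hA : ∀ s ∈ A, ∀ c : Cs hS, c.1 = Quot.mk (hullE S) s → c ∉ Y) {u v : ℂ} (h : Lk S A u v)
    (hu : ∀ c : Cs hS, c.1 = Quot.mk (hullE S) u → Ext (rc0 hS) (Hc hS) Y c) {c : Cs hS} (e : c.1 = Quot.mk (hullE S) v) :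
    Ext (rc0 hS) (Hc hS) Y c := by
  obtain ⟨⟨huA, -⟩, h⟩ := h
  have h3 : 3 ≤ S.card := by
    obtain ⟨_, ⟨d, rfl⟩⟩ := c
    exact RcTx422.dart3 hS d
  have hmem : ∀ v : {v // v ∈ S}, (cs hS h3 v).1 = Quot.mk (hullE S) v.1 := fun v => rfl
  induction h generalizing c with
  | refl => exact hu c e
  | @tail b d _ h1 ih =>
    obtain ⟨h2, hb, hd⟩ := h1
    have m := RcTx422.de_mem h2
    have hE := ih (c := cs hS h3 ⟨b, m.1⟩) rfl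
    have e2 : c = cs hS h3 ⟨d, m.2⟩ := Subtype.ext e
    rcases RcTx422.step_rc (hS := hS) h3 (u := ⟨b, m.1⟩) (w := ⟨d, m.2⟩) h2 with h4 | h4
    · rw [e2, ← h4]; exact hE
    · rw [e2]; exact Ext.step hE h4 (hA d hd _ rfl)

end Crest.Agent.R143.LocDx776
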