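import Crest.Agent.R143.LocT_776

/-!
# Row 143 (S0194), RIG, LOCX: the closed curtain on the fine path (helper776)

* `cur_of_sep` : a curtain (`Cur`) from links at distance `≥ 4 d` from `Ci`, `Co` and the wall
* `dense` : no holes round the points of the strips
* `Loc` : the local facts (hypotheses C1-C5); **`curtain`**
-/

set_option autoImplicit false

noncomputable section

open scoped Classical

namespace Crest.Agent.R143.LocEx776

open Set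
open Crest.Agent.R158.Sp896
open Crest.Agent.R143.B0x346
open Crest.Agent.R143.Tenx416 (Pg)
open Crest.Agent.R143.TileRx228
open Crest.Agent.R143.Gatex838 (X Y)
open Crest.Agent.R143.Finex422 (Fine)
open Crest.Agent.R143.Blkx838 (DE)
open Crest.Agent.R143.Neckx921 (Lk)
open Crest.Agent.R143.LocTx776
open Crest.Agent.R143.LocPx776 (ax)
open Crest.Agent.R143.LocDx776 (Cur)
open Crest.Agent.R143.TilUx496 (cen_RR)

variable {S : Finset ℂ} {d : ℝ}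

/-- **a curtain from separated links** -/
theorem cur_of_sep {z0 e : ℂ} {x0 x1 : ℝ} {VR VF VL VK Ci Co : Set ℂ} {a b b' a' : ℂ} (he : e ≠ 0)
    (lR : Lk S VR a b) (lF : Lk S VF b b') (lL : Lk S VL b' a') (lK : Lk S VK a' a) (h01 : x0 ≤ x1)
    (hRx : ∀ s ∈ VR, x0 < X z0 e s ∧ X z0 e s < x1) (ha : Y z0 e a < 0) (hb : 0 < Y z0 e b)
    (hCi : IsPreconnected Ci) (hCo : IsPreconnected Co) (hi : ax z0 e x0 ∈ Ci)
    (ho : ax z0 e x1 ∈ Co)
    (edge : ∀ w, (w ∈ Ci ∨ w ∈ Co ∨ ∃ x, x0 ≤ x ∧ x ≤ x1 ∧ w = ax z0 e x) → ∀ u v, DE S u v →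
      w ∈ segment ℝ u v → ‖u - w‖ < 4 * d ∧ ‖v - w‖ < 4 * d)
    (sepC : ∀ w, w ∈ Ci ∨ w ∈ Co → ∀ v, v ∈ VR ∨ v ∈ VF ∨ v ∈ VL ∨ v ∈ VK → 4 * d ≤ ‖v - w‖)
    (sepW : ∀ x, x0 ≤ x → x ≤ x1 → ∀ v, v ∈ VF ∨ v ∈ VL ∨ v ∈ VK → 4 * d ≤ ‖v - ax z0 e x‖) :
    Cur S z0 e x0 x1 VR VF VL VK Ci Co a b b' a' where
  he := he
  lR := lR
  lF := lF
  lL := lL
  lK := lK
  h01 := h01
  hRx := hRx
  ha := ha
  hb := hb
  hw := by
    intro u v h1 h2 x h3 h4 h5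
    have h6 := (edge _ (Or.inr (Or.inr ⟨x, h3, h4, rfl⟩)) u v h1 h5).1
    have h7 := sepW x h3 h4 u (by
      rcases h2 with h2 | h2 | h2
      · exact Or.inl h2.1
      · exact Or.inr (Or.inl h2.1)
      · exact Or.inr (Or.inr h2.1))
    linarith
  hCi := hCi
  hCo := hCo
  hi := hi
  ho := ho
  hC := by
    intro w hw u v h1 h2 h5
    have h6 := (edge w (hw.imp id Or.inl) u v h1 h5).1
    have h7 := sepC w hw u (by
      rcases h2 with h2 | h2 | h2 | h2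
      · exact Or.inl h2.1
      · exact Or.inr (Or.inl h2.1)
      · exact Or.inr (Or.inr (Or.inl h2.1))
      · exact Or.inr (Or.inr (Or.inr h2.1)))
    linarith

variable {F : Set V} {n m M : ℕ} {p W : ℤ → V} {A : ℤ → ℤ} {η : ℝ}

/-- points of a strip are near its vertex -/
theorem near_cen (hW : FPath M W) {A' B' : ℝ} (hAB : A' ≤ B') {h : ℝ} {j : ℤ} {w : ℂ}
    (hw : w ∈ RR A' B' h W j) : ‖w - cen h W j‖ ≤ A' + B' := by
  have key : ∀ u : ℂ, ‖u‖ = 1 → w ∈ Arm A' B' (cen h W j) u → ‖w - cen h W j‖ ≤ A' + B' := by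
    rintro u hu ⟨⟨h1, h2⟩, h3⟩
    have h4 := RegBx523.norm_le_XY (c := cen h W j) (s := w) hu
    have h5 : |X (cen h W j) u w| ≤ B' := abs_le.2 ⟨by linarith, h2.le⟩
    linarith
  rcases hw with hw | hw
  · exact key _ (norm_cz (hW.step' j)) hw
  · exact key _ (norm_cz (hW.step j)) hw

/-- **no holes round the strips** -/
theorem dense (E : En S F n m p M W A η d) {j : ℤ} {w : ℂ}
    (hw : w ∈ RR (13 * η) (54 * η) (100 * η) W j) {z : ℂ} (hz : ‖z - w‖ ≤ d) :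
    ∃ s ∈ S, ‖s - z‖ < d := by
  have h1 := E.e0
  have h2 := E.d0
  have h3 := E.de
  refine E.hol j (cen (100 * η) W j) (cen_RR (by linarith) (by linarith) _ _ _) z ?_
  have h4 := near_cen E.fine.fpath (by linarith) hw
  have h5 : ‖z - cen (100 * η) W j‖ ≤ ‖z - w‖ + ‖w - cen (100 * η) W j‖ := by
    have : z - cen (100 * η) W j = (z - w) + (w - cen (100 * η) W j) := by ring
    rw [this]
    exact norm_add_le _ _
  linarith

/-- the local facts -/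
structure Fct (S : Finset ℂ) (F : Set V) (m M : ℕ) (W : ℤ → V) (A : ℤ → ℤ) (η d : ℝ) : Prop where
  short : ∀ w, (∀ z, ‖z - w‖ ≤ d → ∃ s ∈ S, ‖s - z‖ < d) → ∀ u v, DE S u v → w ∈ segment ℝ u v →
    ‖u - w‖ < 4 * d ∧ ‖v - w‖ < 4 * d
  up_far : ∀ g, Strg A g → ∀ v ∈ Wn η W g (2 * η) (9 * η) (30 * η), ∀ j w,
    w ∈ RR (13 * η) (54 * η) (100 * η) W j → ¬ (M : ℤ) ∣ j - (g - 2) → ¬ (M : ℤ) ∣ j - (g - 1) →
    ¬ (M : ℤ) ∣ j - g → ¬ (M : ℤ) ∣ j - (g + 1) → 4 * d ≤ ‖v - w‖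
  dn_far : ∀ g, Strg A g → ∀ v ∈ Wn η W g (2 * η) (-(101 * η)) (-(9 * η)), ∀ j w,
    w ∈ RR (13 * η) (54 * η) (100 * η) W j → ¬ (M : ℤ) ∣ j - (g - 2) → ¬ (M : ℤ) ∣ j - (g - 1) →
    ¬ (M : ℤ) ∣ j - g → ¬ (M : ℤ) ∣ j - (g + 1) → 4 * d ≤ ‖v - w‖
  off_far : ∀ v ∈ Off S (14 * η) (55 * η) (100 * η) W, ∀ j w,
    w ∈ RR (13 * η) (54 * η) (100 * η) W j → 4 * d ≤ ‖v - w‖
  rr_far : ∀ i j v w, v ∈ RR (12 * η) (53 * η) (100 * η) W i →
    w ∈ RR (13 * η) (54 * η) (100 * η) W j → ¬ (M : ℤ) ∣ j - i → ¬ (M : ℤ) ∣ j - (i + 1) →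
    ¬ (M : ℤ) ∣ j - (i - 1) → 4 * d ≤ ‖v - w‖
  P_far : ∀ x ∈ Pg (m * (100 * η)) F, ∀ v, ‖v - x‖ < d → ∀ j w,
    w ∈ RR (13 * η) (54 * η) (100 * η) W j → 4 * d ≤ ‖v - w‖
  axm : ∀ g, Strg A g → ∀ x : ℝ, |x| ≤ 200 * η → ∃ j, g - 2 ≤ j ∧ j ≤ g + 1 ∧
    ax (gz (100 * η) W g) (ge W g) x ∈ RR (13 * η) (54 * η) (100 * η) W j
  ax2 : ∀ g, Strg A g → ∀ x : ℝ, -(200 * η) ≤ x → x ≤ -(100 * η) →
    ax (gz (100 * η) W g) (ge W g) x ∈ RR (13 * η) (54 * η) (100 * η) W (g - 2)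
  ax1 : ∀ g, Strg A g → ∀ x : ℝ, 100 * η ≤ x → x ≤ 200 * η →
    ax (gz (100 * η) W g) (ge W g) x ∈ RR (13 * η) (54 * η) (100 * η) W (g + 1)
  ax3 : ∀ g, Strg A g → ax (gz (100 * η) W g) (ge W g) (-(200 * η)) ∈
    RR (13 * η) (54 * η) (100 * η) W (g - 3)
  ax4 : ∀ g, Strg A g → ax (gz (100 * η) W g) (ge W g) (200 * η) ∈
    RR (13 * η) (54 * η) (100 * η) W (g + 2)

theorem ndvd {M : ℕ} {j c : ℤ} (h1 : c < j) (h2 : j < c + M) : ¬ (M : ℤ) ∣ j - c := by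
  intro h
  have := Int.le_of_dvd (by omega) h
  omega

/-- coordinates of an axis point -/
theorem ax_X {z0 e : ℂ} (he : e ≠ 0) (x : ℝ) : X z0 e (ax z0 e x) = x := by
  unfold X ax
  rw [add_sub_cancel_left, mul_div_cancel_left₀ _ he, Complex.ofReal_re]

theorem ax_Y {z0 e : ℂ} (he : e ≠ 0) (x : ℝ) : Y z0 e (ax z0 e x) = 0 := by
  unfold Y ax
  rw [add_sub_cancel_left, mul_div_cancel_left₀ _ he, Complex.ofReal_im]

/-- sites with `|X| < 102 η` are far from the axis points with `103 η ≤ |x|` -/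
theorem sepX {z0 e : ℂ} (he : ‖e‖ = 1) {v : ℂ} {η x : ℝ} (h1 : |X z0 e v| < 102 * η)
    (h2 : 103 * η ≤ |x|) : η ≤ ‖v - ax z0 e x‖ := by
  have h0 : e ≠ 0 := by
    rintro rfl
    rw [norm_zero] at he
    exact one_ne_zero he.symm
  have h3 := TilUx496.X_lip z0 he v (ax z0 e x)
  rw [ax_X h0] at h3
  have h4 : |x| ≤ |X z0 e v| + |X z0 e v - x| := by
    have := abs_sub_abs_le_abs_sub x (X z0 e v)
    rw [abs_sub_comm] at this
    linarith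
  linarith

theorem sepY {z0 e : ℂ} (he : ‖e‖ = 1) {v : ℂ} {x c : ℝ} (h1 : c ≤ |Y z0 e v|) :
    c ≤ ‖v - ax z0 e x‖ := by
  have h0 : e ≠ 0 := by
    rintro rfl
    rw [norm_zero] at he
    exact one_ne_zero he.symm
  have h3 := TilUx496.Y_lip z0 he v (ax z0 e x)
  rw [ax_Y h0, sub_zero] at h3
  linarith

/-- the inner set -/
def Ci (_M : ℕ) (W : ℤ → V) (η : ℝ) (gL gR : ℤ) : Set ℂ :=
  (⋃ j ∈ Icc (gL + 2) (gR - 3), RR (13 * η) (54 * η) (100 * η) W j) ∪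
    {z | ∃ x : ℝ, -(200 * η) ≤ x ∧ x ≤ -(103 * η) ∧ z = ax (gz (100 * η) W gR) (ge W gR) x}

/-- the outer set -/
def Co (M : ℕ) (W : ℤ → V) (η : ℝ) (gL gR : ℤ) : Set ℂ :=
  (⋃ j ∈ Icc (gR + 2) (gL - 3 + M), RR (13 * η) (54 * η) (100 * η) W j) ∪
    {z | ∃ x : ℝ, 103 * η ≤ x ∧ x ≤ 200 * η ∧ z = ax (gz (100 * η) W gR) (ge W gR) x}

theorem mem_Ci {gL gR j : ℤ} {s : ℂ} (h1 : gL + 2 ≤ j) (h2 : j ≤ gR - 3)
    (hs : s ∈ RR (13 * η) (54 * η) (100 * η) W j) : s ∈ Ci M W η gL gR := by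
  refine Or.inl ?_
  simp only [mem_iUnion, mem_Icc, exists_prop]
  exact ⟨j, ⟨h1, h2⟩, hs⟩

theorem mem_Co {gL gR j : ℤ} {s : ℂ} (h1 : gR + 2 ≤ j) (h2 : j ≤ gL - 3 + M)
    (hs : s ∈ RR (13 * η) (54 * η) (100 * η) W j) : s ∈ Co M W η gL gR := by
  refine Or.inl ?_
  simp only [mem_iUnion, mem_Icc, exists_prop]
  exact ⟨j, ⟨h1, h2⟩, hs⟩

theorem axis_pre (z0 e : ℂ) (x y : ℝ) : IsPreconnected {z | ∃ r : ℝ, x ≤ r ∧ r ≤ y ∧ z = ax z0 e r} := by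
  have e1 : {z | ∃ r : ℝ, x ≤ r ∧ r ≤ y ∧ z = ax z0 e r} = ax z0 e '' Icc x y := by
    ext z
    simp only [mem_ofPred_eq, mem_image, mem_Icc]
    constructor
    · rintro ⟨r, h1, h2, rfl⟩
      exact ⟨r, ⟨h1, h2⟩, rfl⟩
    · rintro ⟨r, ⟨h1, h2⟩, rfl⟩
      exact ⟨r, h1, h2, rfl⟩
  rw [e1]
  refine isPreconnected_Icc.image _ (Continuous.continuousOn ?_)
  unfold LocPx776.ax
  fun_prop

/-- **THE CLOSED CURTAIN ON THE FINE PATH** -/
theorem curtain0 (E : En S F n m p M W A η d) (K : Fct S F m M W A η d) {gR gL : ℤ}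
    (sR : Strg A gR) (sL : Strg A gL) (h1 : gL + 5 ≤ gR) (h2 : gR + 8 ≤ gL + M)
    {VR VL VF VK : Set ℂ} {aR bR aL bL : ℂ} (vR : VCh S η W gR VR aR bR)
    (vL : VCh S η W gL VL aL bL) (lF : Lk S VF bR bL) (lK : Lk S VK aL aR)
    (hF : ∀ v ∈ VF, v ∈ Off S (14 * η) (55 * η) (100 * η) W ∨ v ∈ Wn η W gR (2 * η) (10 * η) (30 * η) ∨
      v ∈ Wn η W gL (2 * η) (10 * η) (30 * η))
    (hK : ∀ v ∈ VK, (∃ x ∈ Pg (m * (100 * η)) F, ‖v - x‖ < d) ∨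
      v ∈ Wn η W gR (2 * η) (-(101 * η)) (-(9 * η)) ∨
      v ∈ Wn η W gL (2 * η) (-(101 * η)) (-(9 * η))) :
    Cur S (gz (100 * η) W gR) (ge W gR) (-(103 * η)) (103 * η) VR VF VL VK (Ci M W η gL gR)
      (Co M W η gL gR) aR bR bL aL := by
  have e0 := E.e0
  have d0 := E.d0
  have de := E.de
  have hW := E.fine.fpath
  have hu : ‖ge W gR‖ = 1 := TilUx496.ge_norm hW gR
  have hne : ge W gR ≠ 0 := TilUx496.ge_ne hW gR
  have hM : (M : ℤ) > 0 := by omega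
  -- every point is in a tile
  have loc : ∀ w, (w ∈ Ci M W η gL gR ∨ w ∈ Co M W η gL gR ∨ ∃ x, -(103 * η) ≤ x ∧ x ≤ 103 * η ∧
      w = ax (gz (100 * η) W gR) (ge W gR) x) → ∃ j, gL + 2 ≤ j ∧ j ≤ gL - 3 + M ∧
      w ∈ RR (13 * η) (54 * η) (100 * η) W j := by
    intro w hw
    rcases hw with (hw | ⟨x, a1, a2, rfl⟩) | (hw | ⟨x, a1, a2, rfl⟩) | ⟨x, a1, a2, rfl⟩
    · simp only [mem_iUnion, mem_Icc, exists_prop] at hw
      obtain ⟨j, ⟨b1, b2⟩, b3⟩ := hw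
      exact ⟨j, b1, by omega, b3⟩
    · exact ⟨gR - 2, by omega, by omega, K.ax2 gR sR x a1 (by linarith)⟩
    · simp only [mem_iUnion, mem_Icc, exists_prop] at hw
      obtain ⟨j, ⟨b1, b2⟩, b3⟩ := hw
      exact ⟨j, by omega, b2, b3⟩
    · exact ⟨gR + 1, by omega, by omega, K.ax1 gR sR x (by linarith) a2⟩
    · obtain ⟨j, b1, b2, b3⟩ := K.axm gR sR x (abs_le.2 ⟨by linarith, by linarith⟩)
      exact ⟨j, by omega, by omega, b3⟩
  -- far from the chains at `gL` and from the polygon and the outer sites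
  have fL : ∀ w, (w ∈ Ci M W η gL gR ∨ w ∈ Co M W η gL gR ∨ ∃ x, -(103 * η) ≤ x ∧ x ≤ 103 * η ∧
      w = ax (gz (100 * η) W gR) (ge W gR) x) → ∀ v,
      (v ∈ VL ∨ v ∈ Wn η W gL (2 * η) (10 * η) (30 * η) ∨
        v ∈ Wn η W gL (2 * η) (-(101 * η)) (-(9 * η)) ∨
        v ∈ Off S (14 * η) (55 * η) (100 * η) W ∨ ∃ x ∈ Pg (m * (100 * η)) F, ‖v - x‖ < d) →
      4 * d ≤ ‖v - w‖ := by
    intro w hw v hv
    obtain ⟨j, j1, j2, hj⟩ := loc w hw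
    have n1 : ¬ (M : ℤ) ∣ j - (gL - 2) := ndvd (by omega) (by omega)
    have n2 : ¬ (M : ℤ) ∣ j - (gL - 1) := ndvd (by omega) (by omega)
    have n3 : ¬ (M : ℤ) ∣ j - gL := ndvd (by omega) (by omega)
    have n4 : ¬ (M : ℤ) ∣ j - (gL + 1) := ndvd (by omega) (by omega)
    rcases hv with hv | hv | hv | hv | ⟨x, hx, hv⟩
    · rcases vL.rr v hv with h3 | h3
      · exact K.rr_far _ _ _ _ h3 hj n2 (by rwa [sub_add_cancel])
          (by rwa [show gL - 1 - 1 = gL - 2 by ring])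
      · exact K.rr_far _ _ _ _ h3 hj n3 n4 n2
    · exact K.up_far gL sL v ⟨hv.1, by linarith [hv.2.1], hv.2.2⟩ j w hj n1 n2 n3 n4
    · exact K.dn_far gL sL v hv j w hj n1 n2 n3 n4
    · exact K.off_far v hv j w hj
    · exact K.P_far x hx v hv j w hj
  -- tiles of `Ci`, `Co` are far from the tiles of the gate `gR`
  have fR : ∀ j w, ((gL + 2 ≤ j ∧ j ≤ gR - 3) ∨ (gR + 2 ≤ j ∧ j ≤ gL - 3 + M)) →
      w ∈ RR (13 * η) (54 * η) (100 * η) W j → ∀ v,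
      (v ∈ VR ∨ v ∈ Wn η W gR (2 * η) (10 * η) (30 * η) ∨
        v ∈ Wn η W gR (2 * η) (-(101 * η)) (-(9 * η))) → 4 * d ≤ ‖v - w‖ := by
    intro j w hj hw v hv
    have key : ∀ c, gR - 2 ≤ c → c ≤ gR + 1 → ¬ (M : ℤ) ∣ j - c := by
      intro c c1 c2
      rcases hj with ⟨j1, j2⟩ | ⟨j1, j2⟩
      · intro hd
        have := Int.le_of_dvd (by omega) ((dvd_neg (a := (M : ℤ)) (b := j - c)).2 hd)
        omega
      · exact ndvd (by omega) (by omega)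
    have n1 := key (gR - 2) (by omega) (by omega)
    have n2 := key (gR - 1) (by omega) (by omega)
    have n3 := key gR (by omega) (by omega)
    have n4 := key (gR + 1) (by omega) (by omega)
    rcases hv with hv | hv | hv
    · rcases vR.rr v hv with h3 | h3
      · exact K.rr_far _ _ _ _ h3 hw n2 (by rwa [sub_add_cancel])
          (by rwa [show gR - 1 - 1 = gR - 2 by ring])
      · exact K.rr_far _ _ _ _ h3 hw n3 n4 n2
    · exact K.up_far gR sR v ⟨hv.1, by linarith [hv.2.1], hv.2.2⟩ j w hw n1 n2 n3 n4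
    · exact K.dn_far gR sR v hv j w hw n1 n2 n3 n4
  have fY : ∀ v, (v ∈ Wn η W gR (2 * η) (10 * η) (30 * η) ∨
      v ∈ Wn η W gR (2 * η) (-(101 * η)) (-(9 * η))) → ∀ x : ℝ,
      4 * d ≤ ‖v - ax (gz (100 * η) W gR) (ge W gR) x‖ := by
    intro v hv x
    refine le_trans ?_ (sepY (x := x) (c := 9 * η) hu ?_)
    · linarith
    · rcases hv with hv | hv
      · exact le_abs.2 (Or.inl (by linarith [hv.2.1]))
      · exact le_abs.2 (Or.inr (by linarith [hv.2.2]))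
  refine cur_of_sep (d := d) hne vR.lk lF vL.lk.symm lK (by linarith) ?_ ?_ ?_ ?_ ?_ ?_ ?_ ?_ ?_ ?_
  · intro s hs
    have := abs_lt.1 (vR.win s hs)
    exact ⟨by linarith, by linarith⟩
  · linarith [vR.s1.2.2]
  · linarith [vR.t1.2.1]
  · refine IsPreconnected.union (ax (gz (100 * η) W gR) (ge W gR) (-(200 * η))) ?_
      ⟨-(200 * η), le_rfl, by linarith, rfl⟩
      (TilUx496.tiles_pre hW (by linarith) (by linarith) (by linarith) (by linarith) (by omega))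
      (axis_pre _ _ _ _)
    simp only [mem_iUnion, mem_Icc, exists_prop]
    exact ⟨gR - 3, ⟨by omega, le_rfl⟩, K.ax3 gR sR⟩
  · refine IsPreconnected.union (ax (gz (100 * η) W gR) (ge W gR) (200 * η)) ?_
      ⟨200 * η, by linarith, le_rfl, rfl⟩
      (TilUx496.tiles_pre hW (by linarith) (by linarith) (by linarith) (by linarith) (by omega))
      (axis_pre _ _ _ _)
    simp only [mem_iUnion, mem_Icc, exists_prop]
    exact ⟨gR + 2, ⟨le_rfl, by omega⟩, K.ax4 gR sR⟩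
  · exact Or.inr ⟨-(103 * η), by linarith, le_rfl, rfl⟩
  · exact Or.inr ⟨103 * η, le_rfl, by linarith, rfl⟩
  · intro w hw u v huv hwv
    obtain ⟨j, -, -, hj⟩ := loc w hw
    exact K.short w (fun z hz => dense E hj hz) u v huv hwv
  · intro w hw v hv
    have hw' := hw.imp_right (Or.inl (b := ∃ x, -(103 * η) ≤ x ∧ x ≤ 103 * η ∧
      w = ax (gz (100 * η) W gR) (ge W gR) x))
    -- sites near the gate `gR`
    have hR : (v ∈ VR ∨ v ∈ Wn η W gR (2 * η) (10 * η) (30 * η) ∨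
        v ∈ Wn η W gR (2 * η) (-(101 * η)) (-(9 * η))) → 4 * d ≤ ‖v - w‖ := by
      intro hv'
      have tl : ∀ j, ((gL + 2 ≤ j ∧ j ≤ gR - 3) ∨ (gR + 2 ≤ j ∧ j ≤ gL - 3 + M)) →
          w ∈ RR (13 * η) (54 * η) (100 * η) W j → 4 * d ≤ ‖v - w‖ := fun j h3 h4 =>
        fR j w h3 h4 v hv'
      have ax' : ∀ x : ℝ, 103 * η ≤ |x| → w = ax (gz (100 * η) W gR) (ge W gR) x →
          4 * d ≤ ‖v - w‖ := by
        rintro x hx rfl
        rcases hv' with h3 | h3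
        · exact le_trans (by linarith) (sepX hu (vR.win v h3) hx)
        · exact fY v h3 x
      rcases hw with (hw | ⟨x, a1, a2, a3⟩) | (hw | ⟨x, a1, a2, a3⟩)
      · simp only [mem_iUnion, mem_Icc, exists_prop] at hw
        obtain ⟨j, ⟨b1, b2⟩, b3⟩ := hw
        exact tl j (Or.inl ⟨b1, b2⟩) b3
      · exact ax' x (le_abs.2 (Or.inr (by linarith))) a3
      · simp only [mem_iUnion, mem_Icc, exists_prop] at hw
        obtain ⟨j, ⟨b1, b2⟩, b3⟩ := hw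
        exact tl j (Or.inr ⟨b1, b2⟩) b3
      · exact ax' x (le_abs.2 (Or.inl (by linarith))) a3
    rcases hv with hv | hv | hv | hv
    · exact hR (Or.inl hv)
    · rcases hF v hv with h3 | h3 | h3
      · exact fL w hw' v (Or.inr (Or.inr (Or.inr (Or.inl h3))))
      · exact hR (Or.inr (Or.inl h3))
      · exact fL w hw' v (Or.inr (Or.inl h3))
    · exact fL w hw' v (Or.inl hv)
    · rcases hK v hv with h3 | h3 | h3
      · exact fL w hw' v (Or.inr (Or.inr (Or.inr (Or.inr h3))))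
      · exact hR (Or.inr (Or.inr h3))
      · exact fL w hw' v (Or.inr (Or.inr (Or.inl h3)))
  · intro x a1 a2 v hv
    have hw' : ax (gz (100 * η) W gR) (ge W gR) x ∈ Ci M W η gL gR ∨
        ax (gz (100 * η) W gR) (ge W gR) x ∈ Co M W η gL gR ∨
        ∃ x', -(103 * η) ≤ x' ∧ x' ≤ 103 * η ∧
          ax (gz (100 * η) W gR) (ge W gR) x = ax (gz (100 * η) W gR) (ge W gR) x' :=
      Or.inr (Or.inr ⟨x, a1, a2, rfl⟩)
    rcases hv with hv | hv | hv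
    · rcases hF v hv with h3 | h3 | h3
      · exact fL _ hw' v (Or.inr (Or.inr (Or.inr (Or.inl h3))))
      · exact fY v (Or.inl h3) x
      · exact fL _ hw' v (Or.inr (Or.inl h3))
    · exact fL _ hw' v (Or.inl hv)
    · rcases hK v hv with h3 | h3 | h3
      · exact fL _ hw' v (Or.inr (Or.inr (Or.inr (Or.inr h3))))
      · exact fY v (Or.inr h3) x
      · exact fL _ hw' v (Or.inr (Or.inr (Or.inl h3)))

end Crest.Agent.R143.LocEx776
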