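import Crest.Agent.R143.Ext_358

/-!
# Row 143 (S0194), RIG box Q2: LOCX, cell half (helper434; cut (A) of helper776)

`Z' ⊆ Z` blocking sets, `T` = the window (fixed set of cells), `Cor` = cells of the (wide) strips,
`L1` = far cells.  `Ext M H Z` (358) = cells joined to the hull off `Z`; `Ext' = Ext M H (Z' ∪ T)`.

* `NN` : cells of `Ext` in `Cor` which are not in `Ext'`; `Ch` : one step of a chain in `NN`, off `T`
* `ext_or` : a cell of `Ext` is in `Ext'`, or it is joined to a cell of `T` by a chain in `NN`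
* **`locx`** : (top) cells of `Ext` off `Cor` are in `Ext'`; (mid) no chain in `NN` from `T` to `L1`
  ⟹ `Ext ∩ L1 ⊆ Ext'`
* `locx_bd` : cells of `Z'` next to `Ext`, whose neighbours are in `L1`, are next to `Ext'`
* `back` : `Z ⊆ Z' ∪ T` ⟹ `Ext' ⊆ Ext`; `back_bd`; `locx_iff`
* `out_sub`, `sub_out` : `Out ∩ L ⊆ P` and `P ⊆ Out` for `P = A' ∪ Ext' ∪ {c ∈ Z' : next to Ext'}`
-/

set_option autoImplicit false

noncomputable section

open scoped Classical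

namespace Crest.Agent.R143.LocXx434

open Crest.Agent.R143.Frame1x395 Crest.Agent.R143.Frame2x395 Crest.Agent.R143.Extx358

variable {D C : Type} {M : CMap D C} {H Z Z' T Cor L1 : Set C}

/-- cells of `Ext` in `Cor` which are not in `Ext'` -/
def NN (M : CMap D C) (H Z Z' T Cor : Set C) : Set C :=
  {c | Ext M H Z c ∧ c ∈ Cor ∧ ¬ Ext M H (Z' ∪ T) c}

/-- one step of a chain in `NN`, off `T` -/
def Ch (M : CMap D C) (H Z Z' T Cor : Set C) (a b : C) : Prop :=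
  Ad M a b ∧ a ∈ NN M H Z Z' T Cor ∧ b ∈ NN M H Z Z' T Cor ∧ b ∉ T

/-- a cell of `Ext` which is in the window is in `NN` -/
theorem nn_of {t : C} (hT : T ⊆ Cor) (h : Ext M H Z t) (ht : t ∈ T) :
    t ∈ NN M H Z Z' T Cor :=
  ⟨h, hT ht, fun h' => h'.off (Or.inr ht)⟩

/-- **`Ext'` or a chain from the window** -/
theorem ext_or (hZ : Z' ⊆ Z) (hT : T ⊆ Cor)
    (top : ∀ c, Ext M H Z c → c ∉ Cor → Ext M H (Z' ∪ T) c) {c : C} (h : Ext M H Z c) :
    Ext M H (Z' ∪ T) c ∨ (c ∈ NN M H Z Z' T Cor ∧ ∃ t ∈ T, t ∈ NN M H Z Z' T Cor ∧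
      Relation.ReflTransGen (Ch M H Z Z' T Cor) t c) := by
  induction h with
  | @hull c h1 h2 =>
    by_cases hc : c ∈ T
    · have h3 := nn_of (Z' := Z') hT (Ext.hull h1 h2 : Ext M H Z c) hc
      exact Or.inr ⟨h3, c, hc, h3, .refl⟩
    · refine Or.inl (Ext.hull h1 ?_)
      rintro (h4 | h4)
      · exact h2 (hZ h4)
      · exact hc h4
  | @step c c' h1 h2 h3 ih =>
    have h' : Ext M H Z c' := Ext.step h1 h2 h3
    by_cases hc : c' ∈ T
    · have h4 := nn_of (Z' := Z') hT h' hc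
      exact Or.inr ⟨h4, c', hc, h4, .refl⟩
    · by_cases he : Ext M H (Z' ∪ T) c'
      · exact Or.inl he
      · have h5 : ¬ Ext M H (Z' ∪ T) c := fun h6 => he (Ext.step h6 h2 (by
          rintro (h7 | h7)
          · exact h3 (hZ h7)
          · exact hc h7))
        have h6 : c' ∈ Cor := by
          by_contra h7
          exact he (top c' h' h7)
        have h7 : c' ∈ NN M H Z Z' T Cor := ⟨h', h6, he⟩
        rcases ih with ih | ⟨i1, t, i2, i3, i4⟩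
        · exact absurd ih h5
        · exact Or.inr ⟨h7, t, i2, i3, i4.tail ⟨h2, i1, h7, hc⟩⟩

/-- **LOCX, cell half** -/
theorem locx (hZ : Z' ⊆ Z) (hT : T ⊆ Cor)
    (top : ∀ c, Ext M H Z c → c ∉ Cor → Ext M H (Z' ∪ T) c)
    (mid : ∀ t ∈ T, t ∈ NN M H Z Z' T Cor → ∀ c,
      Relation.ReflTransGen (Ch M H Z Z' T Cor) t c → c ∉ L1)
    {c : C} (h : Ext M H Z c) (hc : c ∈ L1) : Ext M H (Z' ∪ T) c := by
  rcases ext_or hZ hT top h with h1 | ⟨-, t, h2, h3, h4⟩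
  · exact h1
  · exact absurd hc (mid t h2 h3 c h4)

/-- the chain without the remark that it stays off `T` -/
theorem ch_weak {a b : C} (h : Relation.ReflTransGen (Ch M H Z Z' T Cor) a b) :
    Relation.ReflTransGen (fun a b => Ad M a b ∧ a ∈ NN M H Z Z' T Cor ∧
      b ∈ NN M H Z Z' T Cor) a b :=
  Relation.ReflTransGen.mono (fun _ _ h => ⟨h.1, h.2.1, h.2.2.1⟩) _ _ h

/-- the cells of the chain after the first one -/
theorem ch_mem {a b : C} (ha : a ∈ NN M H Z Z' T Cor)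
    (h : Relation.ReflTransGen (Ch M H Z Z' T Cor) a b) : b ∈ NN M H Z Z' T Cor := by
  cases h with
  | refl => exact ha
  | tail _ h => exact h.2.2.1

/-- a chain as a list of cells -/
theorem ch_list {a b : C} (ha : a ∈ NN M H Z Z' T Cor)
    (h : Relation.ReflTransGen (Ch M H Z Z' T Cor) a b) :
    ∃ l : List C, ∃ hl : l ≠ [], l.head hl = a ∧ l.getLast hl = b ∧ l.IsChain (Ad M) ∧
      (∀ c ∈ l, c ∈ NN M H Z Z' T Cor) ∧ ∀ c ∈ l.tail, c ∉ T := by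
  induction h using Relation.ReflTransGen.head_induction_on with
  | refl => exact ⟨[b], by simp, rfl, rfl, by simp, by simpa using ha, by simp⟩
  | @head a c h1 h2 ih =>
    obtain ⟨l, hl, e1, e2, h3, h4, h5⟩ := ih h1.2.2.1
    refine ⟨a :: l, by simp, rfl, ?_, ?_, ?_, ?_⟩
    · rw [List.getLast_cons hl]; exact e2
    · obtain ⟨x, l', rfl⟩ := List.exists_cons_of_ne_nil hl
      rw [List.isChain_cons_cons]
      have e1' : x = c := e1
      exact ⟨by rw [e1']; exact h1.1, h3⟩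
    · intro x hx
      rcases List.mem_cons.1 hx with rfl | hx
      · exact ha
      · exact h4 x hx
    · intro x hx
      obtain ⟨y, l', rfl⟩ := List.exists_cons_of_ne_nil hl
      have e1' : y = c := e1
      rcases List.mem_cons.1 (show x ∈ y :: l' from hx) with rfl | hx
      · rw [e1']; exact h1.2.2.2
      · exact h5 x hx

/-! ### the boundary cells -/

/-- a cell of `Z'` next to `Ext` whose neighbours are far is next to `Ext'` -/
theorem locx_nb (hZ : Z' ⊆ Z) (hT : T ⊆ Cor)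
    (top : ∀ c, Ext M H Z c → c ∉ Cor → Ext M H (Z' ∪ T) c)
    (mid : ∀ t ∈ T, t ∈ NN M H Z Z' T Cor → ∀ c,
      Relation.ReflTransGen (Ch M H Z Z' T Cor) t c → c ∉ L1)
    {c : C} (h : c ∈ Bd M H Z) (hc : ∀ e, Ad M e c → e ∈ L1) :
    ∃ e, Ext M H (Z' ∪ T) e ∧ Ad M e c := by
  obtain ⟨-, e, h1, h2⟩ := h
  exact ⟨e, locx hZ hT top mid h1 (hc e h2), h2⟩

theorem locx_bd (hZ : Z' ⊆ Z) (hT : T ⊆ Cor)
    (top : ∀ c, Ext M H Z c → c ∉ Cor → Ext M H (Z' ∪ T) c)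
    (mid : ∀ t ∈ T, t ∈ NN M H Z Z' T Cor → ∀ c,
      Relation.ReflTransGen (Ch M H Z Z' T Cor) t c → c ∉ L1)
    {c : C} (h : c ∈ Bd M H Z) (hc : ∀ e, Ad M e c → e ∈ L1) (hc' : c ∈ Z') :
    c ∈ Bd M H (Z' ∪ T) :=
  ⟨Or.inl hc', locx_nb hZ hT top mid h hc⟩

/-! ### the other inclusion -/

/-- `Z ⊆ Z' ∪ T` ⟹ `Ext' ⊆ Ext` -/
theorem back (h : Z ⊆ Z' ∪ T) {c : C} (hc : Ext M H (Z' ∪ T) c) : Ext M H Z c :=
  hc.mono fun _ h1 h2 => h1.off (h h2)

/-- a cell of `Z` next to `Ext'` is in `Bd` -/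
theorem back_bd (h : Z ⊆ Z' ∪ T) {c e : C} (hc : c ∈ Z) (he : Ext M H (Z' ∪ T) e)
    (ha : Ad M e c) : c ∈ Bd M H Z := ⟨hc, e, back h he, ha⟩

theorem locx_iff (hZ : Z' ⊆ Z) (hT : T ⊆ Cor)
    (top : ∀ c, Ext M H Z c → c ∉ Cor → Ext M H (Z' ∪ T) c)
    (mid : ∀ t ∈ T, t ∈ NN M H Z Z' T Cor → ∀ c,
      Relation.ReflTransGen (Ch M H Z Z' T Cor) t c → c ∉ L1)
    (hb : Z ⊆ Z' ∪ T) {c : C} (hc : c ∈ L1) : Ext M H (Z' ∪ T) c ↔ Ext M H Z c :=
  ⟨back hb, fun h => locx hZ hT top mid h hc⟩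

/-! ### `Out` and `P` -/

/-- the revealed set of the window: pieces `A'`, `Ext'`, cells of `Z'` next to `Ext'` -/
def PP (M : CMap D C) (H Z' T A' : Set C) : Set C :=
  A' ∪ ({c | Ext M H (Z' ∪ T) c} ∪ {c | c ∈ Z' ∧ ∃ e, Ext M H (Z' ∪ T) e ∧ Ad M e c})

variable {A A' L : Set C}

/-- **`P ⊆ O`** -/
theorem sub_out (hZ : Z' ⊆ Z) (hb : Z ⊆ Z' ∪ T) (hA : A' ⊆ A) :
    PP M H Z' T A' ⊆ A ∪ ({c | Ext M H Z c} ∪ Bd M H Z) := by
  rintro c (h | h | ⟨h, e, h1, h2⟩)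
  · exact Or.inl (hA h)
  · exact Or.inr (Or.inl (back hb h))
  · exact Or.inr (Or.inr (back_bd hb (hZ h) h1 h2))

/-- **`O ∩ L ⊆ P`** -/
theorem out_sub (hZ : Z' ⊆ Z) (hT : T ⊆ Cor)
    (top : ∀ c, Ext M H Z c → c ∉ Cor → Ext M H (Z' ∪ T) c)
    (mid : ∀ t ∈ T, t ∈ NN M H Z Z' T Cor → ∀ c,
      Relation.ReflTransGen (Ch M H Z Z' T Cor) t c → c ∉ L1)
    (hL : ∀ c ∈ L, c ∈ L1) (hL' : ∀ c ∈ L, ∀ e, Ad M e c → e ∈ L1)
    (hA : ∀ c ∈ A, c ∈ L → c ∈ A') (hZL : ∀ c ∈ Z, c ∈ L → c ∈ Z') :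
    (A ∪ ({c | Ext M H Z c} ∪ Bd M H Z)) ∩ L ⊆ PP M H Z' T A' := by
  rintro c ⟨h | h | h, hc⟩
  · exact Or.inl (hA c h hc)
  · exact Or.inr (Or.inl (locx hZ hT top mid h (hL c hc)))
  · exact Or.inr (Or.inr ⟨hZL c h.1 hc, locx_nb hZ hT top mid h (hL' c hc)⟩)

end Crest.Agent.R143.LocXx434
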