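import Crest.Agent.R143.QuL_810
import Crest.Agent.R143.QuS_166
import Crest.Agent.R143.QuF_778
import Crest.Agent.R143.OutS_358

/-!
# Row 143 (S0194), box Q2: the charge of one region between the touches (helper810)

* `gts3`, `card3` : 166's three giants as `Gts`
* `vg_le` : given `σ`, mean over the fresh colours of the square of the closed part (constant `2 ^ 4`)
* `wr_le` : **second moment of `Wr`** (charge of one region, 166's `wr_eq`): from the bound of the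
  block of the mixed colouring (535's `PL`) and `vg_le`
* `wr_sys` : the same for the revealed set of `OutS_358`
-/

set_option autoImplicit false
set_option linter.unusedSectionVars false

noncomputable section

open scoped Classical

namespace Crest.Agent.R143.QuWx810

open Crest.Agent.R143.Frame1x395 Crest.Agent.R143.Frame2x395 Crest.Agent.R143.Frame3x395
  Crest.Agent.R143.Frame4x395 Crest.Agent.R143.Frame8x395 Crest.Agent.R143.Frame9x395
  Crest.Agent.R143.NonXx592 Crest.Agent.R143.Coarsex166 Crest.Agent.R143.Giantx46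
  Crest.Agent.R143.Resax778 Crest.Agent.R143.Partx778 Crest.Agent.R143.R5qx166
  Crest.Agent.R143.QuSx166 Crest.Agent.R143.QuLx810

open Splx117 (Lp InK gp)
open C2SBx395 (Cq Root Free)
open QuFx778 (pz cq clsCon Cz)
open Sptx169 (rst)
open OutSx358 (Sys OO wg rt)

/-! ### three giants -/

section three

variable {D C : Type} [Fintype D] [Fintype C] {M : CMap D C} {A : ZMod 3 → Set C}
  {E : Finset C} {χ₀ : C → ZMod 2}

/-- the three giants as `Gts` -/
theorem gts3 (G : C2SBx395.Gi M A) (hE : ∀ c, c ∈ E ↔ ¬ Free A c)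
    (hχ : ∀ j c c', c ∈ A j → c' ∈ A j → χ₀ c = χ₀ c') :
    Gts (pz G) E χ₀ (E.image (pz G)) fun c' => χ₀ ((cq G).surj c').choose := by
  refine ⟨(cq G).surj, ?_, fun c hc => Finset.mem_image_of_mem _ hc, ?_, ?_⟩
  · intro c c' hc e
    rcases ((cq G).ker _ _).1 e with h | ⟨j, h1, -⟩
    · exact h
    · exact absurd ((hE c).2 (QuFx778.not_free h1)) hc
  · intro a ha
    obtain ⟨c, hc, rfl⟩ := Finset.mem_image.1 ha
    exact ⟨c, hc, rfl⟩
  · intro c _
    have h := ((cq G).surj (pz G c)).choose_spec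
    rcases ((cq G).ker _ _).1 h with h1 | ⟨j, h1, h2⟩
    · rw [h1]
    · exact hχ j _ _ h2 h1

theorem card3 (G : C2SBx395.Gi M A) (hE : ∀ c, c ∈ E ↔ ¬ Free A c) :
    (E.image (pz G)).card ≤ 3 := by
  have h1 : E.image (pz G) ⊆ Finset.univ.biUnion fun j : ZMod 3 =>
      (E.image (pz G)).filter fun c' => ∃ c ∈ A j, pz G c = c' := by
    intro c' hc'
    obtain ⟨c, hc, rfl⟩ := Finset.mem_image.1 hc'
    have h2 := (hE c).1 hc
    unfold C2SBx395.Free at h2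
    push Not at h2
    obtain ⟨j, hj⟩ := h2
    exact Finset.mem_biUnion.2 ⟨j, Finset.mem_univ _, Finset.mem_filter.2 ⟨hc', c, hj, rfl⟩⟩
  have h2 : ∀ j : ZMod 3, ((E.image (pz G)).filter fun c' => ∃ c ∈ A j, pz G c = c').card ≤ 1 := by
    intro j
    refine Finset.card_le_one.2 fun a ha b hb => ?_
    obtain ⟨-, c, hc, rfl⟩ := Finset.mem_filter.1 ha
    obtain ⟨-, c', hc', rfl⟩ := Finset.mem_filter.1 hb
    exact (cq G).eq hc hc'
  refine (Finset.card_le_card h1).trans (Finset.card_biUnion_le.trans ?_)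
  refine (Finset.sum_le_sum fun j _ => h2 j).trans ?_
  simp

end three

/-! ### the closed part, given the revealed colours -/

section ex

variable {D C : Type} [Fintype D] [Fintype C] {M : CMap D C} {σ : C → ZMod 2} {p : D}
  {N n r : ℕ} {W : Set C} {O : (C → ZMod 2) → Finset C}

/-- the revealed cells are revealed -/
theorem mix_E (hO : (O σ : Set C) = EE M (cfg M σ) p n W) (τ : C → ZMod 2) :
    ∀ c ∈ EE M (cfg M σ) p n W, mix O σ τ c = σ c := fun c hc =>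
  mix_on (by rw [← Finset.mem_coe, hO]; exact hc)

/-- the recoloured configuration -/
theorem glue_r0 (hO : (O σ : Set C) = EE M (cfg M σ) p n W) (τ : C → ZMod 2) :
    glue (O σ) (r0 W σ) τ = r0 W (mix O σ τ) := by
  funext c
  by_cases hc : c ∈ O σ
  · rw [glue_on hc]
    unfold r0
    rw [mix_on hc]
  · rw [glue_off hc]
    have hW : c ∉ W := fun h => hc (by rw [← Finset.mem_coe, hO]; exact Or.inr h)
    rw [r0_F hW, mix_off hc]

/-- **given the revealed colours**: mean over the fresh colours of the square of the closed part -/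
theorem vg_le {w : ℂ} (w3 : w ^ 3 = 1) (w1 : w ≠ 1) (wc : (starRingEnd ℂ) w = w ^ 2)
    (X : R5qx166.Ex M σ p N n r W) (hO : (O σ : Set C) = EE M (cfg M σ) p n W)
    {a : D → ℂ} (ha : Spin M w a) (i : ZMod 3) :
    ∑ τ, ‖∑ k ∈ (blk (coarse M (pz (X.gi (i := i))) (clsCon (X.gi (i := i))))
        (cfg M (r0 W (mix O σ τ))) (gp M (cfg M σ) p r)).erase (gp M (cfg M σ) p r), a k‖ ^ 2 ≤
      (2 : ℝ) ^ (3 + 1) * Fintype.card (C → ZMod 2) * ∑ k, ‖a k‖ ^ 2 := by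
  have G := X.gi (i := i)
  have hE : ∀ c, c ∈ O σ ↔ ¬ Free (AA M σ p n r W i) c := fun c => by
    rw [X.not_free, ← hO, Finset.mem_coe]
  obtain ⟨c1, c2, c3⟩ := X.rc (i := i) (μ := σ) fun _ _ => rfl
  have hχ : ∀ j c c', c ∈ AA M σ p n r W i j → c' ∈ AA M σ p n r W i j →
      r0 W σ c = r0 W σ c' := by
    intro j c c' h h'
    rcases C2SBx395.z3c i j with rfl | rfl | rfl
    · rw [c2 _ h, c2 _ h']
    · rw [c1 _ h, c1 _ h']
    · rw [c3 _ h, c3 _ h']
  have key := fresh_blk (M := M) (hπ := clsCon G) w3 w1 wc (gts3 G hE hχ) (card3 G hE)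
    (by norm_num) ha (k₀ := gp M (cfg M σ) p r) (k₁ := gp M (cfg M σ) p r) fun τ => ?_
  · refine le_trans (le_of_eq ?_) key
    refine Finset.sum_congr rfl fun τ _ => ?_
    rw [glue_r0 hO τ]
  · rw [glue_r0 hO τ]
    have h := (X.arc0 (mix_E hO τ)).gp
    exact ⟨h.1, h.2⟩

end ex

/-! ### the charge of one region -/

section wr

variable {D C : Type} [Fintype D] [Fintype C] {M : CMap D C}

theorem sq_sub_le (x y : ℂ) : ‖x - y‖ ^ 2 ≤ 2 * ‖x‖ ^ 2 + 2 * ‖y‖ ^ 2 := by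
  have h1 := norm_sub_le x y
  have h2 := norm_nonneg (x - y)
  have h3 := norm_nonneg x
  have h4 := norm_nonneg y
  nlinarith [sq_nonneg (‖x‖ - ‖y‖)]

/-- 166's data at `σ` -/
structure At (M : CMap D C) (O : (C → ZMod 2) → Finset C) (σ : C → ZMod 2) (p : D) (n r : ℕ)
    (W : Set C) : Prop where
  ex : ∃ N, R5qx166.Ex M σ p N n r W
  oo : (O σ : Set C) = EE M (cfg M σ) p n W

/-- **second moment of the charge of one region** -/
theorem wr_le {w : ℂ} (w3 : w ^ 3 = 1) (w1 : w ≠ 1) (wc : (starRingEnd ℂ) w = w ^ 2)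
    {O : (C → ZMod 2) → Finset C} {G : (C → ZMod 2) → Prop} {g' : (C → ZMod 2) → ℝ}
    (hg' : ∀ σ, 0 ≤ g' σ) {g0 : (C → ZMod 2) → D} {z : D → ℂ} {F : ℕ → Set D} {l : ℕ}
    (ha : Spin M w (rst z (F l))) {c₁ : ℝ}
    (hβ : ∑ σ : C → ZMod 2, ∑ τ : C → ZMod 2, (if G σ then g' σ *
        ‖∑ k ∈ blk M (cfg M (mix O σ τ)) (g0 σ), rst z (F l) k‖ ^ 2 else 0) ≤
      c₁ * Fintype.card (C → ZMod 2) * ∑ σ, g' σ * ∑ k, ‖rst z (F l) k‖ ^ 2)
    {Y : (C → ZMod 2) → (C → ZMod 2) → ℂ}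
    (hY : ∀ σ, G σ → g' σ ≠ 0 → ∃ (p : D) (n r nn : ℕ) (T : ℕ → ℕ) (W : Set C), At M O σ p n r W ∧
      g0 σ = gp M (cfg M σ) p r ∧ T 0 = 0 ∧ T nn = n ∧
      ∀ τ, Y σ τ = Wr M σ (mix O σ τ) p n r T nn z F l) :
    ∑ σ : C → ZMod 2, ∑ τ : C → ZMod 2, (if G σ then g' σ * ‖Y σ τ‖ ^ 2 else 0) ≤
      (2 * c₁ + 32) * Fintype.card (C → ZMod 2) *
        ∑ σ, g' σ * ∑ k, ‖rst z (F l) k‖ ^ 2 := by
  set a : D → ℂ := rst z (F l) with hadef
  set Sa : ℝ := ∑ k, ‖a k‖ ^ 2 with hSa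
  set Nc : ℝ := (Fintype.card (C → ZMod 2) : ℝ) with hNc
  have hSa0 : 0 ≤ Sa := Finset.sum_nonneg fun _ _ => by positivity
  have hN0 : 0 ≤ Nc := Nat.cast_nonneg _
  -- one revealed colouring
  have h1 : ∀ σ : C → ZMod 2, ∑ τ : C → ZMod 2, (if G σ then g' σ * ‖Y σ τ‖ ^ 2 else 0) ≤
      2 * ∑ τ : C → ZMod 2, (if G σ then g' σ *
        ‖∑ k ∈ blk M (cfg M (mix O σ τ)) (g0 σ), a k‖ ^ 2 else 0) +
      g' σ * (32 * Nc * Sa) := by
    intro σ
    by_cases hG : G σ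
    · simp only [if_pos hG]
      rw [← Finset.mul_sum, ← Finset.mul_sum]
      by_cases h0 : g' σ = 0
      · rw [h0]; simp
      obtain ⟨p, n, r, nn, T, W, hat, eg, t0, tn, hYe⟩ := hY σ hG h0
      obtain ⟨N, X⟩ := hat.ex
      have hE := fun τ => mix_E hat.oo τ
      have Gi0 := X.gi (i := 0)
      have h2 : ∀ τ, ‖Y σ τ‖ ^ 2 ≤ 2 * ‖∑ k ∈ blk M (cfg M (mix O σ τ)) (g0 σ), a k‖ ^ 2 +
          2 * ‖∑ k ∈ (blk (coarse M (pz Gi0) (clsCon Gi0))
            (cfg M (r0 W (mix O σ τ))) (gp M (cfg M σ) p r)).erase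
              (gp M (cfg M σ) p r), a k‖ ^ 2 := by
        intro τ
        rw [hYe τ, X.wr_eq (hπ := clsCon Gi0) (cq Gi0) t0 tn (hE τ) z l, eg]
        exact sq_sub_le _ _
      have h3 := vg_le w3 w1 wc X hat.oo ha 0
      have h4 : ∑ τ, ‖Y σ τ‖ ^ 2 ≤
          2 * ∑ τ, ‖∑ k ∈ blk M (cfg M (mix O σ τ)) (g0 σ), a k‖ ^ 2 + 32 * Nc * Sa := by
        refine (Finset.sum_le_sum fun τ _ => h2 τ).trans ?_
        rw [Finset.sum_add_distrib, ← Finset.mul_sum, ← Finset.mul_sum]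
        have h5 : (2 : ℝ) ^ (3 + 1) = 16 := by norm_num
        rw [h5] at h3
        linarith
      calc g' σ * ∑ τ, ‖Y σ τ‖ ^ 2
          ≤ g' σ * (2 * ∑ τ, ‖∑ k ∈ blk M (cfg M (mix O σ τ)) (g0 σ), a k‖ ^ 2 +
              32 * Nc * Sa) := mul_le_mul_of_nonneg_left h4 (hg' σ)
        _ = _ := by ring
    · simp only [if_neg hG, Finset.sum_const_zero, mul_zero, zero_add]
      have := hg' σ
      positivity
  calc ∑ σ : C → ZMod 2, ∑ τ : C → ZMod 2, (if G σ then g' σ * ‖Y σ τ‖ ^ 2 else 0)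
      ≤ ∑ σ : C → ZMod 2, (2 * ∑ τ : C → ZMod 2, (if G σ then g' σ *
          ‖∑ k ∈ blk M (cfg M (mix O σ τ)) (g0 σ), a k‖ ^ 2 else 0) +
        g' σ * (32 * Nc * Sa)) := Finset.sum_le_sum fun σ _ => h1 σ
    _ = 2 * ∑ σ : C → ZMod 2, ∑ τ : C → ZMod 2, (if G σ then g' σ *
          ‖∑ k ∈ blk M (cfg M (mix O σ τ)) (g0 σ), a k‖ ^ 2 else 0) +
        32 * Nc * ∑ σ, g' σ * Sa := by
        rw [Finset.sum_add_distrib, ← Finset.mul_sum, Finset.mul_sum (s := Finset.univ)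
          (f := fun σ => g' σ * Sa)]
        congr 1
        exact Finset.sum_congr rfl fun σ _ => by ring
    _ ≤ 2 * (c₁ * Nc * ∑ σ, g' σ * Sa) + 32 * Nc * ∑ σ, g' σ * Sa := by
        have := hβ
        linarith
    _ = _ := by ring

/-- the data of `OutS_358` -/
theorem at_sys {H R : Set C} {Q : Set D} {ι : Type} {pa : ι → (C → ZMod 2) → D}
    {na : ι → (C → ZMod 2) → ℕ} {Ev : ι → (C → ZMod 2) → Prop}
    (S : Sys M H R Q pa na Ev) {i : ι} {σ : C → ZMod 2} (h : Ev i σ) :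
    At M (OO M H R pa na Ev) σ (pa i σ) (na i σ) (rt M Q pa na i σ) (wg M H R pa na i σ) :=
  ⟨⟨_, S.ex h⟩, S.oo_eq h⟩

end wr

end Crest.Agent.R143.QuWx810
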