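import Crest.Agent.R143.PLS_535
import Crest.Agent.R143.LocX_434
import Crest.Agent.R143.QuW_810

/-!
# Row 143 (S0194), RIG box Q2: charge of one region between the touches, 358's system (helper535)

* `Sb.of` : the data of a window from the walk (pieces, the rest in the window) and from 434's LOCX
* `beta_sys` : second moment of the root block on the event `G` relative to `g'`
* `wr_sys` : **second moment of the charge `Wr` of one region** (810's `wr_le`), constant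
  `2 c₁ + 32`, `c₁ = 2 ^ (2 card κ + 1) / 4` (48 for two sides, 36 for one side)
-/

set_option autoImplicit false
set_option linter.unusedSectionVars false

noncomputable section

open scoped Classical

namespace Crest.Agent.R143.PLTx535

open Crest.Agent.R143.Frame1x395 Crest.Agent.R143.Frame2x395 Crest.Agent.R143.Frame3x395
  Crest.Agent.R143.Frame4x395 Crest.Agent.R143.Frame8x395 Crest.Agent.R143.NonXx592
  Crest.Agent.R143.Gntx535 Crest.Agent.R143.Resax778 Crest.Agent.R143.PLx535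
  Crest.Agent.R143.PLSx535
open Extx358 (Ext Ad Bd)
open OutSx358 (Sys OO gA gR ac zc oc wg rt)
open Sptx169 (rst)
open QuSx166 (Wr)

variable {D C : Type} [Fintype D] [Fintype C] {M : CMap D C} {H R T : Set C}

section loc

variable {κ : Type} [Fintype κ] {Z : κ → Uniqx323.Zn M} {L : Finset C} {p : D} {n : ℕ}
  {σ : C → ZMod 2} {q : κ → D × ℕ} {Cor L1 : Set C}

/-- the blocking cells off the window -/
def Zp (M : CMap D C) (R : Set C) (q : κ → D × ℕ) (σ : C → ZMod 2) : Set C :=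
  (Ac M q σ : Set C) ∪ {c | c ∈ R ∧ σ c = 0}

theorem zt_eq : Zt R T (Ac M q σ) σ = Zp M R q σ ∪ T := by
  ext c
  constructor
  · rintro (h | h | h)
    · exact Or.inl (Or.inl (Finset.mem_coe.2 h))
    · exact Or.inl (Or.inr h)
    · exact Or.inr h
  · rintro ((h | h) | h)
    · exact Or.inl (Finset.mem_coe.1 h)
    · exact Or.inr (Or.inl h)
    · exact Or.inr (Or.inr h)

/-- **the data of a window from the walk and from LOCX** (434) -/
theorem Sb.of (ev : EvP Z q σ)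
    (sub : ∀ k, ∃ t, t + (q k).2 ≤ n ∧ P M (cfg M σ) p t = (q k).1)
    (rest : ∀ c ∈ ac M p n σ, c ∈ Ac M q σ ∨ c ∈ T) (hT : T ⊆ Cor)
    (top : ∀ c, Ext M H (zc M R p n σ) c → c ∉ Cor → Ext M H (Zp M R q σ ∪ T) c)
    (mid : ∀ t ∈ T, t ∈ LocXx434.NN M H (zc M R p n σ) (Zp M R q σ) T Cor → ∀ c,
      Relation.ReflTransGen (LocXx434.Ch M H (zc M R p n σ) (Zp M R q σ) T Cor) t c → c ∉ L1)
    (LT : ∀ c ∈ L, c ∉ T) (hL : ∀ c ∈ L, c ∈ L1) (hL' : ∀ c ∈ L, ∀ e, Ad M e c → e ∈ L1) :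
    Sb M H R T Z L p n σ q := by
  have hZ : Zp M R q σ ⊆ zc M R p n σ := by
    rintro c (h | h)
    · refine mem_zc.2 (Or.inl ?_)
      obtain ⟨k, hk⟩ := mem_Ac.1 (Finset.mem_coe.1 h)
      obtain ⟨t, h1, h2⟩ := sub k
      rcases Finset.mem_union.1 hk with h | h
      · obtain ⟨j, hj, e⟩ := mem_wl.1 h
        rw [← h2, ← P_add] at e
        exact Finset.mem_union.2 (Or.inl (mem_wl.2 ⟨j + t, by omega, e⟩))
      · obtain ⟨j, hj, e⟩ := mem_wr.1 h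
        rw [← h2, ← P_add] at e
        exact Finset.mem_union.2 (Or.inr (mem_wr.2 ⟨j + t, by omega, e⟩))
    · exact mem_zc.2 (Or.inr h)
  refine ⟨ev, sub, rest, LT, fun c hc h => ?_, fun c hc h => Or.inr ?_⟩
  · rw [zt_eq]
    exact LocXx434.locx hZ hT top mid h (hL c hc)
  · obtain ⟨e, h1, h2⟩ := LocXx434.locx_nb hZ hT top mid h (hL' c hc)
    exact ⟨e, by rw [zt_eq]; exact h1, h2⟩

end loc

section sys

variable {κ ι : Type} [Fintype κ] {Z : κ → Uniqx323.Zn M} {L : Finset C} {Q : Set D}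
  {pa : ι → (C → ZMod 2) → D} {na : ι → (C → ZMod 2) → ℕ} {Ev : ι → (C → ZMod 2) → Prop}

/-- **second moment of the root block on an event** -/
theorem beta_sys (S : Sys M H R Q pa na Ev) (F : Fix M H R T Z) {w : ℂ} (w3 : w ^ 3 = 1)
    (w1 : w ≠ 1) (wc : (starRingEnd ℂ) w = w ^ 2) {G : (C → ZMod 2) → Prop}
    {g' : (C → ZMod 2) → ℝ} (hg0 : ∀ σ, 0 ≤ g' σ)
    (hgL : ∀ σ τ, (∀ s ∈ L, τ s = σ s) → g' τ = g' σ) {a : D → ℂ} (ha : Spin M w a)
    (sup : ∀ h, a h ≠ 0 → ∀ k, ¬ (M.cell h ∈ (Z k).R ∧ M.cell (M.rho h) ∈ (Z k).R ∧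
      M.cell (M.rho (M.rho h)) ∈ (Z k).R)) (d₀ : D)
    (hW : ∀ σ, G σ → g' σ ≠ 0 → ∃ i, Ev i σ ∧ ∃ q : κ → D × ℕ,
      Sb M H R T Z L (pa i σ) (na i σ) σ q) :
    ∑ σ, ∑ τ, (if G σ then g' σ * ‖∑ k ∈ blk M (cfg M (mix (OO M H R pa na Ev) σ τ))
      (gR M Q pa na Ev d₀ σ), a k‖ ^ 2 else 0) ≤
      (2 : ℝ) ^ (2 * Fintype.card κ + 1) / 4 * Fintype.card (C → ZMod 2) *
        ∑ σ, g' σ * ∑ k, ‖a k‖ ^ 2 := by
  have h := win_sys S F (g := fun σ => if G σ then g' σ else 0) w3 w1 wc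
    (fun σ => by split_ifs <;> first | exact hg0 σ | exact le_rfl) hg0
    (fun σ => by
      show (if G σ then g' σ else 0) ≤ g' σ
      split_ifs
      · exact le_rfl
      · exact hg0 σ) hgL ha sup d₀ (fun σ h => by
      have h' : (if G σ then g' σ else 0) ≠ 0 := h
      by_cases hG : G σ
      · rw [if_pos hG] at h'
        exact hW σ hG h'
      · rw [if_neg hG] at h'
        exact absurd rfl h')
  refine le_trans (le_of_eq ?_) h
  refine Finset.sum_congr rfl fun σ _ => Finset.sum_congr rfl fun τ _ => ?_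
  by_cases hG : G σ
  · simp only [if_pos hG]
  · simp only [if_neg hG, zero_mul]

/-- **SECOND MOMENT OF THE CHARGE OF ONE REGION**, 358's system -/
theorem wr_sys (S : Sys M H R Q pa na Ev) (F : Fix M H R T Z) {w : ℂ} (w3 : w ^ 3 = 1)
    (w1 : w ≠ 1) (wc : (starRingEnd ℂ) w = w ^ 2) {G : (C → ZMod 2) → Prop}
    {g' : (C → ZMod 2) → ℝ} (hg0 : ∀ σ, 0 ≤ g' σ)
    (hgL : ∀ σ τ, (∀ s ∈ L, τ s = σ s) → g' τ = g' σ) {z : D → ℂ} {Fr : ℕ → Set D} {l : ℕ}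
    (ha : Spin M w (rst z (Fr l)))
    (sup : ∀ h, rst z (Fr l) h ≠ 0 → ∀ k, ¬ (M.cell h ∈ (Z k).R ∧ M.cell (M.rho h) ∈ (Z k).R ∧
      M.cell (M.rho (M.rho h)) ∈ (Z k).R)) (d₀ : D)
    {Y : (C → ZMod 2) → (C → ZMod 2) → ℂ}
    (hW : ∀ σ, G σ → g' σ ≠ 0 → ∃ i, Ev i σ ∧
      (∃ q : κ → D × ℕ, Sb M H R T Z L (pa i σ) (na i σ) σ q) ∧
      ∃ (nn : ℕ) (Tm : ℕ → ℕ), Tm 0 = 0 ∧ Tm nn = na i σ ∧
        ∀ τ, Y σ τ = Wr M σ (mix (OO M H R pa na Ev) σ τ) (pa i σ) (na i σ)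
          (rt M Q pa na i σ) Tm nn z Fr l) :
    ∑ σ : C → ZMod 2, ∑ τ : C → ZMod 2, (if G σ then g' σ * ‖Y σ τ‖ ^ 2 else 0) ≤
      (2 * ((2 : ℝ) ^ (2 * Fintype.card κ + 1) / 4) + 32) * Fintype.card (C → ZMod 2) *
        ∑ σ, g' σ * ∑ k, ‖rst z (Fr l) k‖ ^ 2 := by
  refine QuWx810.wr_le (O := OO M H R pa na Ev) (g0 := gR M Q pa na Ev d₀) w3 w1 wc hg0 ha
    (beta_sys S F w3 w1 wc hg0 hgL ha sup d₀ fun σ h1 h2 => ?_) fun σ h1 h2 => ?_
  · obtain ⟨i, h3, h4, -⟩ := hW σ h1 h2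
    exact ⟨i, h3, h4⟩
  · obtain ⟨i, h3, -, nn, Tm, h5, h6, h7⟩ := hW σ h1 h2
    exact ⟨pa i σ, na i σ, rt M Q pa na i σ, nn, Tm, wg M H R pa na i σ,
      QuWx810.at_sys S h3, S.gR_eq d₀ h3, h5, h6, h7⟩

end sys

end Crest.Agent.R143.PLTx535
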