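import Crest.Agent.R143.LocP_776
import Crest.Agent.R143.RcT_422
import Crest.Agent.R143.PLT_535

/-!
# Row 143 (S0194), RIG box Q2: LOCX, the closed curtain on `rc0 hS` (helper535)

`Z' ⊆ Z` blocking sets, `T` the window, `Ext` = exterior off `Z`, `Ext'` = exterior off `Z' ∪ T`
(cells of `rc0 hS`, hull cell `Hc hS`).

* `Good Z Z' T` : sites whose cell, if it is in `Ext`, is in `Ext'`; `good_Z`, `good_not`, `good_ext`,
  `good_lk` : ways to be good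
* `chain` : a cell of `Ext` which is not in `Ext'` is joined to a site of the window by bad inner sites
* **`lx`** : a closed curtain of good sites between the window and `Lo` gives `Ext ∩ L1 ⊆ Ext'`
* **`Sb.cur`** : the fields `lx`, `lb` of `PLSx535.Sb`
* `cut` : the curtain from 776's `no_passL`
-/

set_option autoImplicit false
set_option linter.unusedSectionVars false

noncomputable section

open scoped Classical

namespace Crest.Agent.R143.LocIx535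

open Crest.Agent.R143.B0x346 Crest.Agent.R143.DelGx806 Crest.Agent.R143.DelRx806
open Crest.Agent.R143.Blkx838 (DE)
open Crest.Agent.R143.Neckx921 (Lk)
open Crest.Agent.R143.Frame1x395 Crest.Agent.R143.Frame2x395 Crest.Agent.R143.Frame3x395
  Crest.Agent.R143.Frame4x395 Crest.Agent.R143.Frame8x395 Crest.Agent.R143.Frame9x395
  Crest.Agent.R143.Frame10x395 Crest.Agent.R143.Frame11x395
open Crest.Agent.R143.Extx358 (Ad Ext Bd)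
open Crest.Agent.R143.Sepx686 (adj_inner)
open Crest.Agent.R143.FinCx811 (Cs rc0 cs rcol)
open Crest.Agent.R143.RcTx422

variable {S : Finset ℂ} {hS : GP (S : Set ℂ)} {Z Z' T : Set (Cs hS)}

/-- the good sites -/
def Good (Z Z' T : Set (Cs hS)) : Set ℂ :=
  {s | ∀ c : Cs hS, c.1 = Quot.mk (hullE S) s → Ext (rc0 hS) (Hc hS) Z c →
    Ext (rc0 hS) (Hc hS) (Z' ∪ T) c}

/-- the bad sites -/
def Bad (Z Z' T : Set (Cs hS)) : Set ℂ :=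
  {s | s ∈ S ∧ ¬ OnHull S s ∧ ∃ c : Cs hS, c.1 = Quot.mk (hullE S) s ∧
    Ext (rc0 hS) (Hc hS) Z c ∧ ¬ Ext (rc0 hS) (Hc hS) (Z' ∪ T) c}

theorem bad_not {s : ℂ} (h : s ∈ Bad Z Z' T) : s ∉ Good Z Z' T := by
  obtain ⟨-, -, c, e, h1, h2⟩ := h
  exact fun hg => h2 (hg c e h1)

/-! ### good sites -/

theorem good_Z {s : ℂ} (h : ∀ c : Cs hS, c.1 = Quot.mk (hullE S) s → c ∈ Z) : s ∈ Good Z Z' T :=
  fun c e h1 => absurd (h c e) h1.off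

/-- one cell in `Z` is enough -/
theorem good_Z' {s : ℂ} {c : Cs hS} (e : c.1 = Quot.mk (hullE S) s) (h : c ∈ Z) :
    s ∈ Good Z Z' T :=
  good_Z fun c' e' => by
    have : c' = c := Subtype.ext (by rw [e', e])
    rw [this]
    exact h

theorem good_not {s : ℂ}
    (h : ∀ c : Cs hS, c.1 = Quot.mk (hullE S) s → ¬ Ext (rc0 hS) (Hc hS) Z c) :
    s ∈ Good Z Z' T :=
  fun c e h1 => absurd h1 (h c e)

theorem good_ext {s : ℂ}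
    (h : ∀ c : Cs hS, c.1 = Quot.mk (hullE S) s → Ext (rc0 hS) (Hc hS) (Z' ∪ T) c) :
    s ∈ Good Z Z' T :=
  fun c e _ => h c e

/-- the cell of a site -/
theorem ex_cell (h3 : 3 ≤ S.card) {s : ℂ} (hs : s ∈ S) :
    ∃ c : Cs hS, c.1 = Quot.mk (hullE S) s := ⟨cs hS h3 ⟨s, hs⟩, rfl⟩

/-- a step of sites off the blocking set -/
theorem ext_de (h3 : 3 ≤ S.card) {Y : Set (Cs hS)} {u v : ℂ} (h : DE S u v)
    (hv : ∀ c : Cs hS, c.1 = Quot.mk (hullE S) v → c ∉ Y) {c c' : Cs hS}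
    (e : c.1 = Quot.mk (hullE S) u) (e' : c'.1 = Quot.mk (hullE S) v)
    (hc : Ext (rc0 hS) (Hc hS) Y c) : Ext (rc0 hS) (Hc hS) Y c' := by
  obtain ⟨hu, hv'⟩ := de_mem h
  have e1 : cs hS h3 ⟨u, hu⟩ = c := Subtype.ext e.symm
  have e2 : cs hS h3 ⟨v, hv'⟩ = c' := Subtype.ext e'.symm
  rcases step_rc (hS := hS) h3 (u := ⟨u, hu⟩) (w := ⟨v, hv'⟩) h with h1 | h1
  · rw [← e2, ← h1, e1]
    exact hc
  · rw [e1, e2] at h1
    exact Ext.step hc h1 (hv c' e')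

/-- **a link of sites off the blocking set** : all in the exterior, or none -/
theorem ext_lk (h3 : 3 ≤ S.card) {Y : Set (Cs hS)} {V : Set ℂ} {u v : ℂ} (h : Lk S V u v)
    (hV : ∀ s ∈ V, ∀ c : Cs hS, c.1 = Quot.mk (hullE S) s → c ∉ Y) {c c' : Cs hS}
    (e : c.1 = Quot.mk (hullE S) u) (e' : c'.1 = Quot.mk (hullE S) v)
    (hc : Ext (rc0 hS) (Hc hS) Y c) : Ext (rc0 hS) (Hc hS) Y c' := by
  obtain ⟨-, h⟩ := h
  induction h generalizing c' with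
  | refl =>
    have : c' = c := Subtype.ext (by rw [e', e])
    rw [this]
    exact hc
  | @tail a b _ hs ih =>
    obtain ⟨h1, h2, h4⟩ := hs
    have ha := (de_mem h1).1
    exact ext_de h3 h1 (hV b h4) (c := cs hS h3 ⟨a, ha⟩) rfl e' (ih rfl)

/-- **sites linked to a hull site off the blocking set are in the exterior** -/
theorem ext_hull (h3 : 3 ≤ S.card) {Y : Set (Cs hS)} {V : Set ℂ} {u v : ℂ} (h : Lk S V u v)
    (hV : ∀ s ∈ V, ∀ c : Cs hS, c.1 = Quot.mk (hullE S) s → c ∉ Y) (hu : OnHull S u) {c : Cs hS}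
    (e : c.1 = Quot.mk (hullE S) v) : Ext (rc0 hS) (Hc hS) Y c := by
  have huS := hull_mem hu
  exact ext_lk h3 h hV (c := cs hS h3 ⟨u, huS⟩) rfl e
    (Ext.hull ⟨u, hu, rfl⟩ (hV u h.1.1 _ rfl))

/-! ### the chain of bad sites -/

/-- the bad cells -/
def Nc (Z Z' T : Set (Cs hS)) : Set (Cs hS) :=
  {c | Ext (rc0 hS) (Hc hS) Z c ∧ ¬ Ext (rc0 hS) (Hc hS) (Z' ∪ T) c}

/-- a bad cell is the cell of a bad site -/
theorem nc_site (h3 : 3 ≤ S.card) (hZ : Z' ⊆ Z) (hT : ∀ c ∈ Hc hS, c ∉ T) {c : Cs hS}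
    (h : c ∈ Nc Z Z' T) : ∃ s ∈ Bad Z Z' T, c.1 = Quot.mk (hullE S) s := by
  obtain ⟨v, hv⟩ := FinCx811.cs_surj hS h3 c
  have e : c.1 = Quot.mk (hullE S) v.1 := by rw [← hv]; rfl
  refine ⟨v.1, ⟨v.2, fun hh => ?_, c, e, h.1, h.2⟩, e⟩
  have hc : c ∈ Hc hS := ⟨v.1, hh, e⟩
  refine h.2 (Ext.hull hc ?_)
  rintro (h1 | h1)
  · exact h.1.off (hZ h1)
  · exact hT c hc h1

/-- adjacent cells of inner sites -/
theorem ad_de {u v : ℂ} (hu : ¬ OnHull S u) (hv : ¬ OnHull S v) {a b : Cs hS}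
    (ea : a.1 = Quot.mk (hullE S) u) (eb : b.1 = Quot.mk (hullE S) v)
    (h : Ad (rc0 hS) a b) : DE S u v := by
  have h1 := ad_adjc h
  rw [ea] at h1
  obtain ⟨w, hw, h2⟩ := adj_inner hS hu h1
  rw [eb] at h2
  rwa [← quot_inner hS hv h2]

/-- **a bad cell is joined to the window by bad sites** -/
theorem chain (h3 : 3 ≤ S.card) (hZ : Z' ⊆ Z) (hT : ∀ c ∈ Hc hS, c ∉ T) {c : Cs hS}
    (h : c ∈ Nc Z Z' T) : ∃ t s, t ∈ Bad Z Z' T ∧ (∃ c' ∈ T, c'.1 = Quot.mk (hullE S) t) ∧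
      c.1 = Quot.mk (hullE S) s ∧ Lk S (Bad Z Z' T) t s := by
  rcases LocCx776.ext_or hZ (Cor := Set.univ) (Set.subset_univ T)
    (fun c _ h => absurd (Set.mem_univ c) h) h.1 with h1 | ⟨t, ht, g1, -, g3⟩
  · exact absurd h1 h.2
  have hn : ∀ {a : Cs hS}, a ∈ LocCx776.Nn (rc0 hS) (Hc hS) Z Z' T Set.univ → a ∈ Nc Z Z' T :=
    fun ha => ⟨ha.1, ha.2.2⟩
  obtain ⟨u, hu, eu⟩ := nc_site h3 hZ hT (hn g1)
  have key : ∀ {b : Cs hS}, LocCx776.Ch (Ad (rc0 hS))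
      (LocCx776.Nn (rc0 hS) (Hc hS) Z Z' T Set.univ) t b → ∃ s ∈ Bad Z Z' T,
        b.1 = Quot.mk (hullE S) s ∧ Lk S (Bad Z Z' T) u s := by
    intro b hb
    induction hb with
    | refl => exact ⟨u, hu, eu, Neckx921.Lk.refl hu⟩
    | @tail a b _ hs ih =>
      obtain ⟨had, -, hb⟩ := hs
      obtain ⟨s, h4, h5, h6⟩ := ih
      obtain ⟨s', h7, h8⟩ := nc_site h3 hZ hT (hn hb)
      exact ⟨s', h7, h8, ⟨h6.1.1, h7⟩, h6.2.tail ⟨ad_de h4.2.1 h7.2.1 h5 h8 had, h4, h7⟩⟩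
  obtain ⟨s, h4, h5, h6⟩ := key g3
  exact ⟨u, s, hu, ⟨t, ht, eu⟩, h5, h6⟩

/-- **LOCX from a closed curtain of good sites** : `Ti` contains the inner sites of the window, `Lo`
the inner sites of the cell `c`; no chain of sites which are not good joins `Ti` to `Lo` -/
theorem lx (h3 : 3 ≤ S.card) (hZ : Z' ⊆ Z) (hT : ∀ c ∈ Hc hS, c ∉ T) {Ti Lo : Set ℂ}
    (hTi : ∀ s ∈ S, ¬ OnHull S s → (∃ c ∈ T, c.1 = Quot.mk (hullE S) s) → s ∈ Ti)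
    (cut : ∀ t ∈ Ti, ∀ s ∈ Lo, ¬ Lk S (Bad Z Z' T) t s) {c : Cs hS}
    (hLo : ∀ s ∈ S, ¬ OnHull S s → c.1 = Quot.mk (hullE S) s → s ∈ Lo)
    (h : Ext (rc0 hS) (Hc hS) Z c) : Ext (rc0 hS) (Hc hS) (Z' ∪ T) c := by
  by_contra hn
  obtain ⟨t, s, h1, h2, h4, h5⟩ := chain h3 hZ hT (c := c) ⟨h, hn⟩
  have h6 : s ∈ Bad Z Z' T := h5.1.2
  exact cut t (hTi t h1.1 h1.2.1 h2) s (hLo s h6.1 h6.2.1 h4) h5

/-- a link in bad sites is a link off the good sites -/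
theorem bad_lk {u v : ℂ} (h : Lk S (Bad Z Z' T) u v) : Lk S (Good Z Z' T)ᶜ u v :=
  h.mono fun _ hs => bad_not hs

/-! ### the fields of `Sb` -/

section sb

open Crest.Agent.R143.PLx535 Crest.Agent.R143.PLSx535 Crest.Agent.R143.PLTx535
open Crest.Agent.R143.OutSx358 (ac zc)

variable {κ : Type} [Fintype κ] {R : Set (Cs hS)} {L : Finset (Cs hS)} {p : D0 S} {n : ℕ}
  {σ : Cs hS → ZMod 2} {q : κ → D0 S × ℕ} {Zn : κ → Uniqx323.Zn (rc0 hS)}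

/-- **fields `lx`, `lb` of `Sb` from a closed curtain** -/
theorem lx_lb (h3 : 3 ≤ S.card) (hZ : Zp (rc0 hS) R q σ ⊆ zc (rc0 hS) R p n σ)
    (hT : ∀ c ∈ Hc hS, c ∉ T) {Ti Lo : Set ℂ}
    (hTi : ∀ s ∈ S, ¬ OnHull S s → (∃ c ∈ T, c.1 = Quot.mk (hullE S) s) → s ∈ Ti)
    (cut : ∀ t ∈ Ti, ∀ s ∈ Lo, ¬ Lk S (Bad (zc (rc0 hS) R p n σ) (Zp (rc0 hS) R q σ) T) t s)
    (hLo : ∀ c ∈ L, ∀ s ∈ S, ¬ OnHull S s → c.1 = Quot.mk (hullE S) s → s ∈ Lo)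
    (hLo' : ∀ c ∈ L, ∀ e : Cs hS, Ad (rc0 hS) e c → ∀ s ∈ S, ¬ OnHull S s →
      e.1 = Quot.mk (hullE S) s → s ∈ Lo) :
    (∀ c ∈ L, Ext (rc0 hS) (Hc hS) (zc (rc0 hS) R p n σ) c →
      Ext (rc0 hS) (Hc hS) (Zt R T (Ac (rc0 hS) q σ) σ) c) ∧
    (∀ c ∈ L, c ∈ Bd (rc0 hS) (Hc hS) (zc (rc0 hS) R p n σ) → c ∈ Ac (rc0 hS) q σ ∨
      ∃ e, Ext (rc0 hS) (Hc hS) (Zt R T (Ac (rc0 hS) q σ) σ) e ∧ Ad (rc0 hS) e c) := by
  rw [zt_eq]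
  refine ⟨fun c hc h => lx h3 hZ hT hTi cut (hLo c hc) h, fun c hc h => Or.inr ?_⟩
  obtain ⟨-, e, h1, h2⟩ := h
  exact ⟨e, lx h3 hZ hT hTi cut (hLo' c hc e h2) h1, h2⟩

end sb

/-! ### the curtain -/

/-- **the closed curtain, link form** (776's `no_passL`, good sites) -/
theorem cut {z0 e : ℂ} (he : e ≠ 0) {VR VF VL VK : Set ℂ} {a b a' b' : ℂ}
    (lR : Lk S VR a b) (lF : Lk S VF b b') (lL : Lk S VL b' a') (lK : Lk S VK a' a)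
    {x0 x1 : ℝ} (h01 : x0 ≤ x1)
    (hRx : ∀ s ∈ VR, x0 < Gatex838.X z0 e s ∧ Gatex838.X z0 e s < x1)
    (ha : Gatex838.Y z0 e a < 0) (hb : 0 < Gatex838.Y z0 e b)
    (hw : ∀ u v, DE S u v → ((u ∈ VF ∧ v ∈ VF) ∨ (u ∈ VL ∧ v ∈ VL) ∨ (u ∈ VK ∧ v ∈ VK)) →
      ∀ x, x0 ≤ x → x ≤ x1 → LocPx776.ax z0 e x ∉ segment ℝ u v)
    {Ci Co : Set ℂ} (hCi : IsPreconnected Ci) (hCo : IsPreconnected Co)
    (hi : LocPx776.ax z0 e x0 ∈ Ci) (ho : LocPx776.ax z0 e x1 ∈ Co)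
    (hC : ∀ w, w ∈ Ci ∨ w ∈ Co → ∀ u v, DE S u v → ((u ∈ VR ∧ v ∈ VR) ∨ (u ∈ VF ∧ v ∈ VF) ∨
      (u ∈ VL ∧ v ∈ VL) ∨ (u ∈ VK ∧ v ∈ VK)) → w ∉ segment ℝ u v)
    (gR : VR ⊆ Good Z Z' T) (gF : VF ⊆ Good Z Z' T) (gL : VL ⊆ Good Z Z' T)
    (gK : VK ⊆ Good Z Z' T) : ∀ t ∈ Ci, ∀ s ∈ Co, ¬ Lk S (Bad Z Z' T) t s :=
  fun _ ht _ hs h => LocPx776.no_passL hS he lR lF lL lK h01 hRx ha hb hw hCi hCo hi ho hC
    (fun _ hs => ⟨fun h => bad_not hs (gR h), fun h => bad_not hs (gF h),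
      fun h => bad_not hs (gL h), fun h => bad_not hs (gK h)⟩) ht hs h

end Crest.Agent.R143.LocIx535
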