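import Crest.Agent.R143.LocC_776

/-!
# Row 143 (S0194), RIG, LOCX: the closed curtain (helper776)

* **`no_pass`** : a closed chain `M ++ R` of Delaunay edges; `M` crosses the wall (an axis segment
  `{Y = 0, x0 ≤ X ≤ x1}`) from below to above, `R` does not meet it; `Ci`, `Co` : connected sets off the
  chain which contain the left / the right end of the wall. No chain of sites off the closed chain joins
  a site of `Ci` to a site of `Co`.
* `lists` : the same with links (`Lk`) instead of lists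
-/

set_option autoImplicit false

noncomputable section

open scoped Classical

namespace Crest.Agent.R143.LocPx776

open Crest.Agent.R143.B0x346 Crest.Agent.R143.DelGx806 Crest.Agent.R143.DelRx806
open Crest.Agent.R143.ToolWx838 Crest.Agent.R143.Blkx838 Crest.Agent.R143.ToolW2x838
open Crest.Agent.R143.ToolW3x838 Crest.Agent.R143.Gatex838 Crest.Agent.R143.Neckx921
open Crest.Agent.R143.Circ4x838 Crest.Agent.R143.Idxx927
open Crest.Agent.R143.Sepx686 (asum_lk lk_to_list)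

variable {S : Finset ℂ} {z0 e : ℂ}

/-- the point `x` of the axis of the frame -/
def ax (z0 e : ℂ) (x : ℝ) : ℂ := z0 + e * (x : ℂ)

theorem wl_ax (z0 e : ℂ) (x : ℝ) : wl z0 (e * Complex.I) (-x) = ax z0 e x := by
  unfold wl ax
  have : e * Complex.I * (((-x : ℝ) : ℂ) * Complex.I) = e * (x : ℂ) * (-(Complex.I * Complex.I)) := by
    push_cast
    ring
  rw [this, Complex.I_mul_I]
  ring

theorem XY_rot (z0 e s : ℂ) : X z0 (e * Complex.I) s = Y z0 e s ∧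
    Y z0 (e * Complex.I) s = -X z0 e s := by
  unfold X Y
  have : (s - z0) / (e * Complex.I) = -(Complex.I * ((s - z0) / e)) := by
    rw [← div_div, Complex.div_I]
    ring
  rw [this]
  constructor
  · simp
  · simp

/-- **the closed curtain** -/
theorem no_pass (hS : GP (S : Set ℂ)) (he : e ≠ 0) {M R : List ℂ} {a b : ℂ}
    (hM0 : M.head? = some a) (hM1 : M.getLast? = some b) (hR0 : R.head? = some b)
    (hR1 : R.getLast? = some a) (dM : ∀ p ∈ prs M, DE S p.1 p.2) (dR : ∀ p ∈ prs R, DE S p.1 p.2)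
    {x0 x1 : ℝ} (h01 : x0 ≤ x1) (hMx : ∀ s ∈ M, x0 < X z0 e s ∧ X z0 e s < x1)
    (ha : Y z0 e a < 0) (hb : 0 < Y z0 e b)
    (hRw : ∀ p ∈ prs R, ∀ x, x0 ≤ x → x ≤ x1 → ax z0 e x ∉ segment ℝ p.1 p.2)
    {Ci Co : Set ℂ} (hCi : IsPreconnected Ci) (hCo : IsPreconnected Co)
    (hi : ax z0 e x0 ∈ Ci) (ho : ax z0 e x1 ∈ Co)
    (oi : ∀ w ∈ Ci, ∀ p, p ∈ prs M ∨ p ∈ prs R → w ∉ segment ℝ p.1 p.2)
    (oo : ∀ w ∈ Co, ∀ p, p ∈ prs M ∨ p ∈ prs R → w ∉ segment ℝ p.1 p.2)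
    {A : Set ℂ} (hA : ∀ s ∈ A, s ∉ M ∧ s ∉ R) {t c : ℂ} (ht : t ∈ Ci) (hc : c ∈ Co)
    (hch : Lk S A t c) : False := by
  have hMn : M ≠ [] := by rintro rfl; simp at hM0
  have hcl : (cat M R).head? = (cat M R).getLast? := by
    rw [cat_head hMn, cat_last hM1 hR0, hM0, hR1]
  have hl : Loop S (cat M R) := ⟨hcl, fun p hp => by
    rw [prs_cat hM1 hR0, List.mem_append] at hp
    rcases hp with hp | hp
    · exact dM p hp
    · exact dR p hp⟩
  have hoff : ∀ (C : Set ℂ), (∀ w ∈ C, ∀ p, p ∈ prs M ∨ p ∈ prs R → w ∉ segment ℝ p.1 p.2) →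
      ∀ w ∈ C, ∀ p ∈ prs (cat M R), w ∉ segment ℝ p.1 p.2 := by
    intro C h w hw p hp
    rw [prs_cat hM1 hR0, List.mem_append] at hp
    exact h w hw p hp
  have h1 : asum t (cat M R) = asum c (cat M R) :=
    asum_lk hS hl (fun s hs hsl => (mem_cat hsl).elim (hA s hs).1 (hA s hs).2) hch
  have h2 : asum t (cat M R) = asum (ax z0 e x0) (cat M R) :=
    asum_const hcl hCi (hoff Ci oi) ht hi
  have h3 : asum c (cat M R) = asum (ax z0 e x1) (cat M R) :=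
    asum_const hcl hCo (hoff Co oo) hc ho
  have hI : e * Complex.I ≠ 0 := mul_ne_zero he Complex.I_ne_zero
  have h4 := wall_jump (z0 := z0) hI (M := M) (R := R) (a := a) (b := b) (y0 := -x1) (y1 := -x0)
    (by linarith) hM0 hM1 hR0 hR1
    (by
      intro s hs
      rw [(XY_rot z0 e s).2]
      have := hMx s hs
      constructor <;> linarith)
    (by rw [(XY_rot z0 e a).1]; exact ha) (by rw [(XY_rot z0 e b).1]; exact hb)
    (by
      intro p hp t h5 h6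
      have := hRw p hp (-t) (by linarith) (by linarith)
      rwa [← wl_ax, neg_neg] at this)
  rw [wl_ax, wl_ax, ← asum_cat hM1 hR0, ← asum_cat hM1 hR0] at h4
  have := Real.pi_pos
  linarith

/-- lists of a link, with the bounds on its edges -/
theorem to_list {A : Set ℂ} {u v : ℂ} (h : Lk S A u v) :
    ∃ q : List ℂ, q.head? = some u ∧ q.getLast? = some v ∧ (∀ s ∈ q, s ∈ A) ∧
      ∀ p ∈ prs q, DE S p.1 p.2 ∧ p.1 ∈ A ∧ p.2 ∈ A := by
  obtain ⟨q, hq, h1, h2, h3, h4⟩ := lk_to_list h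
  refine ⟨q, by rw [List.head?_eq_some_head hq, h3], by rw [List.getLast?_eq_some_getLast hq, h4], h2,
    fun p hp => ?_⟩
  have m := mem_of_prs hp
  exact ⟨h1 p hp, h2 _ m.1, h2 _ m.2⟩

/-- a link from a list -/
theorem cat_link {A B : Set ℂ} {q r : List ℂ} {u v w : ℂ} (hq0 : q.head? = some u)
    (hq1 : q.getLast? = some v) (hr0 : r.head? = some v) (hr1 : r.getLast? = some w)
    (hq : ∀ s ∈ q, s ∈ A) (hr : ∀ s ∈ r, s ∈ B) :
    (cat q r).head? = some u ∧ (cat q r).getLast? = some w ∧ (∀ s ∈ cat q r, s ∈ A ∪ B) ∧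
      prs (cat q r) = prs q ++ prs r := by
  have hqn : q ≠ [] := by rintro rfl; simp at hq0
  refine ⟨by rw [cat_head hqn, hq0], by rw [cat_last hq1 hr0, hr1], fun s hs => ?_,
    prs_cat hq1 hr0⟩
  rcases mem_cat hs with h | h
  · exact Or.inl (hq s h)
  · exact Or.inr (hr s h)

/-- **the closed curtain, link form**: `VR` from `a` (below) to `b` (above) at the right separator, `VF`
from `b` to `b'` (far), `VL` from `b'` to `a'` at the left separator, `VK` from `a'` to `a` (inner) -/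
theorem no_passL (hS : GP (S : Set ℂ)) (he : e ≠ 0) {VR VF VL VK : Set ℂ} {a b a' b' : ℂ}
    (lR : Lk S VR a b) (lF : Lk S VF b b') (lL : Lk S VL b' a') (lK : Lk S VK a' a)
    {x0 x1 : ℝ} (h01 : x0 ≤ x1) (hRx : ∀ s ∈ VR, x0 < X z0 e s ∧ X z0 e s < x1)
    (ha : Y z0 e a < 0) (hb : 0 < Y z0 e b)
    (hw : ∀ u v, DE S u v → ((u ∈ VF ∧ v ∈ VF) ∨ (u ∈ VL ∧ v ∈ VL) ∨ (u ∈ VK ∧ v ∈ VK)) →
      ∀ x, x0 ≤ x → x ≤ x1 → ax z0 e x ∉ segment ℝ u v)
    {Ci Co : Set ℂ} (hCi : IsPreconnected Ci) (hCo : IsPreconnected Co)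
    (hi : ax z0 e x0 ∈ Ci) (ho : ax z0 e x1 ∈ Co)
    (hC : ∀ w, w ∈ Ci ∨ w ∈ Co → ∀ u v, DE S u v → ((u ∈ VR ∧ v ∈ VR) ∨ (u ∈ VF ∧ v ∈ VF) ∨
      (u ∈ VL ∧ v ∈ VL) ∨ (u ∈ VK ∧ v ∈ VK)) → w ∉ segment ℝ u v)
    {A : Set ℂ} (hA : ∀ s ∈ A, s ∉ VR ∧ s ∉ VF ∧ s ∉ VL ∧ s ∉ VK) {t c : ℂ} (ht : t ∈ Ci)
    (hc : c ∈ Co) (hch : Lk S A t c) : False := by
  obtain ⟨M, m0, m1, m2, m3⟩ := to_list lR
  obtain ⟨F, f0, f1, f2, f3⟩ := to_list lF
  obtain ⟨L, l0, l1, l2, l3⟩ := to_list lL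
  obtain ⟨K, k0, k1, k2, k3⟩ := to_list lK
  obtain ⟨g0, g1, g2, g3⟩ := cat_link f0 f1 l0 l1 f2 l2
  obtain ⟨r0, r1, r2, r3⟩ := cat_link g0 g1 k0 k1 g2 k2
  have hR : ∀ p ∈ prs (cat (cat F L) K), DE S p.1 p.2 ∧ ((p.1 ∈ VF ∧ p.2 ∈ VF) ∨
      (p.1 ∈ VL ∧ p.2 ∈ VL) ∨ (p.1 ∈ VK ∧ p.2 ∈ VK)) := by
    intro p hp
    rw [r3, g3, List.mem_append, List.mem_append] at hp
    rcases hp with (hp | hp) | hp
    · exact ⟨(f3 p hp).1, Or.inl (f3 p hp).2⟩
    · exact ⟨(l3 p hp).1, Or.inr (Or.inl (l3 p hp).2)⟩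
    · exact ⟨(k3 p hp).1, Or.inr (Or.inr (k3 p hp).2)⟩
  have hall : ∀ w, w ∈ Ci ∨ w ∈ Co → ∀ p, p ∈ prs M ∨ p ∈ prs (cat (cat F L) K) →
      w ∉ segment ℝ p.1 p.2 := by
    intro w hw' p hp
    rcases hp with hp | hp
    · exact hC w hw' p.1 p.2 (m3 p hp).1 (Or.inl (m3 p hp).2)
    · exact hC w hw' p.1 p.2 (hR p hp).1 (Or.inr (hR p hp).2)
  refine no_pass hS he m0 m1 r0 r1 (fun p hp => (m3 p hp).1) (fun p hp => (hR p hp).1) h01
    (fun s hs => hRx s (m2 s hs)) ha hb (fun p hp x h1 h2 => hw p.1 p.2 (hR p hp).1 (hR p hp).2 x h1 h2)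
    hCi hCo hi ho (fun w hw' => hall w (Or.inl hw')) (fun w hw' => hall w (Or.inr hw')) ?_ ht hc hch
    (A := A)
  intro s hs
  obtain ⟨h1, h2, h3, h4⟩ := hA s hs
  refine ⟨fun h => h1 (m2 s h), fun h => ?_⟩
  rcases r2 s h with (h | h) | h
  · exact h2 h
  · exact h3 h
  · exact h4 h

end Crest.Agent.R143.LocPx776
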