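import Crest.Agent.R143.LocT_700
import Crest.Agent.R143.K33_877

/-!
# Row 143 (S0194), K8' for classes with hull arcs (helper700)

* `inV_tr` : `Tr S A`, `V` a centre: all the hits have a vertex in `V`
* **`TS_tr`** : then `TS S A z = sT S V lab z`
-/

set_option autoImplicit false
set_option linter.all false

noncomputable section

open scoped Classical

namespace Crest.Agent.R143.LocTx700

open Crest.Agent.R143.B0x346 Crest.Agent.R143.DelGx806 Crest.Agent.R143.DelRx806
open Crest.Agent.R143.JColx54 Crest.Agent.R143.K33x877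
open Crest.Agent.R143.RE0x723 (Pth)
open Crest.Agent.R143.NetUx346

variable {S V : Finset ℂ} {lab : ℂ → ZMod 3} {A : ZMod 3 → Set ℂ} {i : ZMod 3}

theorem g3_of_tr (h : Tr S A) : G3 S A := ⟨h.gp, h.sub, h.disj, h.con⟩

theorem inV_tr (hA : Tr S A) (h : Cmp S V lab A) (hV : CtrX S A (V : Set ℂ)) : InV S V A := by
  refine hit_V (g3_of_tr hA) h ?_ fun X hX => kxx S A hA X V hX hV
  rintro t ht i ⟨h1, h2, h3⟩
  have z3 : ∀ i j : ZMod 3, j = i ∨ j = i + 1 ∨ j = i + 2 := by decide
  refine ktx S A hA t V ⟨ht, fun j => ?_⟩ hV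
  rcases z3 i j with rfl | rfl | rfl
  · exact ⟨t.1, Or.inl rfl, h1⟩
  · exact ⟨t.2.1, Or.inr (Or.inl rfl), h2⟩
  · exact ⟨t.2.2, Or.inr (Or.inr rfl), h3⟩

/-- **K8'** : the total of three classes with hull arcs is the total of their central free
component with the labels next to it -/
theorem TS_tr (hA : Tr S A) (h : Cmp S V lab A) (hV : CtrX S A (V : Set ℂ)) (z : ℂ → ℂ) :
    TS S A z = sT S V lab z := TS_sT (g3_of_tr hA) h (inV_tr hA h hV) z

theorem Ey_tr (hA : Tr S A) (h : Cmp S V lab A) (hV : CtrX S A (V : Set ℂ)) (z : ℂ → ℂ)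
    (i : ZMod 3) : Ey S A z i = sE S V lab z i := Ey_sE (g3_of_tr hA) h (inV_tr hA h hV) z i

end Crest.Agent.R143.LocTx700
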