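import Crest.Agent.R143.LocT_700

/-!
# Row 143 (S0194), locality of `TS1` (385, 930): total of the unique hit with a vertex in `V`
(helper700)

* `sT1 S V lab z` : `3 ∑ i, om ^ i * E [z (hit vertex) if there is exactly one hit with a vertex in
  V, else 0]`; `sE1` : one mean
* `hitsN_eq` : 930's `hitsN S A i T` is `hitsV S V lab i T` for classes with free sites `V`
* `TS1_sT1` : `TS1 S A z = sT1 S V lab z` (930's definition written out), in particular for
  `A = cls S V lab` (`cmp_cls`, `TS1_cls`)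
* `sT1_congr`, `sT1_local` : it depends on the triangles with a vertex in `V` and on the labels next
  to `V` only; `norm_sT1 : ≤ 9 B`; `sT_sT1` : `sT = sT1` if the hit is always unique
-/

set_option autoImplicit false
set_option linter.all false

noncomputable section

open scoped Classical

namespace Crest.Agent.R143.LocTx700

open Crest.Agent.R143.B0x346 Crest.Agent.R143.DelGx806 Crest.Agent.R143.DelRx806
open Crest.Agent.R143.JColx54 Crest.Agent.R143.K33x877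
open Crest.Agent.R143.RE0x723 (Pth)
open Crest.Agent.R143.NetUx346
open Crest.Agent.R143.Locx922 (Hol Agr delT_vertex delT_vertex2 delT_vertex3)

variable {S S' V : Finset ℂ} {lab lab' : ℂ → ZMod 3} {A : ZMod 3 → Set ℂ} {i : ZMod 3} {T : Set ℂ}
  {b w u x y : ℂ} {t : ℂ × ℂ × ℂ}

/-- mean of the unique hit vertex with the label `i` -/
def sE1 (S V : Finset ℂ) (lab : ℂ → ZMod 3) (z : ℂ → ℂ) (i : ZMod 3) : ℂ :=
  exC V fun T => if (hitsV S V lab i (T : Set ℂ)).card = 1 then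
    ∑ t ∈ hitsV S V lab i (T : Set ℂ), z t.1 else 0

/-- **the total of the unique hits** -/
def sT1 (S V : Finset ℂ) (lab : ℂ → ZMod 3) (z : ℂ → ℂ) : ℂ :=
  3 * ∑ i : ZMod 3, omz i * sE1 S V lab z i

/-! ### the classes -/

theorem Cmp.fr_eq (h : Cmp S V lab A) (hf : ∀ v ∈ fr S A, v ∈ V) : fr S A = (V : Set ℂ) :=
  Set.Subset.antisymm hf fun v hv => h.sub v hv

theorem hitsN_eq (hS : GP (S : Set ℂ)) (h : Cmp S V lab A)
    (hd : ∀ i j, i ≠ j → Disjoint (A i) (A j)) (hf : fr S A = (V : Set ℂ)) (i : ZMod 3)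
    (T : Set ℂ) :
    (hits S A i T).filter (fun t => t.2.1 ∈ fr S A ∨ t.2.2 ∈ fr S A) = hitsV S V lab i T := by
  ext t
  rw [Finset.mem_filter, mem_hits, mem_hitsV, hit_iff hS h hd, hf]
  exact Iff.rfl

theorem ff_of_fr (hf : fr S A = (V : Set ℂ)) : ff S A = V := by
  ext v
  rw [mem_ff, hf]
  exact Iff.rfl

/-- **930's `TS1` is `sT1`** -/
theorem TS1_sT1 (hS : GP (S : Set ℂ)) (h : Cmp S V lab A)
    (hd : ∀ i j, i ≠ j → Disjoint (A i) (A j)) (hf : fr S A = (V : Set ℂ)) (z : ℂ → ℂ) :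
    3 * ∑ i : ZMod 3, omz i * exC (ff S A) (fun T =>
      if ((hits S A i (T : Set ℂ)).filter
        (fun t => t.2.1 ∈ fr S A ∨ t.2.2 ∈ fr S A)).card = 1 then
      ∑ t ∈ (hits S A i (T : Set ℂ)).filter (fun t => t.2.1 ∈ fr S A ∨ t.2.2 ∈ fr S A), z t.1
      else 0) = sT1 S V lab z := by
  unfold sT1 sE1
  rw [ff_of_fr hf]
  congr 1
  refine Finset.sum_congr rfl fun i _ => ?_
  congr 2
  funext T
  rw [hitsN_eq hS h hd hf]

theorem fr_cls (hV : V ⊆ S) : fr S (cls S (V : Set ℂ) lab) = (V : Set ℂ) := by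
  ext v
  constructor
  · rintro ⟨h1, h2⟩
    by_contra h3
    exact h2 (lab v) ⟨h1, h3, rfl⟩
  · intro hv
    exact ⟨hV hv, fun i h => h.2.1 hv⟩

theorem cmp_cls (hV : V ⊆ S) : Cmp S V lab (cls S (V : Set ℂ) lab) := by
  refine Cmp.of_eq (ff_of_fr (fr_cls hV)) fun x hx => ?_
  obtain ⟨h1, h2, -⟩ := mem_bd.1 hx
  exact ⟨h1, h2, rfl⟩

theorem cls_disj (U : Set ℂ) (i j : ZMod 3) (h : i ≠ j) :
    Disjoint (cls S U lab i) (cls S U lab j) := by
  rw [Set.disjoint_left]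
  rintro v ⟨-, -, h1⟩ ⟨-, -, h2⟩
  exact h (h1.symm.trans h2)

/-- **`T u` of a polygon: position classes** -/
theorem TS1_cls (hS : GP (S : Set ℂ)) (hV : V ⊆ S) (z : ℂ → ℂ) :
    3 * ∑ i : ZMod 3, omz i * exC (ff S (cls S (V : Set ℂ) lab)) (fun T =>
      if ((hits S (cls S (V : Set ℂ) lab) i (T : Set ℂ)).filter
        (fun t => t.2.1 ∈ fr S (cls S (V : Set ℂ) lab) ∨
          t.2.2 ∈ fr S (cls S (V : Set ℂ) lab))).card = 1 then
      ∑ t ∈ (hits S (cls S (V : Set ℂ) lab) i (T : Set ℂ)).filter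
        (fun t => t.2.1 ∈ fr S (cls S (V : Set ℂ) lab) ∨
          t.2.2 ∈ fr S (cls S (V : Set ℂ) lab)), z t.1
      else 0) = sT1 S V lab z :=
  TS1_sT1 hS (cmp_cls hV) (cls_disj _) (fr_cls hV) z

/-! ### bound, comparison with `sT` -/

theorem hitsV_one (h : (hitsV S V lab i T).card = 1) (z : ℂ → ℂ) :
    ∃ t, HitV S V lab i T t ∧ ∑ t ∈ hitsV S V lab i T, z t.1 = z t.1 := by
  obtain ⟨t, ht⟩ := Finset.card_eq_one.1 h
  refine ⟨t, ?_, by rw [ht, Finset.sum_singleton]⟩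
  rw [← mem_hitsV, ht]
  exact Finset.mem_singleton_self _

theorem norm_sE1 {z : ℂ → ℂ} {B : ℝ} (hB : 0 ≤ B) (h : ∀ x ∈ bd S V, lab x = i → ‖z x‖ ≤ B) :
    ‖sE1 S V lab z i‖ ≤ B := by
  refine norm_exC _ _ fun T _ => ?_
  split_ifs with h1
  · obtain ⟨t, ht, he⟩ := hitsV_one h1 z
    rw [he]
    exact h _ ht.hu.1 ht.hu.2
  · rw [norm_zero]; exact hB

theorem norm_sT1 {z : ℂ → ℂ} {B : ℝ} (hB : 0 ≤ B) (h : ∀ x ∈ bd S V, ‖z x‖ ≤ B) :
    ‖sT1 S V lab z‖ ≤ 9 * B := by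
  unfold sT1
  rw [norm_mul, Complex.norm_ofNat]
  have h2 : ‖∑ i : ZMod 3, omz i * sE1 S V lab z i‖ ≤ 3 * B := by
    refine (norm_sum_le _ _).trans ?_
    refine (Finset.sum_le_sum (g := fun _ => B) fun i _ => ?_).trans ?_
    · rw [norm_mul, norm_omz, one_mul]
      exact norm_sE1 hB fun x hx _ => h x hx
    · rw [Finset.sum_const, Finset.card_univ, ZMod.card, nsmul_eq_mul]
      push_cast
      exact le_rfl
  linarith

/-- unique hits: the two totals agree -/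
theorem sT_sT1 (h : ∀ i, ∀ T : Finset ℂ, T ⊆ V → (hitsV S V lab i (T : Set ℂ)).card = 1)
    (z : ℂ → ℂ) : sT S V lab z = sT1 S V lab z := by
  unfold sT sT1 sE sE1 exC
  congr 1
  refine Finset.sum_congr rfl fun i _ => ?_
  congr 2
  refine Finset.sum_congr rfl fun T hT => ?_
  show _ = if _ then _ else _
  rw [if_pos (h i T (Finset.mem_powerset.1 hT))]

/-- `Hex` gives unique hits -/
theorem card_hitsV (hA : G3 S A) (hX : Hex S A) (h : Cmp S V lab A) (hI : InV S V A) (i : ZMod 3)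
    {T : Finset ℂ} (hT : T ⊆ V) : (hitsV S V lab i (T : Set ℂ)).card = 1 := by
  have hT' : T ⊆ ff S A := fun v hv => mem_ff.2 (h.sub v (hT hv))
  obtain ⟨t, ht, hu⟩ := hX i T hT'
  rw [Finset.card_eq_one]
  refine ⟨t, ?_⟩
  ext t'
  rw [mem_hitsV, hit_iff hA.gp h hA.disj, Finset.mem_singleton]
  constructor
  · rintro ⟨h1, -⟩
    exact hu t' h1
  · rintro rfl
    exact ⟨ht, hI i T hT' _ ht⟩

/-- **`TS = sT1`** for a net with unique hits, all with a vertex in `V` -/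
theorem TS_sT1 (hA : G3 S A) (hX : Hex S A) (h : Cmp S V lab A) (hI : InV S V A) (z : ℂ → ℂ) :
    TS S A z = sT1 S V lab z := by
  rw [TS_sT hA h hI]
  exact sT_sT1 (fun i T hT => card_hitsV hA hX h hI i hT) z

/-! ### locality -/

theorem SameT.hits_eq (h : SameT S S' V) (hl : ∀ x ∈ LocTx700.bd S V, lab x = lab' x)
    (i : ZMod 3) (T : Set ℂ) : hitsV S V lab i T = hitsV S' V lab' i T := by
  ext t
  rw [mem_hitsV, mem_hitsV]
  refine ⟨h.hitV_imp hl, h.symm.hitV_imp fun x hx => ?_⟩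
  rw [← h.bd] at hx
  exact (hl x hx).symm

theorem sE1_congr (h : SameT S S' V) (hl : ∀ x ∈ bd S V, lab x = lab' x) (z : ℂ → ℂ)
    (i : ZMod 3) : sE1 S V lab z i = sE1 S' V lab' z i := by
  unfold sE1
  congr 1
  funext T
  rw [h.hits_eq hl]

theorem sT1_congr (h : SameT S S' V) (hl : ∀ x ∈ bd S V, lab x = lab' x) (z : ℂ → ℂ) :
    sT1 S V lab z = sT1 S' V lab' z := by
  unfold sT1
  congr 1
  exact Finset.sum_congr rfl fun i _ => by rw [sE1_congr h hl]

/-- **locality of the total of the unique hits** -/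
theorem sT1_local {W : Set ℂ} {d : ℝ} (hd : 0 < d) (hH : Hol (S : Set ℂ) W d)
    (hA : Agr (S : Set ℂ) (S' : Set ℂ) W (2 * d)) (hV : (V : Set ℂ) ⊆ W)
    (hl : ∀ x ∈ bd S V, lab x = lab' x) (z : ℂ → ℂ) : sT1 S V lab z = sT1 S' V lab' z :=
  sT1_congr (sameT_local hd hH hA hV) hl z

/-- the same for the free sites of a region: `S` and `S'` agree near the region -/
theorem sT1_region {R : Set ℂ} {d : ℝ} (hd : 0 < d) (hH : Hol (S : Set ℂ) R d)
    (hA : Agr (S : Set ℂ) (S' : Set ℂ) R (2 * d)) (z : ℂ → ℂ) :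
    sT1 S (S.filter (· ∈ R)) lab z = sT1 S' (S'.filter (· ∈ R)) lab z := by
  have e : S.filter (· ∈ R) = S'.filter (· ∈ R) := by
    ext v
    rw [Finset.mem_filter, Finset.mem_filter]
    constructor
    · rintro ⟨h1, h2⟩
      exact ⟨(Locx922.mem_local hd hA h2).1 h1, h2⟩
    · rintro ⟨h1, h2⟩
      exact ⟨(Locx922.mem_local hd hA h2).2 h1, h2⟩
  rw [← e]
  refine sT1_local hd hH hA (fun v hv => ?_) (fun _ _ => rfl) z
  exact (Finset.mem_filter.1 (Finset.mem_coe.1 hv)).2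

end Crest.Agent.R143.LocTx700
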