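import Crest.Agent.R143.Sep3_686

/-!
# Row 143 (S0194), LOCX of note 3970: crossing half at a WHITE gate (helper921; text of 776)

A gate on the white arc: the column `up, y, dn` of the neck, a closed white chain `cw` which runs through
the two tiles next to the gate (`W` = white sites linked to `x = up.last`).

* `no_pass` : a link `PA` inside `c0 < Y < c1`, off the blocked sites `Z0` and off `Top`, whose sites see
  `cw` under an angle `≠ -2π`, does not cross the gate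
* `no_pass'` : the other direction; `no_pass_list` : for a list
* **`vert_white`** : the vertical chain of a white gate, from `dn.last` to `up.head`: its sites are in
  `up`, in `W`, or in `y :: dn` and see `cw` under the angle `-2π`
-/

set_option autoImplicit false

noncomputable section

open scoped Classical

namespace Crest.Agent.R143.LocWx921

open Crest.Agent.R143.B0x346 Crest.Agent.R143.DelGx806 Crest.Agent.R143.DelRx806
open Crest.Agent.R143.ToolWx838 Crest.Agent.R143.Blkx838 Crest.Agent.R143.ToolW2x838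
open Crest.Agent.R143.ToolW3x838 Crest.Agent.R143.Gatex838 Crest.Agent.R143.Neckx921
open Crest.Agent.R143.Sepx686

variable {S : Finset ℂ}

/-- the data of a white gate -/
structure WG (S : Finset ℂ) (z0 e : ℂ) (a0 a1 b0 b1 m x0 x1 c0 c1 : ℝ) (V β : Finset ℂ)
    (up : List ℂ) (y : ℂ) (dn : List ℂ) (Z0 Top W AU AD : Set ℂ) (wu wd : ℂ) (cw : List ℂ) :
    Prop where
  he : e ≠ 0
  neck : Neck S z0 e a0 a1 b0 b1 m V β up y dn
  x0a : x0 ≤ a0
  a1x : a1 ≤ x1
  /-- the column is blocked -/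
  upZ : ∀ s ∈ up, s ∈ Z0 ∨ s ∈ Top
  dnZ : ∀ s ∈ dn, b0 < Y z0 e s → s ∈ Z0 ∨ s ∈ Top
  /-- the white sites of the two tiles, linked to `x` -/
  WZ : ∀ s ∈ W, s ∈ Z0
  WX : ∀ s ∈ W, x0 < X z0 e s ∧ X z0 e s < x1
  Wx : ∀ s ∈ W, Lk S W (up.getLast neck.nu) s
  /-- the closed white chain -/
  loop : Loop S cw
  ycw : y ∉ cw
  cwW : ∀ s ∈ cw, s ∈ dn → s ∈ W
  low : ∀ s ∈ dn, Y z0 e s ≤ b0 → asum s cw = -(2 * Real.pi)
  /-- walk up -/
  lu : Lk S AU (up.head neck.nu) wu
  AUT : ∀ s ∈ AU, s ∈ Top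
  AUX : ∀ s ∈ AU, x0 < X z0 e s ∧ X z0 e s < x1
  hu : c1 ≤ Y z0 e wu
  /-- walk down -/
  ld : Lk S AD (dn.getLast neck.nd) wd
  ADX : ∀ s ∈ AD, x0 < X z0 e s ∧ X z0 e s < x1
  ADi : ∀ s ∈ AD, asum s cw = -(2 * Real.pi)
  hd : Y z0 e wd ≤ c0

variable {z0 e : ℂ} {a0 a1 b0 b1 m x0 x1 c0 c1 : ℝ} {V β : Finset ℂ} {up dn : List ℂ} {y : ℂ}
  {Z0 Top W AU AD : Set ℂ} {wu wd : ℂ} {cw : List ℂ}

/-- **no passage through a white gate** (list) -/
theorem no_pass_list (hS : GP (S : Set ℂ))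
    (G : WG S z0 e a0 a1 b0 b1 m x0 x1 c0 c1 V β up y dn Z0 Top W AU AD wu wd cw) {P : List ℂ}
    (hP : P ≠ []) (dP : ∀ q ∈ prs P, DE S q.1 q.2)
    (hPy : ∀ s ∈ P, c0 < Y z0 e s ∧ Y z0 e s < c1)
    (hPZ : ∀ s ∈ P, s ∉ Z0 ∧ s ∉ Top) (hPi : ∀ s ∈ P, asum s cw ≠ -(2 * Real.pi))
    (h0 : X z0 e (P.head hP) ≤ x0) (h1 : x1 ≤ X z0 e (P.getLast hP)) : False := by
  have hadj := G.neck.adj
  rw [← isChain_iff_prs, List.isChain_append] at hadj
  obtain ⟨c1', c2', -⟩ := hadj
  have dup := (isChain_iff_prs (R := DE S) up).1 c1'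
  have ddn := (isChain_iff_prs (R := DE S) (y :: dn)).1 c2'
  have hwin : ∀ s ∈ up ++ y :: dn, x0 < X z0 e s ∧ X z0 e s < x1 := fun s hs =>
    ⟨G.x0a.trans_lt (G.neck.win s hs).1.1, (G.neck.win s hs).1.2.trans_le G.a1x⟩
  -- sites of the column in `P`
  have kup : ∀ s ∈ P, s ∉ up := fun s hs h => by
    rcases G.upZ s h with h1 | h1
    · exact (hPZ s hs).1 h1
    · exact (hPZ s hs).2 h1
  have kdn : ∀ s ∈ P, s ∉ dn := fun s hs h => by
    rcases le_or_gt (Y z0 e s) b0 with hb | hb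
    · exact hPi s hs (G.low s h hb)
    · rcases G.dnZ s h hb with h1 | h1
      · exact (hPZ s hs).1 h1
      · exact (hPZ s hs).2 h1
  have kAU : ∀ s ∈ P, s ∉ AU := fun s hs h => (hPZ s hs).2 (G.AUT s h)
  have kAD : ∀ s ∈ P, s ∉ AD := fun s hs h => hPi s hs (G.ADi s h)
  have kW : ∀ s ∈ P, s ∉ W := fun s hs h => (hPZ s hs).1 (G.WZ s h)
  -- the upper and the lower link
  have lup : Lk S {s | s ∈ up} (up.getLast G.neck.nu) (up.head G.neck.nu) :=
    lk_list dup (fun _ hs => hs) (List.getLast_mem _) (List.head_mem _)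
  by_cases hr : ∃ r ∈ cw, r ∈ dn
  · -- the chain through `W`
    obtain ⟨r, hr1, hr2⟩ := hr
    have hrW := G.cwW r hr1 hr2
    have ddn' : ∀ p ∈ prs dn, DE S p.1 p.2 := by
      have h2 := c2'
      rw [List.isChain_cons] at h2
      exact (isChain_iff_prs (R := DE S) dn).1 h2.2
    have l1 : Lk S {s | s ∈ dn} (dn.getLast G.neck.nd) r :=
      lk_list ddn' (fun _ hs => hs) (List.getLast_mem _) hr2
    set A : Set ℂ := {s | s ∈ AU ∨ s ∈ up ∨ s ∈ W ∨ s ∈ dn ∨ s ∈ AD} with hA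
    have l2 : Lk S A wd wu := by
      have g1 : Lk S A wd (dn.getLast G.neck.nd) :=
        (G.ld.mono fun s hs => Or.inr (Or.inr (Or.inr (Or.inr hs)))).symm
      have g2 : Lk S A (dn.getLast G.neck.nd) r :=
        l1.mono fun s hs => Or.inr (Or.inr (Or.inr (Or.inl hs)))
      have g3 : Lk S A r (up.getLast G.neck.nu) :=
        ((G.Wx r hrW).mono fun s hs => Or.inr (Or.inr (Or.inl hs))).symm
      have g4 : Lk S A (up.getLast G.neck.nu) (up.head G.neck.nu) :=
        lup.mono fun s hs => Or.inr (Or.inl hs)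
      have g5 : Lk S A (up.head G.neck.nu) wu := G.lu.mono fun s hs => Or.inl hs
      exact (((g1.trans g2).trans g3).trans g4).trans g5
    obtain ⟨s, hs1, hs2⟩ := cross_lk hS G.he hP dP hPy h0 h1 (A := A) (by
      rintro s (hs | hs | hs | hs | hs)
      · exact G.AUX s hs
      · exact hwin s (List.mem_append_left _ hs)
      · exact G.WX s hs
      · exact hwin s (List.mem_append_right _ (List.mem_cons_of_mem _ hs))
      · exact G.ADX s hs) l2 G.hd G.hu
    rcases hs2 with hs2 | hs2 | hs2 | hs2 | hs2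
    · exact kAU s hs1 hs2
    · exact kup s hs1 hs2
    · exact kW s hs1 hs2
    · exact kdn s hs1 hs2
    · exact kAD s hs1 hs2
  · -- the lower part misses `cw`
    push Not at hr
    have l1 : Lk S {s | s ∈ y :: dn} y (dn.getLast G.neck.nd) :=
      lk_list ddn (fun _ hs => hs) (by simp) (List.mem_cons_of_mem _ (List.getLast_mem _))
    have hoff : ∀ s ∈ {s | s ∈ y :: dn}, s ∉ cw := by
      intro s hs h
      rcases List.mem_cons.1 hs with rfl | hs
      · exact G.ycw h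
      · exact hr s h hs
    have hy : asum y cw = -(2 * Real.pi) :=
      (asum_lk hS G.loop hoff l1).trans (G.low _ (List.getLast_mem _) G.neck.bot)
    have ky : y ∉ P := fun h => hPi y h hy
    set A : Set ℂ := {s | s ∈ AU ∨ s ∈ up ∨ s ∈ y :: dn ∨ s ∈ AD} with hA
    have l2 : Lk S A wd wu := by
      have g1 : Lk S A wd (dn.getLast G.neck.nd) :=
        (G.ld.mono fun s hs => Or.inr (Or.inr (Or.inr hs))).symm
      have g2 : Lk S A (dn.getLast G.neck.nd) y :=
        (l1.mono fun s hs => Or.inr (Or.inr (Or.inl hs))).symm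
      have hyA : y ∈ A := Or.inr (Or.inr (Or.inl (by simp)))
      have hxA : up.getLast G.neck.nu ∈ A := Or.inr (Or.inl (List.getLast_mem _))
      have g3 : Lk S A y (up.getLast G.neck.nu) := ⟨⟨hyA, hxA⟩, .single ⟨G.neck.de.symm, hyA, hxA⟩⟩
      have g4 : Lk S A (up.getLast G.neck.nu) (up.head G.neck.nu) :=
        lup.mono fun s hs => Or.inr (Or.inl hs)
      have g5 : Lk S A (up.head G.neck.nu) wu := G.lu.mono fun s hs => Or.inl hs
      exact (((g1.trans g2).trans g3).trans g4).trans g5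
    obtain ⟨s, hs1, hs2⟩ := cross_lk hS G.he hP dP hPy h0 h1 (A := A) (by
      rintro s (hs | hs | hs | hs)
      · exact G.AUX s hs
      · exact hwin s (List.mem_append_left _ hs)
      · exact hwin s (List.mem_append_right _ hs)
      · exact G.ADX s hs) l2 G.hd G.hu
    rcases hs2 with hs2 | hs2 | hs2 | hs2
    · exact kAU s hs1 hs2
    · exact kup s hs1 hs2
    · rcases List.mem_cons.1 hs2 with h | h
      · exact ky (h ▸ hs1)
      · exact kdn s hs1 h
    · exact kAD s hs1 hs2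

/-- **no passage through a white gate** -/
theorem no_pass (hS : GP (S : Set ℂ))
    (G : WG S z0 e a0 a1 b0 b1 m x0 x1 c0 c1 V β up y dn Z0 Top W AU AD wu wd cw) {PA : Set ℂ}
    {a b : ℂ} (hP : Lk S PA a b) (hPy : ∀ s ∈ PA, c0 < Y z0 e s ∧ Y z0 e s < c1)
    (hPZ : ∀ s ∈ PA, s ∉ Z0 ∧ s ∉ Top) (hPi : ∀ s ∈ PA, asum s cw ≠ -(2 * Real.pi))
    (h0 : X z0 e a ≤ x0) (h1 : x1 ≤ X z0 e b) : False := by
  obtain ⟨P, hPn, dP, mP, P0, P1⟩ := lk_to_list hP
  exact no_pass_list hS G hPn dP (fun s hs => hPy s (mP s hs)) (fun s hs => hPZ s (mP s hs))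
    (fun s hs => hPi s (mP s hs)) (P0.symm ▸ h0) (P1.symm ▸ h1)

/-- the other direction -/
theorem no_pass' (hS : GP (S : Set ℂ))
    (G : WG S z0 e a0 a1 b0 b1 m x0 x1 c0 c1 V β up y dn Z0 Top W AU AD wu wd cw) {PA : Set ℂ}
    {a b : ℂ} (hP : Lk S PA a b) (hPy : ∀ s ∈ PA, c0 < Y z0 e s ∧ Y z0 e s < c1)
    (hPZ : ∀ s ∈ PA, s ∉ Z0 ∧ s ∉ Top) (hPi : ∀ s ∈ PA, asum s cw ≠ -(2 * Real.pi))
    (h0 : x1 ≤ X z0 e a) (h1 : X z0 e b ≤ x0) : False :=
  no_pass hS G hP.symm hPy hPZ hPi h1 h0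

/-- the last element of a list which lies in a set -/
theorem last_mem {R : Set ℂ} (l : List ℂ) (h : ∃ s ∈ l, s ∈ R) :
    ∃ l1 u l2, l = l1 ++ u :: l2 ∧ u ∈ R ∧ ∀ s ∈ l2, s ∉ R := by
  induction l with
  | nil => simp at h
  | cons a l ih =>
    by_cases h2 : ∃ s ∈ l, s ∈ R
    · obtain ⟨l1, u, l2, e, hu, hl⟩ := ih h2
      exact ⟨a :: l1, u, l2, by rw [e]; rfl, hu, hl⟩
    · push Not at h2
      obtain ⟨s, hs, hs'⟩ := h
      rcases List.mem_cons.1 hs with h | h
      · exact ⟨[], a, l, rfl, h ▸ hs', h2⟩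
      · exact absurd hs' (h2 s h)

/-- **the vertical chain of a white gate** -/
theorem vert_white (hS : GP (S : Set ℂ)) (N : Neck S z0 e a0 a1 b0 b1 m V β up y dn) (hx0 : x0 ≤ a0)
    (hx1 : a1 ≤ x1) (hl : Loop S cw) (hy : y ∉ cw)
    (WX : ∀ s ∈ W, x0 < X z0 e s ∧ X z0 e s < x1) (Wb : ∀ s ∈ W, b0 < Y z0 e s)
    (Wx : ∀ s ∈ W, Lk S W (up.getLast N.nu) s) (cwW : ∀ s ∈ cw, s ∈ dn → s ∈ W)
    (hlow : asum (dn.getLast N.nd) cw = -(2 * Real.pi)) :
    ∃ VV : Set ℂ, Lk S VV (dn.getLast N.nd) (up.head N.nu) ∧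
      (∀ s ∈ VV, x0 < X z0 e s ∧ X z0 e s < x1) ∧
      ∀ s ∈ VV, s ∈ up ∨ s ∈ W ∨ (s ∈ y :: dn ∧ asum s cw = -(2 * Real.pi)) := by
  have hadj := N.adj
  rw [← isChain_iff_prs, List.isChain_append] at hadj
  obtain ⟨c1', c2', -⟩ := hadj
  have dup := (isChain_iff_prs (R := DE S) up).1 c1'
  have ddn := (isChain_iff_prs (R := DE S) (y :: dn)).1 c2'
  have hwin : ∀ s ∈ up ++ y :: dn, x0 < X z0 e s ∧ X z0 e s < x1 := fun s hs =>
    ⟨hx0.trans_lt (N.win s hs).1.1, (N.win s hs).1.2.trans_le hx1⟩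
  have lup : Lk S {s | s ∈ up} (up.getLast N.nu) (up.head N.nu) :=
    lk_list dup (fun _ hs => hs) (List.getLast_mem _) (List.head_mem _)
  by_cases hr : ∃ r ∈ dn, r ∈ {s | s ∈ cw}
  · obtain ⟨d1, r, d2, he, hr1, hr2⟩ := last_mem dn hr
    have hrdn : r ∈ dn := by rw [he]; simp
    have hrW := cwW r hr1 hrdn
    have hd2 : d2 ≠ [] := by
      rintro rfl
      have h1 : dn.getLast N.nd = r := by
        subst he
        rw [List.getLast_append_of_ne_nil _ (List.cons_ne_nil _ _)]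
        rfl
      have h2 := N.bot
      rw [h1] at h2
      exact absurd (Wb r hrW) (not_lt.2 h2)
    have hlast : d2.getLast hd2 = dn.getLast N.nd := by
      subst he
      rw [List.getLast_append_of_ne_nil _ (List.cons_ne_nil _ _), List.getLast_cons hd2]
    have c3 : (r :: d2).IsChain (DE S) := by
      have h2 := c2'
      rw [List.isChain_cons] at h2
      have h3 := h2.2
      rw [he, List.isChain_append] at h3
      exact h3.2.1
    have c4 : d2.IsChain (DE S) := by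
      rw [List.isChain_cons] at c3
      exact c3.2
    have mem2 : ∀ s ∈ d2, s ∈ dn := fun s hs => by
      rw [he]; exact List.mem_append_right _ (List.mem_cons_of_mem _ hs)
    have hidx : ∀ s ∈ d2, asum s cw = -(2 * Real.pi) := by
      intro s hs
      have h1 : Lk S {s | s ∈ d2} s (d2.getLast hd2) :=
        lk_list ((isChain_iff_prs (R := DE S) d2).1 c4) (fun _ h => h) hs (List.getLast_mem _)
      rw [asum_lk hS hl (A := {s | s ∈ d2}) (fun s h => hr2 s h) h1, hlast]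
      exact hlow
    have l1 : Lk S {s | s ∈ r :: d2} (dn.getLast N.nd) r := by
      rw [← hlast]
      exact lk_list ((isChain_iff_prs (R := DE S) (r :: d2)).1 c3) (fun _ h => h)
        (List.mem_cons_of_mem _ (List.getLast_mem _)) (by simp)
    refine ⟨{s | s ∈ up ∨ s ∈ W ∨ s ∈ d2}, ?_, ?_, ?_⟩
    · have g1 : Lk S {s | s ∈ up ∨ s ∈ W ∨ s ∈ d2} (dn.getLast N.nd) r := by
        refine l1.mono fun s hs => ?_
        rcases List.mem_cons.1 hs with h | h
        · exact Or.inr (Or.inl (h ▸ hrW))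
        · exact Or.inr (Or.inr h)
      have g2 : Lk S {s | s ∈ up ∨ s ∈ W ∨ s ∈ d2} r (up.getLast N.nu) :=
        ((Wx r hrW).mono fun s hs => Or.inr (Or.inl hs)).symm
      exact (g1.trans g2).trans (lup.mono fun s hs => Or.inl hs)
    · rintro s (hs | hs | hs)
      · exact hwin s (List.mem_append_left _ hs)
      · exact WX s hs
      · exact hwin s (List.mem_append_right _ (List.mem_cons_of_mem _ (mem2 s hs)))
    · rintro s (hs | hs | hs)
      · exact Or.inl hs
      · exact Or.inr (Or.inl hs)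
      · exact Or.inr (Or.inr ⟨List.mem_cons_of_mem _ (mem2 s hs), hidx s hs⟩)
  · push Not at hr
    have hoff : ∀ s ∈ {s | s ∈ y :: dn}, s ∉ cw := by
      intro s hs h
      rcases List.mem_cons.1 hs with rfl | hs
      · exact hy h
      · exact hr s hs h
    have hidx : ∀ s ∈ y :: dn, asum s cw = -(2 * Real.pi) := by
      intro s hs
      have h1 : Lk S {s | s ∈ y :: dn} s (dn.getLast N.nd) :=
        lk_list ddn (fun _ hs => hs) hs (List.mem_cons_of_mem _ (List.getLast_mem _))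
      rw [asum_lk hS hl hoff h1]
      exact hlow
    refine ⟨{s | s ∈ up ∨ s ∈ y :: dn}, ?_, ?_, ?_⟩
    · have g1 : Lk S {s | s ∈ up ∨ s ∈ y :: dn} (dn.getLast N.nd) y :=
        (lk_list ddn (fun _ hs => hs) (List.mem_cons_of_mem _ (List.getLast_mem _))
          (by simp)).mono fun s hs => Or.inr hs
      have hyA : y ∈ {s | s ∈ up ∨ s ∈ y :: dn} := Or.inr (by simp)
      have hxA : up.getLast N.nu ∈ {s | s ∈ up ∨ s ∈ y :: dn} := Or.inl (List.getLast_mem _)
      exact (g1.trans ⟨⟨hyA, hxA⟩, .single ⟨N.de.symm, hyA, hxA⟩⟩).trans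
        (lup.mono fun s hs => Or.inl hs)
    · rintro s (hs | hs)
      · exact hwin s (List.mem_append_left _ hs)
      · exact hwin s (List.mem_append_right _ hs)
    · rintro s (hs | hs)
      · exact Or.inl hs
      · exact Or.inr (Or.inr ⟨hs, hidx s hs⟩)

/-- a chain as a set all of whose sites are linked to the first one -/
theorem lk_core {A : Set ℂ} {u v : ℂ} (h : Lk S A u v) :
    ∃ W ⊆ A, Lk S W u v ∧ ∀ s ∈ W, Lk S W u s := by
  obtain ⟨q, hq, h1, h2, h3, h4⟩ := lk_to_list h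
  refine ⟨{s | s ∈ q}, h2, ?_, fun s hs => ?_⟩
  · rw [← h3, ← h4]
    exact lk_list h1 (fun _ h => h) (List.head_mem _) (List.getLast_mem _)
  · rw [← h3]
    exact lk_list h1 (fun _ h => h) (List.head_mem _) hs

end Crest.Agent.R143.LocWx921
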