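import Crest.Agent.R143.Sep3_686

/-!
# Row 143 (S0194), RIG, box Q2, LEMMA W of note 4259, abstract half (helper927)

* `sub_cross` : a chain from `L` to `G` inside `L ∪ K ∪ G` without direct step from `L` to `G` contains
  a sub-chain `u, ms, v` with `u ∈ L`, `ms ⊆ K`, `v ∈ G`
* `low_all` : a black chain `P` which crosses the long window of a neck has the index `c` of the
  bottom of the neck with respect to a closed white chain `cw` (whose sites on `dn` are linked to the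
  upper arm inside the window), also if `P` runs below the level `b0` (low sites have index `c`)
* `lemW` : both together (chain inside `Lf ∪ Md ∪ Rg` from `Lf` to `Rg`)
* `idx_conn` : index on a preconnected set off the edges of `cw`
-/

set_option autoImplicit false

noncomputable section

open scoped Classical

namespace Crest.Agent.R143.LocWax927

open Crest.Agent.R143.B0x346 Crest.Agent.R143.DelGx806 Crest.Agent.R143.DelRx806
open Crest.Agent.R143.ToolWx838 Crest.Agent.R143.Blkx838 Crest.Agent.R143.ToolW2x838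
open Crest.Agent.R143.ToolW3x838 Crest.Agent.R143.Gatex838 Crest.Agent.R143.Neckx921
open Crest.Agent.R143.Sepx686

/-! ### surgery of chains -/

section surgery

variable {α : Type*} {R : α → α → Prop} {L K G : Set α}

/-- crossing piece -/
def Crs (R : α → α → Prop) (L K G : Set α) (P : List α) : Prop :=
  ∃ (u v : α) (ms : List α), u ∈ L ∧ v ∈ G ∧ (∀ s ∈ ms, s ∈ K) ∧ ms ≠ [] ∧
    (u :: (ms ++ [v])).IsChain R ∧ ∀ s ∈ u :: (ms ++ [v]), s ∈ P

/-- `P` starts with a run in `K` followed by a point of `G` -/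
def Sta (K G : Set α) (P : List α) : Prop :=
  ∃ (ms : List α) (v : α) (l : List α), P = ms ++ v :: l ∧ (∀ s ∈ ms, s ∈ K) ∧ v ∈ G

theorem crs_cons {P : List α} {s : α} (h : Crs R L K G P) : Crs R L K G (s :: P) := by
  obtain ⟨u, v, ms, h1, h2, h3, h4, h5, h6⟩ := h
  exact ⟨u, v, ms, h1, h2, h3, h4, h5, fun t ht => List.mem_cons_of_mem _ (h6 t ht)⟩

theorem crs_of_sta (hno : ∀ u ∈ L, ∀ v ∈ G, ¬ R u v) {P : List α} {s : α} (hs : s ∈ L)
    (hc : (s :: P).IsChain R) (h : Sta K G P) : Crs R L K G (s :: P) := by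
  obtain ⟨ms, v, l, rfl, h1, h2⟩ := h
  have hc' : (s :: (ms ++ [v])).IsChain R := by
    have e : s :: (ms ++ v :: l) = (s :: (ms ++ [v])) ++ l := by simp
    rw [e, List.isChain_append] at hc
    exact hc.1
  refine ⟨s, v, ms, hs, h2, h1, ?_, hc', ?_⟩
  · rintro rfl
    simp only [List.nil_append, List.isChain_cons_cons] at hc'
    exact hno s hs v h2 hc'.1
  · intro t ht
    simp only [List.mem_cons, List.mem_append, List.not_mem_nil, or_false] at ht ⊢
    tauto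

theorem crs_or_sta (hno : ∀ u ∈ L, ∀ v ∈ G, ¬ R u v) : ∀ (P : List α) (hP : P ≠ []),
    P.IsChain R → (∀ s ∈ P, s ∈ L ∨ s ∈ K ∨ s ∈ G) → P.getLast hP ∈ G →
    Crs R L K G P ∨ Sta K G P
  | [], hP, _, _, _ => absurd rfl hP
  | [s], _, _, _, h => Or.inr ⟨[], s, [], rfl, by simp, h⟩
  | s :: t :: l, _, hc, hm, h => by
    have ih := crs_or_sta hno (t :: l) (by simp) (List.isChain_cons_cons.1 hc).2
      (fun x hx => hm x (List.mem_cons_of_mem _ hx)) h
    rcases ih with ih | ih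
    · exact Or.inl (crs_cons ih)
    · rcases hm s (by simp) with h1 | h1 | h1
      · exact Or.inl (crs_of_sta hno h1 hc ih)
      · obtain ⟨ms, v, l', e, h2, h3⟩ := ih
        refine Or.inr ⟨s :: ms, v, l', by rw [e]; rfl, ?_, h3⟩
        intro x hx
        rcases List.mem_cons.1 hx with rfl | hx
        · exact h1
        · exact h2 x hx
      · exact Or.inr ⟨[], s, t :: l, rfl, by simp, h1⟩

/-- **a chain from `L` to `G` contains a crossing of `K`** -/
theorem sub_cross (hno : ∀ u ∈ L, ∀ v ∈ G, ¬ R u v) (hLG : ∀ u ∈ L, u ∉ G) {P : List α}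
    (hP : P ≠ []) (hc : P.IsChain R) (hm : ∀ s ∈ P, s ∈ L ∨ s ∈ K ∨ s ∈ G) (h0 : P.head hP ∈ L)
    (h1 : P.getLast hP ∈ G) : Crs R L K G P := by
  match P, hP, hc, hm, h0, h1 with
  | [s], _, _, _, h0, h1 => exact absurd h1 (hLG s h0)
  | s :: t :: l, _, hc, hm, h0, h1 =>
    rcases crs_or_sta hno (t :: l) (by simp) (List.isChain_cons_cons.1 hc).2
      (fun x hx => hm x (List.mem_cons_of_mem _ hx)) h1 with ih | ih
    · exact crs_cons ih
    · exact crs_of_sta hno h0 hc ih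

end surgery

/-! ### the index -/

variable {S V β : Finset ℂ} {cw : List ℂ} {z0 e : ℂ} {a0 a1 b0 b1 m x0 x1 c : ℝ}
  {up dn : List ℂ} {y : ℂ}

/-- the index is constant along a chain off `cw` -/
theorem asum_list (hS : GP (S : Set ℂ)) (hl : Loop S cw) {P : List ℂ}
    (dP : ∀ p ∈ prs P, DE S p.1 p.2) (hP : ∀ s ∈ P, s ∉ cw) {s t : ℂ} (hs : s ∈ P) (ht : t ∈ P) :
    asum s cw = asum t cw :=
  asum_lk hS hl (A := {s | s ∈ P}) hP (lk_list dP (fun _ h => h) hs ht)

/-- index on a preconnected set off the edges of `cw` -/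
theorem idx_conn (hl : Loop S cw) {K : Set ℂ} (hK : IsPreconnected K) (hoff : ∀ w ∈ K, Off w cw)
    {z w : ℂ} (hz : z ∈ K) (hw : w ∈ K) (h : asum z cw = c) : asum w cw = c := by
  rw [← h]
  exact asum_const hl.closed hK hoff hw hz

/-- **a black chain across the long window of a neck has the index of the bottom of the neck** -/
theorem low_all (hS : GP (S : Set ℂ)) (he : e ≠ 0) (N : Neck S z0 e a0 a1 b0 b1 m V β up y dn)
    (h0 : x0 ≤ a0) (h1 : a1 ≤ x1) (hl : Loop S cw) (hw : ∀ s ∈ cw, s ∉ β) {P : List ℂ}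
    (hP : P ≠ []) (dP : ∀ p ∈ prs P, DE S p.1 p.2) (cP : ∀ s ∈ P, s ∈ β)
    (hPt : ∀ s ∈ P, Y z0 e s < b1) (hP0 : X z0 e (P.head hP) ≤ x0)
    (hP1 : x1 ≤ X z0 e (P.getLast hP)) {Wk : Set ℂ}
    (hWk : ∀ s ∈ Wk, (x0 < X z0 e s ∧ X z0 e s < x1) ∧ s ∉ β)
    (hcd : ∀ r ∈ cw, r ∈ dn → Lk S Wk (up.getLast N.nu) r)
    (hd : asum (dn.getLast N.nd) cw = c) (hq : ∀ q ∈ P, Y z0 e q ≤ b0 → asum q cw = c) :
    ∀ q ∈ P, asum q cw = c := by
  have hPc : ∀ s ∈ P, s ∉ cw := fun s hs h => hw s h (cP s hs)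
  by_cases hlow : ∃ q ∈ P, Y z0 e q ≤ b0
  · obtain ⟨q, h2, h3⟩ := hlow
    intro r hr
    rw [asum_list hS hl dP hPc hr h2]
    exact hq q h2 h3
  · push Not at hlow
    have hPy : ∀ a ∈ P, b0 < Y z0 e a ∧ Y z0 e a < b1 := fun a ha => ⟨hlow a ha, hPt a ha⟩
    have hyP : y ∈ P := N.meet hS he hP dP cP hPy (hP0.trans h0) (h1.trans hP1)
    have hdn : ∀ r ∈ dn, r ∉ cw := fun r hr hrc =>
      (neck_low hS he N h0 h1 hP dP cP hPy hP0 hP1 hWk (hcd r hrc hr)).2 hr
    have hadj : ∀ p ∈ prs (y :: dn), DE S p.1 p.2 := by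
      have h2 := N.adj
      rw [← isChain_iff_prs, List.isChain_append] at h2
      exact (isChain_iff_prs (R := DE S) _).1 h2.2.1
    have h4 : asum y cw = c := by
      rw [← hd]
      refine asum_list hS hl hadj ?_ (by simp) (List.mem_cons_of_mem _ (List.getLast_mem _))
      intro s hs
      rcases List.mem_cons.1 hs with rfl | hs
      · exact hPc _ hyP
      · exact hdn s hs
    intro q hq'
    rw [asum_list hS hl dP hPc hq' hyP]
    exact h4

/-- **LEMMA W**, abstract form: a black chain inside `Lf ∪ Md ∪ Rg` from `Lf` to `Rg` has the index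
`c` of the bottom of the neck -/
theorem lemW (hS : GP (S : Set ℂ)) (he : e ≠ 0) (N : Neck S z0 e a0 a1 b0 b1 m V β up y dn)
    (h0 : x0 ≤ a0) (h1 : a1 ≤ x1) (hl : Loop S cw) (hw : ∀ s ∈ cw, s ∉ β) {Lf Md Rg : Set ℂ}
    (hno : ∀ u ∈ Lf, ∀ v ∈ Rg, ¬ DE S u v) (hdis : ∀ u ∈ Lf, u ∉ Rg)
    (hMd : ∀ s ∈ Md, s ∈ β → Y z0 e s < b1)
    (hLf : ∀ u ∈ Lf, ∀ v ∈ Md, DE S u v → X z0 e u ≤ x0 ∧ Y z0 e u < b1)
    (hRg : ∀ u ∈ Rg, ∀ v ∈ Md, DE S v u → x1 ≤ X z0 e u ∧ Y z0 e u < b1) {Wk : Set ℂ}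
    (hWk : ∀ s ∈ Wk, (x0 < X z0 e s ∧ X z0 e s < x1) ∧ s ∉ β)
    (hcd : ∀ r ∈ cw, r ∈ dn → Lk S Wk (up.getLast N.nu) r)
    (hd : asum (dn.getLast N.nd) cw = c)
    (hq : ∀ q ∈ β, (q ∈ Md ∨ (q ∈ Lf ∧ ∃ v ∈ Md, DE S q v) ∨ (q ∈ Rg ∧ ∃ v ∈ Md, DE S v q)) →
      Y z0 e q ≤ b0 → asum q cw = c) {P : List ℂ} (hP : P ≠ [])
    (dP : ∀ p ∈ prs P, DE S p.1 p.2) (cP : ∀ s ∈ P, s ∈ β)
    (hm : ∀ s ∈ P, s ∈ Lf ∨ s ∈ Md ∨ s ∈ Rg) (hP0 : P.head hP ∈ Lf) (hP1 : P.getLast hP ∈ Rg) :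
    ∀ q ∈ P, asum q cw = c := by
  have hPc : ∀ s ∈ P, s ∉ cw := fun s hs h => hw s h (cP s hs)
  have hcr := sub_cross (R := DE S) hno hdis hP ((isChain_iff_prs (R := DE S) P).2 dP) hm hP0 hP1
  obtain ⟨u, v, ms, hu, hv, hms, hne, hch, hsub⟩ := hcr
  set Q : List ℂ := u :: (ms ++ [v]) with hQ
  have hQn : Q ≠ [] := by rw [hQ]; simp
  have hQh : Q.head hQn = u := by simp [hQ]
  have hQl : Q.getLast hQn = v := by simp [hQ]
  -- the neighbours of the ends
  obtain ⟨s1, ms', rfl⟩ : ∃ s1 ms', ms = s1 :: ms' := by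
    cases ms with
    | nil => exact absurd rfl hne
    | cons s1 ms' => exact ⟨s1, ms', rfl⟩
  have hus : DE S u s1 := by
    rw [hQ] at hch
    exact (List.isChain_cons_cons.1 hch).1
  have hs1 : s1 ∈ Md := hms _ (by simp)
  have hlast : ∃ s2 ∈ Md, DE S s2 v := by
    refine ⟨(s1 :: ms').getLast (by simp), hms _ (List.getLast_mem _), ?_⟩
    have h2 : (s1 :: ms' ++ [v]).IsChain (DE S) := by
      rw [hQ] at hch
      exact hch.tail
    rw [List.isChain_append] at h2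
    exact h2.2.2 _ (by rw [List.getLast?_eq_some_getLast (List.cons_ne_nil _ _)]; rfl) v rfl
  obtain ⟨s2, hs2, hsv⟩ := hlast
  have hall : ∀ q ∈ Q, asum q cw = c := by
    refine low_all hS he N h0 h1 hl hw hQn ((isChain_iff_prs (R := DE S) Q).1 hch)
      (fun s hs => cP s (hsub s hs)) ?_ (by rw [hQh]; exact (hLf u hu s1 hs1 hus).1)
      (by rw [hQl]; exact (hRg v hv s2 hs2 hsv).1) hWk hcd hd ?_
    · intro s hs
      have hs' := cP s (hsub s hs)
      rw [hQ] at hs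
      rcases List.mem_cons.1 hs with rfl | hs
      · exact (hLf s hu s1 hs1 hus).2
      · rcases List.mem_append.1 hs with hs | hs
        · exact hMd s (hms s hs) hs'
        · rw [List.mem_singleton] at hs
          rw [hs]
          exact (hRg v hv s2 hs2 hsv).2
    · intro s hs hsy
      refine hq s (cP s (hsub s hs)) ?_ hsy
      rw [hQ] at hs
      rcases List.mem_cons.1 hs with rfl | hs
      · exact Or.inr (Or.inl ⟨hu, s1, hs1, hus⟩)
      · rcases List.mem_append.1 hs with hs | hs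
        · exact Or.inl (hms s hs)
        · rw [List.mem_singleton] at hs
          rw [hs]
          exact Or.inr (Or.inr ⟨hv, s2, hs2, hsv⟩)
  intro q hq'
  rw [asum_list hS hl dP hPc hq' (hsub u (by rw [hQ]; simp))]
  exact hall u (by rw [hQ]; simp)

end Crest.Agent.R143.LocWax927
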