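import Crest.Agent.R143.CurH_496
import Crest.Agent.R143.CurV_66
import Crest.Agent.R143.CurK_643

/-!
# Row 143 (S0194), RIG, LOCX: assembly on a fixed set of sites (helper776)

* `GD hS Z η W g` : gate data: a vertical chain at the gate `g` whose sites are in `Z`, or not in
  `Ext Z`, or above the strips, or linked to the top of the chain by sites off `Z` in the window; the
  sites just below the gate are not in `Ext Z`; `GD.cong` : periodic
* **`lx_S`** : LOCX for the window between two gates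
-/

set_option autoImplicit false

noncomputable section

open scoped Classical

namespace Crest.Agent.R143.LocYx776

open Set
open Crest.Agent.R158.Sp896
open Crest.Agent.R143.B0x346 Crest.Agent.R143.DelGx806 Crest.Agent.R143.DelRx806
open Crest.Agent.R143.Frame1x395 Crest.Agent.R143.Frame2x395 Crest.Agent.R143.Frame3x395
  Crest.Agent.R143.Frame4x395 Crest.Agent.R143.Frame8x395 Crest.Agent.R143.Frame9x395
  Crest.Agent.R143.Frame10x395 Crest.Agent.R143.Frame11x395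
open Crest.Agent.R143.Tenx416 (Pg)
open Crest.Agent.R143.OutCx571 (Far)
open Crest.Agent.R143.TileRx228
open Crest.Agent.R143.Gatex838 (X Y)
open Crest.Agent.R143.Finex422 (Fine)
open Crest.Agent.R143.Blkx838 (DE)
open Crest.Agent.R143.Neckx921 (Lk)
open Crest.Agent.R143.RegEx523 (Kin)
open Crest.Agent.R143.Extx358 (Ad Ext Bd)
open Crest.Agent.R143.FinCx811 (Cs rc0 cs rcol)
open Crest.Agent.R143.RcTx422 (Hc)
open Crest.Agent.R143.LocTx776
open Crest.Agent.R143.LocDx776 (Cur Ok ext_lk)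
open Crest.Agent.R143.CurOx66 (BlkS)
open Crest.Agent.R143.CurGx496 (Ci Co Geo Win)
open Crest.Agent.R143.CurHx496 (Sg sg_strg str6_of geo_of_en curtain mem_Ci mem_Co)
open Crest.Agent.R143.CurVx66 (vf up_ext)
open Crest.Agent.R143.CurKx643 (vk vk_K0 Stg)

variable {S : Finset ℂ} {hS : GP (S : Set ℂ)} {F : Set V} {n m M : ℕ} {p W : ℤ → V} {A : ℤ → ℤ}
  {η d : ℝ} {Z Z' T : Set (Cs hS)} {g g' gL gR : ℤ} {w0 : ℂ}

/-- **gate data** -/
structure GD (hS : GP (S : Set ℂ)) (Z : Set (Cs hS)) (η : ℝ) (W : ℤ → V) (g : ℤ) : Prop where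
  ex : ∃ VV s t, VCh S η W g VV s t ∧ ∀ v ∈ VV, ∀ c : Cs hS, c.1 = Quot.mk (hullE S) v →
    c ∈ Z ∨ ¬ Ext (rc0 hS) (Hc hS) Z c ∨ v ∈ Wn η W g (2 * η) (19 / 2 * η) (11 * η) ∨
      Lk S {w | w ∈ Wn η W g η (-(10 * η)) (11 * η) ∧
        ∀ c' : Cs hS, c'.1 = Quot.mk (hullE S) w → c' ∉ Z} t v
  low : ∀ v ∈ S, v ∈ Wn η W g (2 * η) (-(10 * η)) (-(9 * η)) → ∀ c : Cs hS,
    c.1 = Quot.mk (hullE S) v → ¬ Ext (rc0 hS) (Hc hS) Z c

theorem Wn_cong (P : FPath M W) (h : (M : ℤ) ∣ g' - g) (x y0 y1 : ℝ) :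
    Wn η W g' x y0 y1 = Wn η W g x y0 y1 := by
  unfold Wn
  rw [RegBx523.gz_cong P h, RegBx523.ge_cong P h]

theorem VCh_cong (P : FPath M W) (h : (M : ℤ) ∣ g' - g) {VV : Set ℂ} {s t : ℂ}
    (C : VCh S η W g VV s t) : VCh S η W g' VV s t where
  lk := C.lk
  sub := C.sub
  win := by
    rw [RegBx523.gz_cong P h, RegBx523.ge_cong P h]
    exact C.win
  rr := by
    rw [RegBx523.RR_cong P (a := g) (b := g') h, RegBx523.RR_cong P (a := g - 1) (b := g' - 1)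
      (by rwa [show g' - 1 - (g - 1) = g' - g by ring])]
    exact C.rr
  s1 := by rw [Wn_cong P h]; exact C.s1
  t1 := by rw [Wn_cong P h]; exact C.t1

/-- **periodicity** -/
theorem GD.cong (D : GD hS Z η W g) (P : FPath M W) (h : (M : ℤ) ∣ g' - g) : GD hS Z η W g' where
  ex := by
    obtain ⟨VV, s, t, h1, h2⟩ := D.ex
    refine ⟨VV, s, t, VCh_cong P h h1, ?_⟩
    rw [Wn_cong P h, Wn_cong P h]
    exact h2
  low := by
    rw [Wn_cong P h]
    exact D.low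

/-- sites linked to a hull site off the strips -/
theorem ext_top {A' B' : ℝ} {Y : Set (Cs hS)} (hY : BlkS A' B' (100 * η) W Y)
    (hw0 : OnHull S w0) {v : ℂ} (hl : Lk S (Off S A' B' (100 * η) W) w0 v) {c : Cs hS}
    (e : c.1 = Quot.mk (hullE S) v) : Ext (rc0 hS) (Hc hS) Y c := by
  refine ext_lk (A := Off S A' B' (100 * η) W) (fun s hs c e => hY.off hs e) hl ?_ e
  intro c e'
  exact Ext.hull ⟨w0, hw0, e'⟩ (hY.off hl.1.1 e')

/-- **LOCX between the gates `gL`, `gR`** -/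
theorem lx_S (E : En S F n m p M W A η d) (hZ : Z' ⊆ Z)
    (bZ : BlkS (19 / 2 * η) (103 / 2 * η) (100 * η) W Z)
    (sL : Sg A gL) (sR : Sg A gR) (g1 : gL + 6 ≤ gR) (g2 : gR + 6 ≤ gL + M) (hw0 : OnHull S w0)
    (hf : w0 ∈ Far (m * (100 * η)) (100 * η + 14 * η + d) F) (DgL : GD hS Z η W gL)
    (DgR : GD hS Z η W gR)
    (nK : ∀ v ∈ S, v ∈ Kin (90 * η) (Pg (m * (100 * η)) F) → ∀ c : Cs hS,
      c.1 = Quot.mk (hullE S) v → ¬ Ext (rc0 hS) (Hc hS) Z c)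
    (hT : ∀ c ∈ T, ∃ t ∈ S, ¬ OnHull S t ∧ c.1 = Quot.mk (hullE S) t ∧ ∃ j : ℤ, gL + 2 ≤ j ∧
      j ≤ gR - 3 ∧ t ∈ RR (19 / 2 * η) (103 / 2 * η) (100 * η) W j) :
    (∀ (c : Cs hS) (s : ℂ), c.1 = Quot.mk (hullE S) s →
      ((∃ j : ℤ, gR + 2 ≤ j ∧ j ≤ gL - 3 + M ∧ s ∈ RR (13 * η) (54 * η) (100 * η) W j) ∨
        OnHull S s) → Ext (rc0 hS) (Hc hS) Z c → Ext (rc0 hS) (Hc hS) (Z' ∪ T) c) ∧
    ∀ (c : Cs hS) (s : ℂ), c.1 = Quot.mk (hullE S) s → ¬ OnHull S s →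
      (∀ u, DE S s u → (∃ j : ℤ, gR + 2 ≤ j ∧ j ≤ gL - 3 + M ∧
        u ∈ RR (13 * η) (54 * η) (100 * η) W j) ∨ OnHull S u) →
      c ∈ Bd (rc0 hS) (Hc hS) Z → ∃ e, Ext (rc0 hS) (Hc hS) (Z' ∪ T) e ∧ Ad (rc0 hS) e c := by
  have e0 := E.e0
  have d0 := E.d0
  have de := E.de
  have hw0S : w0 ∈ S := RcTx422.hull_mem hw0
  obtain ⟨VR, aR, bR, cR, okR⟩ := DgR.ex
  obtain ⟨VL, aL, bL, cL, okL⟩ := DgL.ex
  obtain ⟨VF, lF, hF⟩ := vf E (sg_strg sR) (sg_strg sL) (cR.sub _ cR.lk.1.2) (cL.sub _ cL.lk.1.2)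
    hw0S cR.t1 cL.t1 hf
  obtain ⟨VK, lK, hK⟩ := vk E (gR := gR) (gL := gL) sR sL (cR.sub _ cR.lk.1.1)
    (cL.sub _ cL.lk.1.1) cR.s1 cL.s1
  have K := curtain E sL sR g1 g2 cR cL lF (fun v hv => (hF v hv).2.1) lK
    (fun v hv => (hK v hv).2)
  have G := geo_of_en E sL sR g1 g2
  -- the window
  have hT' : ∀ c ∈ T, ∃ t ∈ S, ¬ OnHull S t ∧ t ∈ Ci (13 * η) (54 * η) (100 * η) W gL gR ∧
      c.1 = Quot.mk (hullE S) t := by
    intro c hc
    obtain ⟨t, h1, h2, h3, j, j1, j2, h4⟩ := hT c hc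
    exact ⟨t, h1, h2, mem_Ci j1 j2 (RR_mono (by linarith) (by linarith) _ W j h4), h3⟩
  have bT : BlkS (19 / 2 * η) (103 / 2 * η) (100 * η) W (Z' ∪ T) := by
    refine (bZ.mono hZ).union ?_
    intro c hc
    obtain ⟨t, h1, h2, h3, j, j1, j2, h4⟩ := hT c hc
    exact ⟨t, h2, ⟨j, h4⟩, h3⟩
  -- sites of the windows of the gates are off `T`
  have offT : ∀ g, (g = gL ∨ g = gR) → ∀ w ∈ Wn η W g η (-(10 * η)) (11 * η), ∀ c : Cs hS,
      c.1 = Quot.mk (hullE S) w → c ∉ T := by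
    intro g hg w hw c e hc
    obtain ⟨t, -, h2, h3, h4⟩ := hT' c hc
    have h5 : w = t := quot_inner hS h2 (h4.symm.trans e)
    have h6 : w ∈ Win (100 * η) W (13 * η) (16 * η) g := by
      obtain ⟨k1, k2, k3⟩ := hw
      refine ⟨by linarith, abs_lt.2 ⟨by linarith, by linarith⟩⟩
    rw [h5] at h6
    rcases hg with rfl | rfl
    · exact G.offL (Or.inl h3) h6
    · exact G.offR (Or.inl h3) h6
  -- the vertical chains
  have okV : ∀ g, (g = gL ∨ g = gR) → Strg A g → ∀ (VV : Set ℂ) (s t : ℂ), VCh S η W g VV s t →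
      (∀ v ∈ VV, ∀ c : Cs hS, c.1 = Quot.mk (hullE S) v →
        c ∈ Z ∨ ¬ Ext (rc0 hS) (Hc hS) Z c ∨ v ∈ Wn η W g (2 * η) (19 / 2 * η) (11 * η) ∨
          Lk S {w | w ∈ Wn η W g η (-(10 * η)) (11 * η) ∧
            ∀ c' : Cs hS, c'.1 = Quot.mk (hullE S) w → c' ∉ Z} t v) →
      ∀ v ∈ VV, Ok hS Z Z' T v := by
    intro g hg sg VV s t C h v hv c e
    rcases h v hv c e with h1 | h1 | h1 | h1
    · exact Or.inl h1
    · exact Or.inr (Or.inl h1)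
    · exact Or.inr (Or.inr (ext_top bT hw0 (up_ext E sg (C.sub v hv) hw0S hf h1) e))
    · refine Or.inr (Or.inr (ext_lk ?_ h1 ?_ e))
      · rintro w ⟨w1, w2⟩ c' e' hc'
        rcases hc' with hc' | hc'
        · exact w2 c' e' (hZ hc')
        · exact offT g hg w w1 c' e' hc'
      · intro c' e'
        refine ext_top bT hw0 (up_ext E sg (C.sub _ C.lk.1.2) hw0S hf ?_) e'
        exact ⟨by linarith [C.t1.1], by linarith [C.t1.2.1], C.t1.2.2⟩
  have hV : ∀ s, s ∈ VR ∨ s ∈ VF ∨ s ∈ VL ∨ s ∈ VK → Ok hS Z Z' T s := by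
    rintro v (hv | hv | hv | hv)
    · exact okV gR (Or.inr rfl) (sg_strg sR) VR aR bR cR okR v hv
    · intro c e
      exact Or.inr (Or.inr (ext_top bT hw0 (hF v hv).2.2 e))
    · exact okV gL (Or.inl rfl) (sg_strg sL) VL aL bL cL okL v hv
    · intro c e
      refine Or.inr (Or.inl ?_)
      rcases vk_K0 E (gR := gR) (gL := gL) sR sL (hK v hv).2 with h1 | h1 | h1
      · exact nK v (hK v hv).1 h1 c e
      · exact DgR.low v (hK v hv).1 h1 c e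
      · exact DgL.low v (hK v hv).1 h1 c e
  constructor
  · intro c s e hs h
    refine K.loc hZ hT' hV ?_ h
    rcases hs with ⟨j, j1, j2, h1⟩ | h1
    · exact Or.inl ⟨s, mem_Co j1 j2 h1, e⟩
    · exact Or.inr ⟨s, h1, e⟩
  · intro c s e hs hn h
    refine K.loc_bd hZ hT' hV e hs (fun u hu => ?_) h
    rcases hn u hu with ⟨j, j1, j2, h1⟩ | h1
    · exact Or.inl (mem_Co j1 j2 h1)
    · exact Or.inr h1

end Crest.Agent.R143.LocYx776
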