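import Crest.Agent.R143.Low_991
import Crest.Agent.R143.EQ4_63
import Crest.Agent.R143.DomA_722
import Crest.Agent.R143.Ad_422
import Crest.Agent.R143.B6I_903

/-!
# Row 143 (S0194), leaf LOW: the network of a domain in a good environment (helper991)

* `ev_rad`, `ev_log` : `rad C ε` and `ε log(1/ε)^a` are small with respect to `ε ^ κ`
* `roomE_env` : the hypotheses of `Lowx991.low_ii` for a domain, at a small scale `r`
-/

set_option autoImplicit false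

noncomputable section

namespace Crest.Agent.R143.LowD0x991

open Set MeasureTheory Filter Topology
open scoped Classical
open Crest.ProbabilityR.Voronoi
open Crest.Agent.R143.B0x346 Crest.Agent.R143.B0Dx346 Crest.Agent.R143.Oscx63
open Crest.Agent.R143.DelGx806 Crest.Agent.R143.Circx63 Crest.Agent.R143.Scalx63
open Crest.Agent.R143.EQ2x63 Crest.Agent.R143.EQ4x63 Crest.Agent.R143.Locx922
open Crest.Agent.R143.PP1x831 Crest.Agent.R143.Lowx991
open Crest.Agent.R143.Y0x831 (Good)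
open Crest.Agent.R143.B1bx796 (touch)

/-! ### asymptotics -/

theorem log_inv_eq (ε : ℝ) : Real.log (1 / ε) = -Real.log ε := by rw [one_div, Real.log_inv]

/-- `ε ^ s * log(1/ε) ^ a → 0` -/
theorem lim_log (s a : ℝ) (hs : 0 < s) (ha : 0 < a) :
    Tendsto (fun ε : ℝ => ε ^ s * Real.log (1 / ε) ^ a) (𝓝[>] 0) (𝓝 0) := by
  have h1 : Tendsto (fun ε : ℝ => Real.log ε * ε ^ (s / a)) (𝓝[>] 0) (𝓝 0) :=
    tendsto_log_mul_rpow_nhdsGT_zero (by positivity)
  have h2 : Tendsto (fun ε : ℝ => (-(Real.log ε * ε ^ (s / a))) ^ a) (𝓝[>] 0) (𝓝 0) := by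
    have h3 := h1.neg
    rw [neg_zero] at h3
    have h4 := (Real.continuousAt_rpow_const 0 a (Or.inr ha.le)).tendsto.comp h3
    rw [Real.zero_rpow ha.ne'] at h4
    exact h4
  refine h2.congr' ?_
  have e2 : ∀ᶠ ε : ℝ in 𝓝[>] 0, ε < 1 := nhdsWithin_le_nhds (eventually_lt_nhds one_pos)
  filter_upwards [eventually_mem_nhdsWithin, e2] with ε hε hε1
  have hε' : 0 < ε := hε
  have hl : 0 ≤ Real.log (1 / ε) := Real.log_nonneg (by rw [le_div_iff₀ hε']; linarith)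
  rw [show -(Real.log ε * ε ^ (s / a)) = ε ^ (s / a) * Real.log (1 / ε) by
    rw [log_inv_eq]; ring, Real.mul_rpow (by positivity) hl, ← Real.rpow_mul hε'.le,
    div_mul_cancel₀ _ ha.ne']

/-- `ε log(1/ε)^a ≤ c ε^κ` for small `ε` -/
theorem ev_log {κ a c : ℝ} (hκ : κ < 1) (ha : 0 < a) (hc : 0 < c) :
    ∀ᶠ ε : ℝ in 𝓝[>] 0, ε * Real.log (1 / ε) ^ a ≤ c * ε ^ κ := by
  have h1 := (lim_log (1 - κ) a (by linarith) ha).eventually_lt_const hc
  filter_upwards [h1, eventually_mem_nhdsWithin] with ε h2 hε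
  have hε' : 0 < ε := hε
  have e : ε * Real.log (1 / ε) ^ a = ε ^ κ * (ε ^ (1 - κ) * Real.log (1 / ε) ^ a) := by
    rw [← mul_assoc, ← Real.rpow_add hε', show κ + (1 - κ) = 1 by ring, Real.rpow_one]
  rw [e, mul_comm c]
  exact mul_le_mul_of_nonneg_left h2.le (by positivity)

/-- `rad C ε ≤ c ε^κ` for small `ε` -/
theorem ev_rad (C : ℝ) {κ c : ℝ} (hκ : κ < 1) (hc : 0 < c) :
    ∀ᶠ ε : ℝ in 𝓝[>] 0, rad C ε ≤ c * ε ^ κ := by
  have h1 := ev_log (κ := κ) (a := 1 / 2) (c := c / (|C| + 1)) hκ (by norm_num) (by positivity)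
  filter_upwards [h1, eventually_mem_nhdsWithin] with ε h2 hε
  have hε' : 0 < ε := hε
  rw [← Real.sqrt_eq_rpow] at h2
  unfold rad
  have h3 : 0 ≤ ε * √(Real.log (1 / ε)) := by positivity
  calc C * ε * √(Real.log (1 / ε)) = C * (ε * √(Real.log (1 / ε))) := by ring
    _ ≤ (|C| + 1) * (ε * √(Real.log (1 / ε))) :=
        mul_le_mul_of_nonneg_right (by linarith [le_abs_self C]) h3
    _ ≤ (|C| + 1) * (c / (|C| + 1) * ε ^ κ) := mul_le_mul_of_nonneg_left h2 (by positivity)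
    _ = c * ε ^ κ := by field_simp

/-- `ε ^ κ → 0` -/
theorem ev_pow {κ c : ℝ} (hκ : 0 < κ) (hc : 0 < c) : ∀ᶠ ε : ℝ in 𝓝[>] 0, ε ^ κ ≤ c := by
  have h2 : Tendsto (fun ε : ℝ => ε ^ κ) (𝓝 0) (𝓝 ((0 : ℝ) ^ κ)) :=
    (Real.continuousAt_rpow_const 0 κ (Or.inr hκ.le)).tendsto
  rw [Real.zero_rpow hκ.ne'] at h2
  exact ((h2.mono_left nhdsWithin_le_nhds).eventually_lt_const hc).mono fun _ h => h.le

theorem rad_pos {C ε : ℝ} (hC : 0 < C) (hε : 0 < ε) (hε1 : ε < 1) : 0 < rad C ε := by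
  unfold rad
  have : 0 < Real.log (1 / ε) := Real.log_pos (by rw [lt_div_iff₀ hε]; linarith)
  positivity

/-- the dyadic scale just below `r / 2` -/
theorem exists_dyadic {r : ℝ} (hr : 0 < r) : ∃ k : ℤ, r / 4 < (2 : ℝ) ^ k ∧ (2 : ℝ) ^ k ≤ r / 2 := by
  obtain ⟨k, h1, h2⟩ := exists_mem_Ico_zpow (x := r / 2) (y := 2) (by positivity) (by norm_num)
  refine ⟨k, ?_, h1⟩
  rw [zpow_add₀ (by norm_num), zpow_one] at h2
  linarith

/-! ### rooms -/

variable {D : Dom} {ε d M : ℝ} {ω : Sample}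

/-- the network of a domain in a good environment near a point with room: `RoomE` at the scale `r` -/
theorem roomE_env (hT5 : T5) {δ : ℝ} (hOK : D.W δ) (hd : 0 < d) (h : Env ε d M D.c D.L ω)
    (hdL : 40000 * D.L ^ 5 * d ≤ δ ^ 6)
    (hen : ∀ U ⊆ delT (D.sites ε ω), ∑ t ∈ U, ‖(D.netS (D.sites ε ω)).Q t‖ ^ 2 ≤ 12)
    {x : ℂ} {R : ℝ} (hroom : Spinex422.Room D R x) {r : ℝ} (hrR : r ≤ R)
    (hdr : 32 * d ≤ r) {k0 : ℤ} (hk1 : r / 4 < (2 : ℝ) ^ k0) (hk2 : (2 : ℝ) ^ k0 ≤ r / 2)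
    {C : ℝ} (hC : 0 ≤ C)
    (hM : diamSum (points ε ω) (Metric.ball x ((2 : ℝ) ^ (k0 + 1))) ≤
        ENNReal.ofReal (C * ((2 : ℝ) ^ (k0 + 1)) ^ 2)) :
    RoomE (D.sites ε ω) (D.netS (D.sites ε ω)) x k0 1 (2 * d) (64 * C) := by
  have hN : HNet (D.sites ε ω) (D.netS (D.sites ε ω)) := Adx422.d1 hOK h hdL
  have h4 : 8 * d ≤ D.L := (DomAx722.small_d hOK.Lpos hOK.dpos hOK.lt.le hdL)
  refine RoomE.of (room_of_env hT5 hd h hN hen hroom.1 hroom.2 (k0 := k0) (n := 1) one_pos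
    (by linarith) (by linarith) ?_ hC ?_)
  · rw [Nat.cast_one, zpow_sub_one₀ (by norm_num)]
    linarith
  · intro k hk
    have hk' : k = k0 - 1 := by
      rw [Finset.mem_Ico] at hk
      push_cast at hk
      omega
    rw [hk', show k0 - 1 + 2 = k0 + 1 by ring]
    exact hM

/-- there is a live side at the point `x` -/
theorem exists_liveIn {S : Finset ℂ} {N : Net ℂ} {x : ℂ} {k0 : ℤ} {n : ℕ} {d C : ℝ}
    (h : RoomE S N x k0 n d C) (hd : d ≤ (2 : ℝ) ^ k0) {r0 : ℝ} (hr0 : 0 ≤ r0) :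
    ∃ e, LiveIn S N x r0 e := by
  have hx : x ∈ Metric.closedBall x ((2 : ℝ) ^ k0) := Metric.mem_closedBall_self (by positivity)
  obtain ⟨t, ht, hxt⟩ := h.cov x hx
  obtain ⟨a, b, c⟩ := t
  obtain ⟨o, hT⟩ := mem_delT_iff.1 ht
  have hdm := h.mesh _ ht ⟨x, hxt, hx⟩
  have hhi := hi_le_add (x := x) hT.pos hxt
  have ha : ‖a - x‖ ≤ (2 : ℝ) ^ k0 := by
    have := ((le_max_left _ _).trans (le_max_left _ _)).trans hhi
    rw [sub_self, norm_zero, zero_add] at this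
    exact this.trans (hdm.trans hd)
  refine ⟨(a, b), (a, b, c), ht, ⟨x, hxt, Metric.mem_closedBall_self hr0⟩, ?_, Or.inl rfl⟩
  exact h.live a b c ht a (by rwa [mem_closedBall_iff_norm]) (left_mem_segment ℝ a b)

end Crest.Agent.R143.LowD0x991
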