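import Crest.Agent.R143.Sep3_686

/-!
# Row 143 (S0194), RIG: the fields LOW and DN of the connectors (helper568; on 686's separation)

* `neck_low_nb` : a neighbour of a white site joined to the upper arm of a neck is above `b0`
* `low_left`, `low_right` : the left and right sites of the two arcs at an inner straight gate are
  above `b0`
* `dn_left`, `dn_right` : the lower arm of an inner straight gate contains no left and no right site
  of the arcs
* **`sep_all`** : 686's `sep_chain` for ALL straight inner gates `k ∈ I` at once: the regions of the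
  ring are cut at the level `b0` in the two tiles of every such gate, so `K` may contain the lower
  parts of all straight tiles; the edges of the closed white chain lie in the cut regions; all sites
  of the lower arms have index `-2π`
* `idx_on` : the index is `-2π` on preconnected sets off the cut regions
* **`low_arc`** : a site below the level `b0` at a straight inner gate, off the other regions, is no
  left and no right site of the arcs
* `not_ext` : a site of index `-2π` is not joined to the hull off `Z`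
-/

set_option autoImplicit false

noncomputable section

open scoped Classical

namespace Crest.Agent.R143.LowDx568

open Crest.Agent.R143.B0x346 Crest.Agent.R143.DelGx806 Crest.Agent.R143.DelRx806
open Crest.Agent.R143.ToolWx838 Crest.Agent.R143.Blkx838 Crest.Agent.R143.ToolW2x838
open Crest.Agent.R143.ToolW3x838 Crest.Agent.R143.Gatex838 Crest.Agent.R143.Neckx921
open Crest.Agent.R143.Frame1x395 Crest.Agent.R143.Frame2x395 Crest.Agent.R143.Frame3x395
  Crest.Agent.R143.Frame4x395 Crest.Agent.R143.Frame8x395 Crest.Agent.R143.Frame9x395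
  Crest.Agent.R143.Frame10x395 Crest.Agent.R143.Frame11x395
open Crest.Agent.R143.Frame5x395 (sd mem_sd th th_spec)
open Crest.Agent.R143.Splx117 Crest.Agent.R143.WLocx713 Crest.Agent.R143.RingDx117
  Crest.Agent.R143.CorrDx117
open Crest.Agent.R143.Sepx686
open Crest.Agent.R143.Idxx927 (RingP cyc wl)

variable {S : Finset ℂ} {χ : ℂ → ZMod 2}

/-- **a neighbour of a white site joined to the upper arm is above the level `b0`** -/
theorem neck_low_nb (hS : GP (S : Set ℂ)) {z0 e : ℂ} (he : e ≠ 0) {a0 a1 b0 b1 m x0 x1 : ℝ}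
    {V β : Finset ℂ} {up dn : List ℂ} {y : ℂ} (N : Neck S z0 e a0 a1 b0 b1 m V β up y dn)
    (h0 : x0 ≤ a0) (h1 : a1 ≤ x1) {P : List ℂ} (hP : P ≠ []) (dP : ∀ p ∈ prs P, DE S p.1 p.2)
    (cP : ∀ s ∈ P, s ∈ β) (hPy : ∀ a ∈ P, b0 < Y z0 e a ∧ Y z0 e a < b1)
    (hP0 : X z0 e (P.head hP) ≤ x0) (hP1 : x1 ≤ X z0 e (P.getLast hP)) {W : Set ℂ}
    (hW : ∀ s ∈ W, (x0 < X z0 e s ∧ X z0 e s < x1) ∧ s ∉ β) {r : ℂ}
    (h : Lk S W (up.getLast N.nu) r) {s : ℂ} (hrs : DE S r s)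
    (hs : x0 < X z0 e s ∧ X z0 e s < x1) : b0 < Y z0 e s := by
  have hadj := N.adj
  rw [← isChain_iff_prs, List.isChain_append] at hadj
  obtain ⟨c1, c2, -⟩ := hadj
  have hwin : ∀ s ∈ up ++ y :: dn, x0 < X z0 e s ∧ X z0 e s < x1 := fun s hs =>
    ⟨h0.trans_lt (N.win s hs).1.1, (N.win s hs).1.2.trans_le h1⟩
  have hup : ∀ s ∈ up, x0 < X z0 e s ∧ X z0 e s < x1 := fun s hs =>
    hwin s (List.mem_append_left _ hs)
  set U : Set ℂ := {a | (a ∈ up ∨ a ∈ W) ∨ a = s} with hU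
  have l1 : Lk S U (up.head N.nu) s := by
    refine Lk.trans (v := up.getLast N.nu) ?_
      ((h.mono fun s hs => Or.inl (Or.inr hs)).trans (lk_de ?_ (Or.inr rfl) (Or.inr hrs)))
    · exact lk_list ((isChain_iff_prs (R := DE S) up).1 c1) (fun s hs => Or.inl (Or.inl hs))
        (List.head_mem _) (List.getLast_mem _)
    · exact Or.inl (Or.inr h.1.2)
  by_contra hr
  push Not at hr
  obtain ⟨a, ha1, ha2⟩ := cross_lk hS he hP dP hPy hP0 hP1 (A := U)
    (by
      rintro a ((ha | ha) | ha)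
      · exact hup a ha
      · exact (hW a ha).1
      · rw [ha]; exact hs) l1.symm hr N.top
  rcases ha2 with (ha2 | ha2) | ha2
  · exact (N.cu a ha2).2 (cP a ha1)
  · exact (hW a ha2).2 (cP a ha1)
  · rw [ha2] at ha1
    exact absurd (hPy s ha1).1 (not_lt.2 hr)

/-- a left site has a right neighbour of the same time -/
theorem left_nb (hS : GP (S : Set ℂ)) (hχ : HullC S χ) {e : ℂ × ℂ} (h : Occ S χ e) {m : ℕ} {l : ℂ}
    (hl : l ∈ LS S χ e m) : ∃ r ∈ RS S χ e m, DE S r l := by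
  obtain ⟨i, hi, rfl⟩ := hl
  exact ⟨_, ⟨i, hi, rfl⟩, Or.inr ⟨_, th_spec (h.it hS hχ i).1⟩⟩

section corr

variable {hS : GP (S : Set ℂ)} {hχ : HullC S χ} {n : ℕ} {y z : ℕ → ℂ} {A B : ℕ → Set ℂ}
  {p : ℕ → D0 S} {t : ℕ → ℕ} {k0 : ℕ} {z0 e : ℂ} {a0 a1 b0 b1 m x0 x1 : ℝ} {V β : Finset ℂ}
  {up dn : List ℂ}

/-- the right sites of the two arcs at an inner straight gate are above `b0`; no right site of an arc
is on the lower arm -/
theorem low_right {D : DCorr hS hχ n y z A B p} (T : Back D t)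
    (G : InG S χ n y z A B k0 z0 e a0 a1 b0 b1 m x0 x1 V β up dn) {k : ℕ} (hk : k < n) {r : ℂ}
    (hr : r ∈ RS S χ (p (k + 1)).1 (t k)) :
    r ≠ y k0 ∧ r ∉ dn ∧ (k = k0 ∨ k + 1 = k0 → b0 < Y z0 e r) :=
  T.miss hS G.h2 G.h3 G.he G.neck G.upz G.x0a G.a1x G.β1 G.β2 G.strip G.left G.right G.mid G.farB
    hk hr

/-- **the left sites of the two arcs at an inner straight gate are above `b0`** -/
theorem low_left {D : DCorr hS hχ n y z A B p} (T : Back D t)
    (G : InG S χ n y z A B k0 z0 e a0 a1 b0 b1 m x0 x1 V β up dn) {k : ℕ} (hk : k < n)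
    (hk0 : k = k0 ∨ k + 1 = k0) {l : ℂ} (hl : l ∈ LS S χ (p (k + 1)).1 (t k)) :
    b0 < Y z0 e l := by
  obtain ⟨h2, h3, he, N, hup, h0, h1, hβ, hβ', hA, hX0, hX1, hB, -⟩ := G
  obtain ⟨r, hr, hrl⟩ := left_nb hS hχ (occ_p D (show k + 1 ≤ n by omega)) hl
  obtain ⟨P, hP, dP, mP, P0, P1⟩ := lk_to_list (links4 D h2 h3
    (G := {s | s ∈ β ∧ b0 < Y z0 e s ∧ Y z0 e s < b1})
    (fun j hj hj' s hsS hs hc => ⟨hβ j hj hj' s hsS hs hc, hA j hj hj' s hsS hs⟩))
  have hlk : Lk S (RS S χ (p (k + 1)).1 (t k)) (up.getLast N.nu) r := by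
    rw [hup]
    rcases hk0 with h | h
    · rw [← h]; exact (T.rlk hk hr).2
    · rw [← h]; exact (T.rlk hk hr).1
  exact neck_low_nb hS he N h0 h1 hP dP (fun s hs => (mP s hs).1)
    (fun s hs => (mP s hs).2) (by rw [P0]; exact hX0) (by rw [P1]; exact hX1)
    (W := RS S χ (p (k + 1)).1 (t k))
    (fun s hs => ⟨hB k (by omega) (by omega) s (RS_S D hk hs) (T.rB k hk hs),
      fun h => T.rcol hk hs (hβ' s h)⟩) hlk hrl (hB k (by omega) (by omega) l (LS_S D hk hl)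
      (T.lB k hk hl))

/-- **the lower arm of an inner straight gate contains no left site of the arcs** -/
theorem dn_left {D : DCorr hS hχ n y z A B p} (T : Back D t)
    (G : InG S χ n y z A B k0 z0 e a0 a1 b0 b1 m x0 x1 V β up dn)
    (hw : ∀ s ∈ dn, b0 < Y z0 e s → χ s ≠ χ (y 0)) {k : ℕ} (hk : k < n) {l : ℂ}
    (hl : l ∈ LS S χ (p (k + 1)).1 (t k)) : l ∉ dn := by
  intro h
  by_cases hk0 : k = k0 ∨ k + 1 = k0
  · exact hw l h (low_left T G hk hk0 hl) (T.lcol hk hl)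
  · push Not at hk0
    exact G.farB k hk hk0.1 hk0.2 l h (T.lB k hk hl)

/-- **a site below the level `b0` at an inner straight gate, off the other regions, is no left and no
right site of the arcs** -/
theorem low_arc {D : DCorr hS hχ n y z A B p} (T : Back D t)
    (G : InG S χ n y z A B k0 z0 e a0 a1 b0 b1 m x0 x1 V β up dn) {s : ℂ} (hs : Y z0 e s ≤ b0)
    (hf : ∀ j, j < n → j ≠ k0 → j + 1 ≠ k0 → s ∉ B j) {k : ℕ} (hk : k < n) :
    s ∉ LS S χ (p (k + 1)).1 (t k) ∧ s ∉ RS S χ (p (k + 1)).1 (t k) := by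
  by_cases hk0 : k = k0 ∨ k + 1 = k0
  · exact ⟨fun h => absurd (low_left T G hk hk0 h) (not_lt.2 hs),
      fun h => absurd ((low_right T G hk h).2.2 hk0) (not_lt.2 hs)⟩
  · push Not at hk0
    exact ⟨fun h => hf k hk hk0.1 hk0.2 (T.lB k hk h), fun h => hf k hk hk0.1 hk0.2 (T.rB k hk h)⟩

/-! ### all straight inner gates -/

/-- the region of the piece `j`, cut at the level `b0` at the straight inner gates `k ∈ I` -/
def cutR (I : Set ℕ) (gz ge : ℕ → ℂ) (b0 : ℕ → ℝ) (RR : ℕ → Set ℂ) (j : ℕ) : Set ℂ :=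
  {w | w ∈ RR j ∧ ∀ k ∈ I, (j = k ∨ j + 1 = k) → b0 k < Y (gz k) (ge k) w}

/-- a point below the level `b0` of a straight inner gate, off the other regions, is off the cut
regions -/
theorem off_cut {I : Set ℕ} {gz ge : ℕ → ℂ} {b0 : ℕ → ℝ} {RR : ℕ → Set ℂ} {k j : ℕ} (hk : k ∈ I)
    {w : ℂ} (h : w ∈ RR j → j = k ∨ j + 1 = k) (hY : Y (gz k) (ge k) w ≤ b0 k) :
    w ∉ cutR I gz ge b0 RR j := fun h' => absurd (h'.2 k hk (h h'.1)) (not_lt.2 hY)

/-- a point off the region is off the cut region -/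
theorem off_cut' {I : Set ℕ} {gz ge : ℕ → ℂ} {b0 : ℕ → ℝ} {RR : ℕ → Set ℂ} {j : ℕ} {w : ℂ}
    (h : w ∉ RR j) : w ∉ cutR I gz ge b0 RR j := fun h' => h h'.1

theorem Y_seg {z0 e u v w : ℂ} {b : ℝ} (hu : b < Y z0 e u) (hv : b < Y z0 e v)
    (hw : w ∈ segment ℝ u v) : b < Y z0 e w := by
  obtain ⟨s, t', hs, ht, hst, rfl⟩ := hw
  have e1 : Y z0 e (s • u + t' • v) = s * Y z0 e u + t' * Y z0 e v := by
    unfold Y
    have hs' : s = 1 - t' := by linarith
    subst hs'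
    have : (((1 - t' : ℝ) • u + t' • v - z0) / e : ℂ) =
        ((1 - t' : ℝ) : ℂ) * ((u - z0) / e) + (t' : ℂ) * ((v - z0) / e) := by
      simp only [Complex.real_smul]
      push_cast
      field_simp
      ring
    rw [this, Complex.add_im, Complex.im_ofReal_mul, Complex.im_ofReal_mul]
  rw [e1]
  rcases hs.lt_or_eq with hs0 | hs0
  · have k1 := mul_lt_mul_of_pos_left hu hs0
    have k2 := mul_le_mul_of_nonneg_left hv.le ht
    have k3 : s * b + t' * b = b := by rw [← add_mul, hst, one_mul]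
    linarith
  · have k3 : t' = 1 := by linarith
    rw [← hs0, k3]
    linarith

/-- **SEP for all straight inner gates** -/
theorem sep_all (D : DCorr hS hχ n y z A B p) (T : Back D t) {N : ℕ} (hN : 3 ≤ N)
    -- the straight inner gates
    {I : Set ℕ} {gz ge : ℕ → ℂ} {a0 a1 b0 b1 m x0 x1 : ℕ → ℝ} {V β : ℕ → Finset ℂ}
    {up dn : ℕ → List ℂ}
    (G : ∀ k ∈ I, InG S χ n y z A B k (gz k) (ge k) (a0 k) (a1 k) (b0 k) (b1 k) (m k) (x0 k)
      (x1 k) (V k) (β k) (up k) (dn k))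
    -- white links of the closing tiles
    {x : ℕ → ℂ} (hxz : ∀ k, k ≤ n → x k = z k) (hxN : ∀ j, x (j + N) = x j) {W : ℕ → Set ℂ}
    (hW : ∀ j, n ≤ j → j < N → Lk S (W j) (x j) (x (j + 1)))
    (hWS : ∀ j, n ≤ j → j < N → ∀ s ∈ W j, s ∈ S ∧ χ s ≠ χ (y 0) ∧ ∀ k ∈ I, s ∉ dn k)
    -- regions
    {RR : ℕ → Set ℂ}
    (hsB : ∀ j, j < n → ∀ u v, DE S u v → u ∈ B j → v ∈ B j → segment ℝ u v ⊆ RR j)
    (hsW : ∀ j, n ≤ j → j < N → ∀ u v, DE S u v → u ∈ W j → v ∈ W j → segment ℝ u v ⊆ RR j)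
    -- the extreme gate `k1 + 1`
    {k1 : ℕ} {z1 e1 : ℂ} (he1 : e1 ≠ 0) {y0 y1 : ℝ} (h01 : y0 ≤ y1)
    (hM : ∀ j, j = k1 % N ∨ j = (k1 + 1) % N → ∀ s ∈ S, (j < n → s ∈ B j) → (n ≤ j → s ∈ W j) →
      y0 < Y z1 e1 s ∧ Y z1 e1 s < y1)
    (ha : X z1 e1 (x k1) < 0) (hb : 0 < X z1 e1 (x (k1 + 2)))
    (hWl : ∀ j, k1 + 2 ≤ j → j < k1 + N → ∀ t, y0 ≤ t → t ≤ y1 → wl z1 e1 t ∉ RR (j % N))
    (hray : ∀ j, j < N → ∀ t, y1 ≤ t → wl z1 e1 t ∉ RR j)
    -- the inner side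
    {K : Set ℂ} (hK : IsPreconnected K)
    (hKR : ∀ w ∈ K, ∀ j, j < N → w ∉ cutR I gz ge b0 RR j)
    (hw : wl z1 e1 y0 ∈ K) {k0 : ℕ} (hk0 : k0 ∈ I) (hdn : (dn k0).getLast (G k0 hk0).neck.nd ∈ K) :
    ∃ cw : List ℂ, Loop S cw ∧ (∀ s ∈ cw, s ∈ S) ∧ (∀ s ∈ cw, χ s ≠ χ (y 0)) ∧
      (∀ s ∈ cw, (∃ k, k < n ∧ s ∈ RS S χ (p (k + 1)).1 (t k)) ∨ ∃ j, n ≤ j ∧ j < N ∧ s ∈ W j) ∧
      (∀ q ∈ prs cw, ∃ j, j < N ∧ segment ℝ q.1 q.2 ⊆ cutR I gz ge b0 RR j) ∧
      (∀ w ∈ K, asum w cw = -(2 * Real.pi)) ∧ (∀ k, k ≤ n → asum (y k) cw = -(2 * Real.pi)) ∧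
      (∀ k, k < n → ∀ s ∈ LS S χ (p (k + 1)).1 (t k), asum s cw = -(2 * Real.pi)) ∧
      ∀ k ∈ I, ∀ s ∈ dn k, s ∉ cw ∧ asum s cw = -(2 * Real.pi) := by
  -- the pieces
  have hQ : ∀ j, j < N → Lk S (QQ S χ n p t W j) (x j) (x (j + 1)) := by
    intro j hj
    unfold QQ
    split_ifs with hjn
    · rw [hxz j (by omega), hxz (j + 1) (by omega)]
      have ho := occ_p D (show j + 1 ≤ n by omega)
      have h1 := (right_lk hS hχ ho (t j)).1
      rw [T.arr j hjn, D.st j (by omega)] at h1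
      rw [show (p (j + 1)).1.2 = z (j + 1) by rw [D.st (j + 1) (by omega)]] at h1
      exact h1.symm
    · exact hW j (by omega) hj
  obtain ⟨P, H, hl, hmem, hPQ⟩ := exists_pieces (RR := cutR I gz ge b0 RR) hN hxN hQ (by
    intro j hj u v hde hu hv w hw'
    unfold QQ at hu hv
    by_cases hjn : j < n
    · rw [if_pos hjn] at hu hv
      refine ⟨hsB j hjn u v hde (T.rB j hjn hu) (T.rB j hjn hv) hw', fun k hk hj0 => ?_⟩
      exact Y_seg ((low_right T (G k hk) hjn hu).2.2 hj0) ((low_right T (G k hk) hjn hv).2.2 hj0)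
        hw'
    · rw [if_neg hjn] at hu hv
      refine ⟨hsW j (by omega) hj u v hde hu hv hw', fun k hk hj0 => ?_⟩
      have h3 := (G k hk).h3
      omega)
  have hcS : ∀ s ∈ cyc N P, s ∈ S := by
    intro s hs
    obtain ⟨j, hj, h⟩ := hmem s hs
    unfold QQ at h
    by_cases hjn : j < n
    · rw [if_pos hjn] at h; exact RS_S D hjn h
    · rw [if_neg hjn] at h; exact (hWS j (by omega) hj s h).1
  have hcc : ∀ s ∈ cyc N P, χ s ≠ χ (y 0) := by
    intro s hs
    obtain ⟨j, hj, h⟩ := hmem s hs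
    unfold QQ at h
    by_cases hjn : j < n
    · rw [if_pos hjn] at h; exact T.rcol hjn h
    · rw [if_neg hjn] at h; exact (hWS j (by omega) hj s h).2.1
  have hdnc : ∀ k ∈ I, ∀ s ∈ dn k, s ∉ cyc N P := by
    intro k hk s hsd hs
    obtain ⟨j, hj, h⟩ := hmem s hs
    unfold QQ at h
    by_cases hjn : j < n
    · rw [if_pos hjn] at h; exact (low_right T (G k hk) hjn h).2.1 hsd
    · rw [if_neg hjn] at h; exact (hWS j (by omega) hj s h).2.2 k hk hsd
  have hKi : ∀ w ∈ K, asum w (cyc N P) = -(2 * Real.pi) := by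
    intro w hwK
    refine H.index (z0 := z1) he1 h01 k1 ?_ ha hb ?_ ?_ hK hKR hw hwK
    · intro s hs
      have key : ∀ j, s ∈ P (j % N) → j % N = k1 % N ∨ j % N = (k1 + 1) % N →
          y0 < Y z1 e1 s ∧ Y z1 e1 s < y1 := by
        intro j hsj hj1
        have hjN : j % N < N := Nat.mod_lt _ (by omega)
        have hq := hPQ _ hjN s hsj
        have hsS : s ∈ S := hcS s (H.mem.2 ⟨_, hjN, hsj⟩)
        refine hM _ hj1 s hsS ?_ ?_
        · intro hjn
          unfold QQ at hq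
          rw [if_pos hjn] at hq
          exact T.rB _ hjn hq
        · intro hjn
          unfold QQ at hq
          rwa [if_neg (by omega)] at hq
      rcases hs with hs | hs
      · rw [Idxx927.per_mod H] at hs
        exact key k1 hs (Or.inl rfl)
      · rw [Idxx927.per_mod H] at hs
        exact key (k1 + 1) hs (Or.inr rfl)
    · intro j h1 h4 t1 h5 h6 h7
      exact hWl j h1 h4 t1 h5 h6 h7.1
    · intro j hj t1 h5 h7
      exact hray j hj t1 h5 h7.1
  have hy0 : asum (y k0) (cyc N P) = -(2 * Real.pi) := by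
    rw [neck_idx hS (G k0 hk0).neck hl
      (fun h => hcc _ h (col_y D (by have := (G k0 hk0).h3; omega))) (hdnc k0 hk0)]
    exact hKi _ hdn
  have hyk : ∀ k, k ≤ n → asum (y k) (cyc N P) = -(2 * Real.pi) := by
    intro k hk
    rw [idx_y D hl hcc hk, ← idx_y D hl hcc (show k0 ≤ n by have := (G k0 hk0).h3; omega), hy0]
  refine ⟨cyc N P, hl, hcS, hcc, ?_, ?_, hKi, hyk, ?_, ?_⟩
  · intro s hs
    obtain ⟨j, hj, h⟩ := hmem s hs
    unfold QQ at h
    by_cases hjn : j < n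
    · rw [if_pos hjn] at h; exact Or.inl ⟨j, hjn, h⟩
    · rw [if_neg hjn] at h; exact Or.inr ⟨j, by omega, hj, h⟩
  · intro q hq
    obtain ⟨j, hj, h⟩ := H.prs.1 hq
    exact ⟨j, hj, fun w hw => H.reg j hj q h w hw⟩
  · intro k hk s hs
    rw [T.idx_left hl hcc hk hs, hyk k hk.le]
  · intro k hk s hs
    refine ⟨hdnc k hk s hs, ?_⟩
    have hadj := (G k hk).neck.adj
    rw [← isChain_iff_prs, List.isChain_append] at hadj
    have h1 : Lk S {s | s ∈ y k :: dn k} (y k) s :=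
      lk_list ((isChain_iff_prs (R := DE S) (y k :: dn k)).1 hadj.2.1) (fun s hs => hs) (by simp)
        (List.mem_cons_of_mem _ hs)
    have hkn : k ≤ n := by have := (G k hk).h3; omega
    rw [← hyk k hkn]
    refine (asum_lk hS hl (fun s' hs' => ?_) h1).symm
    rcases List.mem_cons.1 hs' with h | h
    · rw [h]; exact fun h' => hcc _ h' (col_y D hkn)
    · exact hdnc k hk s' h

/-- **the index is `-2π` on preconnected sets off the cut regions which contain one such point** -/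
theorem idx_on {N : ℕ} {I : Set ℕ} {gz ge : ℕ → ℂ} {b0 : ℕ → ℝ} {RR : ℕ → Set ℂ} {cw : List ℂ}
    (hl : Loop S cw)
    (hseg : ∀ q ∈ prs cw, ∃ j, j < N ∧ segment ℝ q.1 q.2 ⊆ cutR I gz ge b0 RR j)
    {K : Set ℂ} (hK : IsPreconnected K) (hKR : ∀ w ∈ K, ∀ j, j < N → w ∉ cutR I gz ge b0 RR j)
    {v w : ℂ} (hv : v ∈ K) (hw : w ∈ K) : asum v cw = asum w cw :=
  asum_const hl.closed hK (fun u hu q hq hz => by
    obtain ⟨j, hj, h⟩ := hseg q hq
    exact hKR u hu j hj (h hz)) hv hw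

/-- **a site of nonzero index is not joined to the hull off `Z`**, cells form: `Z` contains the cells
of the right sites of the arcs and of the white sites of the closing tiles -/
theorem not_ext {N : ℕ} {W : ℕ → Set ℂ} {cw : List ℂ} (hl : Loop S cw) (hcS : ∀ s ∈ cw, s ∈ S)
    (hcm : ∀ s ∈ cw, (∃ k, k < n ∧ s ∈ RS S χ (p (k + 1)).1 (t k)) ∨ ∃ j, n ≤ j ∧ j < N ∧ s ∈ W j)
    {Z : Set (Quot (hullE S))}
    (hZ1 : ∀ k, k < n → ∀ s ∈ RS S χ (p (k + 1)).1 (t k), (Quot.mk _ s : Quot (hullE S)) ∈ Z)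
    (hZ2 : ∀ j, n ≤ j → j < N → ∀ s ∈ W j, (Quot.mk _ s : Quot (hullE S)) ∈ Z) {v w : ℂ}
    (h0 : asum v cw = -(2 * Real.pi)) (hvi : ¬ OnHull S v) (hw : OnHull S w) :
    ¬ OffZ (cm0 hS) Z (Quot.mk _ v) (Quot.mk _ w) := by
  refine sep_hull hS hl hcS (fun s hs => ?_) hvi ?_ hw
  · rcases hcm s hs with ⟨k, hk, h⟩ | ⟨j, hj, hj', h⟩
    · exact hZ1 k hk s h
    · exact hZ2 j hj hj' s h
  · rw [h0]
    have := Real.pi_pos
    intro h
    linarith

end corr

end Crest.Agent.R143.LowDx568
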