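import Mathlib

/-!
# Row 143 (S0194), leaf LOW: numerics (helper991)

`low_num` : the lower bound of part (i), squared and divided by `C1`, is at least `r ^ A` for small
`r`; `A` depends only on the constants.
-/

set_option autoImplicit false

noncomputable section

namespace Crest.Agent.R143.LowNx991

open Set MeasureTheory Filter Topology

theorem low_num {B ρ C1 : ℝ} (hB : 0 ≤ B) (hρ : 0 < ρ) (hC1 : 0 < C1) :
    ∃ A r1 : ℝ, 0 < A ∧ 0 < r1 ∧ ∀ r : ℝ, 0 < r → r ≤ r1 → ∀ k1 k2 : ℤ,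
      r / 32 < (2 : ℝ) ^ k1 → (2 : ℝ) ^ k2 < 2 * ρ →
      r ^ A ≤ (1 / 4 * Real.exp (-(1 + B * ((k2 - k1 + 2 : ℤ) : ℝ)))) ^ 2 / C1 := by
  set s : ℝ := B / Real.log 2 with hs
  have hl2 : 0 < Real.log 2 := Real.log_pos (by norm_num)
  have hs0 : 0 ≤ s := by positivity
  set c0 : ℝ := (1 / 4 * Real.exp (-1) * (1 / (256 * ρ)) ^ s) ^ 2 / C1 with hc0
  have hc0p : 0 < c0 := by positivity
  refine ⟨2 * s + 1, min c0 1, by positivity, by positivity, ?_⟩
  intro r hr hr1 k1 k2 hk1 hk2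
  have h1 : ((k2 - k1 + 2 : ℤ) : ℝ) * Real.log 2 ≤ Real.log (256 * ρ / r) := by
    rw [← Real.log_zpow]
    apply Real.log_le_log (by positivity)
    rw [zpow_add₀ (by norm_num), zpow_sub₀ (by norm_num), le_div_iff₀ hr, div_mul_eq_mul_div,
      div_mul_eq_mul_div, div_le_iff₀ (by positivity)]
    have e : (2 : ℝ) ^ (2 : ℤ) = 4 := by norm_num
    rw [e]
    have hk2p : (0 : ℝ) < (2 : ℝ) ^ k2 := by positivity
    have hk1p : (0 : ℝ) < (2 : ℝ) ^ k1 := by positivity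
    calc (2 : ℝ) ^ k2 * 4 * r ≤ (2 * ρ) * 4 * r := by gcongr
      _ = (256 * ρ) * (r / 32) := by ring
      _ ≤ (256 * ρ) * (2 : ℝ) ^ k1 := by gcongr
  have h2 : B * ((k2 - k1 + 2 : ℤ) : ℝ) ≤ s * Real.log (256 * ρ / r) := by
    have h3 := mul_le_mul_of_nonneg_left h1 hs0
    have e : s * (((k2 - k1 + 2 : ℤ) : ℝ) * Real.log 2) = B * ((k2 - k1 + 2 : ℤ) : ℝ) := by
      rw [hs]; field_simp
    rwa [e] at h3
  have h4 : Real.exp (-1) * (1 / (256 * ρ)) ^ s * r ^ s ≤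
      Real.exp (-(1 + B * ((k2 - k1 + 2 : ℤ) : ℝ))) := by
    have e : Real.exp (-1) * (1 / (256 * ρ)) ^ s * r ^ s =
        Real.exp (-(1 + s * Real.log (256 * ρ / r))) := by
      rw [neg_add, Real.exp_add, mul_assoc, ← Real.mul_rpow (by positivity) hr.le]
      congr 1
      rw [← mul_neg, ← Real.log_inv, mul_comm s, ← Real.rpow_def_of_pos (by positivity)]
      congr 1
      field_simp
    rw [e]
    exact Real.exp_le_exp.mpr (by linarith)
  have h5 : c0 * r ^ (2 * s) ≤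
      (1 / 4 * Real.exp (-(1 + B * ((k2 - k1 + 2 : ℤ) : ℝ)))) ^ 2 / C1 := by
    have e : c0 * r ^ (2 * s) =
        (1 / 4 * (Real.exp (-1) * (1 / (256 * ρ)) ^ s * r ^ s)) ^ 2 / C1 := by
      rw [hc0, show (2 : ℝ) * s = s * 2 by ring, Real.rpow_mul hr.le, Real.rpow_two]
      ring
    rw [e]
    gcongr
  refine le_trans ?_ h5
  rw [Real.rpow_add hr, Real.rpow_one, mul_comm]
  exact mul_le_mul_of_nonneg_right (hr1.trans (min_le_left _ _)) (by positivity)

end Crest.Agent.R143.LowNx991
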