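import Crest.Agent.R143.LowD0_991
import Crest.Agent.R143.LowN_991

/-!
# Row 143 (S0194), leaf LOW: assembly (helper991)

* `OscD` : part (i) (T6 for domains): the oscillation of the observable on the small disc is at least
  a power of the radius
* `low` : `T5 → ENB → OscD → LOW`
-/

set_option autoImplicit false

noncomputable section

namespace Crest.Agent.R143.LowDx991

open Set MeasureTheory Filter Topology
open scoped Classical
open Crest.ProbabilityR.Voronoi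
open Crest.Agent.R143.B0x346 Crest.Agent.R143.B0Dx346 Crest.Agent.R143.EQ4x63
open Crest.Agent.R143.PP1x831 Crest.Agent.R143.Lowx991 Crest.Agent.R143.LowD0x991
open Crest.Agent.R143.LowNx991 Crest.Agent.R143.B6Ix903
open Crest.Agent.R143.B1bx796 (touch)

/-- **part (i)** : lower bound of the oscillation (T6 for domains) -/
def OscD : Prop := ∀ (π : Par) (δ θ ρ μ : ℝ), 0 < δ → 0 < θ → 0 < ρ → 0 < μ →
  ∃ B : ℝ, 0 ≤ B ∧ ∀ κ : ℝ, 0 < κ → κ < 1 / 2 →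
  ∀ᶠ ε : ℝ in 𝓝[>] 0, ∀ (D : Dom) (ω : Sample) (z : ℂ), At π δ ε D ω z → Sec3 D z θ ρ μ →
    ∀ k1 k2 : ℤ, (2 : ℝ) ^ k1 ≤ ε ^ κ / 16 → ε ^ κ / 32 < (2 : ℝ) ^ k1 → ρ ≤ (2 : ℝ) ^ k2 →
    (2 : ℝ) ^ k2 < 2 * ρ →
    ∀ e0, LiveIn (D.sites ε ω) (net D ε ω) z (ε ^ κ / 16) e0 →
      ∃ e, LiveIn (D.sites ε ω) (net D ε ω) z (ε ^ κ / 16) e ∧
        1 / 4 * Real.exp (-(1 + B * ((k2 - k1 + 2 : ℤ) : ℝ))) ≤
          ‖(net D ε ω).F e.1 e.2 - (net D ε ω).F e0.1 e0.2‖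

/-- the dyadic scale just above `ρ` -/
theorem exists_above {ρ : ℝ} (hρ : 0 < ρ) : ∃ k : ℤ, ρ ≤ (2 : ℝ) ^ k ∧ (2 : ℝ) ^ k < 2 * ρ := by
  obtain ⟨k, h1, h2⟩ := exists_mem_Ioc_zpow (x := ρ) (y := 2) hρ (by norm_num)
  refine ⟨k + 1, h2, ?_⟩
  rw [zpow_add₀ (by norm_num), zpow_one]
  linarith

theorem exists_below {r : ℝ} (hr : 0 < r) : ∃ k : ℤ, (2 : ℝ) ^ k ≤ r / 16 ∧ r / 32 < (2 : ℝ) ^ k := by
  obtain ⟨k, h1, h2⟩ := exists_mem_Ico_zpow (x := r / 16) (y := 2) (by positivity) (by norm_num)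
  refine ⟨k, h1, ?_⟩
  rw [zpow_add₀ (by norm_num), zpow_one] at h2
  linarith

/-- **the leaf `LOW`** -/
theorem low (hT5 : T5) (hE : ENB) (hO : OscD) : LOW := by
  intro π δ θ ρ μ hδ hθ hρ hμ
  obtain ⟨B, hB, hO⟩ := hO π δ θ ρ μ hδ hθ hρ hμ
  have hC4 := π.C4pos
  set C1 : ℝ := 3 * ((64 * π.C4) * (Real.sqrt (64 * π.C4) + 2)) with hC1
  have hC1p : 0 < C1 := by positivity
  obtain ⟨A, r1, hA, hr1, hnum⟩ := low_num hB hρ hC1p
  refine ⟨A, hA, ?_⟩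
  intro κ hκ hκ1
  have hc0 : 0 < δ ^ 6 / (40000 * π.L ^ 5) := by have := π.Lpos; positivity
  have f1 := ev_rad π.C (κ := κ) (c := 1 / 64) (by linarith) (by norm_num)
  have f2 := ev_rad π.C (κ := 0) (c := δ ^ 6 / (40000 * π.L ^ 5)) (by norm_num) hc0
  have f3 := ev_log (κ := κ) (a := π.a) (c := 1 / 4) (by linarith) π.apos (by norm_num)
  have f4 := ev_pow (κ := κ) (c := min (min r1 π.R) 1) hκ (by
    have := π.Rpos; positivity)
  have f5 : ∀ᶠ ε : ℝ in 𝓝[>] 0, ε < 1 := nhdsWithin_le_nhds (eventually_lt_nhds one_pos)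
  filter_upwards [hO κ hκ hκ1, hE π δ hδ, f1, f2, f3, f4, f5, eventually_mem_nhdsWithin] with ε
    g1 g2 g3 g4 g5 g6 g7 g8 D ω z _ hAt hSec
  have hε : 0 < ε := g8
  set r := ε ^ κ with hr
  have hr0 : 0 < r := Real.rpow_pos_of_pos hε _
  have hrr1 : r ≤ r1 := g6.trans ((min_le_left _ _).trans (min_le_left _ _))
  have hrR : r ≤ π.R := g6.trans ((min_le_left _ _).trans (min_le_right _ _))
  have hr1' : r ≤ 1 := g6.trans (min_le_right _ _)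
  set d := rad π.C ε with hd
  have hd0 : 0 < d := rad_pos π.Cpos hε g7
  rw [Real.rpow_zero, mul_one] at g4
  have hLp := hAt.ok.w.Lpos
  have hdL : 40000 * D.L ^ 5 * d ≤ δ ^ 6 := by
    rw [le_div_iff₀ (by have := π.Lpos; positivity)] at g4
    have h1 : D.L ^ 5 ≤ π.L ^ 5 := pow_le_pow_left₀ hLp.le hAt.len 5
    calc 40000 * D.L ^ 5 * d ≤ 40000 * π.L ^ 5 * d := by gcongr
      _ ≤ δ ^ 6 := by linarith
  obtain ⟨k0, hk1, hk2⟩ := exists_dyadic hr0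
  obtain ⟨k1, hk3, hk4⟩ := exists_below hr0
  obtain ⟨k2, hk5, hk6⟩ := exists_above hρ
  have hk01 : (2 : ℝ) ^ (k0 + 1) = 2 * (2 : ℝ) ^ k0 := by
    rw [zpow_add₀ (by norm_num), zpow_one]; ring
  have hk0m : (2 : ℝ) ^ (k0 - 1) = (2 : ℝ) ^ k0 / 2 := by
    rw [zpow_sub_one₀ (by norm_num)]; ring
  have hzD : z ∈ Metric.closedBall D.c D.L := by
    have h1 := hAt.room.2 (Metric.mem_closedBall_self π.Rpos.le)
    exact Metric.closedBall_subset_closedBall (by linarith) h1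
  have hRm := roomE_env hT5 hAt.ok.w hd0 hAt.good.env hdL
    (fun U hU => (Finset.sum_le_sum_of_subset_of_nonneg hU fun t _ _ => sq_nonneg _).trans
      (g2 D ω z hAt)) hAt.room hrR (by linarith) hk1 hk2 hC4.le
    (hAt.good.diam z hzD _ (by rw [hk01]; linarith) (by rw [hk01]; linarith))
  obtain ⟨e0, he0⟩ := exists_liveIn hRm (by linarith) (show 0 ≤ r / 16 by positivity)
  obtain ⟨e, he, hosc⟩ := g1 D ω z hAt hSec k1 k2 hk3 hk4 hk5 hk6 e0 he0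
  have hgp := Locx922.Env.gp_sites hAt.good.env
  have hlow := low_asm hgp hRm (r := r) (by linarith) (r0 := r / 16) (by rw [hk0m]; linarith) he he0
    (b := 1 / 4 * Real.exp (-(1 + B * ((k2 - k1 + 2 : ℤ) : ℝ)))) (by positivity) hosc hC1p le_rfl
  exact (hnum r hr0 hrr1 k1 k2 hk4 hk6).trans hlow

end Crest.Agent.R143.LowDx991
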