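import Crest.Agent.R143.EQ4_63

/-!
# Row 143 (S0194), leaf LOW: M4 at all scales for the triangles which meet a disc (helper991)

* `sum_V` : the sum of the squares of the longest sides over the triangles which meet `V`
* `m4_U` : for the triangles which meet the disc `closedBall x ρ` (in the big disc), at every dyadic
  scale `k` (small scales from M4, large scales by a finite cover with balls of radius `1 / 2`)
-/

set_option autoImplicit false

noncomputable section

namespace Crest.Agent.R143.M4Ux991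

open Set MeasureTheory
open scoped Classical ENNReal
open Crest.ProbabilityR.Voronoi
open Crest.Agent.R143.B0x346 Crest.Agent.R143.B0Dx346 Crest.Agent.R143.Oscx63
open Crest.Agent.R143.DelGx806 Crest.Agent.R143.Circx63 Crest.Agent.R143.Scalx63
open Crest.Agent.R143.EQ2x63 Crest.Agent.R143.EQ4x63 Crest.Agent.R143.Locx922
open Crest.Agent.R143.PP1x831

variable {D : Dom} {ε d M : ℝ} {ω : Sample}

/-- the sum of the squares of the longest sides of the triangles which meet `V` -/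
theorem sum_V (hd : 0 < d) (h : Env ε d M D.c D.L ω) {V W : Set ℂ}
    (hV : V ⊆ Metric.closedBall D.c (D.L - 2 * d))
    (hW : ∀ v ∈ V, Metric.ball v (2 * d) ⊆ W) :
    ENNReal.ofReal (∑ t ∈ (delT (D.sites ε ω)).filter (fun t => (cT t ∩ V).Nonempty), dm t ^ 2) ≤
      4 * diamSum (points ε ω) W := by
  set F := (delT (D.sites ε ω)).filter (fun t => (cT t ∩ V).Nonempty) with hF
  set P : Set (ℂ × ℂ × ℂ) := {t : ℂ × ℂ × ℂ | Del (points ε ω) t.1 t.2.1 t.2.2 ∧
    ((voronoiCell (points ε ω) t.1 ∪ voronoiCell (points ε ω) t.2.1 ∪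
      voronoiCell (points ε ω) t.2.2) ∩ W).Nonempty} with hP
  -- every triangle of `F`
  have key : ∀ t ∈ F, t ∈ P ∧
      ENNReal.ofReal (dm t ^ 2) ≤ 4 * (Metric.ediam (voronoiCell (points ε ω) t.1)) ^ 2 := by
    rintro ⟨a, b, c⟩ ht
    rw [hF, Finset.mem_filter] at ht
    obtain ⟨htS, y, hy, hyV⟩ := ht
    obtain ⟨o', hT⟩ := mem_delT_iff.1 htS
    have hyW : y ∈ Metric.closedBall D.c (D.L - 2 * d) := hV hyV
    have hyT : InT y a b c := hy
    have hDel : Del (points ε ω) a b c := (Env.mem_delT hd h hyW hyT).1 htS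
    obtain ⟨o, h1, h2, h3, h4, h5, ga, gb, gc⟩ := del_small hd (Env.hol h) hyW
      (InT.inD hT.pos hyT) hDel
    constructor
    · refine ⟨hDel, a, Or.inl (Or.inl ?_), ?_⟩
      · intro s hs
        simp
      · apply hW y hyV
        rw [mem_ball_iff_norm]
        exact ga
    · have hdm : dm (a, b, c) ≤ 2 * ‖a - o‖ := dm_le le_rfl h1.le h2.le
      have hdm0 : 0 ≤ dm (a, b, c) := le_max_of_le_right (norm_nonneg _)
      have ha : a ∈ voronoiCell (points ε ω) a := fun s hs => by simp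
      have ho : o ∈ voronoiCell (points ε ω) a := by
        intro s hs
        rw [norm_sub_rev o a, norm_sub_rev o s]
        exact h3 s hs
      have h6 : ENNReal.ofReal ‖a - o‖ ≤ Metric.ediam (voronoiCell (points ε ω) a) := by
        have := Metric.edist_le_ediam_of_mem ha ho
        rwa [edist_dist, dist_eq_norm] at this
      calc ENNReal.ofReal (dm (a, b, c) ^ 2) ≤ ENNReal.ofReal (4 * ‖a - o‖ ^ 2) := by
            apply ENNReal.ofReal_le_ofReal
            nlinarith [norm_nonneg (a - o)]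
        _ = 4 * (ENNReal.ofReal ‖a - o‖) ^ 2 := by
            rw [ENNReal.ofReal_mul (by norm_num), ENNReal.ofReal_pow (norm_nonneg _)]
            norm_num
        _ ≤ 4 * (Metric.ediam (voronoiCell (points ε ω) a)) ^ 2 := by gcongr
  have hsum : ∑ t ∈ F, ENNReal.ofReal (dm t ^ 2) ≤ 4 * diamSum (points ε ω) W := by
    have e1 : diamSum (points ε ω) W =
        ∑' t : ℂ × ℂ × ℂ, P.indicator
          (fun t => (Metric.ediam (voronoiCell (points ε ω) t.1)) ^ 2) t := by
      rw [← tsum_subtype]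
      rfl
    rw [e1]
    calc ∑ t ∈ F, ENNReal.ofReal (dm t ^ 2)
        ≤ ∑ t ∈ F, 4 * P.indicator
          (fun t => (Metric.ediam (voronoiCell (points ε ω) t.1)) ^ 2) t := by
          apply Finset.sum_le_sum
          intro t ht
          rw [Set.indicator_of_mem (key t ht).1]
          exact (key t ht).2
      _ = 4 * ∑ t ∈ F, P.indicator
          (fun t => (Metric.ediam (voronoiCell (points ε ω) t.1)) ^ 2) t := by
          rw [Finset.mul_sum]
      _ ≤ _ := by
          gcongr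
          exact ENNReal.sum_le_tsum _
  rw [ENNReal.ofReal_sum_of_nonneg fun t _ => sq_nonneg _]
  exact hsum

/-- real form -/
theorem sum_V' (hd : 0 < d) (h : Env ε d M D.c D.L ω) {V W : Set ℂ}
    (hV : V ⊆ Metric.closedBall D.c (D.L - 2 * d))
    (hW : ∀ v ∈ V, Metric.ball v (2 * d) ⊆ W) {C : ℝ} (hC : 0 ≤ C)
    (hM : diamSum (points ε ω) W ≤ ENNReal.ofReal C) :
    ∑ t ∈ (delT (D.sites ε ω)).filter (fun t => (cT t ∩ V).Nonempty), dm t ^ 2 ≤ 4 * C := by
  have h1 := (sum_V hd h hV hW).trans (mul_le_mul_right hM 4)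
  have e2 : (4 : ℝ≥0∞) = ENNReal.ofReal 4 := by norm_num
  rw [e2, ← ENNReal.ofReal_mul (by norm_num)] at h1
  exact (ENNReal.ofReal_le_ofReal_iff (by positivity)).1 h1

theorem sum_biUnion_le' {α β : Type} [DecidableEq α] [DecidableEq β] (T : Finset α) (F : α → Finset β) (f : β → ℝ)
    (hf : ∀ t, 0 ≤ f t) : ∑ t ∈ T.biUnion F, f t ≤ ∑ y ∈ T, ∑ t ∈ F y, f t := by
  induction T using Finset.induction_on with
  | empty => simp
  | insert a s ha ih =>
    rw [Finset.biUnion_insert, Finset.sum_insert ha]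
    have h1 := Finset.sum_union_inter (s₁ := F a) (s₂ := s.biUnion F) (f := f)
    have h2 : 0 ≤ ∑ t ∈ F a ∩ s.biUnion F, f t := Finset.sum_nonneg fun t _ => hf t
    linarith

/-- a finite cover of the disc of radius `ρ` with balls of radius `1 / 2` -/
theorem exists_cover (ρ : ℝ) : ∃ T : Finset ℂ, (∀ y ∈ T, ‖y‖ ≤ ρ) ∧
    ∀ z : ℂ, ‖z‖ ≤ ρ → ∃ y ∈ T, ‖z - y‖ < 1 / 2 := by
  obtain ⟨t, ht, hf, hc⟩ := (isCompact_closedBall (0 : ℂ) ρ).finite_cover_balls
    (e := 1 / 2) (by norm_num)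
  refine ⟨hf.toFinset, fun y hy => ?_, fun z hz => ?_⟩
  · have := ht (hf.mem_toFinset.1 hy)
    rwa [mem_closedBall_zero_iff] at this
  · have h1 : z ∈ Metric.closedBall (0 : ℂ) ρ := by rwa [mem_closedBall_zero_iff]
    obtain ⟨y, hy, hzy⟩ := mem_iUnion₂.1 (hc h1)
    exact ⟨y, hf.mem_toFinset.2 hy, by rwa [mem_ball_iff_norm] at hzy⟩

/-- the number of balls -/
def nb (ρ : ℝ) : ℕ := (exists_cover ρ).choose.card

/-- the constant of M4 for the triangles which meet a disc of radius `ρ` -/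
def CC (C4 ρ : ℝ) : ℝ := 64 * C4 * (nb ρ + 1)

theorem CC_nonneg {C4 : ℝ} (h : 0 ≤ C4) (ρ : ℝ) : 0 ≤ CC C4 ρ := by unfold CC; positivity

/-- the triangles which meet the disc -/
def Ud (S : Finset ℂ) (x : ℂ) (ρ : ℝ) : Finset (ℂ × ℂ × ℂ) :=
  (delT S).filter fun t => (cT t ∩ Metric.closedBall x ρ).Nonempty

/-- **M4 for the triangles which meet a disc, at all scales** -/
theorem m4_U (hd : 0 < d) (hd4 : 4 * d ≤ 1) (h : Env ε d M D.c D.L ω) {C4 sc : ℝ} (hC4 : 0 ≤ C4)
    (hsc : sc ≤ 1)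
    (hM : ∀ z ∈ Metric.closedBall D.c D.L, ∀ s : ℝ, sc ≤ s → s ≤ 1 →
      diamSum (points ε ω) (Metric.ball z s) ≤ ENNReal.ofReal (C4 * s ^ 2))
    {x : ℂ} {ρ : ℝ} (hρ : 0 ≤ ρ) (hx : ‖x - D.c‖ + ρ + 2 * d ≤ D.L) {k : ℤ}
    (hk1 : 2 * d ≤ (2 : ℝ) ^ (k + 1)) (hk2 : sc ≤ (2 : ℝ) ^ (k + 2)) :
    ∑ t ∈ (Ud (D.sites ε ω) x ρ).filter
        (fun t => lo x t ≤ (2 : ℝ) ^ (k + 1) ∧ (2 : ℝ) ^ k ≤ hi x t),
      dm t ^ 2 ≤ CC C4 ρ * (4 : ℝ) ^ k := by
  have hxin : ∀ z, ‖z - x‖ ≤ ρ → z ∈ Metric.closedBall D.c (D.L - 2 * d) := by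
    intro z hz
    rw [mem_closedBall_iff_norm]
    have := norm_tri z x D.c
    linarith
  have hk4 : (4 : ℝ) ^ k = ((2 : ℝ) ^ k) ^ 2 := by
    rw [sq, ← mul_zpow]; norm_num
  have hkp : (0 : ℝ) < (2 : ℝ) ^ k := by positivity
  have e1 : (2 : ℝ) ^ (k + 1) = 2 * (2 : ℝ) ^ k := by
    rw [zpow_add₀ (by norm_num), zpow_one]; ring
  have e2 : (2 : ℝ) ^ (k + 2) = 4 * (2 : ℝ) ^ k := by
    rw [zpow_add₀ (by norm_num)]; norm_num; ring
  have hnb : (0 : ℝ) ≤ nb ρ := by positivity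
  by_cases hk : (2 : ℝ) ^ (k + 2) ≤ 1
  · -- small scales
    set V : Set ℂ := Metric.closedBall x ρ ∩ Metric.closedBall x ((2 : ℝ) ^ (k + 1)) with hVdef
    have h1 := sum_V' hd h (V := V) (W := Metric.ball x ((2 : ℝ) ^ (k + 2)))
      (C := C4 * ((2 : ℝ) ^ (k + 2)) ^ 2) (fun z hz => hxin z (by
        have := hz.1; rwa [mem_closedBall_iff_norm] at this))
      (by
        rintro v ⟨-, hv⟩ w hw
        rw [mem_closedBall_iff_norm] at hv
        rw [mem_ball_iff_norm] at hw ⊢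
        have := norm_tri w v x
        rw [e2]
        rw [e1] at hv hk1
        linarith) (by positivity)
      (hM x (by
        rw [mem_closedBall_iff_norm]
        linarith) _ hk2 hk)
    refine (Finset.sum_le_sum_of_subset_of_nonneg ?_ fun t _ _ => sq_nonneg _).trans (h1.trans ?_)
    · rintro ⟨a, b, c⟩ ht
      obtain ⟨ht1, hlo, -⟩ := Finset.mem_filter.1 ht
      obtain ⟨htS, y, hy, hyρ⟩ := Finset.mem_filter.1 ht1
      rw [mem_closedBall_iff_norm] at hyρ
      obtain ⟨o', hT⟩ := mem_delT_iff.1 htS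
      obtain ⟨y', hy', he⟩ := (isClosed_cT (a, b, c)).exists_infDist_eq_dist
        ⟨a, (vertex_mem hT.pos).1⟩ x
      have h2 : lo x (a, b, c) = ‖y' - x‖ := by
        unfold lo
        rw [he, dist_comm, dist_eq_norm]
      have h3 : lo x (a, b, c) ≤ ‖y - x‖ := lo_le hy
      refine Finset.mem_filter.2 ⟨htS, y', hy', ?_, ?_⟩
      · rw [mem_closedBall_iff_norm, ← h2]; linarith
      · rw [mem_closedBall_iff_norm, ← h2]; exact hlo
    · unfold CC
      rw [e2, hk4]
      have h5 : 0 ≤ 64 * C4 * nb ρ * ((2 : ℝ) ^ k) ^ 2 := by positivity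
      nlinarith
  · -- large scales
    push Not at hk
    obtain ⟨hT1, hT2⟩ := (exists_cover ρ).choose_spec
    set T := (exists_cover ρ).choose with hTdef
    obtain ⟨G, hG⟩ : ∃ G : ℂ → Finset (ℂ × ℂ × ℂ), ∀ y t, t ∈ G y ↔ t ∈ delT (D.sites ε ω) ∧
        (cT t ∩ (Metric.closedBall x ρ ∩ Metric.ball (x + y) (1 / 2))).Nonempty :=
      ⟨fun y => (delT (D.sites ε ω)).filter (fun t =>
        (cT t ∩ (Metric.closedBall x ρ ∩ Metric.ball (x + y) (1 / 2))).Nonempty),
        fun y t => Finset.mem_filter⟩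
    have hone : ∀ y ∈ T, ∑ t ∈ G y, dm t ^ 2 ≤ 4 * C4 := by
      intro y hy
      have h1 := sum_V' hd h (V := Metric.closedBall x ρ ∩ Metric.ball (x + y) (1 / 2))
        (W := Metric.ball (x + y) 1) (C := C4 * 1 ^ 2)
        (fun z hz => hxin z (by
          have := hz.1; rwa [mem_closedBall_iff_norm] at this))
        (by
          rintro v ⟨-, hv⟩ w hw
          rw [mem_ball_iff_norm] at hv hw ⊢
          have := norm_tri w v (x + y)
          linarith) (by positivity)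
        (hM (x + y) (by
          rw [mem_closedBall_iff_norm]
          have h2 := norm_add_le (x - D.c) y
          have h3 := hT1 y hy
          rw [show x + y - D.c = x - D.c + y by ring]
          linarith) 1 hsc le_rfl)
      have e : G y = (delT (D.sites ε ω)).filter (fun t =>
          (cT t ∩ (Metric.closedBall x ρ ∩ Metric.ball (x + y) (1 / 2))).Nonempty) := by
        ext t
        rw [hG, Finset.mem_filter]
      rw [e]
      linarith
    have h2 : ∑ t ∈ (Ud (D.sites ε ω) x ρ).filter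
        (fun t => lo x t ≤ (2 : ℝ) ^ (k + 1) ∧ (2 : ℝ) ^ k ≤ hi x t), dm t ^ 2 ≤
        ∑ y ∈ T, ∑ t ∈ G y, dm t ^ 2 := by
      refine le_trans ?_ (sum_biUnion_le' T G (fun t => dm t ^ 2) fun t => sq_nonneg _)
      apply Finset.sum_le_sum_of_subset_of_nonneg _ fun t _ _ => sq_nonneg _
      intro t ht
      obtain ⟨ht1, -⟩ := Finset.mem_filter.1 ht
      obtain ⟨htS, z, hz, hzρ⟩ := Finset.mem_filter.1 ht1
      have hzρ' := hzρ
      rw [mem_closedBall_iff_norm] at hzρ'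
      obtain ⟨y, hy, hzy⟩ := hT2 (z - x) hzρ'
      rw [Finset.mem_biUnion]
      refine ⟨y, hy, (hG y t).2 ⟨htS, z, hz, hzρ, ?_⟩⟩
      rw [mem_ball_iff_norm]
      rwa [show z - (x + y) = z - x - y by ring]
    have h3 : ∑ y ∈ T, ∑ t ∈ G y, dm t ^ 2 ≤ nb ρ * (4 * C4) := by
      refine (Finset.sum_le_sum hone).trans (le_of_eq ?_)
      rw [Finset.sum_const, nsmul_eq_mul]
      rfl
    have h4 : 1 / 16 ≤ (4 : ℝ) ^ k := by
      rw [hk4]
      rw [e2] at hk
      nlinarith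
    refine (h2.trans h3).trans ?_
    unfold CC
    have h5 : 0 ≤ C4 * nb ρ := by positivity
    have h6 := mul_le_mul_of_nonneg_left h4 (show 0 ≤ 64 * C4 * (nb ρ : ℝ) by positivity)
    have h7 : 0 ≤ 64 * C4 * (4 : ℝ) ^ k := by positivity
    nlinarith

end Crest.Agent.R143.M4Ux991
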