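import Crest.Agent.R143.Wlk_802
import Crest.Agent.R143.Ex_395
import Crest.Agent.R143.EQ4_63

/-!
# Row 143 (S0194), leaf T5 for networks (helper802)

* `tile_or` : at a triangle of an inner vertex: the relations `RelAt`, or no joins and equal values
* `wk_net` : the abstract tiling `Wk` for a set of vertices with complete live rings
* `t5 : E3 → EQ4x63.T5`
-/

set_option autoImplicit false

noncomputable section

open scoped Classical

namespace Crest.Agent.R143.T5x802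

open Crest.Agent.R143.B0x346 Crest.Agent.R143.Oscx63 Crest.Agent.R143.Wlkx802
open Crest.Agent.R143.J1x872 Crest.Agent.R143.JCardx872 Crest.Agent.R143.Exx395

/-- a spoke of a complete ring is no mark -/
theorem spoke {S : Finset ℂ} {N : Net ℂ} (hN : HNet S N) {v a b : ℂ} (hv : Full N v)
    (h : (v, a, b) ∈ N.T) : ((v, a) ∉ N.exS ∧ (a, v) ∉ N.exS) ∧ ((v, b) ∉ N.exS ∧ (b, v) ∉ N.exS) := by
  obtain ⟨d, u, hr, hl, hall⟩ := hv
  obtain ⟨i, rfl, rfl⟩ := hall a b h
  have key : ∀ j : ℤ, (v, u j) ∉ N.exS ∧ (u j, v) ∉ N.exS := by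
    intro j
    have h1 : (v, u j, u (j + 1)) ∈ N.T := hr.mem j
    have h2 : (v, u (j - 1), u j) ∈ N.T := by
      have := hr.mem (j - 1)
      rwa [sub_add_cancel] at this
    have h3 : (u j, v, u (j - 1)) ∈ N.T := N.rot (N.rot h2)
    constructor
    · rintro ⟨k, hk⟩
      have := (hN.hex k).2 (u (j - 1))
      rw [hk, ← hN.tri] at this
      exact this h3
    · rintro ⟨k, hk⟩
      have := (hN.hex k).2 (u (j + 1))
      rw [hk, ← hN.tri] at this
      exact this h1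
  exact ⟨key i, key (i + 1)⟩

/-- the relations at a triangle of a vertex with a complete live ring -/
theorem tile_or {S : Finset ℂ} {N : Net ℂ} (hN : HNet S N) {v a b : ℂ} (hv : Full N v)
    (h : (v, a, b) ∈ N.T) : N.F v a = N.F v b ∨ RelAt N (v, a, b) := by
  obtain ⟨⟨m1, m2⟩, m3, m4⟩ := spoke hN hv h
  obtain ⟨l1, l2⟩ := hv.live h
  by_cases hne : (N.tj (v, a, b)).Nonempty
  · exact Or.inr (Rel2x63.relAt hN (by rw [← hN.tri]; exact h) (Or.inl hne))
  · left
    have h0 : (N.tj (v, a, b)).card = 0 := by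
      rw [Finset.card_eq_zero]
      exact Finset.not_nonempty_iff_eq_empty.1 hne
    have e1 : (N.hj v a).card + (N.hj a v).card = 0 := by
      rw [← h0]
      exact card_half (G := N.toTrg) (D := N.exS) h l1 (fun h1 => l1 (N.klsym _ _ h1)) m1 m2
    have e2 : (N.hj b v).card + (N.hj v b).card = 0 := by
      have h3 : (b, v, a) ∈ N.T := N.rot (N.rot h)
      have h4 := card_half (G := N.toTrg) (D := N.exS) h3 (fun h1 => l2 (N.klsym _ _ h1)) l2 m4 m3
      have h5 : N.tj (b, v, a) = N.tj (v, a, b) := by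
        rw [Oscx63.tj_rot N a b v, Oscx63.tj_rot N v a b]
      rw [← h0, ← h5]
      exact h4
    rw [F_pocket e1 m1 m2, F_comm N v b, F_pocket e2 m4 m3]

/-- the abstract tiling -/
theorem wk_net (hE : E3) {S : Finset ℂ} {N : Net ℂ} (hN : HNet S N) {W : Finset ℂ}
    (hW : ∀ v ∈ W, Full N v) : Wk N.T W N.F :=
  wk_of hW (fun v _ d u h1 h2 => hE S N hN v d u h1 h2) fun v hv a b h => tile_or hN (hW v hv) h

/-- **T5** for networks -/
theorem t5_net (hE : E3) {S : Finset ℂ} {N : Net ℂ} (hN : HNet S N) {W : Finset ℂ}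
    (hW : ∀ v ∈ W, Full N v) {v a b : ℂ} (hv : v ∈ W) (h : (v, a, b) ∈ delT S) :
    N.F v a ∈ convexHull ℝ {z : ℂ | ∃ w ∈ W, ∃ x y, (w, x, y) ∈ delT S ∧ x ∉ W ∧ z = N.F w x} :=
  t5' hN.gp hN.tri hW (fun v _ d u h1 h2 => hE S N hN v d u h1 h2)
    (fun v hv a b h => tile_or hN (hW v hv) (by rw [hN.tri]; exact h)) hv h

/-- **leaf T5** (maximum principle) -/
theorem t5 (hE : E3) : EQ4x63.T5 := by
  intro S N hN W hW _ v hv u hu
  have hF : ∀ v ∈ W, Full N v := by
    intro v hv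
    obtain ⟨n, u, h1, h2, h3⟩ := hW v hv
    refine ⟨n, u, h1, h2, fun x y h => ?_⟩
    obtain ⟨i, e1, e2⟩ := h3 x y h
    exact ⟨i, e1.symm, e2.symm⟩
  obtain ⟨b, hb⟩ : ∃ b, (v, u, b) ∈ delT S := by
    rcases hu with ⟨c, hc⟩ | ⟨c, hc⟩
    · exact ⟨c, hc⟩
    · have h1 : (v, c, u) ∈ N.T := by
        have h2 : (u, v, c) ∈ N.T := by rw [hN.tri]; exact hc
        exact N.rot h2
      obtain ⟨b, hb⟩ := (wk_net hE hN hF).next hv h1
      exact ⟨b, by rw [← hN.tri]; exact hb⟩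
  refine convexHull_mono ?_ (t5_net hE hN hF hv hb)
  rintro z ⟨w, hw, x, y, h1, h2, rfl⟩
  exact ⟨w, hw, x, h2, Or.inl ⟨y, h1⟩, rfl⟩

end Crest.Agent.R143.T5x802
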