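import Crest.Agent.R143.LowD_991
import Crest.Agent.R143.M4U_991
import Crest.Agent.R143.T6D_697
import Crest.Agent.R143.ENBA_395
import Crest.Agent.R143.ClsA_697
import Crest.Agent.R143.T5_802

/-!
# Row 143 (S0194), leaf LOW: final form (helper991)

* `oscD` : `E3 → OscD` (part (i) from 697's `T6EW`, `clsA` and `M4U`)
* `low'` : `E3 → LOW`
-/

set_option autoImplicit false

noncomputable section

namespace Crest.Agent.R143.LowEx991

open Set MeasureTheory Filter Topology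
open scoped Classical
open Crest.ProbabilityR.Voronoi
open Crest.Agent.R143.B0x346 Crest.Agent.R143.B0Dx346 Crest.Agent.R143.EQ4x63
open Crest.Agent.R143.PP1x831 Crest.Agent.R143.Lowx991 Crest.Agent.R143.LowD0x991
open Crest.Agent.R143.LowDx991 Crest.Agent.R143.B6Ix903
open Crest.Agent.R143.DomAx722 (Dns)

/-- **part (i)** -/
theorem oscD (hE : E3) : OscD := by
  intro π δ θ ρ μ hδ hθ hρ hμ
  set C := M4Ux991.CC π.C4 ρ with hCdef
  have hC0 : 0 ≤ C := M4Ux991.CC_nonneg π.C4pos.le ρ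
  refine ⟨73728 * C / θ ^ 2, by positivity, ?_⟩
  intro κ hκ hκ1
  have hc0 : 0 < δ ^ 6 / (40000 * π.L ^ 5) := by have := π.Lpos; positivity
  have f1 := ev_rad π.C (κ := κ) (c := min (1 / 64) (θ / 204800)) (by linarith) (by positivity)
  have f2 := ev_rad π.C (κ := 0) (c := min (δ ^ 6 / (40000 * π.L ^ 5))
    (min (π.m / 3) (min (μ / 4) (1 / 4)))) (by norm_num) (by have := π.mpos; positivity)
  have f3 := ev_log (κ := κ) (a := π.a) (c := 1 / 8) (by linarith) π.apos (by norm_num)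
  have f4 := ev_pow (κ := κ) (c := min (min ρ π.R) 1) hκ (by
    have := π.Rpos; positivity)
  have f5 : ∀ᶠ ε : ℝ in 𝓝[>] 0, ε < 1 := nhdsWithin_le_nhds (eventually_lt_nhds one_pos)
  filter_upwards [f1, f2, f3, f4, f5, eventually_mem_nhdsWithin] with ε
    g3 g4 g5 g6 g7 g8 D ω z hAt hSec k1 k2 hk1 hk1' hk2 hk2' e0 _
  have hε : 0 < ε := g8
  set r := ε ^ κ with hr
  have hr0 : 0 < r := Real.rpow_pos_of_pos hε _
  have hrρ : r ≤ ρ := g6.trans ((min_le_left _ _).trans (min_le_left _ _))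
  have hrR : r ≤ π.R := g6.trans ((min_le_left _ _).trans (min_le_right _ _))
  have hr1' : r ≤ 1 := g6.trans (min_le_right _ _)
  set d := rad π.C ε with hd
  have hd0 : 0 < d := rad_pos π.Cpos hε g7
  rw [Real.rpow_zero, mul_one, le_min_iff, le_min_iff, le_min_iff] at g4
  obtain ⟨g41, g42, g43, g44⟩ := g4
  have g31 : d ≤ 1 / 64 * r := g3.trans (mul_le_mul_of_nonneg_right (min_le_left _ _) hr0.le)
  have g32 : d ≤ θ / 204800 * r := g3.trans (mul_le_mul_of_nonneg_right (min_le_right _ _) hr0.le)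
  have hLp := hAt.ok.w.Lpos
  have hdL : 40000 * D.L ^ 5 * d ≤ δ ^ 6 := by
    rw [le_div_iff₀ (by have := π.Lpos; positivity)] at g41
    have h1 : D.L ^ 5 ≤ π.L ^ 5 := pow_le_pow_left₀ hLp.le hAt.len 5
    calc 40000 * D.L ^ 5 * d ≤ 40000 * π.L ^ 5 * d := by gcongr
      _ ≤ δ ^ 6 := by linarith
  have henv := hAt.good.env
  have hS : Dns (D.sites ε ω) D.c D.L d := DomAx722.dns_of_env hLp
    (DomAx722.small_d hLp hAt.ok.w.dpos hAt.ok.w.lt.le hdL) henv
  have hcls := ClsAx697.clsA hAt.ok hS hdL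
  obtain ⟨φ0, hSec0⟩ := hSec 0
  have hinn := hSec0.inn
  obtain ⟨e, he1, he2⟩ := T6Dx697.T6EW hAt.ok.w henv hdL hcls hAt.room hAt.lnk
    (by linarith) hSec (by linarith) (r := r / 16) (C := C) (k1 := k1) (k2 := k2) (by positivity)
    (by linarith) (by linarith) (by linarith) hk1 hk2 hC0
    (by
      intro k hk
      obtain ⟨hk3, hk4⟩ := Finset.mem_Icc.1 hk
      have h1 : (2 : ℝ) ^ (k1 + 1) ≤ (2 : ℝ) ^ (k + 1) :=
        zpow_le_zpow_right₀ (by norm_num) (by omega)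
      have h2 : (2 : ℝ) ^ (k1 + 2) ≤ (2 : ℝ) ^ (k + 2) :=
        zpow_le_zpow_right₀ (by norm_num) (by omega)
      have e1 : (2 : ℝ) ^ (k1 + 1) = 2 * (2 : ℝ) ^ k1 := by
        rw [zpow_add₀ (by norm_num), zpow_one]; ring
      have e2 : (2 : ℝ) ^ (k1 + 2) = 4 * (2 : ℝ) ^ k1 := by
        rw [zpow_add₀ (by norm_num)]; norm_num; ring
      have h3 := M4Ux991.m4_U hd0 (by linarith) henv (C4 := π.C4)
        (sc := ε * Real.log (1 / ε) ^ π.a) π.C4pos.le (by linarith) hAt.good.diam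
        (x := z) (ρ := ρ) hρ.le (by linarith) (k := k) (by linarith) (by linarith)
      unfold M4Ux991.Ud at h3
      rw [Finset.filter_filter] at h3
      exact h3)
    (fun U hU hrep => En12Ax395.dis_dom hE hAt.ok henv hdL hU hrep) e0
  refine ⟨e, he1, le_trans (le_of_eq ?_) he2⟩
  congr 3
  ring

/-- **the leaf `LOW`** -/
theorem low' (hE : E3) : LOW :=
  low (T5x802.t5 hE) (ENBAx395.enb hE) (oscD hE)

end Crest.Agent.R143.LowEx991
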