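import Crest.Agent.R143.LowE_991
import Crest.Agent.R143.ClsC_697
import Crest.Agent.R143.DomE_722
import Crest.Agent.R143.Ad2_422

/-!
# Row 143 (S0194), leaf LOW: `E3 → LOW` (helper991)
-/

set_option autoImplicit false

noncomputable section

namespace Crest.Agent.R143.LowFx991

open scoped Classical
open Crest.ProbabilityR.Voronoi
open Crest.Agent.R143.B0x346 Crest.Agent.R143.B0Dx346
open Crest.Agent.R143.DomAx722 (Dns)

/-- the classes of a domain of 416 -/
theorem cls_ad {D : Dom} {δ d : ℝ} {S : Finset ℂ} (hD : D.Ad δ) (hS : Dns S D.c D.L d)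
    (hd : 40000 * D.L ^ 5 * d ≤ δ ^ 6) : T6Dx697.Cls D S := by
  obtain ⟨n, C, hn, hC, rfl⟩ := hD
  exact ClsCx697.cls_of_out hn (DomEx722.out_S hn hC hS hd)

/-- **the leaf `LOW`** -/
theorem low (hE : E3) : B6Ix903.LOW := LowEx991.low' hE

end Crest.Agent.R143.LowFx991
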