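import Crest.Agent.R143.Y8D_831
import Crest.Agent.R143.CovC_126

/-!
# Row 143, block Y: the leaves M6 and M7 (helper877)

* `exp_poisson` : exponential moments of the Poisson law; `tail_poisson` : Chernoff bound;
  `tail_block` : for one block of `posLaw`
* `m6 : M6` : no block near the origin with more than `η log(1/ε)` points, up to `ε ^ A`
* `m7 : M7` : almost surely no site on a given line
-/

set_option autoImplicit false

noncomputable section

open scoped Classical

namespace Crest.Agent.R143.M67x877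

open MeasureTheory Set Filter Topology ProbabilityTheory
open Crest.ProbabilityR.Voronoi
open Crest.Agent.R143.B0x346 Crest.Agent.R143.Lawx831 Crest.Agent.R143.Y5Dx831
open Crest.Agent.R143.Y8Dx831
open scoped ENNReal

local notation "smk" => Crest.Agent.R143.Lawx831.mk

/-- exponential moments of the Poisson law -/
theorem exp_poisson (s : ℝ) :
    ∫⁻ n : ℕ, ENNReal.ofReal (Real.exp (s * n)) ∂(poissonMeasure 1) =
      ENNReal.ofReal (Real.exp (Real.exp s - 1)) := by
  have hs : HasSum (fun n : ℕ => Real.exp (-1) * (Real.exp s ^ n / (n.factorial : ℝ)))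
      (Real.exp (Real.exp s - 1)) := by
    have h := (NormedSpace.expSeries_div_hasSum_exp (Real.exp s)).mul_left (Real.exp (-1))
    rw [← Real.exp_eq_exp_ℝ, ← Real.exp_add] at h
    rw [show Real.exp s - 1 = -1 + Real.exp s by ring]
    exact h
  rw [poissonMeasure, lintegral_sum_measure, ← hs.tsum_eq,
    ENNReal.ofReal_tsum_of_nonneg (fun n => by positivity) hs.summable]
  refine tsum_congr fun n => ?_
  rw [lintegral_smul_measure, lintegral_dirac' _ (by fun_prop), smul_eq_mul,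
    ← ENNReal.ofReal_mul (by positivity)]
  congr 1
  have : Real.exp (s * (n : ℝ)) = Real.exp s ^ n := by
    rw [mul_comm, Real.exp_nat_mul]
  rw [this]
  simp
  ring

/-- Chernoff bound -/
theorem tail_poisson {s : ℝ} (hs : 0 < s) (m : ℝ) :
    poissonMeasure 1 {n : ℕ | m < (n : ℝ)} ≤
      ENNReal.ofReal (Real.exp (Real.exp s - 1) * Real.exp (-(s * m))) := by
  have h := mul_meas_ge_le_lintegral₀ (μ := poissonMeasure 1)
    (f := fun n : ℕ => ENNReal.ofReal (Real.exp (s * n)))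
    (Measurable.of_discrete).aemeasurable (ENNReal.ofReal (Real.exp (s * m)))
  rw [exp_poisson] at h
  have hsub : {n : ℕ | m < (n : ℝ)} ⊆
      {n : ℕ | ENNReal.ofReal (Real.exp (s * m)) ≤ ENNReal.ofReal (Real.exp (s * n))} := by
    intro n hn
    apply ENNReal.ofReal_le_ofReal
    rw [Real.exp_le_exp]
    exact mul_le_mul_of_nonneg_left (le_of_lt hn) hs.le
  have h2 := (mul_le_mul_right (measure_mono hsub) (ENNReal.ofReal (Real.exp (s * m)))).trans h
  have hpos : ENNReal.ofReal (Real.exp (s * m)) ≠ 0 := by simp [Real.exp_pos]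
  rw [ENNReal.ofReal_mul (Real.exp_pos _).le, Real.exp_neg,
    ENNReal.ofReal_inv_of_pos (Real.exp_pos _), ← div_eq_mul_inv,
    ENNReal.le_div_iff_mul_le (Or.inl hpos) (Or.inl ENNReal.ofReal_ne_top), mul_comm]
  exact h2

/-- one block -/
theorem tail_block {s : ℝ} (hs : 0 < s) (m : ℝ) (k : ℤ × ℤ) :
    posLaw {p | m < ((p k).1 : ℝ)} ≤
      ENNReal.ofReal (Real.exp (Real.exp s - 1) * Real.exp (-(s * m))) := by
  have h1 : MeasurePreserving (fun p : Pos => p k) posLaw pbLaw :=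
    measurePreserving_eval_infinitePi (fun _ : ℤ × ℤ => pbLaw) k
  have h2 : MeasurePreserving (fun p : PB => p.1) pbLaw (poissonMeasure 1) :=
    measurePreserving_fst
  have h3 := (h2.comp h1).measure_preimage
    (s := {n : ℕ | m < (n : ℝ)}) (MeasurableSet.of_discrete).nullMeasurableSet
  have h4 : ((fun p : PB => p.1) ∘ fun p : Pos => p k) ⁻¹' {n : ℕ | m < (n : ℝ)} =
      {p : Pos | m < ((p k).1 : ℝ)} := rfl
  rw [h4] at h3
  rw [h3]
  exact tail_poisson hs m

/-- the cells near the origin -/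
theorem near_cell {ε R : ℝ} (hε : 0 < ε) {k : ℤ × ℤ}
    (h : (cellS ε k ∩ Metric.closedBall (0 : ℂ) R).Nonempty) :
    k ∈ (Finset.Icc (-(⌈R / ε⌉ + 1)) (⌈R / ε⌉ + 1)) ×ˢ
      (Finset.Icc (-(⌈R / ε⌉ + 1)) (⌈R / ε⌉ + 1)) := by
  obtain ⟨z, ⟨x, y, hx0, hx1, hy0, hy1, rfl⟩, hz⟩ := h
  rw [mem_closedBall_zero_iff] at hz
  have hre := (Complex.abs_re_le_norm _).trans hz
  have him := (Complex.abs_im_le_norm _).trans hz
  simp only [Complex.mul_re, Complex.mul_im, Complex.add_re, Complex.add_im, Complex.ofReal_re,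
    Complex.ofReal_im, Complex.I_re, Complex.I_im, mul_zero, mul_one, zero_mul, add_zero,
    sub_zero, zero_add] at hre him
  have key : ∀ (a : ℤ) (x : ℝ), 0 ≤ x → x ≤ 1 → |ε * ((a : ℝ) + x)| ≤ R →
      a ∈ Finset.Icc (-(⌈R / ε⌉ + 1)) (⌈R / ε⌉ + 1) := by
    intro a x h0 h1 h
    rw [abs_mul, abs_of_pos hε, mul_comm, ← le_div_iff₀ hε, abs_le] at h
    have h2 : R / ε ≤ ⌈R / ε⌉ := Int.le_ceil _
    rw [Finset.mem_Icc]
    constructor
    · have : (-(⌈R / ε⌉ + 1 : ℤ) : ℝ) ≤ a := by push_cast; linarith [h.1]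
      exact_mod_cast this
    · have : (a : ℝ) ≤ ((⌈R / ε⌉ + 1 : ℤ) : ℝ) := by push_cast; linarith [h.2]
      exact_mod_cast this
  rw [Finset.mem_product]
  exact ⟨key _ x hx0 hx1 hre, key _ y hy0 hy1 him⟩

/-- **leaf M6** -/
theorem m6 : M6 := by
  intro R A η hη
  set R' : ℝ := |R| with hR'
  set s : ℝ := (|A| + 3) / η with hs
  have hspos : 0 < s := by positivity
  set C0 : ℝ := Real.exp (Real.exp s - 1) with hC0
  have hC0pos : 0 < C0 := Real.exp_pos _
  set C : ℝ := (2 * R' + 5) ^ 2 * C0 with hC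
  have hR'0 : 0 ≤ R' := abs_nonneg R
  have hCpos : 0 < C := by positivity
  have e1 : ∀ᶠ ε : ℝ in 𝓝[>] 0, 0 < ε := self_mem_nhdsWithin
  have e2 : ∀ᶠ ε : ℝ in 𝓝[>] 0, ε < min 1 (1 / C) := by
    apply nhdsWithin_le_nhds
    exact Iio_mem_nhds (by positivity)
  filter_upwards [e1, e2] with ε hε hε2
  have hε1 : ε < 1 := hε2.trans_le (min_le_left _ _)
  have hεC : C * ε < 1 := by
    have h := hε2.trans_le (min_le_right _ _)
    rw [lt_div_iff₀ hCpos] at h
    linarith
  set F : Finset (ℤ × ℤ) := (Finset.Icc (-(⌈R / ε⌉ + 1)) (⌈R / ε⌉ + 1)) ×ˢ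
      (Finset.Icc (-(⌈R / ε⌉ + 1)) (⌈R / ε⌉ + 1)) with hF
  set m : ℝ := η * Real.log (1 / ε) with hm
  have hsub : {p : Pos | ∃ k : ℤ × ℤ, (cellS ε k ∩ Metric.closedBall (0 : ℂ) R).Nonempty ∧
      m < ((p k).1 : ℝ)} ⊆ ⋃ k ∈ F, {p : Pos | m < ((p k).1 : ℝ)} := by
    rintro p ⟨k, hk, hp⟩
    rw [mem_iUnion₂]
    exact ⟨k, near_cell hε hk, hp⟩
  -- the number of cells
  have hcard : (F.card : ℝ) ≤ ((2 * R' + 5) / ε) ^ 2 := by
    have h1 : (F.card : ℝ) = (((2 * (⌈R / ε⌉ + 1) + 1).toNat : ℕ) : ℝ) ^ 2 := by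
      rw [hF, Finset.card_product, Int.card_Icc]
      have : (⌈R / ε⌉ + 1 + 1 - -(⌈R / ε⌉ + 1)) = 2 * (⌈R / ε⌉ + 1) + 1 := by ring
      rw [this]
      push_cast
      ring
    rw [h1]
    apply pow_le_pow_left₀ (Nat.cast_nonneg _)
    rw [← Int.cast_natCast, Int.toNat_eq_max, Int.cast_max]
    apply max_le
    · push_cast
      have h2 : (⌈R / ε⌉ : ℝ) < R / ε + 1 := Int.ceil_lt_add_one _
      have h3 : R / ε ≤ R' / ε := div_le_div_of_nonneg_right (le_abs_self R) hε.le
      have h4 : (2 * R' + 5) / ε = 2 * (R' / ε) + 5 / ε := by ring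
      have h5 : 5 ≤ 5 / ε := by
        rw [le_div_iff₀ hε]
        linarith
      rw [h4]
      linarith
    · simp only [Int.cast_zero]
      positivity
  -- the tail
  have hexp : Real.exp (-(s * m)) = ε ^ (|A| + 3) := by
    have : s * m = -((|A| + 3) * Real.log ε) := by
      rw [hs, hm, one_div, Real.log_inv]
      field_simp
    rw [this, neg_neg, Real.rpow_def_of_pos hε, mul_comm]
  calc posLaw {p | ∃ k : ℤ × ℤ, (cellS ε k ∩ Metric.closedBall (0 : ℂ) R).Nonempty ∧
        m < ((p k).1 : ℝ)}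
      ≤ posLaw (⋃ k ∈ F, {p : Pos | m < ((p k).1 : ℝ)}) := measure_mono hsub
    _ ≤ ∑ k ∈ F, posLaw {p : Pos | m < ((p k).1 : ℝ)} := measure_biUnion_finset_le _ _
    _ ≤ ∑ _k ∈ F, ENNReal.ofReal (C0 * ε ^ (|A| + 3)) := by
        apply Finset.sum_le_sum
        intro k _
        have := tail_block hspos m k
        rw [hexp] at this
        exact this
    _ = ENNReal.ofReal ((F.card : ℝ) * (C0 * ε ^ (|A| + 3))) := by
        rw [Finset.sum_const, nsmul_eq_mul, ENNReal.ofReal_mul (Nat.cast_nonneg _),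
          ENNReal.ofReal_natCast]
    _ ≤ ENNReal.ofReal (ε ^ A) := by
        apply ENNReal.ofReal_le_ofReal
        have hp : 0 < ε ^ (|A| + 3) := Real.rpow_pos_of_pos hε _
        calc (F.card : ℝ) * (C0 * ε ^ (|A| + 3))
            ≤ ((2 * R' + 5) / ε) ^ 2 * (C0 * ε ^ (|A| + 3)) :=
              mul_le_mul_of_nonneg_right hcard (by positivity)
          _ = C * ε * ε ^ |A| := by
              have h3 : ε ^ (|A| + 3) = ε ^ |A| * ε ^ (3 : ℕ) := by
                rw [Real.rpow_add hε]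
                congr 1
                exact_mod_cast Real.rpow_natCast ε 3
              rw [h3, hC]
              field_simp
          _ ≤ 1 * ε ^ |A| :=
              mul_le_mul_of_nonneg_right hεC.le (Real.rpow_nonneg hε.le _)
          _ ≤ ε ^ A := by
              rw [one_mul]
              exact Real.rpow_le_rpow_of_exponent_ge hε hε1.le (le_abs_self A)

/-- **leaf M7** -/
theorem m7 : M7 := by
  intro ε c q hε hq
  have hq0 : q ≠ 0 := by
    intro h
    rw [h, norm_zero] at hq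
    exact zero_ne_one hq
  have h1 := CovCx126.ae_ray hε c hq0
  have h2 : ∀ᵐ x ∂(posLaw.prod colLaw), ∀ v ∈ points ε (smk x.1 x.2), ∀ t : ℝ,
      v ≠ c + t * q := mp_mk.quasiMeasurePreserving.ae h1
  have h3 := Measure.ae_ae_of_ae_prod h2
  filter_upwards [h3] with p hp
  obtain ⟨w, hw⟩ := hp.exists
  intro v hv t
  apply hw v ?_ t
  rw [points_mk] at hv ⊢
  exact hv

end Crest.Agent.R143.M67x877
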