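import Crest.Agent.R143.Mab_377

/-!
# Row 143, finite-net half of STEP 4 (note 2908): one step, iteration

* `one_step` : frame estimate of the error of the tower identity for a weighted sum;
* `iter` : the iterated estimate along the interface for a rule `st`;
* `mab` : the final inequality for a rule with progress.
-/

set_option autoImplicit false

noncomputable section

open scoped Classical

namespace Crest.Agent.R143.Mabx377

open Crest.Agent.R143.B0x346 Crest.Agent.R143.JCardx872 Crest.Agent.R143.JWalkx872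
  Crest.Agent.R143.J1x872 Crest.Agent.R143.J4x872

variable {V : Type}

/-! ### one step -/

theorem q_dead {N : Net V} (hg : Good N) {t : V × V × V} (ht : t ∈ N.T) {i : ZMod 3}
    (h : sd t i ∈ N.kl) : N.Q t = 0 := by
  by_contra hQ
  obtain ⟨J, hJ, k, hk⟩ := exists_tri hQ
  have h1 := ((tri3_iff k).1 hk).1 i
  have hJ' := mem_joins.1 hJ
  have h2 : sd t i ∉ N.exS := by
    rintro ⟨j, hj⟩
    exact hg.live j (hj ▸ h)
  exact (hJ'.kill (sd t i).1 (sd t i).2 h h2 (sw_sd_notMark hg ht i)).1 h1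

theorem qx_dead {N : Net V} (hg : Good N) {t : V × V × V} (ht : t ∈ N.T) {i : ZMod 3}
    (h : sd t i ∈ N.kl) {L : Pt V} {q : V × V} (hok : Ok N L q) : Qx N L t = 0 := by
  unfold Qx
  split_ifs with h2
  · rfl
  · exact q_dead (good_knet hg hok h2) ht (Or.inl h)

/-- the triangles which can be reached before `stop` -/
def reach (S : Finset ℂ) (N : Net ℂ) (stop : ℂ × ℂ → Prop) : Finset (ℂ × ℂ × ℂ) :=
  (delT S).filter fun t => (∃ i, ¬ stop (sd t i)) ∧ ∀ i, sd t i ∉ N.kl

theorem reach_sub (S : Finset ℂ) (N : Net ℂ) (stop : ℂ × ℂ → Prop) :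
    reach S N stop ⊆ delT S := Finset.filter_subset _ _

/-- the error of one step -/
def err (S : Finset ℂ) (N : Net ℂ) (stop : ℂ × ℂ → Prop) (u : ℂ × ℂ × ℂ → ℂ) : ℝ :=
  2 * (√3 * √(∑ t ∈ reach S N stop, ‖u t‖ ^ 2))

theorem err_nonneg (S : Finset ℂ) (N : Net ℂ) (stop : ℂ × ℂ → Prop) (u : ℂ × ℂ × ℂ → ℂ) :
    0 ≤ err S N stop u := by
  unfold err
  positivity

/-- Cauchy-Schwarz with the frame -/
theorem cs_frame {S : Finset ℂ} {N : Net ℂ} (h : HNet S N) {U : Finset (ℂ × ℂ × ℂ)}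
    (hU : U ⊆ delT S) (u : ℂ × ℂ × ℂ → ℂ) :
    ∑ t ∈ U, ‖u t‖ * ‖N.Q t‖ ≤ √3 * √(∑ t ∈ U, ‖u t‖ ^ 2) := by
  have h1 := Real.sum_mul_le_sqrt_mul_sqrt U (fun t => ‖u t‖) (fun t => ‖N.Q t‖)
  have h2 : √(∑ t ∈ U, ‖N.Q t‖ ^ 2) ≤ √3 := Real.sqrt_le_sqrt (Frame7x395.frame3 h hU)
  calc ∑ t ∈ U, ‖u t‖ * ‖N.Q t‖ ≤ √(∑ t ∈ U, ‖u t‖ ^ 2) * √(∑ t ∈ U, ‖N.Q t‖ ^ 2) := h1
    _ ≤ √(∑ t ∈ U, ‖u t‖ ^ 2) * √3 := mul_le_mul_of_nonneg_left h2 (Real.sqrt_nonneg _)
    _ = _ := mul_comm _ _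

theorem cs_frame_x {S : Finset ℂ} {N : Net ℂ} (h : HNet S N) {L : Pt ℂ} {q : ℂ × ℂ}
    (hok : Ok N L q) {U : Finset (ℂ × ℂ × ℂ)} (hU : U ⊆ delT S) (u : ℂ × ℂ × ℂ → ℂ) :
    ∑ t ∈ U, ‖u t‖ * ‖Qx N L t‖ ≤ √3 * √(∑ t ∈ U, ‖u t‖ ^ 2) := by
  unfold Qx
  split_ifs with h2
  · simp only [norm_zero, mul_zero, Finset.sum_const_zero]
    positivity
  · exact cs_frame (hnet_ok h hok h2) hU u

/-- **ONE STEP** -/
theorem one_step {S : Finset ℂ} {N : Net ℂ} (h : HNet S N) (stop : ℂ × ℂ → Prop)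
    (u : ℂ × ℂ × ℂ → ℂ) :
    ‖((Om N).card : ℂ) * ∑ t ∈ delT S, u t * N.Q t -
      ∑ J ∈ Om N, ∑ t ∈ delT S, u t * Qx N (nx N stop J).1 t‖ ≤
      ((Om N).card : ℝ) * err S N stop u := by
  have hg := good_of_hnet h
  have hT : ∀ t, t ∈ delT S → t ∈ N.T := fun t ht => h.tri ▸ ht
  set R : ℂ × ℂ × ℂ → ℂ := fun t => ((Om N).card : ℂ) * N.Q t -
    ∑ J ∈ Om N, Qx N (nx N stop J).1 t with hR
  have e1 : ((Om N).card : ℂ) * ∑ t ∈ delT S, u t * N.Q t -
      ∑ J ∈ Om N, ∑ t ∈ delT S, u t * Qx N (nx N stop J).1 t = ∑ t ∈ delT S, u t * R t := by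
    rw [Finset.mul_sum, Finset.sum_comm, ← Finset.sum_sub_distrib]
    refine Finset.sum_congr rfl fun t _ => ?_
    rw [hR, ← Finset.mul_sum]
    ring
  have e2 : ∑ t ∈ delT S, u t * R t = ∑ t ∈ reach S N stop, u t * R t := by
    symm
    refine Finset.sum_subset (reach_sub S N stop) fun t ht hn => ?_
    have h0 : R t = 0 := by
      unfold reach at hn
      rw [Finset.mem_filter] at hn
      by_cases hk : ∃ i, sd t i ∈ N.kl
      · obtain ⟨i, hi⟩ := hk
        simp only [hR]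
        rw [q_dead hg (hT t ht) hi, mul_zero, Finset.sum_eq_zero, sub_zero]
        intro J hJ
        exact qx_dead hg (hT t ht) hi (nx_ok hg hJ stop)
      · push Not at hk
        have hs : ∀ i, stop (sd t i) := by
          intro i
          by_contra hi
          exact hn ⟨ht, ⟨i, hi⟩, hk⟩
        simp only [hR]
        rw [tower hg (hT t ht) hs, sub_self]
    rw [h0, mul_zero]
  rw [e1, e2]
  have hs := reach_sub S N stop
  set s : ℝ := √3 * √(∑ t ∈ reach S N stop, ‖u t‖ ^ 2) with hsd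
  calc ‖∑ t ∈ reach S N stop, u t * R t‖
      ≤ ∑ t ∈ reach S N stop, ‖u t‖ * (((Om N).card : ℝ) * ‖N.Q t‖ +
        ∑ J ∈ Om N, ‖Qx N (nx N stop J).1 t‖) := by
        refine (norm_sum_le _ _).trans (Finset.sum_le_sum fun t _ => ?_)
        rw [norm_mul]
        refine mul_le_mul_of_nonneg_left ?_ (norm_nonneg _)
        simp only [hR]
        refine (norm_sub_le _ _).trans (add_le_add ?_ (norm_sum_le _ _))
        rw [norm_mul, Complex.norm_natCast]
    _ = ((Om N).card : ℝ) * ∑ t ∈ reach S N stop, ‖u t‖ * ‖N.Q t‖ +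
        ∑ J ∈ Om N, ∑ t ∈ reach S N stop, ‖u t‖ * ‖Qx N (nx N stop J).1 t‖ := by
        rw [Finset.mul_sum, Finset.sum_comm, ← Finset.sum_add_distrib]
        refine Finset.sum_congr rfl fun t _ => ?_
        rw [mul_add, Finset.mul_sum]
        ring
    _ ≤ ((Om N).card : ℝ) * s + ∑ J ∈ Om N, s := by
        refine add_le_add (mul_le_mul_of_nonneg_left (cs_frame h hs u) (Nat.cast_nonneg _)) ?_
        exact Finset.sum_le_sum fun J hJ => cs_frame_x h (nx_ok hg hJ stop) hs u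
    _ = ((Om N).card : ℝ) * err S N stop u := by
        rw [Finset.sum_const, nsmul_eq_mul]
        unfold err
        rw [← hsd]
        ring

/-! ### prefixes -/

theorem fol_prefix {G : Trg V} {O : Set (V × V × V)} {D : Set (V × V)} {J : Finset (V × V)}
    {stop : V × V → Prop} : ∀ (L L' : Pt V) (p q q' : V × V), Fol G O D J p L q →
    Stopped G O D stop J p L' q' → (∀ a ∈ L, ¬ stop a.1) →
    ∃ L'', L' = L ++ L'' ∧ Stopped G O D stop J q L'' q' := by
  intro L
  induction L with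
  | nil =>
    intro L' p q q' h hS _
    change p = q at h
    subst h
    exact ⟨L', rfl, hS⟩
  | cons a L ih =>
    rintro L' p q q' ⟨ha, m, hm, hst, hf⟩ ⟨h1, h2, h3⟩ hn
    rcases L' with _ | ⟨b, L'⟩
    · exfalso
      change p = q' at h1
      subst h1
      rcases h3 with h3 | h3
      · exact hn a (List.mem_cons_self ..) (ha ▸ h3)
      · exact term_noStep h3 hst
    · obtain ⟨hb, m', hm', hst', hf'⟩ := h1
      have e := step_det hst hst'
      subst e
      have hu := turn_unc_unique hm hm'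
      have hab : a = b := Prod.ext (ha.trans hb.symm) hu
      obtain ⟨L'', e1, e2⟩ := ih L' m q q' hf
        ⟨hf', fun c hc => h2 c (List.mem_cons_of_mem _ hc), h3⟩
        (fun c hc => hn c (List.mem_cons_of_mem _ hc))
      exact ⟨L'', by rw [hab, e1, List.cons_append], e2⟩

theorem unc_append (L L' : Pt V) : unc (L ++ L') = unc L ∪ unc L' := by
  ext u
  unfold unc
  simp only [List.mem_append, Set.mem_ofPred_eq, Set.mem_union]
  constructor
  · rintro ⟨a, h | h, h'⟩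
    · exact Or.inl ⟨a, h, h'⟩
    · exact Or.inr ⟨a, h, h'⟩
  · rintro (⟨a, h, h'⟩ | ⟨a, h, h'⟩)
    · exact ⟨a, Or.inl h, h'⟩
    · exact ⟨a, Or.inr h, h'⟩

theorem knet_ext (N : Net V) (L : Pt V) {k : Set (V × V)} (h : N.kl ∪ unc L = k)
    (hs : ∀ a b : V, (a, b) ∈ k → (b, a) ∈ k) :
    knet N L = { toTrg := N.toTrg, kl := k, klsym := hs, ex := N.ex } := by
  subst h
  rfl

theorem knet_knet (N : Net V) (L L' : Pt V) :
    knet (knet N L) (L ++ L') = knet N (L ++ L') := by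
  rw [knet_ext N (L ++ L') rfl (knet N (L ++ L')).klsym]
  refine knet_ext (knet N L) (L ++ L') ?_ _
  change N.kl ∪ unc L ∪ unc (L ++ L') = N.kl ∪ unc (L ++ L')
  rw [unc_append, Set.union_assoc, ← Set.union_assoc (unc L), Set.union_self]

theorem unc_nil : unc ([] : Pt V) = ∅ := by
  ext u
  unfold unc
  simp

theorem knet_nil (N : Net V) : knet N [] = N := by
  have := knet_ext N [] (k := N.kl) (by rw [unc_nil, Set.union_empty]) N.klsym
  rw [this]

theorem qx_nil (N : Net V) (t : V × V × V) : Qx N [] t = N.Q t := by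
  unfold Qx
  rw [unc_nil, if_neg (Set.notMem_empty _), knet_nil]

theorem qx_knet (N : Net V) (L L' : Pt V) (t : V × V × V) :
    Qx (knet N L) (L ++ L') t = Qx N (L ++ L') t := by
  unfold Qx
  rw [knet_knet]
  rfl

/-! ### iteration -/

/-- state of the exploration -/
abbrev St (V : Type) := Pt V × (V × V)

/-- one step of the exploration with the rule `st` -/
def stepJ (N : Net V) (st : St V → V × V → Prop) (J : Finset (V × V)) (x : St V) : St V :=
  nx N (st x) J

/-- the rule does not fire on the explored path -/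
def Fwd (st : St V → V × V → Prop) : Prop := ∀ x, ∀ a ∈ x.1, ¬ st x a.1

theorem step_append {N : Net V} (hg : Good N) {st : St V → V × V → Prop} (hst : Fwd st)
    {x : St V} {J : Finset (V × V)} (hJ : J ∈ Om N)
    (hF : Fol N.toTrg ∅ (D2 N) J (N.ex 0) x.1 x.2) :
    ∃ L'', (stepJ N st J x).1 = x.1 ++ L'' ∧
      Stopped N.toTrg ∅ (D2 N) (st x) J x.2 L'' (stepJ N st J x).2 :=
  fol_prefix x.1 _ _ _ _ hF (nx_spec hg hJ (st x)) (hst x)

variable {S : Finset ℂ} {N : Net ℂ}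

/-- weighted sum of the amplitudes of an explored network -/
def Y (S : Finset ℂ) (N : Net ℂ) (u : ℂ × ℂ × ℂ → ℂ) (x : St ℂ) : ℂ :=
  ∑ t ∈ delT S, u t * Qx N x.1 t

/-- the explored network carries an amplitude -/
def Alive (S : Finset ℂ) (N : Net ℂ) (x : St ℂ) : Prop := ∃ t ∈ delT S, Qx N x.1 t ≠ 0

/-- the cost of the step from `x` to `x'` -/
def cost (S : Finset ℂ) (N : Net ℂ) (st : St ℂ → ℂ × ℂ → Prop) (φ w : ℂ × ℂ × ℂ → ℂ)
    (ψ : ℂ × ℂ → ℂ) (x x' : St ℂ) : ℝ :=
  (if Alive S N x then err S (knet N x.1) (st x) (fun t => (φ t - ψ x.2) * w t) else 0) +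
    ‖ψ x'.2 - ψ x.2‖ * ‖Y S N w x'‖

theorem cost_nonneg (st : St ℂ → ℂ × ℂ → Prop) (φ w : ℂ × ℂ × ℂ → ℂ)
    (ψ : ℂ × ℂ → ℂ) (x x' : St ℂ) : 0 ≤ cost S N st φ w ψ x x' := by
  unfold cost
  refine add_nonneg ?_ (mul_nonneg (norm_nonneg _) (norm_nonneg _))
  split_ifs
  · exact err_nonneg _ _ _ _
  · exact le_refl _

/-- the centered sum -/
def Dv (S : Finset ℂ) (N : Net ℂ) (φ w : ℂ × ℂ × ℂ → ℂ) (ψ : ℂ × ℂ → ℂ) (x : St ℂ) : ℂ :=
  Y S N (fun t => (φ t - ψ x.2) * w t) x

theorem dv_change (φ w : ℂ × ℂ × ℂ → ℂ) (ψ : ℂ × ℂ → ℂ) (q : ℂ × ℂ) (x : St ℂ) :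
    ‖Y S N (fun t => (φ t - ψ q) * w t) x‖ ≤ ‖Dv S N φ w ψ x‖ + ‖ψ x.2 - ψ q‖ * ‖Y S N w x‖ := by
  have : Y S N (fun t => (φ t - ψ q) * w t) x = Dv S N φ w ψ x + (ψ x.2 - ψ q) * Y S N w x := by
    unfold Dv Y
    rw [Finset.mul_sum, ← Finset.sum_add_distrib]
    refine Finset.sum_congr rfl fun t _ => ?_
    ring
  rw [this, ← norm_mul]
  exact norm_add_le _ _

/-- one step from the state `x` -/
theorem step_le (h : HNet S N) {st : St ℂ → ℂ × ℂ → Prop} (hst : Fwd st)
    (φ w : ℂ × ℂ × ℂ → ℂ) (ψ : ℂ × ℂ → ℂ) {x : St ℂ} (hx : Ok N x.1 x.2) :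
    ((Om (knet N x.1)).card : ℝ) * ‖Dv S N φ w ψ x‖ ≤
      ∑ J ∈ Om (knet N x.1), (cost S N st φ w ψ x (stepJ N st J x) +
        ‖Dv S N φ w ψ (stepJ N st J x)‖) := by
  have hg := good_of_hnet h
  by_cases hA : Alive S N x
  · have h2 : N.ex 2 ∉ unc x.1 := by
      intro h'
      obtain ⟨t, _, ht⟩ := hA
      apply ht
      unfold Qx
      rw [if_pos h']
    have hN := hnet_ok h hx h2
    set u : ℂ × ℂ × ℂ → ℂ := fun t => (φ t - ψ x.2) * w t with hu
    have h1 := one_step hN (st x) u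
    have e1 : ∑ t ∈ delT S, u t * (knet N x.1).Q t = Dv S N φ w ψ x := by
      unfold Dv Y Qx
      simp only [if_neg h2, hu]
    have e2 : ∀ J ∈ Om (knet N x.1), ∑ t ∈ delT S, u t *
        Qx (knet N x.1) (nx (knet N x.1) (st x) J).1 t = Y S N u (stepJ N st J x) := by
      intro J hJ
      rw [om_knet hg hx, Finset.mem_filter] at hJ
      obtain ⟨L'', e, _⟩ := step_append hg hst hJ.1 hJ.2
      unfold Y
      refine Finset.sum_congr rfl fun t _ => ?_
      have e3 : (nx (knet N x.1) (st x) J).1 = x.1 ++ L'' := e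
      rw [e3, qx_knet, ← e]
    rw [e1, Finset.sum_congr rfl e2] at h1
    have h3 : ((Om (knet N x.1)).card : ℝ) * ‖Dv S N φ w ψ x‖ ≤
        ((Om (knet N x.1)).card : ℝ) * err S (knet N x.1) (st x) u +
          ∑ J ∈ Om (knet N x.1), ‖Y S N u (stepJ N st J x)‖ := by
      have h4 := norm_sub_norm_le (((Om (knet N x.1)).card : ℂ) * Dv S N φ w ψ x)
        (∑ J ∈ Om (knet N x.1), Y S N u (stepJ N st J x))
      have h5 := norm_sum_le (Om (knet N x.1)) (fun J => Y S N u (stepJ N st J x))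
      rw [norm_mul, Complex.norm_natCast] at h4
      linarith
    refine h3.trans ?_
    rw [← nsmul_eq_mul, ← Finset.sum_const, ← Finset.sum_add_distrib]
    refine Finset.sum_le_sum fun J _ => ?_
    have h6 := dv_change (S := S) (N := N) φ w ψ x.2 (stepJ N st J x)
    unfold cost
    rw [if_pos hA]
    linarith
  · have h0 : Dv S N φ w ψ x = 0 := by
      unfold Dv Y
      refine Finset.sum_eq_zero fun t ht => ?_
      have : Qx N x.1 t = 0 := by
        by_contra h'
        exact hA ⟨t, ht, h'⟩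
      rw [this, mul_zero]
    rw [h0, norm_zero, mul_zero]
    exact Finset.sum_nonneg fun J _ => add_nonneg (cost_nonneg _ _ _ _ _ _) (norm_nonneg _)

/-- **ITERATION** -/
theorem iter (h : HNet S N) {st : St ℂ → ℂ × ℂ → Prop} (hst : Fwd st)
    (φ w : ℂ × ℂ × ℂ → ℂ) (ψ : ℂ × ℂ → ℂ) : ∀ (n : ℕ) (x : St ℂ), Ok N x.1 x.2 →
    ((Om (knet N x.1)).card : ℝ) * ‖Dv S N φ w ψ x‖ ≤
      ∑ J ∈ Om (knet N x.1), (∑ j ∈ Finset.range n, cost S N st φ w ψ
        ((stepJ N st J)^[j] x) ((stepJ N st J)^[j + 1] x) +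
        ‖Dv S N φ w ψ ((stepJ N st J)^[n] x)‖) := by
  have hg := good_of_hnet h
  intro n
  induction n with
  | zero =>
    intro x _
    simp
  | succ n ih =>
    intro x hx
    by_cases h2 : N.ex 2 ∈ unc x.1
    · have h0 : Dv S N φ w ψ x = 0 := by
        unfold Dv Y
        refine Finset.sum_eq_zero fun t ht => ?_
        unfold Qx
        rw [if_pos h2, mul_zero]
      rw [h0, norm_zero, mul_zero]
      exact Finset.sum_nonneg fun J _ => add_nonneg
        (Finset.sum_nonneg fun j _ => cost_nonneg _ _ _ _ _ _) (norm_nonneg _)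
    refine (step_le h hst φ w ψ hx).trans ?_
    set F : St ℂ → Finset (ℂ × ℂ) → ℝ := fun y J => ∑ j ∈ Finset.range n, cost S N st φ w ψ
        ((stepJ N st J)^[j] y) ((stepJ N st J)^[j + 1] y) +
        ‖Dv S N φ w ψ ((stepJ N st J)^[n] y)‖ with hF
    have key : ∑ J ∈ Om (knet N x.1), ‖Dv S N φ w ψ (stepJ N st J x)‖ ≤
        ∑ J ∈ Om (knet N x.1), F (stepJ N st J x) J := by
      have hg' := good_knet hg hx h2
      rw [sum_nx hg' (st x), sum_nx hg' (st x) (fun J => F (stepJ N st J x) J)]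
      refine Finset.sum_le_sum fun y hy => ?_
      have hy' := hy
      obtain ⟨J0, hJ0, hJy⟩ := Finset.mem_image.1 hy'
      have hJ0' := hJ0
      have hJ0'' : J0 ∈ Om (knet N x.1) := hJ0
      rw [om_knet hg hx, Finset.mem_filter] at hJ0''
      have hJy' : stepJ N st J0 x = y := hJy
      obtain ⟨L'', e, _⟩ := step_append hg hst hJ0''.1 hJ0''.2
      rw [hJy'] at e
      have hk : knet (knet N x.1) y.1 = knet N y.1 := by rw [e, knet_knet]
      have hok : Ok N y.1 y.2 := hJy' ▸ nx_ok hg hJ0''.1 (st x)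
      have hf : ∀ J ∈ Om (knet (knet N x.1) y.1), stepJ N st J x = y :=
        fun J hJ => (nx_fibre hg' hy hJ).2
      have a1 : ∑ J ∈ Om (knet (knet N x.1) y.1), ‖Dv S N φ w ψ (stepJ N st J x)‖ =
          ((Om (knet N y.1)).card : ℝ) * ‖Dv S N φ w ψ y‖ := by
        rw [Finset.sum_congr rfl (g := fun _ => ‖Dv S N φ w ψ y‖)
          (fun J hJ => by rw [hf J hJ]), hk, Finset.sum_const, nsmul_eq_mul]
      have a2 : ∑ J ∈ Om (knet (knet N x.1) y.1), F (stepJ N st J x) J =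
          ∑ J ∈ Om (knet N y.1), F y J := by
        rw [Finset.sum_congr rfl (g := fun J => F y J) (fun J hJ => by rw [hf J hJ]), hk]
      rw [a1, a2]
      exact ih y hok
    have e : ∀ J, ∑ j ∈ Finset.range (n + 1), cost S N st φ w ψ
        ((stepJ N st J)^[j] x) ((stepJ N st J)^[j + 1] x) +
        ‖Dv S N φ w ψ ((stepJ N st J)^[n + 1] x)‖ =
        cost S N st φ w ψ x (stepJ N st J x) + F (stepJ N st J x) J := by
      intro J
      rw [Finset.sum_range_succ', hF]
      simp only [Function.iterate_succ_apply, Function.iterate_zero, id]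
      ring
    rw [Finset.sum_congr rfl (fun J _ => e J), Finset.sum_add_distrib, Finset.sum_add_distrib]
    exact add_le_add (le_refl _) key

/-! ### the end of the exploration -/

/-- at the end of the leg all amplitudes vanish -/
theorem qx_end {N : Net V} (hg : Good N) {x : St V} (hok : Ok N x.1 x.2)
    (hend : sw x.2 ∈ N.exS) {t : V × V × V} (ht : t ∈ N.T) : Qx N x.1 t = 0 := by
  by_contra hne
  have h2 : N.ex 2 ∉ unc x.1 := by
    intro h
    apply hne
    unfold Qx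
    rw [if_pos h]
  have hQ : (knet N x.1).Q t ≠ 0 := by
    intro h
    apply hne
    unfold Qx
    rw [if_neg h2, h]
  obtain ⟨J, hJ, k, hk⟩ := exists_tri hQ
  obtain ⟨hJt, hF⟩ := of_om hg ht hok h2 hJ hk
  obtain ⟨i, hi, hl⟩ := from_ex0 hg ht hJt hk 0
  have e := term_unique (Or.inl hend) (term_side ht hi) (fol_leads _ _ _ hF) hl
  obtain ⟨z, hz, _⟩ := sd_tri ht i
  rw [← e] at hz
  exact mark_bdry hg _ _ hend z hz

/-- the rule does not fire at the tip -/
def Prog (st : St V → V × V → Prop) : Prop := ∀ x, ¬ st x x.2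

/-- the states along the interface `J` -/
theorem iterate_fol {N : Net V} (hg : Good N) {st : St V → V × V → Prop}
    {J : Finset (V × V)} (hJ : J ∈ Om N) (n : ℕ) :
    Fol N.toTrg ∅ (D2 N) J (N.ex 0) ((stepJ N st J)^[n] ([], N.ex 0)).1
      ((stepJ N st J)^[n] ([], N.ex 0)).2 := by
  cases n with
  | zero => exact rfl
  | succ n =>
    rw [Function.iterate_succ_apply']
    exact (nx_spec hg hJ _).1

theorem iterate_ok {N : Net V} (hg : Good N) {st : St V → V × V → Prop}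
    {J : Finset (V × V)} (hJ : J ∈ Om N) (n : ℕ) :
    Ok N ((stepJ N st J)^[n] ([], N.ex 0)).1 ((stepJ N st J)^[n] ([], N.ex 0)).2 :=
  ⟨J, hJ, iterate_fol hg hJ n⟩

/-- after `n` steps the leg has ended or the explored path has length at least `n` -/
theorem iterate_len {N : Net V} (hg : Good N) {st : St V → V × V → Prop} (hst : Fwd st)
    (hpr : Prog st) {J : Finset (V × V)} (hJ : J ∈ Om N) (n : ℕ) :
    n ≤ ((stepJ N st J)^[n] ([], N.ex 0)).1.length ∨
      sw ((stepJ N st J)^[n] ([], N.ex 0)).2 ∈ D2 N := by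
  induction n with
  | zero => exact Or.inl (Nat.zero_le _)
  | succ n ih =>
    rw [Function.iterate_succ_apply']
    set x := (stepJ N st J)^[n] ([], N.ex 0) with hx
    obtain ⟨L'', e, h1, h2, h3⟩ := step_append hg hst hJ (iterate_fol (st := st) hg hJ n)
    rw [← hx] at e h1 h2 h3
    rcases L'' with _ | ⟨a, L''⟩
    · change x.2 = (stepJ N st J x).2 at h1
      rw [← h1] at h3 ⊢
      rcases h3 with h3 | h3 | ⟨_, c, _, h3⟩
      · exact absurd h3 (hpr x)
      · exact Or.inr h3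
      · exact h3.elim
    · rcases ih with ih | ih
      · left
        rw [e, List.length_append, List.length_cons]
        omega
      · exfalso
        obtain ⟨_, m, _, hs, _⟩ := h1
        exact step_pre hs ih

theorem len_bound {N : Net V} (hg : Good N) {J : Finset (V × V)} (hJ : J ∈ Om N) {L : Pt V}
    {q : V × V} (hF : Fol N.toTrg ∅ (D2 N) J (N.ex 0) L q) :
    L.length ≤ (nx N (fun _ => False) J).1.length := by
  obtain ⟨L'', e, _⟩ := fol_prefix L _ _ _ _ hF (nx_spec hg hJ (fun _ => False)) (by simp)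
  rw [e, List.length_append]
  omega

/-- a number of steps after which every interface has ended -/
def fuel (N : Net V) : ℕ := (Om N).sup (fun J => (nx N (fun _ => False) J).1.length) + 1

theorem iterate_end {N : Net V} (hg : Good N) {st : St V → V × V → Prop} (hst : Fwd st)
    (hpr : Prog st) {J : Finset (V × V)} (hJ : J ∈ Om N) {n : ℕ} (hn : fuel N ≤ n) :
    sw ((stepJ N st J)^[n] ([], N.ex 0)).2 ∈ D2 N := by
  rcases iterate_len hg hst hpr hJ n with h | h
  · exfalso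
    have h1 := len_bound hg hJ (iterate_fol (st := st) hg hJ n)
    have h2 : (nx N (fun _ => False) J).1.length ≤
        (Om N).sup (fun J => (nx N (fun _ => False) J).1.length) :=
      Finset.le_sup (f := fun J => (nx N (fun _ => False) J).1.length) hJ
    unfold fuel at hn
    omega
  · exact h

/-- **the finite-net inequality of STEP 4** -/
theorem mab (h : HNet S N) {st : St ℂ → ℂ × ℂ → Prop} (hst : Fwd st) (hpr : Prog st)
    (φ w : ℂ × ℂ × ℂ → ℂ) (ψ : ℂ × ℂ → ℂ) {n : ℕ} (hn : fuel N ≤ n) :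
    ‖∑ t ∈ delT S, φ t * w t * N.Q t‖ ≤ ‖ψ (N.ex 0)‖ * ‖∑ t ∈ delT S, w t * N.Q t‖ +
      (∑ J ∈ Om N, ∑ j ∈ Finset.range n, cost S N st φ w ψ
        ((stepJ N st J)^[j] ([], N.ex 0)) ((stepJ N st J)^[j + 1] ([], N.ex 0))) /
        ((Om N).card : ℝ) := by
  have hg := good_of_hnet h
  have hT : ∀ t, t ∈ delT S → t ∈ N.T := fun t ht => h.tri ▸ ht
  rcases (Om N).eq_empty_or_nonempty with he | hne
  · have h0 : ∀ t ∈ delT S, N.Q t = 0 := by
      intro t ht
      by_contra hQ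
      obtain ⟨J, hJ, k, hk⟩ := exists_tri hQ
      obtain ⟨J1, hJ1⟩ := om_ne (hT t ht) hJ hk
      rw [he] at hJ1
      exact absurd hJ1 (Finset.notMem_empty _)
    have h1 : ∑ t ∈ delT S, φ t * w t * N.Q t = 0 :=
      Finset.sum_eq_zero fun t ht => by rw [h0 t ht, mul_zero]
    rw [h1, norm_zero, he, Finset.sum_empty, zero_div, add_zero]
    exact mul_nonneg (norm_nonneg _) (norm_nonneg _)
  · have hc : (0 : ℝ) < ((Om N).card : ℝ) := by exact_mod_cast hne.card_pos
    obtain ⟨J0, hJ0⟩ := hne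
    have hok : Ok N ([] : Pt ℂ) (N.ex 0) := ⟨J0, hJ0, rfl⟩
    have h1 := iter h hst φ w ψ n ([], N.ex 0) hok
    rw [knet_nil, Finset.sum_add_distrib] at h1
    have h2 : ∑ J ∈ Om N, ‖Dv S N φ w ψ ((stepJ N st J)^[n] ([], N.ex 0))‖ = 0 := by
      refine Finset.sum_eq_zero fun J hJ => ?_
      have h3 := iterate_end hg hst hpr hJ hn
      unfold Dv Y
      rw [Finset.sum_eq_zero, norm_zero]
      intro t ht
      rw [qx_end hg (iterate_ok hg hJ n) (D2_sub N h3) (hT t ht), mul_zero]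
    rw [h2, add_zero] at h1
    have h4 : ∑ t ∈ delT S, φ t * w t * N.Q t = Dv S N φ w ψ ([], N.ex 0) +
        ψ (N.ex 0) * ∑ t ∈ delT S, w t * N.Q t := by
      unfold Dv Y
      rw [Finset.mul_sum, ← Finset.sum_add_distrib]
      refine Finset.sum_congr rfl fun t _ => ?_
      rw [qx_nil]
      ring
    rw [h4]
    refine (norm_add_le _ _).trans ?_
    rw [norm_mul, add_comm]
    refine add_le_add (le_refl _) ?_
    rw [le_div_iff₀ hc, mul_comm]
    exact h1

end Crest.Agent.R143.Mabx377
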