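import Crest.Agent.R143.Sides_697
import Crest.Agent.R143.Planar_54

/-!
# Row 143, block P: three legs from a triangle (helper697)

* `leg_odd` : a join with the odd triangle `t` without the leg of one side of `t`
* `p1` : **P1** : three legs end in cyclic order
* `tri_side` : **leaf (D)** : a triangle with the vertex `w` on the side `i`: `Q = A om ^ (i + 1)`,
  `A ≥ 0`; monotonicity of the observable along the side
-/

set_option autoImplicit false
set_option linter.unusedSimpArgs false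
set_option linter.unusedVariables false

noncomputable section

open scoped Classical

namespace Crest.Agent.R143.Monox697

open Crest.Agent.R143.B0x346 Crest.Agent.R143.JCardx872 Crest.Agent.R143.Sidesx697
open Crest.Agent.R143.J1x872 (sd sd0 sd1 sd2 sw Good En P1 sd_tri of_rots sd_inj)
open Crest.Agent.R143.JWalkx872 (RotInv rotInv_rots Term exists_end mark_pre side_pre
  term_unique leads_mem leads_step_mem step_pre)

variable {V : Type}

section odd

variable {G : Trg V} {kl : Set (V × V)} {t : V × V × V} {D : Set (V × V)} {J : Finset (V × V)}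

/-- the part of a join off the states reached from `p` -/
def offO (G : Trg V) (O : Set (V × V × V)) (D : Set (V × V)) (J : Finset (V × V)) (p : V × V) :
    Finset (V × V) :=
  J.filter fun q => ¬ Leads G O D J p q ∧ ¬ Leads G O D J p (rev q)

theorem mem_offO {O : Set (V × V × V)} {p q : V × V} : q ∈ offO G O D J p ↔
    q ∈ J ∧ ¬ Leads G O D J p q ∧ ¬ Leads G O D J p (rev q) := by
  unfold offO; rw [Finset.mem_filter]

theorem ends_uniqueO {O : Set (V × V × V)} {p x y : V × V} (hx : x ∈ D) (hy : y ∈ D)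
    (h : Leads G O D J p (rev x)) (h' : Leads G O D J p (rev y)) : x = y := by
  have h1 : rev x = rev y := term_unique (Or.inl hx) (Or.inl hy) h h'
  have := congrArg rev h1
  simpa using this

/-- exactly two occupied sides, off the odd triangle -/
theorem par2O {O : Set (V × V × V)} (hJ : IsJoin G kl O D J) {a b c : V} (h : (a, b, c) ∈ G.T)
    (hO : (a, b, c) ∉ O) :
    ((a, b) ∈ J ∧ (b, c) ∈ J ∧ (c, a) ∉ J) ∨ ((a, b) ∈ J ∧ (b, c) ∉ J ∧ (c, a) ∈ J) ∨
    ((a, b) ∉ J ∧ (b, c) ∈ J ∧ (c, a) ∈ J) ∨ ((a, b) ∉ J ∧ (b, c) ∉ J ∧ (c, a) ∉ J) := by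
  have h1 := hJ.par a b c h
  rw [if_neg hO] at h1
  by_cases g1 : (a, b) ∈ J <;> by_cases g2 : (b, c) ∈ J <;> by_cases g3 : (c, a) ∈ J <;>
    simp [g1, g2, g3] at h1 ⊢

theorem rots_iff {a b c : V} : (b, c, a) ∈ rots t ↔ (a, b, c) ∈ rots t := by
  have h := rotInv_rots t
  exact ⟨fun h1 => h _ _ _ (h _ _ _ h1), fun h1 => h _ _ _ h1⟩

theorem rots_three {a b c u v y : V} (hO : (a, b, c) ∈ rots t) (h : (u, v, y) ∈ rots t) :
    (u, v, y) = (a, b, c) ∨ (u, v, y) = (b, c, a) ∨ (u, v, y) = (c, a, b) := by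
  obtain ⟨t1, t2, t3⟩ := t
  unfold rots at h hO
  rcases hO with hO | hO | hO <;> rcases h with h | h | h <;>
    (simp only [Set.mem_singleton_iff, Prod.mk.injEq] at h hO ⊢
     obtain ⟨rfl, rfl, rfl⟩ := hO
     obtain ⟨rfl, rfl, rfl⟩ := h
     tauto)

theorem rots_side {a b c z : V} {s : V × V} (hO : (a, b, c) ∈ rots t)
    (h : (s.1, s.2, z) ∈ rots t) : s = (a, b) ∨ s = (b, c) ∨ s = (c, a) := by
  obtain ⟨s1, s2⟩ := s
  rcases rots_three hO h with h | h | h
  · left
    simp only [Prod.mk.injEq] at h ⊢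
    exact ⟨h.1, h.2.1⟩
  · right; left
    simp only [Prod.mk.injEq] at h ⊢
    exact ⟨h.1, h.2.1⟩
  · right; right
    simp only [Prod.mk.injEq] at h ⊢
    exact ⟨h.1, h.2.1⟩

/-- parity at the odd triangle after removal of one side -/
theorem par_odd (hJ : IsJoin G kl (rots t) D J) {s : V × V} (hsJ : s ∈ J) {a b c : V}
    (hT : (a, b, c) ∈ G.T) (hO : (a, b, c) ∈ rots t) (hs3 : s = (a, b) ∨ s = (b, c) ∨ s = (c, a)) :
    ((if (a, b) ∈ J ∧ (a, b) ≠ s then 1 else 0) + (if (b, c) ∈ J ∧ (b, c) ≠ s then 1 else 0) +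
      (if (c, a) ∈ J ∧ (c, a) ≠ s then 1 else 0)) % 2 = 0 := by
  have hT1 := G.rot hT
  have hT2 := G.rot hT1
  have hpar := hJ.par a b c hT
  rw [if_pos hO] at hpar
  have hne1 : (a, b) ≠ (b, c) := fun h => G.ne hT (congrArg Prod.fst h)
  have hne2 : (b, c) ≠ (c, a) := fun h => G.ne hT1 (congrArg Prod.fst h)
  have hne3 : (c, a) ≠ (a, b) := fun h => G.ne hT2 (congrArg Prod.fst h)
  rcases hs3 with rfl | rfl | rfl
  · by_cases g2 : (b, c) ∈ J <;> by_cases g3 : (c, a) ∈ J
    all_goals
      simp only [hsJ, g2, g3, if_true, if_false, ne_eq, not_true_eq_false, and_false, hne1.symm,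
        hne3, not_false_eq_true, and_true, and_self, false_and] at hpar ⊢
      try omega
  · by_cases g1 : (a, b) ∈ J <;> by_cases g3 : (c, a) ∈ J
    all_goals
      simp only [hsJ, g1, g3, if_true, if_false, ne_eq, not_true_eq_false, and_false, hne1,
        hne2.symm, not_false_eq_true, and_true, and_self, false_and] at hpar ⊢
      try omega
  · by_cases g1 : (a, b) ∈ J <;> by_cases g2 : (b, c) ∈ J
    all_goals
      simp only [hsJ, g1, g2, if_true, if_false, ne_eq, not_true_eq_false, and_false, hne3.symm,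
        hne2, not_false_eq_true, and_true, and_self, false_and] at hpar ⊢
      try omega

/-- a reached occupied state: the other occupied side of its left triangle -/
theorem fwdO {O : Set (V × V × V)} (hJ : IsJoin G kl O D J) {p a b : V × V} (ha : a ∈ J)
    (hb : b ∈ J) {c : V} (ht : (a.1, a.2, c) ∈ G.T) (hO : (a.1, a.2, c) ∉ O)
    (hbt : b = (a.2, c) ∨ b = (c, a.1)) (h : Leads G O D J p a) : Leads G O D J p (rev b) := by
  refine Relation.ReflTransGen.tail h ⟨c, ht, hO, ?_, ?_⟩
  · intro h1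
    exact (hJ.mark _ _ h1).2 ha
  · have h2 := par2O hJ ht hO
    rcases hbt with rfl | rfl
    · left
      exact ⟨hb, rfl⟩
    · right
      refine ⟨hb, ?_, rfl⟩
      have ha' : (a.1, a.2) ∈ J := ha
      tauto

/-- a side through which the walk leaves the triangle; `rev p` occupied or `p` a mark -/
theorem bwdO {O : Set (V × V × V)} (hJ : IsJoin G kl O D J) (hRO : RotInv O) {p a b : V × V}
    (hp : p ∈ J ∨ rev p ∈ D) (ha : a ∈ J)
    (hb : b ∈ J) {c : V} (ht : (a.1, a.2, c) ∈ G.T) (hO : (a.1, a.2, c) ∉ O)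
    (hpa : rev a ≠ p) (hbt : b = (a.2, c) ∨ b = (c, a.1)) (h : Leads G O D J p (rev a)) :
    Leads G O D J p b := by
  rcases Relation.ReflTransGen.cases_tail h with h1 | ⟨s, hs, h1⟩
  · exact absurd h1 hpa
  · obtain ⟨e, h2, h2O, h3, h4⟩ := h1
    have hsJ : s ∈ J := by
      rcases Relation.ReflTransGen.cases_tail hs with h5 | ⟨s', hs', h5⟩
      · rcases hp with hp | hp
        · rw [h5]; exact hp
        · rw [← h5] at hp; exact absurd hp h3
      · rcases JWalkx872.step_mem hJ h5 with h6 | h6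
        · exact h6
        · exact absurd h6 h3
    have key : s = b := by
      have hT := G.rot ht
      have hT2 := G.rot hT
      rcases h4 with ⟨h5, h6⟩ | ⟨h5, h6, h7⟩
      · have ha' : a = (s.2, e) := by
          have := congrArg rev h6
          simpa using this
        have h8 : (s.2, e, s.1) ∈ G.T := G.rot h2
        rw [ha'] at ht
        have hc : c = s.1 := G.uniq ht h8
        have h9 := par2O hJ h2 h2O
        rcases hbt with hb' | hb'
        · exfalso
          have hb2 : (e, s.1) ∈ J := by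
            rw [hb', ha', hc] at hb; exact hb
          have hs2 : (s.1, s.2) ∈ J := hsJ
          tauto
        · rw [hb', ha', hc]
      · have ha' : a = (e, s.1) := by
          have := congrArg rev h7
          simpa using this
        have h8 : (e, s.1, s.2) ∈ G.T := G.rot (G.rot h2)
        rw [ha'] at ht
        have hc : c = s.2 := G.uniq ht h8
        rcases hbt with hb' | hb'
        · rw [hb', ha', hc]
        · exfalso
          have hb2 : (s.2, e) ∈ J := by
            rw [hb', ha', hc] at hb; exact hb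
          exact h6 hb2
    rw [← key]; exact hs

/-- **a join with the odd triangle `t` without the leg of the side `s` of `t`** -/
theorem leg_odd (hJ : IsJoin G kl (rots t) D J) (ht : t ∈ G.T) {s x : V × V} {z : V}
    (hs : (s.1, s.2, z) ∈ rots t) (hsT : (s.1, s.2, z) ∈ G.T) (hsJ : s ∈ J) (hx : x ∈ D)
    (hpx : Leads G (rots t) D J (rev s) (rev x)) :
    IsJoin G kl ∅ (D \ {x}) (offO G (rots t) D J (rev s)) ∧
      ∀ s', s' ∈ J → (∃ z', (s'.1, s'.2, z') ∈ rots t ∧ (s'.1, s'.2, z') ∈ G.T) → s' ≠ s →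
        s' ∈ offO G (rots t) D J (rev s) := by
  have hRO := rotInv_rots t
  have hrx : rev x ∉ J := (hJ.mark _ _ hx).2
  have hp : rev s ∈ J ∨ rev (rev s) ∈ D := by
    rw [rev_rev]
    by_cases h1 : s ∈ D
    · exact Or.inr h1
    · by_cases h2 : rev s ∈ D
      · exact Or.inl (hJ.mark _ _ h2).1
      · exact Or.inl ((hJ.sym _ _ h1 h2).1 hsJ)
  have hpre : ∀ q, ¬ Step G (rots t) D J q (rev s) := fun q => side_pre hRO hsT hs q
  have nx : x ∉ offO G (rots t) D J (rev s) := fun h => (mem_offO.1 h).2.2 hpx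
  have nrx : rev x ∉ offO G (rots t) D J (rev s) := fun h => hrx (mem_offO.1 h).1
  have ns : s ∉ offO G (rots t) D J (rev s) := fun h =>
    (mem_offO.1 h).2.2 Relation.ReflTransGen.refl
  -- the other sides of `t` stay
  have stay : ∀ s', s' ∈ J → (∃ z', (s'.1, s'.2, z') ∈ rots t ∧ (s'.1, s'.2, z') ∈ G.T) →
      s' ≠ s → s' ∈ offO G (rots t) D J (rev s) := by
    rintro s' h1 ⟨z', h2, h3⟩ h4
    refine mem_offO.2 ⟨h1, fun h5 => ?_, fun h5 => ?_⟩
    · have h6 : rev x = s' := term_unique (Or.inl hx) (Or.inr ⟨h1, z', h3, h2⟩) hpx h5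
      exact hrx (h6 ▸ h1)
    · rcases Relation.ReflTransGen.cases_tail h5 with h6 | ⟨q, -, h6⟩
      · have := congrArg rev h6
        simp only [rev_rev] at this
        exact h4 this
      · exact side_pre hRO h3 h2 q h6
  refine ⟨⟨fun q hq => hJ.sub (mem_offO.1 hq).1, ?_, ?_, ?_, ?_, ?_⟩, stay⟩
  · intro a b h1 h2
    by_cases h3 : (a, b) ∈ D
    · have h4 : (a, b) = x := by
        by_contra h5
        exact h1 ⟨h3, h5⟩
      have h5 : (b, a) = rev x := by rw [← h4]; rfl
      rw [h4, h5]; tauto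
    · by_cases h3' : (b, a) ∈ D
      · have h4 : (b, a) = x := by
          by_contra h5
          exact h2 ⟨h3', h5⟩
        have h5 : (a, b) = rev x := by rw [← h4]; rfl
        rw [h4, h5]; tauto
      · rw [mem_offO, mem_offO, hJ.sym a b h3 h3']
        simp only [rev_mk]
        tauto
  · rintro a b ⟨h1, h2⟩
    have h3 := hJ.mark a b h1
    refine ⟨mem_offO.2 ⟨h3.1, fun h => ?_, fun h => ?_⟩, fun h => h3.2 (mem_offO.1 h).1⟩
    · rcases Sidesx697.leads_rev h with h4 | h4
      · have h5 : (b, a) = s := by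
          have := congrArg rev h4
          simpa using this
        exact h3.2 (h5 ▸ hsJ)
      · exact h3.2 h4
    · exact h2 (ends_uniqueO hx h1 hpx h).symm
  · intro a b h1 h2
    by_cases h3 : (a, b) ∈ D
    · have h4 : (a, b) = x := by
        by_contra h5
        exact h2 ⟨h3, h5⟩
      have h5 : (b, a) = rev x := by rw [← h4]; rfl
      rw [h4, h5]; exact ⟨nx, nrx⟩
    · have h4 := hJ.bdr a b h1 h3
      exact ⟨fun h => h4.1 (mem_offO.1 h).1, fun h => h4.2 (mem_offO.1 h).1⟩
  · intro a b h1 h2 h2'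
    by_cases h3 : (a, b) ∈ D
    · have h4 : (a, b) = x := by
        by_contra h5
        exact h2 ⟨h3, h5⟩
      have h5 : (b, a) = rev x := by rw [← h4]; rfl
      rw [h4, h5]; exact ⟨nx, nrx⟩
    · by_cases h3' : (b, a) ∈ D
      · have h4 : (b, a) = x := by
          by_contra h5
          exact h2' ⟨h3', h5⟩
        have h5 : (a, b) = rev x := by rw [← h4]; rfl
        rw [h4, h5]; exact ⟨nrx, nx⟩
      · have h4 := hJ.kill a b h1 h3 h3'
        exact ⟨fun h => h4.1 (mem_offO.1 h).1, fun h => h4.2 (mem_offO.1 h).1⟩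
  · intro a b c hT
    have hT1 := G.rot hT
    have hT2 := G.rot hT1
    have offJ : ∀ q, q ∉ J → q ∉ offO G (rots t) D J (rev s) := fun q h h' =>
      h (mem_offO.1 h').1
    by_cases hO : (a, b, c) ∈ rots t
    · -- the odd triangle
      have hO1 : (b, c, a) ∈ rots t := hRO _ _ _ hO
      have hO2 : (c, a, b) ∈ rots t := hRO _ _ _ hO1
      have st : ∀ u v y : V, (u, v, y) ∈ rots t → (u, v, y) ∈ G.T →
          ((u, v) ∈ offO G (rots t) D J (rev s) ↔ (u, v) ∈ J ∧ (u, v) ≠ s) := by
        intro u v y h1 h2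
        constructor
        · intro h3
          exact ⟨(mem_offO.1 h3).1, fun h4 => ns (h4 ▸ h3)⟩
        · rintro ⟨h3, h4⟩
          exact stay _ h3 ⟨y, h1, h2⟩ h4
      -- `s` is one of the three
      have hs3 : s = (a, b) ∨ s = (b, c) ∨ s = (c, a) := rots_side hO hs
      have key := par_odd hJ hsJ hT hO hs3
      simp only [← st a b c hO hT, ← st b c a hO1 hT1, ← st c a b hO2 hT2] at key
      rw [if_neg (Set.notMem_empty _)]
      exact key
    · -- sides on the leg come in pairs
      have hO1 : (b, c, a) ∉ rots t := fun h => hO (rots_iff.1 h)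
      have hO2 : (c, a, b) ∉ rots t := fun h => hO1 (rots_iff.1 h)
      -- the reverse of a side of another triangle is not the start
      have hst : ∀ u v y : V, (u, v, y) ∈ G.T → (u, v, y) ∉ rots t → rev (u, v) ≠ rev s := by
        intro u v y h1 h2 h3
        have h4 : (u, v) = s := by
          have := congrArg rev h3
          simpa using this
        rw [← h4] at hs hsT
        have h5 : y = z := G.uniq h1 hsT
        rw [← h5] at hs
        exact h2 hs
      have pair : ∀ u v w : V, (u, v, w) ∈ G.T → (u, v, w) ∉ rots t → (u, v) ∈ J → (v, w) ∈ J →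
          ((u, v) ∈ offO G (rots t) D J (rev s) ↔ (v, w) ∈ offO G (rots t) D J (rev s)) := by
        intro u v w h hn h1 h2
        have h' := G.rot h
        have hn' : (v, w, u) ∉ rots t := fun h => hn (rots_iff.1 h)
        rw [mem_offO, mem_offO]
        constructor
        · rintro ⟨-, g1, g2⟩
          refine ⟨h2, fun g => g2 ?_, fun g => g1 ?_⟩
          · exact fwdO hJ h2 h1 h' hn' (Or.inr rfl) g
          · exact bwdO hJ hRO hp h2 h1 h' hn' (hst _ _ _ h' hn') (Or.inr rfl) g
        · rintro ⟨-, g1, g2⟩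
          refine ⟨h1, fun g => g2 ?_, fun g => g1 ?_⟩
          · exact fwdO hJ h1 h2 h hn (Or.inl rfl) g
          · exact bwdO hJ hRO hp h1 h2 h hn (hst _ _ _ h hn) (Or.inl rfl) g
      rcases par2O hJ hT hO with ⟨g1, g2, g3⟩ | ⟨g1, g2, g3⟩ | ⟨g1, g2, g3⟩ | ⟨g1, g2, g3⟩
      · have h1 := pair a b c hT hO g1 g2
        have h2 := offJ _ g3
        by_cases h3 : (a, b) ∈ offO G (rots t) D J (rev s)
        · simp [h1.1 h3, h2, h3]
        · simp [mt h1.2 h3, h2, h3]
      · have h1 := pair c a b hT2 hO2 g3 g1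
        have h2 := offJ _ g2
        by_cases h3 : (a, b) ∈ offO G (rots t) D J (rev s)
        · simp [h1.2 h3, h2, h3]
        · simp [mt h1.1 h3, h2, h3]
      · have h1 := pair b c a hT1 hO1 g2 g3
        have h2 := offJ _ g1
        by_cases h3 : (b, c) ∈ offO G (rots t) D J (rev s)
        · simp [h1.1 h3, h2, h3]
        · simp [mt h1.2 h3, h2, h3]
      · simp [offJ _ g1, offJ _ g2, offJ _ g3]

end odd

/-! ### networks on Delaunay triangulations -/

section tri

variable {S : Finset ℂ} {N : Net ℂ}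

open Crest.Agent.R143.JColx54 Crest.Agent.R143.JCol2x54

theorem vt_sd (t : ℂ × ℂ × ℂ) (i : ZMod 3) : (Planarx54.vt t i, Planarx54.vt t (i + 1)) = sd t i := by
  rcases Planarx54.z3 i with rfl | rfl | rfl
  · rw [sd0]; rfl
  · rw [sd1]; rfl
  · rw [sd2]; rfl

theorem st_sd (t : ℂ × ℂ × ℂ) (i : ZMod 3) : Planarx54.st t i = sw (sd t i) := by
  rw [← vt_sd]; rfl

/-- **P1** (54) in the form of 872 -/
theorem p1all : J1x872.P1all := by
  intro N S H t ht J hJ hocc e hE
  obtain ⟨k, hk⟩ := Planarx54.P1 H ht (JCardx872.mem_joins.2 hJ) (π := e)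
    (fun i => by rw [vt_sd]; exact hocc i) (fun i => by rw [st_sd]; exact hE i)
  rw [hk 0, hk 1, hk 2]
  constructor <;> ring

/-- an edge of the network is an adjacency -/
theorem E_of_adj (h : HNet S N) {a b : ℂ} (hab : Adj S a b) : (a, b) ∈ N.E := by
  unfold Trg.E
  rw [Finset.mem_union, Finset.mem_image, Finset.mem_image]
  rcases hab with ⟨c, hc⟩ | ⟨c, hc⟩
  · exact Or.inl ⟨(a, b, c), by rw [h.tri]; exact hc, rfl⟩
  · exact Or.inr ⟨(b, a, c), by rw [h.tri]; exact hc, rfl⟩

theorem z3_ne (k : ZMod 3) : k ≠ 1 + k := by revert k; decide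

/-- **three legs from a triangle with the vertex `w` on the side `i`** -/
theorem tri_side (h : HNet S N) {w u v : ℂ} (ht : (w, u, v) ∈ delT S) {i : ZMod 3}
    (hi : Side N i w) {J : Finset (ℂ × ℂ)} (hJ : J ∈ N.tj (w, u, v)) {k : ZMod 3}
    (hT : N.Tri3 (w, u, v) k J) : k = i + 1 := by
  have hg := J1x872.good_of_hnet h
  have htT : (w, u, v) ∈ N.T := by rw [h.tri]; exact ht
  have hJ' : IsJoin N.toTrg N.kl (rots (w, u, v)) N.exS J := JCardx872.mem_joins.1 hJ
  have hT' := (J1x872.tri3_iff k).1 hT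
  obtain ⟨o0, o1, o2, e0, e1, e2⟩ := hT
  -- the join without the leg of the side 1
  have hrot : (u, v, w) ∈ rots (w, u, v) := by unfold rots; right; left; rfl
  have hL := leg_odd hJ' htT (s := (u, v)) (z := w) (x := N.ex (1 + k)) hrot (N.rot htT) o1
    ⟨_, rfl⟩ e1
  obtain ⟨hL1, hL2⟩ := hL
  obtain ⟨σ, hσ⟩ := hasCol h _ (Set.sdiff_subset) _ hL1
  have hM := marks3_of h
  -- along the leg of the side 0, right hand
  have hrm : (u, w) ∉ N.exS := by
    have := J1x872.sw_sd_notMark hg htT 0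
    rw [sd0] at this
    exact this
  have hs : ∀ a b, Adj S a b → (a, b) ∉ J → (b, a) ∉ J → σ a = σ b := by
    intro a b h1 h2 h3
    by_contra h4
    rcases (hσ a b (E_of_adj h h1)).1 h4 with h5 | h5
    · exact h2 (mem_offO.1 h5).1
    · exact h3 (mem_offO.1 h5).1
  obtain ⟨n, p, hW, hp0, hpn⟩ := Planarx54.exists_wk e0
  have hr := (Planarx54.wk_lr h.gp h.tri (Planarx54.HNet.hullM h) hJ' hs hW
    (by rw [hp0]; exact o0) (by rw [hp0]; exact hrm) n le_rfl).2
  rw [hp0, hpn] at hr
  rw [zero_add] at hr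
  -- colours of the arcs
  have hinj := hg.inj
  have hEx : ∀ j, ((N.ex j).1, (N.ex j).2) ∈ N.E := fun j => mem_E_of_hull h (h.hex j)
  have hcol : ∀ j, Side N j w → σ w = σ (N.ex j).2 := fun j hj =>
    col_side hL1 Set.sdiff_subset hσ hj
  have harc : ∀ j, σ (N.ex (j + 1)).1 = σ (N.ex j).2 := fun j =>
    col_side hL1 Set.sdiff_subset hσ (hM.next j)
  have hx1 : ∀ j, j ≠ 1 + k → σ (N.ex j).1 ≠ σ (N.ex j).2 := by
    intro j hj
    refine (hσ _ _ (hEx j)).2 (Or.inl ?_)
    exact (hL1.mark _ _ (show ((N.ex j).1, (N.ex j).2) ∈ N.exS \ {N.ex (1 + k)} from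
      ⟨⟨j, rfl⟩, fun h' => hj (hinj h')⟩)).1
  have hx2 : σ (N.ex (1 + k)).1 = σ (N.ex (1 + k)).2 := by
    by_contra h1
    have h2 := (hσ _ _ (hEx (1 + k))).1 h1
    have h3 := hL1.bdr (N.ex (1 + k)).1 (N.ex (1 + k)).2
      (fun c hc => (h.hex (1 + k)).2 c (by rw [h.tri] at hc; exact hc))
      (fun h' => h'.2 rfl)
    tauto
  have hi' := hcol i hi
  simp only at hr
  -- `i = k + 2`
  have e3 : i ≠ k := by
    intro e
    rw [e] at hi'
    exact hx1 k (z3_ne k) (hr.trans hi')
  have e4 : i ≠ 1 + k := by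
    intro e
    rw [e, ← hx2, add_comm, harc] at hi'
    exact hx1 k (z3_ne k) (hr.trans hi')
  revert e3 e4
  clear * -
  revert i k
  decide

/-- only one rotation -/
theorem triA_side (h : HNet S N) {w u v : ℂ} (ht : (w, u, v) ∈ delT S) {i : ZMod 3}
    (hi : Side N i w) {k : ZMod 3} (hk : k ≠ i + 1) : N.triA (w, u, v) k = 0 := by
  unfold Net.triA
  rw [div_eq_zero_iff]
  left
  rw [Nat.cast_eq_zero, Finset.card_eq_zero, Finset.filter_eq_empty_iff]
  intro J hJ hT
  exact hk (tri_side h ht hi hJ hT)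

theorem triA_nonneg (N : Net ℂ) (t : ℂ × ℂ × ℂ) (k : ZMod 3) : 0 ≤ N.triA t k := by
  unfold Net.triA; positivity

theorem triA_le_one (N : Net ℂ) (t : ℂ × ℂ × ℂ) (k : ZMod 3) : N.triA t k ≤ 1 := by
  unfold Net.triA
  refine div_le_one_of_le₀ ?_ (Nat.cast_nonneg _)
  exact_mod_cast Finset.card_filter_le _ _

/-- **the amplitude of a triangle with a vertex on the side `i`** -/
theorem Q_side (h : HNet S N) {w u v : ℂ} (ht : (w, u, v) ∈ delT S) {i : ZMod 3}
    (hi : Side N i w) : N.Q (w, u, v) = (N.triA (w, u, v) (i + 1) : ℂ) * omz (i + 1) := by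
  unfold Net.Q
  rw [Finset.sum_eq_single (i + 1)]
  · intro k _ hk
    rw [triA_side h ht hi hk]
    simp
  · intro h'
    exact absurd (Finset.mem_univ _) h'

theorem om_ne_zero : om ≠ 0 := fun h => by
  have := J1x872.om_cube
  rw [h] at this
  norm_num at this

theorem om_ne_one : om ≠ 1 := by
  intro h
  have h1 := congrArg Complex.im h
  unfold om at h1
  rw [Complex.exp_ofReal_mul_I_im, Complex.one_im] at h1
  have h2 : 0 < Real.sin (2 * Real.pi / 3) :=
    Real.sin_pos_of_pos_of_lt_pi (by positivity) (by linarith [Real.pi_pos])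
  exact h2.ne' h1

theorem omz_add_two (k : ZMod 3) : omz (k + 2) = om ^ 2 * omz k := by
  rw [show k + 2 = k + 1 + 1 by ring, J1x872.omz_add_one, J1x872.omz_add_one]
  ring

/-- **leaf (D)**: monotonicity of the observable counterclockwise around a vertex on the side `i` -/
theorem F_mono (h : HNet S N) {w u v : ℂ} (ht : (w, u, v) ∈ delT S) {i : ZMod 3}
    (hi : Side N i w) (h1 : (w, u) ∉ N.kl) (h3 : (v, w) ∉ N.kl)
    (hne : (N.tj (w, u, v)).Nonempty ∨
      ((w, u) ∉ N.exS ∧ (u, v) ∉ N.exS ∧ (v, w) ∉ N.exS)) :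
    N.F v w = N.F w u - (N.triA (w, u, v) (i + 1) : ℂ) * (omz (i + 1) - omz i) := by
  by_cases h2 : (u, v) ∈ N.kl
  · -- no three legs
    have hr := delT_rot h.gp ht
    by_cases hm : (u, v) ∈ N.exS
    · obtain ⟨k, hk⟩ := hm
      exact absurd (hk ▸ h2) (h.live k)
    have hA : N.triA (w, u, v) (i + 1) = 0 := by
      unfold Net.triA
      rw [div_eq_zero_iff]
      left
      rw [Nat.cast_eq_zero, Finset.card_eq_zero, Finset.filter_eq_empty_iff]
      intro J hJ hT
      have hvu : (v, u) ∉ N.exS := by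
        have := J1x872.sw_sd_notMark (J1x872.good_of_hnet h) (t := (u, v, w))
          (by rw [h.tri]; exact hr) 0
        rw [sd0] at this
        exact this
      exact ((JCardx872.mem_joins.1 hJ).kill _ _ h2 hm hvu).1 hT.2.1
    have hne' : (N.tj (u, v, w)).Nonempty ∨ ((v, w) ∉ N.exS ∧ (w, u) ∉ N.exS) := by
      rcases hne with h4 | h4
      · left; rw [J1x872.tj_rot]; exact h4
      · right; exact ⟨h4.2.2, h4.1⟩
    have := J1x872.j2 p1all N S h u v w hr h2 h3 h1 hne'
    rw [this, hA]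
    simp
  · obtain ⟨c, hc1, hc2, hc3⟩ := J1x872.j1 p1all N S h (w, u, v) ht h1 h2 h3 hne
    simp only at hc1 hc2 hc3
    rw [hc3, hc1, Q_side h ht hi]
    have e1 : omz (i + 1) = om * omz i := J1x872.omz_add_one i
    have e2 := J1x872.om_cube
    rw [e1]
    linear_combination ((N.triA (w, u, v) (i + 1) : ℂ) * omz i) * e2

/-- the same for the probabilities (unmarked edges) -/
theorem pe_mono (h : HNet S N) {w u v : ℂ} (ht : (w, u, v) ∈ delT S) {i : ZMod 3}
    (hi : Side N i w) (h1 : (w, u) ∉ N.kl) (h3 : (v, w) ∉ N.kl)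
    (m1 : (w, u) ∉ N.exS) (m1' : (u, w) ∉ N.exS) (m2 : (u, v) ∉ N.exS) (m3 : (v, w) ∉ N.exS)
    (m3' : (w, v) ∉ N.exS) (n1 : (N.hj w u).Nonempty ∨ (N.hj u w).Nonempty)
    (n3 : (N.hj v w).Nonempty ∨ (N.hj w v).Nonempty) :
    Net.pe N v w (i + 1) = Net.pe N w u (i + 1) - N.triA (w, u, v) (i + 1) := by
  have hg := J1x872.good_of_hnet h
  have e := F_mono h ht hi h1 h3 (Or.inr ⟨m1, m2, m3⟩)
  rw [F_eq_Fob N m1 m1', F_eq_Fob N m3 m3'] at e
  rw [(Fob_side hg (marks3_of h) (hasCol h) m1 m1' (Or.inl hi) n1).2,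
    (Fob_side hg (marks3_of h) (hasCol h) m3 m3' (Or.inr hi) n3).2] at e
  have hne : omz (i + 1) - omz i ≠ 0 := by
    rw [J1x872.omz_add_one]
    have h5 : om ≠ 1 := om_ne_one
    have h6 : omz i ≠ 0 := by
      unfold omz
      exact pow_ne_zero _ om_ne_zero
    intro h7
    apply h5
    have h8 : (om - 1) * omz i = 0 := by linear_combination h7
    rcases mul_eq_zero.1 h8 with h9 | h9
    · linear_combination h9
    · exact absurd h9 h6
  have e2 : ((Net.pe N v w (i + 1) : ℂ) - ((Net.pe N w u (i + 1) : ℂ) -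
      (N.triA (w, u, v) (i + 1) : ℂ))) * (omz (i + 1) - omz i) = 0 := by
    push_cast at e
    linear_combination e
  rcases mul_eq_zero.1 e2 with e3 | e3
  · have e4 : ((Net.pe N v w (i + 1) - (Net.pe N w u (i + 1) - N.triA (w, u, v) (i + 1)) : ℝ) : ℂ) =
        0 := by push_cast; exact e3
    have e5 := Complex.ofReal_eq_zero.1 e4
    linarith
  · exact absurd e3 hne

end tri

end Crest.Agent.R143.Monox697
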