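import Crest.Agent.R143.J4_872
import Crest.Agent.R143.Mono_697
import Crest.Agent.R143.Frame7_395

/-!
# Row 143, finite-net half of STEP 4 (note 2908): tower identity along the stopped leg

* `D2 N` = the marks `ex 0`, `ex 1`; `Om N` = the joins with the marks `ex 0`, `ex 1` and no odd
  triangle (uniform measure on it = the interface from `ex 0` to `ex 1`);
* `nx N stop J` = the stopped path of `J ∈ Om N` (path `L`, tip `q`);
* `Qx N L t` = the amplitude of `t` in the explored network (`0` if `ex 2` has been cut off);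
* `tower` : `(Om N).card * N.Q t = ∑ J ∈ Om N, Qx N (nx N stop J).1 t` for every triangle `t` which
  cannot be reached before `stop`.
-/

set_option autoImplicit false

noncomputable section

open scoped Classical

namespace Crest.Agent.R143.Mabx377

open Crest.Agent.R143.B0x346 Crest.Agent.R143.JCardx872 Crest.Agent.R143.JWalkx872
  Crest.Agent.R143.J1x872 Crest.Agent.R143.J4x872

variable {V : Type}

/-- path of states with their uncrossed sides -/
abbrev Pt (V : Type) := List ((V × V) × (V × V))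

/-- the marks `ex 0`, `ex 1` -/
def D2 (N : Net V) : Set (V × V) := N.exS \ {N.ex 2}

/-- the joins of the interface from `ex 0` to `ex 1` -/
def Om (N : Net V) : Finset (Finset (V × V)) := joins N.toTrg N.kl ∅ (D2 N)

/-- the stopped path -/
def nx (N : Net V) (stop : V × V → Prop) (J : Finset (V × V)) : Pt V × (V × V) :=
  sPath N.toTrg ∅ (D2 N) stop (N.ex 0) J

/-- the amplitude in the explored network, `0` if `ex 2` has been cut off -/
def Qx (N : Net V) (L : Pt V) (t : V × V × V) : ℂ :=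
  if N.ex 2 ∈ unc L then 0 else (knet N L).Q t

theorem ex0_mem (N : Net V) (hg : Good N) : N.ex 0 ∈ D2 N :=
  ⟨mem_exS 0, fun h => absurd (hg.inj h) (by decide)⟩

theorem ex1_mem (N : Net V) (hg : Good N) : N.ex 1 ∈ D2 N :=
  ⟨mem_exS 1, fun h => absurd (hg.inj h) (by decide)⟩

theorem D2_sub (N : Net V) : D2 N ⊆ N.exS := Set.sdiff_subset

theorem mem_D2 {N : Net V} {p : V × V} : p ∈ D2 N ↔ p ∈ N.exS ∧ p ≠ N.ex 2 := by
  unfold D2
  rw [Set.mem_sdiff, Set.mem_singleton_iff]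

/-- marks are boundary edges -/
theorem mark_bdry {N : Net V} (hg : Good N) (a b : V) (h : (a, b) ∈ N.exS) (c : V) :
    (b, a, c) ∉ N.T := by
  obtain ⟨k, hk⟩ := h
  have := hg.bd k c
  rw [hk] at this
  exact this

theorem card_of_ne {N : Net V} (hg : Good N) {O : Set (V × V × V)} {D : Set (V × V)}
    (hD : D ⊆ N.exS) (hne : (joins N.toTrg N.kl O D).Nonempty) :
    (joins N.toTrg N.kl O D).card = (joins N.toTrg N.kl ∅ ∅).card :=
  card_joins_bdry (fun a b h c => mark_bdry hg a b (hD h) c) hne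

/-- a nonzero amplitude: three legs -/
theorem exists_tri {N : Net V} {t : V × V × V} (h : N.Q t ≠ 0) :
    ∃ J ∈ N.tj t, ∃ k, N.Tri3 t k J := by
  by_contra hn
  push Not at hn
  apply h
  unfold Net.Q
  refine Finset.sum_eq_zero fun k _ => ?_
  have : N.triA t k = 0 := by
    unfold Net.triA
    rw [Finset.filter_false_of_mem (fun J hJ => hn J hJ k)]
    simp
  rw [this]
  simp

/-- **surgery**: three legs give a join with the marks `ex 0`, `ex 1` -/
theorem om_ne {N : Net V} {t : V × V × V} (ht : t ∈ N.T) {J : Finset (V × V)}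
    (hJ : J ∈ N.tj t) {k : ZMod 3} (h : N.Tri3 t k J) : (Om N).Nonempty := by
  have hJ' := mem_joins.1 hJ
  have key : ∀ i : ZMod 3, En N t J i 2 → sd t i ∈ J → (Om N).Nonempty := by
    intro i hi hs
    obtain ⟨z, hz, hz'⟩ := sd_tri ht i
    have h1 := (Monox697.leg_odd hJ' ht hz' hz hs (mem_exS 2) hi).1
    exact ⟨_, mem_joins.2 h1⟩
  obtain ⟨h1, h2⟩ := (tri3_iff k).1 h
  exact key (2 - k) (by have := h2 (2 - k); rwa [sub_add_cancel] at this) (h1 _)

/-- numerator of the amplitude -/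
def Cn (N : Net V) (t : V × V × V) : ℂ :=
  ∑ k : ZMod 3, (((N.tj t).filter (N.Tri3 t k)).card : ℂ) * omz k

theorem q_mul_card (N : Net V) (t : V × V × V) : N.Q t * ((N.tj t).card : ℂ) = Cn N t := by
  unfold Net.Q Net.triA Cn
  rcases (N.tj t).eq_empty_or_nonempty with he | hne
  · rw [he]; simp
  · have h0 : ((N.tj t).card : ℂ) ≠ 0 := by
      have := hne.card_pos
      exact_mod_cast this.ne'
    rw [Finset.sum_mul]
    refine Finset.sum_congr rfl fun k _ => ?_
    push_cast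
    field_simp

theorem cn_eq {N : Net V} (hg : Good N) {t : V × V × V} (ht : t ∈ N.T) :
    Cn N t = N.Q t * ((Om N).card : ℂ) := by
  rw [← q_mul_card]
  by_cases hQ : N.Q t = 0
  · rw [hQ]; simp
  · obtain ⟨J, hJ, k, hk⟩ := exists_tri hQ
    have h1 := om_ne ht hJ hk
    have e1 := card_of_ne hg (le_refl N.exS) ⟨J, hJ⟩
    have e2 := card_of_ne hg (D2_sub N) h1
    have e3 : (N.tj t).card = (Om N).card := by
      unfold Net.tj Om
      rw [e1, e2]
    rw [e3]

theorem cn_markov (N : Net V) (t : V × V × V) (stop : V × V → Prop) :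
    Cn N t = ∑ x ∈ stopPaths N.toTrg N.kl (rots t) N.exS stop (N.ex 0), Cn (knet N x.1) t := by
  unfold Cn
  rw [Finset.sum_comm]
  refine Finset.sum_congr rfl fun k _ => ?_
  rw [← Finset.sum_mul, tri_markov N t 0 stop k]
  push_cast
  rfl

/-! ### followed paths -/

theorem unc_tri {G : Trg V} : ∀ (L : Pt V) (p q : V × V), Pth G p L q →
    ∀ a ∈ L, ∃ c, (a.2.1, a.2.2, c) ∈ G.T := by
  intro L
  induction L with
  | nil =>
    intro p q _ a ha
    simp at ha
  | cons b L ih =>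
    rintro p q ⟨_, m, ⟨c, hc, hm⟩, hrest⟩ a ha
    rcases List.mem_cons.1 ha with rfl | ha
    · rcases hm with ⟨_, hm⟩ | ⟨_, hm⟩
      · exact ⟨p.2, by rw [hm]; exact G.rot (G.rot hc)⟩
      · exact ⟨p.1, by rw [hm]; exact G.rot hc⟩
    · exact ih m q hrest a ha

/-- the triangle of a state of the path, its uncrossed side -/
theorem pth_tri {G : Trg V} : ∀ (L : Pt V) (p q : V × V), Pth G p L q →
    ∀ a ∈ L, ∃ c, (a.1.1, a.1.2, c) ∈ G.T ∧ (a.2 = (c, a.1.1) ∨ a.2 = (a.1.2, c)) := by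
  intro L
  induction L with
  | nil =>
    intro p q _ a ha
    simp at ha
  | cons b L ih =>
    rintro p q ⟨hb, m, ⟨c, hc, hm⟩, hrest⟩ a ha
    rcases List.mem_cons.1 ha with rfl | ha
    · rw [hb]
      refine ⟨c, hc, ?_⟩
      rcases hm with ⟨_, hm⟩ | ⟨_, hm⟩
      · exact Or.inl hm
      · exact Or.inr hm
    · exact ih m q hrest a ha

/-- the path `L` from `ex 0` to `q` is followed by a join of the interface -/
def Ok (N : Net V) (L : Pt V) (q : V × V) : Prop :=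
  ∃ J ∈ Om N, Fol N.toTrg ∅ (D2 N) J (N.ex 0) L q

theorem ok_pth {N : Net V} {L : Pt V} {q : V × V} (h : Ok N L q) : Pth N.toTrg (N.ex 0) L q := by
  obtain ⟨J, _, h⟩ := h
  exact fol_pth _ _ _ h

theorem ok_unc {N : Net V} (hg : Good N) {L : Pt V} {q : V × V} (h : Ok N L q) :
    ∀ a ∈ L, a.2 ∉ D2 N := by
  obtain ⟨J, hJ, h⟩ := h
  have hJ' := mem_joins.1 hJ
  exact fol_unc hJ' (Or.inl (hJ'.mark (N.ex 0).1 (N.ex 0).2 (ex0_mem N hg)).1) h

theorem om_knet {N : Net V} (hg : Good N) {L : Pt V} {q : V × V} (h : Ok N L q) :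
    Om (knet N L) = (Om N).filter (fun J => Fol N.toTrg ∅ (D2 N) J (N.ex 0) L q) :=
  joins_path' (ex0_mem N hg) h

/-- a mark in `unc L` -/
theorem mark_unc {N : Net V} (hg : Good N) {L : Pt V} {p q : V × V} (hL : Pth N.toTrg p L q)
    {k : ZMod 3} (h : N.ex k ∈ unc L) : ∃ a ∈ L, N.ex k = a.2 := by
  obtain ⟨a, ha, h | h⟩ := h
  · exact ⟨a, ha, h⟩
  · exfalso
    obtain ⟨c, hc⟩ := unc_tri L p q hL a ha
    apply hg.bd k c
    rw [h]
    exact hc

theorem good_knet {N : Net V} (hg : Good N) {L : Pt V} {q : V × V} (h : Ok N L q)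
    (h2 : N.ex 2 ∉ unc L) : Good (knet N L) where
  inj := hg.inj
  bd := hg.bd
  live := by
    rintro k (hk | hk)
    · exact hg.live k hk
    · obtain ⟨a, ha, e⟩ := mark_unc hg (ok_pth h) hk
      apply ok_unc hg h a ha
      rw [mem_D2, ← e]
      refine ⟨mem_exS k, ?_⟩
      intro e2
      apply h2
      rw [← e2]
      exact hk

theorem hnet_ok {S : Finset ℂ} {N : Net ℂ} (h : HNet S N) {L : Pt ℂ} {q : ℂ × ℂ}
    (hok : Ok N L q) (h2 : N.ex 2 ∉ unc L) : HNet S (knet N L) where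
  gp := h.gp
  tri := h.tri
  hex := h.hex
  live := (good_knet (good_of_hnet h) hok h2).live
  ccw := h.ccw

theorem mem_stopPaths {G : Trg V} {kl : Set (V × V)} {O : Set (V × V × V)} {D : Set (V × V)}
    {J : Finset (V × V)} (hJ : J ∈ joins G kl O D) (hO : RotInv O) {p : V × V} (hp : p ∈ D)
    {stop : V × V → Prop} {x : Pt V × (V × V)} (h : Stopped G O D stop J p x.1 x.2) :
    x ∈ stopPaths G kl O D stop p := by
  refine Finset.mem_image.2 ⟨J, hJ, ?_⟩
  obtain ⟨e1, e2⟩ := stop_unique _ _ _ _ _ (sPath_spec (mem_joins.1 hJ) hO hp stop) h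
  exact Prod.ext e1 e2

/-- three legs: the walker from `ex 0` comes to `t` -/
theorem from_ex0 {N : Net V} (hg : Good N) {t : V × V × V} (ht : t ∈ N.T) {J : Finset (V × V)}
    (hJ : J ∈ N.tj t) {k : ZMod 3} (h : N.Tri3 t k J) (j : ZMod 3) :
    ∃ i, sd t i ∈ J ∧ Leads N.toTrg (rots t) N.exS J (N.ex j) (sd t i) := by
  obtain ⟨h1, h2⟩ := (tri3_iff k).1 h
  have hJ' := mem_joins.1 hJ
  refine ⟨j - k, h1 _, ?_⟩
  have h3 := h2 (j - k)
  rw [sub_add_cancel] at h3
  by_cases hm : sd t (j - k) ∈ N.exS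
  · obtain ⟨m, hm⟩ := hm
    have h4 : Ends N.toTrg (rots t) N.exS J (sw (sd t (j - k))) (N.ex m) := by
      unfold Ends
      rw [hm]
      exact Relation.ReflTransGen.refl
    have h5 := ends_unique hg (le_refl N.exS) h3 h4
    subst h5
    rw [← hm]
    exact Relation.ReflTransGen.refl
  · exact leads_rev hJ' (rotInv_rots t) (sw_mem hg ht hJ' (h1 _) hm) h3

/-- from the joins with odd triangle `t` to the interface -/
theorem to_om {N : Net V} (hg : Good N) {t : V × V × V} (ht : t ∈ N.T) {L : Pt V} {q : V × V}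
    (hf : ∃ J ∈ N.tj t, Fol N.toTrg (rots t) N.exS J (N.ex 0) L q)
    (hQ : (knet N L).Q t ≠ 0) : Ok N L q ∧ N.ex 2 ∉ unc L := by
  obtain ⟨J0, hJ0, hF0⟩ := hf
  have hJ0' := mem_joins.1 hJ0
  have hu := fol_unc hJ0' (Or.inl (hJ0'.mark (N.ex 0).1 (N.ex 0).2 (mem_exS 0)).1) hF0
  have h2 : N.ex 2 ∉ unc L := by
    intro h
    obtain ⟨a, ha, e⟩ := mark_unc hg (fol_pth _ _ _ hF0) h
    exact hu a ha (e ▸ mem_exS 2)
  refine ⟨?_, h2⟩
  obtain ⟨J, hJ, k, hk⟩ := exists_tri hQ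
  obtain ⟨J1, hJ1⟩ := om_ne (N := knet N L) ht hJ hk
  have hfree := fol_free _ _ _ hF0
  have e := joins_path (G := N.toTrg) (kl := N.kl) (O := ∅) (D := D2 N) (p := N.ex 0) (q := q)
    (L := L) (ex0_mem N hg) (fol_pth _ _ _ hF0)
    (fun a ha => ⟨fun h => (hfree a ha).1 (D2_sub N h), fun c _ h => h.elim⟩)
    (fun a ha h => hu a ha (D2_sub N h))
  have hJ1' : J1 ∈ joins N.toTrg (N.kl ∪ unc L) ∅ (D2 N) := hJ1
  rw [e, Finset.mem_filter] at hJ1'
  exact ⟨J1, hJ1'.1, hJ1'.2⟩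

/-- from the interface to the joins with odd triangle `t` -/
theorem of_om {N : Net V} (hg : Good N) {t : V × V × V} (_ht : t ∈ N.T) {L : Pt V} {q : V × V}
    (hok : Ok N L q) (h2 : N.ex 2 ∉ unc L) {J : Finset (V × V)} (hJ : J ∈ (knet N L).tj t)
    {k : ZMod 3} (hk : (knet N L).Tri3 t k J) :
    J ∈ N.tj t ∧ Fol N.toTrg (rots t) N.exS J (N.ex 0) L q := by
  have hL := ok_pth hok
  have hJ' : IsJoin N.toTrg (N.kl ∪ unc L) (rots t) N.exS J := mem_joins.1 hJ
  have hU : ∀ a ∈ L, a.2 ∉ N.exS := by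
    rintro a ha ⟨j, hj⟩
    have h3 : N.ex j ∈ unc L := ⟨a, ha, Or.inl hj⟩
    exact (good_knet hg hok h2).live j (Or.inr h3)
  have hsw : ∀ a ∈ L, sw a.2 ∉ N.exS := by
    rintro a ha ⟨j, hj⟩
    obtain ⟨c, hc⟩ := unc_tri L _ _ hL a ha
    apply hg.bd j c
    rw [hj]
    exact hc
  have hF : Free N.toTrg (rots t) N.exS L := by
    intro a ha
    obtain ⟨c, hc, hu⟩ := pth_tri L _ _ hL a ha
    refine ⟨?_, ?_⟩
    · rintro ⟨j, hj⟩
      apply hg.bd j c
      rw [hj]
      exact hc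
    · intro c' hc' hO
      have := N.uniq hc hc'
      subst this
      have h4 : ∃ i, a.2 = sd t i := by
        rcases hu with hu | hu
        · have h5 := rotInv_rots t _ _ _ (rotInv_rots t _ _ _ hO)
          obtain ⟨i, hi⟩ := of_rots h5
          exact ⟨i, hu.trans hi⟩
        · have h5 := rotInv_rots t _ _ _ hO
          obtain ⟨i, hi⟩ := of_rots h5
          exact ⟨i, hu.trans hi⟩
      obtain ⟨i, hi⟩ := h4
      have h6 := ((tri3_iff k).1 hk).1 i
      rw [← hi] at h6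
      exact (hJ'.kill a.2.1 a.2.2 (Or.inr ⟨a, ha, Or.inl rfl⟩) (hU a ha) (hsw a ha)).1 h6
  have e := joins_path (G := N.toTrg) (kl := N.kl) (O := rots t) (D := N.exS) (p := N.ex 0)
    (q := q) (L := L) (mem_exS 0) hL hF hU
  have hJ2 : J ∈ joins N.toTrg (N.kl ∪ unc L) (rots t) N.exS := hJ
  rw [e, Finset.mem_filter] at hJ2
  exact hJ2

/-- the explored joins -/
theorem nx_spec {N : Net V} (hg : Good N) {J : Finset (V × V)} (hJ : J ∈ Om N)
    (stop : V × V → Prop) :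
    Stopped N.toTrg ∅ (D2 N) stop J (N.ex 0) (nx N stop J).1 (nx N stop J).2 :=
  sPath_spec (mem_joins.1 hJ) rotInv_empty (ex0_mem N hg) stop

theorem nx_ok {N : Net V} (hg : Good N) {J : Finset (V × V)} (hJ : J ∈ Om N)
    (stop : V × V → Prop) : Ok N (nx N stop J).1 (nx N stop J).2 :=
  ⟨J, hJ, (nx_spec hg hJ stop).1⟩

/-- sums over the interface, arranged by the stopped path -/
theorem sum_nx {N : Net V} (hg : Good N) (stop : V × V → Prop) {M : Type} [AddCommMonoid M]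
    (g : Finset (V × V) → M) :
    ∑ J ∈ Om N, g J = ∑ x ∈ stopPaths N.toTrg N.kl ∅ (D2 N) stop (N.ex 0),
      ∑ J ∈ Om (knet N x.1), g J := by
  have h1 : ∀ J ∈ Om N, nx N stop J ∈ stopPaths N.toTrg N.kl ∅ (D2 N) stop (N.ex 0) :=
    fun J hJ => Finset.mem_image_of_mem _ hJ
  rw [← Finset.sum_fiberwise_of_maps_to h1]
  refine Finset.sum_congr rfl fun x hx => ?_
  have hx' : Ok N x.1 x.2 := by
    obtain ⟨J0, hJ0, rfl⟩ := Finset.mem_image.1 hx
    exact nx_ok hg hJ0 stop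
  rw [om_knet hg hx']
  refine Finset.sum_congr ?_ fun _ _ => rfl
  ext J
  rw [Finset.mem_filter, Finset.mem_filter]
  constructor
  · rintro ⟨h, h'⟩
    exact ⟨h, (sPath_eq_iff h rotInv_empty (ex0_mem N hg) hx).1 h'⟩
  · rintro ⟨h, h'⟩
    exact ⟨h, (sPath_eq_iff h rotInv_empty (ex0_mem N hg) hx).2 h'⟩

/-- on the fibre the stopped path is constant -/
theorem nx_fibre {N : Net V} (hg : Good N) {stop : V × V → Prop} {x : Pt V × (V × V)}
    (hx : x ∈ stopPaths N.toTrg N.kl ∅ (D2 N) stop (N.ex 0)) {J : Finset (V × V)}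
    (hJ : J ∈ Om (knet N x.1)) : J ∈ Om N ∧ nx N stop J = x := by
  have hx' : Ok N x.1 x.2 := by
    obtain ⟨J0, hJ0, rfl⟩ := Finset.mem_image.1 hx
    exact nx_ok hg hJ0 stop
  rw [om_knet hg hx', Finset.mem_filter] at hJ
  exact ⟨hJ.1, (sPath_eq_iff hJ.1 rotInv_empty (ex0_mem N hg) hx).2 hJ.2⟩

/-- a stopped path of the joins with odd triangle `t` which carries an amplitude is a stopped path of
the interface, or it enters `t` -/
theorem stopped_to_om {N : Net V} (hg : Good N) {t : V × V × V} (ht : t ∈ N.T)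
    {stop : V × V → Prop} {x : Pt V × (V × V)}
    (hx : x ∈ stopPaths N.toTrg N.kl (rots t) N.exS stop (N.ex 0))
    (hQ : (knet N x.1).Q t ≠ 0) :
    N.ex 2 ∉ unc x.1 ∧ Ok N x.1 x.2 ∧
      (x ∈ stopPaths N.toTrg N.kl ∅ (D2 N) stop (N.ex 0) ∨ (¬ stop x.2 ∧ ∃ i, x.2 = sd t i)) := by
  obtain ⟨J0, hJ0, hJx⟩ := Finset.mem_image.1 hx
  have hS := sPath_spec (mem_joins.1 hJ0) (rotInv_rots t) (mem_exS (N := N) 0) stop
  rw [hJx] at hS
  obtain ⟨hok, h2⟩ := to_om hg ht ⟨J0, hJ0, hS.1⟩ hQ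
  refine ⟨h2, hok, ?_⟩
  by_cases hst : stop x.2
  · left
    obtain ⟨J1, hJ1, hF1⟩ := hok
    exact mem_stopPaths hJ1 rotInv_empty (ex0_mem N hg) ⟨hF1, hS.2.1, Or.inl hst⟩
  · rcases hS.2.2 with h | h | ⟨_, c, hc, hcO⟩
    · exact absurd h hst
    · exfalso
      obtain ⟨J, hJ, k, hk⟩ := exists_tri hQ
      obtain ⟨hJt, hF⟩ := of_om hg ht hok h2 hJ hk
      obtain ⟨i, hi, hl⟩ := from_ex0 hg ht hJt hk 0
      have e := term_unique (Or.inl h) (term_side ht hi) (fol_leads _ _ _ hF) hl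
      obtain ⟨z, hz, _⟩ := sd_tri ht i
      rw [← e] at hz
      exact mark_bdry hg _ _ h z hz
    · right
      obtain ⟨i, hi⟩ := of_rots hcO
      exact ⟨hst, i, hi⟩

theorem stopped_of_om {N : Net V} (hg : Good N) {t : V × V × V} (ht : t ∈ N.T)
    {stop : V × V → Prop} {x : Pt V × (V × V)}
    (hx : x ∈ stopPaths N.toTrg N.kl ∅ (D2 N) stop (N.ex 0)) (h2 : N.ex 2 ∉ unc x.1)
    (hQ : (knet N x.1).Q t ≠ 0) :
    x ∈ stopPaths N.toTrg N.kl (rots t) N.exS stop (N.ex 0) := by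
  obtain ⟨J0, hJ0, hJx⟩ := Finset.mem_image.1 hx
  have hS := sPath_spec (mem_joins.1 hJ0) rotInv_empty (ex0_mem N hg) stop
  rw [hJx] at hS
  obtain ⟨J, hJ, k, hk⟩ := exists_tri hQ
  obtain ⟨hJt, hF⟩ := of_om hg ht ⟨J0, hJ0, hS.1⟩ h2 hJ hk
  refine mem_stopPaths hJt (rotInv_rots t) (mem_exS 0) ⟨hF, hS.2.1, ?_⟩
  rcases hS.2.2 with h | h | ⟨_, c, hc, hcO⟩
  · exact Or.inl h
  · exact Or.inr (Or.inl (D2_sub N h))
  · exact hcO.elim

theorem cn_knet {N : Net V} (hg : Good N) {t : V × V × V} (ht : t ∈ N.T) {L : Pt V} {q : V × V}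
    (hok : Ok N L q) (h2 : N.ex 2 ∉ unc L) :
    Cn (knet N L) t = Qx N L t * ((Om (knet N L)).card : ℂ) := by
  rw [cn_eq (good_knet hg hok h2) ht]
  unfold Qx
  rw [if_neg h2]

/-- **TOWER**: the amplitude of a triangle which is not reached before `stop` is the mean over the
interface from `ex 0` of the amplitudes in the explored networks -/
theorem tower {N : Net V} (hg : Good N) {t : V × V × V} (ht : t ∈ N.T) {stop : V × V → Prop}
    (hs : ∀ i, stop (sd t i)) :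
    ((Om N).card : ℂ) * N.Q t = ∑ J ∈ Om N, Qx N (nx N stop J).1 t := by
  rw [mul_comm, ← cn_eq hg ht, cn_markov N t stop, sum_nx hg stop]
  have e1 : ∀ x ∈ stopPaths N.toTrg N.kl ∅ (D2 N) stop (N.ex 0),
      ∑ J ∈ Om (knet N x.1), Qx N (nx N stop J).1 t =
        Qx N x.1 t * ((Om (knet N x.1)).card : ℂ) := by
    intro x hx
    rw [Finset.sum_congr rfl (fun J hJ => by rw [(nx_fibre hg hx hJ).2]), Finset.sum_const,
      nsmul_eq_mul, mul_comm]
  rw [Finset.sum_congr rfl e1, ← Finset.sum_filter_ne_zero, ← Finset.sum_filter_ne_zero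
    (s := stopPaths N.toTrg N.kl ∅ (D2 N) stop (N.ex 0))]
  have hA : ∀ x ∈ stopPaths N.toTrg N.kl (rots t) N.exS stop (N.ex 0),
      Cn (knet N x.1) t ≠ 0 → x ∈ stopPaths N.toTrg N.kl ∅ (D2 N) stop (N.ex 0) ∧
        Cn (knet N x.1) t = Qx N x.1 t * ((Om (knet N x.1)).card : ℂ) := by
    intro x hx hne
    have hQ : (knet N x.1).Q t ≠ 0 := by
      intro h
      apply hne
      rw [← q_mul_card, h, zero_mul]
    obtain ⟨h2, hok, h3⟩ := stopped_to_om hg ht hx hQ
    refine ⟨?_, cn_knet hg ht hok h2⟩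
    rcases h3 with h3 | ⟨h3, i, hi⟩
    · exact h3
    · exact absurd (hi ▸ hs i) h3
  have hB : ∀ x ∈ stopPaths N.toTrg N.kl ∅ (D2 N) stop (N.ex 0),
      Qx N x.1 t * ((Om (knet N x.1)).card : ℂ) ≠ 0 →
        x ∈ stopPaths N.toTrg N.kl (rots t) N.exS stop (N.ex 0) ∧
        Cn (knet N x.1) t = Qx N x.1 t * ((Om (knet N x.1)).card : ℂ) := by
    intro x hx hne
    have h2 : N.ex 2 ∉ unc x.1 := by
      intro h
      apply hne
      unfold Qx
      rw [if_pos h, zero_mul]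
    have hQ : (knet N x.1).Q t ≠ 0 := by
      intro h
      apply hne
      unfold Qx
      rw [if_neg h2, h, zero_mul]
    have hok : Ok N x.1 x.2 := by
      obtain ⟨J0, hJ0, rfl⟩ := Finset.mem_image.1 hx
      exact nx_ok hg hJ0 stop
    exact ⟨stopped_of_om hg ht hx h2 hQ, cn_knet hg ht hok h2⟩
  refine Finset.sum_congr ?_ ?_
  · ext x
    rw [Finset.mem_filter, Finset.mem_filter]
    constructor
    · rintro ⟨hx, hne⟩
      obtain ⟨h1, h2⟩ := hA x hx hne
      exact ⟨h1, h2 ▸ hne⟩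
    · rintro ⟨hx, hne⟩
      obtain ⟨h1, h2⟩ := hB x hx hne
      exact ⟨h1, h2.symm ▸ hne⟩
  · intro x hx
    rw [Finset.mem_filter] at hx
    exact (hB x hx.1 hx.2).2

end Crest.Agent.R143.Mabx377
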