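import Crest.Agent.R143.EndH_298
import Crest.Agent.R143.MarkQ_659
import Crest.Agent.R143.S1_828
import Crest.Agent.R143.CtrH_277
import Crest.Agent.R143.KapF_440
import Crest.Agent.R143.KapB_690

/-!
# Row 143 (S0194), block H, H5 (M): instance for the ring data of `S1_828` (helper298)

`Dta hS dt E` (828): ring data decided by the outside; pattern `k` : giants `dA hS dt β k`, root gap
`dg hS dt β k`, free sites `dF hS dt β`, colours `pk (dA ..) k (scol hS β)`.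

* `ends_fine` : `EndH_298.ends` for a colouring `χ₀` of the cells which is constant on the giants
* `ends_k` : the two end gaps of the root chord of the pattern `k` are hits; **`far_k`** : if no hit is
  within `r` of a mark (`¬ NearM`), the end sites of the root chord are not within `r` of a mark
* `RM` : ring data + weight decided by the outside + geometry (`near`, `reg`) for the pattern `0`
* `hs_k`, `mk0_k`, `qm_k` : 659's `Hs`, `MK0`, `QM` for the three patterns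
* `Mk` : the event as a functional of the configuration; **`mark_pat`** : the field `Rm` of 440's
  `PatG` (quenched majorant); `rm_ok` : measurable, integral `≤ η * G`; `q_small`
-/

set_option autoImplicit false

noncomputable section

open scoped Classical

namespace Crest.Agent.R143.MarkRx298

open MeasureTheory Filter Topology
open scoped ENNReal ComplexConjugate
open Crest.ProbabilityR.Voronoi
open Crest.Agent.R143.B0x346 Crest.Agent.R143.DelGx806 Crest.Agent.R143.DelRx806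
open Crest.Agent.R143.JColx54 (Adj)
open Crest.Agent.R143.Frame1x395 Crest.Agent.R143.Frame2x395 Crest.Agent.R143.Frame3x395
  Crest.Agent.R143.Frame4x395 Crest.Agent.R143.Frame8x395 Crest.Agent.R143.Frame9x395
  Crest.Agent.R143.Frame10x395
open Crest.Agent.R143.Frame5x395 (sd mem_sd th th_spec)
open Crest.Agent.R143.FinCx811 (Cs rc0)
open Crest.Agent.R143.Coarsex166 Crest.Agent.R143.Coarse2x166
open Crest.Agent.R143.C2SBx395
open Crest.Agent.R143.C2SCx395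
open Crest.Agent.R143.C2SDx395 (toX)
open Crest.Agent.R143.NetUx346 (ff HitO mem_ff)
open Crest.Agent.R143.K33x877 (fr CtrX)
open Crest.Agent.R143.MmOx88 (Nx)
open Crest.Agent.R143.MarkHx298 (NearM)
open Crest.Agent.R143.EndHx298
open Crest.Agent.R143.MarkQx659
open Crest.Agent.R143.Patx828
open Crest.Agent.R143.S1x828
open Crest.Agent.R143.Freshx829 (scol Inn rep rep_spec rep_eq)
open Crest.Agent.R143.Harx315 (IsStop)
open Crest.Agent.R143.Histx389 (DecF)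
open Crest.Agent.R143.Dblx609 Crest.Agent.R143.Dbl2x609
open Crest.Agent.R143.HGluex136 (mq mq_meas mq_mul mq_mono)
open Crest.Agent.R143.KapBx690 (fs fb fun2 fun2_paint)
open Crest.Agent.R143.CondWx440 (Wt)
open Crest.Agent.R143.K33x137 (mg)

set_option maxHeartbeats 400000

/-! ### fine colourings -/

section fine

variable {S : Finset ℂ} {hS : GP (S : Set ℂ)} {A : ZMod 3 → Set (Cs hS)} {i j₀ : ZMod 3}
  {C' : Type} {π : Cs hS → C'} {hπ : ClsCon (rc0 hS) π} {χ₀ : Cs hS → ZMod 2} {g : D0 S}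
  {T : Finset ℂ}

/-- **the end gaps of the root block**, colouring of the cells constant on the classes -/
theorem ends_fine (G : Gi (rc0 hS) A) (H : Hl A j₀) (R : Root (rc0 hS) A i g) (Q : Cq π A)
    (hc : ∀ c c', π c = π c' → χ₀ c = χ₀ c') (hg : Gp (rc0 hS) (cfg (rc0 hS) χ₀) g)
    (hTf : T ⊆ ff S (st A)) (hT : Cmp A (T : Set ℂ) {c | χ₀ c = 1}) :
    (HitO S (st A) i (T : Set ℂ) (tr S (kB (coarse (rc0 hS) π hπ) (cfg (rc0 hS) χ₀) g)) ∧
      HitO S (st A) (i + 1) ((ff S (st A) \ T : Finset ℂ) : Set ℂ)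
        (tr S ((rc0 hS).rho (kA (coarse (rc0 hS) π hπ) (cfg (rc0 hS) χ₀) g)))) ∨
    (HitO S (st A) i ((ff S (st A) \ T : Finset ℂ) : Set ℂ)
        (tr S (kB (coarse (rc0 hS) π hπ) (cfg (rc0 hS) χ₀) g)) ∧
      HitO S (st A) (i + 1) (T : Set ℂ)
        (tr S ((rc0 hS).rho (kA (coarse (rc0 hS) π hπ) (cfg (rc0 hS) χ₀) g)))) := by
  set χ : C' → ZMod 2 := fun c => χ₀ (Function.surjInv Q.surj c) with hχ
  have e1 : ∀ c, χ (π c) = χ₀ c := fun c => hc _ _ (Function.surjInv_eq Q.surj (π c))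
  have e2 : cfg (coarse (rc0 hS) π hπ) χ = cfg (rc0 hS) χ₀ := by
    funext d
    show χ (π ((rc0 hS).cell d)) + χ (π ((rc0 hS).cell ((rc0 hS).rho d))) =
      χ₀ ((rc0 hS).cell d) + χ₀ ((rc0 hS).cell ((rc0 hS).rho d))
    rw [e1, e1]
  have hT' : Cmp A (T : Set ℂ) {c | χ (π c) = 1} := by
    intro v hv c e
    show χ (π c) = 1 ↔ _
    rw [e1]
    exact hT v hv c e
  have h := ends (hπ := hπ) (χ := χ) G H R Q (by rw [e2]; exact hg) hTf hT'
  rw [e2] at h
  exact h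

/-- **off the near event the end sites are not near a mark** -/
theorem far_fine (G : Gi (rc0 hS) A) (H : Hl A j₀) (R : Root (rc0 hS) A i g) (Q : Cq π A)
    (hc : ∀ c c', π c = π c' → χ₀ c = χ₀ c') (hg : Gp (rc0 hS) (cfg (rc0 hS) χ₀) g)
    (hTf : T ⊆ ff S (st A)) (hT : Cmp A (T : Set ℂ) {c | χ₀ c = 1}) {ι : Type*} {m : ι → ℂ}
    {r : ℝ} (hN : ¬ NearM S (st A) m r T) (j : ι) :
    r < ‖(kB (coarse (rc0 hS) π hπ) (cfg (rc0 hS) χ₀) g).1.1 - m j‖ ∧
      r < ‖((rc0 hS).rho (kA (coarse (rc0 hS) π hπ) (cfg (rc0 hS) χ₀) g)).1.1 - m j‖ := by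
  rcases ends_fine (hπ := hπ) G H R Q hc hg hTf hT with ⟨h1, h2⟩ | ⟨h1, h2⟩
  · exact ⟨not_le.1 fun h => hN ⟨j, _, _, Or.inl h1, h⟩,
      not_le.1 fun h => hN ⟨j, _, _, Or.inr h2, h⟩⟩
  · exact ⟨not_le.1 fun h => hN ⟨j, _, _, Or.inr h1, h⟩,
      not_le.1 fun h => hN ⟨j, _, _, Or.inl h2, h⟩⟩

/-! ### the colours of the pattern -/

theorem pk_const (G : Gi (rc0 hS) A) (k : ZMod 3) (μ : Cs hS → ZMod 2) (c c' : Cs hS)
    (e : pr A c = pr A c') : pk A k μ c = pk A k μ c' := by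
  rcases ((pr_cq G).ker c c').1 e with rfl | ⟨j, h1, h2⟩
  · rfl
  · unfold pk
    by_cases hj : j = k
    · subst hj
      rw [if_pos h1, if_pos h2]
    · rw [if_neg fun h => hj (G.disj _ _ c h1 h), if_neg fun h => hj (G.disj _ _ c' h2 h),
        if_neg fun h => h j h1, if_neg fun h => h j h2]

theorem pk_w {k : ZMod 3} {μ : Cs hS → ZMod 2} {c : Cs hS} (h : c ∈ A k) : pk A k μ c = 0 := by
  unfold pk
  rw [if_pos h]

theorem pk_b (G : Gi (rc0 hS) A) {k j : ZMod 3} {μ : Cs hS → ZMod 2} {c : Cs hS} (h : c ∈ A j)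
    (hj : j ≠ k) : pk A k μ c = 1 := by
  unfold pk
  rw [if_neg fun h' => hj (G.disj _ _ c h h'), if_neg fun h' => h' j h]

theorem z3k : ∀ k : ZMod 3, k + 1 + 1 ≠ k ∧ k + 1 ≠ k ∧ k + 1 + 2 = k := by decide

theorem pk_gp (G : Gi (rc0 hS) A) {k : ZMod 3} {μ : Cs hS → ZMod 2}
    (R : Root (rc0 hS) A (k + 1) g) : Gp (rc0 hS) (cfg (rc0 hS) (pk A k μ)) g := by
  obtain ⟨e1, e2, e3⟩ := z3k k
  have h2 : (rc0 hS).cell ((rc0 hS).rho ((rc0 hS).rho g)) ∈ A k := by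
    have := R.r2
    rwa [e3] at this
  constructor
  · show pk A k μ ((rc0 hS).cell g) + pk A k μ ((rc0 hS).cell ((rc0 hS).rho g)) = 0
    rw [pk_b G R.r0 e1, pk_b G R.r1 e2]
    decide
  · show pk A k μ ((rc0 hS).cell ((rc0 hS).rho g)) +
      pk A k μ ((rc0 hS).cell ((rc0 hS).rho ((rc0 hS).rho g))) = 1
    rw [pk_b G R.r1 e2, pk_w h2]
    decide

/-- the black free sites of the pattern -/
theorem pk_cmp (H : Hl A j₀) (k : ZMod 3) (β : Finset ℂ) :
    Cmp A ((β ∩ ff S (st A) : Finset ℂ) : Set ℂ) {c | pk A k (scol hS (β : Set ℂ)) c = 1} := by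
  intro v hv c e
  show pk A k (scol hS (β : Set ℂ)) c = 1 ↔ _
  have hf : Free A c := free_of_fr hv e
  have hv' : ¬ OnHull S v := fun ho => hf j₀ (H c v ho e)
  have hin : Inn hS c := ⟨v, hv.1, e, hv'⟩
  have h1 : rep hS c = v := rep_eq hv' hv.1 e
  unfold pk scol
  rw [if_neg (hf k), if_pos hf, h1]
  have h2 : v ∈ ff S (st A) := mem_ff.2 hv
  by_cases h : v ∈ β
  · rw [if_pos ⟨hin, Finset.mem_coe.2 h⟩]
    exact ⟨fun _ => Finset.mem_coe.2 (Finset.mem_inter.2 ⟨h, h2⟩), fun _ => rfl⟩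
  · rw [if_neg fun h' => h (Finset.mem_coe.1 h'.2)]
    exact ⟨fun h' => absurd h' (by decide),
      fun h' => absurd (Finset.mem_inter.1 (Finset.mem_coe.1 h')).1 h⟩

end fine

/-! ### the ring data -/

section ring

variable {S : Finset ℂ} {hS : GP (S : Set ℂ)} {dt : Finset ℂ → Dt S} {E : Finset ℂ → Prop}
  {β β' : Finset ℂ}

/-- the coarse map of the pattern `k` -/
def Kk (H : Dta hS dt E) (hβ : β ⊆ S) (hE : E β) (k : ZMod 3) :
    CMap (D0 S) (Set.range (mg (dA hS dt β k))) :=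
  coarse (rc0 hS) (pr (dA hS dt β k)) (pr_con (H.pt hβ hE k).gi)

/-- **the end gaps of the root chord of the pattern `k` are hits** -/
theorem ends_k (H : Dta hS dt E) (hβ : β ⊆ S) (hE : E β) (k : ZMod 3) :
    (HitO S (st (dA hS dt β k)) (k + 1) ((β ∩ ff S (st (dA hS dt β k)) : Finset ℂ) : Set ℂ)
        (tr S (kB (Kk H hβ hE k)
          (cfg (rc0 hS) (pk (dA hS dt β k) k (scol hS (β : Set ℂ)))) (dg hS dt β k))) ∧
      HitO S (st (dA hS dt β k)) (k + 1 + 1)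
        ((ff S (st (dA hS dt β k)) \ (β ∩ ff S (st (dA hS dt β k))) : Finset ℂ) : Set ℂ)
        (tr S ((rc0 hS).rho (kA (Kk H hβ hE k)
          (cfg (rc0 hS) (pk (dA hS dt β k) k (scol hS (β : Set ℂ)))) (dg hS dt β k))))) ∨
    (HitO S (st (dA hS dt β k)) (k + 1)
        ((ff S (st (dA hS dt β k)) \ (β ∩ ff S (st (dA hS dt β k))) : Finset ℂ) : Set ℂ)
        (tr S (kB (Kk H hβ hE k)
          (cfg (rc0 hS) (pk (dA hS dt β k) k (scol hS (β : Set ℂ)))) (dg hS dt β k))) ∧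
      HitO S (st (dA hS dt β k)) (k + 1 + 1)
        ((β ∩ ff S (st (dA hS dt β k)) : Finset ℂ) : Set ℂ)
        (tr S ((rc0 hS).rho (kA (Kk H hβ hE k)
          (cfg (rc0 hS) (pk (dA hS dt β k) k (scol hS (β : Set ℂ)))) (dg hS dt β k))))) := by
  have P := H.pt hβ hE k
  exact ends_fine (hπ := pr_con P.gi) P.gi P.hl P.root (pr_cq P.gi) (pk_const P.gi k _)
    (pk_gp P.gi P.root) Finset.inter_subset_right (pk_cmp P.hl k β)

/-- **off the near event the end sites of the root chord are not within `r` of a mark** -/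
theorem far_k (H : Dta hS dt E) (hβ : β ⊆ S) (hE : E β) (k : ZMod 3) {ι : Type} {m : ι → ℂ}
    {r : ℝ} (hN : ¬ NearM S (st (dA hS dt β k)) m r β) (j : ι) :
    r < ‖(kB (Kk H hβ hE k)
      (cfg (rc0 hS) (pk (dA hS dt β k) k (scol hS (β : Set ℂ)))) (dg hS dt β k)).1.1 - m j‖ ∧
    r < ‖((rc0 hS).rho (kA (Kk H hβ hE k)
      (cfg (rc0 hS) (pk (dA hS dt β k) k (scol hS (β : Set ℂ))))
        (dg hS dt β k))).1.1 - m j‖ := by
  have P := H.pt hβ hE k
  refine far_fine (hπ := pr_con P.gi) P.gi P.hl P.root (pr_cq P.gi) (pk_const P.gi k _)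
    (pk_gp P.gi P.root) Finset.inter_subset_right (pk_cmp P.hl k β) ?_ j
  rwa [near_inter]

/-- the centre of the pattern `0` is a centre of the pattern `k` -/
theorem ctr_k (H : Dta hS dt E) (hβ : β ⊆ S) (hE : E β) (k : ZMod 3) :
    ∃ X, CtrX S (st (dA hS dt β k)) X := by
  obtain ⟨X, hX⟩ := H.ctr β hβ hE
  have R := H.ring β hβ hE
  have h3 := C2SDx395.card3 hS (dg hS dt β k)
  have hfr : fr S (st (dA hS dt β 0)) = fr S (st (dA hS dt β k)) := fr_ap h3 R 0 k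
  have hsub := Loc8x277.ctr_sub hX
  have hX0 : ∀ x ∈ X, x ∈ fr S (st (dA hS dt β 0)) := fun x hx =>
    ⟨hsub hx, fun i h => Set.disjoint_left.1 (hX.1 i) hx h⟩
  refine ⟨X, fun i => ?_, hX.2.1, fun i => ?_⟩
  · rw [Set.disjoint_left]
    intro x hx h
    have := hX0 x hx
    rw [hfr] at this
    exact this.2 i h
  · obtain ⟨x, hx, y, hy, hxy⟩ := hX.2.2 i
    exact ⟨x, hx, y, (lab_ap R 0 k x (hX0 x hx) y hxy i).1 hy, hxy⟩

/-- **no positive rainbow triangle in the pattern `k`** -/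
theorem nr_k (H : Dta hS dt E) (hβ : β ⊆ S) (hE : E β) (k : ZMod 3) :
    ∀ t ∈ delT S, ∀ i, ¬ (t.1 ∈ st (dA hS dt β k) i ∧ t.2.1 ∈ st (dA hS dt β k) (i + 1) ∧
      t.2.2 ∈ st (dA hS dt β k) (i + 2)) := by
  obtain ⟨X, hX⟩ := ctr_k H hβ hE k
  have P := H.pt hβ hE k
  exact CtrHx277.nr_root P.gi P.root hX

/-- ring data, weight decided by the outside, geometry at the three marks (pattern `0`) -/
structure RM (hS : GP (S : Set ℂ)) (dt : Finset ℂ → Dt S) (E : Finset ℂ → Prop)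
    (w : Finset ℂ → ℝ≥0∞) {ι : Type} (m : ι → ℂ) (lab : ι → ZMod 3) (ρ R1 : ℝ) : Prop where
  dta : Dta hS dt E
  dec : DecF S (dJ hS dt E) w
  wE : ∀ β ⊆ S, w β ≠ 0 → E β
  near : ∀ β ⊆ S, E β → ∀ x, Nx S (fr S (st (dA hS dt β 0))) x → ∀ j, ‖x - m j‖ < ρ →
    x ∉ st (dA hS dt β 0) (lab j)
  reg : ∀ β ⊆ S, E β → ∀ x, x ∈ fr S (st (dA hS dt β 0)) ∨ Nx S (fr S (st (dA hS dt β 0))) x →
    ‖x‖ ≤ R1
  mrk : ∀ j, ‖m j‖ ≤ R1

variable {w : Finset ℂ → ℝ≥0∞} {ι : Type} {m : ι → ℂ} {lab : ι → ZMod 3} {r ρ R1 : ℝ}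

/-- **659's `Hs` for the pattern `k`** -/
theorem hs_k (H : Dta hS dt E) (hd : DecF S (dJ hS dt E) w) (hE : ∀ β ⊆ S, w β ≠ 0 → E β)
    (k : ZMod 3) : Hs S w (dJ hS dt E) (fun β => st (dA hS dt β k)) where
  stop := H.stop
  dg := hd
  dG := by
    intro b b' hb hb' h h0
    have hEb := hE b hb h0
    have e : dJ hS dt E b = S \ dF hS dt b := if_pos hEb
    rw [e] at h
    obtain ⟨-, h2, -, -⟩ := H.same hb hEb hb' h.symm
    show st (dA hS dt b k) = st (dA hS dt b' k)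
    rw [h2 k]
  off := by
    intro b hb h0 v hv hv'
    have hEb := hE b hb h0
    have e : dJ hS dt E b = S \ dF hS dt b := if_pos hEb
    rw [e] at hv'
    rw [H.free_same hb hEb k] at hv
    exact (Finset.mem_sdiff.1 hv').2 hv

/-- **659's `MK0` for the pattern `k`** -/
theorem mk0_k (H : RM hS dt E w m lab ρ R1) (hβ : β ⊆ S) (hE : E β) (k : ZMod 3) :
    MK0 S (st (dA hS dt β k)) m lab ρ R1 := by
  have R := H.dta.ring β hβ hE
  have h3 := C2SDx395.card3 hS (dg hS dt β k)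
  have hfr : fr S (st (dA hS dt β k)) = fr S (st (dA hS dt β 0)) := fr_ap h3 R k 0
  refine ⟨nr_k H.dta hβ hE k, fun x hx j hj h => ?_, fun x hx => ?_, H.mrk⟩
  · obtain ⟨v, hv, hxv⟩ := hx
    have h1 : x ∈ st (dA hS dt β 0) (lab j) := (lab_ap R k 0 v hv x hxv.symm (lab j)).1 h
    rw [hfr] at hv
    exact H.near β hβ hE x ⟨v, hv, hxv⟩ j hj h1
  · rw [hfr] at hx
    exact H.reg β hβ hE x hx

end ring

/-! ### functionals of the configuration -/

section fun_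

variable {ι : Type} {m : ι → ℂ} {lab : ι → ZMod 3} {r ρ R1 : ℝ}

/-- a hit of the pattern `k` is within `r` of a mark; sites `A`, black sites `β` -/
def Mf (dt : (A : Finset ℂ) → Finset ℂ → Dt A) (m : ι → ℂ) (r : ℝ) (k : ZMod 3)
    (A β : Finset ℂ) : Prop := ∃ h : GP (A : Set ℂ), NearM A (st (dA h (dt A) β k)) m r β

/-- the same as an event of the configuration -/
def Mk (dt : (A : Finset ℂ) → Finset ℂ → Dt A) (m : ι → ℂ) (r : ℝ) (k : ZMod 3) :
    Set (ℂ × Bool) → Prop := fun2 (Mf dt m r k)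

theorem mk_paint {dt : (A : Finset ℂ) → Finset ℂ → Dt A} {k : ZMod 3} {A β : Finset ℂ}
    (hβ : β ⊆ A) (hA : GP (A : Set ℂ)) :
    Mk dt m r k (paint A β) ↔ NearM A (st (dA hA (dt A) β k)) m r β := by
  unfold Mk
  rw [fun2_paint _ hβ]
  exact ⟨fun ⟨_, h⟩ => h, fun h => ⟨hA, h⟩⟩

/-- **659's `QM` for the pattern `k`** -/
theorem qm_k {dt : (A : Finset ℂ) → Finset ℂ → Dt A} {A : Finset ℂ} {hA : GP (A : Set ℂ)}
    {E : Finset ℂ → Prop} {w : Set (ℂ × Bool) → ℝ≥0∞}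
    (H : RM hA (dt A) E (fun β => w (paint A β)) m lab ρ R1) (k : ZMod 3)
    (P : Set (ℂ × Bool) → Prop) :
    QM A w (fun X => if P X ∧ Mk dt m r k X then 1 else 0) m lab r ρ R1 := by
  right
  refine ⟨dJ hA (dt A) E, fun β => st (dA hA (dt A) β k), hs_k H.dta H.dec H.wE k, ?_⟩
  intro β hβ h0
  refine ⟨mk0_k H hβ (H.wE β hβ h0) k, ?_⟩
  by_cases h1 : Mk dt m r k (paint A β)
  · rw [if_pos ((mk_paint hβ hA).1 h1)]
    show (if P (paint A β) ∧ Mk dt m r k (paint A β) then (1 : ℝ≥0∞) else 0) ≤ 1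
    split_ifs
    · exact le_rfl
    · exact zero_le
  · show (if P (paint A β) ∧ Mk dt m r k (paint A β) then (1 : ℝ≥0∞) else 0) ≤ _
    rw [if_neg fun h => h1 h.2]
    exact zero_le

/-- the hypothesis at the set `A` of the points in the box: the weight vanishes, or ring data -/
def RMQ (dt : (A : Finset ℂ) → Finset ℂ → Dt A) (w : Set (ℂ × Bool) → ℝ≥0∞) {ι : Type}
    (m : ι → ℂ) (lab : ι → ZMod 3) (ρ R1 : ℝ) (A : Finset ℂ) : Prop :=
  (∀ β, β ⊆ A → w (paint A β) = 0) ∨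
    ∃ (hA : GP (A : Set ℂ)) (E : Finset ℂ → Prop),
      RM hA (dt A) E (fun β => w (paint A β)) m lab ρ R1

theorem rmq_qm {dt : (A : Finset ℂ) → Finset ℂ → Dt A} {A : Finset ℂ}
    {w : Set (ℂ × Bool) → ℝ≥0∞} (H : RMQ dt w m lab ρ R1 A) (k : ZMod 3)
    (P : Set (ℂ × Bool) → Prop) :
    QM A w (fun X => if P X ∧ Mk dt m r k X then 1 else 0) m lab r ρ R1 := by
  rcases H with h | ⟨hA, E, H⟩
  · exact Or.inl h
  · exact qm_k H k P

/-- **(M), the field `Rm` of 440's `PatG`** : `w`, `dt` arbitrary -/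
theorem mark_pat : ∃ C c Km : ℝ, 0 < C ∧ 0 < c ∧ 0 < Km ∧ ∀ A0 R1 r ρ : ℝ, 0 ≤ R1 → 0 < r →
    2 * r ≤ ρ → 2 * ρ ≤ 1 → ∀ᶠ ε : ℝ in 𝓝[>] 0, ∃ bad : Set Sample, MeasurableSet bad ∧
      sampleLaw bad ≤ ENNReal.ofReal (ε ^ A0) ∧ ∀ B : Set ℂ, Bornology.IsBounded B →
        Metric.closedBall 0 (2 * R1 + Km) ⊆ B → ∀ (ι : Type) [Fintype ι] (m : ι → ℂ)
        (lab : ι → ZMod 3) (w : Set (ℂ × Bool) → ℝ≥0∞)
        (dt : (A : Finset ℂ) → Finset ℂ → Dt A), (∀ X, w X ≤ 1) →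
        (∀ᵐ ω ∂sampleLaw, RMQ dt w m lab ρ R1 (Ap ε B ω)) → ∀ (k : ZMod 3)
        (P : Set (ℂ × Bool) → Prop), ∀ᵐ ω ∂sampleLaw,
        mq ε B (fun X => w X * (if P X ∧ Mk dt m r k X then 1 else 0)) ω ≤
          ENNReal.ofReal (Fintype.card ι * (C * (r / ρ) ^ c)) * mq ε B w ω +
            bad.indicator (fun _ => 1) ω := by
  obtain ⟨C, c, Km, hC, hc, hKm, H⟩ := mark_mq
  refine ⟨C, c, Km, hC, hc, hKm, ?_⟩
  intro A0 R1 r ρ hR1 hr hρ hρ1
  filter_upwards [H A0 R1 r ρ hR1 hr hρ hρ1] with ε h1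
  obtain ⟨bad, hb, hb1, h2⟩ := h1
  refine ⟨bad, hb, hb1, ?_⟩
  intro B hB hBR ι _ m lab w dt hw hRM k P
  filter_upwards [h2 B hB hBR, hRM] with ω h3 h4
  refine h3 ι m lab w _ hw (fun X => ?_) (rmq_qm h4 k P)
  split_ifs
  · exact le_rfl
  · exact zero_le

/-- the majorant is measurable and its integral is small -/
theorem rm_ok {ε : ℝ} {B : Set ℂ} {w : Set (ℂ × Bool) → ℝ≥0∞} {G : ℝ≥0∞} (hw : Wt ε B w G)
    {bad : Set Sample} (hb : MeasurableSet bad) {q η : ℝ≥0∞} (hq : q ≤ η / 2)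
    (hbad : sampleLaw bad ≤ η / 2 * G) :
    AEMeasurable (fun ω => q * mq ε B w ω + bad.indicator (fun _ => 1) ω) sampleLaw ∧
      ∫⁻ ω, (q * mq ε B w ω + bad.indicator (fun _ => 1) ω) ∂sampleLaw ≤ η * G := by
  have h1 : AEMeasurable (fun ω => q * mq ε B w ω) sampleLaw := hw.me.const_mul q
  have h2 : Measurable (bad.indicator (fun _ => (1 : ℝ≥0∞))) := measurable_const.indicator hb
  refine ⟨h1.add h2.aemeasurable, ?_⟩
  rw [lintegral_add_left' h1, lintegral_const_mul'' _ hw.me, hw.int,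
    lintegral_indicator_const hb, one_mul]
  calc q * G + sampleLaw bad ≤ η / 2 * G + η / 2 * G := add_le_add (by gcongr) hbad
    _ = η * G := by rw [← add_mul, ENNReal.add_halves]

/-- the constant is small when the tiles are small -/
theorem q_small {C c ρ : ℝ} (hc : 0 < c) (hρ : 0 < ρ) {r : ℕ → ℝ} (hr0 : ∀ᶠ N in atTop, 0 ≤ r N)
    (hr : Tendsto r atTop (𝓝 0)) (n : ℕ) {η : ℝ≥0∞} (hη : η ≠ 0) :
    ∀ᶠ N in atTop, ENNReal.ofReal (n * (C * (r N / ρ) ^ c)) ≤ η := by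
  have h1 : Tendsto (fun N => n * (C * (r N / ρ) ^ c)) atTop (𝓝 0) := by
    have h2 : Tendsto (fun N => r N / ρ) atTop (𝓝 0) := by
      have := hr.div_const ρ
      rwa [zero_div] at this
    have h3 : Tendsto (fun N => (r N / ρ) ^ c) atTop (𝓝 0) := by
      have := h2.rpow_const (p := c) (Or.inr hc.le)
      rwa [Real.zero_rpow hc.ne'] at this
    have h4 := (h3.const_mul C).const_mul (n : ℝ)
    rwa [mul_zero, mul_zero] at h4
  have h5 : Tendsto (fun N => ENNReal.ofReal (n * (C * (r N / ρ) ^ c))) atTop (𝓝 0) := by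
    have := ENNReal.tendsto_ofReal h1
    rwa [ENNReal.ofReal_zero] at this
  exact (h5.eventually (gt_mem_nhds (pos_iff_ne_zero.2 hη))).mono fun _ h => le_of_lt h

end fun_

end Crest.Agent.R143.MarkRx298
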