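import Crest.Agent.R143.EndH_298
import Crest.Agent.R143.Exc_790

/-!
# Row 143 (S0194), block H, H5 (M): the states of the excursion are not close to the marks
(helper298)

`M = rc0 hS`, giants `A` of cells, `st A` = their sites, `χ₀` = colours of the static net with
`χ₀ = s` on `A i`, `A (i + 1)` and `s + 1` on `A (i + 2)`.

* `SE` : excursion of the walk of `χ₀` from `A (i + 1)` to `A i` (790's `Exc`: `SE.of_exc`)
* `state_arm` : a state `u < n` of the excursion with a vertex of its face within `r` of a mark with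
  label `i` or `i + 1` gives an arm of one colour across `A(m j; r + d, ρ - d)`
* `SeeM` : the event; `see_arm`, `pr_see_arm` : its probability `≤ 2 * #marks * C ((r+d)/(ρ-d)) ^ c`
-/

set_option autoImplicit false

noncomputable section

open scoped Classical

namespace Crest.Agent.R143.MarkSx298

open Crest.Agent.R143.B0x346 Crest.Agent.R143.DelGx806 Crest.Agent.R143.DelRx806
open Crest.Agent.R143.JColx54 (Adj delT_rot adj_tri adj_tri' adj_tri'')
open Crest.Agent.R143.RE0x723 (Pth)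
open Crest.Agent.R143.Frame1x395 Crest.Agent.R143.Frame2x395 Crest.Agent.R143.Frame3x395
  Crest.Agent.R143.Frame4x395 Crest.Agent.R143.Frame8x395 Crest.Agent.R143.Frame9x395
  Crest.Agent.R143.Frame10x395
open Crest.Agent.R143.Frame5x395 (sd mem_sd th th_spec)
open Crest.Agent.R143.FinCx811 (Cs rc0)
open Crest.Agent.R143.NonXx592
open Crest.Agent.R143.Coarsex166 Crest.Agent.R143.Coarse2x166
open Crest.Agent.R143.C2Sx395
open Crest.Agent.R143.C2SBx395
open Crest.Agent.R143.C2SCx395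
open Crest.Agent.R143.NetUx346 (ff HitO G3 Hex mem_ff)
open Crest.Agent.R143.K33x877 (Clu CtrT CtrX Tr)
open Crest.Agent.R143.MmOx88 (Nx Ft arm_out not_fr pr_ex)
open Crest.Agent.R143.MarkHx298 (MK NearM pr_mono' pr_arm2)
open Crest.Agent.R143.EndHx298 (tr tr_mem)
open Crest.Agent.R143.D3Fx802 (CArm)
open Crest.Agent.R143.CNTx930 (Arm2)
open Crest.Agent.R143.RB2x54 (Vt)
open Crest.Agent.R143.Harx315 (pr nb fl pr_or_le pr_mono)
open Crest.Agent.R143.RB0x838 (LDns Mesh)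

variable {S : Finset ℂ} {hS : GP (S : Set ℂ)} {A : ZMod 3 → Set (Cs hS)} {i : ZMod 3}
  {χ₀ : Cs hS → ZMod 2} {s : ZMod 2} {k : D0 S} {n : ℕ} {T : Finset ℂ}

/-- **excursion** of the static net with colours `χ₀`, left colour `s`, from `A (i + 1)` to `A i` -/
structure SE (A : ZMod 3 → Set (Cs hS)) (i : ZMod 3) (χ₀ : Cs hS → ZMod 2) (s : ZMod 2) (k : D0 S)
    (n : ℕ) : Prop where
  cB : ∀ c ∈ A i, χ₀ c = s
  cA : ∀ c ∈ A (i + 1), χ₀ c = s
  cW : ∀ c ∈ A (i + 2), χ₀ c = s + 1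
  gp : Gp (rc0 hS) (cfg (rc0 hS) χ₀) k
  pos : 0 < n
  c0 : (rc0 hS).cell ((rc0 hS).rho k) ∈ A (i + 1)
  c1 : (rc0 hS).cell (P (rc0 hS) (cfg (rc0 hS) χ₀) ((rc0 hS).rho k) n) ∈ A i
  int : ∀ u, 0 < u → u < n →
    (rc0 hS).cell (P (rc0 hS) (cfg (rc0 hS) χ₀) ((rc0 hS).rho k) u) ∉ A (i + 1) ∧
    (rc0 hS).cell (P (rc0 hS) (cfg (rc0 hS) χ₀) ((rc0 hS).rho k) u) ∉ A i

/-- from 790's excursion -/
theorem SE.of_exc {C' : Type} {π : Cs hS → C'} (Q : Cq π A) (G : Gi (rc0 hS) A) {ca cb : Cs hS}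
    (ha : ca ∈ A (i + 1)) (hb : cb ∈ A i) (cB : ∀ c ∈ A i, χ₀ c = s)
    (cA : ∀ c ∈ A (i + 1), χ₀ c = s) (cW : ∀ c ∈ A (i + 2), χ₀ c = s + 1)
    (E : Excx790.Exc (rc0 hS) π (π ca) (π cb) (cfg (rc0 hS) χ₀) k n) : SE A i χ₀ s k n where
  cB := cB
  cA := cA
  cW := cW
  gp := E.gp
  pos := E.pos
  c0 := Q.mem G ha E.c0
  c1 := Q.mem G hb E.c1
  int := fun u h1 h2 => ⟨fun h => (E.int u h1 h2).1 (Q.eq h ha),
    fun h => (E.int u h1 h2).2 (Q.eq h hb)⟩

/-! ### sites of the states -/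

/-- the left site after one step -/
theorem stp_site {x : D0 S → ZMod 2} (hx : IsC (rc0 hS) ∅ x) {p : D0 S} (hp : x p = 1) :
    (stp (rc0 hS) x p).1.1 = p.1.1 ∨ (stp (rc0 hS) x p).1.1 = th S p.1 := by
  rcases stp_cases hx hp (Set.notMem_empty _) with ⟨h1, -, e⟩ | ⟨-, h1, e⟩
  · right
    have h2 : (rc0 hS).rho p ∈ lv0 S := hx.lv h1
    have e2 : (rc0 hS).iota ((rc0 hS).rho p) = io0 ((rc0 hS).rho p) := rfl
    rw [e, e2, io0_live (e := (rc0 hS).rho p) h2]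
    rfl
  · left
    have h2 : (rc0 hS).rho ((rc0 hS).rho p) ∈ lv0 S := hx.lv h1
    have e2 : (rc0 hS).iota ((rc0 hS).rho ((rc0 hS).rho p)) =
      io0 ((rc0 hS).rho ((rc0 hS).rho p)) := rfl
    rw [e, e2, io0_live (e := (rc0 hS).rho ((rc0 hS).rho p)) h2]
    show th S (p.1.2, th S p.1) = p.1.1
    exact th0 hS (delT_rot hS (tr_mem p))

theorem adj_th (hS : GP (S : Set ℂ)) (p : D0 S) : Adj S p.1.1 (th S p.1) :=
  (adj_tri'' hS (tr_mem p)).symm

/-- two vertices of a triangle -/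
theorem vt_adj (hS : GP (S : Set ℂ)) {t : ℂ × ℂ × ℂ} (ht : t ∈ delT S) {a b : ℂ} (ha : Vt t a)
    (hb : Vt t b) : a = b ∨ Adj S a b := by
  obtain ⟨u, v, w⟩ := t
  have h1 := adj_tri ht
  have h2 := adj_tri' hS ht
  have h3 := adj_tri'' hS ht
  rcases ha with rfl | rfl | rfl <;> rcases hb with rfl | rfl | rfl
  · exact Or.inl rfl
  · exact Or.inr h1
  · exact Or.inr h3.symm
  · exact Or.inr h1.symm
  · exact Or.inl rfl
  · exact Or.inr h2
  · exact Or.inr h3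
  · exact Or.inr h2.symm
  · exact Or.inl rfl

/-- black or white free sites -/
def Ws (A : ZMod 3 → Set (Cs hS)) (s : ZMod 2) (T : Finset ℂ) : Finset ℂ :=
  if s = 1 then T else ff S (st A) \ T

/-- the states of the excursion -/
abbrev Q (χ₀ : Cs hS → ZMod 2) (k : D0 S) (u : ℕ) : D0 S :=
  P (rc0 hS) (cfg (rc0 hS) χ₀) ((rc0 hS).rho k) u

theorem SE.occ (E : SE A i χ₀ s k n) (u : ℕ) : cfg (rc0 hS) χ₀ (Q χ₀ k u) = 1 :=
  P_occ (cfg_isC _) E.gp.2 u

/-- the left cells have the colour `s` -/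
theorem SE.col (E : SE A i χ₀ s k n) (u : ℕ) : χ₀ ((rc0 hS).cell (Q χ₀ k u)) = s := by
  have h0 : IsC (rc0 hS) ∅ (cfg (rc0 hS) χ₀) := cfg_isC _
  have hz : ∀ d, cfg (rc0 hS) χ₀ d = 0 →
      χ₀ ((rc0 hS).cell d) = χ₀ ((rc0 hS).cell ((rc0 hS).rho d)) := by
    intro d hd
    have : χ₀ ((rc0 hS).cell d) + χ₀ ((rc0 hS).cell ((rc0 hS).rho d)) = 0 := hd
    revert this
    generalize χ₀ ((rc0 hS).cell d) = s
    generalize χ₀ ((rc0 hS).cell ((rc0 hS).rho d)) = t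
    revert s t; decide
  have h1 := it_col h0 E.gp.2 hz u
  exact h1.trans (E.cA _ E.c0)

/-- the left cells strictly inside the excursion are free -/
theorem SE.free (E : SE A i χ₀ s k n) {u : ℕ} (h1 : 0 < u) (h2 : u < n) :
    Free A ((rc0 hS).cell (Q χ₀ k u)) := by
  intro j hj
  obtain ⟨h3, h4⟩ := E.int u h1 h2
  rcases z3c i j with rfl | rfl | rfl
  · exact h4 hj
  · exact h3 hj
  · have e1 := E.cW _ hj
    rw [E.col u] at e1
    revert e1
    generalize s = s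
    revert s; decide

theorem mem_S (p : D0 S) : p.1.1 ∈ S := (adj_tri (tr_mem p)).mem.1

theorem SE.fr (E : SE A i χ₀ s k n) {u : ℕ} (h1 : 0 < u) (h2 : u < n) :
    (Q χ₀ k u).1.1 ∈ K33x877.fr S (st A) :=
  fr_of_free (E.free h1 h2) (mem_S _) rfl

theorem SE.ws (E : SE A i χ₀ s k n) (hT : Cmp A (T : Set ℂ) {c | χ₀ c = 1}) {u : ℕ}
    (h1 : 0 < u) (h2 : u < n) : (Q χ₀ k u).1.1 ∈ (Ws A s T : Set ℂ) := by
  have h3 := E.fr h1 h2
  have h4 : χ₀ ((rc0 hS).cell (Q χ₀ k u)) = 1 ↔ (Q χ₀ k u).1.1 ∈ (T : Set ℂ) :=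
    hT _ h3 ((rc0 hS).cell (Q χ₀ k u)) rfl
  rw [E.col u] at h4
  unfold Ws
  by_cases hs : s = 1
  · rw [if_pos hs]
    exact h4.1 hs
  · rw [if_neg hs, Finset.coe_sdiff]
    exact ⟨Finset.mem_coe.2 (mem_ff.2 h3), fun h => hs (h4.2 h)⟩

theorem SE.st0 (E : SE A i χ₀ s k n) : (Q χ₀ k 0).1.1 ∈ st A (i + 1) :=
  (st_mem (mem_S _) rfl).2 E.c0

theorem SE.stn (E : SE A i χ₀ s k n) : (Q χ₀ k n).1.1 ∈ st A i :=
  (st_mem (mem_S _) rfl).2 E.c1

/-- consecutive left sites -/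
theorem SE.succ (E : SE A i χ₀ s k n) (u : ℕ) : (Q χ₀ k (u + 1)).1.1 = (Q χ₀ k u).1.1 ∨
    (Q χ₀ k (u + 1)).1.1 = th S (Q χ₀ k u).1 := by
  have e : Q χ₀ k (u + 1) = stp (rc0 hS) (cfg (rc0 hS) χ₀) (Q χ₀ k u) := P_succ _ _
  rw [e]
  exact stp_site (cfg_isC _) (E.occ u)

theorem SE.adj (E : SE A i χ₀ s k n) (u : ℕ) : (Q χ₀ k (u + 1)).1.1 = (Q χ₀ k u).1.1 ∨
    Adj S (Q χ₀ k u).1.1 (Q χ₀ k (u + 1)).1.1 := by
  rcases E.succ u with h | h
  · exact Or.inl h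
  · right
    rw [h]
    exact adj_th hS _

/-- the next left site is a vertex of the face -/
theorem SE.vt (E : SE A i χ₀ s k n) (u : ℕ) : Vt (tr S (Q χ₀ k u)) (Q χ₀ k (u + 1)).1.1 := by
  rcases E.succ u with h | h
  · exact Or.inl h
  · exact Or.inr (Or.inr h)

/-- chain of left sites to the start -/
theorem SE.back (E : SE A i χ₀ s k n) (hT : Cmp A (T : Set ℂ) {c | χ₀ c = 1}) :
    ∀ u, 0 < u → u < n → Ft S (Ws A s T : Set ℂ) (st A (i + 1)) (Q χ₀ k u).1.1 (Q χ₀ k 0).1.1 := by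
  intro u
  induction u with
  | zero => exact fun h => absurd h (lt_irrefl _)
  | succ u ih =>
    intro _ hu
    have h2 := E.ws hT (Nat.succ_pos u) hu
    rcases Nat.eq_zero_or_pos u with rfl | h0
    · rcases E.adj 0 with h | h
      · exact ⟨E.st0, Or.inl h⟩
      · exact ⟨E.st0, Or.inr ⟨_, Pth.refl h2, h.symm⟩⟩
    · obtain ⟨a1, a2⟩ := ih h0 (by omega)
      rcases E.adj u with h | h
      · rw [h]
        exact ⟨a1, a2⟩
      · refine ⟨a1, ?_⟩
        rcases a2 with a2 | ⟨w, a2, a3⟩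
        · right
          refine ⟨_, Pth.refl h2, ?_⟩
          rw [← a2]
          exact h.symm
        · right
          exact ⟨w, (Pth.single h2 h.symm (E.ws hT h0 (by omega))).trans a2, a3⟩

/-- chain of left sites to the end -/
theorem SE.forw (E : SE A i χ₀ s k n) (hT : Cmp A (T : Set ℂ) {c | χ₀ c = 1}) :
    ∀ v u, u + v = n → 0 < u →
      Ft S (Ws A s T : Set ℂ) (st A i) (Q χ₀ k u).1.1 (Q χ₀ k n).1.1 := by
  intro v
  induction v with
  | zero =>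
    intro u hu _
    have : u = n := by omega
    subst this
    exact ⟨E.stn, Or.inl rfl⟩
  | succ v ih =>
    intro u hu h0
    obtain ⟨a1, a2⟩ := ih (u + 1) (by omega) (by omega)
    have h2 := E.ws hT h0 (show u < n by omega)
    rcases E.adj u with h | h
    · rw [h] at a2
      exact ⟨a1, a2⟩
    · refine ⟨a1, ?_⟩
      rcases a2 with a2 | ⟨w, a2, a3⟩
      · right
        refine ⟨_, Pth.refl h2, ?_⟩
        rw [← a2]
        exact h
      · right
        have h3 : (Q χ₀ k (u + 1)).1.1 ∈ (Ws A s T : Set ℂ) := a2.1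
        exact ⟨w, (Pth.single h2 h h3).trans a2, a3⟩

section marks

variable {ι : Type*} {m : ι → ℂ} {lab : ι → ZMod 3} {r ρ d : ℝ}

/-- the face of a state of the excursion has a free vertex -/
theorem SE.free_vt (E : SE A i χ₀ s k n) (H : MK S (st A) m lab ρ d) {u : ℕ} (hu : u < n) :
    ∃ f, Vt (tr S (Q χ₀ k u)) f ∧ f ∈ K33x877.fr S (st A) := by
  rcases Nat.eq_zero_or_pos u with rfl | h0
  · -- the face of the start gap
    have hx : IsC (rc0 hS) ∅ (cfg (rc0 hS) χ₀) := cfg_isC _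
    by_contra hc
    push Not at hc
    set p : D0 S := Q χ₀ k 0 with hp
    have v0 : Vt (tr S p) p.1.1 := Or.inl rfl
    have v1 : Vt (tr S p) p.1.2 := Or.inr (Or.inl rfl)
    have v2 : Vt (tr S p) (th S p.1) := Or.inr (Or.inr rfl)
    have tm := tr_mem p
    obtain ⟨m1, m2, m3⟩ := mem3 hS tm
    -- the third cell is the new left cell
    have k3 : (rc0 hS).rho ((rc0 hS).rho p) = k := (rc0 hS).rho3 k
    have e1 : (k.1.1 : ℂ) = th S p.1 := by
      have : ((rc0 hS).rho ((rc0 hS).rho p)).1.1 = th S p.1 := rfl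
      rw [k3] at this
      exact this
    have e2 : (Q χ₀ k 1).1.1 = th S p.1 := by
      rcases E.succ 0 with h | h
      · exfalso
        have s1 : Q χ₀ k 1 = out (rc0 hS) k := by
          show stp (rc0 hS) (cfg (rc0 hS) χ₀) ((rc0 hS).rho k) = _
          exact E.gp.stp hx
        have s2 : (rc0 hS).cell (Q χ₀ k 1) = (rc0 hS).cell k := by
          rw [s1]
          exact cell_out hx E.gp
        have : th S p.1 ∈ S := m3
        have hne : p.1.1 ≠ th S p.1 := by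
          intro e
          have := (g1 S hS).2.2 _ _ _ (delT_rot hS (delT_rot hS tm))
          exact this e.symm
        -- the state `Q 1` is `iota (rho p)`
        have s3 : Q χ₀ k 1 = (rc0 hS).iota ((rc0 hS).rho p) := by
          rw [s1]
          rfl
        have s4 : (rc0 hS).rho p ∈ lv0 S := hx.lv (E.gp.two hx)
        have s5 : (rc0 hS).iota ((rc0 hS).rho p) = io0 ((rc0 hS).rho p) := rfl
        rw [s3, s5, io0_live (e := (rc0 hS).rho p) s4] at h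
        exact hne h.symm
      · exact h
    have c2 : χ₀ ((rc0 hS).cell ((rc0 hS).rho ((rc0 hS).rho p))) = s := by
      rw [k3, ← cell_out hx E.gp]
      have s1 : Q χ₀ k 1 = out (rc0 hS) k := by
        show stp (rc0 hS) (cfg (rc0 hS) χ₀) ((rc0 hS).rho k) = _
        exact E.gp.stp hx
      rw [← s1]
      exact E.col 1
    have c1 : χ₀ ((rc0 hS).cell ((rc0 hS).rho p)) = s + 1 := by
      have h1 : χ₀ ((rc0 hS).cell p) + χ₀ ((rc0 hS).cell ((rc0 hS).rho p)) = 1 := E.occ 0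
      rw [E.col 0] at h1
      revert h1
      generalize χ₀ ((rc0 hS).cell ((rc0 hS).rho p)) = t
      generalize s = s
      revert s t; decide
    have nn : ∀ s : ZMod 2, s ≠ s + 1 := by decide
    -- labels
    have l1 : p.1.2 ∈ st A (i + 2) := by
      by_contra h
      refine hc _ v1 ⟨m2, fun j hj => ?_⟩
      have hj' : (rc0 hS).cell ((rc0 hS).rho p) ∈ A j := (st_mem m2 rfl).1 hj
      rcases z3c i j with rfl | rfl | rfl
      · exact nn s ((E.cB _ hj').symm.trans c1)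
      · exact nn s ((E.cA _ hj').symm.trans c1)
      · exact h hj
    have ev : ((rc0 hS).cell ((rc0 hS).rho ((rc0 hS).rho p))).1 =
        Quot.mk (hullE S) (th S p.1) := rfl
    have l2 : th S p.1 ∈ st A i := by
      by_contra h
      rcases Nat.lt_or_ge 1 n with h1 | h1
      · exact hc _ v2 (e2 ▸ E.fr Nat.one_pos h1)
      · have : n = 1 := by have := E.pos; omega
        subst this
        exact h (e2 ▸ E.stn)
    refine H.nr (tr S p) tm (i + 1) ⟨E.st0, ?_, ?_⟩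
    · rw [(z3b i).2.2.1]
      exact l1
    · rw [(z3b i).2.2.2]
      exact l2
  · exact ⟨_, Or.inl rfl, E.fr h0 hu⟩

/-- the edges of the face are short -/
theorem SE.len (E : SE A i χ₀ s k n) (H : MK S (st A) m lab ρ d) (hd : 0 ≤ d) {u : ℕ} (hu : u < n)
    {a b : ℂ} (ha : Vt (tr S (Q χ₀ k u)) a) (hb : Vt (tr S (Q χ₀ k u)) b) : ‖a - b‖ ≤ d := by
  obtain ⟨f, hf, hf'⟩ := E.free_vt H hu
  rcases vt_adj hS (tr_mem (Q χ₀ k u)) ha hb with rfl | h
  · rw [sub_self, norm_zero]; exact hd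
  · refine H.len a b h ?_
    rcases vt_adj hS (tr_mem (Q χ₀ k u)) ha hf with rfl | h'
    · exact Or.inl hf'
    · exact Or.inr ⟨f, hf', h'⟩

/-- a giant vertex of the face is next to the free sites -/
theorem SE.nx (E : SE A i χ₀ s k n) (H : MK S (st A) m lab ρ d) {u : ℕ} (hu : u < n) {a : ℂ}
    (ha : Vt (tr S (Q χ₀ k u)) a) {j : ZMod 3} (hj : a ∈ st A j) :
    Nx S (K33x877.fr S (st A)) a := by
  obtain ⟨f, hf, hf'⟩ := E.free_vt H hu
  rcases vt_adj hS (tr_mem (Q χ₀ k u)) ha hf with rfl | h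
  · exact absurd hf' (not_fr hj)
  · exact ⟨f, hf', h⟩

/-- **a state of the excursion near a mark gives an arm** -/
theorem state_arm (E : SE A i χ₀ s k n) (H : MK S (st A) m lab ρ d) (hr : r + d < ρ) (hd : 0 ≤ d)
    (hTf : T ⊆ ff S (st A)) (hT : Cmp A (T : Set ℂ) {c | χ₀ c = 1}) {u : ℕ} (hu : u < n) {j : ι}
    (hj : lab j = i ∨ lab j = i + 1) {x : ℂ} (hx : Vt (tr S (Q χ₀ k u)) x) (hxr : ‖x - m j‖ ≤ r) :
    Arm2 S (ff S (st A)) (m j) (r + d) (ρ - d) T := by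
  have key : CArm S (Ws A s T) (m j) (r + d) (ρ - d) := by
    have hWf : ∀ w ∈ Ws A s T, w ∈ K33x877.fr S (st A) := by
      intro w hw
      unfold Ws at hw
      split_ifs at hw
      · exact mem_ff.1 (hTf hw)
      · exact mem_ff.1 (Finset.sdiff_subset hw)
    have hl : ∀ w ∈ Ws A s T, ∀ x, Adj S w x → ‖w - x‖ ≤ d :=
      fun w hw x h => H.len w x h (Or.inl (hWf w hw))
    rcases hj with hj | hj
    · -- forward
      have hb : Vt (tr S (Q χ₀ k u)) (Q χ₀ k (u + 1)).1.1 := E.vt u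
      refine arm_out hl (E.len H hd hu hx hb) (E.forw hT (n - (u + 1)) (u + 1) (by omega)
        (Nat.succ_pos _)) hxr ?_ hr
      by_contra hlt
      have hn1 : n - 1 < n := by have := E.pos; omega
      have hb' : Vt (tr S (Q χ₀ k (n - 1))) (Q χ₀ k n).1.1 := by
        have := E.vt (n - 1)
        rwa [show n - 1 + 1 = n by have := E.pos; omega] at this
      refine H.near _ (E.nx H hn1 hb' E.stn) j (not_le.1 hlt) ?_
      rw [hj]
      exact E.stn
    · -- backward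
      have hb : Vt (tr S (Q χ₀ k u)) (Q χ₀ k u).1.1 := Or.inl rfl
      have h0 : Nx S (K33x877.fr S (st A)) (Q χ₀ k 0).1.1 :=
        E.nx H E.pos (Or.inl rfl) E.st0
      have hfar : ρ ≤ ‖(Q χ₀ k 0).1.1 - m j‖ := by
        by_contra hlt
        refine H.near _ h0 j (not_le.1 hlt) ?_
        rw [hj]
        exact E.st0
      rcases Nat.eq_zero_or_pos u with rfl | hu0
      · exfalso
        have h1 := E.len H hd hu hx hb
        have h2 : ‖(Q χ₀ k 0).1.1 - m j‖ ≤ ‖x - (Q χ₀ k 0).1.1‖ + ‖x - m j‖ := by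
          have := norm_sub_le (x - m j) (x - (Q χ₀ k 0).1.1)
          have e : x - m j - (x - (Q χ₀ k 0).1.1) = (Q χ₀ k 0).1.1 - m j := by ring
          rw [e] at this
          linarith
        linarith
      · exact arm_out hl (E.len H hd hu hx hb) (E.back hT u hu0 hu) hxr hfar hr
  unfold Ws at key
  split_ifs at key
  · exact Or.inl key
  · exact Or.inr key

/-- the excursion of the pattern with white giant `A (i + 2)` sees a site within `r` of a mark with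
label `i` or `i + 1` -/
def SeeM (A : ZMod 3 → Set (Cs hS)) (i : ZMod 3) (m : ι → ℂ) (lab : ι → ZMod 3) (r : ℝ)
    (T : Finset ℂ) : Prop :=
  ∃ (χ₀ : Cs hS → ZMod 2) (s : ZMod 2) (k : D0 S) (n u : ℕ) (j : ι) (x : ℂ), SE A i χ₀ s k n ∧
    Cmp A (T : Set ℂ) {c | χ₀ c = 1} ∧ u < n ∧ (lab j = i ∨ lab j = i + 1) ∧
    Vt (tr S (Q χ₀ k u)) x ∧ ‖x - m j‖ ≤ r

theorem see_arm (H : MK S (st A) m lab ρ d) (hr : r + d < ρ) (hd : 0 ≤ d)
    (hTf : T ⊆ ff S (st A)) (h : SeeM A i m lab r T) :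
    ∃ j, Arm2 S (ff S (st A)) (m j) (r + d) (ρ - d) T := by
  obtain ⟨χ₀, s, k, n, u, j, x, E, hT, hu, hj, hx, hxr⟩ := h
  exact ⟨j, state_arm E H hr hd hTf hT hu hj hx hxr⟩

end marks

/-- **any event which gives an arm at a mark** -/
theorem pr_of_arm : ∀ C4 : ℝ, 0 ≤ C4 → ∃ C c c1 c2 K : ℝ, 0 < C ∧ 0 < c ∧ 0 < c1 ∧ 0 < c2 ∧
    c2 ≤ 1 ∧ 1 ≤ K ∧ ∀ (S V : Finset ℂ) (ι : Type) [Fintype ι] (m : ι → ℂ) (ρ d r : ℝ)
    (E : Finset ℂ → Prop), V ⊆ S → 0 ≤ d → 0 < r → r + d ≤ ρ - d →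
    (∀ T ⊆ V, E T → ∃ j, Arm2 S V (m j) (r + d) (ρ - d) T) →
    (∀ j, LDns S (m j) (K * (ρ - d)) d) →
    (∀ j b, c2 * (r + d) ≤ b → b ≤ ρ - d → Mesh S (m j) (K * (ρ - d)) b C4) →
    d ≤ c1 * (r + d) →
    pr V E ≤ 2 * Fintype.card ι * (C * ((r + d) / (ρ - d)) ^ c) := by
  intro C4 hC4
  obtain ⟨C, c, c1, c2, K, h1, h2, h3, h4, h5, h6, Hm⟩ := ArmPx930.arm C4 hC4
  refine ⟨C, c, c1, c2, K, h1, h2, h3, h4, h5, h6, ?_⟩
  intro S V ι _ m ρ d r E hV hd hr hρ hE hL hM hdc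
  have hpr : pr V E ≤ ∑ j, pr V (Arm2 S V (m j) (r + d) (ρ - d)) := by
    have h := pr_ex (V := V) Finset.univ (fun (j : ι) T => Arm2 S V (m j) (r + d) (ρ - d) T)
    refine le_trans (pr_mono' fun T hT h1 => ?_) h
    obtain ⟨j, hj⟩ := hE T hT h1
    exact ⟨j, Finset.mem_univ _, hj⟩
  rcases eq_or_lt_of_le hd with hd0 | hd0
  · by_cases hι : Nonempty ι
    · obtain ⟨j⟩ := hι
      exact absurd (hL j).dpos (by rw [← hd0]; exact lt_irrefl _)
    · have : IsEmpty ι := not_nonempty_iff.1 hι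
      refine hpr.trans ?_
      rw [Fintype.card_eq_zero]
      simp
  · have key : ∀ j, pr V (Arm2 S V (m j) (r + d) (ρ - d)) ≤
        2 * (C * ((r + d) / (ρ - d)) ^ c) := fun j =>
      pr_arm2 (Hm S (m j) d (r + d) (ρ - d) (by linarith) hρ (hL j) (hM j) hdc _ hV)
    refine hpr.trans ((Finset.sum_le_sum fun j _ => key j).trans ?_)
    rw [Finset.sum_const, Finset.card_univ, nsmul_eq_mul]
    exact le_of_eq (by ring)

/-- **(M), state version** -/
theorem pr_see_arm : ∀ C4 : ℝ, 0 ≤ C4 → ∃ C c c1 c2 K : ℝ, 0 < C ∧ 0 < c ∧ 0 < c1 ∧ 0 < c2 ∧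
    c2 ≤ 1 ∧ 1 ≤ K ∧ ∀ (S : Finset ℂ) (hS : GP (S : Set ℂ)) (A : ZMod 3 → Set (Cs hS))
    (ι : Type) [Fintype ι] (m : ι → ℂ) (lab : ι → ZMod 3) (ρ d r : ℝ) (i : ZMod 3),
    MK S (st A) m lab ρ d → 0 ≤ d → 0 < r → r + d ≤ ρ - d →
    (∀ j, LDns S (m j) (K * (ρ - d)) d) →
    (∀ j b, c2 * (r + d) ≤ b → b ≤ ρ - d → Mesh S (m j) (K * (ρ - d)) b C4) →
    d ≤ c1 * (r + d) →
    pr (ff S (st A)) (SeeM A i m lab r) ≤ 2 * Fintype.card ι * (C * ((r + d) / (ρ - d)) ^ c) := by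
  intro C4 hC4
  obtain ⟨C, c, c1, c2, K, h1, h2, h3, h4, h5, h6, Hm⟩ := pr_of_arm C4 hC4
  refine ⟨C, c, c1, c2, K, h1, h2, h3, h4, h5, h6, ?_⟩
  intro S hS A ι _ m lab ρ d r i H hd hr hρ hL hM hdc
  by_cases hd0 : d = 0
  · by_cases hι : Nonempty ι
    · obtain ⟨j⟩ := hι
      exact absurd (hL j).dpos (by rw [hd0]; exact lt_irrefl _)
    · have hE : IsEmpty ι := not_nonempty_iff.1 hι
      refine Hm S (ff S (st A)) ι m ρ d r _ (Finset.filter_subset _ _) hd hr hρ ?_ hL hM hdc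
      rintro T hT ⟨χ₀, s, k, n, u, j, x, h⟩
      exact hE.elim j
  · have hd1 : 0 < d := lt_of_le_of_ne hd (Ne.symm hd0)
    exact Hm S (ff S (st A)) ι m ρ d r _ (Finset.filter_subset _ _) hd hr hρ
      (fun T hT h => see_arm H (by linarith) hd hT h) hL hM hdc

end Crest.Agent.R143.MarkSx298
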