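import Crest.Agent.R143.Mass1_302
import Crest.Agent.R143.Frame8_395
import Crest.Agent.R143.DelG_806

/-!
# Row 143 (S0194): MASS, part 2 (helper302): local loops and blocks = loops and blocks of any closed
map which agrees with the Delaunay triangulation inside `U`

* `Agr P U M δ κ` : the closed map `M` agrees with the Delaunay triangulation of `P` on the faces
  with closed circumdisc in `U`; `δ a b` = dart of the directed side `(a, b)`, `κ a` = cell of `a`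
* `blk_img` : the block of a local loop of a compatible even configuration is the image of the
  local block `bl l s`
* `exists_ob` : every loop of `M` inside `U` comes from a local loop
-/

set_option autoImplicit false

noncomputable section

open scoped Classical

namespace Crest.Agent.R143.Mass2x302

open Crest.Agent.R143.B0x346 Crest.Agent.R143.SumScx302 Crest.Agent.R143.Mass1x302
  Crest.Agent.R143.DelGx806
open Crest.Agent.R143.Frame1x395 Crest.Agent.R143.Frame2x395 Crest.Agent.R143.Frame3x395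
  Crest.Agent.R143.Frame8x395

theorem del_rot {P : Set ℂ} {a b c : ℂ} (h : Del P a b c) : Del P b c a := by
  obtain ⟨ha, hb, hc, h1, o, h2, h3, h4⟩ := h
  refine ⟨hb, hc, ha, ?_, o, ?_, ?_, ?_⟩
  · rw [← cr_rot]; exact h1
  · rw [h3, h2]
  · exact h2.symm
  · intro s hs; rw [h2]; exact h4 s hs

theorem del_sub {P Q : Set ℂ} (hPQ : Q ⊆ P) {a b c : ℂ} (h : Del P a b c) (ha : a ∈ Q)
    (hb : b ∈ Q) (hc : c ∈ Q) : Del Q a b c := by
  obtain ⟨-, -, -, h1, o, h2, h3, h4⟩ := h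
  exact ⟨ha, hb, hc, h1, o, h2, h3, fun s hs => h4 s (hPQ hs)⟩

theorem gp_mono {P Q : Set ℂ} (hPQ : Q ⊆ P) (h : GP P) : GP Q :=
  ⟨fun a ha b hb c hc => h.line a (hPQ ha) b (hPQ hb) c (hPQ hc),
    fun a ha b hb c hc e he => h.circ a (hPQ ha) b (hPQ hb) c (hPQ hc) e (hPQ he)⟩

theorem del_uniq {P : Set ℂ} (hP : GP P) {a b c e : ℂ} (h : Del P a b c) (h' : Del P a b e) :
    c = e := by
  set S : Finset ℂ := {a, b, c, e} with hS
  have hsub : (S : Set ℂ) ⊆ P := by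
    intro z hz
    rw [hS] at hz
    simp only [Finset.coe_insert, Finset.coe_singleton, Set.mem_insert_iff,
      Set.mem_singleton_iff] at hz
    rcases hz with rfl | rfl | rfl | rfl
    · exact h.1
    · exact h.2.1
    · exact h.2.2.1
    · exact h'.2.2.1
  have ma : a ∈ (S : Set ℂ) := by simp [hS]
  have mb : b ∈ (S : Set ℂ) := by simp [hS]
  have mc : c ∈ (S : Set ℂ) := by simp [hS]
  have me : e ∈ (S : Set ℂ) := by simp [hS]
  exact (g1 S (gp_mono hsub hP)).2.1 a b c e (mem_delT.2 (del_sub hsub h ma mb mc))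
    (mem_delT.2 (del_sub hsub h' ma mb me))

theorem del_ne {P : Set ℂ} {a b c : ℂ} (h : Del P a b c) : a ≠ b ∧ b ≠ c ∧ a ≠ c :=
  ne_of_cr_pos h.2.2.2.1.ne'

theorem cdisc_rot (a b c : ℂ) : cdisc (b, c, a) = cdisc (a, b, c) := by
  ext z
  constructor
  · rintro ⟨o, h1, h2, h3⟩
    exact ⟨o, h2.symm, by rw [← h2] at h1; exact h1, by rw [← h2] at h3; exact h3⟩
  · rintro ⟨o, h1, h2, h3⟩
    change ‖b - o‖ = ‖a - o‖ at h1
    change ‖c - o‖ = ‖a - o‖ at h2
    change ‖z - o‖ ≤ ‖a - o‖ at h3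
    refine ⟨o, ?_, ?_, ?_⟩
    · show ‖c - o‖ = ‖b - o‖
      rw [h1, h2]
    · exact h1.symm
    · show ‖z - o‖ ≤ ‖b - o‖
      rw [h1]; exact h3

/-- Delaunay face with circumdisc in `U` -/
def Fc (P U : Set ℂ) (a b c : ℂ) : Prop := Del P a b c ∧ cdisc (a, b, c) ⊆ U

theorem Fc.rot {P U : Set ℂ} {a b c : ℂ} (h : Fc P U a b c) : Fc P U b c a :=
  ⟨del_rot h.1, by rw [cdisc_rot]; exact h.2⟩

variable {D C : Type} {M : CMap D C} {P U : Set ℂ} {δ : ℂ → ℂ → D} {κ : ℂ → C}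

/-- the closed map `M` agrees with the Delaunay triangulation of `P` inside `U` -/
structure Agr (P U : Set ℂ) (M : CMap D C) (δ : ℂ → ℂ → D) (κ : ℂ → C) : Prop where
  gp : GP P
  rho : ∀ a b c, Fc P U a b c → M.rho (δ a b) = δ b c
  iot : ∀ a b c e, Fc P U a b c → Fc P U b a e → M.iota (δ a b) = δ b a
  cel : ∀ a b c, Fc P U a b c → M.cell (δ a b) = κ a
  inj : ∀ a b c a' b' c', Fc P U a b c → Fc P U a' b' c' → κ a = κ a' → a = a'

/-- loops in `U` -/
structure LpU (P U : Set ℂ) (l : Finset T3) : Prop where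
  lp : IsLp P l
  sub : ∀ t ∈ l, cdisc t ⊆ U

theorem LpU.fc {l : Finset T3} (h : LpU P U l) {t : T3} (ht : t ∈ l) : Fc P U t.1 t.2.1 t.2.2 :=
  ⟨h.lp.del t ht, h.sub t ht⟩

/-- the even configuration `x` is compatible with the loop -/
def Cpt (δ : ℂ → ℂ → D) (x : D → ZMod 2) (l : Finset T3) : Prop := ∀ t ∈ l, x (δ t.1 t.2.1) = 1

/-- dart of a state -/
def dd (δ : ℂ → ℂ → D) (t : T3) : D := δ t.1 t.2.1

/-- the gap dart `(c, a)` of the state `(a, b, c)` -/
def gd (δ : ℂ → ℂ → D) (t : T3) : D := δ t.2.2 t.1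

variable {x : D → ZMod 2} {l : Finset T3}

/-- faces of `U` are determined by their darts -/
theorem Agr.dinj (A : Agr P U M δ κ) {a b c a' b' c' : ℂ} (h : Fc P U a b c)
    (h' : Fc P U a' b' c') (e : δ a b = δ a' b') : a = a' ∧ b = b' ∧ c = c' := by
  have h1 : a = a' := A.inj _ _ _ _ _ _ h h' (by rw [← A.cel _ _ _ h, ← A.cel _ _ _ h', e])
  have h2 : b = b' := by
    refine A.inj _ _ _ _ _ _ h.rot h'.rot ?_
    rw [← A.cel _ _ _ h.rot, ← A.cel _ _ _ h'.rot, ← A.rho _ _ _ h, ← A.rho _ _ _ h', e]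
  subst h1
  subst h2
  exact ⟨rfl, rfl, del_uniq A.gp h.1 h'.1⟩

theorem Agr.dd_inj (A : Agr P U M δ κ) (h : LpU P U l) {s t : T3} (hs : s ∈ l) (ht : t ∈ l)
    (e : dd δ s = dd δ t) : s = t := by
  obtain ⟨h1, h2, h3⟩ := A.dinj (h.fc hs) (h.fc ht) e
  exact Prod.ext h1 (Prod.ext h2 h3)

theorem Agr.gd_rho (A : Agr P U M δ κ) {s : T3} (hs : Fc P U s.1 s.2.1 s.2.2) :
    M.rho (gd δ s) = dd δ s := A.rho _ _ _ hs.rot.rot

theorem Agr.gd_eq (A : Agr P U M δ κ) {s : T3} (hs : Fc P U s.1 s.2.1 s.2.2) :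
    gd δ s = M.rho (M.rho (dd δ s)) := by
  rw [← M.rho3 (gd δ s), A.gd_rho hs]

theorem Agr.gd_inj (A : Agr P U M δ κ) (h : LpU P U l) {s t : T3} (hs : s ∈ l) (ht : t ∈ l)
    (e : gd δ s = gd δ t) : s = t := by
  apply A.dd_inj h hs ht
  rw [← A.gd_rho (h.fc hs), ← A.gd_rho (h.fc ht), e]

/-- left step: the third site is a left site -/
theorem Agr.step_l (A : Agr P U M δ κ) (hx : IsC M ∅ x) (h : LpU P U l) (hc : Cpt δ x l) {s t : T3}
    (hs : s ∈ l) (ht : t ∈ l) (h1 : t.1 = s.2.2) (h2 : t.2.1 = s.2.1) :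
    stp M x (dd δ s) = dd δ t ∧ Gp M x (gd δ s) ∧ out M (gd δ s) = dd δ t := by
  obtain ⟨a, b, c⟩ := s
  obtain ⟨c', b', e⟩ := t
  change c' = c at h1
  change b' = b at h2
  subst h1
  subst h2
  have fs : Fc P U a b' c' := h.fc hs
  have ft : Fc P U c' b' e := h.fc ht
  have x1 : x (δ a b') = 1 := hc _ hs
  have x2 : x (δ c' b') = 1 := hc _ ht
  have r1 : M.rho (δ a b') = δ b' c' := A.rho _ _ _ fs
  have r2 : M.rho (δ b' c') = δ c' a := A.rho _ _ _ fs.rot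
  have i1 : M.iota (δ b' c') = δ c' b' := A.iot _ _ _ _ fs.rot ft
  have x3 : x (δ b' c') = 1 := by rw [← hx.iot, i1]; exact x2
  have x4 : x (δ c' a) = 0 := by
    have := hx.par (δ a b')
    rw [if_neg (Set.notMem_empty _), r1, r2, x1, x3] at this
    revert this
    generalize x (δ c' a) = u
    revert u; decide
  have e1 : dd δ (a, b', c') = δ a b' := rfl
  have e2 : gd δ (a, b', c') = δ c' a := rfl
  have e3 : dd δ (c', b', e) = δ c' b' := rfl
  rw [e1, e2, e3]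
  refine ⟨?_, ⟨x4, ?_⟩, ?_⟩
  · unfold stp
    rw [r1, if_pos x3, i1]
  · rw [A.rho _ _ _ fs.rot.rot]; exact x1
  · unfold out
    rw [A.rho _ _ _ fs.rot.rot, r1, i1]

/-- right step -/
theorem Agr.step_r (A : Agr P U M δ κ) (hx : IsC M ∅ x) (h : LpU P U l) (hc : Cpt δ x l) {s t : T3}
    (hs : s ∈ l) (ht : t ∈ l) (h1 : t.1 = s.1) (h2 : t.2.1 = s.2.2) :
    stp M x (dd δ s) = dd δ t ∧ x (gd δ s) = 1 := by
  obtain ⟨a, b, c⟩ := s
  obtain ⟨a', c', e⟩ := t
  change a' = a at h1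
  change c' = c at h2
  subst h1
  subst h2
  have fs : Fc P U a' b c' := h.fc hs
  have ft : Fc P U a' c' e := h.fc ht
  have x1 : x (δ a' b) = 1 := hc _ hs
  have x2 : x (δ a' c') = 1 := hc _ ht
  have r1 : M.rho (δ a' b) = δ b c' := A.rho _ _ _ fs
  have r2 : M.rho (δ b c') = δ c' a' := A.rho _ _ _ fs.rot
  have i1 : M.iota (δ c' a') = δ a' c' := A.iot _ _ _ _ fs.rot.rot ft
  have x3 : x (δ c' a') = 1 := by rw [← hx.iot, i1]; exact x2
  have x4 : x (δ b c') = 0 := by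
    have := hx.par (δ a' b)
    rw [if_neg (Set.notMem_empty _), r1, r2, x1, x3] at this
    revert this
    generalize x (δ b c') = u
    revert u; decide
  refine ⟨?_, x3⟩
  show stp M x (δ a' b) = δ a' c'
  unfold stp
  rw [r1, r2, if_neg (by rw [x4]; decide), i1]

theorem Agr.step (A : Agr P U M δ κ) (hx : IsC M ∅ x) (h : LpU P U l) (hc : Cpt δ x l) {s t : T3}
    (hs : s ∈ l) (ht : t ∈ l) (hst : St l s t) : stp M x (dd δ s) = dd δ t := by
  rcases hst with ⟨-, h1, h2⟩ | ⟨-, h1, h2⟩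
  · exact (A.step_l hx h hc hs ht h1 h2).1
  · exact (A.step_r hx h hc hs ht h1 h2).1

/-- the gap states are the states whose third site is on the left -/
theorem Agr.gap_iff (A : Agr P U M δ κ) (hx : IsC M ∅ x) (h : LpU P U l) (hc : Cpt δ x l) {s : T3}
    (hs : s ∈ l) : Gp M x (gd δ s) ↔ s.2.2 ∈ lf l := by
  obtain ⟨t, ht, hst⟩ := h.lp.nx s hs
  constructor
  · intro hg
    rcases hst with ⟨h0, -, -⟩ | ⟨-, h1, h2⟩
    · exact h0
    · exfalso
      have := (A.step_r hx h hc hs ht h1 h2).2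
      rw [hg.1] at this
      exact absurd this (by decide)
  · intro hl
    rcases hst with ⟨-, h1, h2⟩ | ⟨h0, -, -⟩
    · exact (A.step_l hx h hc hs ht h1 h2).2.1
    · exact absurd h0 (Finset.disjoint_left.1 h.lp.dj hl)

theorem Agr.out_eq (A : Agr P U M δ κ) (hx : IsC M ∅ x) (h : LpU P U l) (hc : Cpt δ x l) {s t : T3}
    (hs : s ∈ l) (ht : t ∈ l) (hg : Gp M x (gd δ s)) (hst : St l s t) :
    out M (gd δ s) = dd δ t := by
  rw [← Gp.stp hx hg, A.gd_rho (h.fc hs)]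
  exact A.step hx h hc hs ht hst

/-- next state (inside the loop) of a gap state -/
theorem LpU.next_mem (A : Agr P U M δ κ) (h : LpU P U l) {s s' : T3} (_ : s ∈ l)
    (hst : St l s s') (hs' : s' ∈ l) : ∃! t, t ∈ l ∧ St l s t := by
  refine ⟨s', ⟨hs', hst⟩, ?_⟩
  rintro t ⟨ht, htt⟩
  have e : t.1 = s'.1 ∧ t.2.1 = s'.2.1 := by
    rcases hst with ⟨h0, h1, h2⟩ | ⟨h0, h1, h2⟩ <;> rcases htt with ⟨g0, g1, g2⟩ | ⟨g0, g1, g2⟩
    · exact ⟨by rw [g1, h1], by rw [g2, h2]⟩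
    · exact absurd g0 (Finset.disjoint_left.1 h.lp.dj h0)
    · exact absurd h0 (Finset.disjoint_left.1 h.lp.dj g0)
    · exact ⟨by rw [g1, h1], by rw [g2, h2]⟩
  obtain ⟨t1, t2, t3⟩ := t
  obtain ⟨s1, s2, s3⟩ := s'
  obtain ⟨e1, e2⟩ := e
  change t1 = s1 at e1
  change t2 = s2 at e2
  subst e1
  subst e2
  have : t3 = s3 := del_uniq A.gp (h.lp.del (t1, t2, t3) ht) (h.lp.del (t1, t2, s3) hs')
  rw [this]

/-- walks of the closed map stay in the loop -/
theorem Agr.iter (A : Agr P U M δ κ) (hx : IsC M ∅ x) (h : LpU P U l) (hc : Cpt δ x l) {s : T3}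
    (hs : s ∈ l) (n : ℕ) : ∃ t ∈ l, (stp M x)^[n] (dd δ s) = dd δ t := by
  induction n with
  | zero => exact ⟨s, hs, rfl⟩
  | succ n ih =>
    obtain ⟨t, ht, h1⟩ := ih
    obtain ⟨u, hu, h2⟩ := h.lp.nx t ht
    refine ⟨u, hu, ?_⟩
    rw [Function.iterate_succ_apply', h1]
    exact A.step hx h hc ht hu h2

theorem Agr.rtg (A : Agr P U M δ κ) (hx : IsC M ∅ x) (h : LpU P U l) (hc : Cpt δ x l)
    {Q : T3 → Prop} {s t : T3} (hs : s ∈ l)
    (hr : Relation.ReflTransGen (fun u v => v ∈ l ∧ St l u v ∧ Q v) s t) (h0 : Q s) :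
    t ∈ l ∧ Q t ∧ ∃ n, (stp M x)^[n] (dd δ s) = dd δ t ∧
      ∀ k ≤ n, ∃ u ∈ l, Q u ∧ (stp M x)^[k] (dd δ s) = dd δ u := by
  induction hr with
  | refl =>
    refine ⟨hs, h0, 0, rfl, fun k hk => ⟨s, hs, h0, ?_⟩⟩
    rw [Nat.le_zero.1 hk]; rfl
  | @tail u v _ huv ih =>
    obtain ⟨h1, h2, n, h3, h4⟩ := ih
    refine ⟨huv.1, huv.2.2, n + 1, ?_, fun k hk => ?_⟩
    · rw [Function.iterate_succ_apply', h3]
      exact A.step hx h hc h1 huv.1 huv.2.1
    · rcases Nat.lt_or_ge n k with hl | hl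
      · have : k = n + 1 := by omega
        refine ⟨v, huv.1, huv.2.2, ?_⟩
        rw [this, Function.iterate_succ_apply', h3]
        exact A.step hx h hc h1 huv.1 huv.2.1
      · exact h4 k hl

/-- a left site of the loop and its cell -/
theorem Agr.cell_dd (A : Agr P U M δ κ) (h : LpU P U l) {s : T3} (hs : s ∈ l) :
    M.cell (dd δ s) = κ s.1 := A.cel _ _ _ (h.fc hs)

/-- avoiding a site = avoiding its cell -/
theorem Agr.av_iff (A : Agr P U M δ κ) (hx : IsC M ∅ x) (h : LpU P U l) (hc : Cpt δ x l) {c : ℂ}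
    (hcl : c ∈ lf l) {s t : T3} (hs : s ∈ l) (ht : t ∈ l) :
    AvL l c s t ↔ Av M x (κ c) (dd δ s) (dd δ t) := by
  obtain ⟨w, hw, rfl⟩ := Finset.mem_image.1 hcl
  constructor
  · rintro ⟨-, h1, h2⟩
    obtain ⟨-, -, n, h3, h4⟩ := A.rtg hx h hc (Q := fun u => u.1 ≠ w.1) hs h2 h1
    refine ⟨n, h3, fun k hk => ?_⟩
    obtain ⟨u, hu, hq, e⟩ := h4 k hk
    rw [e, A.cell_dd h hu]
    exact fun hc => hq (A.inj _ _ _ _ _ _ (h.fc hu) (h.fc hw) hc)
  · rintro ⟨n, h1, h2⟩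
    have key : ∀ m ≤ n, ∃ u ∈ l, (stp M x)^[m] (dd δ s) = dd δ u ∧
        Relation.ReflTransGen (fun u v => v ∈ l ∧ St l u v ∧ v.1 ≠ w.1) s u := by
      intro m
      induction m with
      | zero => intro _; exact ⟨s, hs, rfl, Relation.ReflTransGen.refl⟩
      | succ m ih =>
        intro hm
        obtain ⟨u, hu, e, hr⟩ := ih (by omega)
        obtain ⟨v, hv, huv⟩ := h.lp.nx u hu
        have e2 : (stp M x)^[m + 1] (dd δ s) = dd δ v := by
          rw [Function.iterate_succ_apply', e]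
          exact A.step hx h hc hu hv huv
        refine ⟨v, hv, e2, hr.tail ⟨hv, huv, fun hc => h2 (m + 1) hm ?_⟩⟩
        rw [e2, A.cell_dd h hv, hc]
    obtain ⟨u, hu, e, hr⟩ := key n le_rfl
    have hut : u = t := A.dd_inj h hu ht (by rw [← e, h1])
    rw [hut] at hr
    refine ⟨hs, fun hc => h2 0 (Nat.zero_le _) ?_, hr⟩
    show M.cell (dd δ s) = κ w.1
    rw [A.cell_dd h hs, hc]

/-- avoiding a site which is not on the left of the loop is no condition -/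
theorem avL_of (h : LpU P U l) {c : ℂ} (hcl : c ∉ lf l) {s t : T3} (hs : s ∈ l) (ht : t ∈ l) :
    AvL l c s t := by
  have key : ∀ u ∈ l, u.1 ≠ c := fun u hu hc =>
    hcl (Finset.mem_image.2 ⟨u, hu, hc⟩)
  refine ⟨hs, key s hs, ?_⟩
  exact rtg_map (Equiv.refl T3) (fun u v a => ⟨a.1, a.2, key v a.1⟩) (h.lp.orb s hs t ht)

theorem Agr.av_of (A : Agr P U M δ κ) (hx : IsC M ∅ x) (h : LpU P U l) (hc : Cpt δ x l) {c : C}
    (hcl : ∀ a ∈ lf l, κ a ≠ c) {s t : T3} (hs : s ∈ l) (ht : t ∈ l) :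
    Av M x c (dd δ s) (dd δ t) := by
  have h0 : Relation.ReflTransGen (fun u v => v ∈ l ∧ St l u v ∧ True) s t :=
    rtg_map (Equiv.refl T3) (fun u v a => ⟨a.1, a.2, trivial⟩) (h.lp.orb s hs t ht)
  obtain ⟨-, -, n, h3, h4⟩ := A.rtg hx h hc (Q := fun _ => True) hs h0 trivial
  refine ⟨n, h3, fun k hk => ?_⟩
  obtain ⟨u, hu, -, e⟩ := h4 k hk
  rw [e, A.cell_dd h hu]
  exact hcl _ (Finset.mem_image.2 ⟨u, hu, rfl⟩)

/-- **the relation of the closed map = the local relation** -/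
theorem Agr.rel_iff (A : Agr P U M δ κ) (hx : IsC M ∅ x) (h : LpU P U l) (hc : Cpt δ x l)
    {s t : T3} (hs : s ∈ l) (ht : t ∈ l) (hgs : Gp M x (gd δ s)) (hgt : Gp M x (gd δ t)) :
    Rel M x (gd δ s) (gd δ t) ↔ Rl l s t := by
  obtain ⟨s', hs', hss⟩ := h.lp.nx s hs
  obtain ⟨t', ht', htt⟩ := h.lp.nx t ht
  have os := A.out_eq hx h hc hs hs' hgs hss
  have ot := A.out_eq hx h hc ht ht' hgt htt
  have rs := A.gd_rho (h.fc hs)
  have rt' := A.gd_rho (h.fc ht)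
  constructor
  · intro H c
    by_cases hcl : c ∈ lf l
    · rcases H (κ c) with h1 | h1 | h1
      · exact Or.inl (A.gd_inj h hs ht h1)
      · rw [os, rt', ← A.av_iff hx h hc hcl hs' ht] at h1
        exact Or.inr (Or.inl ⟨s', hss, h1⟩)
      · rw [ot, rs, ← A.av_iff hx h hc hcl ht' hs] at h1
        exact Or.inr (Or.inr ⟨t', htt, h1⟩)
    · exact Or.inr (Or.inl ⟨s', hss, avL_of h hcl hs' ht⟩)
  · intro H c
    by_cases hcl : ∀ a ∈ lf l, κ a ≠ c
    · refine Or.inr (Or.inl ?_)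
      rw [os, rt']
      exact A.av_of hx h hc hcl hs' ht
    · push Not at hcl
      obtain ⟨a, ha, rfl⟩ := hcl
      rcases H a with h1 | ⟨u, hu, h1⟩ | ⟨u, hu, h1⟩
      · exact Or.inl (by rw [h1])
      · have hul : u ∈ l := h1.1
        have e : u = s' := (h.next_mem A hs hss hs').unique ⟨hul, hu⟩ ⟨hs', hss⟩
        rw [e, A.av_iff hx h hc ha hs' ht] at h1
        exact Or.inr (Or.inl (by rw [os, rt']; exact h1))
      · have hul : u ∈ l := h1.1
        have e : u = t' := (h.next_mem A ht htt ht').unique ⟨hul, hu⟩ ⟨ht', htt⟩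
        rw [e, A.av_iff hx h hc ha ht' hs] at h1
        exact Or.inr (Or.inr (by rw [ot, rs]; exact h1))

/-- **the block of the closed map is the image of the local block** -/
theorem Agr.blk_img [Fintype D] (A : Agr P U M δ κ) (hx : IsC M ∅ x) (h : LpU P U l)
    (hc : Cpt δ x l) {s : T3} (hs : s ∈ l) (hgs : s.2.2 ∈ lf l) :
    blk M x (gd δ s) = (bl l s).image (gd δ) := by
  have gs := (A.gap_iff hx h hc hs).2 hgs
  ext g
  rw [mem_blk, Finset.mem_image]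
  constructor
  · rintro ⟨hg, H⟩
    -- `g` is on the loop
    have h1 : ∃ n, (stp M x)^[n] (out M (gd δ s)) = M.rho g := by
      rcases H (M.cell g) with e | ⟨n, e, -⟩ | ⟨n, e, -⟩
      · obtain ⟨N, hN, eN⟩ := periodic hx gs.2
        refine ⟨N - 1, ?_⟩
        rw [← e, ← Gp.stp hx gs, ← Function.iterate_succ_apply, show (N - 1).succ = N by omega, eN]
      · exact ⟨n, e⟩
      · exact come_back hx hg gs e
    obtain ⟨n, hn⟩ := h1
    obtain ⟨s', hs', hss⟩ := h.lp.nx s hs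
    rw [A.out_eq hx h hc hs hs' gs hss] at hn
    obtain ⟨t, ht, e⟩ := A.iter hx h hc hs' n
    have e2 : gd δ t = g := by
      rw [A.gd_eq (h.fc ht), ← e, hn, M.rho3]
    refine ⟨t, ?_, e2⟩
    rw [← e2] at hg H
    unfold bl
    rw [Finset.mem_filter]
    exact ⟨ht, (A.gap_iff hx h hc ht).1 hg, (A.rel_iff hx h hc hs ht gs hg).1 H⟩
  · rintro ⟨t, ht, rfl⟩
    unfold bl at ht
    rw [Finset.mem_filter] at ht
    obtain ⟨ht, h1, h2⟩ := ht
    have gt := (A.gap_iff hx h hc ht).2 h1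
    exact ⟨gt, (A.rel_iff hx h hc hs ht gs gt).2 h2⟩

end Crest.Agent.R143.Mass2x302
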