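import Crest.Agent.R143.Mass2_302

/-!
# Row 143 (S0194): MASS, part 3 (helper302)

* `Agr.exists_lp` : every loop of the closed map inside `U` is a local loop
* `card_cpt` : the number of even configurations compatible with a local loop
* `mass_eq` : block sums of the closed map (loops inside `U`) = local objects
-/

set_option autoImplicit false

noncomputable section

open scoped Classical

namespace Crest.Agent.R143.Mass3x302

open Crest.Agent.R143.B0x346 Crest.Agent.R143.SumScx302 Crest.Agent.R143.Mass1x302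
  Crest.Agent.R143.DelGx806 Crest.Agent.R143.Mass2x302
open Crest.Agent.R143.Frame1x395 Crest.Agent.R143.Frame2x395 Crest.Agent.R143.Frame3x395
  Crest.Agent.R143.Frame4x395 Crest.Agent.R143.Frame8x395
open scoped ENNReal

variable {D C : Type} {M : CMap D C} {P U : Set ℂ} {δ : ℂ → ℂ → D} {κ : ℂ → C}
variable {x : D → ZMod 2} {l : Finset T3}

/-- the loop of the gap `g` is inside `U` -/
def InU (P U : Set ℂ) (M : CMap D C) (δ : ℂ → ℂ → D) (x : D → ZMod 2) (g : D) : Prop :=
  ∀ n, ∃ a b c, Fc P U a b c ∧ (stp M x)^[n] (M.rho g) = δ a b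

/-- **every loop inside `U` is a local loop** -/
theorem exists_lp [Finite D] (A : Agr P U M δ κ) (hx : IsC M ∅ x) {g : D} (hg : Gp M x g)
    (hU : InU P U M δ x g) : ∃ l s, LpU P U l ∧ s ∈ l ∧ s.2.2 ∈ lf l ∧ Cpt δ x l ∧ gd δ s = g ∧
      ∀ t, t ∈ l ↔ Fc P U t.1 t.2.1 t.2.2 ∧ ∃ n, (stp M x)^[n] (M.rho g) = dd δ t := by
  set p0 := M.rho g with hp0
  have xp : x p0 = 1 := hg.2
  set L : Set T3 := {t | Fc P U t.1 t.2.1 t.2.2 ∧ ∃ n, (stp M x)^[n] p0 = dd δ t} with hL
  have hfin : L.Finite := by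
    refine Set.Finite.of_finite_image (f := dd δ) (Set.toFinite _) ?_
    rintro s ⟨hs, -⟩ t ⟨ht, -⟩ e
    obtain ⟨h1, h2, h3⟩ := A.dinj hs ht e
    exact Prod.ext h1 (Prod.ext h2 h3)
  set l := hfin.toFinset with hl
  have ml : ∀ t, t ∈ l ↔ Fc P U t.1 t.2.1 t.2.2 ∧ ∃ n, (stp M x)^[n] p0 = dd δ t := by
    intro t
    rw [hl, Set.Finite.mem_toFinset]
    exact Iff.rfl
  -- every iterate is a state
  have it : ∀ n, ∃ t, t ∈ l ∧ (stp M x)^[n] p0 = dd δ t := by
    intro n
    obtain ⟨a, b, c, h1, h2⟩ := hU n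
    exact ⟨(a, b, c), (ml _).2 ⟨h1, n, h2⟩, h2⟩
  -- colours
  obtain ⟨ψ, hψ⟩ := M.ex x hx.dead hx.iot (fun d => by rw [hx.par d, if_neg (Set.notMem_empty d)])
  have hψ0 : ∀ d, x d = 0 → ψ (M.cell d) = ψ (M.cell (M.rho d)) := by
    intro d hd
    rw [hψ d] at hd
    revert hd
    generalize ψ (M.cell d) = a
    generalize ψ (M.cell (M.rho d)) = b
    revert a b; decide
  have cl : ∀ t ∈ l, ψ (κ t.1) = ψ (M.cell p0) ∧ ψ (κ t.2.1) ≠ ψ (M.cell p0) := by
    intro t ht
    obtain ⟨h1, n, h2⟩ := (ml t).1 ht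
    have e1 : M.cell (dd δ t) = κ t.1 := A.cel _ _ _ h1
    have e2 : M.cell (M.rho (dd δ t)) = κ t.2.1 := by
      have : M.rho (dd δ t) = δ t.2.1 t.2.2 := A.rho _ _ _ h1
      rw [this]; exact A.cel _ _ _ h1.rot
    have c1 := it_col hx xp hψ0 n
    rw [h2, e1] at c1
    have x1 : x (dd δ t) = 1 := by rw [← h2]; exact occ_it hx xp n
    refine ⟨c1, ?_⟩
    intro hc
    rw [hψ, e1, e2, c1, hc, z_self] at x1
    exact absurd x1 (by decide)
  have key : ∀ s ∈ l, ∀ n, (stp M x)^[n] p0 = dd δ s → ∃ t ∈ l, St l s t ∧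
      (stp M x)^[n + 1] p0 = dd δ t := by
    intro s hs n hn
    obtain ⟨⟨a', b', c'⟩, ht, e⟩ := it (n + 1)
    refine ⟨(a', b', c'), ht, ?_, e⟩
    have fs := ((ml s).1 hs).1
    have ft : Fc P U a' b' c' := ((ml _).1 ht).1
    obtain ⟨a, b, c⟩ := s
    change Fc P U a b c at fs
    have xs : x (δ a b) = 1 := by
      have := occ_it hx xp n
      rwa [hn] at this
    have e' : stp M x (δ a b) = δ a' b' := by
      rw [Function.iterate_succ_apply', hn] at e
      exact e
    have r1 : M.rho (δ a b) = δ b c := A.rho _ _ _ fs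
    have r2 : M.rho (δ b c) = δ c a := A.rho _ _ _ fs.rot
    have r3 : M.rho (δ c a) = δ a b := A.rho _ _ _ fs.rot.rot
    have r4 : M.rho (δ a' b') = δ b' c' := A.rho _ _ _ ft
    rcases stp_cases hx xs (Set.notMem_empty _) with ⟨h1, h2, h3⟩ | ⟨h1, h2, h3⟩
    · rw [r1] at h1 h3
      have lv := hx.lv h1
      rw [e'] at h3
      have k1 : κ a' = κ c := by
        rw [← A.cel _ _ _ ft, h3, M.cell_iota _ lv, r2, A.cel _ _ _ fs.rot.rot]
      have k2 : κ b' = κ b := by
        rw [← A.cel _ _ _ ft.rot, ← r4, h3, cell_rho_iota M lv, A.cel _ _ _ fs.rot]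
      have e1 : a' = c := A.inj _ _ _ _ _ _ ft fs.rot.rot k1
      have e2 : b' = b := A.inj _ _ _ _ _ _ ft.rot fs.rot k2
      left
      refine ⟨Finset.mem_image.2 ⟨(a', b', c'), ht, e1⟩, e1, e2⟩
    · rw [r1, r2] at h2 h3
      have lv := hx.lv h2
      rw [e'] at h3
      have k1 : κ a' = κ a := by
        rw [← A.cel _ _ _ ft, h3, M.cell_iota _ lv, r3, A.cel _ _ _ fs]
      have k2 : κ b' = κ c := by
        rw [← A.cel _ _ _ ft.rot, ← r4, h3, cell_rho_iota M lv, A.cel _ _ _ fs.rot.rot]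
      have e1 : a' = a := A.inj _ _ _ _ _ _ ft fs k1
      have e2 : b' = c := A.inj _ _ _ _ _ _ ft.rot fs.rot.rot k2
      right
      refine ⟨Finset.mem_image.2 ⟨(a', b', c'), ht, e2⟩, e1, e2⟩
  have hlp : LpU P U l := by
    refine ⟨⟨?_, ?_, ?_, ?_, ?_⟩, ?_⟩
    · obtain ⟨t, ht, -⟩ := it 0
      exact ⟨t, ht⟩
    · intro t ht
      exact ((ml t).1 ht).1.1
    · rw [Finset.disjoint_left]
      intro a ha hb
      obtain ⟨t, ht, rfl⟩ := Finset.mem_image.1 ha
      obtain ⟨u, hu, e⟩ := Finset.mem_image.1 hb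
      have h1 := (cl t ht).1
      have h2 := (cl u hu).2
      rw [e, h1] at h2
      exact h2 rfl
    · intro s hs
      obtain ⟨n, hn⟩ := ((ml s).1 hs).2
      obtain ⟨t, ht, h1, -⟩ := key s hs n hn
      exact ⟨t, ht, h1⟩
    · intro s hs t ht
      obtain ⟨n, hn⟩ := ((ml s).1 hs).2
      obtain ⟨m, hm⟩ := ((ml t).1 ht).2
      have walk : ∀ k, ∃ u ∈ l, (stp M x)^[n + k] p0 = dd δ u ∧
          Relation.ReflTransGen (fun u v => v ∈ l ∧ St l u v) s u := by
        intro k
        induction k with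
        | zero => exact ⟨s, hs, hn, Relation.ReflTransGen.refl⟩
        | succ k ih =>
          obtain ⟨u, hu, h1, h2⟩ := ih
          obtain ⟨v, hv, h3, h4⟩ := key u hu (n + k) h1
          exact ⟨v, hv, h4, h2.tail ⟨hv, h3⟩⟩
      obtain ⟨N, hN, eN⟩ := periodic hx xp
      have h5 : n ≤ m + n * N := by nlinarith
      obtain ⟨u, hu, h1, h2⟩ := walk (m + n * N - n)
      rw [Nat.add_sub_cancel' h5, Function.iterate_add_apply, per_mul eN, hm] at h1
      have e : t = u := by
        obtain ⟨e1, e2, e3⟩ := A.dinj ((ml t).1 ht).1 ((ml u).1 hu).1 h1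
        exact Prod.ext e1 (Prod.ext e2 e3)
      rw [e]; exact h2
    · intro t ht
      exact ((ml t).1 ht).1.2
  have hcp : Cpt δ x l := by
    intro t ht
    obtain ⟨n, hn⟩ := ((ml t).1 ht).2
    have := occ_it hx xp n
    rwa [hn] at this
  obtain ⟨s, hs, e0⟩ := it 0
  have e0' : M.rho g = dd δ s := e0
  have hgs : gd δ s = g := by
    rw [A.gd_eq (hlp.fc hs), ← e0', M.rho3]
  refine ⟨l, s, hlp, hs, ?_, hcp, hgs, ml⟩
  rw [← A.gap_iff hx hlp hcp hs, hgs]
  exact hg

/-! ### counting the colours -/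

/-- the same map with finitely many cells -/
def restr (M : CMap D C) : CMap D (Set.range M.cell) where
  rho := M.rho
  rho3 := M.rho3
  rho_ne := M.rho_ne
  iota := M.iota
  iota2 := M.iota2
  live := M.live
  iota_live := M.iota_live
  iota_ne := M.iota_ne
  cell := fun d => ⟨M.cell d, d, rfl⟩
  cell_iota := fun d hd => Subtype.ext (M.cell_iota d hd)
  dead := fun d hd => Subtype.ext (M.dead d hd)
  ex := fun x h1 h2 h3 => by
    obtain ⟨χ, hχ⟩ := M.ex x h1 h2 h3
    exact ⟨fun c => χ c.1, hχ⟩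

theorem isC_restr {O : Set D} : IsC (restr M) O x ↔ IsC M O x :=
  ⟨fun h => ⟨h.dead, h.iot, h.par⟩, fun h => ⟨h.dead, h.iot, h.par⟩⟩

theorem card_pres {K : Type} [Fintype K] (V : Finset K) (f : K → ZMod 2) :
    ((Finset.univ : Finset (K → ZMod 2)).filter fun χ => ∀ v ∈ V, χ v = f v).card * 2 ^ V.card =
      2 ^ Fintype.card K := by
  have e : ((Finset.univ : Finset (K → ZMod 2)).filter fun χ => ∀ v ∈ V, χ v = f v) =
      Fintype.piFinset fun k => if k ∈ V then {f k} else Finset.univ := by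
    ext χ
    rw [Finset.mem_filter, Fintype.mem_piFinset]
    constructor
    · rintro ⟨-, h⟩ k
      by_cases hk : k ∈ V
      · rw [if_pos hk, Finset.mem_singleton]; exact h k hk
      · rw [if_neg hk]; exact Finset.mem_univ _
    · intro h
      refine ⟨Finset.mem_univ _, fun k hk => ?_⟩
      have := h k
      rwa [if_pos hk, Finset.mem_singleton] at this
  rw [e, Fintype.card_piFinset]
  have e2 : ∀ k : K, (if k ∈ V then ({f k} : Finset (ZMod 2)) else Finset.univ).card =
      if k ∈ V then 1 else 2 := by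
    intro k
    split_ifs
    · rfl
    · rfl
  simp only [e2]
  rw [Finset.prod_ite, Finset.prod_const_one, one_mul, Finset.prod_const, ← pow_add]
  congr 1
  have h1 : (Finset.univ.filter fun k => k ∉ V) = Finset.univ \ V := by
    ext k; simp
  rw [h1, Finset.card_sdiff_of_subset (Finset.subset_univ V), Finset.card_univ]
  exact Nat.sub_add_cancel (Finset.card_le_univ V)

/-- **the number of the compatible even configurations** -/
theorem card_cpt [Fintype D] (A : Agr P U M δ κ) (h : LpU P U l) :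
    ((ev M).filter fun x => Cpt δ x l).card * 2 ^ (lf l ∪ rt l).card = 2 * (ev M).card := by
  have : Finite (Set.range M.cell) := Set.finite_range M.cell
  have : Fintype (Set.range M.cell) := Fintype.ofFinite _
  set K := Set.range M.cell with hK
  set M' := restr M with hM'
  have hev : ev M' = ev M := by
    ext x
    rw [mem_ev, mem_ev]
    exact isC_restr
  -- the sites and their cells
  have fcs : ∀ v ∈ lf l ∪ rt l, ∃ b c, Fc P U v b c := by
    intro v hv
    rcases Finset.mem_union.1 hv with hv | hv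
    · obtain ⟨t, ht, rfl⟩ := Finset.mem_image.1 hv
      exact ⟨_, _, h.fc ht⟩
    · obtain ⟨t, ht, rfl⟩ := Finset.mem_image.1 hv
      exact ⟨_, _, (h.fc ht).rot⟩
  have hr : ∀ v ∈ lf l ∪ rt l, κ v ∈ K := by
    intro v hv
    obtain ⟨b, c, hf⟩ := fcs v hv
    exact ⟨_, A.cel _ _ _ hf⟩
  set k0 : ℂ → K := fun v => if hv : v ∈ lf l ∪ rt l then ⟨κ v, hr v hv⟩ else
    ⟨κ (h.lp.ne.choose).1, hr _ (Finset.mem_union_left _ (Finset.mem_image.2
      ⟨_, h.lp.ne.choose_spec, rfl⟩))⟩ with hk0
  have k0v : ∀ v ∈ lf l ∪ rt l, (k0 v).1 = κ v := by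
    intro v hv
    simp only [hk0, dif_pos hv]
  have kinj : ∀ v ∈ lf l ∪ rt l, ∀ w ∈ lf l ∪ rt l, k0 v = k0 w → v = w := by
    intro v hv w hw e
    obtain ⟨b, c, hf⟩ := fcs v hv
    obtain ⟨b', c', hf'⟩ := fcs w hw
    exact A.inj _ _ _ _ _ _ hf hf' (by rw [← k0v v hv, ← k0v w hw, e])
  set V : Finset K := (lf l ∪ rt l).image k0 with hV
  have hVc : V.card = (lf l ∪ rt l).card :=
    Finset.card_image_of_injOn fun v hv w hw e => kinj v hv w hw e
  -- the prescribed colours
  set f : ZMod 2 → K → ZMod 2 := fun ε k => if k ∈ (lf l).image k0 then ε else ε + 1 with hf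
  have fl : ∀ ε, ∀ v ∈ lf l, f ε (k0 v) = ε := by
    intro ε v hv
    simp only [hf]
    rw [if_pos (Finset.mem_image_of_mem _ hv)]
  have fr : ∀ ε, ∀ v ∈ rt l, f ε (k0 v) = ε + 1 := by
    intro ε v hv
    simp only [hf]
    rw [if_neg]
    intro hc
    obtain ⟨w, hw, e⟩ := Finset.mem_image.1 hc
    have := kinj w (Finset.mem_union_left _ hw) v (Finset.mem_union_right _ hv) e
    rw [this] at hw
    exact Finset.disjoint_left.1 h.lp.dj hw hv
  have hcp : ∀ χ : K → ZMod 2, Cpt δ (cfg M' χ) l ↔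
      (∀ v ∈ V, χ v = f 0 v) ∨ (∀ v ∈ V, χ v = f 1 v) := by
    intro χ
    have val : ∀ t ∈ l, cfg M' χ (δ t.1 t.2.1) = χ (k0 t.1) + χ (k0 t.2.1) := by
      intro t ht
      have f1 := h.fc ht
      have m1 : t.1 ∈ lf l ∪ rt l := Finset.mem_union_left _ (Finset.mem_image.2 ⟨t, ht, rfl⟩)
      have m2 : t.2.1 ∈ lf l ∪ rt l := Finset.mem_union_right _ (Finset.mem_image.2 ⟨t, ht, rfl⟩)
      have e1 : M'.cell (δ t.1 t.2.1) = k0 t.1 := by
        apply Subtype.ext
        rw [k0v _ m1]
        exact A.cel _ _ _ f1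
      have e2 : M'.cell (M'.rho (δ t.1 t.2.1)) = k0 t.2.1 := by
        apply Subtype.ext
        rw [k0v _ m2]
        show M.cell (M.rho _) = _
        rw [A.rho _ _ _ f1]
        exact A.cel _ _ _ f1.rot
      show χ (M'.cell _) + χ (M'.cell (M'.rho _)) = _
      rw [e1, e2]
    constructor
    · intro hc
      -- the colours are constant on the left and on the right
      obtain ⟨s0, hs0⟩ := h.lp.ne
      have st : ∀ s ∈ l, ∀ t ∈ l, St l s t → χ (k0 t.1) = χ (k0 s.1) := by
        -- the third site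
        have third : ∀ s ∈ l, ∀ t ∈ l, St l s t → χ (k0 t.1) = χ (k0 s.1) := by
          intro s hs t ht hst
          rcases hst with ⟨-, h1, h2⟩ | ⟨-, h1, h2⟩
          · have c1 := hc s hs
            have c2 := hc t ht
            rw [val s hs] at c1
            rw [val t ht, h2] at c2
            revert c1 c2
            generalize χ (k0 s.1) = u
            generalize χ (k0 s.2.1) = v
            generalize χ (k0 t.1) = w
            revert u v w; decide
          · rw [h1]
        exact third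
      have lc : ∀ t ∈ l, χ (k0 t.1) = χ (k0 s0.1) := by
        intro t ht
        have hr := h.lp.orb s0 hs0 t ht
        have : t ∈ l ∧ χ (k0 t.1) = χ (k0 s0.1) := by
          clear ht
          induction hr with
          | refl => exact ⟨hs0, rfl⟩
          | tail _ huv ih => exact ⟨huv.1, (st _ ih.1 _ huv.1 huv.2).trans ih.2⟩
        exact this.2
      have rc : ∀ t ∈ l, χ (k0 t.2.1) = χ (k0 s0.1) + 1 := by
        intro t ht
        have c1 := hc t ht
        rw [val t ht, lc t ht] at c1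
        revert c1
        generalize χ (k0 s0.1) = u
        generalize χ (k0 t.2.1) = v
        revert u v; decide
      have hall : ∀ v ∈ V, χ v = f (χ (k0 s0.1)) v := by
        intro v hv
        obtain ⟨w, hw, rfl⟩ := Finset.mem_image.1 hv
        rcases Finset.mem_union.1 hw with hw | hw
        · rw [fl _ w hw]
          obtain ⟨t, ht, rfl⟩ := Finset.mem_image.1 hw
          exact lc t ht
        · rw [fr _ w hw]
          obtain ⟨t, ht, rfl⟩ := Finset.mem_image.1 hw
          exact rc t ht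
      rcases z01 (χ (k0 s0.1)) with h0 | h0
      · left; rw [h0] at hall; exact hall
      · right; rw [h0] at hall; exact hall
    · intro hc t ht
      show cfg M' χ (δ t.1 t.2.1) = 1
      rw [val t ht]
      have m1 : t.1 ∈ lf l := Finset.mem_image.2 ⟨t, ht, rfl⟩
      have m2 : t.2.1 ∈ rt l := Finset.mem_image.2 ⟨t, ht, rfl⟩
      have v1 : k0 t.1 ∈ V := Finset.mem_image_of_mem _ (Finset.mem_union_left _ m1)
      have v2 : k0 t.2.1 ∈ V := Finset.mem_image_of_mem _ (Finset.mem_union_right _ m2)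
      rcases hc with hc | hc
      · rw [hc _ v1, hc _ v2, fl _ _ m1, fr _ _ m2]; decide
      · rw [hc _ v1, hc _ v2, fl _ _ m1, fr _ _ m2]; decide
  -- counting
  have n1 := sum_cfg (M := M') (fun x => if Cpt δ x l then (1 : ℕ) else 0)
  have n2 := sum_cfg (M := M') (fun _ => (1 : ℕ))
  rw [hev] at n1 n2
  have c0 := card_pres V (f 0)
  have c1 := card_pres V (f 1)
  have n3 : (∑ χ : K → ZMod 2, if Cpt δ (cfg M' χ) l then (1 : ℕ) else 0) =
      ((Finset.univ : Finset (K → ZMod 2)).filter fun χ => ∀ v ∈ V, χ v = f 0 v).card +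
      ((Finset.univ : Finset (K → ZMod 2)).filter fun χ => ∀ v ∈ V, χ v = f 1 v).card := by
    rw [← Finset.card_union_of_disjoint, Finset.sum_boole, ← Finset.filter_or]
    · norm_cast
      congr 1
      ext χ
      simp only [Finset.mem_filter, Finset.mem_univ, true_and]
      exact hcp χ
    · rw [Finset.disjoint_left]
      intro χ h0 h1
      obtain ⟨-, h0⟩ := Finset.mem_filter.1 h0
      obtain ⟨-, h1⟩ := Finset.mem_filter.1 h1
      obtain ⟨s0, hs0⟩ := h.lp.ne
      have m1 : s0.1 ∈ lf l := Finset.mem_image.2 ⟨s0, hs0, rfl⟩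
      have v1 : k0 s0.1 ∈ V := Finset.mem_image_of_mem _ (Finset.mem_union_left _ m1)
      have e0 := h0 _ v1
      have e1 := h1 _ v1
      rw [fl _ _ m1] at e0 e1
      rw [e0] at e1
      exact absurd e1 (by decide)
  have n4 : (∑ χ : K → ZMod 2, (1 : ℕ)) = 2 ^ Fintype.card K := by
    rw [Finset.sum_const, Finset.card_univ, Fintype.card_fun, smul_eq_mul, mul_one]
    rfl
  have n5 : (∑ x ∈ ev M, if Cpt δ x l then (1 : ℕ) else 0) =
      ((ev M).filter fun x => Cpt δ x l).card := by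
    rw [Finset.sum_boole]
    rfl
  have n6 : (∑ x ∈ ev M, (1 : ℕ)) = (ev M).card := by simp
  have n1 : ((Finset.univ : Finset (K → ZMod 2)).filter fun χ => ∀ v ∈ V, χ v = f 0 v).card +
      ((Finset.univ : Finset (K → ZMod 2)).filter fun χ => ∀ v ∈ V, χ v = f 1 v).card =
      nK M' * ((ev M).filter fun x => Cpt δ x l).card := by
    rw [← n5, ← smul_eq_mul, ← n3]
    convert n1
  have n2 : 2 ^ Fintype.card K = nK M' * (ev M).card := by
    rw [← n6, ← smul_eq_mul, ← n4]
    convert n2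
  have hk : 0 < nK M' := by
    rcases Nat.eq_zero_or_pos (nK M') with h0 | h0
    · rw [h0, zero_mul] at n2
      exact absurd n2 (by positivity)
    · exact h0
  rw [← hVc]
  apply Nat.eq_of_mul_eq_mul_left hk
  calc nK M' * (((ev M).filter fun x => Cpt δ x l).card * 2 ^ V.card)
      = (nK M' * ((ev M).filter fun x => Cpt δ x l).card) * 2 ^ V.card := by ring
    _ = 2 ^ Fintype.card K + 2 ^ Fintype.card K := by
        rw [← n1, add_mul]
        refine congrArg₂ (fun a b : ℕ => a + b) ?_ ?_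
        · convert c0
        · convert c1
    _ = nK M' * (2 * (ev M).card) := by rw [n2]; ring

end Crest.Agent.R143.Mass3x302
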