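import Crest.Agent.R143.MassP_304
import Crest.Agent.R143.DefsN_346

/-!
# Row 143 (S0194), box R7 of the master table (helper304): the closed block carries no charge

* `blk_L2` : for a family `i ↦ (x i, s i)` of even configurations with distinguished gaps, `x i`
  equidistributed, the loop of `s i` inside `U` and macroscopic whenever `g i ≠ 0` :
  `∑ g i * ‖block sum‖² ≤ #I * E`;  `blk_L1` : `∑ g i * ‖block sum‖ ≤ #I * E^(1/2)`
* `closed_dE` : in the closed map `cm0 hS` the steps of a block inside `U` add up to zero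
* `bs_PE` : the big and the small field have the same modulus on such a block
* `R7` : the statement with measurable error functions
-/

set_option autoImplicit false

noncomputable section

open scoped Classical

namespace Crest.Agent.R143.MassQx304

open MeasureTheory Set Filter Topology
open Crest.ProbabilityR.Voronoi
open Crest.Agent.R143.B0x346 Crest.Agent.R143.SumScx302 Crest.Agent.R143.PP0x831
  Crest.Agent.R143.MassMx304 Crest.Agent.R143.MassPx304 Crest.Agent.R143.FinMx609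
  Crest.Agent.R143.DelGx806 Crest.Agent.R143.DelRx806
  Crest.Agent.R143.Mass2x302 Crest.Agent.R143.Mass3x302 Crest.Agent.R143.Mass4x302
  Crest.Agent.R143.Mass5x302 Crest.Agent.R143.JColx54
open Crest.Agent.R143.Mass1x302 hiding ps
open Crest.Agent.R143.Frame1x395 Crest.Agent.R143.Frame2x395 Crest.Agent.R143.Frame3x395
  Crest.Agent.R143.Frame4x395 Crest.Agent.R143.Frame8x395 Crest.Agent.R143.Frame9x395
  Crest.Agent.R143.Frame10x395
open Crest.Agent.R143.Frame5x395 (sd mem_sd th th_spec)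
open scoped ENNReal

variable {D C : Type} {M : CMap D C} {P U : Set ℂ} {δ : ℂ → ℂ → D} {κ : ℂ → C}

/-! ### families of configurations -/

section family

variable [Fintype D] {I : Type} [Fintype I]

/-- equidistribution over the even configurations -/
structure Eqd (M : CMap D C) (x : I → D → ZMod 2) : Prop where
  ev : ∀ i, x i ∈ ev M
  fib : ∀ y ∈ Frame8x395.ev M,
    (Finset.univ.filter fun i => x i = y).card * (Frame8x395.ev M).card ≤ Fintype.card I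

theorem Eqd.sum_le {x : I → D → ZMod 2} (h : Eqd M x) (F : (D → ZMod 2) → ℝ≥0∞) :
    ((Frame8x395.ev M).card : ℝ≥0∞) * ∑ i, F (x i) ≤
      (Fintype.card I : ℝ≥0∞) * ∑ y ∈ Frame8x395.ev M, F y := by
  have e1 : ∑ i, F (x i) = ∑ y ∈ Frame8x395.ev M,
      ((Finset.univ.filter fun i => x i = y).card : ℝ≥0∞) * F y := by
    rw [← Finset.sum_fiberwise_of_maps_to (s := Finset.univ) (t := Frame8x395.ev M) (g := x)
      fun i _ => h.ev i]
    refine Finset.sum_congr rfl fun y _ => ?_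
    rw [Finset.sum_congr rfl fun i hi => by rw [(Finset.mem_filter.1 hi).2], Finset.sum_const,
      nsmul_eq_mul]
  rw [e1, Finset.mul_sum, Finset.mul_sum]
  refine Finset.sum_le_sum fun y hy => ?_
  rw [← mul_assoc]
  gcongr
  rw [mul_comm]
  exact_mod_cast h.fib y hy

/-- **L2 form** -/
theorem blk_L2 {x : I → D → ZMod 2} (hx : Eqd M x) {s : I → D} {g : I → ℝ}
    (hg : ∀ i, g i ≤ 1) {k : ℝ}
    (hs : ∀ i, 0 < g i → blk M (x i) (s i) ∈ bigB P U M δ k (x i)) {a : D → ℂ} {E : ℝ≥0∞}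
    (hE : ∑ y ∈ ev M, ∑ β ∈ bigB P U M δ k y, ENNReal.ofReal (‖∑ t ∈ β, a t‖ ^ 2) ≤
      ((ev M).card : ℝ≥0∞) * E) :
    ∑ i, ENNReal.ofReal (g i * ‖∑ t ∈ blk M (x i) (s i), a t‖ ^ 2) ≤
      (Fintype.card I : ℝ≥0∞) * E := by
  rcases isEmpty_or_nonempty I with h0 | ⟨⟨i0⟩⟩
  · simp
  have hev : (ev M).Nonempty := ⟨x i0, hx.ev i0⟩
  have hc0 : ((ev M).card : ℝ≥0∞) ≠ 0 := by
    exact_mod_cast (Finset.card_pos.2 hev).ne'
  have hct : ((ev M).card : ℝ≥0∞) ≠ ∞ := ENNReal.natCast_ne_top _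
  have h1 : ∑ i, ENNReal.ofReal (g i * ‖∑ t ∈ blk M (x i) (s i), a t‖ ^ 2) ≤
      ∑ i, ∑ β ∈ bigB P U M δ k (x i), ENNReal.ofReal (‖∑ t ∈ β, a t‖ ^ 2) := by
    refine Finset.sum_le_sum fun i _ => ?_
    by_cases hi : 0 < g i
    · refine le_trans (ENNReal.ofReal_le_ofReal ?_)
        (Finset.single_le_sum (f := fun β => ENNReal.ofReal (‖∑ t ∈ β, a t‖ ^ 2))
          (fun _ _ => zero_le) (hs i hi))
      exact mul_le_of_le_one_left (by positivity) (hg i)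
    · rw [ENNReal.ofReal_of_nonpos]
      · exact zero_le
      · exact mul_nonpos_of_nonpos_of_nonneg (not_lt.1 hi) (by positivity)
  have h2 := hx.sum_le fun y => ∑ β ∈ bigB P U M δ k y, ENNReal.ofReal (‖∑ t ∈ β, a t‖ ^ 2)
  have h3 : ((ev M).card : ℝ≥0∞) * ∑ i, ENNReal.ofReal (g i *
      ‖∑ t ∈ blk M (x i) (s i), a t‖ ^ 2) ≤
      ((ev M).card : ℝ≥0∞) * ((Fintype.card I : ℝ≥0∞) * E) := by
    calc _ ≤ ((ev M).card : ℝ≥0∞) *
          ∑ i, ∑ β ∈ bigB P U M δ k (x i), ENNReal.ofReal (‖∑ t ∈ β, a t‖ ^ 2) := by gcongr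
      _ ≤ _ := h2
      _ ≤ (Fintype.card I : ℝ≥0∞) * (((ev M).card : ℝ≥0∞) * E) := by gcongr
      _ = _ := by ring
  exact (ENNReal.mul_le_mul_iff_right hc0 hct).1 h3

/-- Cauchy–Schwarz for finite sums with weights in `[0, 1]` -/
theorem cs_fin {g v : I → ℝ} (h0 : ∀ i, 0 ≤ g i) (h1 : ∀ i, g i ≤ 1) (hv : ∀ i, 0 ≤ v i)
    {E : ℝ≥0∞} (h : ∑ i, ENNReal.ofReal (g i * v i ^ 2) ≤ (Fintype.card I : ℝ≥0∞) * E) :
    ∑ i, ENNReal.ofReal (g i * v i) ≤ (Fintype.card I : ℝ≥0∞) * E ^ (1 / 2 : ℝ) := by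
  rcases isEmpty_or_nonempty I with hI | hI
  · simp
  have hn : (0 : ℝ) < Fintype.card I := by exact_mod_cast Fintype.card_pos
  by_cases hE : E = ∞
  · rw [hE, ENNReal.top_rpow_of_pos (by norm_num), ENNReal.mul_top]
    · exact le_top
    · exact_mod_cast Fintype.card_ne_zero
  obtain ⟨e, rfl⟩ : ∃ e : NNReal, E = e := ⟨E.toNNReal, (ENNReal.coe_toNNReal hE).symm⟩
  have h' : ∑ i, g i * v i ^ 2 ≤ Fintype.card I * (e : ℝ) := by
    rw [← ENNReal.ofReal_sum_of_nonneg fun i _ => mul_nonneg (h0 i) (by positivity)] at h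
    have e1 : (Fintype.card I : ℝ≥0∞) * (e : ℝ≥0∞) =
        ENNReal.ofReal (Fintype.card I * (e : ℝ)) := by
      rw [ENNReal.ofReal_mul (by positivity), ENNReal.ofReal_natCast, ENNReal.ofReal_coe_nnreal]
    rw [e1] at h
    exact (ENNReal.ofReal_le_ofReal_iff (by positivity)).1 h
  have h2 : (∑ i, g i * v i) ^ 2 ≤ (Fintype.card I * Real.sqrt e) ^ 2 := by
    have cs := Finset.sum_mul_sq_le_sq_mul_sq Finset.univ (fun i => Real.sqrt (g i))
      fun i => Real.sqrt (g i) * v i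
    have e2 : ∀ i, Real.sqrt (g i) * (Real.sqrt (g i) * v i) = g i * v i := fun i => by
      rw [← mul_assoc, Real.mul_self_sqrt (h0 i)]
    have e3 : ∀ i, Real.sqrt (g i) ^ 2 = g i := fun i => Real.sq_sqrt (h0 i)
    have e4 : ∀ i, (Real.sqrt (g i) * v i) ^ 2 = g i * v i ^ 2 := fun i => by
      rw [mul_pow, e3]
    simp only [e2, e3, e4] at cs
    have h3 : ∑ i, g i ≤ Fintype.card I := by
      calc ∑ i, g i ≤ ∑ _i : I, (1 : ℝ) := Finset.sum_le_sum fun i _ => h1 i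
        _ = _ := by simp
    calc (∑ i, g i * v i) ^ 2 ≤ (∑ i, g i) * ∑ i, g i * v i ^ 2 := cs
      _ ≤ Fintype.card I * (Fintype.card I * (e : ℝ)) := by
          have h4 : 0 ≤ ∑ i, g i * v i ^ 2 :=
            Finset.sum_nonneg fun i _ => mul_nonneg (h0 i) (by positivity)
          gcongr
      _ = _ := by rw [mul_pow, Real.sq_sqrt (by positivity)]; ring
  have h3 : ∑ i, g i * v i ≤ Fintype.card I * Real.sqrt e :=
    le_of_sq_le_sq h2 (by positivity)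
  rw [← ENNReal.ofReal_sum_of_nonneg fun i _ => mul_nonneg (h0 i) (hv i)]
  refine (ENNReal.ofReal_le_ofReal h3).trans (le_of_eq ?_)
  rw [ENNReal.ofReal_mul (by positivity), ENNReal.ofReal_natCast, Real.sqrt_eq_rpow,
    ← ENNReal.ofReal_rpow_of_nonneg (by positivity) (by norm_num), ENNReal.ofReal_coe_nnreal]

/-- **L1 form** -/
theorem blk_L1 {x : I → D → ZMod 2} (hx : Eqd M x) {s : I → D} {g : I → ℝ}
    (hg0 : ∀ i, 0 ≤ g i) (hg : ∀ i, g i ≤ 1) {k : ℝ}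
    (hs : ∀ i, 0 < g i → blk M (x i) (s i) ∈ bigB P U M δ k (x i)) {a : D → ℂ} {E : ℝ≥0∞}
    (hE : ∑ y ∈ ev M, ∑ β ∈ bigB P U M δ k y, ENNReal.ofReal (‖∑ t ∈ β, a t‖ ^ 2) ≤
      ((ev M).card : ℝ≥0∞) * E) :
    ∑ i, ENNReal.ofReal (g i * ‖∑ t ∈ blk M (x i) (s i), a t‖) ≤
      (Fintype.card I : ℝ≥0∞) * E ^ (1 / 2 : ℝ) :=
  cs_fin hg0 hg (fun _ => norm_nonneg _) (blk_L2 hx hg hs hE)

end family

/-! ### the square root of the error -/

theorem lint_sqrt {F : Sample → ℝ≥0∞} (hF : Measurable F) :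
    ∫⁻ ω, F ω ^ (1 / 2 : ℝ) ∂sampleLaw ≤ (∫⁻ ω, F ω ∂sampleLaw) ^ (1 / 2 : ℝ) := by
  have h := ENNReal.lintegral_mul_le_Lp_mul_Lq sampleLaw (p := 2) (q := 2)
    Real.HolderConjugate.two_two (f := fun ω => F ω ^ (1 / 2 : ℝ)) (g := fun _ => 1)
    (hF.pow_const _).aemeasurable aemeasurable_const
  simp only [Pi.mul_apply, mul_one, ENNReal.one_rpow, lintegral_const, measure_univ] at h
  refine h.trans (le_of_eq ?_)
  congr 1
  refine lintegral_congr fun ω => ?_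
  rw [← ENNReal.rpow_mul]
  norm_num

theorem sqrt_tendsto {E : ℝ → Sample → ℝ≥0∞} (hE : ∀ ε, 0 < ε → Measurable (E ε))
    (h : Tendsto (fun ε : ℝ => ∫⁻ ω, E ε ω ∂sampleLaw) (𝓝[>] 0) (𝓝 0)) :
    Tendsto (fun ε : ℝ => ∫⁻ ω, E ε ω ^ (1 / 2 : ℝ) ∂sampleLaw) (𝓝[>] 0) (𝓝 0) := by
  have h2 : Tendsto (fun ε : ℝ => (∫⁻ ω, E ε ω ∂sampleLaw) ^ (1 / 2 : ℝ)) (𝓝[>] 0) (𝓝 0) := by
    have h3 := (ENNReal.continuous_rpow_const (y := 1 / 2)).tendsto 0
    rw [ENNReal.zero_rpow_of_pos (by norm_num)] at h3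
    exact h3.comp h
  refine tendsto_of_tendsto_of_tendsto_of_le_of_le' tendsto_const_nhds h2
    (Eventually.of_forall fun _ => zero_le) ?_
  filter_upwards [self_mem_nhdsWithin] with ε hε
  exact lint_sqrt (hE ε hε)

/-! ### the second field -/

section second

variable {S : Finset ℂ} {x : D → ZMod 2}

/-- the big field of the left gap after the state `(a, b, c)` : dart `(c, a)`, third cell `b` -/
def Pn (t : T3) : ℂ := t.2.1 + om * t.1 + om ^ 2 * t.2.2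

theorem Pn_sub (t : T3) : Pn t - (starRingEnd ℂ) (Nn t) = (om - om ^ 2) * (t.1 - t.2.2) := by
  have h1 : (starRingEnd ℂ) om = om ^ 2 := om_conj
  have h3 : om ^ 3 = 1 := Mass4x302.om3
  unfold Pn Nn
  simp only [map_add, map_mul, map_pow, Complex.conj_conj, h1]
  linear_combination (-(om * t.2.2)) * h3

/-- the darts of a block inside `U` -/
theorem blk_gd [Fintype D] (A : Agr P U M δ κ) {x : D → ZMod 2} (hx : IsC M ∅ x) {g : D}
    (hg : Gp M x g) (hU : InU P U M δ x g) {d : D} (hd : d ∈ blk M x g) :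
    ∃ t : T3, Fc P U t.1 t.2.1 t.2.2 ∧ gd δ t = d := by
  obtain ⟨l, s, hl, hs, h1, hc, h2, ml⟩ := exists_lp A hx hg hU
  have h3 := A.blk_img hx hl hc hs h1
  rw [h2] at h3
  rw [h3] at hd
  obtain ⟨t, ht, e⟩ := Finset.mem_image.1 hd
  exact ⟨t, hl.fc (Finset.mem_filter.1 ht).1, e⟩

/-- position of a cell of `cm0` -/
def Zc (S : Finset ℂ) (c : Quot (hullE S)) : ℂ :=
  if h : ∃ v, ¬ OnHull S v ∧ (Quot.mk (hullE S) v) = c then h.choose else 0

theorem Zc_inner (hS : GP (S : Set ℂ)) {v : ℂ} (hv : ¬ OnHull S v) :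
    Zc S (Quot.mk _ v) = v := by
  have h : ∃ w, ¬ OnHull S w ∧ (Quot.mk (hullE S) w) = Quot.mk (hullE S) v := ⟨v, hv, rfl⟩
  unfold Zc
  rw [dif_pos h]
  exact quot_inner hS hv h.choose_spec.2.symm

/-- **the steps of a closed block add up to zero** -/
theorem closed_dE (hP : GP P) (hS : GP (S : Set ℂ)) (hPS : ∀ z ∈ U, z ∈ P ↔ z ∈ (S : Set ℂ))
    (hin : ∀ v ∈ S, v ∈ U → ¬ OnHull S v) (e0 : D0 S) {x : D0 S → ZMod 2}
    (hx : IsC (cm0 hS) ∅ x) {g : D0 S} (hg : Gp (cm0 hS) x g)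
    (hU : InU P U (cm0 hS) (dl e0) x g) :
    ∑ d ∈ blk (cm0 hS) x g, (d.1.2 - d.1.1) = 0 := by
  have A := agr0 hP hS hPS hin e0
  have key : ∀ d ∈ blk (cm0 hS) x g, ¬ OnHull S d.1.1 ∧ ¬ OnHull S d.1.2 := by
    intro d hd
    obtain ⟨⟨a, b, c⟩, ht, e⟩ := blk_gd A hx hg hU hd
    change Fc P U a b c at ht
    have hd' : (c, a) ∈ sd S := mem_sd.2 ⟨_, mem_delT.2 (fc_congr hPS ht.rot.rot).1⟩
    have e' : (⟨(c, a), hd'⟩ : D0 S) = d := by
      rw [← e]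
      exact (dl_eq hd').symm
    rw [← e']
    have ha : a ∈ S := (hPS a (fc_memU ht)).1 ht.1.1
    have hc : c ∈ S := (hPS c (fc_memU ht.rot.rot)).1 ht.rot.rot.1.1
    exact ⟨hin c hc (fc_memU ht.rot.rot), hin a ha (fc_memU ht)⟩
  have h := telescope hx hg (fun d hd => gen_inner hS (key d hd).2) (Zc S)
  have e1 : ∑ d ∈ blk (cm0 hS) x g, Zc S ((cm0 hS).cell ((cm0 hS).rho d)) =
      ∑ d ∈ blk (cm0 hS) x g, d.1.2 :=
    Finset.sum_congr rfl fun d hd => Zc_inner hS (key d hd).2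
  have e2 : ∑ d ∈ blk (cm0 hS) x g, Zc S ((cm0 hS).cell d) =
      ∑ d ∈ blk (cm0 hS) x g, d.1.1 :=
    Finset.sum_congr rfl fun d hd => Zc_inner hS (key d hd).1
  rw [Finset.sum_sub_distrib, ← e1, ← e2, h, sub_self]

/-- the four charges: small field, big field and their conjugates -/
def Fld (P U : Set ℂ) (δ : ℂ → ℂ → D) (a : D → ℂ) : Prop :=
  (∀ t : T3, Fc P U t.1 t.2.1 t.2.2 → a (gd δ t) = Nn t) ∨
  (∀ t : T3, Fc P U t.1 t.2.1 t.2.2 → a (gd δ t) = (starRingEnd ℂ) (Nn t)) ∨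
  (∀ t : T3, Fc P U t.1 t.2.1 t.2.2 → a (gd δ t) = Pn t) ∨
  (∀ t : T3, Fc P U t.1 t.2.1 t.2.2 → a (gd δ t) = (starRingEnd ℂ) (Pn t))

/-- **all four fields have the same modulus on a closed block** -/
theorem fld_norm (hP : GP P) (hS : GP (S : Set ℂ)) (hPS : ∀ z ∈ U, z ∈ P ↔ z ∈ (S : Set ℂ))
    (hin : ∀ v ∈ S, v ∈ U → ¬ OnHull S v) (e0 : D0 S) {x : D0 S → ZMod 2}
    (hx : IsC (cm0 hS) ∅ x) {g : D0 S} (hg : Gp (cm0 hS) x g)
    (hU : InU P U (cm0 hS) (dl e0) x g) {a : D0 S → ℂ} (ha : Fld P U (dl e0) a) :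
    ‖∑ d ∈ blk (cm0 hS) x g, a d‖ = ‖∑ d ∈ blk (cm0 hS) x g, ch P U S d‖ := by
  have A := agr0 hP hS hPS hin e0
  have hz := closed_dE hP hS hPS hin e0 hx hg hU
  have key : ∀ d ∈ blk (cm0 hS) x g, ∃ t : T3, Fc P U t.1 t.2.1 t.2.2 ∧ gd (dl e0) t = d ∧
      d.1.2 - d.1.1 = t.1 - t.2.2 := by
    intro d hd
    obtain ⟨⟨a, b, c⟩, ht, e⟩ := blk_gd A hx hg hU hd
    refine ⟨(a, b, c), ht, e, ?_⟩
    change Fc P U a b c at ht
    have hd' : (c, a) ∈ sd S := mem_sd.2 ⟨_, mem_delT.2 (fc_congr hPS ht.rot.rot).1⟩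
    have e' : (⟨(c, a), hd'⟩ : D0 S) = d := by
      rw [← e]
      exact (dl_eq hd').symm
    rw [← e']
  have hch : ∀ t : T3, Fc P U t.1 t.2.1 t.2.2 → ch P U S (gd (dl e0) t) = Nn t :=
    fun t ht => ch_gd hS hPS e0 ht
  have hPn : ∀ t : T3, Pn t = (starRingEnd ℂ) (Nn t) + (om - om ^ 2) * (t.1 - t.2.2) := fun t => by
    rw [← Pn_sub t]; ring
  have sP : ∀ b : D0 S → ℂ, (∀ t : T3, Fc P U t.1 t.2.1 t.2.2 → b (gd (dl e0) t) = Pn t) →
      ∑ d ∈ blk (cm0 hS) x g, b d =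
        (starRingEnd ℂ) (∑ d ∈ blk (cm0 hS) x g, ch P U S d) := by
    intro b hb
    have e1 : ∑ d ∈ blk (cm0 hS) x g, b d =
        ∑ d ∈ blk (cm0 hS) x g, ((starRingEnd ℂ) (ch P U S d) +
          (om - om ^ 2) * (d.1.2 - d.1.1)) := by
      refine Finset.sum_congr rfl fun d hd => ?_
      obtain ⟨t, ht, e, e2⟩ := key d hd
      rw [e2, ← e, hb t ht, hch t ht, hPn]
    rw [e1, Finset.sum_add_distrib, ← Finset.mul_sum, hz, mul_zero, add_zero, map_sum]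
  rcases ha with ha | ha | ha | ha
  · congr 1
    refine Finset.sum_congr rfl fun d hd => ?_
    obtain ⟨t, ht, e, -⟩ := key d hd
    rw [← e, ha t ht, hch t ht]
  · rw [← Complex.norm_conj (∑ d ∈ blk (cm0 hS) x g, ch P U S d), map_sum]
    congr 1
    refine Finset.sum_congr rfl fun d hd => ?_
    obtain ⟨t, ht, e, -⟩ := key d hd
    rw [← e, ha t ht, hch t ht]
  · rw [sP a ha, Complex.norm_conj]
  · have h1 := sP (fun d => (starRingEnd ℂ) (a d)) fun t ht => by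
      rw [ha t ht, Complex.conj_conj]
    rw [← Complex.norm_conj, map_sum, h1, Complex.norm_conj]

theorem mem_bigB [Fintype D] {x : D → ZMod 2} {s : D} (hs : Gp M x s) (hU : InU P U M δ x s)
    {k : ℝ} (hB : Big P U M δ x k s) : blk M x s ∈ bigB P U M δ k x := by
  unfold bigB
  rw [Finset.mem_filter]
  refine ⟨Finset.mem_image_of_mem _ (mem_gaps.2 hs), s, mem_blk.2 ⟨hs, rel_refl s⟩, hU, hB⟩

/-- the energy of the macroscopic blocks, any of the four fields -/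
theorem bigB_fld (hP : GP P) (hS : GP (S : Set ℂ)) (hPS : ∀ z ∈ U, z ∈ P ↔ z ∈ (S : Set ℂ))
    (hin : ∀ v ∈ S, v ∈ U → ¬ OnHull S v) (e0 : D0 S) {a : D0 S → ℂ}
    (ha : Fld P U (dl e0) a) {k : ℝ} {x : D0 S → ZMod 2} (hx : IsC (cm0 hS) ∅ x) :
    ∑ β ∈ bigB P U (cm0 hS) (dl e0) k x, ENNReal.ofReal (‖∑ t ∈ β, a t‖ ^ 2) =
      ∑ β ∈ bigB P U (cm0 hS) (dl e0) k x, ENNReal.ofReal (‖∑ t ∈ β, ch P U S t‖ ^ 2) := by
  refine Finset.sum_congr rfl fun β hβ => ?_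
  obtain ⟨hβ, g, hgβ, hU, -⟩ := Finset.mem_filter.1 hβ
  obtain ⟨hg, rfl⟩ := mem_blks hx hβ hgβ
  rw [fld_norm hP hS hPS hin e0 hx hg hU ha]

end second

/-- **BOX R7.** For every `k > 0` and every bounded `U` there is a measurable error `E ε ω` with
`∫ E → 0`, `∫ √E → 0`, `P(t ≤ E) → 0`, which bounds, for every environment, the closed net `cm0` of
any finite set of sites which agrees with the environment in `U`, any of the four fields, any
equidistributed family of configurations and any weights in `[0, 1]`, the mean of `g * |V|²` and the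
square of the mean of `g * |V|`, `V` = sum of the field over the block of a gap whose loop is
inside `U` and in no square of side `k`. -/
theorem R7 {k : ℝ} (hk : 0 < k) (hU : Bornology.IsBounded U) :
    ∃ E : ℝ → Sample → ℝ≥0∞, (∀ ε, 0 < ε → Measurable (E ε)) ∧
      Tendsto (fun ε : ℝ => ∫⁻ ω, E ε ω ∂sampleLaw) (𝓝[>] 0) (𝓝 0) ∧
      Tendsto (fun ε : ℝ => ∫⁻ ω, E ε ω ^ (1 / 2 : ℝ) ∂sampleLaw) (𝓝[>] 0) (𝓝 0) ∧
      (∀ t : ℝ≥0∞, t ≠ 0 → t ≠ ∞ →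
        Tendsto (fun ε : ℝ => sampleLaw {ω | t ≤ E ε ω}) (𝓝[>] 0) (𝓝 0)) ∧
      ∀ (ε : ℝ) (ω : Sample) (S : Finset ℂ) (hS : GP (S : Set ℂ)), GP (points ε ω) →
        (∀ z ∈ U, z ∈ points ε ω ↔ z ∈ (S : Set ℂ)) → (∀ v ∈ S, v ∈ U → ¬ OnHull S v) →
        ∀ (e0 : D0 S) (a : D0 S → ℂ), Fld (points ε ω) U (dl e0) a →
        ∀ (I : Type) [Fintype I] (x : I → D0 S → ZMod 2), Eqd (cm0 hS) x →
        ∀ (s : I → D0 S) (g : I → ℝ), (∀ i, 0 ≤ g i) → (∀ i, g i ≤ 1) →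
        (∀ i, 0 < g i → blk (cm0 hS) (x i) (s i) ∈
          bigB (points ε ω) U (cm0 hS) (dl e0) k (x i)) →
        ∑ i, ENNReal.ofReal (g i * ‖∑ t ∈ blk (cm0 hS) (x i) (s i), a t‖ ^ 2) ≤
            (Fintype.card I : ℝ≥0∞) * E ε ω ∧
        ∑ i, ENNReal.ofReal (g i * ‖∑ t ∈ blk (cm0 hS) (x i) (s i), a t‖) ≤
            (Fintype.card I : ℝ≥0∞) * E ε ω ^ (1 / 2 : ℝ) := by
  obtain ⟨E, h1, h2, h3, h4⟩ := sum_rule_meas hk hU
  refine ⟨E, h1, h2, sqrt_tendsto h1 h2, h3, ?_⟩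
  intro ε ω S hS hP hPS hin e0 a ha I _ x hx s g hg0 hg1 hs
  have A := agr0 hP hS hPS hin e0
  have hE : ∑ y ∈ ev (cm0 hS), ∑ β ∈ bigB (points ε ω) U (cm0 hS) (dl e0) k y,
      ENNReal.ofReal (‖∑ t ∈ β, a t‖ ^ 2) ≤ ((ev (cm0 hS)).card : ℝ≥0∞) * E ε ω := by
    refine le_trans (le_of_eq (Finset.sum_congr rfl fun y hy => ?_))
      (h4 ε ω _ _ (cm0 hS) _ _ A (ch (points ε ω) U S) fun t ht => ch_gd hS hPS e0 ht)
    exact bigB_fld hP hS hPS hin e0 ha (mem_ev.1 hy)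
  exact ⟨blk_L2 hx hg1 hs hE, blk_L1 hx hg0 hg1 hs hE⟩

end Crest.Agent.R143.MassQx304
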