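import Crest.Agent.R143.Bsum_848

/-!
# Row 143 (S0194): total mass of the end point measures (helper848)

* `MM_sum` : `∑ v, χ v * MM N v = ∑ k, (χ (ex k).2 - χ (ex k).1) * om ^ k` for `χ` constant along
  the walls
* `mass` : `∑ v on the side i, mu N i v = 1`
-/

set_option autoImplicit false

noncomputable section

open scoped Classical

namespace Crest.Agent.R143.Massx848

open Crest.Agent.R143.B0x346 Crest.Agent.R143.Oscx63 Crest.Agent.R143.Sidesx697
open Crest.Agent.R143.J1x872 (cases_z3 Good om_cube)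
open Crest.Agent.R143.Bsumx848 Crest.Agent.R143.DelRx806

/-- all pairs of marks can be joined -/
def Pairs {V : Type} (N : Net V) : Prop :=
  ∀ m : ZMod 3, ∃ J, IsJoin N.toTrg N.kl ∅ (N.exS \ {N.ex m}) J

section gen

variable {V : Type} {N : Net V} {χ : V → ℂ}

/-- one side -/
def ee (N : Net V) (χ : V → ℂ) (t : V × V × V) : ℂ := (χ t.2.1 - χ t.1) * N.F t.1 t.2.1

theorem wall_symm {u v : V} (h : Wall N u v) : Wall N v u := by
  obtain ⟨h1, h2, h3, h4⟩ := h
  refine ⟨?_, h3, h2, ?_⟩
  · unfold Trg.E at h1 ⊢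
    rw [Finset.mem_union, Finset.mem_image, Finset.mem_image] at h1 ⊢
    rcases h1 with ⟨t, ht, e⟩ | ⟨t, ht, e⟩
    · right
      refine ⟨t, ht, ?_⟩
      rw [Prod.mk.injEq] at e ⊢
      exact ⟨e.2, e.1⟩
    · left
      refine ⟨t, ht, ?_⟩
      rw [Prod.mk.injEq] at e ⊢
      exact ⟨e.2, e.1⟩
  · rcases h4 with h4 | h4 | h4
    · exact Or.inl (N.klsym _ _ h4)
    · exact Or.inr (Or.inr h4)
    · exact Or.inr (Or.inl h4)

theorem tri_ee {t : V × V × V} (hR : RelAt N t)
    (hχ : ∀ a b c : V, (a, b, c) ∈ rots t → (a, b) ∈ N.kl → χ a = χ b) :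
    gg N χ t + gg N χ (rot3 t) + gg N χ (rot3 (rot3 t)) =
      ee N χ t + ee N χ (rot3 t) + ee N χ (rot3 (rot3 t)) := by
  obtain ⟨a, b, c⟩ := t
  have c1 : (a, b) ∈ N.kl → χ a = χ b := hχ a b c (by simp [rots])
  have c2 : (b, c) ∈ N.kl → χ b = χ c := hχ b c a (by simp [rots])
  have c3 : (c, a) ∈ N.kl → χ c = χ a := hχ c a b (by simp [rots])
  unfold gg ee rot3 LL
  simp only
  rw [F_comm N a c, F_comm N b a, F_comm N c b]
  by_cases h1 : (a, b) ∈ N.kl
  · have d1 := c1 h1
    by_cases h2 : (b, c) ∈ N.kl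
    · have d2 := c2 h2
      simp only [h1, h2, not_true_eq_false, false_and, and_false, if_false]
      rw [d1, d2]
      ring
    · by_cases h3 : (c, a) ∈ N.kl
      · have d3 := c3 h3
        simp only [h1, h3, not_true_eq_false, false_and, and_false, if_false]
        rw [d3, d1]
        ring
      · have e := hR.j2 a b c (by simp [rots]) h1 h2 h3
        simp only [h1, h2, h3, not_true_eq_false, not_false_eq_true, false_and, and_false,
          and_self, if_false, if_true]
        rw [d1, e]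
        ring
  · by_cases h2 : (b, c) ∈ N.kl
    · have d2 := c2 h2
      by_cases h3 : (c, a) ∈ N.kl
      · have d3 := c3 h3
        simp only [h2, h3, not_true_eq_false, false_and, and_false, if_false]
        rw [d2, d3]
        ring
      · have e := hR.j2 b c a (by simp [rots]) h2 h3 h1
        simp only [h1, h2, h3, not_true_eq_false, not_false_eq_true, false_and, and_false,
          and_self, if_false, if_true]
        rw [d2, e]
        ring
    · by_cases h3 : (c, a) ∈ N.kl
      · have d3 := c3 h3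
        have e := hR.j2 c a b (by simp [rots]) h3 h1 h2
        simp only [h1, h2, h3, not_true_eq_false, not_false_eq_true, false_and, and_false,
          and_self, if_false, if_true]
        rw [d3, e]
        ring
      · simp only [h1, h2, h3, not_false_eq_true, and_self, if_true]
        ring

theorem sum_gg (z : V → ℂ) :
    ∑ v ∈ N.T.image (fun t => t.1), z v * MM N v = ∑ t ∈ N.T, gg N z t := by
  rw [← Finset.sum_fiberwise_of_maps_to (s := N.T) (t := N.T.image (fun t => t.1))
    (g := fun t => t.1) (fun t ht => Finset.mem_image_of_mem _ ht)]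
  refine Finset.sum_congr rfl fun v _ => ?_
  unfold MM gg
  rw [Finset.mul_sum, Finset.sum_filter, Finset.sum_filter]
  refine Finset.sum_congr rfl fun t _ => ?_
  by_cases h : t.1 = v
  · subst h
    by_cases h2 : LL N t
    · simp [h2]
    · simp [h2]
  · simp [h]

theorem sum_ee (hR : ∀ t ∈ N.T, RelAt N t)
    (hχ : ∀ a b c : V, (a, b, c) ∈ N.T → (a, b) ∈ N.kl → χ a = χ b) :
    ∑ v ∈ N.T.image (fun t => t.1), χ v * MM N v = ∑ t ∈ N.T, ee N χ t := by
  have hrots : ∀ {t : V × V × V}, t ∈ N.T → ∀ a b c : V, (a, b, c) ∈ rots t → (a, b, c) ∈ N.T := by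
    rintro ⟨x, y, w⟩ ht a b c h
    simp only [rots, Set.mem_insert_iff, Set.mem_singleton_iff, Prod.mk.injEq] at h
    rcases h with ⟨rfl, rfl, rfl⟩ | ⟨rfl, rfl, rfl⟩ | ⟨rfl, rfl, rfl⟩
    · exact ht
    · exact N.rot ht
    · exact N.rot (N.rot ht)
  rw [sum_gg]
  have h1 : (3 : ℂ) * ∑ t ∈ N.T, gg N χ t = 3 * ∑ t ∈ N.T, ee N χ t := by
    have h2 : ∀ f : V × V × V → ℂ, 3 * ∑ t ∈ N.T, f t =
        ∑ t ∈ N.T, (f t + f (rot3 t) + f (rot3 (rot3 t))) := by
      intro f
      rw [Finset.sum_add_distrib, Finset.sum_add_distrib, sum_rot3 f,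
        sum_rot3 (fun t => f (rot3 t)), sum_rot3 f]
      ring
    rw [h2, h2]
    exact Finset.sum_congr rfl fun t ht => tri_ee (hR t ht) (fun a b c h => hχ a b c (hrots ht a b c h))
  exact mul_left_cancel₀ (by norm_num) h1

end gen

section hnet

variable {S : Finset ℂ} {N : Net ℂ} {χ : ℂ → ℂ}

/-- the observable at a mark -/
theorem F_mark (h : HNet S N) (k : ZMod 3) : N.F (N.ex k).1 (N.ex k).2 = omz k := by
  have h0 : ∃ j, N.ex j = ((N.ex k).1, (N.ex k).2) ∨ N.ex j = ((N.ex k).2, (N.ex k).1) :=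
    ⟨k, Or.inl rfl⟩
  unfold Net.F
  rw [dif_pos h0]
  rcases h0.choose_spec with h1 | h1
  · congr 1
    exact (J1x872.good_of_hnet h).inj h1
  · exfalso
    have h2 := h.hex h0.choose
    have h3 := h.hex k
    rw [h1] at h2
    exact hullE_asymm h2 h3

theorem wall_of_kl (h : HNet S N) {a b c : ℂ} (ht : (a, b, c) ∈ N.T) (hk : (a, b) ∈ N.kl) :
    Wall N a b := by
  refine ⟨(JCardx872.mem_E_of_tri ht).1, ?_, ?_, Or.inl hk⟩
  · rintro ⟨k, hk'⟩
    exact h.live k (hk' ▸ hk)
  · rintro ⟨k, hk'⟩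
    exact h.live k (hk' ▸ N.klsym _ _ hk)

/-- **summation over the boundary** -/
theorem MM_sum (h : HNet S N) (hR : ∀ t ∈ N.T, RelAt N t)
    (hχ : ∀ u v : ℂ, Wall N u v → χ u = χ v) :
    ∑ v ∈ N.T.image (fun t => t.1), χ v * MM N v =
      ∑ k : ZMod 3, (χ (N.ex k).2 - χ (N.ex k).1) * omz k := by
  rw [sum_ee hR fun a b c ht hk => hχ a b (wall_of_kl h ht hk)]
  -- inner sides cancel
  rw [← Finset.sum_filter_add_sum_filter_not N.T (fun t => ∃ c, (t.2.1, t.1, c) ∈ N.T)]
  have h1 : ∑ t ∈ N.T.filter (fun t => ∃ c, (t.2.1, t.1, c) ∈ N.T), ee N χ t = 0 := by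
    refine Finset.sum_involution
      (fun t ht => (t.2.1, t.1, (Finset.mem_filter.1 ht).2.choose)) ?_ ?_ ?_ ?_
    · rintro ⟨a, b, c⟩ ht
      unfold ee
      simp only
      rw [F_comm N b a]
      ring
    · rintro ⟨a, b, c⟩ ht _ h2
      rw [Prod.mk.injEq] at h2
      exact N.ne (Finset.mem_filter.1 ht).1 h2.1.symm
    · rintro ⟨a, b, c⟩ ht
      have h2 := Finset.mem_filter.1 ht
      exact Finset.mem_filter.2 ⟨h2.2.choose_spec, c, h2.1⟩
    · rintro ⟨a, b, c⟩ ht
      have h2 := Finset.mem_filter.1 ht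
      have h3 : ((b, a, h2.2.choose) : ℂ × ℂ × ℂ) ∈
          N.T.filter (fun t => ∃ c, (t.2.1, t.1, c) ∈ N.T) :=
        Finset.mem_filter.2 ⟨h2.2.choose_spec, c, h2.1⟩
      have h4 := (Finset.mem_filter.1 h3).2.choose_spec
      have h5 := N.uniq h4 h2.1
      simp only [Prod.mk.injEq, true_and]
      exact h5
  rw [h1, zero_add]
  -- the hull
  have hc : ∀ k : ZMod 3, ∃ c, ((N.ex k).1, (N.ex k).2, c) ∈ N.T := fun k => by
    obtain ⟨c, hc⟩ := (h.hex k).1
    exact ⟨c, by rw [h.tri]; exact hc⟩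
  choose c hc using hc
  have h2 : ∀ k, ee N χ ((N.ex k).1, (N.ex k).2, c k) =
      (χ (N.ex k).2 - χ (N.ex k).1) * omz k := by
    intro k
    unfold ee
    simp only
    rw [F_mark h k]
  simp_rw [← h2]
  rw [← Finset.sum_image (s := Finset.univ) (g := fun k : ZMod 3 => ((N.ex k).1, (N.ex k).2, c k))
    (f := ee N χ)]
  · refine (Finset.sum_subset ?_ ?_).symm
    · intro t ht
      obtain ⟨k, -, rfl⟩ := Finset.mem_image.1 ht
      refine Finset.mem_filter.2 ⟨hc k, ?_⟩
      rintro ⟨d, hd⟩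
      rw [h.tri] at hd
      exact (h.hex k).2 d hd
    · rintro ⟨x, y, e⟩ ht ht'
      obtain ⟨h3, h4⟩ := Finset.mem_filter.1 ht
      simp only at h4
      push Not at h4
      have h5 : hullE S x y := ⟨⟨e, by rw [← h.tri]; exact h3⟩, fun d hd => h4 d (by rw [h.tri]; exact hd)⟩
      have h6 : (x, y) ∉ N.exS := by
        rintro ⟨k, hk⟩
        apply ht'
        refine Finset.mem_image.2 ⟨k, Finset.mem_univ _, ?_⟩
        have h7 := hc k
        rw [hk] at h7 ⊢
        rw [N.uniq h7 h3]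
      unfold ee
      simp only
      rw [hχ x y (wall_hull h h5 h6)]
      ring
  · intro k _ l _ hkl
    simp only [Prod.mk.injEq] at hkl
    exact (J1x872.good_of_hnet h).inj (Prod.ext hkl.1 hkl.2.1)

/-- **total mass of the end point measure** -/
theorem mass (h : HNet S N) (hR : ∀ t ∈ N.T, RelAt N t) (hpr : Pairs N) (i : ZMod 3) :
    ∑ v ∈ (N.T.image fun t => t.1).filter (Side N i), mu N i v = 1 := by
  have hg := J1x872.good_of_hnet h
  have hM := marks3_of h
  have hC := hasCol h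
  have hP : ∀ t ∈ N.T, J1x872.P1 N t := fun t ht =>
    Rel2x63.p1all N S h t (by rw [← h.tri]; exact ht)
  have hdis : ∀ {i j : ZMod 3} {v : ℂ}, Side N i v → Side N j v → i = j := fun h1 h2 =>
    side_disj hM hC hpr h1 h2
  have h1 := MM_sum (χ := fun v => if Side N i v then 1 else 0) h hR (by
    intro u v hw
    have : Side N i u ↔ Side N i v :=
      ⟨fun h1 => Relation.ReflTransGen.tail h1 hw,
        fun h1 => Relation.ReflTransGen.tail h1 (wall_symm hw)⟩
    simp only [this])
  have e1 : ∀ k : ZMod 3, Side N k (N.ex k).2 := fun k => Relation.ReflTransGen.refl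
  have e2 : ∀ k : ZMod 3, Side N k (N.ex (k + 1)).1 := hM.next
  have h2 : ∑ k : ZMod 3, ((if Side N i (N.ex k).2 then (1 : ℂ) else 0) -
      (if Side N i (N.ex k).1 then 1 else 0)) * omz k = omz i - omz (i + 1) := by
    have s1 : ∀ k : ZMod 3, (if Side N i (N.ex k).2 then (1 : ℂ) else 0) = if k = i then 1 else 0 := by
      intro k
      by_cases hk : k = i
      · subst hk
        rw [if_pos (e1 k), if_pos rfl]
      · rw [if_neg, if_neg hk]
        exact fun h3 => hk (hdis (e1 k) h3)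
    have s2 : ∀ k : ZMod 3, (if Side N i (N.ex k).1 then (1 : ℂ) else 0) =
        if k = i + 1 then 1 else 0 := by
      intro k
      by_cases hk : k = i + 1
      · subst hk
        rw [if_pos (e2 i), if_pos rfl]
      · rw [if_neg, if_neg hk]
        intro h3
        have h4 := e2 (k - 1)
        rw [sub_add_cancel] at h4
        exact hk (by rw [hdis h3 h4]; ring)
    simp_rw [s1, s2, sub_mul, ite_mul, one_mul, zero_mul]
    rw [Finset.sum_sub_distrib, Finset.sum_ite_eq' Finset.univ i, Finset.sum_ite_eq' Finset.univ (i + 1)]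
    simp
  have h3 : ∑ v ∈ N.T.image (fun t => t.1), (if Side N i v then (1 : ℂ) else 0) * MM N v =
      (1 - om) * (omz i * ((∑ v ∈ (N.T.image fun t => t.1).filter (Side N i), mu N i v : ℝ) : ℂ)) := by
    push_cast
    rw [Finset.mul_sum, Finset.mul_sum, Finset.sum_filter]
    refine Finset.sum_congr rfl fun v _ => ?_
    split_ifs with hv
    · rw [one_mul, MM_side hg hM hC hP hR hv]
    · rw [zero_mul]
  rw [h3, h2, J1x872.omz_add_one] at h1
  have hne : (1 - om : ℂ) ≠ 0 := by
    rw [← norm_pos_iff, norm_one_sub_om]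
    exact Real.sqrt_pos.2 (by norm_num)
  have hne' : omz i ≠ 0 := by
    unfold omz
    exact pow_ne_zero _ (fun h => by have := om_cube; rw [h] at this; norm_num at this)
  have h4 : (1 - om) * (omz i * ((∑ v ∈ (N.T.image fun t => t.1).filter (Side N i), mu N i v : ℝ) : ℂ)) =
      (1 - om) * (omz i * 1) := by
    rw [h1]; ring
  have h5 := mul_left_cancel₀ hne' (mul_left_cancel₀ hne h4)
  exact_mod_cast h5

end hnet

end Crest.Agent.R143.Massx848
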