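import Crest.Agent.R143.SpV_169
import Crest.Agent.R143.CorL_765
import Crest.Agent.R143.LimS_133
import Crest.Agent.R143.DispI_840
import Crest.Agent.R143.RigP_854

/-!
# Row 143 (S0194), RIG: the mean of the tile charges, `κ` (helper58)

`D` : 204's data, `Hs` : 765's standard boxes, `P` : fine path, `w` : white label of the corridor,
`f` : a field with `f (φ t) = c f t` for every motion `φ` with rotation `c` (`Spin1 f`)

* `fz` : the face function of `zs om id`, `fz = om ^ 2 * conj Nn`; `spin_fz`, `fz_meas`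
* `Vl D P r f w l` : 169's `VT` at the tile `l` for `1 ≤ l`, `l + 1 < n`, else `0`; `Vl_loc`, `Vl_fm`
  (fields `Vl`, `Vm` of 279's `Inp`)
* **`kap D r f Hs`** : the number `κ` (reference window of the straight path; the same for all polygons)
* **`mean_Vl`** : `∫ g V_l = (∫ g) (κ (gate (l + 1) - gate l))` for `l ∈ SJ` : field `mean` of
  609's `env_gen`; **`mean_zl`** : with 840's `zl` and `-κ`; `mean_ge` : with the direction
* **`mean_u`** : for the layouts `ly u N` of 854, one `κ` for all `u`, `w`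
-/

set_option autoImplicit false

noncomputable section

namespace Crest.Agent.R143.MeanIx58

open MeasureTheory Set
open Crest.ProbabilityR.Voronoi
open Crest.Agent.R143.PP0x831 Crest.Agent.R143.Poisx304 Crest.Agent.R143.Janx304
open Crest.Agent.R143.PWx978 Crest.Agent.R143.Tplx978
open Crest.Agent.R143.TileRx228 Crest.Agent.R143.PthFx765
open Crest.Agent.R143.LayQx811 Crest.Agent.R143.Layx416 Crest.Agent.R143.TplIx204
open Crest.Agent.R143.CorNx765 Crest.Agent.R143.SpVx169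
open Crest.Agent.R143.CovBx126 (Mo)
open Crest.Agent.R143.B0x346 (om)

/-! ### the field -/

/-- a field which is turned by the rotations -/
def Spin1 (f : ℂ × ℂ × ℂ → ℂ) : Prop :=
  ∀ (φ : ℂ ≃ ℂ) (c : ℂ), Mo φ c → ∀ t, f (φ t.1, φ t.2.1, φ t.2.2) = c * f t

/-- the face function of `zs om id` -/
def fz (t : ℂ × ℂ × ℂ) : ℂ := t.2.2 + om * t.1 + om ^ 2 * t.2.1

theorem fz_meas : Measurable fz := by
  unfold fz
  fun_prop

theorem spin_fz : Spin1 fz := by
  intro φ c h t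
  have e : ∀ z, φ z = c * z + φ 0 := by
    intro z
    have := h.sub z 0
    rw [sub_zero] at this
    linear_combination this
  unfold fz
  simp only
  rw [e t.1, e t.2.1, e t.2.2]
  have ho := Mass1x302.om_rel
  linear_combination (φ 0) * ho

/-- the field in terms of 302's charge `Nn` -/
theorem fz_Nn (t : ℂ × ℂ × ℂ) : fz t = om ^ 2 * (starRingEnd ℂ) (Mass1x302.Nn t) := by
  unfold fz Mass1x302.Nn
  simp only [map_add, map_mul, map_pow, Complex.conj_conj]
  have h2 : (starRingEnd ℂ) om = om ^ 2 := Mass4x302.om_conj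
  have h3 : om ^ 3 = 1 := by
    have ho := Mass1x302.om_rel
    linear_combination (om - 1) * ho
  rw [h2]
  linear_combination (-t.2.2 * (om ^ 3 + 1) - om * t.1) * h3

/-! ### the charges of the tiles -/

section charge

variable {M : ℕ} {W : ℤ → ℤ × ℤ} (D : DT) (P : FPath M W) (r : ℝ) (f : ℂ × ℂ × ℂ → ℂ)
  (Ac e : ℤ → ℤ) (w : ZMod 3)

/-- **charge of the tile `l` of the corridor of the white label `w`** (`0` at the two ends) -/
def Vl (l : ℕ) (X : Cf) : ℂ :=
  if 1 ≤ l ∧ l + 1 < nn Ac e w then VT D P r f (al Ac e w + l - 1) X else 0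

variable {Ac e w}

theorem Vl_in {l : ℕ} (h1 : 1 ≤ l) (h2 : l + 1 < nn Ac e w) :
    Vl D P r f Ac e w l = VT D P r f (al Ac e w + l - 1) := by
  funext X
  unfold Vl
  rw [if_pos ⟨h1, h2⟩]

/-- **measurable** -/
theorem Vl_fm (hf : Measurable f) (l : ℕ) : FinMeas (Vl D P r f Ac e w l) := by
  by_cases h : 1 ≤ l ∧ l + 1 < nn Ac e w
  · rw [Vl_in D P r f h.1 h.2]
    exact VT_fm D P r hf _
  · have e1 : Vl D P r f Ac e w l = fun _ => 0 := by
      funext X
      unfold Vl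
      rw [if_neg h]
    rw [e1]
    exact fun n => measurable_const

/-- **local** on the union of the tiles -/
theorem Vl_local (l : ℕ) : LocalOn (Rall D.A' D.B' D.h W) (Vl D P r f Ac e w l) := by
  intro X
  show Vl D P r f Ac e w l X = Vl D P r f Ac e w l (X ∩ ovr (Rall D.A' D.B' D.h W))
  unfold Vl
  have h1 : LocalOn (Rall D.A' D.B' D.h W) (VT D P r f (al Ac e w + l - 1)) :=
    IndLocx279.LocalOn.mono (fun s hs => by
      obtain ⟨j, _, h2⟩ := mem_iUnion₂.1 hs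
      exact mem_iUnion.2 ⟨_, h2⟩) (VT_local3 D P r f _)
  have h2 := h1 X
  split_ifs with h
  · exact h2
  · rfl

section net

variable {ε : ℝ} {T : Tpl ε (Tn × Bool)} (Hs : Std T D.A' D.B' D.h Prod.fst)
  [DecidableEq (ZMod M)] [Fintype (ZMod M)]

/-- **field `Vl` of 279's `Inp`** -/
theorem Vl_loc (i : ZMod 3) (l : ℕ) :
    LocalOn ((cpth P Hs Ac e i).net.reg Finset.univ Finset.univ) (Vl D P r f Ac e w l) := by
  rw [reg_eq P Hs i]
  exact Vl_local D P r f l

end net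

end charge

/-! ### the mean -/

section mean

variable {M : ℕ} {W : ℤ → ℤ × ℤ} (D : DT) (P : FPath M W) (r : ℝ) {f : ℂ × ℂ × ℂ → ℂ}
  {Ac e : ℤ → ℤ} {w : ZMod 3} {ε : ℝ} {T : Tpl ε (Tn × Bool)}
  (Hs : Std T D.A' D.B' D.h Prod.fst)

/-- **the number `κ`** : reference window of the straight path -/
def kap (f : ℂ × ℂ × ℂ → ℂ) : ℂ := (rf Hs).m (VT D line r f 0) / D.h

theorem ge_line (a : ℤ) : ge lineW a = 1 := by
  unfold ge cz lineW
  apply Complex.ext <;> simp

include P in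
theorem SJ_ge {l : ℕ} (hl : l ∈ SJ W Ac e w) :
    ge W (al Ac e w + l) = ge W (al Ac e w + l - 1) ∧
      ge W (al Ac e w + l + 1) = ge W (al Ac e w + l) := by
  obtain ⟨-, -, h3, h4, -⟩ := mem_SJ.1 hl
  have h5 := ge_succ P (al Ac e w + l - 1)
  have h6 := ge_succ P (al Ac e w + l)
  rw [sub_add_cancel, h3] at h5
  rw [h4] at h6
  exact ⟨by rw [h5]; simp [rot], by rw [h6]; simp [rot]⟩

include P in
/-- displacement of the gates at a tile of `SJ` -/
theorem SJ_step (h : ℝ) {l : ℕ} (hl : l ∈ SJ W Ac e w) :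
    TlAx58.gt h W Ac e w (l + 1) - TlAx58.gt h W Ac e w l = h * ge W (al Ac e w + l) := by
  unfold TlAx58.gt
  have e1 : al Ac e w + ((l + 1 : ℕ) : ℤ) = al Ac e w + l + 1 := by push_cast; ring
  rw [e1]
  have h2 := (SJ_ge P hl).2
  unfold gz ge at *
  rw [LayQx811.cz_sub, LayQx811.cz_sub] at h2
  rw [LayQx811.cz_sub]
  rw [add_sub_cancel_right] at h2 ⊢
  linear_combination (h : ℂ) / 2 * h2

variable [DecidableEq (ZMod M)] [Fintype (ZMod M)]

/-- the mean of the charge with the direction of the tile -/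
theorem mean_ge (hfm : Measurable f) (hf : Spin1 f) (hM : nn Ac e w < M) (hM3 : Pr M 3) {l : ℕ}
    (hl : l ∈ SJ W Ac e w) (hA0 : ∫⁻ ω, T.A (cfg ε ω) ∂sampleLaw ≠ 0) :
    ∫ ω, ((LimSx133.gR (cpth P Hs Ac e w).net Finset.univ Finset.univ (cfg ε ω) : ℝ) : ℂ) *
        Vl D P r f Ac e w l (cfg ε ω) ∂sampleLaw =
      ((∫ ω, LimSx133.gR (cpth P Hs Ac e w).net Finset.univ Finset.univ (cfg ε ω)
        ∂sampleLaw : ℝ) : ℂ) * (ge W (al Ac e w + l) * (rf Hs).m (VT D line r f 0)) := by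
  classical
  have hN : ∀ k ∈ (Finset.univ : Finset (ZMod M)), (cpth P Hs Ac e w).net.N k ⊆ Finset.univ :=
    fun k _ => Finset.subset_univ _
  obtain ⟨h1, h2, -⟩ := mem_SJ.1 hl
  rw [LimSx133.int_gR _ hN]
  have h3 := VT_mean D line r Hs P (ty := fun _ => (Tn.S, true)) (line_typ rfl)
    (cty_typ (Ac := Ac) (e := e) w) (Or.inl rfl) hM3 0 (al Ac e w + l - 1)
    (τ := fun _ => (Tn.S, true)) (fun _ _ => rfl) (SJ_ty P hM hl) hA0
    (I := Finset.univ) (J := Finset.univ) (Finset.subset_univ _)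
    (Finset.subset_univ _) (fun _ _ => ⟨Finset.mem_univ _, Finset.mem_univ _⟩) hfm
    (k := ge W (al Ac e w + l - 1) / ge lineW 0) (fun φ hφ t => hf φ _ hφ t)
  rw [ge_line, div_one, ← (SJ_ge P hl).1] at h3
  have e1 : (fun ω => ((LimSx133.gR (cpth P Hs Ac e w).net Finset.univ Finset.univ
      (cfg ε ω) : ℝ) : ℂ) * Vl D P r f Ac e w l (cfg ε ω)) = fun ω =>
      (((cpth P Hs Ac e w).net.gw Finset.univ Finset.univ (cfg ε ω)).toReal : ℂ) *
        VT D P r f (al Ac e w + l - 1) (cfg ε ω) := by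
    funext ω
    rw [LimSx133.gR_cfg _ hN ω, Vl_in D P r f h1 h2]
  rw [e1]
  exact h3

/-- **field `mean` of 609's `env_gen`** -/
theorem mean_Vl (hfm : Measurable f) (hf : Spin1 f) (hM : nn Ac e w < M) (hM3 : Pr M 3) {l : ℕ}
    (hl : l ∈ SJ W Ac e w) (hA0 : ∫⁻ ω, T.A (cfg ε ω) ∂sampleLaw ≠ 0) (hh : D.h ≠ 0) :
    ∫ ω, ((LimSx133.gR (cpth P Hs Ac e w).net Finset.univ Finset.univ (cfg ε ω) : ℝ) : ℂ) *
        Vl D P r f Ac e w l (cfg ε ω) ∂sampleLaw =
      ((∫ ω, LimSx133.gR (cpth P Hs Ac e w).net Finset.univ Finset.univ (cfg ε ω)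
        ∂sampleLaw : ℝ) : ℂ) * (kap D r Hs f *
          (TlAx58.gt D.h W Ac e w (l + 1) - TlAx58.gt D.h W Ac e w l)) := by
  rw [mean_ge D P r Hs hfm hf hM hM3 hl hA0, SJ_step P D.h hl]
  unfold kap
  have : (D.h : ℂ) ≠ 0 := by exact_mod_cast hh
  field_simp

/-- the same with 840's `zl` -/
theorem mean_zl (hfm : Measurable f) (hf : Spin1 f) (hM : nn Ac e w < M) (hM3 : Pr M 3) {l : ℕ}
    (hl : l ∈ SJ W Ac e w) (hA0 : ∫⁻ ω, T.A (cfg ε ω) ∂sampleLaw ≠ 0) (hh : D.h ≠ 0) :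
    ∫ ω, ((LimSx133.gR (cpth P Hs Ac e w).net Finset.univ Finset.univ (cfg ε ω) : ℝ) : ℂ) *
        Vl D P r f Ac e w l (cfg ε ω) ∂sampleLaw =
      ((∫ ω, LimSx133.gR (cpth P Hs Ac e w).net Finset.univ Finset.univ (cfg ε ω)
        ∂sampleLaw : ℝ) : ℂ) * (-kap D r Hs f * DispIx840.zl D.h W Ac e w l) := by
  rw [mean_Vl D P r Hs hfm hf hM hM3 hl hA0 hh]
  unfold DispIx840.zl
  ring

end mean

/-! ### all polygons at the scale `N` -/

section poly

open Crest.Agent.R143.PolyUx346 (Poly)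
open Crest.Agent.R143.RigPx854

variable {u : Poly} {N : ℕ} {D : DT} {r : ℝ} {f : ℂ × ℂ × ℂ → ℂ} {w : ZMod 3} {ε : ℝ}
  {T : Tpl ε (Tn × Bool)}

theorem ly_M (h : u.n + 4 ≤ N) : Pr (ly u N).M 3 := by
  have := (ly_spec h).lay.M_pos
  exact Or.inr (by omega)

/-- **field `mean`** for the layout of 854, the same `κ` for all polygons and all labels -/
theorem mean_u (h : u.n + 4 ≤ N) (hD : D.h = hN N) (Hs : Std T D.A' D.B' D.h Prod.fst)
    [DecidableEq (ZMod (ly u N).M)] [Fintype (ZMod (ly u N).M)] (hfm : Measurable f)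
    (hf : Spin1 f) (hA0 : ∫⁻ ω, T.A (cfg ε ω) ∂sampleLaw ≠ 0) (w : ZMod 3) :
    ∀ l ∈ JT u w N, ∫ ω, ((LimSx133.gR (cpth (ly_spec h).lay.fp Hs (ly u N).A (ly u N).e w).net
        Finset.univ Finset.univ (cfg ε ω) : ℝ) : ℂ) *
        Vl D (ly_spec h).lay.fp r f (ly u N).A (ly u N).e w l (cfg ε ω) ∂sampleLaw =
      ((∫ ω, LimSx133.gR (cpth (ly_spec h).lay.fp Hs (ly u N).A (ly u N).e w).net
        Finset.univ Finset.univ (cfg ε ω) ∂sampleLaw : ℝ) : ℂ) * (kap D r Hs f *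
          (TlAx58.gt (hN N) (ly u N).W (ly u N).A (ly u N).e w (l + 1) -
            TlAx58.gt (hN N) (ly u N).W (ly u N).A (ly u N).e w l)) := by
  intro l hl
  have h1 := (ly_spec h).lay.nn_lt w
  rw [← hD]
  exact mean_Vl D (ly_spec h).lay.fp r Hs hfm hf (by omega) (ly_M h) (JT_SJ u w N hl) hA0
    (by rw [hD]; exact (hN_pos N).ne')

end poly

end Crest.Agent.R143.MeanIx58
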