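import Crest.Agent.R143.LanePr_73
import Crest.Agent.R143.TileRR_345

/-!
# Row 143, CORE-C, box R1d: probability of the middle of a tile, all three types (helper785)

Item (3) of 73's split of `pos` (msg 47672), on 345's `MidB`, `MidW` (TileRR_345). Unit `η e`, `‖e‖ = 1`.

* `reg_h`, `reg_h'` : sites of the lane rectangles are in `Mi`, `Re` (regions of TileRR_345)
* `mid_pr` : black and white lanes together have probability at least `p`, for every `V ⊆ S` which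
  contains the sites of `S` in `Mi ∩ Re`
* `midB_tr`, `midW_tr` : transfer to another net with the same neighbours in `Mi ∩ Re`
-/

set_option autoImplicit false

noncomputable section

open scoped Classical

namespace Crest.Agent.R143.MidPrx785

open Crest.Agent.R143.B0x346 Crest.Agent.R143.DelGx806 Crest.Agent.R143.DelRx806
open Crest.Agent.R143.ToolWx838 Crest.Agent.R143.Blkx838 Crest.Agent.R143.ToolW2x838
open Crest.Agent.R143.ToolW3x838 Crest.Agent.R143.Circ4x838 Crest.Agent.R143.Harx315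
open Crest.Agent.R143.RB0x838 Crest.Agent.R143.CircPx838 Crest.Agent.R143.Gatex838
open Crest.Agent.R143.RBmx838 Crest.Agent.R143.Neckx921 Crest.Agent.R143.TileGx73
open Crest.Agent.R143.TileLx345 Crest.Agent.R143.TileRx228 Crest.Agent.R143.Thetax73
open Crest.Agent.R143.TileRRx345 Crest.Agent.R143.LanePrx73

variable {S S' V A : Finset ℂ} {z e z' e' : ℂ} {T : ℝ}

/-! ### environments (same as `EnvHx653.nvA_mono`, `nvA_shift`, without the heavy import) -/

theorem nvA_R {z0 : ℂ} {R R' c ρ d C4 : ℝ} (h : NvA S z0 R c ρ d C4) (hR : R' ≤ R) :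
    NvA S z0 R' c ρ d C4 :=
  ⟨⟨h.dns.gp, h.dns.dpos, fun z hz => h.dns.hole z (hz.trans hR)⟩,
    fun b' h1 h2 z hz => h.mesh b' h1 h2 z (hz.trans hR)⟩

theorem nvA_sh {z0 z1 : ℂ} {R R' c ρ d C4 : ℝ} (h : NvA S z0 R c ρ d C4) (h1 : ‖z1 - z0‖ + R' ≤ R) :
    NvA S z1 R' c ρ d C4 := by
  have e : ∀ z : ℂ, ‖z - z1‖ ≤ R' → ‖z - z0‖ ≤ R := by
    intro z hz
    have := norm_sub_le_norm_sub_add_norm_sub z z1 z0
    linarith
  exact ⟨⟨h.dns.gp, h.dns.dpos, fun z hz => h.dns.hole z (e z hz)⟩,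
    fun b' h1 h2 z hz => h.mesh b' h1 h2 z (e z hz)⟩

/-! ### regions -/

/-- sites of the straight lanes -/
theorem reg_s (he : e ≠ 0) (k : e' = e) (f : Fr T z e z' e') {s : ℂ} (h0 : -9 < Y z e s)
    (h1 : Y z e s < 9) (h2 : 9 ≤ X z e s) (h3 : X z e s ≤ T - 9) :
    s ∈ Mi z e z' e' ∧ s ∈ Re T z e z' e' := by
  have hX := (f.coord he).resolve_right (by
    rintro (⟨h, -⟩ | ⟨h, -⟩)
    · exact ne_I he (k.symm.trans h)
    · exact ne_I' he (k.symm.trans h))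
  have e1 := hX.2.1 s
  have e2 := hX.2.2 s
  refine ⟨⟨h2, by linarith⟩, ?_⟩
  rcases lt_or_ge (X z e s) (T / 2 + 9) with h5 | h5
  · exact Or.inl ⟨⟨by linarith, h5⟩, h0, h1⟩
  · exact Or.inr ⟨⟨by linarith, by linarith⟩, by linarith, by linarith⟩

/-- sites of the lanes of a turn, first frame -/
theorem reg_t (hT : 40 ≤ T) (he : e ≠ 0) (k : e' ≠ e) (f : Fr T z e z' e') {s : ℂ}
    (h0 : -9 < Y z e s) (h1 : Y z e s < 9) (h2 : 9 ≤ X z e s) (h3 : X z e s < T / 2 + 9) :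
    s ∈ Mi z e z' e' ∧ s ∈ Re T z e z' e' := by
  refine ⟨⟨h2, ?_⟩, Or.inl ⟨⟨by linarith, h3⟩, h0, h1⟩⟩
  rcases f.coord he with ⟨h, -⟩ | ⟨-, hX, hY⟩ | ⟨-, hX, hY⟩
  · exact absurd h k
  · linarith [hX s]
  · linarith [hX s]

/-- sites of the lanes of a turn, second frame -/
theorem reg_t' (hT : 40 ≤ T) (he : e ≠ 0) (k : e' ≠ e) (f : Fr T z e z' e') {s : ℂ}
    (h0 : -9 < Y z' e' s) (h1 : Y z' e' s < 9) (h2 : X z' e' s ≤ -9)
    (h3 : -(T / 2 + 9) < X z' e' s) : s ∈ Mi z e z' e' ∧ s ∈ Re T z e z' e' := by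
  refine ⟨⟨?_, h2⟩, Or.inr ⟨⟨h3, by linarith⟩, h0, h1⟩⟩
  rcases f.coord he with ⟨h, -⟩ | ⟨-, hX, hY⟩ | ⟨-, hX, hY⟩
  · exact absurd h k
  · linarith [hY s]
  · linarith [hY s]

/-! ### probability -/

theorem up_hc {x0 x1 y0 y1 m : ℝ} : Up V (fun β => ∃ l, HC S z e x0 x1 y0 y1 m β l) :=
  fun _ _ h _ h1 => hc_mono h h1

/-- the lanes of one tile, general heights `y0 < y1` and ends -/
theorem lanes_pr (hRB : RBm) : ∀ T : ℝ, 40 ≤ T → ∀ C4 : ℝ, 0 ≤ C4 →
    ∃ p c1 c2 K : ℝ, 0 < p ∧ p ≤ 1 ∧ 0 < c1 ∧ 0 < c2 ∧ c2 ≤ 1 ∧ 0 < K ∧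
    ∀ (S : Finset ℂ) (z : ℂ) (η d : ℝ), 0 < η → NvA S z (K * η) c2 η d C4 → d ≤ c1 * η →
    ∀ (e z' e' : ℂ), ‖e‖ = 1 → Fr T z ((η : ℂ) * e) z' e' →
    ∀ (y0 y1 : ℝ), -8 ≤ y0 → y1 ≤ 8 → 1 ≤ y1 - y0 → y1 - y0 ≤ 2 →
    ∀ V : Finset ℂ, V ⊆ S →
    (∀ s ∈ S, s ∈ Mi z ((η : ℂ) * e) z' e' → s ∈ Re T z ((η : ℂ) * e) z' e' → s ∈ V) →
    (e' = (η : ℂ) * e →
      p ≤ pr V (fun β => ∃ l, HC S z ((η : ℂ) * e) 10 (T - 10) y0 y1 1 β l)) ∧
    (e' ≠ (η : ℂ) * e → ∀ u w : ℝ, 11 ≤ u → u ≤ T / 2 + 7 → -(T / 2 + 7) ≤ w → w ≤ -11 →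
      p ≤ pr V (fun β => (∃ l, HC S z ((η : ℂ) * e) 10 u y0 y1 1 β l) ∧
        ∃ l, HC S z' e' w (-10) y0 y1 1 β l)) := by
  intro T hT C4 hC4
  obtain ⟨p, c1, c2, K, hp, hc1, hc2, hc2', hK, h⟩ := lane_h hRB T (by linarith) C4 hC4
  refine ⟨min p 1 ^ 2, c1, c2, K + T, by positivity, pow_le_one₀ (by positivity) (min_le_right _ _),
    hc1, hc2, hc2', by linarith, ?_⟩
  intro S z η d hη hN hd e z' e' hn f y0 y1 hy0 hy1 hy hy2 V hV hreg
  have he : (η : ℂ) * e ≠ 0 := by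
    refine mul_ne_zero (by exact_mod_cast hη.ne') fun h0 => ?_
    rw [h0, norm_zero] at hn
    exact zero_ne_one hn
  have hq : min p 1 ^ 2 ≤ p := by
    refine le_trans ?_ (min_le_left p 1)
    have h1 : 0 ≤ min p 1 := by positivity
    nlinarith [min_le_right p 1]
  have hq2 : min p 1 ^ 2 ≤ p * p := by
    rw [sq]
    exact mul_le_mul (min_le_left _ _) (min_le_left _ _) (by positivity) hp.le
  have hN1 : NvA S z (K * η) c2 η d C4 :=
    nvA_R hN (by nlinarith)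
  refine ⟨fun k => hq.trans ?_, fun k u w hu1 hu2 hw1 hw2 => hq2.trans ?_⟩
  · refine h S z η d hη hN1 hd e 10 (T - 10) y0 y1 1 hn ⟨?_, ?_, ?_, ?_, ?_, ?_⟩ hy2 (by linarith)
      V hV ?_
    · rw [abs_of_pos (by norm_num)]; linarith
    · rw [abs_of_pos (by linarith)]; linarith
    · rw [abs_le]; constructor <;> linarith
    · rw [abs_le]; constructor <;> linarith
    · nlinarith
    · nlinarith
    · intro s hs h1 h2 h3 h4
      obtain ⟨g1, g2⟩ := reg_s he k f (s := s) (by linarith) (by linarith) (by linarith)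
        (by linarith)
      exact hreg s hs g1 g2
  · have hz : ‖z' - z‖ ≤ T * η := by
      rw [f.1, add_sub_cancel_left, norm_mul, Complex.norm_real, Real.norm_of_nonneg (by linarith)]
      have h1 : ‖e'‖ = η := by
        rcases f.2 with h | h | h <;> rw [h] <;> simp [hn, abs_of_pos hη]
      have h2 : ‖(η : ℂ) * e‖ = η := by simp [hn, abs_of_pos hη]
      have h3 := norm_add_le ((η : ℂ) * e) e'
      rw [h1, h2] at h3
      nlinarith
    have hN2 : NvA S z' (K * η) c2 η d C4 := nvA_sh hN (by nlinarith)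
    have h1 : p ≤ pr V (fun β => ∃ l, HC S z ((η : ℂ) * e) 10 u y0 y1 1 β l) := by
      refine h S z η d hη hN1 hd e 10 u y0 y1 1 hn ⟨?_, ?_, ?_, ?_, ?_, ?_⟩ hy2 (by linarith)
        V hV ?_
      · rw [abs_of_pos (by norm_num)]; linarith
      · rw [abs_of_pos (by linarith)]; linarith
      · rw [abs_le]; constructor <;> linarith
      · rw [abs_le]; constructor <;> linarith
      · nlinarith
      · nlinarith
      · intro s hs h1 h2 h3 h4
        obtain ⟨g1, g2⟩ := reg_t hT he k f (s := s) (by linarith) (by linarith) (by linarith)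
          (by linarith)
        exact hreg s hs g1 g2
    have h2 : p ≤ pr V (fun β => ∃ l, HC S z' e' w (-10) y0 y1 1 β l) := by
      obtain ⟨e1, he1, hn1⟩ : ∃ e1 : ℂ, e' = (η : ℂ) * e1 ∧ ‖e1‖ = 1 := by
        rcases f.2 with h | h | h
        · exact absurd h k
        · exact ⟨e * Complex.I, by rw [h, mul_assoc], by simp [hn]⟩
        · exact ⟨e * -Complex.I, by rw [h, mul_assoc], by simp [hn]⟩
      rw [he1]
      refine h S z' η d hη hN2 hd e1 w (-10) y0 y1 1 hn1 ⟨?_, ?_, ?_, ?_, ?_, ?_⟩ hy2 (by linarith)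
        V hV ?_
      · rw [abs_le]; constructor <;> linarith
      · rw [abs_le]; constructor <;> linarith
      · rw [abs_le]; constructor <;> linarith
      · rw [abs_le]; constructor <;> linarith
      · nlinarith
      · nlinarith
      · intro s hs h1 h2 h3 h4
        rw [← he1] at h1 h2 h3 h4
        obtain ⟨g1, g2⟩ := reg_t' hT he k f (s := s) (by linarith) (by linarith) (by linarith)
          (by linarith)
        exact hreg s hs g1 g2
    exact two_up hp.le hp.le up_hc up_hc h1 h2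

/-- **probability of the middle of a tile**, all three types, both colours -/
theorem mid_pr (hRB : RBm) : ∀ T : ℝ, 40 ≤ T → ∀ C4 : ℝ, 0 ≤ C4 →
    ∃ p c1 c2 K : ℝ, 0 < p ∧ p ≤ 1 ∧ 0 < c1 ∧ 0 < c2 ∧ c2 ≤ 1 ∧ 0 < K ∧
    ∀ (S : Finset ℂ) (z : ℂ) (η d : ℝ), 0 < η → NvA S z (K * η) c2 η d C4 → d ≤ c1 * η →
    ∀ (e z' e' : ℂ), ‖e‖ = 1 → Fr T z ((η : ℂ) * e) z' e' →
    ∀ V : Finset ℂ, V ⊆ S →
    (∀ s ∈ S, s ∈ Mi z ((η : ℂ) * e) z' e' → s ∈ Re T z ((η : ℂ) * e) z' e' → s ∈ V) →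
    p ≤ pr V (MidB S T z ((η : ℂ) * e) z' e') ∧
    p ≤ pr V (MidW S T z ((η : ℂ) * e) z' e') ∧
    p ≤ pr V (fun τ => MidW S T z ((η : ℂ) * e) z' e' (V \ τ)) := by
  intro T hT C4 hC4
  obtain ⟨p, c1, c2, K, hp, hp1, hc1, hc2, hc2', hK, h⟩ := lanes_pr hRB T hT C4 hC4
  refine ⟨p, c1, c2, K, hp, hp1, hc1, hc2, hc2', hK, ?_⟩
  intro S z η d hη hN hd e z' e' hn f V hV hreg
  have he : (η : ℂ) * e ≠ 0 := by
    refine mul_ne_zero (by exact_mod_cast hη.ne') fun h0 => ?_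
    rw [h0, norm_zero] at hn
    exact zero_ne_one hn
  have hb := h S z η d hη hN hd e z' e' hn f (-7) (-6) (by norm_num) (by norm_num) (by norm_num)
    (by norm_num) V hV hreg
  have hw := h S z η d hη hN hd e z' e' hn f 4 6 (by norm_num) (by norm_num) (by norm_num)
    (by norm_num) V hV hreg
  have key : p ≤ pr V (MidB S T z ((η : ℂ) * e) z' e') ∧
      p ≤ pr V (MidW S T z ((η : ℂ) * e) z' e') := by
    rcases f.2 with k | k | k
    · have n1 : e' ≠ (η : ℂ) * e * Complex.I := by rw [k]; exact ne_I he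
      have n2 : e' ≠ (η : ℂ) * e * -Complex.I := by rw [k]; exact ne_I' he
      exact ⟨(hb.1 k).trans (pr_mono fun β _ h1 => ⟨fun _ => h1, fun k' => absurd k' n1,
          fun k' => absurd k' n2⟩),
        (hw.1 k).trans (pr_mono fun β _ h1 => ⟨fun _ => h1, fun k' => absurd k' n1,
          fun k' => absurd k' n2⟩)⟩
    · have n1 : e' ≠ (η : ℂ) * e := by rw [k]; exact (ne_I he).symm
      have n2 : e' ≠ (η : ℂ) * e * -Complex.I := by rw [k]; exact ne_II he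
      exact ⟨(hb.2 n1 (T / 2 + 7) (-(T / 2 + 7)) (by linarith) (by linarith) (by linarith)
          (by linarith)).trans (pr_mono fun β _ h1 => ⟨fun k' => absurd k' n1, fun _ => h1,
          fun k' => absurd k' n2⟩),
        (hw.2 n1 (T / 2 - 4) (-(T / 2 - 4)) (by linarith) (by linarith) (by linarith)
          (by linarith)).trans (pr_mono fun β _ h1 => ⟨fun k' => absurd k' n1, fun _ => h1,
          fun k' => absurd k' n2⟩)⟩
    · have n1 : e' ≠ (η : ℂ) * e := by rw [k]; exact (ne_I' he).symm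
      have n2 : e' ≠ (η : ℂ) * e * Complex.I := by rw [k]; exact (ne_II he).symm
      exact ⟨(hb.2 n1 (T / 2 - 6) (-(T / 2 - 6)) (by linarith) (by linarith) (by linarith)
          (by linarith)).trans (pr_mono fun β _ h1 => ⟨fun k' => absurd k' n1,
          fun k' => absurd k' n2, fun _ => h1⟩),
        (hw.2 n1 (T / 2 + 6) (-(T / 2 + 6)) (by linarith) (by linarith) (by linarith)
          (by linarith)).trans (pr_mono fun β _ h1 => ⟨fun k' => absurd k' n1,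
          fun k' => absurd k' n2, fun _ => h1⟩)⟩
  exact ⟨key.1, key.2, white_pr key.2⟩

/-! ### transfer to another net -/

theorem mem_prs {l : List ℂ} {p : ℂ × ℂ} (h : p ∈ prs l) : p.1 ∈ l ∧ p.2 ∈ l := by
  induction l with
  | nil => simp [prs] at h
  | cons a l ih =>
    cases l with
    | nil => simp [prs] at h
    | cons b l =>
      rw [prs, List.mem_cons] at h
      rcases h with rfl | h
      · exact ⟨by simp, by simp⟩
      · exact ⟨List.mem_cons_of_mem _ (ih h).1, List.mem_cons_of_mem _ (ih h).2⟩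

/-- a crossing depends only on the neighbours among its own sites -/
theorem hc_tr {x0 x1 y0 y1 m : ℝ} (h : ∃ M, HC S z e x0 x1 y0 y1 m A M)
    (hD : ∀ M, HC S z e x0 x1 y0 y1 m A M → ∀ a ∈ M, ∀ b ∈ M, DE S a b → DE S' a b) :
    ∃ M, HC S' z e x0 x1 y0 y1 m A M := by
  obtain ⟨M, h⟩ := h
  exact ⟨M, h.ne, fun p hp => hD M h _ (mem_prs hp).1 _ (mem_prs hp).2 (h.adj p hp), h.col,
    h.strip, h.loc, h.left, h.right⟩

/-- **transfer of the black middle** -/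
theorem midB_tr (he : e ≠ 0) (hT : 40 ≤ T) (f : Fr T z e z' e')
    (hD : ∀ a ∈ A, ∀ b ∈ A, a ∈ Mi z e z' e' → a ∈ Re T z e z' e' → b ∈ Mi z e z' e' →
      b ∈ Re T z e z' e' → DE S a b → DE S' a b)
    (h : MidB S T z e z' e' A) : MidB S' T z e z' e' A := by
  have key : ∀ (z1 e1 : ℂ) (x0 x1 : ℝ), (∀ M, HC S z1 e1 x0 x1 (-7) (-6) 1 A M → ∀ s ∈ M,
      s ∈ Mi z e z' e' ∧ s ∈ Re T z e z' e') → (∃ M, HC S z1 e1 x0 x1 (-7) (-6) 1 A M) →
      ∃ M, HC S' z1 e1 x0 x1 (-7) (-6) 1 A M := fun z1 e1 x0 x1 g h1 =>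
    hc_tr h1 fun M c a ha b hb hab => hD a (c.col a ha) b (c.col b hb) (g M c a ha).1
      (g M c a ha).2 (g M c b hb).1 (g M c b hb).2 hab
  refine ⟨fun k => key _ _ _ _ (fun M c s hs =>
      lane_reg he k f (by norm_num) (by norm_num) c s hs) (h.1 k), fun k => ?_, fun k => ?_⟩
  · obtain ⟨g, g'⟩ := lane_turn (S := S) (A := A) (u := T / 2 + 7) (w := -(T / 2 + 7)) hT he
      (by rw [k]; exact (ne_I he).symm) f (y0 := -7) (y1 := -6) (by norm_num) (by norm_num)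
      (by linarith) (by linarith)
    exact ⟨key _ _ _ _ g (h.2.1 k).1, key _ _ _ _ g' (h.2.1 k).2⟩
  · obtain ⟨g, g'⟩ := lane_turn (S := S) (A := A) (u := T / 2 - 6) (w := -(T / 2 - 6)) hT he
      (by rw [k]; exact (ne_I' he).symm) f (y0 := -7) (y1 := -6) (by norm_num) (by norm_num)
      (by linarith) (by linarith)
    exact ⟨key _ _ _ _ g (h.2.2 k).1, key _ _ _ _ g' (h.2.2 k).2⟩

/-- **transfer of the white middle** -/
theorem midW_tr (he : e ≠ 0) (hT : 40 ≤ T) (f : Fr T z e z' e')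
    (hD : ∀ a ∈ A, ∀ b ∈ A, a ∈ Mi z e z' e' → a ∈ Re T z e z' e' → b ∈ Mi z e z' e' →
      b ∈ Re T z e z' e' → DE S a b → DE S' a b)
    (h : MidW S T z e z' e' A) : MidW S' T z e z' e' A := by
  have key : ∀ (z1 e1 : ℂ) (x0 x1 : ℝ), (∀ M, HC S z1 e1 x0 x1 4 6 1 A M → ∀ s ∈ M,
      s ∈ Mi z e z' e' ∧ s ∈ Re T z e z' e') → (∃ M, HC S z1 e1 x0 x1 4 6 1 A M) →
      ∃ M, HC S' z1 e1 x0 x1 4 6 1 A M := fun z1 e1 x0 x1 g h1 =>
    hc_tr h1 fun M c a ha b hb hab => hD a (c.col a ha) b (c.col b hb) (g M c a ha).1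
      (g M c a ha).2 (g M c b hb).1 (g M c b hb).2 hab
  refine ⟨fun k => key _ _ _ _ (fun M c s hs =>
      lane_reg he k f (by norm_num) (by norm_num) c s hs) (h.1 k), fun k => ?_, fun k => ?_⟩
  · obtain ⟨g, g'⟩ := lane_turn (S := S) (A := A) (u := T / 2 - 4) (w := -(T / 2 - 4)) hT he
      (by rw [k]; exact (ne_I he).symm) f (y0 := 4) (y1 := 6) (by norm_num) (by norm_num)
      (by linarith) (by linarith)
    exact ⟨key _ _ _ _ g (h.2.1 k).1, key _ _ _ _ g' (h.2.1 k).2⟩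
  · obtain ⟨g, g'⟩ := lane_turn (S := S) (A := A) (u := T / 2 + 6) (w := -(T / 2 + 6)) hT he
      (by rw [k]; exact (ne_I' he).symm) f (y0 := 4) (y1 := 6) (by norm_num) (by norm_num)
      (by linarith) (by linarith)
    exact ⟨key _ _ _ _ g (h.2.2 k).1, key _ _ _ _ g' (h.2.2 k).2⟩

end Crest.Agent.R143.MidPrx785
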