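import Mathlib
import Crest.Agent.R143.X0C_683

/-!
# Row 143 (S0194), block X: abstract mixing with winding labels, `X0Cx683.MixAbs2` (helper811)

`Bl f u v = ∑ f (k + l) u k v l`. At a jointly good scale the regenerated parts `û`, `v̂` of the two
systems satisfy `Bl f û_t v̂_s = Bl f û_s v̂_t` (both are mixtures of shifts of the same sequences
`y_t`, `y_s`, and `f` only sees the sum of the labels), and they carry at least the fraction
`(c / C) ^ 2` of the symmetric product.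
-/

set_option autoImplicit false

noncomputable section

open scoped Classical

namespace Crest.Agent.R143.MixAbs2x811

open Crest.Agent.R143.X0Cx683

/-! ### the bilinear form -/

/-- `∑ f (k + l) u k v l` -/
def Bl (f u v : ℤ → ℝ) : ℝ := ∑ᶠ q : ℤ × ℤ, f (q.1 + q.2) * (u q.1 * v q.2)

theorem supp_fin {f u v : ℤ → ℝ} (hu : (Function.support u).Finite)
    (hv : (Function.support v).Finite) :
    (Function.support fun q : ℤ × ℤ => f (q.1 + q.2) * (u q.1 * v q.2)).Finite := by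
  refine (hu.prod hv).subset ?_
  rintro ⟨k, l⟩ h
  simp only [Function.mem_support, ne_eq, mul_eq_zero, not_or] at h
  exact ⟨h.2.1, h.2.2⟩

theorem Bl_eq {f u v : ℤ → ℝ} {K L : Finset ℤ} (hu : Function.support u ⊆ K)
    (hv : Function.support v ⊆ L) :
    Bl f u v = ∑ k ∈ K, ∑ l ∈ L, f (k + l) * (u k * v l) := by
  unfold Bl
  rw [finsum_eq_sum_of_support_subset (s := K ×ˢ L), Finset.sum_product]
  rintro ⟨k, l⟩ h
  simp only [Function.mem_support, ne_eq, mul_eq_zero, not_or] at h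
  simp only [Finset.coe_product, Set.mem_prod]
  exact ⟨hu h.2.1, hv h.2.2⟩

theorem Bl_symm (f u v : ℤ → ℝ) : Bl f u v = Bl f v u := by
  unfold Bl
  rw [← finsum_comp_equiv (Equiv.prodComm ℤ ℤ)]
  refine finsum_congr fun q => ?_
  simp only [Equiv.prodComm_apply, Prod.fst_swap, Prod.snd_swap]
  rw [add_comm, mul_comm (u _)]

theorem Bl_shift (f u v : ℤ → ℝ) (n n' : ℤ) :
    Bl f (fun k => u (k - n)) (fun l => v (l - n')) = Bl (fun r => f (r + (n + n'))) u v := by
  unfold Bl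
  rw [← finsum_comp_equiv (Equiv.prodCongr (Equiv.addRight n) (Equiv.addRight n'))]
  refine finsum_congr fun q => ?_
  simp only [Equiv.prodCongr_apply, Prod.map_fst, Prod.map_snd, Equiv.coe_addRight,
    add_sub_cancel_right]
  congr 2
  ring

theorem Bl_sum_left {ι : Type} {I : Finset ι} {p : ι → ℝ} {u : ι → ℤ → ℝ} {f v : ℤ → ℝ}
    (hu : ∀ i ∈ I, (Function.support (u i)).Finite) (hv : (Function.support v).Finite) :
    Bl f (fun k => ∑ i ∈ I, p i * u i k) v = ∑ i ∈ I, p i * Bl f (u i) v := by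
  set K : Finset ℤ := I.biUnion fun i => if h : (Function.support (u i)).Finite then h.toFinset
    else ∅ with hK
  have hK1 : ∀ i ∈ I, Function.support (u i) ⊆ K := by
    intro i hi k hk
    rw [hK, Finset.coe_biUnion]
    refine Set.mem_biUnion hi ?_
    rw [dif_pos (hu i hi)]
    simpa using hk
  have hK2 : Function.support (fun k => ∑ i ∈ I, p i * u i k) ⊆ K := by
    intro k hk
    by_contra hn
    apply hk
    apply Finset.sum_eq_zero
    intro i hi
    have : u i k = 0 := by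
      by_contra h
      exact hn (hK1 i hi h)
    rw [this, mul_zero]
  have hL : Function.support v ⊆ hv.toFinset := by simp
  have e : ∑ i ∈ I, p i * Bl f (u i) v =
      ∑ i ∈ I, p i * ∑ k ∈ K, ∑ l ∈ hv.toFinset, f (k + l) * (u i k * v l) :=
    Finset.sum_congr rfl fun i hi => by rw [Bl_eq (hK1 i hi) hL]
  rw [Bl_eq hK2 hL, e]
  simp only [Finset.sum_mul, Finset.mul_sum]
  rw [Finset.sum_congr rfl fun k _ => Finset.sum_comm, Finset.sum_comm]
  refine Finset.sum_congr rfl fun i _ => Finset.sum_congr rfl fun k _ =>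
    Finset.sum_congr rfl fun l _ => by ring

theorem Bl_sum_right {ι : Type} {I : Finset ι} {p : ι → ℝ} {v : ι → ℤ → ℝ} {f u : ℤ → ℝ}
    (hv : ∀ i ∈ I, (Function.support (v i)).Finite) (hu : (Function.support u).Finite) :
    Bl f u (fun k => ∑ i ∈ I, p i * v i k) = ∑ i ∈ I, p i * Bl f u (v i) := by
  rw [Bl_symm, Bl_sum_left hv hu]
  exact Finset.sum_congr rfl fun i _ => by rw [Bl_symm]

/-- both sides -/
theorem Bl_sum_sum {ι ι' : Type} {I : Finset ι} {I' : Finset ι'} {p : ι → ℝ} {p' : ι' → ℝ}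
    {u : ι → ℤ → ℝ} {v : ι' → ℤ → ℝ} {f : ℤ → ℝ}
    (hu : ∀ i ∈ I, (Function.support (u i)).Finite)
    (hv : ∀ i ∈ I', (Function.support (v i)).Finite) :
    Bl f (fun k => ∑ i ∈ I, p i * u i k) (fun l => ∑ i ∈ I', p' i * v i l) =
      ∑ i ∈ I, ∑ i' ∈ I', p i * p' i' * Bl f (u i) (v i') := by
  have h : (Function.support fun l => ∑ i ∈ I', p' i * v i l).Finite := by
    refine (Set.Finite.biUnion I'.finite_toSet hv).subset ?_
    intro l hl
    by_contra hn
    apply hl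
    apply Finset.sum_eq_zero
    intro i hi
    have : v i l = 0 := by
      by_contra h
      exact hn (Set.mem_biUnion (Finset.mem_coe.2 hi) h)
    rw [this, mul_zero]
  rw [Bl_sum_left hu h]
  refine Finset.sum_congr rfl fun i hi => ?_
  rw [Bl_sum_right hv (hu i hi), Finset.mul_sum]
  exact Finset.sum_congr rfl fun i' _ => by ring

theorem Bl_le {f u v : ℤ → ℝ} (hf : ∀ n, |f n| ≤ 1) (hu0 : ∀ k, 0 ≤ u k) (hv0 : ∀ k, 0 ≤ v k)
    (hu : (Function.support u).Finite) (hv : (Function.support v).Finite) :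
    |Bl f u v| ≤ (∑ᶠ k, u k) * ∑ᶠ k, v k := by
  have h1 : Function.support u ⊆ hu.toFinset := by simp
  have h2 : Function.support v ⊆ hv.toFinset := by simp
  rw [Bl_eq h1 h2, finsum_eq_sum_of_support_subset _ h1, finsum_eq_sum_of_support_subset _ h2,
    Finset.sum_mul_sum]
  refine (Finset.abs_sum_le_sum_abs _ _).trans (Finset.sum_le_sum fun k _ => ?_)
  refine (Finset.abs_sum_le_sum_abs _ _).trans (Finset.sum_le_sum fun l _ => ?_)
  rw [abs_mul, abs_of_nonneg (mul_nonneg (hu0 k) (hv0 l))]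
  have := mul_le_mul_of_nonneg_right (hf (k + l)) (mul_nonneg (hu0 k) (hv0 l))
  linarith

variable {A A' F B ι : Type} {D : RegD F B} {m : ℕ} {c C : ℝ}

/-! ### sequences of a system -/

theorem V_nonneg (Z : Sys2 A F B ι D m c C) (j : ℕ) (a : A) (s : F) : 0 ≤ Z.V j a s :=
  finsum_nonneg fun k => Z.X_nonneg j a s k

theorem V_sum (Z : Sys2 A F B ι D m c C) (j : ℕ) (a : A) (s : F) (p : ι → ℝ) (I : Finset ι) :
    ∑ᶠ k, ∑ i ∈ I, p i * Z.X (j + 1) (Z.nx j a i) s k =
      ∑ i ∈ I, p i * Z.V (j + 1) (Z.nx j a i) s := by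
  have h := finsum_sum_comm I (fun k i => p i * Z.X (j + 1) (Z.nx j a i) s k) fun i _ => by
    refine (Z.X_fin (j + 1) (Z.nx j a i) s).subset fun k hk => ?_
    intro h0
    apply hk
    simp only [h0, mul_zero]
  rw [h]
  refine Finset.sum_congr rfl fun i _ => ?_
  exact (mul_finsum _ _).symm

theorem V_step (Z : Sys2 A F B ι D m c C) {j : ℕ} (hj : j < m) {a : A} (ha : Z.st j a) (s : F) :
    Z.V j a s = ∑ i ∈ Z.I j, Z.p j i * Z.V (j + 1) (Z.nx j a i) s := by
  rw [← V_sum]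
  unfold Sys2.V
  exact finsum_congr fun k => Z.step j hj a ha s k

theorem Bd_nonneg (Z : Sys2 A F B ι D m c C) (s : F) :
    ∀ (n j k : ℕ) (a : A), 0 ≤ Z.Bd n j k a s
  | 0, j, k, a => by
      unfold Sys2.Bd
      split_ifs
      · exact V_nonneg Z j a s
      · exact le_refl _
  | n + 1, j, k, a => by
      unfold Sys2.Bd
      exact Finset.sum_nonneg fun i _ => mul_nonneg (Z.p_nonneg j i) (Bd_nonneg Z s n _ _ _)

theorem Bd_zero (Z : Sys2 A F B ι D m c C) (s : F) :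
    ∀ (n j : ℕ) (a : A), j + n = m → Z.st j a → Z.Bd n j 0 a s = Z.V j a s
  | 0, j, a, _, _ => by
      unfold Sys2.Bd
      simp
  | n + 1, j, a, h, ha => by
      have hj : j < m := by omega
      unfold Sys2.Bd
      rw [V_step Z hj ha s]
      refine Finset.sum_congr rfl fun i hi => ?_
      rw [Nat.zero_sub, Bd_zero Z s n (j + 1) _ (by omega) (Z.st_nx j hj a ha i hi)]

/-- the averaged regenerated sequence -/
def ys (D : RegD F B) (j : ℕ) (s : F) (k : ℤ) : ℝ :=
  ∑ b ∈ (D.reg_fin j).toFinset, D.reg j b * D.Y j b s k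

theorem ys_fin (D : RegD F B) (j : ℕ) (s : F) : (Function.support (ys D j s)).Finite := by
  refine (Set.Finite.biUnion (D.reg_fin j) fun b _ => D.Y_fin j b s).subset ?_
  intro l hl
  by_contra hn
  apply hl
  unfold ys
  apply Finset.sum_eq_zero
  intro b hb
  have : D.Y j b s l = 0 := by
    by_contra h
    exact hn (Set.mem_biUnion ((D.reg_fin j).mem_toFinset.1 hb) h)
  rw [this, mul_zero]

theorem ys_sum (D : RegD F B) (j : ℕ) (s : F) :
    ∑ᶠ k, ys D j s k = ∑ᶠ b, D.reg j b * ∑ᶠ k, D.Y j b s k := by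
  unfold ys
  have h := finsum_sum_comm (D.reg_fin j).toFinset (fun k b => D.reg j b * D.Y j b s k)
    fun b _ => by
      refine (D.Y_fin j b s).subset fun k hk => ?_
      intro h0
      apply hk
      simp only [h0, mul_zero]
  rw [h, finsum_eq_sum_of_support_subset (s := (D.reg_fin j).toFinset)]
  · refine Finset.sum_congr rfl fun b _ => ?_
    exact (mul_finsum _ _).symm
  · intro b hb
    simp only [Function.mem_support, ne_eq, mul_eq_zero, not_or] at hb
    simpa using hb.1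

/-- the regenerated part of a good state -/
theorem regen (Z : Sys2 A F B ι D m c C) (hc : 0 < c) {j : ℕ} (hj : j < m) {a : A}
    (ha : Z.st j a) (hg : Z.good j a) : ∃ θ : ι → ℝ, (∀ i, 0 ≤ θ i) ∧ (∀ i, θ i ≤ 1) ∧
      ∀ s k, ∑ i ∈ Z.I j, (Z.p j i * θ i) * Z.X (j + 1) (Z.nx j a i) s k =
        ∑ n ∈ (Z.w_fin j a).toFinset, (c * Z.w j a n) * ys D j s (k - n) := by
  set P : B → ℤ → ℝ := fun b n =>
    ∑ i ∈ (Z.I j).filter (fun i => Z.att j a i ∧ Z.lb j a i = b ∧ Z.ln j a i = n), Z.p j i with hP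
  have hP0 : ∀ b n, 0 ≤ P b n := fun b n => Finset.sum_nonneg fun i _ => Z.p_nonneg j i
  set r : B → ℤ → ℝ := fun b n => c * Z.w j a n * D.reg j b with hr
  have hr0 : ∀ b n, 0 ≤ r b n := fun b n =>
    mul_nonneg (mul_nonneg hc.le (Z.w_nonneg j a n)) (D.reg_nonneg j b)
  have hrP : ∀ b n, r b n ≤ P b n := fun b n => Z.lo j hj a ha hg b n
  refine ⟨fun i => if Z.att j a i then r (Z.lb j a i) (Z.ln j a i) / P (Z.lb j a i) (Z.ln j a i)
    else 0, ?_, ?_, ?_⟩
  · intro i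
    simp only
    split_ifs
    · exact div_nonneg (hr0 _ _) (hP0 _ _)
    · exact le_refl _
  · intro i
    simp only
    split_ifs
    · rcases eq_or_lt_of_le (hP0 (Z.lb j a i) (Z.ln j a i)) with h | h
      · rw [← h, div_zero]; exact zero_le_one
      · rw [div_le_one h]; exact hrP _ _
    · exact zero_le_one
  · intro s k
    set G : Finset (B × ℤ) := (D.reg_fin j).toFinset ×ˢ (Z.w_fin j a).toFinset ∪
      (Z.I j).image fun i => (Z.lb j a i, Z.ln j a i) with hG
    have e1 : ∑ i ∈ Z.I j, (Z.p j i * (if Z.att j a i then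
          r (Z.lb j a i) (Z.ln j a i) / P (Z.lb j a i) (Z.ln j a i) else 0)) *
          Z.X (j + 1) (Z.nx j a i) s k =
        ∑ i ∈ (Z.I j).filter (fun i => Z.att j a i), Z.p j i *
          (r (Z.lb j a i) (Z.ln j a i) / P (Z.lb j a i) (Z.ln j a i)) *
          D.Y j (Z.lb j a i) s (k - Z.ln j a i) := by
      rw [Finset.sum_filter]
      refine Finset.sum_congr rfl fun i hi => ?_
      split_ifs with h
      · rw [Z.att_val j hj a ha i hi h s k]
      · ring
    have e2 : ∑ i ∈ (Z.I j).filter (fun i => Z.att j a i), Z.p j i *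
          (r (Z.lb j a i) (Z.ln j a i) / P (Z.lb j a i) (Z.ln j a i)) *
          D.Y j (Z.lb j a i) s (k - Z.ln j a i) =
        ∑ y ∈ G, ∑ i ∈ ((Z.I j).filter (fun i => Z.att j a i)).filter
          (fun i => (Z.lb j a i, Z.ln j a i) = y), Z.p j i *
          (r (Z.lb j a i) (Z.ln j a i) / P (Z.lb j a i) (Z.ln j a i)) *
          D.Y j (Z.lb j a i) s (k - Z.ln j a i) := by
      rw [Finset.sum_fiberwise_of_maps_to]
      intro i hi
      rw [hG, Finset.mem_union]
      right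
      exact Finset.mem_image_of_mem _ (Finset.mem_filter.1 hi).1
    have e3 : ∀ y ∈ G, ∑ i ∈ ((Z.I j).filter (fun i => Z.att j a i)).filter
          (fun i => (Z.lb j a i, Z.ln j a i) = y), Z.p j i *
          (r (Z.lb j a i) (Z.ln j a i) / P (Z.lb j a i) (Z.ln j a i)) *
          D.Y j (Z.lb j a i) s (k - Z.ln j a i) = r y.1 y.2 * D.Y j y.1 s (k - y.2) := by
      rintro ⟨b, n⟩ _
      have h1 : ((Z.I j).filter (fun i => Z.att j a i)).filter
          (fun i => (Z.lb j a i, Z.ln j a i) = (b, n)) =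
          (Z.I j).filter (fun i => Z.att j a i ∧ Z.lb j a i = b ∧ Z.ln j a i = n) := by
        ext i
        simp only [Finset.mem_filter, Prod.mk.injEq, and_assoc]
      rw [h1]
      have h2 : ∑ i ∈ (Z.I j).filter (fun i => Z.att j a i ∧ Z.lb j a i = b ∧ Z.ln j a i = n),
          Z.p j i * (r (Z.lb j a i) (Z.ln j a i) / P (Z.lb j a i) (Z.ln j a i)) *
          D.Y j (Z.lb j a i) s (k - Z.ln j a i) =
          ∑ i ∈ (Z.I j).filter (fun i => Z.att j a i ∧ Z.lb j a i = b ∧ Z.ln j a i = n),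
          Z.p j i * ((r b n / P b n) * D.Y j b s (k - n)) := by
        refine Finset.sum_congr rfl fun i hi => ?_
        obtain ⟨_, _, h3, h4⟩ := Finset.mem_filter.1 hi
        rw [h3, h4]
        ring
      rw [h2, ← Finset.sum_mul]
      change P b n * _ = _
      rcases eq_or_lt_of_le (hP0 b n) with h | h
      · have h5 : r b n = 0 := le_antisymm (by rw [h]; exact hrP b n) (hr0 b n)
        rw [← h, h5]
        ring
      · field_simp
    rw [e1, e2, Finset.sum_congr rfl e3]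
    have e4 : ∑ y ∈ G, r y.1 y.2 * D.Y j y.1 s (k - y.2) =
        ∑ y ∈ (D.reg_fin j).toFinset ×ˢ (Z.w_fin j a).toFinset,
          r y.1 y.2 * D.Y j y.1 s (k - y.2) := by
      symm
      apply Finset.sum_subset
      · rw [hG]; exact Finset.subset_union_left
      · rintro ⟨b, n⟩ _ hn
        simp only [Finset.mem_product, Set.Finite.mem_toFinset, Function.mem_support,
          not_and_or, not_not] at hn
        simp only [hr]
        rcases hn with h | h <;> rw [h] <;> ring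
    rw [e4, Finset.sum_product_right]
    refine Finset.sum_congr rfl fun n _ => ?_
    unfold ys
    rw [Finset.mul_sum]
    refine Finset.sum_congr rfl fun b _ => ?_
    simp only [hr]
    ring

/-- the regenerated part: total -/
theorem regen_tot (Z : Sys2 A F B ι D m c C) {j : ℕ} {a : A} {θ : ι → ℝ}
    (h : ∀ s k, ∑ i ∈ Z.I j, (Z.p j i * θ i) * Z.X (j + 1) (Z.nx j a i) s k =
        ∑ n ∈ (Z.w_fin j a).toFinset, (c * Z.w j a n) * ys D j s (k - n)) (s : F) :
    ∑ i ∈ Z.I j, (Z.p j i * θ i) * Z.V (j + 1) (Z.nx j a i) s =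
      c * (∑ᶠ n, Z.w j a n) * ∑ᶠ b, D.reg j b * ∑ᶠ k, D.Y j b s k := by
  rw [← V_sum Z j a s (fun i => Z.p j i * θ i), finsum_congr (h s), ← ys_sum]
  have h1 := finsum_sum_comm (Z.w_fin j a).toFinset
    (fun k n => (c * Z.w j a n) * ys D j s (k - n)) fun n _ => by
      refine ((ys_fin D j s).image (fun k => k + n)).subset fun k hk => ?_
      refine ⟨k - n, ?_, by ring⟩
      intro h0
      apply hk
      simp only [h0, mul_zero]
  rw [h1]
  have h2 : ∀ n, ∑ᶠ k, (c * Z.w j a n) * ys D j s (k - n) =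
      (c * Z.w j a n) * ∑ᶠ k, ys D j s k := by
    intro n
    rw [← mul_finsum]
    congr 1
    exact finsum_comp_equiv (Equiv.subRight n) (f := ys D j s)
  have h3 : ∑ᶠ n, Z.w j a n = ∑ n ∈ (Z.w_fin j a).toFinset, Z.w j a n :=
    finsum_eq_sum_of_support_subset _ (by simp)
  rw [Finset.sum_congr rfl fun n _ => h2 n, ← Finset.sum_mul, ← Finset.mul_sum, h3]

/-- cancellation of the regenerated parts -/
theorem cancel (Z : Sys2 A F B ι D m c C) (Z' : Sys2 A' F B ι D m c C) {j : ℕ} {a : A} {b : A'}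
    {θ θ' : ι → ℝ}
    (h : ∀ s k, ∑ i ∈ Z.I j, (Z.p j i * θ i) * Z.X (j + 1) (Z.nx j a i) s k =
        ∑ n ∈ (Z.w_fin j a).toFinset, (c * Z.w j a n) * ys D j s (k - n))
    (h' : ∀ s k, ∑ i ∈ Z'.I j, (Z'.p j i * θ' i) * Z'.X (j + 1) (Z'.nx j b i) s k =
        ∑ n ∈ (Z'.w_fin j b).toFinset, (c * Z'.w j b n) * ys D j s (k - n)) (f : ℤ → ℝ) (s t : F) :
    ∑ i ∈ Z.I j, ∑ i' ∈ Z'.I j, (Z.p j i * θ i) * (Z'.p j i' * θ' i') *
      (Bl f (Z.X (j + 1) (Z.nx j a i) t) (Z'.X (j + 1) (Z'.nx j b i') s) -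
        Bl f (Z.X (j + 1) (Z.nx j a i) s) (Z'.X (j + 1) (Z'.nx j b i') t)) = 0 := by
  have key : ∀ s t : F, ∑ i ∈ Z.I j, ∑ i' ∈ Z'.I j, (Z.p j i * θ i) * (Z'.p j i' * θ' i') *
      Bl f (Z.X (j + 1) (Z.nx j a i) t) (Z'.X (j + 1) (Z'.nx j b i') s) =
      ∑ n ∈ (Z.w_fin j a).toFinset, ∑ n' ∈ (Z'.w_fin j b).toFinset,
        (c * Z.w j a n) * (c * Z'.w j b n') *
          Bl (fun r => f (r + (n + n'))) (ys D j t) (ys D j s) := by
    intro s t
    rw [← Bl_sum_sum (fun i _ => Z.X_fin _ _ _) (fun i _ => Z'.X_fin _ _ _)]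
    rw [funext (h t), funext (h' s)]
    have hf : ∀ (s : F) (n : ℤ), (Function.support fun k => ys D j s (k - n)).Finite := by
      intro s n
      refine ((ys_fin D j s).image (fun k => k + n)).subset fun k hk => ?_
      exact ⟨k - n, hk, by ring⟩
    rw [Bl_sum_sum (u := fun n k => ys D j t (k - n)) (v := fun n k => ys D j s (k - n))
      (fun n _ => hf t n) (fun n _ => hf s n)]
    exact Finset.sum_congr rfl fun n _ => Finset.sum_congr rfl fun n' _ => by rw [Bl_shift]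
  simp only [mul_sub, Finset.sum_sub_distrib]
  rw [key s t, key t s, sub_eq_zero]
  exact Finset.sum_congr rfl fun n _ => Finset.sum_congr rfl fun n' _ => by rw [Bl_symm]

/-! ### one step -/

/-- abstract step -/
theorem step_abs {I I' : Finset ι} {p p' θ θ' : ι → ℝ} {DD SS EE : ι → ι → ℝ}
    {L δ : ℝ} (hp : ∀ i, 0 ≤ p i) (hp' : ∀ i, 0 ≤ p' i) (h0 : ∀ i, 0 ≤ θ i) (h1 : ∀ i, θ i ≤ 1)
    (h0' : ∀ i, 0 ≤ θ' i) (h1' : ∀ i, θ' i ≤ 1) (hL : 0 ≤ L)
    (hE : ∀ i ∈ I, ∀ i' ∈ I', 0 ≤ EE i i')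
    (hD : ∀ i ∈ I, ∀ i' ∈ I', |DD i i'| ≤ L * SS i i' + EE i i')
    (hz : ∑ i ∈ I, ∑ i' ∈ I', (p i * θ i) * (p' i' * θ' i') * DD i i' = 0)
    (hk : δ * (∑ i ∈ I, ∑ i' ∈ I', p i * p' i' * SS i i') ≤
      ∑ i ∈ I, ∑ i' ∈ I', (p i * θ i) * (p' i' * θ' i') * SS i i') :
    |∑ i ∈ I, ∑ i' ∈ I', p i * p' i' * DD i i'| ≤
      L * ((1 - δ) * ∑ i ∈ I, ∑ i' ∈ I', p i * p' i' * SS i i') +
        ∑ i ∈ I, ∑ i' ∈ I', p i * p' i' * EE i i' := by
  have hκ0 : ∀ i i', 0 ≤ p i * p' i' - (p i * θ i) * (p' i' * θ' i') := by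
    intro i i'
    have e1 : p i * p' i' - (p i * θ i) * (p' i' * θ' i') = p i * p' i' * (1 - θ i * θ' i') := by
      ring
    rw [e1]
    refine mul_nonneg (mul_nonneg (hp i) (hp' i')) ?_
    have := mul_le_one₀ (h1 i) (h0' i') (h1' i')
    linarith
  have e1 : ∑ i ∈ I, ∑ i' ∈ I', p i * p' i' * DD i i' =
      ∑ i ∈ I, ∑ i' ∈ I', (p i * p' i' - (p i * θ i) * (p' i' * θ' i')) * DD i i' := by
    have : ∑ i ∈ I, ∑ i' ∈ I', (p i * p' i' - (p i * θ i) * (p' i' * θ' i')) * DD i i' =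
        ∑ i ∈ I, ∑ i' ∈ I', p i * p' i' * DD i i' -
        ∑ i ∈ I, ∑ i' ∈ I', (p i * θ i) * (p' i' * θ' i') * DD i i' := by
      rw [← Finset.sum_sub_distrib]
      refine Finset.sum_congr rfl fun i _ => ?_
      rw [← Finset.sum_sub_distrib]
      exact Finset.sum_congr rfl fun i' _ => by ring
    rw [this, hz, sub_zero]
  rw [e1]
  calc |∑ i ∈ I, ∑ i' ∈ I', (p i * p' i' - (p i * θ i) * (p' i' * θ' i')) * DD i i'|
      ≤ ∑ i ∈ I, ∑ i' ∈ I', (p i * p' i' - (p i * θ i) * (p' i' * θ' i')) *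
          (L * SS i i' + EE i i') := by
        refine (Finset.abs_sum_le_sum_abs _ _).trans (Finset.sum_le_sum fun i hi => ?_)
        refine (Finset.abs_sum_le_sum_abs _ _).trans (Finset.sum_le_sum fun i' hi' => ?_)
        rw [abs_mul, abs_of_nonneg (hκ0 i i')]
        exact mul_le_mul_of_nonneg_left (hD i hi i' hi') (hκ0 i i')
    _ = L * (∑ i ∈ I, ∑ i' ∈ I', p i * p' i' * SS i i' -
          ∑ i ∈ I, ∑ i' ∈ I', (p i * θ i) * (p' i' * θ' i') * SS i i') +
        ∑ i ∈ I, ∑ i' ∈ I', (p i * p' i' - (p i * θ i) * (p' i' * θ' i')) * EE i i' := by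
        rw [mul_sub, Finset.mul_sum, Finset.mul_sum, ← Finset.sum_sub_distrib,
          ← Finset.sum_add_distrib]
        refine Finset.sum_congr rfl fun i _ => ?_
        rw [Finset.mul_sum, Finset.mul_sum, ← Finset.sum_sub_distrib, ← Finset.sum_add_distrib]
        exact Finset.sum_congr rfl fun i' _ => by ring
    _ ≤ _ := by
        apply add_le_add
        · apply mul_le_mul_of_nonneg_left _ hL
          linarith
        · refine Finset.sum_le_sum fun i hi => Finset.sum_le_sum fun i' hi' => ?_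
          apply mul_le_mul_of_nonneg_right _ (hE i hi i' hi')
          have := mul_nonneg (mul_nonneg (hp i) (h0 i)) (mul_nonneg (hp' i') (h0' i'))
          linarith

/-- number of jointly inner-good scales in `[j, j + n)` -/
def cnt (D : RegD F B) (s t : F) : ℕ → ℕ → ℕ
  | 0, _ => 0
  | n + 1, j => (if D.inn j s ∧ D.inn j t then 1 else 0) + cnt D s t n (j + 1)

theorem cnt_eq (D : RegD F B) (s t : F) : ∀ n j : ℕ,
    cnt D s t n j = ∑ i ∈ Finset.range n, if D.inn (j + i) s ∧ D.inn (j + i) t then 1 else 0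
  | 0, j => by simp [cnt]
  | n + 1, j => by
      rw [Finset.sum_range_succ', cnt, cnt_eq D s t n (j + 1), add_comm]
      congr 1
      refine Finset.sum_congr rfl fun i _ => ?_
      rw [show j + 1 + i = j + (i + 1) by ring]

theorem cnt_ge (D : RegD F B) (s t : F) (m : ℕ)
    (h1 : ((Finset.range m).filter fun j => ¬ D.inn j s).card ≤ m / 8)
    (h2 : ((Finset.range m).filter fun j => ¬ D.inn j t).card ≤ m / 8) :
    m ≤ cnt D s t m 0 + 2 * (m / 8) := by
  rw [cnt_eq]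
  have h3 : m = ∑ i ∈ Finset.range m, 1 := by simp
  have h4 : ∑ i ∈ Finset.range m, 1 ≤
      ∑ i ∈ Finset.range m, ((if D.inn (0 + i) s ∧ D.inn (0 + i) t then 1 else 0) +
        (if ¬ D.inn i s then 1 else 0) + (if ¬ D.inn i t then 1 else 0)) := by
    refine Finset.sum_le_sum fun i _ => ?_
    rw [zero_add]
    by_cases h5 : D.inn i s <;> by_cases h6 : D.inn i t <;> simp [h5, h6]
  rw [Finset.sum_add_distrib, Finset.sum_add_distrib, ← Finset.card_filter,
    ← Finset.card_filter] at h4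
  rw [← h3] at h4
  rw [Finset.card_filter, Finset.card_filter] at h4
  rw [Finset.card_filter] at h1 h2
  omega

theorem dsum (I I' : Finset ι) (p q u v : ι → ℝ) :
    ∑ a ∈ I, ∑ b ∈ I', p a * q b * (u a * v b) = (∑ a ∈ I, p a * u a) * ∑ b ∈ I', q b * v b := by
  rw [Finset.sum_mul_sum]
  exact Finset.sum_congr rfl fun a _ => Finset.sum_congr rfl fun b _ => by ring

theorem dsum2 (I I' : Finset ι) (p q u v u' v' : ι → ℝ) :
    ∑ a ∈ I, ∑ b ∈ I', p a * q b * (u a * v b + u' a * v' b) =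
      (∑ a ∈ I, p a * u a) * (∑ b ∈ I', q b * v b) +
      (∑ a ∈ I, p a * u' a) * ∑ b ∈ I', q b * v' b := by
  rw [← dsum, ← dsum, ← Finset.sum_add_distrib]
  refine Finset.sum_congr rfl fun a _ => ?_
  rw [← Finset.sum_add_distrib]
  exact Finset.sum_congr rfl fun b _ => by ring

/-- **the coupling estimate** -/
theorem main (hc : 0 < c) (hC : 1 ≤ C) (hcC : c ≤ 1) (Z : Sys2 A F B ι D m c C)
    (Z' : Sys2 A' F B ι D m c C) (f : ℤ → ℝ) (hf : ∀ n, |f n| ≤ 1) (s t : F) :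
    ∀ (n j k l : ℕ) (a : A) (b : A'), j + n = m → Z.st j a → Z'.st j b →
    |Bl f (Z.X j a t) (Z'.X j b s) - Bl f (Z.X j a s) (Z'.X j b t)| ≤
      (1 - (c / C) ^ 2 / 2) ^ (cnt D s t n j - (k + l)) *
        (Z.V j a t * Z'.V j b s + Z.V j a s * Z'.V j b t) +
      ((Z.Bd n j k a t * Z'.V j b s + Z.V j a t * Z'.Bd n j l b s) +
        (Z.Bd n j k a s * Z'.V j b t + Z.V j a s * Z'.Bd n j l b t)) := by
  have hCpos : 0 < C := by linarith
  have hd1 : c / C ≤ 1 := by rw [div_le_one hCpos]; linarith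
  have hd0 : 0 < c / C := by positivity
  set lam : ℝ := 1 - (c / C) ^ 2 / 2 with hlam
  have hl0 : 0 ≤ lam := by rw [hlam]; nlinarith
  have hl1 : lam ≤ 1 := by rw [hlam]; nlinarith [sq_nonneg (c / C)]
  have hV : ∀ j a s, 0 ≤ Z.V j a s := V_nonneg Z
  have hV' : ∀ j a s, 0 ≤ Z'.V j a s := V_nonneg Z'
  have hB : ∀ n j k a s, 0 ≤ Z.Bd n j k a s := fun n j k a s => Bd_nonneg Z s n j k a
  have hB' : ∀ n j k a s, 0 ≤ Z'.Bd n j k a s := fun n j k a s => Bd_nonneg Z' s n j k a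
  -- trivial bound
  have triv : ∀ (j : ℕ) (a : A) (b : A'),
      |Bl f (Z.X j a t) (Z'.X j b s) - Bl f (Z.X j a s) (Z'.X j b t)| ≤
        Z.V j a t * Z'.V j b s + Z.V j a s * Z'.V j b t := by
    intro j a b
    refine (abs_sub _ _).trans (add_le_add ?_ ?_)
    · exact Bl_le hf (Z.X_nonneg _ _ _) (Z'.X_nonneg _ _ _) (Z.X_fin _ _ _) (Z'.X_fin _ _ _)
    · exact Bl_le hf (Z.X_nonneg _ _ _) (Z'.X_nonneg _ _ _) (Z.X_fin _ _ _) (Z'.X_fin _ _ _)
  intro n
  induction n with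
  | zero =>
    intro j k l a b hj ha hb
    have h1 := triv j a b
    have h2 : 0 ≤ (Z.Bd 0 j k a t * Z'.V j b s + Z.V j a t * Z'.Bd 0 j l b s) +
        (Z.Bd 0 j k a s * Z'.V j b t + Z.V j a s * Z'.Bd 0 j l b t) := by
      have := hV j a t; have := hV' j b s; have := hV j a s; have := hV' j b t
      have := hB 0 j k a t; have := hB' 0 j l b s; have := hB 0 j k a s; have := hB' 0 j l b t
      positivity
    rw [cnt, Nat.zero_sub, pow_zero, one_mul]
    linarith
  | succ n ih =>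
    intro j k l a b hj ha hb
    have hS0 : 0 ≤ Z.V j a t * Z'.V j b s + Z.V j a s * Z'.V j b t := by
      have := hV j a t; have := hV' j b s; have := hV j a s; have := hV' j b t
      positivity
    have h1 := triv j a b
    have hlp : ∀ e : ℕ, 0 ≤ lam ^ e := fun e => pow_nonneg hl0 e
    -- trivial cases
    rcases Nat.eq_zero_or_pos k with hk | hk
    · subst hk
      rw [Bd_zero Z t (n + 1) j a hj ha, Bd_zero Z s (n + 1) j a hj ha]
      have h2 : 0 ≤ Z.V j a t * Z'.Bd (n + 1) j l b s := mul_nonneg (hV _ _ _) (hB' _ _ _ _ _)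
      have h3 : 0 ≤ Z.V j a s * Z'.Bd (n + 1) j l b t := mul_nonneg (hV _ _ _) (hB' _ _ _ _ _)
      have h4 := mul_nonneg (hlp (cnt D s t (n + 1) j - (0 + l))) hS0
      linarith
    rcases Nat.eq_zero_or_pos l with hl | hl
    · subst hl
      rw [Bd_zero Z' t (n + 1) j b hj hb, Bd_zero Z' s (n + 1) j b hj hb]
      have h2 : 0 ≤ Z.Bd (n + 1) j k a t * Z'.V j b s := mul_nonneg (hB _ _ _ _ _) (hV' _ _ _)
      have h3 : 0 ≤ Z.Bd (n + 1) j k a s * Z'.V j b t := mul_nonneg (hB _ _ _ _ _) (hV' _ _ _)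
      have h4 := mul_nonneg (hlp (cnt D s t (n + 1) j - (k + 0))) hS0
      linarith
    -- general case
    have hjm : j < m := by omega
    set k' := k - (if Z.good j a then 0 else 1) with hk'
    set l' := l - (if Z'.good j b then 0 else 1) with hl'
    set gd : Prop := (Z.good j a ∧ Z'.good j b) ∧ (D.inn j s ∧ D.inn j t) with hgd
    -- the two `θ`
    obtain ⟨θ, θ', ht0, ht1, ht0', ht1', hz, hkill⟩ : ∃ θ θ' : ι → ℝ, (∀ i, 0 ≤ θ i) ∧
        (∀ i, θ i ≤ 1) ∧ (∀ i, 0 ≤ θ' i) ∧ (∀ i, θ' i ≤ 1) ∧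
        (∑ i ∈ Z.I j, ∑ i' ∈ Z'.I j, (Z.p j i * θ i) * (Z'.p j i' * θ' i') *
          (Bl f (Z.X (j + 1) (Z.nx j a i) t) (Z'.X (j + 1) (Z'.nx j b i') s) -
            Bl f (Z.X (j + 1) (Z.nx j a i) s) (Z'.X (j + 1) (Z'.nx j b i') t)) = 0) ∧
        (if gd then (c / C) ^ 2 / 2 else 0) *
            (Z.V j a t * Z'.V j b s + Z.V j a s * Z'.V j b t) ≤
          ∑ i ∈ Z.I j, ∑ i' ∈ Z'.I j, (Z.p j i * θ i) * (Z'.p j i' * θ' i') *
            (Z.V (j + 1) (Z.nx j a i) t * Z'.V (j + 1) (Z'.nx j b i') s +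
              Z.V (j + 1) (Z.nx j a i) s * Z'.V (j + 1) (Z'.nx j b i') t) := by
      by_cases hg : gd
      · obtain ⟨⟨ga, gb⟩, is, it⟩ := hg
        obtain ⟨θ, ht0, ht1, hθ⟩ := regen Z hc hjm ha ga
        obtain ⟨θ', ht0', ht1', hθ'⟩ := regen Z' hc hjm hb gb
        refine ⟨θ, θ', ht0, ht1, ht0', ht1', cancel Z Z' hθ hθ' f s t, ?_⟩
        rw [if_pos ⟨⟨ga, gb⟩, is, it⟩, dsum2, regen_tot Z hθ t, regen_tot Z hθ s,
          regen_tot Z' hθ' s, regen_tot Z' hθ' t]
        have u1 := Z.up j hjm a ha ga s is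
        have u2 := Z.up j hjm a ha ga t it
        have u3 := Z'.up j hjm b hb gb s is
        have u4 := Z'.up j hjm b hb gb t it
        change Z.V j a s ≤ _ at u1
        change Z.V j a t ≤ _ at u2
        change Z'.V j b s ≤ _ at u3
        change Z'.V j b t ≤ _ at u4
        set Wa := ∑ᶠ n, Z.w j a n with hWa
        set Wb := ∑ᶠ n, Z'.w j b n with hWb
        set Us := ∑ᶠ b, D.reg j b * ∑ᶠ k, D.Y j b s k with hUs
        set Ut := ∑ᶠ b, D.reg j b * ∑ᶠ k, D.Y j b t k with hUt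
        have hWa0 : 0 ≤ Wa := finsum_nonneg fun n => Z.w_nonneg _ _ _
        have hWb0 : 0 ≤ Wb := finsum_nonneg fun n => Z'.w_nonneg _ _ _
        have hUs0 : 0 ≤ Us := finsum_nonneg fun b => mul_nonneg (D.reg_nonneg _ _)
          (finsum_nonneg fun k => D.Y_nonneg _ _ _ _)
        have hUt0 : 0 ≤ Ut := finsum_nonneg fun b => mul_nonneg (D.reg_nonneg _ _)
          (finsum_nonneg fun k => D.Y_nonneg _ _ _ _)
        have v1 : Z.V j a t * Z'.V j b s ≤ (C * Wa * Ut) * (C * Wb * Us) :=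
          mul_le_mul u2 u3 (hV' _ _ _) (by positivity)
        have v2 : Z.V j a s * Z'.V j b t ≤ (C * Wa * Us) * (C * Wb * Ut) :=
          mul_le_mul u1 u4 (hV' _ _ _) (by positivity)
        have v3 : (c / C) ^ 2 / 2 * (Z.V j a t * Z'.V j b s + Z.V j a s * Z'.V j b t) ≤
            (c / C) ^ 2 / 2 * ((C * Wa * Ut) * (C * Wb * Us) + (C * Wa * Us) * (C * Wb * Ut)) :=
          mul_le_mul_of_nonneg_left (add_le_add v1 v2) (by positivity)
        refine v3.trans ?_
        have v4 : (c / C) ^ 2 / 2 * ((C * Wa * Ut) * (C * Wb * Us) +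
            (C * Wa * Us) * (C * Wb * Ut)) = c ^ 2 * (Wa * Wb * (Us * Ut)) := by
          field_simp
          ring
        rw [v4]
        have v5 : 0 ≤ c ^ 2 * (Wa * Wb * (Us * Ut)) := by positivity
        nlinarith
      · refine ⟨fun _ => 0, fun _ => 0, fun _ => le_refl _, fun _ => zero_le_one,
          fun _ => le_refl _, fun _ => zero_le_one, ?_, ?_⟩
        · simp
        · rw [if_neg hg]
          simp
    -- abbreviations
    have sX : ∀ u : F, Z.X j a u = fun k => ∑ i ∈ Z.I j, Z.p j i *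
        Z.X (j + 1) (Z.nx j a i) u k := fun u => funext fun k => Z.step j hjm a ha u k
    have sX' : ∀ u : F, Z'.X j b u = fun k => ∑ i ∈ Z'.I j, Z'.p j i *
        Z'.X (j + 1) (Z'.nx j b i) u k := fun u => funext fun k => Z'.step j hjm b hb u k
    have sV := fun u => V_step Z hjm ha u
    have sV' := fun u => V_step Z' hjm hb u
    have eD : Bl f (Z.X j a t) (Z'.X j b s) - Bl f (Z.X j a s) (Z'.X j b t) =
        ∑ i ∈ Z.I j, ∑ i' ∈ Z'.I j, Z.p j i * Z'.p j i' *
          (Bl f (Z.X (j + 1) (Z.nx j a i) t) (Z'.X (j + 1) (Z'.nx j b i') s) -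
            Bl f (Z.X (j + 1) (Z.nx j a i) s) (Z'.X (j + 1) (Z'.nx j b i') t)) := by
      rw [sX t, sX s, sX' s, sX' t, Bl_sum_sum (fun i _ => Z.X_fin _ _ _)
        (fun i _ => Z'.X_fin _ _ _), Bl_sum_sum (fun i _ => Z.X_fin _ _ _)
        (fun i _ => Z'.X_fin _ _ _)]
      simp only [mul_sub, Finset.sum_sub_distrib]
    have eS : ∑ i ∈ Z.I j, ∑ i' ∈ Z'.I j, Z.p j i * Z'.p j i' *
        (Z.V (j + 1) (Z.nx j a i) t * Z'.V (j + 1) (Z'.nx j b i') s +
          Z.V (j + 1) (Z.nx j a i) s * Z'.V (j + 1) (Z'.nx j b i') t) =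
        Z.V j a t * Z'.V j b s + Z.V j a s * Z'.V j b t := by
      rw [dsum2, ← sV t, ← sV s, ← sV' s, ← sV' t]
    have eBa : ∀ u, Z.Bd (n + 1) j k a u =
        ∑ i ∈ Z.I j, Z.p j i * Z.Bd n (j + 1) k' (Z.nx j a i) u := fun u => rfl
    have eBb : ∀ u, Z'.Bd (n + 1) j l b u =
        ∑ i ∈ Z'.I j, Z'.p j i * Z'.Bd n (j + 1) l' (Z'.nx j b i) u := fun u => rfl
    have eE : ∑ i ∈ Z.I j, ∑ i' ∈ Z'.I j, Z.p j i * Z'.p j i' *
        ((Z.Bd n (j + 1) k' (Z.nx j a i) t * Z'.V (j + 1) (Z'.nx j b i') s +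
            Z.V (j + 1) (Z.nx j a i) t * Z'.Bd n (j + 1) l' (Z'.nx j b i') s) +
          (Z.Bd n (j + 1) k' (Z.nx j a i) s * Z'.V (j + 1) (Z'.nx j b i') t +
            Z.V (j + 1) (Z.nx j a i) s * Z'.Bd n (j + 1) l' (Z'.nx j b i') t)) =
        (Z.Bd (n + 1) j k a t * Z'.V j b s + Z.V j a t * Z'.Bd (n + 1) j l b s) +
          (Z.Bd (n + 1) j k a s * Z'.V j b t + Z.V j a s * Z'.Bd (n + 1) j l b t) := by
      rw [eBa t, eBa s, eBb t, eBb s, sV t, sV s, sV' s, sV' t]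
      rw [← dsum2, ← dsum2, ← Finset.sum_add_distrib]
      refine Finset.sum_congr rfl fun i _ => ?_
      rw [← Finset.sum_add_distrib]
      exact Finset.sum_congr rfl fun i' _ => by ring
    have hst : ∀ i ∈ Z.I j, Z.st (j + 1) (Z.nx j a i) := fun i hi => Z.st_nx j hjm a ha i hi
    have hst' : ∀ i ∈ Z'.I j, Z'.st (j + 1) (Z'.nx j b i) := fun i hi =>
      Z'.st_nx j hjm b hb i hi
    have hmain := step_abs (I := Z.I j) (I' := Z'.I j) (p := Z.p j) (p' := Z'.p j) (θ := θ)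
      (θ' := θ')
      (DD := fun i i' => Bl f (Z.X (j + 1) (Z.nx j a i) t) (Z'.X (j + 1) (Z'.nx j b i') s) -
            Bl f (Z.X (j + 1) (Z.nx j a i) s) (Z'.X (j + 1) (Z'.nx j b i') t))
      (SS := fun i i' => Z.V (j + 1) (Z.nx j a i) t * Z'.V (j + 1) (Z'.nx j b i') s +
          Z.V (j + 1) (Z.nx j a i) s * Z'.V (j + 1) (Z'.nx j b i') t)
      (EE := fun i i' => (Z.Bd n (j + 1) k' (Z.nx j a i) t * Z'.V (j + 1) (Z'.nx j b i') s +
            Z.V (j + 1) (Z.nx j a i) t * Z'.Bd n (j + 1) l' (Z'.nx j b i') s) +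
          (Z.Bd n (j + 1) k' (Z.nx j a i) s * Z'.V (j + 1) (Z'.nx j b i') t +
            Z.V (j + 1) (Z.nx j a i) s * Z'.Bd n (j + 1) l' (Z'.nx j b i') t))
      (L := lam ^ (cnt D s t n (j + 1) - (k' + l')))
      (δ := if gd then (c / C) ^ 2 / 2 else 0)
      (Z.p_nonneg j) (Z'.p_nonneg j) ht0 ht1 ht0' ht1' (hlp _)
      (by
        intro i _ i' _
        have := hV (j + 1) (Z.nx j a i) t; have := hV (j + 1) (Z.nx j a i) s
        have := hV' (j + 1) (Z'.nx j b i') t; have := hV' (j + 1) (Z'.nx j b i') s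
        have := hB n (j + 1) k' (Z.nx j a i) t; have := hB n (j + 1) k' (Z.nx j a i) s
        have := hB' n (j + 1) l' (Z'.nx j b i') t; have := hB' n (j + 1) l' (Z'.nx j b i') s
        positivity)
      (by
        intro i hi i' hi'
        exact ih (j + 1) k' l' _ _ (by omega) (hst i hi) (hst' i' hi'))
      hz (by rw [eS]; exact hkill)
    rw [← eD] at hmain
    rw [eS, eE] at hmain
    refine hmain.trans (add_le_add ?_ (le_refl _))
    rw [← mul_assoc]
    apply mul_le_mul_of_nonneg_right _ hS0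
    -- exponents
    have hcn : cnt D s t (n + 1) j = (if D.inn j s ∧ D.inn j t then 1 else 0) +
        cnt D s t n (j + 1) := rfl
    by_cases hg : gd
    · rw [if_pos hg]
      obtain ⟨⟨ga, gb⟩, hin⟩ := hg
      rw [if_pos ga, Nat.sub_zero] at hk'
      rw [if_pos gb, Nat.sub_zero] at hl'
      rw [if_pos hin] at hcn
      rw [hk', hl', hcn, ← hlam, ← pow_succ]
      exact pow_le_pow_of_le_one hl0 hl1 (by omega)
    · rw [if_neg hg, sub_zero, mul_one]
      apply pow_le_pow_of_le_one hl0 hl1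
      by_cases hin : D.inn j s ∧ D.inn j t
      · rw [if_pos hin] at hcn
        have hab : ¬ (Z.good j a ∧ Z'.good j b) := fun h => hg ⟨h, hin⟩
        by_cases ga : Z.good j a
        · have gb : ¬ Z'.good j b := fun h => hab ⟨ga, h⟩
          rw [if_pos ga] at hk'
          rw [if_neg gb] at hl'
          omega
        · rw [if_neg ga] at hk'
          have : l' ≤ l := Nat.sub_le _ _
          omega
      · rw [if_neg hin] at hcn
        have h5 : k' ≤ k := Nat.sub_le _ _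
        have h6 : l' ≤ l := Nat.sub_le _ _
        omega

/-- **(MixAbs2)** -/
theorem mixAbs2 : MixAbs2 := by
  intro c C hc hc1 hC
  have hCpos : 0 < C := by linarith
  have hd1 : c / C ≤ 1 := by rw [div_le_one hCpos]; linarith
  have hd0 : 0 < c / C := by positivity
  set lam : ℝ := 1 - (c / C) ^ 2 / 2 with hlam
  have hl0 : 0 < lam := by rw [hlam]; nlinarith
  have hl1 : lam < 1 := by rw [hlam]; nlinarith [pow_pos hd0 2]
  set th : ℝ := Real.sqrt lam with hth
  have ht0 : 0 < th := Real.sqrt_pos.mpr hl0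
  have ht1 : th < 1 := by rw [hth, Real.sqrt_lt' one_pos]; simpa using hl1
  refine ⟨1 / th ^ 4 + 2, th, ?_, ht0, ht1, ?_⟩
  · have : 0 < 1 / th ^ 4 := by positivity
    linarith
  intro A A' F B ι D m Z Z' x y s t q f hf hx hy hq hi1 hi2 b1 b2 b3 b4
  have h1 := main hc hC hc1 Z Z' f hf s t m 0 (m / 8 + 1) (m / 8 + 1) x y (by omega) hx hy
  rw [← hlam] at h1
  have hN := cnt_ge D s t m hi1 hi2
  have e0 : ∑ᶠ k, ∑ᶠ l, f (k + l) * (Z.X 0 x t k * Z'.X 0 y s l - Z.X 0 x s k * Z'.X 0 y t l) =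
      Bl f (Z.X 0 x t) (Z'.X 0 y s) - Bl f (Z.X 0 x s) (Z'.X 0 y t) := by
    have f1 := supp_fin (f := f) (Z.X_fin 0 x t) (Z'.X_fin 0 y s)
    have f2 := supp_fin (f := f) (Z.X_fin 0 x s) (Z'.X_fin 0 y t)
    unfold Bl
    rw [← finsum_sub_distrib f1 f2, finsum_curry]
    · refine finsum_congr fun k => finsum_congr fun l => by ring
    · refine (f1.union f2).subset ?_
      intro q hq
      by_contra hn
      apply hq
      simp only [Set.mem_union, not_or, Function.mem_support, not_not] at hn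
      simp only
      rw [hn.1, hn.2, sub_zero]
  rw [e0]
  set a := Z.V 0 x t * Z'.V 0 y s with ha
  set b := Z.V 0 x s * Z'.V 0 y t with hb
  have v1 := V_nonneg Z 0 x t
  have v2 := V_nonneg Z 0 x s
  have v3 := V_nonneg Z' 0 y t
  have v4 := V_nonneg Z' 0 y s
  have ha0 : 0 ≤ a := mul_nonneg v1 v4
  have hb0 : 0 ≤ b := mul_nonneg v2 v3
  have h3 : lam ^ (cnt D s t m 0 - (m / 8 + 1 + (m / 8 + 1))) ≤ 1 / th ^ 4 * th ^ m := by
    have e1 : lam = th ^ 2 := (Real.sq_sqrt hl0.le).symm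
    rw [e1, ← pow_mul, div_mul_eq_mul_div, one_mul, le_div_iff₀ (by positivity), ← pow_add]
    exact pow_le_pow_of_le_one ht0.le ht1.le (by omega)
  have e1 : Z.Bd m 0 (m / 8 + 1) x t * Z'.V 0 y s ≤ q * a := by
    calc _ ≤ (q * Z.V 0 x t) * Z'.V 0 y s := mul_le_mul_of_nonneg_right b2 v4
      _ = q * a := by rw [ha]; ring
  have e2 : Z.V 0 x t * Z'.Bd m 0 (m / 8 + 1) y s ≤ q * a := by
    calc _ ≤ Z.V 0 x t * (q * Z'.V 0 y s) := mul_le_mul_of_nonneg_left b3 v1
      _ = q * a := by rw [ha]; ring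
  have e3 : Z.Bd m 0 (m / 8 + 1) x s * Z'.V 0 y t ≤ q * b := by
    calc _ ≤ (q * Z.V 0 x s) * Z'.V 0 y t := mul_le_mul_of_nonneg_right b1 v3
      _ = q * b := by rw [hb]; ring
  have e4 : Z.V 0 x s * Z'.Bd m 0 (m / 8 + 1) y t ≤ q * b := by
    calc _ ≤ Z.V 0 x s * (q * Z'.V 0 y t) := mul_le_mul_of_nonneg_left b4 v2
      _ = q * b := by rw [hb]; ring
  have h6 : 0 ≤ th ^ m := pow_nonneg ht0.le m
  have h7 : 0 < 1 / th ^ 4 := by positivity
  calc |Bl f (Z.X 0 x t) (Z'.X 0 y s) - Bl f (Z.X 0 x s) (Z'.X 0 y t)|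
      ≤ lam ^ (cnt D s t m 0 - (m / 8 + 1 + (m / 8 + 1))) * (a + b) +
        ((Z.Bd m 0 (m / 8 + 1) x t * Z'.V 0 y s + Z.V 0 x t * Z'.Bd m 0 (m / 8 + 1) y s) +
        (Z.Bd m 0 (m / 8 + 1) x s * Z'.V 0 y t + Z.V 0 x s * Z'.Bd m 0 (m / 8 + 1) y t)) := h1
    _ ≤ 1 / th ^ 4 * th ^ m * (a + b) + ((q * a + q * a) + (q * b + q * b)) := by
        have := mul_le_mul_of_nonneg_right h3 (by linarith : 0 ≤ a + b)
        linarith
    _ ≤ (1 / th ^ 4 + 2) * (th ^ m + q) * (a + b) := by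
        have k1 : 0 ≤ th ^ m * (a + b) := mul_nonneg h6 (by linarith)
        have k2 : 0 ≤ 1 / th ^ 4 * (q * (a + b)) :=
          mul_nonneg h7.le (mul_nonneg hq (by linarith))
        nlinarith

end Crest.Agent.R143.MixAbs2x811
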