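import Mathlib

/-!
# Row 143 (S0194), block X, ABSTRACT part: literal statement (helper683)

Chain of exterior states `a` at the scales `0, 1, ..., m` (going inwards), value functions
`X j a s ≥ 0` (`s` = face inside), kernels `P j a : A →₀ ℝ` (sub-probabilities, tilt included) which do
not depend on `s`.

* `Sys.step` : `X j a s = ∑ a', P j a a' * X (j + 1) a' s`
* `Sys.lo`, `Sys.up` : at a good state the kernel contains the part `c * w j a • reg j`
  (`reg j` = law of the regeneration state, independent of `a`), and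
  `X j a s ≤ C * w j a * U j s`, `U j s = ∑ reg j a' * X (j + 1) a' s`
* `Sys.Bd n j k a s` : weight of the paths `a = a_j, ..., a_{j+n}` with at least `k` bad states
* `MixAbs` : the cross ratio of two exteriors and two faces is exponentially close to `1`
-/

set_option autoImplicit false

noncomputable section

open scoped Classical

namespace Crest.Agent.R143.X0Ax683

/-- exterior chain with `m` steps; the faces are the elements of `F` -/
structure Sys (A F : Type) (m : ℕ) (c C : ℝ) where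
  /-- admissible states at the scale `j` -/
  st : ℕ → A → Prop
  /-- good states -/
  good : ℕ → A → Prop
  P : ℕ → A → (A →₀ ℝ)
  X : ℕ → A → F → ℝ
  w : ℕ → A → ℝ
  reg : ℕ → (A →₀ ℝ)
  X_nonneg : ∀ j a s, 0 ≤ X j a s
  P_nonneg : ∀ j a a', 0 ≤ P j a a'
  w_nonneg : ∀ j a, 0 ≤ w j a
  reg_nonneg : ∀ j a, 0 ≤ reg j a
  P_st : ∀ j < m, ∀ a, st j a → ∀ a', P j a a' ≠ 0 → st (j + 1) a'
  step : ∀ j < m, ∀ a, st j a → ∀ s, X j a s = (P j a).sum fun a' p => p * X (j + 1) a' s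
  lo : ∀ j < m, ∀ a, st j a → good j a → ∀ a', c * w j a * reg j a' ≤ P j a a'
  up : ∀ j < m, ∀ a, st j a → good j a → ∀ s,
    X j a s ≤ C * w j a * (reg j).sum fun a' p => p * X (j + 1) a' s

variable {A F : Type} {m : ℕ} {c C : ℝ}

/-- weight of the paths of length `n` from `a` (at the scale `j`) with at least `k` bad states -/
def Sys.Bd (Y : Sys A F m c C) : ℕ → ℕ → ℕ → A → F → ℝ
  | 0, j, k, a, s => if k = 0 ∨ (k = 1 ∧ ¬ Y.good j a) then Y.X j a s else 0
  | n + 1, j, k, a, s => (Y.P j a).sum fun a' p =>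
      p * Y.Bd n (j + 1) (k - if Y.good j a then 0 else 1) a' s

/-- **(XA) the abstract mixing theorem**. Four counting hypotheses: outside the fraction `q` of the
weight at most `m / 8` of the scales are bad. -/
def MixAbs : Prop := ∀ c C : ℝ, 0 < c → c ≤ 1 → 1 ≤ C → ∃ C1 th : ℝ, 1 ≤ C1 ∧ 0 < th ∧ th < 1 ∧
  ∀ (A F : Type) (m : ℕ), 8 ≤ m → ∀ (Y : Sys A F m c C) (x y : A) (s t : F) (q : ℝ),
    Y.st 0 x → Y.st 0 y → 0 < Y.X 0 x s → 0 < Y.X 0 x t → 0 < Y.X 0 y s → 0 < Y.X 0 y t →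
    0 ≤ q → q ≤ 1 / 100 →
    Y.Bd m 0 (m / 8 + 1) x s ≤ q * Y.X 0 x s → Y.Bd m 0 (m / 8 + 1) x t ≤ q * Y.X 0 x t →
    Y.Bd m 0 (m / 8 + 1) y s ≤ q * Y.X 0 y s → Y.Bd m 0 (m / 8 + 1) y t ≤ q * Y.X 0 y t →
    |Y.X 0 x t * Y.X 0 y s - Y.X 0 x s * Y.X 0 y t| ≤
      C1 * (th ^ m + q) * (Y.X 0 x s * Y.X 0 y t)

end Crest.Agent.R143.X0Ax683
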