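import Mathlib
import Crest.Agent.R143.X0A_683

/-!
# Row 143 (S0194), block X, abstract mixing theorem (XA) = `X0Ax683.MixAbs` (helper811)

Proof without Doob chains: `D = X t ⊗ X s - X s ⊗ X t` is antisymmetric in the pair of exteriors,
`S = X t ⊗ X s + X s ⊗ X t` is symmetric. At a jointly good pair the symmetric part
`c² w w reg ⊗ reg` of the pair kernel is killed by `D` and carries at least the fraction `(c/C)²` of
`S`. Hence `|D| ≤ lam ^ (number of jointly good scales) S + (paths with many bad states)`.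
The crude bound `X x t * X y s ≤ K * (X x s * X y t)` comes from one scale at which both chains are
good with probability at least `2/5`.
-/

set_option autoImplicit false

noncomputable section

open scoped Classical

namespace Crest.Agent.R143.MixAbsx811

open Crest.Agent.R143.X0Ax683

variable {A F : Type} {m : ℕ} {c C : ℝ}

theorem sum_T (f : A →₀ ℝ) (g : A → ℝ) {T : Finset A} (h : f.support ⊆ T) :
    (f.sum fun a p => p * g a) = ∑ a ∈ T, f a * g a :=
  Finsupp.sum_of_support_subset f h _ (by simp)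

theorem Bd_succ (Y : Sys A F m c C) (n j k : ℕ) (a : A) (s : F) :
    Y.Bd (n + 1) j k a s = (Y.P j a).sum fun a' p =>
      p * Y.Bd n (j + 1) (k - if Y.good j a then 0 else 1) a' s := rfl

theorem Bd_nonneg (Y : Sys A F m c C) : ∀ (n j k : ℕ) (a : A) (s : F), 0 ≤ Y.Bd n j k a s := by
  intro n
  induction n with
  | zero =>
    intro j k a s
    unfold Sys.Bd
    split_ifs
    · exact Y.X_nonneg _ _ _
    · exact le_refl 0
  | succ n ih =>
    intro j k a s
    rw [Bd_succ, sum_T _ _ (Finset.Subset.refl _)]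
    exact Finset.sum_nonneg fun a' _ => mul_nonneg (Y.P_nonneg _ _ _) (ih _ _ _ _)

theorem Bd_zero (Y : Sys A F m c C) : ∀ (n j : ℕ) (a : A) (s : F), j + n ≤ m → Y.st j a →
    Y.Bd n j 0 a s = Y.X j a s := by
  intro n
  induction n with
  | zero =>
    intro j a s _ _
    unfold Sys.Bd
    simp
  | succ n ih =>
    intro j a s hj ha
    rw [Bd_succ, Y.step j (by omega) a ha s, sum_T _ _ (Finset.Subset.refl _),
      sum_T _ _ (Finset.Subset.refl _)]
    apply Finset.sum_congr rfl
    intro a' ha'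
    rw [Nat.zero_sub, ih (j + 1) a' s (by omega)
      (Y.P_st j (by omega) a ha a' (Finsupp.mem_support_iff.mp ha'))]

/-- double sums of products -/
theorem dsum (T : Finset A) (p q u v : A → ℝ) :
    ∑ a ∈ T, ∑ b ∈ T, p a * q b * (u a * v b) = (∑ a ∈ T, p a * u a) * ∑ b ∈ T, q b * v b := by
  rw [Finset.sum_mul_sum]
  exact Finset.sum_congr rfl fun a _ => Finset.sum_congr rfl fun b _ => by ring

/-- one pair of terms -/
theorem dsum2 (T : Finset A) (p q u v u' v' : A → ℝ) :
    ∑ a ∈ T, ∑ b ∈ T, p a * q b * (u a * v b + u' a * v' b) =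
      (∑ a ∈ T, p a * u a) * (∑ b ∈ T, q b * v b) +
      (∑ a ∈ T, p a * u' a) * ∑ b ∈ T, q b * v' b := by
  rw [← dsum, ← dsum, ← Finset.sum_add_distrib]
  refine Finset.sum_congr rfl fun a _ => ?_
  rw [← Finset.sum_add_distrib]
  exact Finset.sum_congr rfl fun b _ => by ring

theorem dsub2 (T : Finset A) (p q u v u' v' : A → ℝ) :
    ∑ a ∈ T, ∑ b ∈ T, p a * q b * (u a * v b - u' a * v' b) =
      (∑ a ∈ T, p a * u a) * (∑ b ∈ T, q b * v b) -
      (∑ a ∈ T, p a * u' a) * ∑ b ∈ T, q b * v' b := by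
  rw [← dsum, ← dsum, ← Finset.sum_sub_distrib]
  refine Finset.sum_congr rfl fun a _ => ?_
  rw [← Finset.sum_sub_distrib]
  exact Finset.sum_congr rfl fun b _ => by ring

/-- **the coupling estimate** -/
theorem main (hc : 0 < c) (hC : 1 ≤ C) (hcC : c ≤ 1) (Y : Sys A F m c C) :
    ∀ (n j k l : ℕ) (a b : A) (s t : F), j + n ≤ m → Y.st j a → Y.st j b →
    |Y.X j a t * Y.X j b s - Y.X j a s * Y.X j b t| ≤
      (1 - (c / C) ^ 2 / 2) ^ (n - (k + l)) *
        (Y.X j a t * Y.X j b s + Y.X j a s * Y.X j b t) +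
      ((Y.Bd n j k a t * Y.X j b s + Y.X j a t * Y.Bd n j l b s) +
        (Y.Bd n j k a s * Y.X j b t + Y.X j a s * Y.Bd n j l b t)) := by
  have hCpos : 0 < C := by linarith
  have hd1 : c / C ≤ 1 := by rw [div_le_one hCpos]; linarith
  have hd0 : 0 < c / C := by positivity
  set lam : ℝ := 1 - (c / C) ^ 2 / 2 with hlam
  have hl0 : 0 ≤ lam := by rw [hlam]; nlinarith
  have hl1 : lam ≤ 1 := by rw [hlam]; nlinarith [sq_nonneg (c / C)]
  have hX : ∀ j a s, 0 ≤ Y.X j a s := Y.X_nonneg
  have hB : ∀ n j k a s, 0 ≤ Y.Bd n j k a s := Bd_nonneg Y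
  have absDS : ∀ u v : ℝ, 0 ≤ u → 0 ≤ v → |u - v| ≤ u + v := by
    intro u v hu hv
    rw [abs_le]; constructor <;> linarith
  intro n
  induction n with
  | zero =>
    intro j k l a b s t hj ha hb
    have h1 := absDS _ _ (mul_nonneg (hX j a t) (hX j b s)) (mul_nonneg (hX j a s) (hX j b t))
    have h2 : 0 ≤ (Y.Bd 0 j k a t * Y.X j b s + Y.X j a t * Y.Bd 0 j l b s) +
        (Y.Bd 0 j k a s * Y.X j b t + Y.X j a s * Y.Bd 0 j l b t) := by
      have := hX j a t; have := hX j b s; have := hX j a s; have := hX j b t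
      have := hB 0 j k a t; have := hB 0 j l b s; have := hB 0 j k a s; have := hB 0 j l b t
      positivity
    rw [Nat.zero_sub, pow_zero, one_mul]
    linarith
  | succ n ih =>
    intro j k l a b s t hj ha hb
    have hS0 : 0 ≤ Y.X j a t * Y.X j b s + Y.X j a s * Y.X j b t := by
      have := hX j a t; have := hX j b s; have := hX j a s; have := hX j b t
      positivity
    have h1 := absDS _ _ (mul_nonneg (hX j a t) (hX j b s)) (mul_nonneg (hX j a s) (hX j b t))
    have hlp : ∀ e : ℕ, 0 ≤ lam ^ e := fun e => pow_nonneg hl0 e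
    -- trivial cases
    rcases Nat.eq_zero_or_pos k with hk | hk
    · subst hk
      rw [Bd_zero Y (n + 1) j a t hj ha, Bd_zero Y (n + 1) j a s hj ha]
      have h2 : 0 ≤ Y.X j a t * Y.Bd (n + 1) j l b s := mul_nonneg (hX _ _ _) (hB _ _ _ _ _)
      have h3 : 0 ≤ Y.X j a s * Y.Bd (n + 1) j l b t := mul_nonneg (hX _ _ _) (hB _ _ _ _ _)
      have h4 := mul_nonneg (hlp (n + 1 - (0 + l))) hS0
      linarith
    rcases Nat.eq_zero_or_pos l with hl | hl
    · subst hl
      rw [Bd_zero Y (n + 1) j b t hj hb, Bd_zero Y (n + 1) j b s hj hb]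
      have h2 : 0 ≤ Y.Bd (n + 1) j k a t * Y.X j b s := mul_nonneg (hB _ _ _ _ _) (hX _ _ _)
      have h3 : 0 ≤ Y.Bd (n + 1) j k a s * Y.X j b t := mul_nonneg (hB _ _ _ _ _) (hX _ _ _)
      have h4 := mul_nonneg (hlp (n + 1 - (k + 0))) hS0
      linarith
    -- general case
    have hjm : j < m := by omega
    set k' := k - (if Y.good j a then 0 else 1) with hk'
    set l' := l - (if Y.good j b then 0 else 1) with hl'
    set R := Y.reg j with hR
    set Pa := Y.P j a with hPa
    set Pb := Y.P j b with hPb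
    set T := Pa.support ∪ Pb.support ∪ R.support with hT
    have sa : Pa.support ⊆ T := fun z hz => by
      rw [hT]; exact Finset.mem_union_left _ (Finset.mem_union_left _ hz)
    have sb : Pb.support ⊆ T := fun z hz => by
      rw [hT]; exact Finset.mem_union_left _ (Finset.mem_union_right _ hz)
    have sR : R.support ⊆ T := fun z hz => by
      rw [hT]; exact Finset.mem_union_right _ hz
    have eXa : ∀ s, Y.X j a s = ∑ z ∈ T, Pa z * Y.X (j + 1) z s := fun s => by
      rw [Y.step j hjm a ha s]; exact sum_T _ _ sa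
    have eXb : ∀ s, Y.X j b s = ∑ z ∈ T, Pb z * Y.X (j + 1) z s := fun s => by
      rw [Y.step j hjm b hb s]; exact sum_T _ _ sb
    have eBa : ∀ s, Y.Bd (n + 1) j k a s = ∑ z ∈ T, Pa z * Y.Bd n (j + 1) k' z s := fun s => by
      rw [Bd_succ]; exact sum_T _ _ sa
    have eBb : ∀ s, Y.Bd (n + 1) j l b s = ∑ z ∈ T, Pb z * Y.Bd n (j + 1) l' z s := fun s => by
      rw [Bd_succ]; exact sum_T _ _ sb
    have hPa0 : ∀ z, 0 ≤ Pa z := fun z => Y.P_nonneg j a z
    have hPb0 : ∀ z, 0 ≤ Pb z := fun z => Y.P_nonneg j b z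
    have hR0 : ∀ z, 0 ≤ R z := fun z => Y.reg_nonneg j z
    have hwa : 0 ≤ Y.w j a := Y.w_nonneg j a
    have hwb : 0 ≤ Y.w j b := Y.w_nonneg j b
    set g : ℝ := if Y.good j a ∧ Y.good j b then 1 else 0 with hg
    set κ : A → A → ℝ := fun x y => Pa x * Pb y - g * ((c * Y.w j a * R x) * (c * Y.w j b * R y))
      with hκ
    have hκ0 : ∀ x y, 0 ≤ κ x y := by
      intro x y
      rw [hκ]
      simp only
      rw [hg]
      split_ifs with hgg
      · have e1 := Y.lo j hjm a ha hgg.1 x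
        have e2 := Y.lo j hjm b hb hgg.2 y
        have e3 : 0 ≤ c * Y.w j a * R x := mul_nonneg (mul_nonneg hc.le hwa) (hR0 x)
        have e4 : 0 ≤ c * Y.w j b * R y := mul_nonneg (mul_nonneg hc.le hwb) (hR0 y)
        have := mul_le_mul e1 e2 e4 (hPa0 x)
        linarith
      · have := mul_nonneg (hPa0 x) (hPb0 y)
        linarith
    have hκle : ∀ x y, κ x y ≤ Pa x * Pb y := by
      intro x y
      rw [hκ]
      simp only
      have e3 : 0 ≤ c * Y.w j a * R x := mul_nonneg (mul_nonneg hc.le hwa) (hR0 x)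
      have e4 : 0 ≤ c * Y.w j b * R y := mul_nonneg (mul_nonneg hc.le hwb) (hR0 y)
      have e5 : 0 ≤ g := by rw [hg]; split_ifs <;> norm_num
      have := mul_nonneg e5 (mul_nonneg e3 e4)
      linarith
    have hκst : ∀ x y, κ x y ≠ 0 → Y.st (j + 1) x ∧ Y.st (j + 1) y := by
      intro x y h
      have h2 : 0 < Pa x * Pb y := lt_of_lt_of_le (lt_of_le_of_ne (hκ0 x y) (Ne.symm h)) (hκle x y)
      constructor
      · apply Y.P_st j hjm a ha x
        intro h3
        rw [← hPa] at h3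
        rw [h3] at h2
        simp at h2
      · apply Y.P_st j hjm b hb y
        intro h3
        rw [← hPb] at h3
        rw [h3] at h2
        simp at h2
    -- abbreviations at the scale `j + 1`
    set V := fun (x : A) (s : F) => Y.X (j + 1) x s with hV
    have hV0 : ∀ x s, 0 ≤ V x s := fun x s => hX _ _ _
    set Us := ∑ z ∈ T, R z * V z s with hUs
    set Ut := ∑ z ∈ T, R z * V z t with hUt
    -- expansion of a double sum with `κ`
    have expand : ∀ f : A → A → ℝ, ∑ x ∈ T, ∑ y ∈ T, κ x y * f x y =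
        ∑ x ∈ T, ∑ y ∈ T, Pa x * Pb y * f x y -
        g * (c ^ 2 * (Y.w j a * Y.w j b)) * ∑ x ∈ T, ∑ y ∈ T, R x * R y * f x y := by
      intro f
      rw [Finset.mul_sum, ← Finset.sum_sub_distrib]
      refine Finset.sum_congr rfl fun x _ => ?_
      rw [Finset.mul_sum, ← Finset.sum_sub_distrib]
      refine Finset.sum_congr rfl fun y _ => ?_
      rw [hκ]
      ring
    -- `D`
    have hD : Y.X j a t * Y.X j b s - Y.X j a s * Y.X j b t =
        ∑ x ∈ T, ∑ y ∈ T, κ x y * (V x t * V y s - V x s * V y t) := by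
      rw [expand, dsub2 T Pa Pb (fun x => V x t) (fun y => V y s) (fun x => V x s)
        (fun y => V y t), dsub2 T R R (fun x => V x t) (fun y => V y s) (fun x => V x s)
        (fun y => V y t), eXa t, eXb s, eXa s, eXb t]
      ring
    -- `S`
    have hS : ∑ x ∈ T, ∑ y ∈ T, κ x y * (V x t * V y s + V x s * V y t) =
        (Y.X j a t * Y.X j b s + Y.X j a s * Y.X j b t) -
        g * (c ^ 2 * (Y.w j a * Y.w j b)) * (Ut * Us + Us * Ut) := by
      rw [expand, dsum2 T Pa Pb (fun x => V x t) (fun y => V y s) (fun x => V x s)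
        (fun y => V y t), dsum2 T R R (fun x => V x t) (fun y => V y s) (fun x => V x s)
        (fun y => V y t), eXa t, eXb s, eXa s, eXb t]
    have hUs0 : 0 ≤ Us := Finset.sum_nonneg fun z _ => mul_nonneg (hR0 z) (hV0 z s)
    have hUt0 : 0 ≤ Ut := Finset.sum_nonneg fun z _ => mul_nonneg (hR0 z) (hV0 z t)
    -- contraction
    have hcon : ∑ x ∈ T, ∑ y ∈ T, κ x y * (V x t * V y s + V x s * V y t) ≤
        (if Y.good j a ∧ Y.good j b then lam else 1) *
          (Y.X j a t * Y.X j b s + Y.X j a s * Y.X j b t) := by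
      rw [hS]
      split_ifs with hgg
      · have hg1 : g = 1 := by rw [hg, if_pos hgg]
        rw [hg1, one_mul]
        have ua : ∀ s, Y.X j a s ≤ C * Y.w j a * ∑ z ∈ T, R z * V z s := fun s => by
          have := Y.up j hjm a ha hgg.1 s
          rwa [sum_T _ _ sR] at this
        have ub : ∀ s, Y.X j b s ≤ C * Y.w j b * ∑ z ∈ T, R z * V z s := fun s => by
          have := Y.up j hjm b hb hgg.2 s
          rwa [sum_T _ _ sR] at this
        have e1 : Y.X j a t * Y.X j b s ≤ (C * Y.w j a * Ut) * (C * Y.w j b * Us) :=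
          mul_le_mul (ua t) (ub s) (hX _ _ _)
            (mul_nonneg (mul_nonneg hCpos.le hwa) hUt0)
        have e2 : Y.X j a s * Y.X j b t ≤ (C * Y.w j a * Us) * (C * Y.w j b * Ut) :=
          mul_le_mul (ua s) (ub t) (hX _ _ _)
            (mul_nonneg (mul_nonneg hCpos.le hwa) hUs0)
        have e3 : (c / C) ^ 2 * (Y.X j a t * Y.X j b s + Y.X j a s * Y.X j b t) ≤
            c ^ 2 * (Y.w j a * Y.w j b) * (Ut * Us + Us * Ut) := by
          calc (c / C) ^ 2 * (Y.X j a t * Y.X j b s + Y.X j a s * Y.X j b t)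
              ≤ (c / C) ^ 2 * ((C * Y.w j a * Ut) * (C * Y.w j b * Us) +
                (C * Y.w j a * Us) * (C * Y.w j b * Ut)) :=
                mul_le_mul_of_nonneg_left (add_le_add e1 e2) (sq_nonneg _)
            _ = c ^ 2 * (Y.w j a * Y.w j b) * (Ut * Us + Us * Ut) := by
                field_simp
        have e4 : 0 ≤ (c / C) ^ 2 * (Y.X j a t * Y.X j b s + Y.X j a s * Y.X j b t) :=
          mul_nonneg (sq_nonneg _) hS0
        have e5 : lam * (Y.X j a t * Y.X j b s + Y.X j a s * Y.X j b t) =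
            (Y.X j a t * Y.X j b s + Y.X j a s * Y.X j b t) -
            ((c / C) ^ 2 * (Y.X j a t * Y.X j b s + Y.X j a s * Y.X j b t)) / 2 := by
          rw [hlam]; ring
        rw [e5]
        linarith
      · have hg0 : g = 0 := by rw [hg, if_neg hgg]
        rw [hg0, zero_mul, zero_mul, sub_zero, one_mul]
    -- error terms
    have hE : ∑ x ∈ T, ∑ y ∈ T, κ x y *
        ((Y.Bd n (j + 1) k' x t * V y s + V x t * Y.Bd n (j + 1) l' y s) +
          (Y.Bd n (j + 1) k' x s * V y t + V x s * Y.Bd n (j + 1) l' y t)) ≤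
        (Y.Bd (n + 1) j k a t * Y.X j b s + Y.X j a t * Y.Bd (n + 1) j l b s) +
          (Y.Bd (n + 1) j k a s * Y.X j b t + Y.X j a s * Y.Bd (n + 1) j l b t) := by
      have e1 : ∑ x ∈ T, ∑ y ∈ T, κ x y *
          ((Y.Bd n (j + 1) k' x t * V y s + V x t * Y.Bd n (j + 1) l' y s) +
            (Y.Bd n (j + 1) k' x s * V y t + V x s * Y.Bd n (j + 1) l' y t)) ≤
          ∑ x ∈ T, ∑ y ∈ T, Pa x * Pb y *
          ((Y.Bd n (j + 1) k' x t * V y s + V x t * Y.Bd n (j + 1) l' y s) +
            (Y.Bd n (j + 1) k' x s * V y t + V x s * Y.Bd n (j + 1) l' y t)) := by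
        refine Finset.sum_le_sum fun x _ => Finset.sum_le_sum fun y _ => ?_
        apply mul_le_mul_of_nonneg_right (hκle x y)
        have := hV0 x t; have := hV0 x s; have := hV0 y t; have := hV0 y s
        have := hB n (j + 1) k' x t; have := hB n (j + 1) k' x s
        have := hB n (j + 1) l' y t; have := hB n (j + 1) l' y s
        positivity
      refine e1.trans (le_of_eq ?_)
      have e2 : ∑ x ∈ T, ∑ y ∈ T, Pa x * Pb y *
          ((Y.Bd n (j + 1) k' x t * V y s + V x t * Y.Bd n (j + 1) l' y s) +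
            (Y.Bd n (j + 1) k' x s * V y t + V x s * Y.Bd n (j + 1) l' y t)) =
          ∑ x ∈ T, ∑ y ∈ T, Pa x * Pb y *
            (Y.Bd n (j + 1) k' x t * V y s + V x t * Y.Bd n (j + 1) l' y s) +
          ∑ x ∈ T, ∑ y ∈ T, Pa x * Pb y *
            (Y.Bd n (j + 1) k' x s * V y t + V x s * Y.Bd n (j + 1) l' y t) := by
        rw [← Finset.sum_add_distrib]
        refine Finset.sum_congr rfl fun x _ => ?_
        rw [← Finset.sum_add_distrib]
        exact Finset.sum_congr rfl fun y _ => by ring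
      rw [e2, dsum2 T Pa Pb (fun x => Y.Bd n (j + 1) k' x t) (fun y => V y s) (fun x => V x t)
        (fun y => Y.Bd n (j + 1) l' y s), dsum2 T Pa Pb (fun x => Y.Bd n (j + 1) k' x s)
        (fun y => V y t) (fun x => V x s) (fun y => Y.Bd n (j + 1) l' y t), eBa t, eBa s, eBb s,
        eBb t, eXa t, eXa s, eXb t, eXb s]
    -- the induction hypothesis inside the sum
    have hterm : ∀ x y, κ x y * |V x t * V y s - V x s * V y t| ≤
        κ x y * (lam ^ (n - (k' + l')) * (V x t * V y s + V x s * V y t)) + κ x y *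
        ((Y.Bd n (j + 1) k' x t * V y s + V x t * Y.Bd n (j + 1) l' y s) +
          (Y.Bd n (j + 1) k' x s * V y t + V x s * Y.Bd n (j + 1) l' y t)) := by
      intro x y
      by_cases h : κ x y = 0
      · rw [h]; simp
      · obtain ⟨hx, hy⟩ := hκst x y h
        have := ih (j + 1) k' l' x y s t (by omega) hx hy
        have h2 := mul_le_mul_of_nonneg_left this (hκ0 x y)
        rw [mul_add] at h2
        exact h2
    have hstep1 : |Y.X j a t * Y.X j b s - Y.X j a s * Y.X j b t| ≤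
        lam ^ (n - (k' + l')) * (∑ x ∈ T, ∑ y ∈ T, κ x y * (V x t * V y s + V x s * V y t)) +
        ∑ x ∈ T, ∑ y ∈ T, κ x y *
        ((Y.Bd n (j + 1) k' x t * V y s + V x t * Y.Bd n (j + 1) l' y s) +
          (Y.Bd n (j + 1) k' x s * V y t + V x s * Y.Bd n (j + 1) l' y t)) := by
      rw [hD]
      calc |∑ x ∈ T, ∑ y ∈ T, κ x y * (V x t * V y s - V x s * V y t)|
          ≤ ∑ x ∈ T, |∑ y ∈ T, κ x y * (V x t * V y s - V x s * V y t)| :=
            Finset.abs_sum_le_sum_abs _ _
        _ ≤ ∑ x ∈ T, ∑ y ∈ T, κ x y * |V x t * V y s - V x s * V y t| := by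
            refine Finset.sum_le_sum fun x _ => (Finset.abs_sum_le_sum_abs _ _).trans ?_
            refine Finset.sum_le_sum fun y _ => ?_
            rw [abs_mul, abs_of_nonneg (hκ0 x y)]
        _ ≤ ∑ x ∈ T, ∑ y ∈ T, (κ x y * (lam ^ (n - (k' + l')) *
              (V x t * V y s + V x s * V y t)) + κ x y *
            ((Y.Bd n (j + 1) k' x t * V y s + V x t * Y.Bd n (j + 1) l' y s) +
              (Y.Bd n (j + 1) k' x s * V y t + V x s * Y.Bd n (j + 1) l' y t))) :=
            Finset.sum_le_sum fun x _ => Finset.sum_le_sum fun y _ => hterm x y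
        _ = _ := by
            rw [Finset.mul_sum, ← Finset.sum_add_distrib]
            refine Finset.sum_congr rfl fun x _ => ?_
            rw [Finset.mul_sum, ← Finset.sum_add_distrib]
            exact Finset.sum_congr rfl fun y _ => by ring
    -- exponents
    have hexp : lam ^ (n - (k' + l')) * (if Y.good j a ∧ Y.good j b then lam else 1) ≤
        lam ^ (n + 1 - (k + l)) := by
      split_ifs with hgg
      · rw [← pow_succ]
        apply pow_le_pow_of_le_one hl0 hl1
        rw [hk', hl', if_pos hgg.1, if_pos hgg.2]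
        omega
      · rw [mul_one]
        apply pow_le_pow_of_le_one hl0 hl1
        rw [hk', hl']
        by_cases ga : Y.good j a
        · have gb : ¬ Y.good j b := fun gb => hgg ⟨ga, gb⟩
          rw [if_pos ga, if_neg gb]
          omega
        · rw [if_neg ga]
          split_ifs <;> omega
    refine hstep1.trans (add_le_add ?_ hE)
    calc lam ^ (n - (k' + l')) * (∑ x ∈ T, ∑ y ∈ T, κ x y * (V x t * V y s + V x s * V y t))
        ≤ lam ^ (n - (k' + l')) * ((if Y.good j a ∧ Y.good j b then lam else 1) *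
          (Y.X j a t * Y.X j b s + Y.X j a s * Y.X j b t)) :=
          mul_le_mul_of_nonneg_left hcon (hlp _)
      _ = (lam ^ (n - (k' + l')) * (if Y.good j a ∧ Y.good j b then lam else 1)) *
          (Y.X j a t * Y.X j b s + Y.X j a s * Y.X j b t) := by ring
      _ ≤ lam ^ (n + 1 - (k + l)) * (Y.X j a t * Y.X j b s + Y.X j a s * Y.X j b t) :=
          mul_le_mul_of_nonneg_right hexp hS0

/-! ### the crude bound -/

/-- weight of the paths of length `n` with a good last state -/
def Gd (Y : Sys A F m c C) : ℕ → ℕ → A → F → ℝ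
  | 0, j, a, s => if Y.good j a then Y.X j a s else 0
  | n + 1, j, a, s => (Y.P j a).sum fun a' p => p * Gd Y n (j + 1) a' s

/-- total weight `w` at good last states -/
def Hd (Y : Sys A F m c C) : ℕ → ℕ → A → ℝ
  | 0, j, a => if Y.good j a then Y.w j a else 0
  | n + 1, j, a => (Y.P j a).sum fun a' p => p * Hd Y n (j + 1) a'

theorem Gd_nonneg (Y : Sys A F m c C) : ∀ (n j : ℕ) (a : A) (s : F), 0 ≤ Gd Y n j a s := by
  intro n
  induction n with
  | zero =>
    intro j a s
    unfold Gd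
    split_ifs
    · exact Y.X_nonneg _ _ _
    · exact le_refl 0
  | succ n ih =>
    intro j a s
    change 0 ≤ (Y.P j a).sum fun a' p => p * Gd Y n (j + 1) a' s
    rw [sum_T _ _ (Finset.Subset.refl _)]
    exact Finset.sum_nonneg fun a' _ => mul_nonneg (Y.P_nonneg _ _ _) (ih _ _ _)

theorem Hd_nonneg (Y : Sys A F m c C) : ∀ (n j : ℕ) (a : A), 0 ≤ Hd Y n j a := by
  intro n
  induction n with
  | zero =>
    intro j a
    unfold Hd
    split_ifs
    · exact Y.w_nonneg _ _
    · exact le_refl 0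
  | succ n ih =>
    intro j a
    change 0 ≤ (Y.P j a).sum fun a' p => p * Hd Y n (j + 1) a'
    rw [sum_T _ _ (Finset.Subset.refl _)]
    exact Finset.sum_nonneg fun a' _ => mul_nonneg (Y.P_nonneg _ _ _) (ih _ _)

theorem Gd_le (Y : Sys A F m c C) : ∀ (n j : ℕ) (a : A) (s : F), j + n ≤ m → Y.st j a →
    Gd Y n j a s ≤ Y.X j a s := by
  intro n
  induction n with
  | zero =>
    intro j a s _ _
    unfold Gd
    split_ifs
    · exact le_refl _
    · exact Y.X_nonneg _ _ _
  | succ n ih =>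
    intro j a s hj ha
    change ((Y.P j a).sum fun a' p => p * Gd Y n (j + 1) a' s) ≤ _
    rw [Y.step j (by omega) a ha s, sum_T _ _ (Finset.Subset.refl _),
      sum_T _ _ (Finset.Subset.refl _)]
    apply Finset.sum_le_sum
    intro a' ha'
    exact mul_le_mul_of_nonneg_left (ih (j + 1) a' s (by omega)
      (Y.P_st j (by omega) a ha a' (Finsupp.mem_support_iff.mp ha'))) (Y.P_nonneg _ _ _)

/-- two-sided comparison with `Hd` -/
theorem Gd_Hd (Y : Sys A F m c C) : ∀ (n j : ℕ) (a : A) (s : F),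
    j + n < m → Y.st j a →
    Gd Y n j a s ≤ C * Hd Y n j a * ((Y.reg (j + n)).sum fun a' p => p * Y.X (j + n + 1) a' s) ∧
    c * Hd Y n j a * ((Y.reg (j + n)).sum fun a' p => p * Y.X (j + n + 1) a' s) ≤
      Gd Y n j a s := by
  intro n
  induction n with
  | zero =>
    intro j a s hj ha
    have hjm : j < m := by omega
    unfold Gd Hd
    rw [Nat.add_zero]
    split_ifs with hg
    · refine ⟨Y.up j hjm a ha hg s, ?_⟩
      have h1 := Y.lo j hjm a ha hg
      rw [Y.step j hjm a ha s]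
      set T := (Y.P j a).support ∪ (Y.reg j).support with hT
      rw [sum_T (T := T) _ _ Finset.subset_union_left,
        sum_T (T := T) _ _ Finset.subset_union_right, Finset.mul_sum]
      apply Finset.sum_le_sum
      intro z _
      calc c * Y.w j a * (Y.reg j z * Y.X (j + 1) z s)
          = (c * Y.w j a * Y.reg j z) * Y.X (j + 1) z s := by ring
        _ ≤ Y.P j a z * Y.X (j + 1) z s :=
          mul_le_mul_of_nonneg_right (h1 z) (Y.X_nonneg _ _ _)
    · simp
  | succ n ih =>
    intro j a s hj ha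
    have hjm : j < m := by omega
    have hst : ∀ z ∈ (Y.P j a).support, Y.st (j + 1) z := fun z hz =>
      Y.P_st j hjm a ha z (Finsupp.mem_support_iff.mp hz)
    change ((Y.P j a).sum fun a' p => p * Gd Y n (j + 1) a' s) ≤
        C * ((Y.P j a).sum fun a' p => p * Hd Y n (j + 1) a') * _ ∧
      c * ((Y.P j a).sum fun a' p => p * Hd Y n (j + 1) a') * _ ≤
        ((Y.P j a).sum fun a' p => p * Gd Y n (j + 1) a' s)
    have e : j + (n + 1) = j + 1 + n := by ring
    rw [e]
    set U := (Y.reg (j + 1 + n)).sum fun a' p => p * Y.X (j + 1 + n + 1) a' s with hU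
    rw [sum_T _ _ (Finset.Subset.refl _), sum_T _ _ (Finset.Subset.refl _)]
    constructor
    · rw [Finset.mul_sum, Finset.sum_mul]
      apply Finset.sum_le_sum
      intro z hz
      calc Y.P j a z * Gd Y n (j + 1) z s ≤ Y.P j a z * (C * Hd Y n (j + 1) z * U) :=
            mul_le_mul_of_nonneg_left (ih (j + 1) z s (by omega) (hst z hz)).1
              (Y.P_nonneg _ _ _)
        _ = C * (Y.P j a z * Hd Y n (j + 1) z) * U := by ring
    · rw [Finset.mul_sum, Finset.sum_mul]
      apply Finset.sum_le_sum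
      intro z hz
      calc c * (Y.P j a z * Hd Y n (j + 1) z) * U = Y.P j a z * (c * Hd Y n (j + 1) z * U) := by
            ring
        _ ≤ Y.P j a z * Gd Y n (j + 1) z s :=
            mul_le_mul_of_nonneg_left (ih (j + 1) z s (by omega) (hst z hz)).2
              (Y.P_nonneg _ _ _)

/-- expected number of bad states -/
theorem count (Y : Sys A F m c C) : ∀ (n j k : ℕ) (a : A) (s : F), j + n ≤ m → Y.st j a →
    ∑ i ∈ Finset.range (n + 1), (Y.X j a s - Gd Y i j a s) ≤
      k * Y.X j a s + (n + 1) * Y.Bd n j k a s := by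
  intro n
  induction n with
  | zero =>
    intro j k a s _ _
    have hX := Y.X_nonneg j a s
    rw [Finset.sum_range_one]
    unfold Gd Sys.Bd
    rcases Nat.eq_zero_or_pos k with hk | hk
    · subst hk
      simp only [true_or, if_true]
      split_ifs <;> simp <;> linarith
    · have hk1 : (1 : ℝ) ≤ k := by exact_mod_cast hk
      split_ifs <;> nlinarith
  | succ n ih =>
    intro j k a s hj ha
    have hjm : j < m := by omega
    have hX := Y.X_nonneg j a s
    have hst : ∀ z ∈ (Y.P j a).support, Y.st (j + 1) z := fun z hz =>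
      Y.P_st j hjm a ha z (Finsupp.mem_support_iff.mp hz)
    set k' := k - (if Y.good j a then 0 else 1) with hk'
    rw [Finset.sum_range_succ']
    have h0 : Y.X j a s - Gd Y 0 j a s = if Y.good j a then 0 else Y.X j a s := by
      unfold Gd
      split_ifs <;> ring
    rw [h0]
    have h1 : ∑ i ∈ Finset.range (n + 1), (Y.X j a s - Gd Y (i + 1) j a s) ≤
        k' * Y.X j a s + (n + 1) * Y.Bd (n + 1) j k a s := by
      have e1 : ∀ i, Y.X j a s - Gd Y (i + 1) j a s =
          ∑ z ∈ (Y.P j a).support, Y.P j a z * (Y.X (j + 1) z s - Gd Y i (j + 1) z s) := by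
        intro i
        have e2 : Gd Y (i + 1) j a s = (Y.P j a).sum fun a' p => p * Gd Y i (j + 1) a' s := rfl
        rw [e2, Y.step j hjm a ha s, sum_T _ _ (Finset.Subset.refl _),
          sum_T _ _ (Finset.Subset.refl _), ← Finset.sum_sub_distrib]
        exact Finset.sum_congr rfl fun z _ => by ring
      rw [Finset.sum_congr rfl fun i _ => e1 i, Finset.sum_comm]
      calc ∑ z ∈ (Y.P j a).support, ∑ i ∈ Finset.range (n + 1),
            Y.P j a z * (Y.X (j + 1) z s - Gd Y i (j + 1) z s)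
          ≤ ∑ z ∈ (Y.P j a).support, Y.P j a z *
            (k' * Y.X (j + 1) z s + (n + 1) * Y.Bd n (j + 1) k' z s) := by
            apply Finset.sum_le_sum
            intro z hz
            rw [← Finset.mul_sum]
            exact mul_le_mul_of_nonneg_left (ih (j + 1) k' z s (by omega) (hst z hz))
              (Y.P_nonneg _ _ _)
        _ = k' * Y.X j a s + (n + 1) * Y.Bd (n + 1) j k a s := by
            rw [Bd_succ, Y.step j hjm a ha s, sum_T _ _ (Finset.Subset.refl _),
              sum_T _ _ (Finset.Subset.refl _), Finset.mul_sum, Finset.mul_sum,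
              ← Finset.sum_add_distrib]
            exact Finset.sum_congr rfl fun z _ => by ring
    have hB := Bd_nonneg Y (n + 1) j k a s
    have hk0 : (0 : ℝ) ≤ k := Nat.cast_nonneg k
    by_cases hg : Y.good j a
    · rw [if_pos hg] at hk' ⊢
      rw [hk', Nat.sub_zero] at h1
      push_cast
      linarith
    · rw [if_neg hg] at hk' ⊢
      rcases Nat.eq_zero_or_pos k with hk | hk
      · subst hk
        rw [hk'] at h1
        rw [Bd_zero Y (n + 1) j a s hj ha] at h1 ⊢
        simp only [Nat.zero_sub, Nat.cast_zero, zero_mul, zero_add] at h1 ⊢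
        push_cast
        linarith
      · rw [hk', Nat.cast_sub hk, Nat.cast_one] at h1
        push_cast
        linarith

/-- crude comparison -/
theorem crude (hc : 0 < c) (hC : 1 ≤ C) (Y : Sys A F m c C) (hm : 8 ≤ m) {x y : A} {s t : F}
    {q : ℝ} (hx : Y.st 0 x) (hy : Y.st 0 y) (hxt : 0 < Y.X 0 x t) (hys : 0 < Y.X 0 y s)
    (hq : q ≤ 1 / 100) (h1 : Y.Bd m 0 (m / 8 + 1) x t ≤ q * Y.X 0 x t)
    (h2 : Y.Bd m 0 (m / 8 + 1) y s ≤ q * Y.X 0 y s) :
    Y.X 0 x t * Y.X 0 y s ≤ 25 / 4 * (C / c) ^ 2 * (Y.X 0 x s * Y.X 0 y t) := by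
  have hCpos : 0 < C := by linarith
  have c1 := count Y m 0 (m / 8 + 1) x t (by omega) hx
  have c2 := count Y m 0 (m / 8 + 1) y s (by omega) hy
  have hm' : (8 : ℝ) ≤ m := by exact_mod_cast hm
  have hdiv : ((m / 8 + 1 : ℕ) : ℝ) ≤ m / 8 + 1 := by
    push_cast
    have := @Nat.cast_div_le ℝ _ _ _ m 8
    push_cast at this
    linarith
  have bound : ∀ (z : A) (u : F), Y.st 0 z → 0 < Y.X 0 z u →
      Y.Bd m 0 (m / 8 + 1) z u ≤ q * Y.X 0 z u →
      ∑ i ∈ Finset.range m, (Y.X 0 z u - Gd Y i 0 z u) ≤ 3 / 10 * m * Y.X 0 z u := by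
    intro z u hz hpos hB
    have e1 := count Y m 0 (m / 8 + 1) z u (by omega) hz
    rw [Finset.sum_range_succ] at e1
    have e2 := Gd_le Y m 0 z u (by omega) hz
    have e3 : ((m : ℝ) + 1) * Y.Bd m 0 (m / 8 + 1) z u ≤
        ((m : ℝ) + 1) * (1 / 100 * Y.X 0 z u) := by
      apply mul_le_mul_of_nonneg_left _ (by positivity)
      exact hB.trans (mul_le_mul_of_nonneg_right hq hpos.le)
    have e4 : ((m / 8 + 1 : ℕ) : ℝ) * Y.X 0 z u ≤ (m / 8 + 1) * Y.X 0 z u :=
      mul_le_mul_of_nonneg_right hdiv hpos.le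
    nlinarith
  have b1 := bound x t hx hxt h1
  have b2 := bound y s hy hys h2
  -- a scale
  obtain ⟨i, hi, hi2⟩ : ∃ i ∈ Finset.range m,
      (Y.X 0 x t - Gd Y i 0 x t) * Y.X 0 y s + (Y.X 0 y s - Gd Y i 0 y s) * Y.X 0 x t ≤
        3 / 5 * (Y.X 0 x t * Y.X 0 y s) := by
    apply Finset.exists_le_of_sum_le (by
      rw [Finset.nonempty_range_iff]; omega)
    rw [Finset.sum_add_distrib, ← Finset.sum_mul, ← Finset.sum_mul, Finset.sum_const,
      Finset.card_range, nsmul_eq_mul]
    have e1 := mul_le_mul_of_nonneg_right b1 hys.le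
    have e2 := mul_le_mul_of_nonneg_right b2 hxt.le
    linarith
  have hi' : i < m := Finset.mem_range.mp hi
  have gx := Gd_le Y i 0 x t (by omega) hx
  have gy := Gd_le Y i 0 y s (by omega) hy
  have g1 : 2 / 5 * Y.X 0 x t ≤ Gd Y i 0 x t := by
    have e1 : 0 ≤ (Y.X 0 y s - Gd Y i 0 y s) * Y.X 0 x t :=
      mul_nonneg (by linarith) hxt.le
    have e2 : (Y.X 0 x t - Gd Y i 0 x t) * Y.X 0 y s ≤ (3 / 5 * Y.X 0 x t) * Y.X 0 y s := by
      linarith
    have := le_of_mul_le_mul_right e2 hys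
    linarith
  have g2 : 2 / 5 * Y.X 0 y s ≤ Gd Y i 0 y s := by
    have e1 : 0 ≤ (Y.X 0 x t - Gd Y i 0 x t) * Y.X 0 y s :=
      mul_nonneg (by linarith) hys.le
    have e2 : (Y.X 0 y s - Gd Y i 0 y s) * Y.X 0 x t ≤ (3 / 5 * Y.X 0 y s) * Y.X 0 x t := by
      linarith
    have := le_of_mul_le_mul_right e2 hxt
    linarith
  have k1 := (Gd_Hd Y i 0 x t (by omega) hx).1
  have k2 := (Gd_Hd Y i 0 y s (by omega) hy).1
  have k3 := (Gd_Hd Y i 0 x s (by omega) hx).2
  have k4 := (Gd_Hd Y i 0 y t (by omega) hy).2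
  have l3 := Gd_le Y i 0 x s (by omega) hx
  have l4 := Gd_le Y i 0 y t (by omega) hy
  set Us := (Y.reg (0 + i)).sum fun a' p => p * Y.X (0 + i + 1) a' s with hUs
  set Ut := (Y.reg (0 + i)).sum fun a' p => p * Y.X (0 + i + 1) a' t with hUt
  have hUs0 : 0 ≤ Us := by
    rw [hUs, sum_T _ _ (Finset.Subset.refl _)]
    exact Finset.sum_nonneg fun z _ => mul_nonneg (Y.reg_nonneg _ _) (Y.X_nonneg _ _ _)
  have hUt0 : 0 ≤ Ut := by
    rw [hUt, sum_T _ _ (Finset.Subset.refl _)]
    exact Finset.sum_nonneg fun z _ => mul_nonneg (Y.reg_nonneg _ _) (Y.X_nonneg _ _ _)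
  have hx0 := Hd_nonneg Y i 0 x
  have hy0 := Hd_nonneg Y i 0 y
  set hX' := Hd Y i 0 x
  set hY' := Hd Y i 0 y
  -- combine
  have u1 : 2 / 5 * Y.X 0 x t ≤ C * hX' * Ut := g1.trans k1
  have u2 : 2 / 5 * Y.X 0 y s ≤ C * hY' * Us := g2.trans k2
  have u3 : c * hX' * Us ≤ Y.X 0 x s := k3.trans l3
  have u4 : c * hY' * Ut ≤ Y.X 0 y t := k4.trans l4
  have v1 : (2 / 5 * Y.X 0 x t) * (2 / 5 * Y.X 0 y s) ≤ (C * hX' * Ut) * (C * hY' * Us) :=
    mul_le_mul u1 u2 (by positivity) (by positivity)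
  have v2 : (c * hX' * Us) * (c * hY' * Ut) ≤ Y.X 0 x s * Y.X 0 y t :=
    mul_le_mul u3 u4 (by positivity) (Y.X_nonneg _ _ _)
  have v3 : (C * hX' * Ut) * (C * hY' * Us) = (C / c) ^ 2 * ((c * hX' * Us) * (c * hY' * Ut)) := by
    field_simp
  have v4 : (C / c) ^ 2 * ((c * hX' * Us) * (c * hY' * Ut)) ≤
      (C / c) ^ 2 * (Y.X 0 x s * Y.X 0 y t) := mul_le_mul_of_nonneg_left v2 (sq_nonneg _)
  rw [v3] at v1
  nlinarith

/-- **(XA)** -/
theorem mixAbs : MixAbs := by
  intro c C hc hc1 hC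
  have hCpos : 0 < C := by linarith
  have hd1 : c / C ≤ 1 := by rw [div_le_one hCpos]; linarith
  have hd0 : 0 < c / C := by positivity
  set lam : ℝ := 1 - (c / C) ^ 2 / 2 with hlam
  have hl0 : 0 < lam := by rw [hlam]; nlinarith
  have hl1 : lam < 1 := by rw [hlam]; nlinarith [pow_pos hd0 2]
  set K : ℝ := 25 / 4 * (C / c) ^ 2 with hK
  have hK0 : 0 ≤ K := by positivity
  refine ⟨2 * (K + 1), Real.sqrt lam, by linarith, Real.sqrt_pos.mpr hl0, ?_, ?_⟩
  · rw [Real.sqrt_lt' one_pos]; simpa using hl1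
  intro A F m hm Y x y s t q hx hy hxs hxt hys hyt hq0 hq b1 b2 b3 b4
  have h1 := main hc hC hc1 Y m 0 (m / 8 + 1) (m / 8 + 1) x y s t (by omega) hx hy
  rw [← hlam] at h1
  have h2 := crude hc hC Y hm hx hy hxt hys hq b2 b3
  rw [← hK] at h2
  set a := Y.X 0 x t * Y.X 0 y s with ha
  set b := Y.X 0 x s * Y.X 0 y t with hb
  have ha0 : 0 < a := mul_pos hxt hys
  have hb0 : 0 < b := mul_pos hxs hyt
  have h3 : lam ^ (m - (m / 8 + 1 + (m / 8 + 1))) ≤ Real.sqrt lam ^ m := by
    have e1 : lam = Real.sqrt lam ^ 2 := (Real.sq_sqrt hl0.le).symm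
    calc lam ^ (m - (m / 8 + 1 + (m / 8 + 1)))
        = (Real.sqrt lam ^ 2) ^ (m - (m / 8 + 1 + (m / 8 + 1))) := by rw [← e1]
      _ = Real.sqrt lam ^ (2 * (m - (m / 8 + 1 + (m / 8 + 1)))) := by rw [← pow_mul]
      _ ≤ Real.sqrt lam ^ m := by
        apply pow_le_pow_of_le_one (Real.sqrt_nonneg _)
        · exact (Real.sqrt_le_sqrt hl1.le).trans (by simp)
        · omega
  have e1 : Y.Bd m 0 (m / 8 + 1) x t * Y.X 0 y s ≤ q * a := by
    calc _ ≤ (q * Y.X 0 x t) * Y.X 0 y s := mul_le_mul_of_nonneg_right b2 hys.le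
      _ = q * a := by rw [ha]; ring
  have e2 : Y.X 0 x t * Y.Bd m 0 (m / 8 + 1) y s ≤ q * a := by
    calc _ ≤ Y.X 0 x t * (q * Y.X 0 y s) := mul_le_mul_of_nonneg_left b3 hxt.le
      _ = q * a := by rw [ha]; ring
  have e3 : Y.Bd m 0 (m / 8 + 1) x s * Y.X 0 y t ≤ q * b := by
    calc _ ≤ (q * Y.X 0 x s) * Y.X 0 y t := mul_le_mul_of_nonneg_right b1 hyt.le
      _ = q * b := by rw [hb]; ring
  have e4 : Y.X 0 x s * Y.Bd m 0 (m / 8 + 1) y t ≤ q * b := by
    calc _ ≤ Y.X 0 x s * (q * Y.X 0 y t) := mul_le_mul_of_nonneg_left b4 hxs.le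
      _ = q * b := by rw [hb]; ring
  have h4 : |a - b| ≤ (Real.sqrt lam ^ m + 2 * q) * (a + b) := by
    calc |a - b| ≤ lam ^ (m - (m / 8 + 1 + (m / 8 + 1))) * (a + b) +
          ((Y.Bd m 0 (m / 8 + 1) x t * Y.X 0 y s + Y.X 0 x t * Y.Bd m 0 (m / 8 + 1) y s) +
          (Y.Bd m 0 (m / 8 + 1) x s * Y.X 0 y t + Y.X 0 x s * Y.Bd m 0 (m / 8 + 1) y t)) := h1
      _ ≤ Real.sqrt lam ^ m * (a + b) + ((q * a + q * a) + (q * b + q * b)) := by
          have := mul_le_mul_of_nonneg_right h3 (by linarith : 0 ≤ a + b)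
          linarith
      _ = (Real.sqrt lam ^ m + 2 * q) * (a + b) := by ring
  have h5 : 0 ≤ Real.sqrt lam ^ m := pow_nonneg (Real.sqrt_nonneg _) m
  calc |a - b| ≤ (Real.sqrt lam ^ m + 2 * q) * (a + b) := h4
    _ ≤ (2 * (Real.sqrt lam ^ m + q)) * ((K + 1) * b) := by
        apply mul_le_mul
        · linarith
        · linarith
        · linarith
        · positivity
    _ = 2 * (K + 1) * (Real.sqrt lam ^ m + q) * b := by ring

end Crest.Agent.R143.MixAbsx811
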