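import Crest.Agent.R143.EqdM_811

/-!
# Row 143 (S0194), box R7 for the resampled configuration (helper304)

* `R7m` : box R7 for pairs `(σ, τ)` and the mixed configuration on 811's finite cells of `cm0 hS`:
  all four fields, L2 and L1 form
-/

set_option autoImplicit false

noncomputable section

open scoped Classical

namespace Crest.Agent.R143.MixFx304

open MeasureTheory Set Filter Topology
open Crest.ProbabilityR.Voronoi
open Crest.Agent.R143.B0x346 Crest.Agent.R143.SumScx302 Crest.Agent.R143.PP0x831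
  Crest.Agent.R143.MassPx304 Crest.Agent.R143.MassQx304 Crest.Agent.R143.Mass2x302
  Crest.Agent.R143.Mass3x302 Crest.Agent.R143.Mass4x302 Crest.Agent.R143.Mass5x302
  Crest.Agent.R143.DelGx806 Crest.Agent.R143.DelRx806 Crest.Agent.R143.JColx54
  Crest.Agent.R143.FinCx811 Crest.Agent.R143.EqdMx811 Crest.Agent.R143.Resax778
open Crest.Agent.R143.Mass1x302 hiding ps
open Crest.Agent.R143.Frame1x395 Crest.Agent.R143.Frame2x395 Crest.Agent.R143.Frame3x395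
  Crest.Agent.R143.Frame4x395 Crest.Agent.R143.Frame8x395 Crest.Agent.R143.Frame10x395
open Crest.Agent.R143.Frame5x395 (sd mem_sd th th_spec)
open scoped ENNReal

/-- **box R7, resampled configuration, all four fields, L2 and L1 form** -/
theorem R7m {k : ℝ} (hk : 0 < k) {U : Set ℂ} (hU : Bornology.IsBounded U) :
    ∃ E : ℝ → Sample → ℝ≥0∞, (∀ ε, 0 < ε → Measurable (E ε)) ∧
      Tendsto (fun ε : ℝ => ∫⁻ ω, E ε ω ∂sampleLaw) (𝓝[>] 0) (𝓝 0) ∧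
      Tendsto (fun ε : ℝ => ∫⁻ ω, E ε ω ^ (1 / 2 : ℝ) ∂sampleLaw) (𝓝[>] 0) (𝓝 0) ∧
      (∀ t : ℝ≥0∞, t ≠ 0 → t ≠ ∞ →
        Tendsto (fun ε : ℝ => sampleLaw {ω | t ≤ E ε ω}) (𝓝[>] 0) (𝓝 0)) ∧
      ∀ (ε : ℝ) (ω : Sample) (S : Finset ℂ) (hS : GP (S : Set ℂ)), GP (points ε ω) →
        (∀ z ∈ U, z ∈ points ε ω ↔ z ∈ (S : Set ℂ)) → (∀ v ∈ S, v ∈ U → ¬ OnHull S v) →
        ∀ (e0 : D0 S) (a : D0 S → ℂ), Fld (points ε ω) U (dl e0) a →
        ∀ (O : (Cs hS → ZMod 2) → Finset (Cs hS)), StopSet O →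
        ∀ (g : (Cs hS → ZMod 2) → (Cs hS → ZMod 2) → ℝ)
          (s0 : (Cs hS → ZMod 2) → (Cs hS → ZMod 2) → D0 S),
        (∀ σ τ, 0 ≤ g σ τ) → (∀ σ τ, g σ τ ≤ 1) →
        (∀ σ τ, 0 < g σ τ →
          Gp (cm0 hS) (cfg (rc0 hS) (mix O σ τ)) (s0 σ τ) ∧
          InU (points ε ω) U (cm0 hS) (dl e0) (cfg (rc0 hS) (mix O σ τ)) (s0 σ τ) ∧
          Big (points ε ω) U (cm0 hS) (dl e0) (cfg (rc0 hS) (mix O σ τ)) k (s0 σ τ)) →
        ∑ σ, ∑ τ, ENNReal.ofReal (g σ τ *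
          ‖∑ t ∈ blk (cm0 hS) (cfg (rc0 hS) (mix O σ τ)) (s0 σ τ), a t‖ ^ 2) ≤
            (2 ^ Fintype.card (Cs hS)) ^ 2 * E ε ω ∧
        ∑ σ, ∑ τ, ENNReal.ofReal (g σ τ *
          ‖∑ t ∈ blk (cm0 hS) (cfg (rc0 hS) (mix O σ τ)) (s0 σ τ), a t‖) ≤
            (2 ^ Fintype.card (Cs hS)) ^ 2 * E ε ω ^ (1 / 2 : ℝ) := by
  obtain ⟨E, h1, h2, h3, h4, h5⟩ := R7 hk hU
  refine ⟨E, h1, h2, h3, h4, ?_⟩
  intro ε ω S hS hP hPS hin e0 a ha O hO g s0 hg0 hg1 hs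
  have h := h5 ε ω S hS hP hPS hin e0 a ha ((Cs hS → ZMod 2) × (Cs hS → ZMod 2)) _
    (eqd_cm0_mix hS hO) (fun p => s0 p.1 p.2) (fun p => g p.1 p.2) (fun p => hg0 _ _)
    (fun p => hg1 _ _) fun p hp => by
      obtain ⟨a1, a2, a3⟩ := hs p.1 p.2 hp
      exact mem_bigB a1 a2 a3
  have hc : (Fintype.card ((Cs hS → ZMod 2) × (Cs hS → ZMod 2)) : ℝ≥0∞) =
      (2 ^ Fintype.card (Cs hS)) ^ 2 := by
    rw [Fintype.card_prod, Fintype.card_fun, ZMod.card, pow_two (2 ^ Fintype.card (Cs hS))]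
    push_cast
    rfl
  rw [hc, Fintype.sum_prod_type, Fintype.sum_prod_type] at h
  exact h

end Crest.Agent.R143.MixFx304
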