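import Crest.Agent.R143.Frame4_395

/-!
# Row 143 (S0194), CORE-C (3019, 2908 STEP 4): the exploration, part 1 (helper478)

One step of the exploration on closed maps `CMap` (helper395).

* `kill M d` : the edge of the dart `d` is killed, its two cells are merged
* `TipS M g p` : semantic tip: the leg of the root dart `g` passes through the state `p` in every theta
* `th`, `qq` : amplitude of a face (number of thetas / `nZ`)
* `step_fin`, `step_right`, `step_left`, `step_both` : one step of the exploration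
-/

set_option autoImplicit false

noncomputable section

open scoped Classical

namespace Crest.Agent.R143.Mkx478

open Crest.Agent.R143.Frame1x395 Crest.Agent.R143.Frame2x395 Crest.Agent.R143.Frame3x395
  Crest.Agent.R143.Frame4x395

variable {D C : Type} {M : CMap D C} {x y : D → ZMod 2} {O B : Set D} {g p b d : D}

/-! ### killing an edge -/

/-- kill the edge of the dart `d`; its two cells are merged -/
def kill (M : CMap D C) (d : D) : CMap D C where
  rho := M.rho
  rho3 := M.rho3
  rho_ne := M.rho_ne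
  iota := M.iota
  iota2 := M.iota2
  live := {e | e ∈ M.live ∧ e ≠ d ∧ e ≠ M.iota d}
  iota_live := by
    rintro e ⟨h1, h2, h3⟩
    refine ⟨M.iota_live e h1, ?_, ?_⟩
    · intro h; apply h3; rw [← h, M.iota2]
    · intro h; exact h2 (iota_inj M h)
  iota_ne := fun e he => M.iota_ne e he.1
  cell := fun e => if M.cell e = M.cell d then M.cell (M.rho d) else M.cell e
  cell_iota := by
    rintro e ⟨h1, -, -⟩
    simp only [M.cell_iota e h1]
  dead := by
    intro e he
    by_cases h1 : e ∈ M.live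
    · by_cases h2 : e = d
      · subst h2
        simp only [if_true]
        split_ifs <;> rfl
      · have h3 : e = M.iota d := by
          by_contra h3
          exact he ⟨h1, h2, h3⟩
        have h4 : d ∈ M.live := by
          have := M.iota_live e h1
          rwa [h3, M.iota2] at this
        have e1 := M.cell_iota d h4
        have e2 := cell_rho_iota M h4
        simp only [h3, e1, e2, if_true]
        split_ifs <;> rfl
    · have := M.dead e h1
      simp only [this]
  ex := by
    intro x hd hi hp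
    obtain ⟨χ, hχ⟩ := M.ex x (fun e he => hd e fun h => he h.1) hi hp
    have h0 : x d = 0 := hd d fun h => h.2.1 rfl
    have h1 : χ (M.cell d) = χ (M.cell (M.rho d)) := by
      have := hχ d
      rw [h0] at this
      revert this
      generalize χ (M.cell d) = a
      generalize χ (M.cell (M.rho d)) = b
      revert a b; decide
    have h2 : ∀ e, χ (if M.cell e = M.cell d then M.cell (M.rho d) else M.cell e) =
        χ (M.cell e) := by
      intro e
      split_ifs with h
      · rw [h, h1]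
      · rfl
    refine ⟨χ, fun e => ?_⟩
    rw [h2, h2]
    exact hχ e

theorem kill_isC : IsC (kill M d) O x ↔ IsC M O x ∧ x d = 0 := by
  constructor
  · intro h
    exact ⟨⟨fun e he => h.dead e fun h' => he h'.1, h.iot, h.par⟩, h.dead d fun h' => h'.2.1 rfl⟩
  · rintro ⟨h, h0⟩
    refine ⟨fun e he => ?_, h.iot, h.par⟩
    by_cases h1 : e ∈ M.live
    · by_cases h2 : e = d
      · rw [h2, h0]
      · have h3 : e = M.iota d := by
          by_contra h3
          exact he ⟨h1, h2, h3⟩
        rw [h3, h.iot, h0]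
    · exact h.dead e h1

theorem kill_tr : Tr (kill M d) x B p = Tr M x B p := rfl

theorem kill_fa : Fa (kill M d) g = Fa M g := rfl

theorem kill_bb : BB (kill M d) g b = BB M g b := rfl

theorem kill_isT : IsT (kill M d) g b y ↔ IsT M g b y ∧ y d = 0 := by
  constructor
  · intro h
    have h1 := kill_isC.1 h.c
    exact ⟨⟨h1.1, h.g0, h.g1, h.g2, h.h0, h.h1, h.h2, h.l0, h.l1, h.l2⟩, h1.2⟩
  · rintro ⟨h, h0⟩
    exact ⟨kill_isC.2 ⟨h.c, h0⟩, h.g0, h.g1, h.g2, h.h0, h.h1, h.h2, h.l0, h.l1, h.l2⟩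

/-- equal cells stay equal -/
theorem kill_cell {e e' : D} (h : M.cell e = M.cell e') : (kill M d).cell e = (kill M d).cell e' := by
  show (if M.cell e = M.cell d then M.cell (M.rho d) else M.cell e) =
    if M.cell e' = M.cell d then M.cell (M.rho d) else M.cell e'
  rw [h]

theorem kill_cell_merge : (kill M d).cell d = (kill M d).cell (M.rho d) := by
  have := (kill M d).dead d fun h => h.2.1 rfl
  exact this

/-! ### cells on the two sides of a leg -/

theorem fa_mem {u v : D} (h : u ∈ Fa M v) : v ∈ Fa M u := by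
  rcases h with rfl | rfl | rfl
  · exact fa0 M _
  · right; right; exact (M.rho3 _).symm
  · right; left; exact (M.rho3 _).symm

/-- exactly one side of the face of `d` is `u` -/
theorem sum_ind {u : D} (h : u ∈ Fa M d) :
    (if d = u then (1 : ZMod 2) else 0) + (if M.rho d = u then 1 else 0) +
      (if M.rho (M.rho d) = u then 1 else 0) = 1 := by
  have n1 := M.rho_ne d
  have n2 := rho2_ne M d
  have n3 : M.rho (M.rho d) ≠ M.rho d := M.rho_ne (M.rho d)
  rcases h with rfl | rfl | rfl
  · rw [if_pos rfl, if_neg n1, if_neg n2]; decide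
  · rw [if_neg n1.symm, if_pos rfl, if_neg n3]; decide
  · rw [if_neg n2.symm, if_neg n3.symm, if_pos rfl]; decide

/-- an arc from `g` to `b` : parity at the two faces -/
theorem arc_bb (hc : IsC M (BB M g b) y) (hgb : b ∉ Fa M g) {u u' : D} (hu : u ∈ Fa M g)
    (hu' : u' ∈ Fa M b) (xu : y u = 1) (tu : u' ∈ Tr M y (BB M g b) (M.iota u)) (hd : d ∈ BB M g b) :
    arc M y (BB M g b) (M.iota u) d + arc M y (BB M g b) (M.iota u) (M.rho d) +
      arc M y (BB M g b) (M.iota u) (M.rho (M.rho d)) = 1 := by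
  have hxu : y (M.iota u) = 1 := by rw [hc.iot]; exact xu
  have hinv := bb_inv M g b
  have st : ∀ e ∈ BB M g b, arc M y (BB M g b) (M.iota u) e = if e = u' ∨ e = u then 1 else 0 := by
    intro e he
    have := arc_stop hc subset_rfl hinv hxu tu (Or.inr hu') he
    rwa [M.iota2] at this
  have h1 : M.rho d ∈ BB M g b := (hinv d).2 hd
  have h2 : M.rho (M.rho d) ∈ BB M g b := (hinv _).2 h1
  rw [st _ hd, st _ h1, st _ h2]
  rcases hd with hd | hd
  · have key : ∀ e, e ∈ Fa M g → ((e = u' ∨ e = u) ↔ e = u) := by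
      intro e he
      constructor
      · rintro (h | h)
        · exact absurd h (ne_of_fa hgb he hu')
        · exact h
      · exact Or.inr
    have f1 : M.rho d ∈ Fa M g := (fa_inv M g d).2 hd
    have f2 : M.rho (M.rho d) ∈ Fa M g := (fa_inv M g _).2 f1
    rw [if_congr (key _ hd) rfl rfl, if_congr (key _ f1) rfl rfl, if_congr (key _ f2) rfl rfl]
    apply sum_ind
    have e : Fa M d = Fa M g := by
      rcases hd with rfl | rfl | rfl
      · rfl
      · exact fa_rot M g
      · rw [fa_rot, fa_rot]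
    rw [e]; exact hu
  · have key : ∀ e, e ∈ Fa M b → ((e = u' ∨ e = u) ↔ e = u') := by
      intro e he
      constructor
      · rintro (h | h)
        · exact h
        · exact absurd h.symm (ne_of_fa hgb hu he)
      · exact Or.inl
    have f1 : M.rho d ∈ Fa M b := (fa_inv M b d).2 hd
    have f2 : M.rho (M.rho d) ∈ Fa M b := (fa_inv M b _).2 f1
    rw [if_congr (key _ hd) rfl rfl, if_congr (key _ f1) rfl rfl, if_congr (key _ f2) rfl rfl]
    apply sum_ind
    have e : Fa M d = Fa M b := by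
      rcases hd with rfl | rfl | rfl
      · rfl
      · exact fa_rot M b
      · rw [fa_rot, fa_rot]
    rw [e]; exact hu'

/-- two legs of a theta form a cycle, which separates the cells -/
theorem two_arcs (hc : IsC M (BB M g b) y) (hgb : b ∉ Fa M g) {u v u' v' : D} (hu : u ∈ Fa M g)
    (hv : v ∈ Fa M g) (hu' : u' ∈ Fa M b) (hv' : v' ∈ Fa M b) (xu : y u = 1) (xv : y v = 1)
    (tu : u' ∈ Tr M y (BB M g b) (M.iota u)) (tv : v' ∈ Tr M y (BB M g b) (M.iota v)) :
    ∃ χ : C → ZMod 2, ∀ d, arc M y (BB M g b) (M.iota u) d + arc M y (BB M g b) (M.iota v) d =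
      χ (M.cell d) + χ (M.cell (M.rho d)) := by
  have hxu : y (M.iota u) = 1 := by rw [hc.iot]; exact xu
  have hxv : y (M.iota v) = 1 := by rw [hc.iot]; exact xv
  have hinv := bb_inv M g b
  have hiu : M.iota (M.iota u) ∈ BB M g b := by rw [M.iota2]; exact Or.inl hu
  have hiv : M.iota (M.iota v) ∈ BB M g b := by rw [M.iota2]; exact Or.inl hv
  refine M.ex _ ?_ ?_ ?_
  · intro e he
    have h1 := hc.dead e he
    simp only [arc_le hc subset_rfl hxu h1, arc_le hc subset_rfl hxv h1]
    decide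
  · intro e
    simp only [arc_iot]
  · intro e
    by_cases he : e ∈ BB M g b
    · have e1 := arc_bb hc hgb hu hu' xu tu he
      have e2 := arc_bb hc hgb hv hv' xv tv he
      linear_combination e1 + e2 + z_self 1
    · have e1 := arc_off hc subset_rfl hinv hxu hiu he
      have e2 := arc_off hc subset_rfl hinv hxv hiv he
      linear_combination e1 + e2

/-- **the cells along the leg of `g` in a theta** -/
theorem leg_cells (H : IsT M g b y) (hgb : b ∉ Fa M g) {q : D}
    (hq : q ∈ Tr M y (BB M g b) (M.iota g)) :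
    M.cell q ≠ M.cell g ∧ M.cell q ≠ M.cell (M.rho (M.rho g)) ∧
    M.cell (M.rho q) ≠ M.cell (M.rho g) ∧ M.cell (M.rho q) ≠ M.cell (M.rho (M.rho g)) := by
  have hinv := bb_inv M g b
  have hxg : y (M.iota g) = 1 := by rw [H.c.iot]; exact H.g0
  have hl : g ∈ M.live := H.c.lv H.g0
  have c1 := M.cell_iota g hl
  have c2 := cell_rho_iota M hl
  have n1 := M.rho_ne g
  have n2 := rho2_ne M g
  have n3 : M.rho (M.rho g) ≠ M.rho g := M.rho_ne (M.rho g)
  have st : ∀ {u u' : D}, u ∈ Fa M g → u' ∈ Fa M b → y u = 1 →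
      u' ∈ Tr M y (BB M g b) (M.iota u) → ∀ e ∈ Fa M g,
      arc M y (BB M g b) (M.iota u) e = if e = u then 1 else 0 := by
    intro u u' hu hu' xu tu e he
    have hxu : y (M.iota u) = 1 := by rw [H.c.iot]; exact xu
    have := arc_stop H.c subset_rfl hinv hxu tu (Or.inr hu') (Or.inl he)
    rw [M.iota2] at this
    rw [this]
    congr 1
    apply propext
    constructor
    · rintro (h | h)
      · exact absurd h (ne_of_fa hgb he hu')
      · exact h
    · exact Or.inr
  have s0 := st (fa0 M g) (fa0 M b) H.g0 H.l0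
  have s1 := st (fa1 M g) (fa2 M b) H.g1 H.l1
  have s2 := st (fa2 M g) (fa1 M b) H.g2 H.l2
  obtain ⟨χ, hχ⟩ := two_arcs H.c hgb (fa0 M g) (fa1 M g) (fa0 M b) (fa2 M b) H.g0 H.g1 H.l0 H.l1
  obtain ⟨ψ, hψ⟩ := two_arcs H.c hgb (fa0 M g) (fa2 M g) (fa0 M b) (fa1 M b) H.g0 H.g2 H.l0 H.l2
  have z2 : ∀ a b : ZMod 2, 0 = a + b → a = b := by decide
  have z3 : ∀ a b : ZMod 2, 1 = a + b → a ≠ b := by decide
  have par : ∀ {θ : C → ZMod 2} {u v : D}, y u = 1 → y v = 1 →
      (∀ d, arc M y (BB M g b) (M.iota u) d + arc M y (BB M g b) (M.iota v) d =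
      θ (M.cell d) + θ (M.cell (M.rho d))) → ∀ d, y d = 0 → θ (M.cell d) = θ (M.cell (M.rho d)) := by
    intro θ u v xu xv hθ d hd
    have hxu : y (M.iota u) = 1 := by rw [H.c.iot]; exact xu
    have hxv : y (M.iota v) = 1 := by rw [H.c.iot]; exact xv
    have := hθ d
    rw [arc_le H.c subset_rfl hxu hd, arc_le H.c subset_rfl hxv hd] at this
    exact z2 _ _ this
  have p1 := tr_col H.c subset_rfl hxg (par H.g0 H.g1 hχ) q hq
  have p2 := tr_col H.c subset_rfl hxg (par H.g0 H.g2 hψ) q hq
  rw [c1, c2] at p1 p2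
  -- the values at the root face
  have a0 := hχ g
  have a2 := hχ (M.rho (M.rho g))
  rw [s0 _ (fa0 M g), s1 _ (fa0 M g), if_pos rfl, if_neg n1.symm] at a0
  rw [s0 _ (fa2 M g), s1 _ (fa2 M g), if_neg n2, if_neg n3, M.rho3] at a2
  have b0 := hψ g
  have b1 := hψ (M.rho g)
  rw [s0 _ (fa0 M g), s2 _ (fa0 M g), if_pos rfl, if_neg n2.symm] at b0
  rw [s0 _ (fa1 M g), s2 _ (fa1 M g), if_neg n1, if_neg n3.symm] at b1
  have a0' := z3 _ _ (by rw [← a0]; decide)
  have a2' := z2 _ _ (by rw [← a2]; decide)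
  have b0' := z3 _ _ (by rw [← b0]; decide)
  have b1' := z2 _ _ (by rw [← b1]; decide)
  refine ⟨fun h => ?_, fun h => ?_, fun h => ?_, fun h => ?_⟩
  · rw [h] at p1; exact a0' p1.1
  · rw [h, a2'] at p1; exact a0' p1.1
  · rw [h] at p2; exact b0' p2.2.symm
  · rw [h, ← b1'] at p2; exact b0' p2.2.symm

/-! ### tips -/

/-- **semantic tip**: the leg of the root dart `g` passes through the state `p` -/
structure TipS (M : CMap D C) (g p : D) : Prop where
  th : ∀ b y, b ∉ Fa M g → IsT M g b y → p ∈ Tr M y (BB M g b) (M.iota g)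
  z : ∀ x, IsC M ∅ x → x g = 0 → x (M.rho g) = 0 → x (M.rho (M.rho g)) = 0 → x p = 0
  cl : M.cell p = M.cell (M.rho g)
  cr : M.cell (M.rho p) = M.cell g
  nf : p ∉ Fa M g

/-- the start -/
theorem tip_start (hl : g ∈ M.live) (hn : M.iota g ∉ Fa M g) : TipS M g (M.iota g) where
  th := fun _ _ _ _ => tr_start
  z := fun x hx h0 _ _ => by rw [hx.iot]; exact h0
  cl := M.cell_iota g hl
  cr := cell_rho_iota M hl
  nf := hn

theorem TipS.kill (H : TipS M g p) (d : D) : TipS (kill M d) g p where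
  th := fun b y hb hy => H.th b y hb (kill_isT.1 hy).1
  z := fun x hx => H.z x (kill_isC.1 hx).1
  cl := kill_cell H.cl
  cr := kill_cell H.cr
  nf := H.nf

theorem TipS.occ (H : TipS M g p) (hb : b ∉ Fa M g) (hy : IsT M g b y) : y p = 1 :=
  tr_occ hy.c subset_rfl (by rw [hy.c.iot]; exact hy.g0) p (H.th b y hb hy)

theorem fa_eq {u v : D} (h : u ∈ Fa M v) : Fa M u = Fa M v := by
  rcases h with rfl | rfl | rfl
  · rfl
  · exact fa_rot M v
  · rw [fa_rot, fa_rot]

theorem TipS.nbb (H : TipS M g p) (hbp : b ∉ Fa M p) : p ∉ BB M g b := by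
  rintro (h | h)
  · exact H.nf h
  · exact hbp (fa_mem h)

/-- the two exits -/
theorem TipS.exits (H : TipS M g p) (hb : b ∉ Fa M g) (hbp : b ∉ Fa M p) (hy : IsT M g b y) :
    (y (M.rho p) = 1 ∧ y (M.rho (M.rho p)) = 0 ∧
      M.iota (M.rho p) ∈ Tr M y (BB M g b) (M.iota g)) ∨
    (y (M.rho p) = 0 ∧ y (M.rho (M.rho p)) = 1 ∧
      M.iota (M.rho (M.rho p)) ∈ Tr M y (BB M g b) (M.iota g)) := by
  have h1 := H.nbb hbp
  have h2 := tr_step (H.th b y hb hy) h1
  rcases stp_cases hy.c (H.occ hb hy) h1 with ⟨a1, a2, e⟩ | ⟨a1, a2, e⟩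
  · left; exact ⟨a1, a2, e ▸ h2⟩
  · right; exact ⟨a1, a2, e ▸ h2⟩

/-- the leg does not return to the root face -/
theorem TipS.noret (hb : b ∉ Fa M g) (hy : IsT M g b y) {q : D}
    (hq : q ∈ Tr M y (BB M g b) (M.iota g)) : q ∉ Fa M g := by
  intro h
  have := tr_end hq hy.l0 (Or.inl h) (memh M g b)
  rw [this] at h
  exact hb h

theorem root_occ (hy : IsT M g b y) {q : D} (hq : q ∈ Fa M g) : y q = 1 := by
  rcases hq with rfl | rfl | rfl
  · exact hy.g0
  · exact hy.g1
  · exact hy.g2

/-- third cell of the tip face -/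
abbrev tc (M : CMap D C) (p : D) : C := M.cell (M.rho (M.rho p))

/-- exit on the right: the third cell is neither the right cell nor the opposite one -/
theorem TipS.right_cell (H : TipS M g p) (hb : b ∉ Fa M g) (hbp : b ∉ Fa M p)
    (hy : IsT M g b y) (h : y (M.rho p) = 1) :
    tc M p ≠ M.cell g ∧ tc M p ≠ M.cell (M.rho (M.rho g)) ∧ M.iota (M.rho p) ∉ Fa M g ∧
      M.iota (M.rho (M.rho p)) ∉ Fa M g := by
  rcases H.exits hb hbp hy with ⟨h1, h2, h3⟩ | ⟨h1, h2, h3⟩
  · have hl := hy.c.lv h1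
    have e := M.cell_iota _ hl
    have h4 := leg_cells hy hb h3
    rw [e] at h4
    refine ⟨h4.1, h4.2.1, TipS.noret hb hy h3, fun h5 => ?_⟩
    have := root_occ hy h5
    rw [hy.c.iot, h2] at this
    exact absurd this (by decide)
  · rw [h1] at h; exact absurd h (by decide)

/-- exit on the left: the third cell is neither the left cell nor the opposite one -/
theorem TipS.left_cell (H : TipS M g p) (hb : b ∉ Fa M g) (hbp : b ∉ Fa M p)
    (hy : IsT M g b y) (h : y (M.rho p) = 0) :
    tc M p ≠ M.cell (M.rho g) ∧ tc M p ≠ M.cell (M.rho (M.rho g)) ∧ M.iota (M.rho p) ∉ Fa M g ∧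
      M.iota (M.rho (M.rho p)) ∉ Fa M g := by
  rcases H.exits hb hbp hy with ⟨h1, h2, h3⟩ | ⟨h1, h2, h3⟩
  · rw [h1] at h; exact absurd h (by decide)
  · have hl := hy.c.lv h2
    have e := cell_rho_iota M hl
    have h4 := leg_cells hy hb h3
    rw [e] at h4
    refine ⟨h4.2.2.1, h4.2.2.2, fun h5 => ?_, TipS.noret hb hy h3⟩
    have := root_occ hy h5
    rw [hy.c.iot, h1] at this
    exact absurd this (by decide)

/-! ### amplitudes -/

section amp

variable [Fintype D]

/-- number of thetas with phases -/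
def th (M : CMap D C) (w : ℂ) (g b : D) : ℂ :=
  nT M g b + w * nT M g (M.rho b) + w ^ 2 * nT M g (M.rho (M.rho b))

/-- amplitude -/
def qq (M : CMap D C) (w : ℂ) (g b : D) : ℂ := th M w g b / nZ M g

theorem nZ_pos (g : D) : 0 < nZ M g := by
  unfold nZ
  rw [Finset.card_pos]
  refine ⟨fun _ => 0, Finset.mem_filter.2 ⟨Finset.mem_univ _, ⟨fun _ _ => rfl, fun _ => rfl,
    fun d => ?_⟩, rfl, rfl, rfl⟩⟩
  rw [if_neg (Set.notMem_empty d)]; decide

theorem nT_zero (h : ∀ y, ¬ IsT M g b y) : nT M g b = 0 := by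
  unfold nT
  rw [Finset.card_eq_zero, Finset.filter_eq_empty_iff]
  exact fun y _ => h y

omit [Fintype D] in
theorem off_rho (hb : b ∉ Fa M g) : M.rho b ∉ Fa M g := fun h => hb ((fa_inv M g b).1 h)

theorem th_zero {w : ℂ} (hb : b ∉ Fa M g) (hbp : b ∉ Fa M p)
    (h : ∀ b, b ∉ Fa M g → b ∉ Fa M p → ∀ y, ¬ IsT M g b y) : th M w g b = 0 := by
  unfold th
  rw [nT_zero (h b hb hbp), nT_zero (h _ (off_rho hb) (off_rho hbp)),
    nT_zero (h _ (off_rho (off_rho hb)) (off_rho (off_rho hbp)))]
  simp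

/-- **the exploration ends**: the third cell of the tip face is the opposite one, or a side of the
tip face is a mark -/
theorem step_fin {w : ℂ} (H : TipS M g p)
    (hc : tc M p = M.cell (M.rho (M.rho g)) ∨ M.iota (M.rho p) ∈ Fa M g ∨
      M.iota (M.rho (M.rho p)) ∈ Fa M g ∨ (M.rho p ∉ M.live ∧ M.rho (M.rho p) ∉ M.live) ∨
      (tc M p = M.cell (M.rho g) ∧ M.rho p ∉ M.live) ∨
      (tc M p = M.cell g ∧ M.rho (M.rho p) ∉ M.live))
    (hb : b ∉ Fa M g) (hbp : b ∉ Fa M p) : th M w g b = 0 := by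
  apply th_zero hb hbp
  intro b hb hbp y hy
  rcases z01 (y (M.rho p)) with h | h
  · obtain ⟨h1, h2, h3, h4⟩ := H.left_cell hb hbp hy h
    have h5 : M.rho (M.rho p) ∈ M.live := by
      rcases H.exits hb hbp hy with ⟨a1, -, -⟩ | ⟨-, a2, -⟩
      · rw [h] at a1; exact absurd a1 (by decide)
      · exact hy.c.lv a2
    rcases hc with hc | hc | hc | hc | hc | hc
    · exact h2 hc
    · exact h3 hc
    · exact h4 hc
    · exact hc.2 h5
    · exact h1 hc.1
    · exact hc.2 h5
  · obtain ⟨h1, h2, h3, h4⟩ := H.right_cell hb hbp hy h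
    have h5 : M.rho p ∈ M.live := hy.c.lv h
    rcases hc with hc | hc | hc | hc | hc | hc
    · exact h2 hc
    · exact h3 hc
    · exact h4 hc
    · exact hc.1 h5
    · exact hc.2 h5
    · exact h1 hc.1

/-- thetas and the two killed maps -/
theorem nT_add (H : TipS M g p) (hb : b ∉ Fa M g) (hbp : b ∉ Fa M p) :
    nT M g b = nT (kill M (M.rho p)) g b + nT (kill M (M.rho (M.rho p))) g b := by
  unfold nT
  rw [← Finset.card_union_of_disjoint]
  · congr 1
    ext y
    simp only [Finset.mem_filter, Finset.mem_univ, true_and, Finset.mem_union, kill_isT]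
    constructor
    · intro hy
      rcases H.exits hb hbp hy with ⟨-, a2, -⟩ | ⟨a1, -, -⟩
      · exact Or.inr ⟨hy, a2⟩
      · exact Or.inl ⟨hy, a1⟩
    · rintro (h | h) <;> exact h.1
  · rw [Finset.disjoint_filter]
    intro y _ h1 h2
    rw [kill_isT] at h1 h2
    rcases H.exits hb hbp h1.1 with ⟨a1, -, -⟩ | ⟨-, a2, -⟩
    · rw [h1.2] at a1; exact absurd a1 (by decide)
    · rw [h2.2] at a2; exact absurd a2 (by decide)

theorem th_add {w : ℂ} (H : TipS M g p) (hb : b ∉ Fa M g) (hbp : b ∉ Fa M p) :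
    th M w g b = th (kill M (M.rho p)) w g b + th (kill M (M.rho (M.rho p))) w g b := by
  unfold th
  rw [nT_add H hb hbp, nT_add H (off_rho hb) (off_rho hbp),
    nT_add H (off_rho (off_rho hb)) (off_rho (off_rho hbp))]
  show _ = ((nT (kill M (M.rho p)) g b : ℂ) + w * nT (kill M (M.rho p)) g (M.rho b) +
    w ^ 2 * nT (kill M (M.rho p)) g (M.rho (M.rho b))) +
    (nT (kill M (M.rho (M.rho p))) g b + w * nT (kill M (M.rho (M.rho p))) g (M.rho b) +
    w ^ 2 * nT (kill M (M.rho (M.rho p))) g (M.rho (M.rho b)))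
  push_cast
  ring

/-- in a map with a dead side of the face of `b` there are no thetas -/
theorem th_dead {w : ℂ} {M : CMap D C} (h : ∃ q ∈ Fa M b, q ∉ M.live) : th M w g b = 0 := by
  obtain ⟨q, hq, hl⟩ := h
  have key : ∀ b', Fa M b' = Fa M b → nT M g b' = 0 := by
    intro b' e
    apply nT_zero
    intro y hy
    apply hl
    rw [← e] at hq
    rcases hq with rfl | rfl | rfl
    · exact hy.c.lv hy.h0
    · exact hy.c.lv hy.h1
    · exact hy.c.lv hy.h2
  unfold th
  rw [key b rfl, key (M.rho b) (fa_rot M b), key (M.rho (M.rho b)) (by rw [fa_rot, fa_rot])]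
  simp

/-- the amplitudes of the tip face vanish after the step -/
theorem qq_tip {w : ℂ} {q : D} (hb : b ∈ Fa M p) (hq : q ∈ Fa M p) : qq (kill M q) w g b = 0 := by
  have h1 : q ∈ Fa (kill M q) b := by
    show q ∈ Fa M b
    rw [fa_eq hb]
    exact hq
  have h2 : q ∉ (kill M q).live := fun h => h.2.1 rfl
  unfold qq
  rw [th_dead ⟨q, h1, h2⟩, zero_div]

/-- even configurations which vanish on the root face -/
theorem nZ_kill (g d : D) : nZ (kill M d) g = (Finset.univ.filter fun x => (IsC M ∅ x ∧ x g = 0 ∧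
    x (M.rho g) = 0 ∧ x (M.rho (M.rho g)) = 0) ∧ x d = 0).card := by
  unfold nZ
  congr 1
  ext x
  simp only [Finset.mem_filter, Finset.mem_univ, true_and, kill_isC]
  show (IsC M ∅ x ∧ x d = 0) ∧ x g = 0 ∧ x (M.rho g) = 0 ∧ x (M.rho (M.rho g)) = 0 ↔ _
  tauto

omit [Fintype D] in
/-- both sides have the same value -/
theorem TipS.z2 (H : TipS M g p) (hx : IsC M ∅ x) (h0 : x g = 0) (h1 : x (M.rho g) = 0)
    (h2 : x (M.rho (M.rho g)) = 0) : x (M.rho p) = x (M.rho (M.rho p)) := by
  have h3 := hx.par p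
  rw [if_neg (Set.notMem_empty p), H.z x hx h0 h1 h2] at h3
  revert h3
  generalize x (M.rho p) = a
  generalize x (M.rho (M.rho p)) = b
  revert a b; decide

theorem TipS.nZ_eq (H : TipS M g p) : nZ (Mkx478.kill M (M.rho p)) g =
    nZ (Mkx478.kill M (M.rho (M.rho p))) g := by
  rw [nZ_kill, nZ_kill]
  congr 1
  ext x
  simp only [Finset.mem_filter, Finset.mem_univ, true_and]
  constructor
  · rintro ⟨⟨h, h0, h1, h2⟩, h3⟩
    exact ⟨⟨h, h0, h1, h2⟩, by rw [← H.z2 h h0 h1 h2]; exact h3⟩
  · rintro ⟨⟨h, h0, h1, h2⟩, h3⟩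
    exact ⟨⟨h, h0, h1, h2⟩, by rw [H.z2 h h0 h1 h2]; exact h3⟩

/-- the third cell is one of the cells of the root face -/
def Known (M : CMap D C) (g p : D) : Prop :=
  tc M p = M.cell g ∨ tc M p = M.cell (M.rho g) ∨ tc M p = M.cell (M.rho (M.rho g))

theorem TipS.nZ_known (H : TipS M g p) (hk : Known M g p) :
    nZ (Mkx478.kill M (M.rho p)) g = nZ M g := by
  rw [nZ_kill]
  unfold nZ
  congr 1
  ext x
  simp only [Finset.mem_filter, Finset.mem_univ, true_and]
  constructor
  · exact fun h => h.1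
  · intro h
    refine ⟨h, ?_⟩
    obtain ⟨hx, h0, h1, h2⟩ := h
    obtain ⟨χ, hχ⟩ := M.ex x hx.dead hx.iot
      (fun d => by rw [hx.par d, if_neg (Set.notMem_empty d)])
    have e0 := hχ g
    have e1 := hχ (M.rho g)
    have e2 := hχ (M.rho p)
    rw [h0] at e0
    rw [h1] at e1
    rw [H.cr] at e2
    have z2 : ∀ a b : ZMod 2, 0 = a + b → a = b := by decide
    have e0 := z2 _ _ e0
    have e1 := z2 _ _ e1
    rw [e2]
    rcases hk with hk | hk | hk
    · rw [show M.cell (M.rho (M.rho p)) = M.cell g from hk, z_self]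
    · rw [show M.cell (M.rho (M.rho p)) = M.cell (M.rho g) from hk, e0, z_self]
    · rw [show M.cell (M.rho (M.rho p)) = M.cell (M.rho (M.rho g)) from hk, e0, e1, z_self]

/-- boundary of a cell -/
def dc (M : CMap D C) (c : C) (d : D) : ZMod 2 :=
  (if M.cell d = c then 1 else 0) + if M.cell (M.rho d) = c then 1 else 0

omit [Fintype D] in
theorem dc_isC (c : C) : IsC M ∅ (dc M c) := by
  have hd : ∀ d, d ∉ M.live → dc M c d = 0 := by
    intro d h
    unfold dc
    rw [← M.dead d h, z_self]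
  refine ⟨hd, ?_, ?_⟩
  · intro d
    by_cases h : d ∈ M.live
    · unfold dc
      rw [M.cell_iota d h, cell_rho_iota M h, add_comm]
    · have h1 : M.iota d ∉ M.live := fun h1 => h (by
        have := M.iota_live _ h1
        rwa [M.iota2] at this)
      rw [hd _ h, hd _ h1]
  · intro d
    rw [if_neg (Set.notMem_empty d)]
    unfold dc
    rw [M.rho3]
    generalize (if M.cell d = c then (1 : ZMod 2) else 0) = a1
    generalize (if M.cell (M.rho d) = c then (1 : ZMod 2) else 0) = a2
    generalize (if M.cell (M.rho (M.rho d)) = c then (1 : ZMod 2) else 0) = a3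
    revert a1 a2 a3; decide

theorem TipS.nZ_new (H : TipS M g p) (hk : ¬ Known M g p) :
    nZ M g = 2 * nZ (Mkx478.kill M (M.rho p)) g := by
  have hk' := hk
  unfold Known at hk'
  push Not at hk'
  obtain ⟨k0, k1, k2⟩ := hk'
  set c := tc M p with hc
  have d0 : dc M c g = 0 := by
    unfold dc; rw [if_neg k0.symm, if_neg k1.symm]; decide
  have d1 : dc M c (M.rho g) = 0 := by
    unfold dc; rw [if_neg k1.symm, if_neg k2.symm]; decide
  have d2 : dc M c (M.rho (M.rho g)) = 0 := by
    unfold dc; rw [if_neg k2.symm, M.rho3, if_neg k0.symm]; decide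
  have dp : dc M c (M.rho p) = 1 := by
    unfold dc
    rw [H.cr, if_neg k0.symm, if_pos hc.symm]; decide
  set Z : Finset (D → ZMod 2) := Finset.univ.filter fun x => IsC M ∅ x ∧ x g = 0 ∧
    x (M.rho g) = 0 ∧ x (M.rho (M.rho g)) = 0 with hZ
  have e1 : nZ (Mkx478.kill M (M.rho p)) g = (Z.filter fun x => x (M.rho p) = 0).card := by
    rw [nZ_kill, hZ, Finset.filter_filter]
  have e2 : (Z.filter fun x => ¬ x (M.rho p) = 0).card = (Z.filter fun x => x (M.rho p) = 0).card := by
    have inv : ∀ x ∈ Z, (fun d => x d + dc M c d) ∈ Z := by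
      intro x hx
      obtain ⟨-, h1, h2, h3, h4⟩ := Finset.mem_filter.1 hx
      refine Finset.mem_filter.2 ⟨Finset.mem_univ _, isC_add' h1 (dc_isC c), ?_, ?_, ?_⟩
      · show x g + dc M c g = 0
        rw [h2, d0]; decide
      · show x (M.rho g) + dc M c (M.rho g) = 0
        rw [h3, d1]; decide
      · show x (M.rho (M.rho g)) + dc M c (M.rho (M.rho g)) = 0
        rw [h4, d2]; decide
    have invol : ∀ x : D → ZMod 2, (fun d => (x d + dc M c d) + dc M c d) = x := by
      intro x
      funext d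
      rw [add_assoc, z_self, add_zero]
    refine Finset.card_bij' (fun x _ => fun d => x d + dc M c d)
      (fun x _ => fun d => x d + dc M c d) ?_ ?_ ?_ ?_
    · intro x hx
      obtain ⟨h1, h2⟩ := Finset.mem_filter.1 hx
      refine Finset.mem_filter.2 ⟨inv x h1, ?_⟩
      show x (M.rho p) + dc M c (M.rho p) = 0
      rw [(z_ne' _).1 h2, dp]; decide
    · intro x hx
      obtain ⟨h1, h2⟩ := Finset.mem_filter.1 hx
      refine Finset.mem_filter.2 ⟨inv x h1, ?_⟩
      show ¬ x (M.rho p) + dc M c (M.rho p) = 0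
      rw [h2, dp]; decide
    · intro x _
      exact invol x
    · intro x _
      exact invol x
  have e3 : nZ M g = Z.card := rfl
  have e4 := Finset.card_filter_add_card_filter_not (s := Z) (fun x => x (M.rho p) = 0)
  omega

/-! ### one step -/

/-- **the third cell is the left cell**: the leg leaves on the right -/
theorem step_right {w : ℂ} (H : TipS M g p) (hc : tc M p = M.cell (M.rho g)) (hb : b ∉ Fa M g)
    (hbp : b ∉ Fa M p) : qq M w g b = qq (kill M (M.rho (M.rho p))) w g b := by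
  have h1 : th (kill M (M.rho p)) w g b = 0 := by
    refine th_zero (p := p) (M := kill M (M.rho p)) hb hbp ?_
    intro b hb hbp y hy
    obtain ⟨hy, h0⟩ := kill_isT.1 hy
    exact (H.left_cell hb hbp hy h0).1 hc
  unfold qq
  rw [th_add H hb hbp, h1, zero_add, ← H.nZ_eq, H.nZ_known (Or.inr (Or.inl hc))]

/-- **the third cell is the right cell**: the leg leaves on the left -/
theorem step_left {w : ℂ} (H : TipS M g p) (hc : tc M p = M.cell g) (hb : b ∉ Fa M g)
    (hbp : b ∉ Fa M p) : qq M w g b = qq (kill M (M.rho p)) w g b := by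
  have h1 : th (kill M (M.rho (M.rho p))) w g b = 0 := by
    refine th_zero (p := p) (M := kill M (M.rho (M.rho p))) hb hbp ?_
    intro b hb hbp y hy
    obtain ⟨hy, h0⟩ := kill_isT.1 hy
    rcases z01 (y (M.rho p)) with h | h
    · rcases H.exits hb hbp hy with ⟨a1, -, -⟩ | ⟨-, a2, -⟩
      · rw [h] at a1; exact absurd a1 (by decide)
      · rw [h0] at a2; exact absurd a2 (by decide)
    · exact (H.right_cell hb hbp hy h).1 hc
  unfold qq
  rw [th_add H hb hbp, h1, add_zero, H.nZ_known (Or.inl hc)]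

/-- **a new cell**: the leg turns left or right with probability one half -/
theorem step_both {w : ℂ} (H : TipS M g p) (hk : ¬ Known M g p) (hb : b ∉ Fa M g)
    (hbp : b ∉ Fa M p) : qq M w g b =
      (qq (kill M (M.rho p)) w g b + qq (kill M (M.rho (M.rho p))) w g b) / 2 := by
  have h0 : (nZ (kill M (M.rho p)) g : ℂ) ≠ 0 := by
    exact_mod_cast (nZ_pos (M := kill M (M.rho p)) g).ne'
  have h1 : (nZ M g : ℂ) = 2 * nZ (kill M (M.rho p)) g := by exact_mod_cast H.nZ_new hk
  unfold qq
  rw [th_add H hb hbp, ← H.nZ_eq, h1]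
  field_simp

omit [Fintype D] in
/-- the sides of a tip face with a new cell are live and are not marks -/
theorem new_live (H : TipS M g p) (hk : ¬ Known M g p) :
    M.rho p ∈ M.live ∧ M.rho (M.rho p) ∈ M.live ∧ M.iota (M.rho p) ∉ Fa M g ∧
      M.iota (M.rho (M.rho p)) ∉ Fa M g := by
  unfold Known at hk
  push Not at hk
  obtain ⟨k0, k1, k2⟩ := hk
  have l1 : M.rho p ∈ M.live := by
    by_contra h
    have := M.dead _ h
    rw [H.cr] at this
    exact k0 this.symm
  have l2 : M.rho (M.rho p) ∈ M.live := by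
    by_contra h
    have := M.dead _ h
    rw [M.rho3, H.cl] at this
    exact k1 this
  have key : ∀ q, q ∈ Fa M g → M.cell q = M.cell g ∨ M.cell q = M.cell (M.rho g) ∨
      M.cell q = M.cell (M.rho (M.rho g)) := by
    rintro q (rfl | rfl | rfl)
    · exact Or.inl rfl
    · exact Or.inr (Or.inl rfl)
    · exact Or.inr (Or.inr rfl)
  refine ⟨l1, l2, fun h => ?_, fun h => ?_⟩
  · have h1 := M.cell_iota _ l1
    rcases key _ h with h2 | h2 | h2
    · exact k0 (h1.symm.trans h2)
    · exact k1 (h1.symm.trans h2)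
    · exact k2 (h1.symm.trans h2)
  · have h1 := cell_rho_iota M l2
    rcases key _ ((fa_inv M g _).2 h) with h2 | h2 | h2
    · exact k0 (h1.symm.trans h2)
    · exact k1 (h1.symm.trans h2)
    · exact k2 (h1.symm.trans h2)

end amp

/-! ### the tip after the step -/

/-- the next tip after a turn to the right (`rho² p` killed) -/
theorem TipS.next_right (H : TipS M g p) (hl : M.rho p ∈ M.live) (hm : M.iota (M.rho p) ∉ Fa M g) :
    TipS (Mkx478.kill M (M.rho (M.rho p))) g (M.iota (M.rho p)) := by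
  have e1 := M.cell_iota _ hl
  have e2 := cell_rho_iota M hl
  refine ⟨?_, ?_, ?_, ?_, hm⟩
  · intro b y hb hy
    obtain ⟨hy, h0⟩ := kill_isT.1 hy
    have hbp : b ∉ Fa M p := by
      intro h
      have h1 : M.rho (M.rho p) ∈ Fa M b := by rw [fa_eq h]; exact fa2 M p
      rcases h1 with h1 | h1 | h1
      · rw [h1, hy.h0] at h0; exact absurd h0 (by decide)
      · rw [h1, hy.h1] at h0; exact absurd h0 (by decide)
      · rw [h1, hy.h2] at h0; exact absurd h0 (by decide)
    rcases H.exits hb hbp hy with ⟨-, -, a⟩ | ⟨-, a2, -⟩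
    · exact a
    · rw [h0] at a2; exact absurd a2 (by decide)
  · intro x hx h0 h1 h2
    obtain ⟨hx, h3⟩ := kill_isC.1 hx
    show x (M.iota (M.rho p)) = 0
    rw [hx.iot, H.z2 hx h0 h1 h2, h3]
  · have h1 : (Mkx478.kill M (M.rho (M.rho p))).cell (M.iota (M.rho p)) =
        (Mkx478.kill M (M.rho (M.rho p))).cell (M.rho (M.rho p)) := kill_cell e1
    have h2 := kill_cell_merge (M := M) (d := M.rho (M.rho p))
    rw [M.rho3] at h2
    rw [h1, h2]
    exact kill_cell H.cl
  · exact kill_cell (e2.trans H.cr)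

/-- the next tip after a turn to the left (`rho p` killed) -/
theorem TipS.next_left (H : TipS M g p) (hl : M.rho (M.rho p) ∈ M.live)
    (hm : M.iota (M.rho (M.rho p)) ∉ Fa M g) :
    TipS (Mkx478.kill M (M.rho p)) g (M.iota (M.rho (M.rho p))) := by
  have e1 := M.cell_iota _ hl
  have e2 := cell_rho_iota M hl
  rw [M.rho3] at e1
  refine ⟨?_, ?_, ?_, ?_, hm⟩
  · intro b y hb hy
    obtain ⟨hy, h0⟩ := kill_isT.1 hy
    have hbp : b ∉ Fa M p := by
      intro h
      have h1 : M.rho p ∈ Fa M b := by rw [fa_eq h]; exact fa1 M p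
      rcases h1 with h1 | h1 | h1
      · rw [h1, hy.h0] at h0; exact absurd h0 (by decide)
      · rw [h1, hy.h1] at h0; exact absurd h0 (by decide)
      · rw [h1, hy.h2] at h0; exact absurd h0 (by decide)
    rcases H.exits hb hbp hy with ⟨a1, -, -⟩ | ⟨-, -, a⟩
    · rw [h0] at a1; exact absurd a1 (by decide)
    · exact a
  · intro x hx h0 h1 h2
    obtain ⟨hx, h3⟩ := kill_isC.1 hx
    show x (M.iota (M.rho (M.rho p))) = 0
    rw [hx.iot, ← H.z2 hx h0 h1 h2, h3]
  · exact kill_cell (e1.trans H.cl)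
  · have h1 : (Mkx478.kill M (M.rho p)).cell (M.rho (M.iota (M.rho (M.rho p)))) =
        (Mkx478.kill M (M.rho p)).cell (M.rho (M.rho p)) := kill_cell e2
    have h2 := kill_cell_merge (M := M) (d := M.rho p)
    have h3 : (Mkx478.kill M (M.rho p)).cell (M.rho p) =
        (Mkx478.kill M (M.rho p)).cell g := kill_cell H.cr
    exact h1.trans (h2.symm.trans h3)

end Crest.Agent.R143.Mkx478
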