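import Crest.Agent.R143.Pat_828
import Crest.Agent.R143.CtrH_277
import Crest.Agent.R143.MarkQ_659

/-!
# Row 143 (S0194), block H, H5, box (M): the marks of the ring (helper162)

`K 0, K 1, K 2` = arcs of the ring (cells), `W` = outside (contains the hull cell), `Ap K W k` = giants
of the pattern `k` (277), `AP` = the same for 828's ring loop with three gaps (`ap_eq`).

* `Jn3 M K W` : connected disjoint `K j`, `W`, negative junction triangles `K j, K (j + 2), W`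
  (`jn3`, `rim` : for `Rg3`); **`pos_K`** : a positive rainbow triangle of a pattern has its three
  cells in `K` (from `k33`; any closed map)
* `free_in`, `nx_in` : the free sites and their neighbours are in the disc
* `mks w b j` : corner of the square `w + [0, b]²` opposite to the side `j` (label `j`)
* `mk_ring`, `mk0_ring` : 298's `MK`, 659's `MK0`, every pattern, `lab = id`, `ρ + e ≤ b`, sites of
  `K i` in 277's `Loc`; `mk_near`, `mk0_near` : in 715's `NearS`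
* **`rg_mk`**, **`rg_mk0`** : for the patterns `sP hS σ p N r k` of 828's ring
-/

set_option autoImplicit false

noncomputable section

open scoped Classical

namespace Crest.Agent.R143.MkRx162

open Crest.ProbabilityR.Voronoi
open Crest.Agent.R143.B0x346 Crest.Agent.R143.DelGx806 Crest.Agent.R143.DelRx806
open Crest.Agent.R143.DomAx722 (Dns)
open Crest.Agent.R143.JColx54 (Adj adj_tri adj_tri' adj_tri'' delT_rot)
open Crest.Agent.R143.RE0x723 (Pth Pth.refl Pth.snd Pth.trans Pth.tail Pth.single Pth.symm Pth.mono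
  Pth.ind Pth.self)
open Crest.Agent.R143.K33x877 (fr)
open Crest.Agent.R143.StSx277 Crest.Agent.R143.CtrHx277
open Crest.Agent.R143.Frame1x395 Crest.Agent.R143.Frame10x395
open Crest.Agent.R143.C2SBx395 (Gi Root Free Cq)
open Crest.Agent.R143.C2SCx395 Crest.Agent.R143.K33x137
open Crest.Agent.R143.FinCx811 (Cs rc0 cell_mem)
open Crest.Agent.R143.Frame5x395 (sd mem_sd th th_spec)
open Crest.Agent.R143.MmOx88 (Nx)
open Crest.Agent.R143.MarkHx298 (MK)
open Crest.Agent.R143.MarkQx659 (MK0)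
open Crest.Agent.R143.RB0x838 (LDns)

/-! ### no positive rainbow triangle with a vertex outside -/

section gen

variable {D C : Type} {M : CMap D C} {K : ZMod 3 → Set C} {W : Set C} {i k : ZMod 3}

/-- arcs, outside, junctions -/
structure Jn3 (M : CMap D C) (K : ZMod 3 → Set C) (W : Set C) : Prop where
  con : ∀ j, Cn M (K j)
  wcon : Cn M W
  disj : ∀ i j c, c ∈ K i → c ∈ K j → i = j
  dW : ∀ j c, c ∈ K j → c ∉ W
  jun : ∀ j, ∃ g : D, M.cell g ∈ K j ∧ M.cell (M.rho g) ∈ K (j + 2) ∧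
    M.cell (M.rho (M.rho g)) ∈ W

theorem z3g : ∀ k : ZMod 3, k + 1 ≠ k ∧ k + 2 ≠ k ∧ k + 1 ≠ k + 2 ∧ k + 1 + 2 = k ∧
    k + 1 + 1 = k + 2 ∧ k + 2 + 1 = k ∧ k + 2 + 2 = k + 1 := by decide

/-- **no positive rainbow triangle with a vertex outside** -/
theorem no_pos [Finite D] (J : Jn3 M K W) {d : D} (h0 : M.cell d ∈ K (k + 1))
    (h1 : M.cell (M.rho d) ∈ K (k + 2)) (h2 : M.cell (M.rho (M.rho d)) ∈ W) : False := by
  obtain ⟨g, g0, g1, g2⟩ := J.jun k
  obtain ⟨g', g0', g1', -⟩ := J.jun (k + 1)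
  obtain ⟨e1, e2, e3, e4, -, -, -⟩ := z3g k
  rw [e4] at g1'
  have h := k33 (M := M) (α := K (k + 1) ∪ K k) (β := K (k + 2)) (γ := W)
    ⟨Cn.union (J.con _) (J.con _) g0' g1' (Or.inr ⟨g', rfl, rfl⟩), J.con _, J.wcon, ?_, ?_, ?_⟩
    ⟨Or.inl h0, h1, h2⟩ ⟨Or.inr g0, g1, g2⟩
  · rw [h] at h0
    exact e1 (J.disj _ _ _ h0 g0)
  · refine Set.disjoint_left.2 ?_
    rintro c (hc | hc) hc'
    · exact e3 (J.disj _ _ c hc hc')
    · exact e2 (J.disj _ _ c hc' hc)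
  · refine Set.disjoint_left.2 ?_
    rintro c (hc | hc) hc'
    · exact J.dW _ c hc hc'
    · exact J.dW _ c hc hc'
  · exact Set.disjoint_left.2 fun c hc hc' => J.dW _ c hc hc'

/-- **a positive rainbow triangle of a pattern has its three cells in `K`** -/
theorem pos_K [Finite D] (J : Jn3 M K W) {d : D} (h0 : M.cell d ∈ Ap K W k i)
    (h1 : M.cell (M.rho d) ∈ Ap K W k (i + 1)) (h2 : M.cell (M.rho (M.rho d)) ∈ Ap K W k (i + 2)) :
    M.cell d ∈ K i ∧ M.cell (M.rho d) ∈ K (i + 1) ∧ M.cell (M.rho (M.rho d)) ∈ K (i + 2) := by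
  obtain ⟨e1, e2, e3, e4, e5, e6, e7⟩ := z3g i
  have r3 : M.cell (M.rho (M.rho (M.rho d))) = M.cell d := by rw [M.rho3]
  have r4 : M.cell (M.rho (M.rho (M.rho (M.rho d)))) = M.cell (M.rho d) := by rw [M.rho3]
  rcases h0 with h0 | ⟨rfl, h0⟩
  · rcases h1 with h1 | ⟨rfl, h1⟩
    · rcases h2 with h2 | ⟨rfl, h2⟩
      · exact ⟨h0, h1, h2⟩
      · exfalso
        refine no_pos (k := i + 2) J (d := d) ?_ ?_ h2
        · rw [e6]; exact h0
        · rw [e7]; exact h1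
    · have h2' := h2.resolve_right fun h => e3 h.1.symm
      exfalso
      refine no_pos (k := i + 1) J (d := M.rho (M.rho d)) ?_ ?_ ?_
      · rw [e5]; exact h2'
      · rw [e4, r3]; exact h0
      · rw [r4]; exact h1
  · have h1' := h1.resolve_right fun h => e1 h.1
    have h2' := h2.resolve_right fun h => e2 h.1
    exfalso
    refine no_pos (k := i) J (d := M.rho d) h1' h2' ?_
    rw [r3]; exact h0

end gen

/-! ### the free sites are inside -/

variable {S : Finset ℂ} {hS : GP (S : Set ℂ)} {K : ZMod 3 → Set (Cs hS)} {W : Set (Cs hS)}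
  {i j k : ZMod 3} {c w : ℂ} {L d R0 b e ρ : ℝ}

theorem ldns (hD : Dns S c L d) : LDns S c (L - d) d := ⟨hD.gp, hD.dpos, hD.hole⟩

/-- **the free sites are inside** -/
theorem free_in (hD : Dns S c L d)
    (hW : ∀ c : Cs hS, ∀ v, OnHull S v → c.1 = Quot.mk (hullE S) v → c ∈ W)
    (hr : Rim (rc0 hS) K W) (h0 : 0 ≤ R0) (hin : ∀ i, ∀ v ∈ st K i, ‖v - c‖ ≤ R0)
    (hL : R0 + 4 * d ≤ L) {v : ℂ} (hv : v ∈ fr S (st (Ap K W k))) : ‖v - c‖ < R0 + 2 * d := by
  have hd := hD.dpos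
  by_contra hcon
  push Not at hcon
  obtain ⟨a, b, hab⟩ := exists_hull hD.gp hD.card
  have hb : b ∈ S := by
    obtain ⟨c', hc'⟩ := hab.1
    exact (mem3 hS hc').2.1
  have hp := Xcx372.join_out' hD (pre_far c (by linarith : 0 ≤ R0 + 2 * d))
    (fun z (hz : L - 2 * d ≤ ‖z - c‖) => show R0 + 2 * d ≤ ‖z - c‖ by linarith) hv.1 hb
    ⟨v, hcon, REwx838.self_cell v⟩
    ⟨b, show R0 + 2 * d ≤ ‖b - c‖ by
      have := Xcx372.hull_rad' hD hab
      linarith, REwx838.self_cell b⟩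
  have hfb : b ∈ fr S (st (Ap K W k)) := by
    refine hp.ind (P := fun y => y ∈ fr S (st (Ap K W k))) hv ?_
    intro x y hx hy hxy ih
    rw [fr_pat] at ih ⊢
    refine ⟨hxy.mem.2, fun cy hcy => ⟨fun l hl => ?_, ?_⟩⟩
    · obtain ⟨-, z, hz, hyz⟩ := hy
      have h1 := hin l y ⟨hxy.mem.2, cy, hl, hcy⟩
      have hz' : R0 + 2 * d ≤ ‖z - c‖ := hz
      have h2 := norm_add_le (z - y) (y - c)
      rw [sub_add_sub_cancel, norm_sub_rev z y] at h2
      linarith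
    · obtain ⟨cx, hcx⟩ := cell_ex (hS := hS) hxy
      exact hr cx cy (ed_of_adj hxy hcx hcy) (ih.2 cx hcx)
  have h2 := ((fr_pat k).1 hfb).2 ⟨Quot.mk _ b, cell_mem hS hD.card hb⟩ rfl
  exact h2.2 (hW _ b ⟨a, hab⟩ rfl)

/-- **the free sites and their neighbours are inside** -/
theorem nx_in (hD : Dns S c L d)
    (hW : ∀ c : Cs hS, ∀ v, OnHull S v → c.1 = Quot.mk (hullE S) v → c ∈ W)
    (hr : Rim (rc0 hS) K W) (h0 : 0 ≤ R0) (hin : ∀ i, ∀ v ∈ st K i, ‖v - c‖ ≤ R0)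
    (hL : R0 + 4 * d ≤ L) {x : ℂ}
    (hx : x ∈ fr S (st (Ap K W k)) ∨ Nx S (fr S (st (Ap K W k))) x) : ‖x - c‖ ≤ R0 + 4 * d := by
  have hd := hD.dpos
  rcases hx with hx | ⟨v, hv, hvx⟩
  · have := free_in hD hW hr h0 hin hL hx
    linarith
  · have h1 := free_in hD hW hr h0 hin hL hv
    have h2 := ArmPx930.adj_small (ldns hD) hvx.symm (by linarith)
    have h3 := norm_add_le (x - v) (v - c)
    rw [sub_add_sub_cancel] at h3
    linarith

/-! ### the marks -/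

/-- the corner of the square `w + [0, b]²` opposite to the side `j` -/
def mks (w : ℂ) (b : ℝ) (j : ZMod 3) : ℂ :=
  if j = 0 then ⟨w.re + b, w.im + b⟩ else if j = 1 then w else ⟨w.re + b, w.im⟩

/-- **the side `j` is far from the corner `j`** -/
theorem far_mks {v : ℂ} (hv : v ∈ Loc w b e j) : b - e ≤ ‖v - mks w b j‖ := by
  have r := Complex.abs_re_le_norm (v - mks w b j)
  have q := Complex.abs_im_le_norm (v - mks w b j)
  have key : ∀ {x y : ℝ}, |x| ≤ y → x ≤ y ∧ -y ≤ x := fun h => ⟨(abs_le.1 h).2, (abs_le.1 h).1⟩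
  rw [Complex.sub_re] at r
  rw [Complex.sub_im] at q
  obtain ⟨r1, r2⟩ := key r
  obtain ⟨q1, q2⟩ := key q
  unfold Loc at hv
  revert hv r1 r2 q1 q2
  rcases HullGx715.z3 j with rfl | rfl | rfl <;>
    simp only [mks, if_true, if_false, show (1 : ZMod 3) ≠ 0 by decide,
      show (2 : ZMod 3) ≠ 0 by decide, show (2 : ZMod 3) ≠ 1 by decide, Set.mem_ofPred_eq] <;>
    intro hv r1 r2 q1 q2 <;> first
    | (obtain ⟨v1, v2⟩ := key hv; linarith)
    | (rcases hv with hv | hv <;> obtain ⟨v1, v2⟩ := key hv <;> linarith)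

/-- the three sides are never close together -/
theorem loc3 {v : ZMod 3 → ℂ} (hv : ∀ j, v j ∈ Loc w b e j) (h : ∀ i j, ‖v i - v j‖ < 2 * d)
    (hb : 2 * e + 2 * d ≤ b) : False := by
  have h0 := hv 0
  have h1 := hv 1
  have h2 := hv 2
  unfold Loc at h0 h1 h2
  simp only [if_true, if_false, show (1 : ZMod 3) ≠ 0 by decide,
    show (2 : ZMod 3) ≠ 0 by decide, show (2 : ZMod 3) ≠ 1 by decide, Set.mem_ofPred_eq]
    at h0 h1 h2
  obtain ⟨a1, a2⟩ := abs_le.1 h0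
  obtain ⟨b1, b2⟩ := abs_le.1 h1
  rcases h2 with h2 | h2
  · obtain ⟨c1, c2⟩ := abs_le.1 h2
    have r := (abs_le.1 ((Complex.abs_re_le_norm (v 1 - v 2)).trans (h 1 2).le)).2
    rw [Complex.sub_re] at r
    have q := Complex.abs_re_le_norm (v 1 - v 2)
    rw [Complex.sub_re] at q
    have h' := h 1 2
    have := le_abs_self ((v 1).re - (v 2).re)
    linarith
  · obtain ⟨c1, c2⟩ := abs_le.1 h2
    have q := Complex.abs_im_le_norm (v 2 - v 0)
    rw [Complex.sub_im] at q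
    have h' := h 2 0
    have := le_abs_self ((v 2).im - (v 0).im)
    linarith

/-! ### the ring -/

/-- **no positive rainbow triangle of giants** -/
theorem nr_ring (hD : Dns S c L d) (J : Jn3 (rc0 hS) K W)
    (hloc : ∀ i, ∀ v ∈ st K i, v ∈ Loc w b e i) (hin : ∀ i, ∀ v ∈ st K i, ‖v - c‖ ≤ R0)
    (hL : R0 + 2 * d ≤ L) (hb : 2 * e + 2 * d ≤ b) : ∀ t ∈ delT S, ∀ i,
      ¬ (t.1 ∈ st (Ap K W k) i ∧ t.2.1 ∈ st (Ap K W k) (i + 1) ∧
        t.2.2 ∈ st (Ap K W k) (i + 2)) := by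
  rintro ⟨x, y, z⟩ ht i ⟨h1, h2, h3⟩
  simp only at h1 h2 h3
  have hd := hD.dpos
  obtain ⟨m1, m2, m3⟩ := mem3 hS ht
  set g : D0 S := ⟨(x, y), mem_sd.2 ⟨z, ht⟩⟩ with hg
  have e1 : ((rc0 hS).cell g).1 = Quot.mk (hullE S) x := rfl
  have e2 : ((rc0 hS).cell ((rc0 hS).rho g)).1 = Quot.mk (hullE S) y := rfl
  have e3 : ((rc0 hS).cell ((rc0 hS).rho ((rc0 hS).rho g))).1 = Quot.mk (hullE S) z := by
    show Quot.mk (hullE S) (th S (x, y)) = Quot.mk (hullE S) z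
    rw [th0 hS ht]
  obtain ⟨k1, k2, k3⟩ := pos_K J (d := g) ((st_mem m1 e1).1 h1) ((st_mem m2 e2).1 h2)
    ((st_mem m3 e3).1 h3)
  have axy := adj_tri ht
  have ayz := adj_tri' hS ht
  have azx := adj_tri'' hS ht
  have s1 : x ∈ st K i := ⟨m1, _, k1, e1⟩
  have s2 : y ∈ st K (i + 1) := ⟨m2, _, k2, e2⟩
  have s3 : z ∈ st K (i + 2) := ⟨m3, _, k3, e3⟩
  have l1 : ∀ u ∈ ({x, y, z} : Set ℂ), ‖u - c‖ ≤ R0 := by
    rintro u (rfl | rfl | rfl)
    · exact hin _ _ s1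
    · exact hin _ _ s2
    · exact hin _ _ s3
  have l2 : ∀ u ∈ ({x, y, z} : Set ℂ), ∀ v, Adj S u v → ‖u - v‖ < 2 * d := by
    intro u hu v huv
    rw [norm_sub_rev]
    exact ArmPx930.adj_small (ldns hD) huv (by have := l1 u hu; linarith)
  have l3 : ∀ u ∈ ({x, y, z} : Set ℂ), ∀ v ∈ ({x, y, z} : Set ℂ), ‖u - v‖ < 2 * d := by
    intro u hu v hv
    by_cases huv : u = v
    · rw [huv, sub_self, norm_zero]; linarith
    · refine l2 u hu v ?_
      rcases hu with rfl | rfl | rfl <;> rcases hv with rfl | rfl | rfl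
      · exact absurd rfl huv
      · exact axy
      · exact azx.symm
      · exact axy.symm
      · exact absurd rfl huv
      · exact ayz
      · exact azx
      · exact ayz.symm
      · exact absurd rfl huv
  have key : ∀ j, ∃ u ∈ ({x, y, z} : Set ℂ), u ∈ st K j := by
    intro j
    rcases C2SBx395.z3c i j with rfl | rfl | rfl
    · exact ⟨x, Or.inl rfl, s1⟩
    · exact ⟨y, Or.inr (Or.inl rfl), s2⟩
    · exact ⟨z, Or.inr (Or.inr rfl), s3⟩
  choose v hv1 hv2 using key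
  exact loc3 (v := v) (fun j => hloc j _ (hv2 j)) (fun i j => l3 _ (hv1 i) _ (hv1 j)) hb

/-- a giant next to the free sites is in `K`, hence near its side -/
theorem near_ring (hr : Rim (rc0 hS) K W) (hloc : ∀ i, ∀ v ∈ st K i, v ∈ Loc w b e i)
    (hρ : ρ + e ≤ b) : ∀ x, Nx S (fr S (st (Ap K W k))) x → ∀ j, ‖x - mks w b j‖ < ρ →
      x ∉ st (Ap K W k) j := by
  rintro x ⟨v, hv, hvx⟩ j hlt ⟨hx, cx, hcx, ex⟩
  obtain ⟨cv, hcv⟩ := cell_ex (hS := hS) hvx.symm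
  have h1 := hr cv cx (ed_of_adj hvx.symm hcv ex) (((fr_pat k).1 hv).2 cv hcv)
  have h2 : x ∈ st K j := ⟨hx, cx, hcx.resolve_right fun h => h1 h.2, ex⟩
  have h3 := far_mks (hloc j x h2)
  linarith

/-- **298's `MK` for the patterns of the ring** -/
theorem mk_ring (hD : Dns S c L d) (J : Jn3 (rc0 hS) K W) (hr : Rim (rc0 hS) K W)
    (hW : ∀ c : Cs hS, ∀ v, OnHull S v → c.1 = Quot.mk (hullE S) v → c ∈ W)
    (hloc : ∀ i, ∀ v ∈ st K i, v ∈ Loc w b e i) (h0 : 0 ≤ R0)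
    (hin : ∀ i, ∀ v ∈ st K i, ‖v - c‖ ≤ R0) (hL : R0 + 6 * d ≤ L) (hb : 2 * e + 2 * d ≤ b)
    (hρ : ρ + e ≤ b) (k : ZMod 3) : MK S (st (Ap K W k)) (mks w b) id ρ (2 * d) := by
  have hd := hD.dpos
  refine ⟨hS, nr_ring hD J hloc hin (by linarith) hb, near_ring hr hloc hρ, ?_⟩
  intro x y hxy hx
  have h1 := nx_in hD hW hr h0 hin (by linarith) hx
  rw [norm_sub_rev]
  exact (ArmPx930.adj_small (ldns hD) hxy (by linarith)).le

/-- **659's `MK0` for the patterns of the ring** -/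
theorem mk0_ring (hD : Dns S c L d) (J : Jn3 (rc0 hS) K W) (hr : Rim (rc0 hS) K W)
    (hW : ∀ c : Cs hS, ∀ v, OnHull S v → c.1 = Quot.mk (hullE S) v → c ∈ W)
    (hloc : ∀ i, ∀ v ∈ st K i, v ∈ Loc w b e i) (h0 : 0 ≤ R0)
    (hin : ∀ i, ∀ v ∈ st K i, ‖v - c‖ ≤ R0) (hL : R0 + 4 * d ≤ L) (hb : 2 * e + 2 * d ≤ b)
    (hρ : ρ + e ≤ b) {R1 : ℝ} (hR : ‖c‖ + (R0 + 4 * d) ≤ R1) (hm : ∀ j, ‖mks w b j‖ ≤ R1)
    (k : ZMod 3) : MK0 S (st (Ap K W k)) (mks w b) id ρ R1 := by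
  have hd := hD.dpos
  refine ⟨nr_ring hD J hloc hin (by linarith) hb, near_ring hr hloc hρ, ?_, hm⟩
  intro x hx
  have h1 := nx_in hD hW hr h0 hin (by linarith) hx
  have h2 := norm_add_le (x - c) c
  rw [sub_add_cancel] at h2
  linarith

/-! ### the tiles of the ring -/

/-- sites of the tiles are near the centre of the square -/
theorem in_near {n : ℕ} (hn : 1 ≤ n) {A B h jj : ℝ} (hh : 0 ≤ h) (hAB : A ≤ B) {w v : ℂ}
    {i : ZMod 3} (hv : v - w ∈ HullGx715.NearS n A B h jj i) :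
    ‖v - cen w (h * n)‖ ≤ h * n + 2 * (B + h * jj) := by
  obtain ⟨a, ha, h1, h2⟩ := HullGx715.nearS_coord hn hh hAB hv
  rw [Complex.sub_re] at h1
  rw [Complex.sub_im] at h2
  have key : (0 ≤ (SqPx503.sqW n a).1 ∧ (SqPx503.sqW n a).1 ≤ n) ∧
      0 ≤ (SqPx503.sqW n a).2 ∧ (SqPx503.sqW n a).2 ≤ n := by
    have hn' : (1 : ℤ) ≤ n := by exact_mod_cast hn
    rcases HullGx715.z3 i with rfl | rfl | rfl
    · obtain ⟨c1, c2, c3⟩ := HullGx715.side0 hn ha
      exact ⟨⟨c1, c2⟩, by omega, by omega⟩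
    · obtain ⟨c1, c2, c3⟩ := HullGx715.side1 hn ha
      exact ⟨⟨by omega, by omega⟩, c2, c3⟩
    · obtain ⟨c1, c2, c3⟩ := HullGx715.side2 hn ha
      exact ⟨⟨c1, by omega⟩, by omega, c3⟩
  obtain ⟨⟨k1, k2⟩, k3, k4⟩ := key
  have r1 : (0 : ℝ) ≤ ((SqPx503.sqW n a).1 : ℝ) := by exact_mod_cast k1
  have r2 : ((SqPx503.sqW n a).1 : ℝ) ≤ n := by exact_mod_cast k2
  have r3 : (0 : ℝ) ≤ ((SqPx503.sqW n a).2 : ℝ) := by exact_mod_cast k3
  have r4 : ((SqPx503.sqW n a).2 : ℝ) ≤ n := by exact_mod_cast k4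
  have m1 := mul_nonneg hh r1
  have m2 := mul_le_mul_of_nonneg_left r2 hh
  have m3 := mul_nonneg hh r3
  have m4 := mul_le_mul_of_nonneg_left r4 hh
  obtain ⟨a1, a2⟩ := abs_le.1 h1
  obtain ⟨a3, a4⟩ := abs_le.1 h2
  refine (Complex.norm_le_abs_re_add_abs_im _).trans ?_
  have e1 : (v - cen w (h * n)).re = v.re - (w.re + h * n / 2) := by simp [cen]
  have e2 : (v - cen w (h * n)).im = v.im - (w.im + h * n / 2) := by simp [cen]
  rw [e1, e2]
  have b1 : |v.re - (w.re + h * n / 2)| ≤ h * n / 2 + (B + h * jj) := by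
    rw [abs_le]
    constructor <;> linarith
  have b2 : |v.im - (w.im + h * n / 2)| ≤ h * n / 2 + (B + h * jj) := by
    rw [abs_le]
    constructor <;> linarith
  linarith

theorem mks_cen (hb : 0 ≤ b) (j : ZMod 3) : ‖mks w b j - cen w b‖ ≤ b := by
  refine (Complex.norm_le_abs_re_add_abs_im _).trans ?_
  rw [Complex.sub_re, Complex.sub_im]
  have h1 : |(mks w b j).re - (cen w b).re| ≤ b / 2 := by
    rcases HullGx715.z3 j with rfl | rfl | rfl <;>
      simp only [mks, cen, if_true, if_false, show (1 : ZMod 3) ≠ 0 by decide,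
        show (2 : ZMod 3) ≠ 0 by decide, show (2 : ZMod 3) ≠ 1 by decide] <;>
      rw [abs_le] <;> constructor <;> linarith
  have h2 : |(mks w b j).im - (cen w b).im| ≤ b / 2 := by
    rcases HullGx715.z3 j with rfl | rfl | rfl <;>
      simp only [mks, cen, if_true, if_false, show (1 : ZMod 3) ≠ 0 by decide,
        show (2 : ZMod 3) ≠ 0 by decide, show (2 : ZMod 3) ≠ 1 by decide] <;>
      rw [abs_le] <;> constructor <;> linarith
  linarith

/-- the radius of the region of the free sites and their neighbours -/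
def Rr (c w : ℂ) (b e : ℝ) : ℝ := ‖cen w b - c‖ + (b + 2 * e)

/-- **298's `MK`, the sites of the arcs in the tiles** (715's `NearS`) -/
theorem mk_near (hD : Dns S c L d) (J : Jn3 (rc0 hS) K W) (hr : Rim (rc0 hS) K W)
    (hW : ∀ c : Cs hS, ∀ v, OnHull S v → c.1 = Quot.mk (hullE S) v → c ∈ W) {n : ℕ} (hn : 1 ≤ n)
    {A B h jj : ℝ} (hh : 0 ≤ h) (hAB : A ≤ B) (he : 0 ≤ B + h * jj)
    (hloc : ∀ i, ∀ v ∈ st K i, v - w ∈ HullGx715.NearS n A B h jj i)
    (hL : Rr c w (h * n) (B + h * jj) + 6 * d ≤ L) (hb : 2 * (B + h * jj) + 2 * d ≤ h * n)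
    (hρ : ρ + (B + h * jj) ≤ h * n) (k : ZMod 3) :
    MK S (st (Ap K W k)) (mks w (h * n)) id ρ (2 * d) := by
  have hd := hD.dpos
  have hb0 : 0 ≤ h * n := by positivity
  refine mk_ring hD J hr hW (fun i v hv => loc_near hn hh hAB (hloc i v hv))
    (R0 := Rr c w (h * n) (B + h * jj)) (by unfold Rr; positivity) ?_ hL hb hρ k
  intro i v hv
  have h1 := in_near hn hh hAB (hloc i v hv)
  have h2 := norm_add_le (v - cen w (h * n)) (cen w (h * n) - c)
  rw [sub_add_sub_cancel] at h2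
  unfold Rr
  linarith

/-- **659's `MK0`, the sites of the arcs in the tiles** -/
theorem mk0_near (hD : Dns S c L d) (J : Jn3 (rc0 hS) K W) (hr : Rim (rc0 hS) K W)
    (hW : ∀ c : Cs hS, ∀ v, OnHull S v → c.1 = Quot.mk (hullE S) v → c ∈ W) {n : ℕ} (hn : 1 ≤ n)
    {A B h jj : ℝ} (hh : 0 ≤ h) (hAB : A ≤ B) (he : 0 ≤ B + h * jj)
    (hloc : ∀ i, ∀ v ∈ st K i, v - w ∈ HullGx715.NearS n A B h jj i)
    (hL : Rr c w (h * n) (B + h * jj) + 4 * d ≤ L) (hb : 2 * (B + h * jj) + 2 * d ≤ h * n)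
    (hρ : ρ + (B + h * jj) ≤ h * n) {R1 : ℝ}
    (hR : ‖c‖ + (Rr c w (h * n) (B + h * jj) + 4 * d) ≤ R1) (k : ZMod 3) :
    MK0 S (st (Ap K W k)) (mks w (h * n)) id ρ R1 := by
  have hd := hD.dpos
  have hb0 : 0 ≤ h * n := by positivity
  refine mk0_ring hD J hr hW (fun i v hv => loc_near hn hh hAB (hloc i v hv))
    (R0 := Rr c w (h * n) (B + h * jj)) (by unfold Rr; positivity) ?_ hL hb hρ hR ?_ k
  · intro i v hv
    have h1 := in_near hn hh hAB (hloc i v hv)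
    have h2 := norm_add_le (v - cen w (h * n)) (cen w (h * n) - c)
    rw [sub_add_sub_cancel] at h2
    unfold Rr
    linarith
  · intro j
    have h1 := mks_cen (w := w) hb0 j
    have h2 := norm_add_le (mks w (h * n) j - cen w (h * n)) (cen w (h * n) - c)
    rw [sub_add_sub_cancel] at h2
    have h3 := norm_add_le (mks w (h * n) j - c) c
    rw [sub_add_cancel] at h3
    unfold Rr at hR
    linarith

/-! ### 828's ring -/

section ring

open Crest.Agent.R143.Patx828 Crest.Agent.R143.NonXx592 Crest.Agent.R143.Coarsex166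
  Crest.Agent.R143.Frame8x395 Crest.Agent.R143.R5qx166

theorem ap_eq {D C : Type} (M : CMap D C) (x : D → ZMod 2) (p : D) (N : ℕ) (r : ZMod 3 → ℕ)
    (k : ZMod 3) : AP M x p N r k = Ap (Gc M x p N r) (Wc M x p) k := by
  funext j
  ext c
  constructor
  · intro h
    rcases ap_cases h with h | h
    · exact Or.inl h
    · exact Or.inr h
  · rintro (h | ⟨rfl, h⟩)
    · exact gc_ap h
    · rw [ap_self]
      exact Or.inr h

theorem jn3 {D C : Type} [Fintype D] {M : CMap D C} {σ : C → ZMod 2} {p : D} {N : ℕ}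
    {r : ZMod 3 → ℕ} (X : Rg3 M σ p N r) :
    Jn3 M (Gc M (cfg M σ) p N r) (Wc M (cfg M σ) p) where
  con := fun j => cn_of (X.gc_ccon j)
  wcon := cn_of wc_ccon
  disj := fun _ _ _ h h' => X.disj h h'
  dW := fun _ _ h h' => X.wc_gc h' h
  jun := fun j => ⟨_, X.junction j⟩

theorem rim {D C : Type} [Fintype D] {M : CMap D C} {σ : C → ZMod 2} {p : D} {N : ℕ}
    {r : ZMod 3 → ℕ} (X : Rg3 M σ p N r) :
    Rim M (Gc M (cfg M σ) p N r) (Wc M (cfg M σ) p) := fun _ _ he hc =>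
  X.nb_free (k := 0) (free_ap.2 hc) he

variable {σ : Cs hS → ZMod 2} {p : D0 S} {N : ℕ} {r : ZMod 3 → ℕ}

/-- **298's `MK` for 828's ring** -/
theorem rg_mk (X : Rg3 (rc0 hS) σ p N r) (hD : Dns S c L d)
    (hW : ∀ c : Cs hS, ∀ v, OnHull S v → c.1 = Quot.mk (hullE S) v →
      c ∈ Wc (rc0 hS) (cfg (rc0 hS) σ) p) {n : ℕ} (hn : 1 ≤ n)
    {A B h jj : ℝ} (hh : 0 ≤ h) (hAB : A ≤ B) (he : 0 ≤ B + h * jj)
    (hloc : ∀ i, ∀ v ∈ st (Gc (rc0 hS) (cfg (rc0 hS) σ) p N r) i,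
      v - w ∈ HullGx715.NearS n A B h jj i)
    (hL : Rr c w (h * n) (B + h * jj) + 6 * d ≤ L) (hb : 2 * (B + h * jj) + 2 * d ≤ h * n)
    (hρ : ρ + (B + h * jj) ≤ h * n) (k : ZMod 3) :
    MK S (sP hS σ p N r k) (mks w (h * n)) id ρ (2 * d) := by
  have h1 := mk_near hD (jn3 X) (rim X) hW hn hh hAB he hloc hL hb hρ k
  rw [← ap_eq] at h1
  exact h1

/-- **659's `MK0` for 828's ring** -/
theorem rg_mk0 (X : Rg3 (rc0 hS) σ p N r) (hD : Dns S c L d)
    (hW : ∀ c : Cs hS, ∀ v, OnHull S v → c.1 = Quot.mk (hullE S) v →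
      c ∈ Wc (rc0 hS) (cfg (rc0 hS) σ) p) {n : ℕ} (hn : 1 ≤ n)
    {A B h jj : ℝ} (hh : 0 ≤ h) (hAB : A ≤ B) (he : 0 ≤ B + h * jj)
    (hloc : ∀ i, ∀ v ∈ st (Gc (rc0 hS) (cfg (rc0 hS) σ) p N r) i,
      v - w ∈ HullGx715.NearS n A B h jj i)
    (hL : Rr c w (h * n) (B + h * jj) + 4 * d ≤ L) (hb : 2 * (B + h * jj) + 2 * d ≤ h * n)
    (hρ : ρ + (B + h * jj) ≤ h * n) {R1 : ℝ}
    (hR : ‖c‖ + (Rr c w (h * n) (B + h * jj) + 4 * d) ≤ R1) (k : ZMod 3) :
    MK0 S (sP hS σ p N r k) (mks w (h * n)) id ρ R1 := by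
  have h1 := mk0_near hD (jn3 X) (rim X) hW hn hh hAB he hloc hL hb hρ hR k
  rw [← ap_eq] at h1
  exact h1

end ring

end Crest.Agent.R143.MkRx162
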