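import Crest.Agent.R143.NetU_346
import Crest.Agent.R143.CNT_930

/-!
# Row 143 (S0194): labels near the marks do not matter (583's lemma (MM), note 3730, oriented)

* `HitB S V B i T t` : oriented hit triple of the free sites `V` with the boundary classes `B`
  (346's `HitO` with `V`, `B` instead of `fr S A`, `A`);
* `zB` : the vertex of the unique hit (`0` if it is not unique), `TV` : the observable of the
  position classes, `TV_eq` : `TV = TS` for three giants with `Hex`;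
* `MM` : giants `A` (`Hex`) and position classes `B` with the same free sites, same labels next to
  the free sites except within `r0` of the marks, only labels `≠ lab j` within `ρ` of the mark `j`;
* `MM.hit_iff` : same hits in every colouring without a one-colour arm at the marks;
* `MM.norm_le` : `‖TV S V B z - TS S A z‖ ≤ 18 M P(arm)`.
-/

set_option autoImplicit false

noncomputable section

open scoped Classical

namespace Crest.Agent.R143.MmOx88

open Crest.Agent.R143.B0x346 Crest.Agent.R143.DelGx806 Crest.Agent.R143.DelRx806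
open Crest.Agent.R143.JColx54 (Adj delT_rot adj_tri adj_tri' adj_tri'')
open Crest.Agent.R143.RE0x723 (Pth)
open Crest.Agent.R143.K33x877 (Clu Hit fr)
open Crest.Agent.R143.NetUx346
open Crest.Agent.R143.D3Fx802 (CArm)
open Crest.Agent.R143.CNTx930 (Arm2)
open Crest.Agent.R143.Lawx872 (ConnIn)
open Crest.Agent.R143.Harx315 (pr)

/-- oriented hit of the free sites `V` with the boundary classes `B` -/
def HitB (S : Finset ℂ) (V : Set ℂ) (B : ZMod 3 → Set ℂ) (i : ZMod 3) (T : Set ℂ)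
    (t : ℂ × ℂ × ℂ) : Prop :=
  t ∈ delT S ∧ t.1 ∈ B i ∧ t.2.1 ∈ Clu S (V ∩ T) (B (i + 1)) ∧
    t.2.2 ∈ Clu S (V \ T) (B (i + 2))

theorem hitB_fr {S : Finset ℂ} {A : ZMod 3 → Set ℂ} {i : ZMod 3} {T : Set ℂ} {t : ℂ × ℂ × ℂ} :
    HitB S (fr S A) A i T t ↔ HitO S A i T t := Iff.rfl

/-- the vertex of the unique hit -/
def zB (S : Finset ℂ) (V : Set ℂ) (B : ZMod 3 → Set ℂ) (i : ZMod 3) (T : Set ℂ) : ℂ :=
  if h : ∃! t, HitB S V B i T t then h.choose.1 else 0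

/-- the observable of position classes -/
def TV (S V : Finset ℂ) (B : ZMod 3 → Set ℂ) (z : ℂ → ℂ) : ℂ :=
  3 * ∑ i : ZMod 3, omz i * exC V fun T => z (zB S (V : Set ℂ) B i (T : Set ℂ))

/-- next to the free sites -/
def Nx (S : Finset ℂ) (V : Set ℂ) (x : ℂ) : Prop := ∃ w ∈ V, Adj S x w

/-- chain of `W` from `v` to the foot `c` in the class -/
def Ft (S : Finset ℂ) (W B : Set ℂ) (v c : ℂ) : Prop :=
  c ∈ B ∧ (v = c ∨ ∃ w, Pth S W v w ∧ Adj S w c)

theorem clu_iff {S : Finset ℂ} {W B : Set ℂ} {v : ℂ} : v ∈ Clu S W B ↔ ∃ c, Ft S W B v c := by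
  constructor
  · rintro ⟨x, hx, hp⟩
    by_cases hv : v ∈ B
    · exact ⟨v, hv, Or.inl rfl⟩
    · obtain ⟨u, c, h1, h2, h3, h4⟩ := Pth.exit (Q := fun w => w ∉ B) hp.symm hv (not_not.2 hx)
      refine ⟨c, not_not.1 h4, Or.inr ⟨u, Pth.mono ?_ h1, h2⟩⟩
      rintro w ⟨h5 | h5, h6⟩
      · exact h5
      · exact absurd h5 h6
  · rintro ⟨c, hc, h | ⟨w, h1, h2⟩⟩
    · subst h
      exact ⟨v, hc, Pth.refl (Or.inr hc)⟩
    · refine ⟨c, hc, ?_⟩
      exact (Pth.single (Or.inr hc) h2.symm (Or.inl h1.snd)).trans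
        (Pth.mono Set.subset_union_left h1.symm)

section eqs

variable {S : Finset ℂ} {A B : ZMod 3 → Set ℂ} {i : ZMod 3}

theorem zB_eq (hX : Hex S A) {T : Finset ℂ} (hT : T ⊆ ff S A) :
    zB S (fr S A) A i (T : Set ℂ) = hv S A i (T : Set ℂ) := by
  have h : ∃! t, HitB S (fr S A) A i (T : Set ℂ) t := hX i T hT
  unfold zB
  rw [dif_pos h]
  exact (hv_eq hX hT h.choose_spec.1).symm

theorem coe_ff : ((ff S A : Finset ℂ) : Set ℂ) = fr S A := by
  ext v
  rw [Finset.mem_coe]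
  exact mem_ff

/-- `TV = TS` for three giants -/
theorem TV_eq (hX : Hex S A) (z : ℂ → ℂ) : TV S (ff S A) A z = TS S A z := by
  unfold TV TS
  congr 1
  refine Finset.sum_congr rfl fun i _ => ?_
  rw [Ey_eq hX]
  congr 1
  unfold exC
  congr 1
  refine Finset.sum_congr rfl fun T hT => ?_
  show z (zB S ((ff S A : Finset ℂ) : Set ℂ) A i (T : Set ℂ)) = z (hv S A i (T : Set ℂ))
  rw [coe_ff, zB_eq hX (Finset.mem_powerset.1 hT)]

end eqs

/-! ### arms -/

section arms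

variable {S W : Finset ℂ} {B : Set ℂ} {b c u p : ℂ} {d r R : ℝ}

theorem conn_of_pth {x y : ℂ} (h : Pth S (W : Set ℂ) x y) : ConnIn S W x y := by
  have key : y ∈ (W : Set ℂ) ∧ ConnIn S W x y := by
    refine Pth.ind (P := fun y => y ∈ (W : Set ℂ) ∧ ConnIn S W x y) h
      ⟨h.1, Relation.ReflTransGen.refl⟩ ?_
    intro a a' h1 h2 h3 h4
    exact ⟨h2, h4.2.tail ⟨h3, h4.1, h2⟩⟩
  exact key.2

/-- the chain from a site close to `p` to a foot far from `p` -/
theorem arm_out (hl : ∀ w ∈ W, ∀ x, Adj S w x → ‖w - x‖ ≤ d) (hub : ‖u - b‖ ≤ d)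
    (h : Ft S (W : Set ℂ) B b c) (hu : ‖u - p‖ ≤ r) (hc : R ≤ ‖c - p‖) (hrR : r + d < R) :
    CArm S W p (r + d) (R - d) := by
  obtain ⟨-, h | ⟨w, h1, h2⟩⟩ := h
  · subst h
    have h1 : ‖b - p‖ ≤ ‖u - b‖ + ‖u - p‖ := by
      have := norm_sub_le (u - p) (u - b)
      have e : u - p - (u - b) = b - p := by ring
      rw [e] at this
      linarith
    linarith
  · have h3 : ‖b - p‖ ≤ ‖u - b‖ + ‖u - p‖ := by
      have := norm_sub_le (u - p) (u - b)
      have e : u - p - (u - b) = b - p := by ring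
      rw [e] at this
      linarith
    have h4 := hl w h1.snd c h2
    have h5 : ‖c - p‖ ≤ ‖w - c‖ + ‖w - p‖ := by
      have := norm_sub_le (w - p) (w - c)
      have e : w - p - (w - c) = c - p := by ring
      rw [e] at this
      linarith
    exact ⟨b, w, h1.1, h1.snd, by linarith, by linarith, conn_of_pth h1⟩

/-- the chain from a site far from `p` to a foot close to `p` -/
theorem arm_in (hl : ∀ w ∈ W, ∀ x, Adj S w x → ‖w - x‖ ≤ d) (hub : ‖u - b‖ ≤ d)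
    (h : Ft S (W : Set ℂ) B b c) (hc : ‖c - p‖ ≤ r) (hu : R ≤ ‖u - p‖) (hrR : r + d < R) :
    CArm S W p (r + d) (R - d) := by
  obtain ⟨-, h | ⟨w, h1, h2⟩⟩ := h
  · subst h
    have h1 : ‖u - p‖ ≤ ‖u - b‖ + ‖b - p‖ := by
      have := norm_add_le (u - b) (b - p)
      have e : u - b + (b - p) = u - p := by ring
      rw [e] at this
      linarith
    linarith
  · have h3 : ‖u - p‖ ≤ ‖u - b‖ + ‖b - p‖ := by
      have := norm_add_le (u - b) (b - p)
      have e : u - b + (b - p) = u - p := by ring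
      rw [e] at this
      linarith
    have h4 := hl w h1.snd c h2
    have h5 : ‖w - p‖ ≤ ‖w - c‖ + ‖c - p‖ := by
      have := norm_add_le (w - c) (c - p)
      have e : w - c + (c - p) = w - p := by ring
      rw [e] at this
      linarith
    refine ⟨w, b, h1.snd, h1.1, by linarith, by linarith, ?_⟩
    exact conn_of_pth h1.symm

end arms

/-- **giants `A` and position classes `B` with the same free sites, up to the marks** -/
structure MM (S : Finset ℂ) (A B : ZMod 3 → Set ℂ) {ι : Type*} (m : ι → ℂ) (lab : ι → ZMod 3)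
    (r0 ρ d : ℝ) : Prop where
  gp : GP (S : Set ℂ)
  hex : Hex S A
  /-- no positive rainbow triangle of giants -/
  nr : ∀ t ∈ delT S, ∀ i, ¬ (t.1 ∈ A i ∧ t.2.1 ∈ A (i + 1) ∧ t.2.2 ∈ A (i + 2))
  bV : ∀ i, ∀ x ∈ B i, x ∉ fr S A
  bN : ∀ i, ∀ x ∈ B i, Nx S (fr S A) x
  /-- same labels away from the marks -/
  eqv : ∀ x, x ∉ fr S A → Nx S (fr S A) x → (∀ j, r0 < ‖x - m j‖) → ∀ i, x ∈ A i ↔ x ∈ B i
  /-- the label `lab j` does not occur near the mark `j` -/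
  near : ∀ x, x ∉ fr S A → Nx S (fr S A) x → ∀ j, ‖x - m j‖ < ρ → ∀ i, x ∈ A i ∨ x ∈ B i →
    i ≠ lab j
  len : ∀ x y, Adj S x y → x ∈ fr S A ∨ Nx S (fr S A) x → ‖x - y‖ ≤ d

section det

variable {S : Finset ℂ} {A B : ZMod 3 → Set ℂ} {ι : Type*} {m : ι → ℂ} {lab : ι → ZMod 3}
  {r0 ρ d η : ℝ}

/-- arms of one colour at a mark -/
def BadA (S V : Finset ℂ) {ι : Type*} (m : ι → ℂ) (r0 ρ d η : ℝ) (T : Finset ℂ) : Prop :=
  ∃ j, Arm2 S V (m j) (r0 + d) (η - d) T ∨ Arm2 S V (m j) (η + d) (ρ - d) T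

theorem carm_le {W : Finset ℂ} {p : ℂ} {r R R' : ℝ} (h : CArm S W p r R) (hR : R' ≤ R) :
    CArm S W p r R' := by
  obtain ⟨x, y, h1, h2, h3, h4, h5⟩ := h
  exact ⟨x, y, h1, h2, h3, hR.trans h4, h5⟩

theorem ne3 : ∀ i l : ZMod 3, i ≠ l → l = i + 1 ∨ l = i + 2 := by decide

theorem ne3' : ∀ i l : ZMod 3, i ≠ l → i + 1 ≠ l → l = i + 2 := by decide

theorem ne3'' : ∀ i l : ZMod 3, i ≠ l → i + 2 ≠ l → l = i + 1 := by decide

/-- nothing is within `r0` of a mark -/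
theorem MM.und (H : MM S A B m lab r0 ρ d) (h1 : r0 + d < η) (h2 : η + d < ρ) (hd : 0 ≤ d)
    {E : ZMod 3 → Set ℂ}
    (hE : ∀ x, x ∉ fr S A → Nx S (fr S A) x → ∀ j, ‖x - m j‖ < ρ → ∀ i, x ∈ E i → i ≠ lab j)
    {i : ZMod 3} {T : Finset ℂ} (hT : T ⊆ ff S A) (hbad : ¬ BadA S (ff S A) m r0 ρ d η T)
    {u b v c c' : ℂ} (ht : (u, b, v) ∈ delT S) (hu : u ∈ E i) (hu1 : u ∉ fr S A)
    (hu2 : Nx S (fr S A) u) (hb : Ft S (T : Set ℂ) (E (i + 1)) b c) (hc1 : c ∉ fr S A)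
    (hc2 : Nx S (fr S A) c) (hv : Ft S ((ff S A \ T : Finset ℂ) : Set ℂ) (E (i + 2)) v c')
    (hc1' : c' ∉ fr S A) (hc2' : Nx S (fr S A) c') (j : ι) :
    r0 < ‖u - m j‖ ∧ r0 < ‖c - m j‖ ∧ r0 < ‖c' - m j‖ := by
  have hub : ‖u - b‖ ≤ d := H.len u b (adj_tri ht) (Or.inr hu2)
  have huv : ‖u - v‖ ≤ d := H.len u v (adj_tri'' H.gp ht).symm (Or.inr hu2)
  have hlT : ∀ w ∈ T, ∀ x, Adj S w x → ‖w - x‖ ≤ d :=
    fun w hw x hx => H.len w x hx (Or.inl (mem_ff.1 (hT hw)))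
  have hlT' : ∀ w ∈ ff S A \ T, ∀ x, Adj S w x → ‖w - x‖ ≤ d :=
    fun w hw x hx => H.len w x hx (Or.inl (mem_ff.1 (Finset.sdiff_subset hw)))
  have farb : ∀ k, k = i + 1 → k = lab j → ρ ≤ ‖c - m j‖ := by
    intro k hk hk'
    by_contra hlt
    exact hE c hc1 hc2 j (not_le.1 hlt) (i + 1) hb.1 (hk ▸ hk')
  have farv : ∀ k, k = i + 2 → k = lab j → ρ ≤ ‖c' - m j‖ := by
    intro k hk hk'
    by_contra hlt
    exact hE c' hc1' hc2' j (not_le.1 hlt) (i + 2) hv.1 (hk ▸ hk')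
  refine ⟨?_, ?_, ?_⟩
  · by_contra hcon
    have hle := not_lt.1 hcon
    have hi := hE u hu1 hu2 j (by linarith) i hu
    rcases ne3 i (lab j) hi with e | e
    · refine hbad ⟨j, Or.inl (Or.inl ?_)⟩
      refine carm_le (arm_out hlT hub hb hle (farb _ rfl e.symm) (by linarith)) (by linarith)
    · refine hbad ⟨j, Or.inl (Or.inr ?_)⟩
      refine carm_le (arm_out hlT' huv hv hle (farv _ rfl e.symm) (by linarith)) (by linarith)
  · by_contra hcon
    have hle := not_lt.1 hcon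
    by_cases hη : η ≤ ‖u - m j‖
    · exact hbad ⟨j, Or.inl (Or.inl (arm_in hlT hub hb hle hη h1))⟩
    · have hη' := not_le.1 hη
      have hi := hE u hu1 hu2 j (by linarith) i hu
      have hi1 := hE c hc1 hc2 j (by linarith) (i + 1) hb.1
      have e := ne3' i (lab j) hi hi1
      exact hbad ⟨j, Or.inr (Or.inr (arm_out hlT' huv hv hη'.le (farv _ rfl e.symm) h2))⟩
  · by_contra hcon
    have hle := not_lt.1 hcon
    by_cases hη : η ≤ ‖u - m j‖
    · exact hbad ⟨j, Or.inl (Or.inr (arm_in hlT' huv hv hle hη h1))⟩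
    · have hη' := not_le.1 hη
      have hi := hE u hu1 hu2 j (by linarith) i hu
      have hi1 := hE c' hc1' hc2' j (by linarith) (i + 2) hv.1
      have e := ne3'' i (lab j) hi hi1
      exact hbad ⟨j, Or.inr (Or.inl (arm_out hlT hub hb hη'.le (farb _ rfl e.symm) h2))⟩

theorem inter_eq {T : Finset ℂ} (hT : T ⊆ ff S A) : fr S A ∩ (T : Set ℂ) = (T : Set ℂ) := by
  ext x
  exact ⟨fun h => h.2, fun h => ⟨mem_ff.1 (hT h), h⟩⟩

theorem diff_eq {T : Finset ℂ} : fr S A \ (T : Set ℂ) = ((ff S A \ T : Finset ℂ) : Set ℂ) := by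
  ext x
  rw [Finset.coe_sdiff, coe_ff]

/-- the foot of a chain of free sites which is not trivial is next to the free sites -/
theorem ft_nx {W C : Set ℂ} {b c : ℂ} (hW : W ⊆ fr S A) (h : Ft S W C b c) (hb : b = c → Nx S
    (fr S A) c) : Nx S (fr S A) c := by
  obtain ⟨-, e | ⟨w, h1, h2⟩⟩ := h
  · exact hb e
  · exact ⟨w, hW h1.snd, h2.symm⟩

theorem ft_mem {W C : Set ℂ} {b c : ℂ} (hW : W ⊆ fr S A) (h : Ft S W C b c) :
    b ∈ C ∧ b = c ∨ b ∈ fr S A := by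
  obtain ⟨hc, e | ⟨w, h1, h2⟩⟩ := h
  · exact Or.inl ⟨e ▸ hc, e⟩
  · exact Or.inr (hW h1.1)

theorem not_fr {i : ZMod 3} {x : ℂ} (h : x ∈ A i) : x ∉ fr S A := fun h' => h'.2 i h

/-- **the hits of `A` are the hits of `B`** -/
theorem MM.hit_iff (H : MM S A B m lab r0 ρ d) (h1 : r0 + d < η) (h2 : η + d < ρ) (hd : 0 ≤ d)
    {T : Finset ℂ} (hT : T ⊆ ff S A) (hbad : ¬ BadA S (ff S A) m r0 ρ d η T) (i : ZMod 3)
    (t : ℂ × ℂ × ℂ) : HitB S (fr S A) B i (T : Set ℂ) t ↔ HitO S A i (T : Set ℂ) t := by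
  obtain ⟨u, b, v⟩ := t
  have hW : (T : Set ℂ) ⊆ fr S A := fun x hx => mem_ff.1 (hT hx)
  have hW' : ((ff S A \ T : Finset ℂ) : Set ℂ) ⊆ fr S A := by
    rw [← diff_eq]
    exact Set.sdiff_subset
  unfold HitO HitB
  simp only
  rw [inter_eq hT, diff_eq]
  constructor
  · rintro ⟨ht, hu, hb, hv⟩
    obtain ⟨c, hc⟩ := clu_iff.1 hb
    obtain ⟨c', hc'⟩ := clu_iff.1 hv
    have hund := H.und h1 h2 hd (E := B) (fun x q1 q2 j q3 i q4 => H.near x q1 q2 j q3 i
      (Or.inr q4)) hT hbad ht hu (H.bV _ _ hu) (H.bN _ _ hu) hc (H.bV _ _ hc.1) (H.bN _ _ hc.1)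
      hc' (H.bV _ _ hc'.1) (H.bN _ _ hc'.1)
    refine ⟨ht, ?_, clu_iff.2 ⟨c, ?_, hc.2⟩, clu_iff.2 ⟨c', ?_, hc'.2⟩⟩
    · exact (H.eqv u (H.bV _ _ hu) (H.bN _ _ hu) (fun j => (hund j).1) i).2 hu
    · exact (H.eqv c (H.bV _ _ hc.1) (H.bN _ _ hc.1) (fun j => (hund j).2.1) _).2 hc.1
    · exact (H.eqv c' (H.bV _ _ hc'.1) (H.bN _ _ hc'.1) (fun j => (hund j).2.2) _).2 hc'.1
  · rintro ⟨ht, hu, hb, hv⟩
    obtain ⟨c, hc⟩ := clu_iff.1 hb
    obtain ⟨c', hc'⟩ := clu_iff.1 hv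
    have hub := adj_tri ht
    have hbv := adj_tri' H.gp ht
    have hvu := adj_tri'' H.gp ht
    -- `b` or `v` is free
    have key : b ∈ fr S A ∨ v ∈ fr S A := by
      rcases ft_mem hW hc with ⟨hb1, -⟩ | hb1
      · rcases ft_mem hW' hc' with ⟨hv1, -⟩ | hv1
        · exact absurd ⟨hu, hb1, hv1⟩ (H.nr _ ht i)
        · exact Or.inr hv1
      · exact Or.inl hb1
    have hNu : Nx S (fr S A) u := by
      rcases key with h | h
      · exact ⟨b, h, hub⟩
      · exact ⟨v, h, hvu.symm⟩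
    have hNc : Nx S (fr S A) c := by
      refine ft_nx hW hc fun e => ?_
      rcases key with h | h
      · rw [e] at h
        exact absurd h (not_fr hc.1)
      · exact ⟨v, h, e ▸ hbv⟩
    have hNc' : Nx S (fr S A) c' := by
      refine ft_nx hW' hc' fun e => ?_
      rcases key with h | h
      · exact ⟨b, h, e ▸ hbv.symm⟩
      · rw [e] at h
        exact absurd h (not_fr hc'.1)
    have hund := H.und h1 h2 hd (E := A) (fun x q1 q2 j q3 i q4 => H.near x q1 q2 j q3 i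
      (Or.inl q4)) hT hbad ht hu (not_fr hu) hNu hc (not_fr hc.1) hNc
      hc' (not_fr hc'.1) hNc'
    refine ⟨ht, ?_, clu_iff.2 ⟨c, ?_, hc.2⟩, clu_iff.2 ⟨c', ?_, hc'.2⟩⟩
    · exact (H.eqv u (not_fr hu) hNu (fun j => (hund j).1) i).1 hu
    · exact (H.eqv c (not_fr hc.1) hNc (fun j => (hund j).2.1) _).1 hc.1
    · exact (H.eqv c' (not_fr hc'.1) hNc' (fun j => (hund j).2.2) _).1 hc'.1

/-- **the hit vertex of the position classes is the hit vertex of the giants** -/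
theorem MM.zB_eq (H : MM S A B m lab r0 ρ d) (h1 : r0 + d < η) (h2 : η + d < ρ) (hd : 0 ≤ d)
    {T : Finset ℂ} (hT : T ⊆ ff S A) (hbad : ¬ BadA S (ff S A) m r0 ρ d η T) (i : ZMod 3) :
    zB S (fr S A) B i (T : Set ℂ) = hv S A i (T : Set ℂ) := by
  rw [← MmOx88.zB_eq H.hex hT]
  have e : ∀ t, HitB S (fr S A) B i (T : Set ℂ) t ↔ HitB S (fr S A) A i (T : Set ℂ) t :=
    fun t => H.hit_iff h1 h2 hd hT hbad i t
  have e' : HitB S (fr S A) B i (T : Set ℂ) = HitB S (fr S A) A i (T : Set ℂ) := by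
    funext t
    exact propext (e t)
  unfold zB
  simp only [e']

theorem zB_mem {V : Set ℂ} {i : ZMod 3} {T : Set ℂ} :
    zB S V B i T ∈ S ∨ zB S V B i T = 0 := by
  unfold zB
  by_cases h : ∃! t, HitB S V B i T t
  · rw [dif_pos h]
    exact Or.inl (adj_tri h.choose_spec.1.1).mem.1
  · rw [dif_neg h]
    exact Or.inr rfl

/-- means of functions which agree off an event -/
theorem exC_near {V : Finset ℂ} {f g : Finset ℂ → ℂ} {P : Finset ℂ → Prop} {M : ℝ}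
    (hf : ∀ T ⊆ V, ‖f T‖ ≤ M) (hg : ∀ T ⊆ V, ‖g T‖ ≤ M) (h : ∀ T ⊆ V, ¬ P T → f T = g T) :
    ‖exC V f - exC V g‖ ≤ 2 * M * pr V P := by
  rw [← exC_sub]
  refine (norm_exC_le V _).trans ?_
  have h1 : ∑ T ∈ V.powerset, ‖f T - g T‖ ≤ ∑ T ∈ V.powerset, if P T then 2 * M else 0 := by
    refine Finset.sum_le_sum fun T hT => ?_
    have hT' := Finset.mem_powerset.1 hT
    split_ifs with hP
    · have := norm_sub_le (f T) (g T)
      have := hf T hT'
      have := hg T hT'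
      linarith
    · rw [h T hT' hP, sub_self, norm_zero]
  have h2 : (∑ T ∈ V.powerset, if P T then 2 * M else 0) =
      2 * M * (Crest.Agent.R143.Harx315.nb V P : ℝ) := by
    rw [← Finset.sum_filter, Finset.sum_const, nsmul_eq_mul, mul_comm]
    rfl
  unfold Crest.Agent.R143.Harx315.pr
  rw [← mul_div_assoc]
  exact div_le_div_of_nonneg_right (h1.trans h2.le) (by positivity)

/-- **labels near the marks do not matter** -/
theorem MM.norm_le (H : MM S A B m lab r0 ρ d) (h1 : r0 + d < η) (h2 : η + d < ρ) (hd : 0 ≤ d)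
    {z : ℂ → ℂ} {M : ℝ} (hz : ∀ x ∈ S, ‖z x‖ ≤ M) (hz0 : ‖z 0‖ ≤ M) :
    ‖TV S (ff S A) B z - TS S A z‖ ≤ 18 * M * pr (ff S A) (BadA S (ff S A) m r0 ρ d η) := by
  have hb : ∀ (E : ZMod 3 → Set ℂ) (V T : Set ℂ) (i : ZMod 3), ‖z (zB S V E i T)‖ ≤ M := by
    intro E V T i
    rcases zB_mem (S := S) (B := E) (V := V) (T := T) (i := i) with h | h
    · exact hz _ h
    · rw [h]
      exact hz0
  have h3 : ∀ i : ZMod 3, ‖exC (ff S A) (fun T => z (zB S ((ff S A : Finset ℂ) : Set ℂ) B i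
      (T : Set ℂ))) - Ey S A z i‖ ≤ 2 * M * pr (ff S A) (BadA S (ff S A) m r0 ρ d η) := by
    intro i
    rw [Ey_eq H.hex]
    refine exC_near (fun T _ => hb _ _ _ _) (fun T hT => ?_) (fun T hT hT1 => ?_)
    · rw [← MmOx88.zB_eq H.hex hT]
      exact hb _ _ _ _
    · show z (zB S ((ff S A : Finset ℂ) : Set ℂ) B i (T : Set ℂ)) = z (hv S A i (T : Set ℂ))
      rw [coe_ff, H.zB_eq h1 h2 hd hT hT1]
  unfold TV TS
  rw [← mul_sub, ← Finset.sum_sub_distrib, norm_mul, Complex.norm_ofNat]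
  have h4 : ‖∑ i : ZMod 3, (omz i * exC (ff S A) (fun T => z (zB S ((ff S A : Finset ℂ) : Set ℂ)
      B i (T : Set ℂ))) - omz i * Ey S A z i)‖ ≤
      3 * (2 * M * pr (ff S A) (BadA S (ff S A) m r0 ρ d η)) := by
    refine (norm_sum_le _ _).trans ?_
    have h5 : ∀ i ∈ (Finset.univ : Finset (ZMod 3)), ‖omz i * exC (ff S A) (fun T => z (zB S
        ((ff S A : Finset ℂ) : Set ℂ) B i (T : Set ℂ))) - omz i * Ey S A z i‖ ≤
        2 * M * pr (ff S A) (BadA S (ff S A) m r0 ρ d η) := by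
      intro i _
      rw [← mul_sub, norm_mul, norm_omz, one_mul]
      exact h3 i
    refine (Finset.sum_le_sum h5).trans ?_
    rw [Finset.sum_const, Finset.card_univ, ZMod.card, nsmul_eq_mul]
    push_cast
    exact le_rfl
  linarith

theorem pr_ex {V : Finset ℂ} {κ : Type*} (s : Finset κ) (P : κ → Finset ℂ → Prop) :
    pr V (fun T => ∃ j ∈ s, P j T) ≤ ∑ j ∈ s, pr V (P j) := by
  induction s using Finset.induction_on with
  | empty =>
    unfold Crest.Agent.R143.Harx315.pr Crest.Agent.R143.Harx315.nb Crest.Agent.R143.Harx315.fl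
    simp
  | insert a s ha ih =>
    rw [Finset.sum_insert ha]
    have h1 : pr V (fun T => ∃ j ∈ insert a s, P j T) = pr V (fun T => P a T ∨ ∃ j ∈ s, P j T) := by
      congr 1
      funext T
      refine propext ⟨?_, ?_⟩
      · rintro ⟨j, hj, h⟩
        rcases Finset.mem_insert.1 hj with e | hj
        · exact Or.inl (e ▸ h)
        · exact Or.inr ⟨j, hj, h⟩
      · rintro (h | ⟨j, hj, h⟩)
        · exact ⟨a, Finset.mem_insert_self _ _, h⟩
        · exact ⟨j, Finset.mem_insert_of_mem hj, h⟩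
    rw [h1]
    exact Crest.Agent.R143.Harx315.pr_or_le.trans (by linarith)

/-- the arms at the marks -/
theorem pr_bad [Fintype ι] {V : Finset ℂ} : pr V (BadA S V m r0 ρ d η) ≤
    ∑ j, (pr V (Arm2 S V (m j) (r0 + d) (η - d)) + pr V (Arm2 S V (m j) (η + d) (ρ - d))) := by
  have h := pr_ex (V := V) Finset.univ (fun (j : ι) T =>
    Arm2 S V (m j) (r0 + d) (η - d) T ∨ Arm2 S V (m j) (η + d) (ρ - d) T)
  have e : pr V (BadA S V m r0 ρ d η) = pr V (fun T => ∃ j ∈ (Finset.univ : Finset ι),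
      (Arm2 S V (m j) (r0 + d) (η - d) T ∨ Arm2 S V (m j) (η + d) (ρ - d) T)) := by
    congr 1
    funext T
    exact propext ⟨fun ⟨j, h⟩ => ⟨j, Finset.mem_univ _, h⟩, fun ⟨j, _, h⟩ => ⟨j, h⟩⟩
  rw [e]
  exact h.trans (Finset.sum_le_sum fun j _ => Crest.Agent.R143.Harx315.pr_or_le)

end det

end Crest.Agent.R143.MmOx88
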