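import Crest.Agent.R143.TDat_58
import Crest.Agent.R143.TQ_653

/-!
# Row 143 (S0194), RIG: the template of RIG (helper609)

* `posI : PosI` (58) from 653's `posF`; **`Z0 : TData`**, **`posP0 : PosP Z0`**, `aepos0`
-/

set_option autoImplicit false

noncomputable section

open scoped Classical

namespace Crest.Agent.R143.TZx609

open MeasureTheory Set Filter Topology
open scoped ENNReal
open Crest.ProbabilityR.Voronoi
open Crest.Agent.R143.TplIx204 (DT)
open Crest.Agent.R143.GPosCx348 (NumC)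
open Crest.Agent.R143.PosFx653
open Crest.Agent.R143.RigZdx609 Crest.Agent.R143.RigZx609
open Crest.Agent.R143.TDatx58

/-- 653's data, total in `η`, `ε` -/
def DZ (η ε : ℝ) : DT :=
  if hη : 0 < η then if hε : 0 < ε then Dt η ε hε hη else Dx η 0 0 1 one_pos hη
  else Dx 1 0 0 1 one_pos one_pos

theorem DZ_eq {η ε : ℝ} (hη : 0 < η) (hε : 0 < ε) : DZ η ε = Dt η ε hε hη := by
  unfold DZ
  rw [dif_pos hη, dif_pos hε]

theorem num_Dx {η d a ε : ℝ} (hε : 0 < ε) (hη : 0 < η) : NumC (Dx η d a ε hε hη) η :=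
  ⟨hη, rfl, rfl, rfl, rfl, rfl, rfl⟩

theorem num_DZ (η ε : ℝ) (hη : 0 < η) : NumC (DZ η ε) η := by
  unfold DZ
  rw [dif_pos hη]
  split_ifs
  · exact num_Dx _ _
  · exact num_Dx _ _

/-- **the template family of 653** -/
def posI : PosI where
  D := DZ
  num := num_DZ
  cc := cc
  cb := cb
  c0 := cc_ne
  c1 := cc_le
  b0 := cb_ne
  pos η hη h1 := by
    filter_upwards [posF hη (by linarith)] with ε h he
    obtain ⟨-, -, h2⟩ := h
    obtain ⟨h3, h4, -⟩ := h2 he hη
    have e := DZ_eq hη he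
    rw [e]
    exact ⟨h3, h4⟩

/-- **the template data of RIG** -/
def Z0 : TData := posI.Z

/-- **positivity** -/
theorem posP0 : PosP Z0 := posI.posP

theorem aepos0 (N : ℕ) : ∀ᶠ ε : ℝ in 𝓝[>] 0, ∀ he : 0 < ε, (Z0.raw N he).AePos :=
  posI.aepos N

end Crest.Agent.R143.TZx609
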