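import Crest.Agent.R143.RigY_609
import Crest.Agent.R143.DispZ_840
import Crest.Agent.R143.RigN_377
import Crest.Agent.R143.TZ_609

/-!
# Row 143 (S0194), RIG: the last instance (helper609)

Numbers of 377 (`√h` precision): `a2 u`, `th u`, `rF 13`, `k = 18 et N`, `c = 3`; bad set = complement
of a finite list `L N` of 133's environments; displacement of 840.

* `Mom Z u w C1`, `Qok Z u w C3 Q` : the fields `mom`, `hQ` (854, 377)
* `Inn Z u w L Q` : **the inner input** (597): a.e. in the environments of the list, `QuenX` and `Con`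
* **`op_of`**, **`rig_of_inn`** : `POLY Poly.T Poly.T'`
-/

set_option autoImplicit false

noncomputable section

open scoped Classical

namespace Crest.Agent.R143.RigXx609

open MeasureTheory Set Filter Topology
open scoped ENNReal
open Crest.ProbabilityR.Voronoi
open Crest.Agent.R143.PP0x831 Crest.Agent.R143.B0x346
open Crest.Agent.R143.PolyUx346 (Poly)
open Crest.Agent.R143.AsmNx758 (POLY)
open Crest.Agent.R143.IndLoc3x279 (clr)
open Crest.Agent.R143.InpJx609 (mv)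
open Crest.Agent.R143.RigCx654 (tI)
open Crest.Agent.R143.PolySx854 Crest.Agent.R143.PolyEx854
open Crest.Agent.R143.RigPx854
open Crest.Agent.R143.RigZdx609 Crest.Agent.R143.RigZx609 Crest.Agent.R143.RigYx609
open Crest.Agent.R143.CorEx133 (RU UU SU)
open Crest.Agent.R143.QuenSx654 (SmE)
open Crest.Agent.R143.SpMx169 (fP fP_meas)
open Crest.Agent.R143.R10Nx930 (Con)
open Crest.Agent.R143.RigNx377

/-- field `mom` -/
def Mom (Z : TData) (u : Poly) (w : ZMod 3) (C1 : ℝ) : Prop :=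
  Ev u fun N ε hn he => ∀ l ∈ Finset.range (nT u w N),
    Integrable (fun ω => gW Z u w hn he (cfg ε ω) * ‖VL Z fP u w ε hn l (cfg ε ω)‖ ^ 2)
      sampleLaw ∧
    ∫ ω, gW Z u w hn he (cfg ε ω) * ‖VL Z fP u w ε hn l (cfg ε ω)‖ ^ 2 ∂sampleLaw ≤
      (C1 * hN N) ^ 2 * g0 Z u w hn he

/-- field `hQ` -/
def Qok (Z : TData) (u : Poly) (w : ZMod 3) (C3 : ℝ) (Q : ℕ → ℝ → Sample → ℝ) : Prop :=
  Ev u fun N ε hn he => (∀ ω, 0 ≤ Q N ε ω) ∧ Integrable (Q N ε) sampleLaw ∧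
    ∫ ω, Q N ε ω ∂sampleLaw ≤ C3 ^ 2 * hN N * g0 Z u w hn he

/-- **the inner input** at one `(N, ε, ω)` -/
def InnP (Z : TData) (u : Poly) (w : ZMod 3) (Q : ℕ → ℝ → Sample → ℝ) (e0 : ℝ) (N : ℕ) (ε : ℝ)
    (hn : u.n + 4 ≤ N) (he : 0 < ε) (ω : Sample) : Prop :=
  (∀ E : ℝ, SmE ε ω (UU u) (18 * et N) E →
    QuenX (nT u w N) (rF 13 N) 3 (SU u ε ω) (gW Z u w hn he) (VL Z fP u w ε hn) (tA u w N ε)
      (tB u w N ε) om (tI (mv u ε ω) (w + 1)) E (a2 u e0 N ε) (th u e0 N ε) (Q N ε ω)) ∧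
  ∀ β ⊆ SU u ε ω, 0 < gW Z u w hn he (clr (SU u ε ω) β) →
    ∃ A : ZMod 3 → Set ℂ, Con C0 c0 K0 u ε (hN N) ω A u.P

/-- **the inner input**: a.e. in the environments of the list `L N` -/
def Inn (Z : TData) (u : Poly) (w : ZMod 3) (L : ℕ → List (ℝ × ℝ × ℝ))
    (Q : ℕ → ℝ → Sample → ℝ) : Prop :=
  ∀ e0 : ℝ, Ev u fun N ε hn he => NumW u 13 e0 N → NumE N ε →
    ∀ᵐ ω ∂sampleLaw, CEs u ε (L N) ω → InnP Z u w Q e0 N ε hn he ω

/-- **609's `Op`** -/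
theorem op_of {Z : TData} (hp : PosP Z) {u : Poly} {w : ZMod 3} {C1 C3 : ℝ} (hC1 : 0 ≤ C1)
    {L : ℕ → List (ℝ × ℝ × ℝ)} {Q : ℕ → ℝ → Sample → ℝ} (hm : Mom Z u w C1)
    (hQ : Qok Z u w C3 Q) (hL : ∀ᶠ N in atTop, ∀ t ∈ L N, OkT t) (h : Inn Z u w L Q) :
    Nonempty (Op Z u w) := by
  set bad : ℝ → ℕ → ℝ → Set Sample := fun _ N ε => {ω | ¬ CEs u ε (L N) ω} with hb
  have hbad : ∀ᶠ e0 : ℝ in 𝓝[>] 0, ∀ᶠ N : ℕ in atTop, ∀ η > 0, ∀ᶠ ε : ℝ in 𝓝[>] 0,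
      sampleLaw (bad e0 N ε) ≤ ENNReal.ofReal η := by
    refine Eventually.of_forall fun e0 => ?_
    filter_upwards [hL] with N h1
    exact bad_CEs u h1
  have hE : ∀ᶠ e0 : ℝ in 𝓝[>] 0, Ev u fun N ε hn he => ∀ᵐ ω ∂sampleLaw,
      ω ∉ bad e0 N ε → InnP Z u w Q e0 N ε hn he ω := by
    filter_upwards [ev_num u 13] with e0 h1
    have h2 := h1.and (h e0)
    unfold Ev at h2 ⊢
    filter_upwards [h2] with N h3
    filter_upwards [h3] with ε h4 hn he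
    obtain ⟨⟨h5, h6⟩, h7⟩ := h4 hn he
    filter_upwards [h7 h5 h6] with ω h8 h9
    exact h8 (not_not.1 h9)
  have hcon : ∀ᶠ e0 : ℝ in 𝓝[>] 0, Ev u fun N ε hn he => ∀ᵐ ω ∂sampleLaw,
      ω ∉ bad e0 N ε → ∀ β ⊆ SU u ε ω, 0 < gW Z u w hn he (clr (SU u ε ω) β) →
        ∃ A : ZMod 3 → Set ℂ, Con C0 c0 K0 u ε (hN N) ω A u.P := by
    filter_upwards [hE] with e0 h1
    unfold Ev at h1 ⊢
    filter_upwards [h1] with N h3
    filter_upwards [h3] with ε h4 hn he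
    filter_upwards [h4 hn he] with ω h8 h9
    exact (h8 h9).2
  have hmi : Ev u fun N ε hn he => ∀ l ∈ Finset.range (nT u w N),
      Integrable (fun ω => gW Z u w hn he (cfg ε ω) * ‖VL Z fP u w ε hn l (cfg ε ω)‖ ^ 2)
        sampleLaw := by
    unfold Mom Ev at hm
    unfold Ev
    filter_upwards [hm] with N h3
    filter_upwards [h3] with ε h4 hn he l hl
    exact (h4 hn he l hl).1
  obtain ⟨d1, d2⟩ := DispZx840.disp_op hp (w := w) (C := C0) (c := c0) (K := K0)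
    (zero_le_one.trans C0_ge) c0_pos K0_nonneg hmi hbad hcon
  exact ⟨{
    C1 := C1
    C3 := C3
    C7 := 2 * (13 : ℕ) + 3
    k := fun N => 18 * et N
    r := fun _ N => rF 13 N
    c := 3
    Q := Q
    bad := bad
    a2 := a2 u
    θ := th u
    cd := _
    hC1 := hC1
    hk := fun N => by have := et_pos N; positivity
    hr := rF_hr 13
    mom := hm
    hQ := hQ
    hbad := hbad
    ha := a2_t3 u
    ha0 := a2_ev u
    hθ := th_t3 u
    hθ0 := th_ev u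
    hcd := d1
    quen := by
      filter_upwards [hE] with e0 h1
      unfold Ev at h1 ⊢
      filter_upwards [h1] with N h3
      filter_upwards [h3] with ε h4 hn he
      filter_upwards [h4 hn he] with ω h8 h9
      exact (h8 h9).1
    disp := d2 }⟩

/-- **RIG from the inner input**, any template -/
theorem rig_of_innZ {Z : TData} (hp : PosP Z)
    (hm : ∀ u w, ∃ C1 : ℝ, 0 ≤ C1 ∧ Mom Z u w C1)
    (h : ∀ u w, ∃ (C3 : ℝ) (Q : ℕ → ℝ → Sample → ℝ) (L : ℕ → List (ℝ × ℝ × ℝ)),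
      Qok Z u w C3 Q ∧ (∀ᶠ N in atTop, ∀ t ∈ L N, OkT t) ∧ Inn Z u w L Q) :
    POLY Poly.T Poly.T' := by
  refine rig_of_op hp fun u w => ?_
  obtain ⟨C1, h1, h2⟩ := hm u w
  obtain ⟨C3, Q, L, h3, h4, h5⟩ := h u w
  exact op_of hp h1 h2 h3 h4 h5

/-- **RIG from the inner input** at the template of 653 -/
theorem rig_of_inn
    (hm : ∀ u w, ∃ C1 : ℝ, 0 ≤ C1 ∧ Mom TZx609.Z0 u w C1)
    (h : ∀ u w, ∃ (C3 : ℝ) (Q : ℕ → ℝ → Sample → ℝ) (L : ℕ → List (ℝ × ℝ × ℝ)),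
      Qok TZx609.Z0 u w C3 Q ∧ (∀ᶠ N in atTop, ∀ t ∈ L N, OkT t) ∧ Inn TZx609.Z0 u w L Q) :
    POLY Poly.T Poly.T' := rig_of_innZ TZx609.posP0 hm h

end Crest.Agent.R143.RigXx609
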