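import Crest.Agent.R143.MomI_854
import Crest.Agent.R143.RigX_609

/-!
# Row 143 (S0194), RIG: input `hm` of 609's `rig_of_innZ` (helper854)
-/

set_option autoImplicit false

noncomputable section

namespace Crest.Agent.R143.MomJx854

open Filter Topology
open Crest.Agent.R143.PolyUx346 (Poly)
open Crest.Agent.R143.RigZdx609 Crest.Agent.R143.RigZx609 Crest.Agent.R143.RigXx609
open Crest.Agent.R143.MomIx854

/-- **input `hm` of 609's `rig_of_innZ`** from the quenched input of the full tiles -/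
theorem hm_of {Z : TData} (hp : PosP Z)
    (hA : ∀ N, ∀ᶠ ε : ℝ in 𝓝[>] 0, ∀ he : 0 < ε, (Z.raw N he).AePos)
    {ρ0 d0 : ℝ} (hρ0 : 300 ≤ ρ0) (hd0 : 0 < d0) (hd0' : d0 ≤ 40) (hQ : QFD ρ0 d0)
    (u : Poly) (w : ZMod 3) : ∃ C1 : ℝ, 0 ≤ C1 ∧ Mom Z u w C1 := by
  obtain ⟨C1, h0, h1⟩ := mom hp hA hρ0 hd0 hd0' hQ
  exact ⟨C1, h0, h1 u w⟩

end Crest.Agent.R143.MomJx854
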