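import Crest.Agent.R143.MomJ_854
import Crest.Agent.R143.FinK_894
import Crest.Agent.R143.QFD_490

/-!
# Row 143 (S0194), RIG: the second moments of the tiles, 894's `MomZ` (helper854)
-/

set_option autoImplicit false

noncomputable section

namespace Crest.Agent.R143.MomKx854

/-- **`MomZ`** : no hypotheses -/
theorem momZ : FinKx894.MomZ :=
  MomJx854.hm_of FinJx894.posZ TDatx204.ae (by norm_num) (by norm_num) (by norm_num) QFDx490.qfd

/-- **the row from the data of one environment** -/
theorem leaf_fin (he : FinKx894.EnvZ) : Finx894.Leaf894 := FinKx894.leaf_fin momZ he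

end Crest.Agent.R143.MomKx854
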