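import Crest.Agent.R143.PoisM4A_501

set_option autoImplicit false

noncomputable section

namespace Crest.Agent.R143.PoisM4x501

open MeasureTheory Set ProbabilityTheory
open Crest.ProbabilityR.Voronoi
open Crest.Agent.R143.B0x346 Crest.Agent.R143.PP1x831
open scoped ENNReal NNReal

/-! ### deterministic geometry -/

/-- the cell of a point of the plane at scale `ε` -/
def cellOf (ε : ℝ) (y : ℂ) : Cell := (⌊y.re / ε⌋, ⌊y.im / ε⌋)

lemma floor_bounds {ε x : ℝ} (hε : 0 < ε) :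
    ε * (⌊x / ε⌋ : ℝ) ≤ x ∧ x < ε * ((⌊x / ε⌋ : ℝ) + 1) := by
  have h1 := Int.floor_le (x / ε)
  have h2 := Int.lt_floor_add_one (x / ε)
  rw [le_div_iff₀ hε] at h1
  rw [div_lt_iff₀ hε] at h2
  constructor <;> linarith

/-- floors of close numbers -/
lemma floor_near {ε x y d : ℝ} {n : ℕ} (hε : 0 < ε) (h : |x - y| ≤ d) (hn : d / ε + 1 ≤ n) :
    ⌊y / ε⌋ - n ≤ ⌊x / ε⌋ ∧ ⌊x / ε⌋ ≤ ⌊y / ε⌋ + n := by
  obtain ⟨hx1, hx2⟩ := floor_bounds (x := x) hε
  obtain ⟨hy1, hy2⟩ := floor_bounds (x := y) hε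
  rw [abs_le] at h
  have hd : d + ε ≤ ε * n := by
    have := mul_le_mul_of_nonneg_left hn hε.le
    rw [mul_add, mul_one, mul_div_cancel₀ _ hε.ne'] at this
    linarith
  constructor
  · by_contra hc
    push Not at hc
    have hc' : (⌊x / ε⌋ : ℝ) + 1 ≤ (⌊y / ε⌋ : ℝ) - n := by exact_mod_cast hc
    have := mul_le_mul_of_nonneg_left hc' hε.le
    rw [mul_sub] at this
    linarith
  · by_contra hc
    push Not at hc
    have hc' : (⌊y / ε⌋ : ℝ) + n + 1 ≤ (⌊x / ε⌋ : ℝ) := by exact_mod_cast hc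
    have := mul_le_mul_of_nonneg_left hc' hε.le
    rw [mul_add, mul_add] at this
    linarith

lemma cellOf_near {ε d : ℝ} {x y : ℂ} {n : ℕ} (hε : 0 < ε) (h : ‖x - y‖ ≤ d)
    (hn : d / ε + 1 ≤ n) : cellOf ε x ∈ nbr (cellOf ε y) n := by
  rw [mem_nbr]
  constructor
  · refine floor_near hε ?_ hn
    rw [← Complex.sub_re]
    exact (Complex.abs_re_le_norm _).trans h
  · refine floor_near hε ?_ hn
    rw [← Complex.sub_im]
    exact (Complex.abs_im_le_norm _).trans h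

lemma cellOf_zero (ε : ℝ) : cellOf ε 0 = 0 := by
  simp [cellOf]

lemma point_re (ε : ℝ) (ω : Sample) (k : ℤ × ℤ) (j : ℕ) :
    (point ε ω k j).re = ε * (k.1 + (ω.2 k j 0 : ℝ)) := by
  simp [point]

lemma point_im (ε : ℝ) (ω : Sample) (k : ℤ × ℤ) (j : ℕ) :
    (point ε ω k j).im = ε * (k.2 + (ω.2 k j 1 : ℝ)) := by
  simp [point]

lemma point_mem {ε : ℝ} {ω : Sample} {k : ℤ × ℤ} {j : ℕ} (h : j < ω.1 k) :
    point ε ω k j ∈ points ε ω := ⟨(k.1, k.2, j), h, rfl⟩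

/-- the points of a finite set of cells -/
def pts (ε : ℝ) (ω : Sample) (K : Finset Cell) : Finset ℂ :=
  (K.sigma fun k => Finset.range (ω.1 k)).image fun kj => point ε ω kj.1 kj.2

lemma card_pts (ε : ℝ) (ω : Sample) (K : Finset Cell) :
    (pts ε ω K).card ≤ ∑ k ∈ K, ω.1 k := by
  refine Finset.card_image_le.trans ?_
  simp

/-- a point of the configuration near `y` is in a cell near the cell of `y` -/
lemma mem_pts {ε : ℝ} {ω : Sample} {v y : ℂ} (hε : 0 < ε) (hv : v ∈ points ε ω) {e : ℕ}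
    (h : ‖v - y‖ ≤ 6 * ε * (e + 1)) : v ∈ pts ε ω (nbr (cellOf ε y) (6 * e + 7)) := by
  obtain ⟨⟨k1, k2, j⟩, hp, rfl⟩ := hv
  have hj : j < ω.1 (k1, k2) := hp
  refine Finset.mem_image.2 ⟨⟨(k1, k2), j⟩, ?_, rfl⟩
  rw [Finset.mem_sigma]
  refine ⟨?_, Finset.mem_range.2 hj⟩
  have aux : ∀ (x w : ℝ) (k : ℤ) (t : unitInterval), w = ε * ((k : ℝ) + (t : ℝ)) →
      |w - x| ≤ 6 * ε * (e + 1) →
      ⌊x / ε⌋ - (6 * e + 7 : ℕ) ≤ k ∧ k ≤ ⌊x / ε⌋ + (6 * e + 7 : ℕ) := by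
    intro x w k t hw hwx
    obtain ⟨h1, h2⟩ := floor_bounds (x := x) hε
    have t0 : 0 ≤ ε * (t : ℝ) := mul_nonneg hε.le t.2.1
    have t1 : ε * (t : ℝ) ≤ ε := by
      have := mul_le_mul_of_nonneg_left t.2.2 hε.le
      simpa using this
    rw [mul_add] at hw
    rw [abs_le] at hwx
    constructor
    · by_contra hc
      push Not at hc
      have hc' : (k : ℝ) + 1 ≤ (⌊x / ε⌋ : ℝ) - (6 * e + 7 : ℕ) := by exact_mod_cast hc
      have := mul_le_mul_of_nonneg_left hc' hε.le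
      push_cast at this
      nlinarith
    · by_contra hc
      push Not at hc
      have hc' : (⌊x / ε⌋ : ℝ) + (6 * e + 7 : ℕ) + 1 ≤ (k : ℝ) := by exact_mod_cast hc
      have := mul_le_mul_of_nonneg_left hc' hε.le
      push_cast at this
      nlinarith
  rw [mem_nbr]
  constructor
  · refine aux y.re (point ε ω (k1, k2) j).re k1 (ω.2 (k1, k2) j 0) (point_re ε ω (k1, k2) j) ?_
    rw [← Complex.sub_re]
    exact (Complex.abs_re_le_norm _).trans h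
  · refine aux y.im (point ε ω (k1, k2) j).im k2 (ω.2 (k1, k2) j 1) (point_im ε ω (k1, k2) j) ?_
    rw [← Complex.sub_im]
    exact (Complex.abs_im_le_norm _).trans h

/-- there is a point of the configuration near `y` -/
lemma near {ε : ℝ} {ω : Sample} {M : ℕ} (hε : 0 < ε) (y : ℂ)
    (h : eT M ω.1 (cellOf ε y) < M) :
    ∃ v ∈ points ε ω, ‖y - v‖ ≤ 2 * ε * (eT M ω.1 (cellOf ε y) + 1) := by
  obtain ⟨k, hk, hN⟩ := exists_occ h
  refine ⟨point ε ω k 0, point_mem hN, ?_⟩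
  rw [mem_nbr] at hk
  have aux : ∀ (x w : ℝ) (k : ℤ) (t : unitInterval), w = ε * ((k : ℝ) + (t : ℝ)) →
      (⌊x / ε⌋ - (eT M ω.1 (cellOf ε y) : ℤ) ≤ k ∧ k ≤ ⌊x / ε⌋ + (eT M ω.1 (cellOf ε y) : ℤ)) →
      |x - w| ≤ ε * (eT M ω.1 (cellOf ε y) + 1) := by
    intro x w k t hw hk
    obtain ⟨h1, h2⟩ := floor_bounds (x := x) hε
    have t0 : 0 ≤ ε * (t : ℝ) := mul_nonneg hε.le t.2.1
    have t1 : ε * (t : ℝ) ≤ ε := by
      have := mul_le_mul_of_nonneg_left t.2.2 hε.le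
      simpa using this
    rw [mul_add] at hw
    have k1 : (⌊x / ε⌋ : ℝ) - (eT M ω.1 (cellOf ε y) : ℝ) ≤ (k : ℝ) := by exact_mod_cast hk.1
    have k2 : (k : ℝ) ≤ (⌊x / ε⌋ : ℝ) + (eT M ω.1 (cellOf ε y) : ℝ) := by exact_mod_cast hk.2
    have k1' := mul_le_mul_of_nonneg_left k1 hε.le
    have k2' := mul_le_mul_of_nonneg_left k2 hε.le
    rw [abs_le]
    constructor <;> nlinarith
  have hre : |(y - point ε ω k 0).re| ≤ ε * (eT M ω.1 (cellOf ε y) + 1) := by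
    rw [Complex.sub_re]
    exact aux y.re _ k.1 (ω.2 k 0 0) (point_re ε ω k 0) hk.1
  have him : |(y - point ε ω k 0).im| ≤ ε * (eT M ω.1 (cellOf ε y) + 1) := by
    rw [Complex.sub_im]
    exact aux y.im _ k.2 (ω.2 k 0 1) (point_im ε ω k 0) hk.2
  have := Complex.norm_le_abs_re_add_abs_im (y - point ε ω k 0)
  linarith

lemma in_cell {ε : ℝ} {ω : Sample} {M : ℕ} (hε : 0 < ε) {y a : ℂ}
    (h : eT M ω.1 (cellOf ε y) < M) (hy : y ∈ voronoiCell (points ε ω) a) :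
    ‖y - a‖ ≤ 2 * ε * (eT M ω.1 (cellOf ε y) + 1) := by
  obtain ⟨v, hv, hyv⟩ := near hε y h
  exact (hy v hv).trans hyv

lemma self_mem (S : Set ℂ) (a : ℂ) : a ∈ voronoiCell S a := by
  intro w _
  simp

/-- star-shaped -/
lemma star {S : Set ℂ} {a y : ℂ} (hy : y ∈ voronoiCell S a) {t : ℝ} (h0 : 0 ≤ t) (h1 : t ≤ 1) :
    a + (t : ℂ) * (y - a) ∈ voronoiCell S a := by
  intro w hw
  have e1 : ‖a + (t : ℂ) * (y - a) - a‖ = t * ‖y - a‖ := by
    rw [add_sub_cancel_left, norm_mul, Complex.norm_real, Real.norm_eq_abs, abs_of_nonneg h0]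
  have e2 : ‖y - (a + (t : ℂ) * (y - a))‖ = (1 - t) * ‖y - a‖ := by
    rw [show y - (a + (t : ℂ) * (y - a)) = ((1 - t : ℝ) : ℂ) * (y - a) by push_cast; ring,
      norm_mul, Complex.norm_real, Real.norm_eq_abs, abs_of_nonneg (by linarith)]
  have h2 := hy w hw
  have h3 : ‖y - w‖ ≤ ‖y - (a + (t : ℂ) * (y - a))‖ + ‖a + (t : ℂ) * (y - a) - w‖ :=
    norm_sub_le_norm_sub_add_norm_sub _ _ _
  rw [e1]
  rw [e2] at h3
  linarith

/-- the cells of points in the good region are bounded -/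
lemma cell_bdd {ε : ℝ} {ω : Sample} {M L : ℕ} (hε : 0 < ε)
    (hM : ∀ k ∈ nbr 0 L, eT M ω.1 k < M) {a : ℂ}
    (ha : (‖a‖ + 2 * ε * (M + 1)) / ε + 1 ≤ L) {y : ℂ} (hy : y ∈ voronoiCell (points ε ω) a) :
    ‖y - a‖ ≤ 2 * ε * M := by
  by_contra hc
  push Not at hc
  have hd0 : 0 < ‖y - a‖ := lt_of_le_of_lt (by positivity) hc
  set t : ℝ := min 1 (2 * ε * (M + 1) / ‖y - a‖) with ht
  have ht0 : 0 ≤ t := le_min (by norm_num) (by positivity)
  have ht1 : t ≤ 1 := min_le_left _ _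
  have hmem := star hy ht0 ht1
  set y' := a + (t : ℂ) * (y - a) with hy'
  have e1 : ‖y' - a‖ = t * ‖y - a‖ := by
    rw [hy', add_sub_cancel_left, norm_mul, Complex.norm_real, Real.norm_eq_abs,
      abs_of_nonneg ht0]
  have e2 : ‖y' - a‖ ≤ 2 * ε * (M + 1) := by
    rw [e1]
    calc t * ‖y - a‖ ≤ 2 * ε * (M + 1) / ‖y - a‖ * ‖y - a‖ :=
          mul_le_mul_of_nonneg_right (min_le_right _ _) hd0.le
      _ = 2 * ε * (M + 1) := div_mul_cancel₀ _ hd0.ne'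
  have e3 : 2 * ε * M < ‖y' - a‖ := by
    rw [e1, ht]
    rcases le_total 1 (2 * ε * (M + 1) / ‖y - a‖) with h | h
    · rw [min_eq_left h, one_mul]; exact hc
    · rw [min_eq_right h, div_mul_cancel₀ _ hd0.ne']
      nlinarith
  have hcell : cellOf ε y' ∈ nbr 0 L := by
    rw [← cellOf_zero ε]
    refine cellOf_near hε ?_ ha
    rw [sub_zero]
    calc ‖y'‖ = ‖(y' - a) + a‖ := by rw [sub_add_cancel]
      _ ≤ ‖y' - a‖ + ‖a‖ := norm_add_le _ _
      _ ≤ ‖a‖ + 2 * ε * (M + 1) := by linarith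
  have hlt := hM _ hcell
  have h4 := in_cell hε hlt hmem
  have h5 : (eT M ω.1 (cellOf ε y') : ℝ) + 1 ≤ M := by exact_mod_cast hlt
  have h6 := mul_le_mul_of_nonneg_left h5 (by positivity : 0 ≤ 2 * ε)
  linarith

/-- the triple `(a, b, c)` is charged to a cell -/
lemma charge {ε : ℝ} {ω : Sample} {M L n : ℕ} (hε : 0 < ε)
    (hM : ∀ k ∈ nbr 0 L, eT M ω.1 k < M) {z : ℂ} {ρ : ℝ}
    (hn : ρ / ε + 8 * M + 1 ≤ n) (hL : ‖z‖ / ε + 1 + n + 6 * M + 7 ≤ L) {a b c : ℂ}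
    (hD : Del (points ε ω) a b c)
    (hW : ((voronoiCell (points ε ω) a ∪ voronoiCell (points ε ω) b ∪
      voronoiCell (points ε ω) c) ∩ Metric.ball z ρ).Nonempty) :
    ∃ k ∈ nbr (cellOf ε z) n,
      Metric.ediam (voronoiCell (points ε ω) a) ≤ ENNReal.ofReal (4 * ε * (eT M ω.1 k + 1)) ∧
      a ∈ pts ε ω (nbr k (6 * eT M ω.1 k + 7)) ∧ b ∈ pts ε ω (nbr k (6 * eT M ω.1 k + 7)) ∧
      c ∈ pts ε ω (nbr k (6 * eT M ω.1 k + 7)) := by
  obtain ⟨haS, hbS, hcS, -, o, hob, hoc, ho⟩ := hD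
  obtain ⟨x, hx, hxz⟩ := hW
  rw [Metric.mem_ball, dist_eq_norm] at hxz
  set S := points ε ω with hS
  have hzε : ‖z‖ = ε * (‖z‖ / ε) := by field_simp
  have hρε : ρ = ε * (ρ / ε) := by field_simp
  -- good region
  have good : ∀ y : ℂ, ‖y - z‖ ≤ ρ + 8 * ε * M + ε → cellOf ε y ∈ nbr 0 L := by
    intro y hy
    rw [← cellOf_zero ε]
    refine cellOf_near (d := ‖z‖ + (ρ + 8 * ε * M + ε)) hε ?_ ?_
    · rw [sub_zero]
      calc ‖y‖ = ‖z + (y - z)‖ := by congr 1; ring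
        _ ≤ ‖z‖ + ‖y - z‖ := norm_add_le _ _
        _ ≤ _ := by linarith
    · have : (‖z‖ + (ρ + 8 * ε * M + ε)) / ε = ‖z‖ / ε + ρ / ε + 8 * M + 1 := by
        field_simp
        ring
      rw [this]
      have hM0 : (0 : ℝ) ≤ M := by positivity
      linarith
  have goodc : ∀ v : ℂ, ‖v - z‖ ≤ ρ + 6 * ε * M → (‖v‖ + 2 * ε * (M + 1)) / ε + 1 ≤ L := by
    intro v hv
    have h1 : ‖v‖ ≤ ‖z‖ + (ρ + 6 * ε * M) := by
      calc ‖v‖ = ‖z + (v - z)‖ := by congr 1; ring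
        _ ≤ ‖z‖ + ‖v - z‖ := norm_add_le _ _
        _ ≤ _ := by linarith
    have h2 : (‖v‖ + 2 * ε * (M + 1)) / ε ≤ (‖z‖ + (ρ + 6 * ε * M) + 2 * ε * (M + 1)) / ε := by
      gcongr
    have h3 : (‖z‖ + (ρ + 6 * ε * M) + 2 * ε * (M + 1)) / ε = ‖z‖ / ε + ρ / ε + 8 * M + 2 := by
      field_simp
      ring
    have hM0 : (0 : ℝ) ≤ M := by positivity
    linarith
  have bd : ∀ y v : ℂ, cellOf ε y ∈ nbr 0 L → y ∈ voronoiCell S v → ‖y - v‖ ≤ 2 * ε * M := by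
    intro y v hy hyv
    have hlt := hM _ hy
    have h4 := in_cell hε hlt hyv
    have h5 : (eT M ω.1 (cellOf ε y) : ℝ) + 1 ≤ M := by exact_mod_cast hlt
    have h6 := mul_le_mul_of_nonneg_left h5 (by positivity : 0 ≤ 2 * ε)
    linarith
  have hεM : 0 ≤ ε * M := by positivity
  -- the vertex `o`
  have hoa : o ∈ voronoiCell S a := by
    intro w hw
    rw [norm_sub_rev o a, norm_sub_rev o w]
    exact ho w hw
  have hob' : o ∈ voronoiCell S b := by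
    intro w hw
    rw [norm_sub_rev o b, norm_sub_rev o w, hob]
    exact ho w hw
  have hoc' : o ∈ voronoiCell S c := by
    intro w hw
    rw [norm_sub_rev o c, norm_sub_rev o w, hoc]
    exact ho w hw
  -- some vertex `v` of the triple
  obtain ⟨v, hxv, hov, hva⟩ : ∃ v, x ∈ voronoiCell S v ∧ o ∈ voronoiCell S v ∧
      ‖v - o‖ = ‖a - o‖ := by
    rcases hx with (hx | hx) | hx
    · exact ⟨a, hx, hoa, rfl⟩
    · exact ⟨b, hx, hob', hob⟩
    · exact ⟨c, hx, hoc', hoc⟩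
  have h1 : ‖x - v‖ ≤ 2 * ε * M := bd x v (good x (by linarith)) hxv
  have h2 : ‖v - z‖ ≤ ρ + 2 * ε * M := by
    calc ‖v - z‖ = ‖(x - z) - (x - v)‖ := by congr 1; ring
      _ ≤ ‖x - z‖ + ‖x - v‖ := norm_sub_le _ _
      _ ≤ _ := by linarith
  have h3 : ‖o - v‖ ≤ 2 * ε * M := cell_bdd hε hM (goodc v (by linarith)) hov
  have h4 : ‖a - o‖ ≤ 2 * ε * M := by rw [← hva, norm_sub_rev]; exact h3
  have h5 : ‖a - z‖ ≤ ρ + 6 * ε * M := by
    calc ‖a - z‖ = ‖(a - o) + ((o - v) + (v - z))‖ := by congr 1; ring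
      _ ≤ ‖a - o‖ + (‖o - v‖ + ‖v - z‖) := (norm_add_le _ _).trans (by gcongr; exact norm_add_le _ _)
      _ ≤ _ := by linarith
  have h6 : ∀ y ∈ voronoiCell S a, ‖y - z‖ ≤ ρ + 8 * ε * M := by
    intro y hy
    have := cell_bdd hε hM (goodc a h5) hy
    calc ‖y - z‖ = ‖(y - a) + (a - z)‖ := by congr 1; ring
      _ ≤ ‖y - a‖ + ‖a - z‖ := norm_add_le _ _
      _ ≤ _ := by linarith
  -- the largest empty box of the cell
  let E : Set ℕ := (fun y => eT M ω.1 (cellOf ε y)) '' voronoiCell S a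
  have hEne : E.Nonempty := ⟨_, a, self_mem S a, rfl⟩
  have hEb : BddAbove E := ⟨M, by rintro _ ⟨y, _, rfl⟩; exact eT_le _ _ _⟩
  obtain ⟨ys, hys, hyse⟩ := Nat.sSup_mem hEne hEb
  have hmax : ∀ y ∈ voronoiCell S a, eT M ω.1 (cellOf ε y) ≤ eT M ω.1 (cellOf ε ys) := by
    intro y hy
    have : eT M ω.1 (cellOf ε y) ≤ sSup E := le_csSup hEb ⟨y, hy, rfl⟩
    rw [← hyse] at this
    exact this
  set e := eT M ω.1 (cellOf ε ys) with he
  have hd : ∀ y ∈ voronoiCell S a, ‖y - a‖ ≤ 2 * ε * (e + 1) := by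
    intro y hy
    have hg : cellOf ε y ∈ nbr 0 L := good y (by have := h6 y hy; linarith)
    have h7 := in_cell hε (hM _ hg) hy
    have h8 : (eT M ω.1 (cellOf ε y) : ℝ) ≤ e := by exact_mod_cast hmax y hy
    have h9 := mul_le_mul_of_nonneg_left h8 (by positivity : 0 ≤ 2 * ε)
    linarith
  have hao := hd o hoa
  have hya := hd ys hys
  have hno : ∀ w : ℂ, ‖w - o‖ = ‖a - o‖ → ‖w - ys‖ ≤ 6 * ε * (e + 1) := by
    intro w hw
    have hao' : ‖a - o‖ ≤ 2 * ε * (e + 1) := by rw [norm_sub_rev]; exact hao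
    calc ‖w - ys‖ = ‖(w - o) + ((o - a) - (ys - a))‖ := by congr 1; ring
      _ ≤ ‖w - o‖ + (‖o - a‖ + ‖ys - a‖) :=
          (norm_add_le _ _).trans (by gcongr; exact norm_sub_le _ _)
      _ ≤ _ := by rw [hw]; linarith
  refine ⟨cellOf ε ys, ?_, ?_, ?_, ?_, ?_⟩
  · refine cellOf_near hε (h6 ys hys) ?_
    have : (ρ + 8 * ε * M) / ε = ρ / ε + 8 * M := by field_simp
    linarith
  · refine Metric.ediam_le fun y hy w hw => ?_
    rw [edist_dist]
    apply ENNReal.ofReal_le_ofReal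
    rw [dist_eq_norm]
    calc ‖y - w‖ = ‖(y - a) - (w - a)‖ := by congr 1; ring
      _ ≤ ‖y - a‖ + ‖w - a‖ := norm_sub_le _ _
      _ ≤ _ := by have := hd y hy; have := hd w hw; linarith
  · exact mem_pts hε haS (hno a rfl)
  · exact mem_pts hε hbS (hno b hob)
  · exact mem_pts hε hcS (hno c hoc)

lemma geo {ε : ℝ} {ω : Sample} {M B L n : ℕ} (hε : 0 < ε)
    (hM : ∀ k ∈ nbr 0 L, eT M ω.1 k < M) (hB : ∀ k ∈ nbr 0 L, ω.1 k ≤ B) {z : ℂ} {ρ : ℝ}
    (hn : ρ / ε + 8 * M + 1 ≤ n) (hL : ‖z‖ / ε + 1 + n + 6 * M + 7 ≤ L) :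
    diamSum (points ε ω) (Metric.ball z ρ) ≤
      ENNReal.ofReal (16 * ε ^ 2 * ∑ k ∈ nbr (cellOf ε z) n, (Y M B ω.1 k : ℝ)) := by
  classical
  let P : Cell → Finset ℂ := fun k => pts ε ω (nbr k (6 * eT M ω.1 k + 7))
  let w : Cell → ℝ≥0∞ := fun k => ENNReal.ofReal (16 * ε ^ 2 * (eT M ω.1 k + 1) ^ 2)
  let g : Cell → ℂ × ℂ × ℂ → ℝ≥0∞ := fun k t => if t ∈ P k ×ˢ (P k ×ˢ P k) then w k else 0
  have h1 : ∀ t : {t : ℂ × ℂ × ℂ | Del (points ε ω) t.1 t.2.1 t.2.2 ∧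
      ((voronoiCell (points ε ω) t.1 ∪ voronoiCell (points ε ω) t.2.1 ∪
        voronoiCell (points ε ω) t.2.2) ∩ Metric.ball z ρ).Nonempty},
      (Metric.ediam (voronoiCell (points ε ω) t.1.1)) ^ 2 ≤
        ∑ k ∈ nbr (cellOf ε z) n, g k t.1 := by
    rintro ⟨⟨a, b, c⟩, hD, hW⟩
    obtain ⟨k, hk, hdiam, ha, hb, hc⟩ := charge hε hM hn hL hD hW
    have hg : g k (a, b, c) = w k := by
      simp only [g]
      rw [if_pos]
      rw [Finset.mem_product, Finset.mem_product]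
      exact ⟨ha, hb, hc⟩
    calc (Metric.ediam (voronoiCell (points ε ω) a)) ^ 2
        ≤ (ENNReal.ofReal (4 * ε * (eT M ω.1 k + 1))) ^ 2 := by gcongr
      _ = w k := by
          rw [← ENNReal.ofReal_pow (by positivity)]
          simp only [w]
          congr 1
          ring
      _ = g k (a, b, c) := hg.symm
      _ ≤ ∑ k ∈ nbr (cellOf ε z) n, g k (a, b, c) :=
          Finset.single_le_sum (f := fun k => g k (a, b, c)) (fun _ _ => bot_le) hk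
  have h2 : ∀ k : Cell, ∑' t : ℂ × ℂ × ℂ, g k t = ((P k).card : ℝ≥0∞) ^ 3 * w k := by
    intro k
    rw [tsum_eq_sum (s := P k ×ˢ (P k ×ˢ P k)) (fun t ht => by simp only [g]; rw [if_neg ht])]
    rw [Finset.sum_congr rfl (fun t ht => show g k t = w k by simp only [g]; rw [if_pos ht]),
      Finset.sum_const, Finset.card_product, Finset.card_product, nsmul_eq_mul]
    push_cast
    ring
  unfold diamSum
  calc ∑' t : {t : ℂ × ℂ × ℂ | Del (points ε ω) t.1 t.2.1 t.2.2 ∧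
      ((voronoiCell (points ε ω) t.1 ∪ voronoiCell (points ε ω) t.2.1 ∪
        voronoiCell (points ε ω) t.2.2) ∩ Metric.ball z ρ).Nonempty},
      (Metric.ediam (voronoiCell (points ε ω) t.1.1)) ^ 2
      ≤ ∑' t : {t : ℂ × ℂ × ℂ | Del (points ε ω) t.1 t.2.1 t.2.2 ∧
      ((voronoiCell (points ε ω) t.1 ∪ voronoiCell (points ε ω) t.2.1 ∪
        voronoiCell (points ε ω) t.2.2) ∩ Metric.ball z ρ).Nonempty},
        ∑ k ∈ nbr (cellOf ε z) n, g k t.1 := ENNReal.tsum_le_tsum h1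
    _ ≤ ∑' t : ℂ × ℂ × ℂ, ∑ k ∈ nbr (cellOf ε z) n, g k t :=
        ENNReal.tsum_comp_le_tsum_of_injective Subtype.val_injective
          (fun t : ℂ × ℂ × ℂ => ∑ k ∈ nbr (cellOf ε z) n, g k t)
    _ = ∑ k ∈ nbr (cellOf ε z) n, ∑' t : ℂ × ℂ × ℂ, g k t :=
        Summable.tsum_finsetSum fun _ _ => ENNReal.summable
    _ ≤ ∑ k ∈ nbr (cellOf ε z) n, ENNReal.ofReal (16 * ε ^ 2 * (Y M B ω.1 k : ℝ)) := by
        refine Finset.sum_le_sum fun k hk => ?_
        rw [h2 k]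
        have hcard : (P k).card ≤ ∑ k' ∈ nbr k (6 * eT M ω.1 k + 7), min (ω.1 k') B := by
          refine (card_pts ε ω _).trans (le_of_eq (Finset.sum_congr rfl fun k' hk' => ?_))
          rw [min_eq_left]
          apply hB
          have he := eT_le M ω.1 k
          have hz : cellOf ε z ∈ nbr (cellOf ε 0) (⌈‖z‖ / ε + 1⌉₊) :=
            cellOf_near (d := ‖z‖) hε (by rw [sub_zero]) (Nat.le_ceil _)
          rw [cellOf_zero] at hz
          have hL' : ⌈‖z‖ / ε + 1⌉₊ + n + 6 * M + 7 ≤ L := by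
            have h3 : ‖z‖ / ε + 1 ≤ (L : ℝ) - n - 6 * M - 7 := by linarith
            have h4 : ((L : ℤ) - n - 6 * M - 7 : ℤ) = ((L : ℝ) - n - 6 * M - 7 : ℝ) := by
              push_cast; ring
            have h5 : (0 : ℝ) ≤ ‖z‖ / ε + 1 := by positivity
            have h6 : (0 : ℤ) ≤ (L : ℤ) - n - 6 * M - 7 := by
              have : (0 : ℝ) ≤ (((L : ℤ) - n - 6 * M - 7 : ℤ) : ℝ) := by rw [h4]; linarith
              exact_mod_cast this
            obtain ⟨l, hl⟩ := Int.eq_ofNat_of_zero_le h6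
            have h7 : ‖z‖ / ε + 1 ≤ (l : ℝ) := by
              have : (((L : ℤ) - n - 6 * M - 7 : ℤ) : ℝ) = ((l : ℤ) : ℝ) := by rw [hl]
              rw [h4] at this
              rw [Int.cast_natCast] at this
              linarith
            have h8 := Nat.ceil_le.2 h7
            omega
          rw [mem_nbr] at hz hk hk' ⊢
          push_cast at hk'
          simp only [Prod.fst_zero, Prod.snd_zero] at hz ⊢
          omega
        calc ((P k).card : ℝ≥0∞) ^ 3 * w k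
            ≤ ((∑ k' ∈ nbr k (6 * eT M ω.1 k + 7), min (ω.1 k') B : ℕ) : ℝ≥0∞) ^ 3 * w k := by
              gcongr
          _ = ENNReal.ofReal (16 * ε ^ 2 * (Y M B ω.1 k : ℝ)) := by
              rw [← ENNReal.ofReal_natCast, ← ENNReal.ofReal_pow (by positivity),
                ← ENNReal.ofReal_mul (by positivity)]
              congr 1
              unfold Y
              push_cast
              ring
    _ = ENNReal.ofReal (16 * ε ^ 2 * ∑ k ∈ nbr (cellOf ε z) n, (Y M B ω.1 k : ℝ)) := by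
        rw [Finset.mul_sum, ENNReal.ofReal_sum_of_nonneg]
        intro k _
        positivity

end Crest.Agent.R143.PoisM4x501
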