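import Crest.Agent.R143.SumSc_302
import Crest.Agent.R143.PoisM4G_501

/-!
# Row 143 (S0194), leaf S6 of helper302: SECOND MOMENT OF THE CIRCUMRADII (helper616)

* `cen t` : circumcentre, `rad t` : circumradius, `cen_eq` : uniqueness
* `mom` : the mean of the sum of `rad t ^ 2` over the Delaunay triangles with the closed
  circumdisc in the square `[0, L)²` is at most `C L ^ 2` (mesh `1`)
* `mom'` : any weight dominated by `‖t.1 - o‖ ^ 2`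
-/

set_option autoImplicit false

noncomputable section

open scoped Classical

namespace Crest.Agent.R143.Momx616

open MeasureTheory Set Filter Topology
open Crest.ProbabilityR.Voronoi
open Crest.Agent.R143.B0x346 Crest.Agent.R143.SumScx302 Crest.Agent.R143.PoisM4x501
open scoped ENNReal NNReal

/-- `o` is a circumcentre of the triangle `t` -/
def IsCen (t : ℂ × ℂ × ℂ) (o : ℂ) : Prop := ‖t.2.1 - o‖ = ‖t.1 - o‖ ∧ ‖t.2.2 - o‖ = ‖t.1 - o‖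

/-- the circumcentre -/
def cen (t : ℂ × ℂ × ℂ) : ℂ := Classical.epsilon (IsCen t)

/-- the circumradius -/
def rad (t : ℂ × ℂ × ℂ) : ℝ := ‖t.1 - cen t‖

theorem rad_nonneg (t : ℂ × ℂ × ℂ) : 0 ≤ rad t := norm_nonneg _

theorem cen_spec {t : ℂ × ℂ × ℂ} {o : ℂ} (h : IsCen t o) : IsCen t (cen t) :=
  Classical.epsilon_spec (p := IsCen t) ⟨o, h⟩

theorem IsCen.unique {t : ℂ × ℂ × ℂ} {o o' : ℂ} (hc : cr (t.2.1 - t.1) (t.2.2 - t.1) ≠ 0)
    (h : IsCen t o) (h' : IsCen t o') : o = o' := by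
  obtain ⟨a, b, c⟩ := t
  obtain ⟨h1, h2⟩ := h
  obtain ⟨h3, h4⟩ := h'
  simp only at hc h1 h2 h3 h4
  have e : ∀ u v w : ℂ, ‖u - w‖ = ‖v - w‖ →
      (u.re - w.re) ^ 2 + (u.im - w.im) ^ 2 = (v.re - w.re) ^ 2 + (v.im - w.im) ^ 2 := by
    intro u v w huv
    have h5 : Complex.normSq (u - w) = Complex.normSq (v - w) := by
      rw [Complex.normSq_eq_norm_sq, Complex.normSq_eq_norm_sq, huv]
    rw [Complex.normSq_apply, Complex.normSq_apply] at h5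
    simp only [Complex.sub_re, Complex.sub_im] at h5
    linarith
  have g1 := e _ _ _ h1
  have g2 := e _ _ _ h2
  have g3 := e _ _ _ h3
  have g4 := e _ _ _ h4
  unfold cr at hc
  simp only [Complex.sub_re, Complex.sub_im] at hc
  have e1 : ((b.re - a.re) * (c.im - a.im) - (b.im - a.im) * (c.re - a.re)) * (o.re - o'.re) = 0 := by
    linear_combination -(1/2) * (c.im - a.im) * (g1 - g3) + (1/2) * (b.im - a.im) * (g2 - g4)
  have e2 : ((b.re - a.re) * (c.im - a.im) - (b.im - a.im) * (c.re - a.re)) * (o.im - o'.im) = 0 := by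
    linear_combination (1/2) * (c.re - a.re) * (g1 - g3) - (1/2) * (b.re - a.re) * (g2 - g4)
  have hc' : (b.re - a.re) * (c.im - a.im) - (b.im - a.im) * (c.re - a.re) ≠ 0 := by
    intro h0; apply hc; linarith
  apply Complex.ext
  · have := (mul_eq_zero.1 e1).resolve_left hc'
    linarith
  · have := (mul_eq_zero.1 e2).resolve_left hc'
    linarith

theorem cen_eq {t : ℂ × ℂ × ℂ} {o : ℂ} (hc : cr (t.2.1 - t.1) (t.2.2 - t.1) ≠ 0)
    (h : IsCen t o) : cen t = o := (cen_spec h).unique hc h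

/-- the circumdisc of a Delaunay triangle is empty -/
theorem del_cen {S : Set ℂ} {t : ℂ × ℂ × ℂ} (h : Del S t.1 t.2.1 t.2.2) :
    IsCen t (cen t) ∧ ∀ s ∈ S, rad t ≤ ‖s - cen t‖ := by
  obtain ⟨-, -, -, h4, o, h5, h6, h7⟩ := h
  have h8 : IsCen t o := ⟨h5, h6⟩
  have h9 : cen t = o := cen_eq h4.ne' h8
  refine ⟨cen_spec h8, fun s hs => ?_⟩
  unfold rad
  rw [h9]
  exact h7 s hs

/-- the weight -/
def wS (S : Set ℂ) (L : ℕ) (t : ℂ × ℂ × ℂ) : ℝ≥0∞ :=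
  if Del S t.1 t.2.1 t.2.2 ∧ Metric.closedBall (cen t) (rad t) ⊆ sq 0 L then
    ENNReal.ofReal (rad t ^ 2) else 0

/-- the cells of the square -/
def bx (L : ℕ) : Finset Cell := Finset.Ico 0 (L : ℤ) ×ˢ Finset.Ico 0 (L : ℤ)

theorem card_bx (L : ℕ) : (bx L).card = L ^ 2 := by
  simp [bx, pow_two]

/-- the row event -/
def row (N : Cell → ℕ) (k : Cell) (m : ℕ) : Prop := ∀ i < m, N (k.1 + (i : ℤ), k.2) = 0

/-- the majorant -/
def U (ω : Sample) (k : Cell) (m : ℕ) (t : ℂ × ℂ × ℂ) : ℝ≥0∞ :=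
  if row ω.1 k m ∧ t ∈ (pts 1 ω (nbr k (6 * m + 7))) ×ˢ (pts 1 ω (nbr k (6 * m + 7))) ×ˢ
      (pts 1 ω (nbr k (6 * m + 7))) then ((9 * (m + 1) ^ 2 : ℕ) : ℝ≥0∞) else 0

theorem w_le (ω : Sample) (L : ℕ) (t : ℂ × ℂ × ℂ) :
    wS (points 1 ω) L t ≤ ∑ k ∈ bx L, ∑' m, U ω k m t := by
  unfold wS
  split_ifs with h
  swap
  · exact zero_le
  obtain ⟨h1, h2⟩ := h
  obtain ⟨h3, h4⟩ := del_cen h1
  set o := cen t with ho
  set r := rad t with hr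
  have hr0 : 0 ≤ r := rad_nonneg t
  have hk : cellOf 1 o ∈ bx L := by
    have h5 := h2 (Metric.mem_closedBall_self hr0)
    obtain ⟨a1, a2, a3, a4⟩ := h5
    simp only [Complex.zero_re, Complex.zero_im, zero_add] at a1 a2 a3 a4
    unfold bx cellOf
    rw [Finset.mem_product, Finset.mem_Ico, Finset.mem_Ico]
    simp only [div_one]
    refine ⟨⟨Int.floor_nonneg.2 a1, Int.floor_lt.2 ?_⟩, Int.floor_nonneg.2 a3, Int.floor_lt.2 ?_⟩
    · exact_mod_cast a2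
    · exact_mod_cast a4
  have hfl : (⌊r⌋₊ : ℝ) ≤ r := Nat.floor_le hr0
  have hfl2 : r < ⌊r⌋₊ + 1 := Nat.lt_floor_add_one r
  set m := ⌊r⌋₊ - 2 with hm
  have hrm : r < m + 3 := by
    have : ⌊r⌋₊ ≤ m + 2 := by omega
    have h6 : (⌊r⌋₊ : ℝ) ≤ m + 2 := by exact_mod_cast this
    linarith
  have hrow : row ω.1 (cellOf 1 o) m := by
    intro i hi
    by_contra hN
    have hN' : 0 < ω.1 ((cellOf 1 o).1 + (i : ℤ), (cellOf 1 o).2) := Nat.pos_of_ne_zero hN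
    have hv := point_mem (ε := 1) hN'
    have h6 := h4 _ hv
    set v := point 1 ω ((cellOf 1 o).1 + (i : ℤ), (cellOf 1 o).2) 0 with hvd
    have hre : v.re = 1 * ((((cellOf 1 o).1 + (i : ℤ) : ℤ) : ℝ) + (ω.2 _ 0 0 : ℝ)) :=
      point_re 1 ω ((cellOf 1 o).1 + (i : ℤ), (cellOf 1 o).2) 0
    have him : v.im = 1 * (((cellOf 1 o).2 : ℝ) + (ω.2 _ 0 1 : ℝ)) :=
      point_im 1 ω ((cellOf 1 o).1 + (i : ℤ), (cellOf 1 o).2) 0
    obtain ⟨b1, b2⟩ := floor_bounds (ε := 1) (x := o.re) one_pos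
    obtain ⟨b3, b4⟩ := floor_bounds (ε := 1) (x := o.im) one_pos
    have c1 : ((cellOf 1 o).1 : ℝ) = (⌊o.re / 1⌋ : ℝ) := rfl
    have c2 : ((cellOf 1 o).2 : ℝ) = (⌊o.im / 1⌋ : ℝ) := rfl
    rw [← c1] at b1 b2
    rw [← c2] at b3 b4
    have t0 := (ω.2 ((cellOf 1 o).1 + (i : ℤ), (cellOf 1 o).2) 0 0).2.1
    have t1 := (ω.2 ((cellOf 1 o).1 + (i : ℤ), (cellOf 1 o).2) 0 0).2.2
    have t2 := (ω.2 ((cellOf 1 o).1 + (i : ℤ), (cellOf 1 o).2) 0 1).2.1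
    have t3 := (ω.2 ((cellOf 1 o).1 + (i : ℤ), (cellOf 1 o).2) 0 1).2.2
    push_cast at hre
    have i0 : (0 : ℝ) ≤ i := Nat.cast_nonneg i
    have d1 : |(v - o).re| ≤ i + 1 := by
      rw [Complex.sub_re, abs_le]
      constructor <;> linarith
    have d2 : |(v - o).im| ≤ 1 := by
      rw [Complex.sub_im, abs_le]
      constructor <;> linarith
    have d3 : ‖v - o‖ ≤ i + 2 := by
      have := Complex.norm_le_abs_re_add_abs_im (v - o)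
      linarith
    have d4 : i + 3 ≤ ⌊r⌋₊ := by omega
    have d5 : (i : ℝ) + 3 ≤ ⌊r⌋₊ := by exact_mod_cast d4
    linarith
  have hmem : ∀ v ∈ points 1 ω, ‖v - o‖ = r → v ∈ pts 1 ω (nbr (cellOf 1 o) (6 * m + 7)) := by
    intro v hv hvr
    apply mem_pts one_pos hv
    rw [hvr]
    have m0 : (0 : ℝ) ≤ m := Nat.cast_nonneg m
    linarith
  have ha : t.1 ∈ pts 1 ω (nbr (cellOf 1 o) (6 * m + 7)) := hmem _ h1.1 rfl
  have hb : t.2.1 ∈ pts 1 ω (nbr (cellOf 1 o) (6 * m + 7)) := hmem _ h1.2.1 h3.1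
  have hcm : t.2.2 ∈ pts 1 ω (nbr (cellOf 1 o) (6 * m + 7)) := hmem _ h1.2.2.1 h3.2
  have hU : U ω (cellOf 1 o) m t = ((9 * (m + 1) ^ 2 : ℕ) : ℝ≥0∞) := by
    unfold U
    rw [if_pos]
    exact ⟨hrow, Finset.mem_product.2 ⟨ha, Finset.mem_product.2 ⟨hb, hcm⟩⟩⟩
  have hle : ENNReal.ofReal (r ^ 2) ≤ U ω (cellOf 1 o) m t := by
    rw [hU, ← ENNReal.ofReal_natCast]
    apply ENNReal.ofReal_le_ofReal
    push_cast
    have m0 : (0 : ℝ) ≤ m := Nat.cast_nonneg m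
    nlinarith
  calc ENNReal.ofReal (r ^ 2) ≤ U ω (cellOf 1 o) m t := hle
    _ ≤ ∑' m, U ω (cellOf 1 o) m t := ENNReal.le_tsum m
    _ ≤ _ := Finset.single_le_sum (f := fun k => ∑' m, U ω k m t) (fun _ _ => zero_le) hk

/-- the majorant after summation over the triangles -/
def V (N : Cell → ℕ) (k : Cell) (m : ℕ) : ℝ≥0∞ :=
  ((9 * (m + 1) ^ 2 * (12 * m + 15) ^ 4 : ℕ) : ℝ≥0∞) *
    ∑ k' ∈ nbr k (6 * m + 7),
      (if ∀ i < m, N (k.1 + (i : ℤ), k.2) = 0 then (1 : ℝ≥0∞) else 0) * (N k' : ℝ≥0∞) ^ 3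

theorem U_le (ω : Sample) (k : Cell) (m : ℕ) : ∑' t, U ω k m t ≤ V ω.1 k m := by
  by_cases h : row ω.1 k m
  swap
  · have : ∀ t, U ω k m t = 0 := fun t => if_neg fun h' => h h'.1
    simp only [this, tsum_zero]
    exact zero_le
  set T := pts 1 ω (nbr k (6 * m + 7)) with hT
  have h1 : ∑' t, U ω k m t = ∑ t ∈ T ×ˢ T ×ˢ T, ((9 * (m + 1) ^ 2 : ℕ) : ℝ≥0∞) := by
    rw [tsum_eq_sum (s := T ×ˢ T ×ˢ T)]
    · refine Finset.sum_congr rfl fun t ht => ?_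
      exact if_pos ⟨h, ht⟩
    · intro t ht
      exact if_neg fun h' => ht h'.2
  have h2 : T.card ≤ ∑ k' ∈ nbr k (6 * m + 7), ω.1 k' := card_pts 1 ω _
  have key : (∑ k' ∈ nbr k (6 * m + 7), ω.1 k') ^ 3 ≤
      (12 * m + 15) ^ 4 * ∑ k' ∈ nbr k (6 * m + 7), ω.1 k' ^ 3 := by
    have h2 := pow_sum_div_card_le_sum_pow (s := nbr k (6 * m + 7))
      (f := fun k' => (ω.1 k' : ℝ)) (fun _ _ => by positivity) 2
    have hc : (0 : ℝ) < ((nbr k (6 * m + 7)).card : ℝ) ^ 2 := by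
      rw [card_nbr]; positivity
    rw [div_le_iff₀ hc, card_nbr] at h2
    have h3 : ((∑ k' ∈ nbr k (6 * m + 7), ω.1 k' : ℕ) : ℝ) ^ 3 ≤
        (((12 * m + 15) ^ 4 * ∑ k' ∈ nbr k (6 * m + 7), ω.1 k' ^ 3 : ℕ) : ℝ) := by
      push_cast
      push_cast at h2
      refine h2.trans (le_of_eq ?_)
      ring
    exact_mod_cast h3
  have h3 : (T ×ˢ T ×ˢ T).card ≤ (12 * m + 15) ^ 4 * ∑ k' ∈ nbr k (6 * m + 7), ω.1 k' ^ 3 := by
    rw [Finset.card_product, Finset.card_product]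
    calc T.card * (T.card * T.card) = T.card ^ 3 := by ring
      _ ≤ (∑ k' ∈ nbr k (6 * m + 7), ω.1 k') ^ 3 := Nat.pow_le_pow_left h2 3
      _ ≤ _ := key
  have hrow : (∀ i < m, ω.1 (k.1 + (i : ℤ), k.2) = 0) := h
  unfold V
  simp only [if_pos hrow, one_mul]
  rw [h1, Finset.sum_const, nsmul_eq_mul]
  calc ((T ×ˢ T ×ˢ T).card : ℝ≥0∞) * ((9 * (m + 1) ^ 2 : ℕ) : ℝ≥0∞)
      = (((T ×ˢ T ×ˢ T).card * (9 * (m + 1) ^ 2) : ℕ) : ℝ≥0∞) := by push_cast; ring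
    _ ≤ ((((12 * m + 15) ^ 4 * ∑ k' ∈ nbr k (6 * m + 7), ω.1 k' ^ 3) * (9 * (m + 1) ^ 2) : ℕ) :
        ℝ≥0∞) := by exact_mod_cast Nat.mul_le_mul_right _ h3
    _ = _ := by push_cast; ring

theorem meas_V0 (k : Cell) (m : ℕ) (k' : Cell) : Measurable fun N : Cell → ℕ =>
    (if ∀ i < m, N (k.1 + (i : ℤ), k.2) = 0 then (1 : ℝ≥0∞) else 0) * (N k' : ℝ≥0∞) ^ 3 := by
  have h3 : Measurable fun N : Cell → ℕ => (N k' : ℝ≥0∞) ^ 3 :=
    meas_of k' (fun n => (n : ℝ≥0∞) ^ 3)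
  exact (Measurable.ite (meas_row k m) measurable_const measurable_const).mul h3

theorem meas_V (k : Cell) (m : ℕ) : Measurable fun N : Cell → ℕ => V N k m := by
  unfold V
  exact (Finset.measurable_sum _ fun k' _ => meas_V0 k m k').const_mul _

theorem lint_V (k : Cell) : ∫⁻ N, ∑' m, V N k m ∂mu ≤ 9 * mu0 := by
  rw [lintegral_tsum fun m => (meas_V k m).aemeasurable]
  unfold mu0
  rw [← ENNReal.tsum_mul_left]
  refine ENNReal.tsum_le_tsum fun m => ?_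
  unfold V
  rw [lintegral_const_mul _ (Finset.measurable_sum _ fun k' _ => meas_V0 k m k'),
    lintegral_finsetSum _ (fun k' _ => meas_V0 k m k')]
  calc ((9 * (m + 1) ^ 2 * (12 * m + 15) ^ 4 : ℕ) : ℝ≥0∞) * ∑ k' ∈ nbr k (6 * m + 7),
        ∫⁻ N, (if ∀ i < m, N (k.1 + (i : ℤ), k.2) = 0 then (1 : ℝ≥0∞) else 0) *
          (N k' : ℝ≥0∞) ^ 3 ∂mu
      ≤ ((9 * (m + 1) ^ 2 * (12 * m + 15) ^ 4 : ℕ) : ℝ≥0∞) * ∑ k' ∈ nbr k (6 * m + 7),
        ((1 + 720 * K1) * ENNReal.ofReal (Real.exp (-(m : ℝ) / 2))) := by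
        gcongr with k' _
        exact lintegral_row_mul k k' m
    _ = 9 * ((((m + 1) ^ 2 * (12 * m + 15) ^ 6 : ℕ) : ℝ≥0∞) *
        ((1 + 720 * K1) * ENNReal.ofReal (Real.exp (-(m : ℝ) / 2)))) := by
        rw [Finset.sum_const, card_nbr, nsmul_eq_mul, ← mul_assoc, ← mul_assoc 9]
        congr 1
        push_cast
        ring

theorem lint_fst {f : (Cell → ℕ) → ℝ≥0∞} (hf : Measurable f) :
    ∫⁻ ω : Sample, f ω.1 ∂sampleLaw = ∫⁻ N, f N ∂mu := by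
  have h : MeasurePreserving (Prod.fst : Sample → (Cell → ℕ)) sampleLaw mu := by
    unfold sampleLaw mu
    exact measurePreserving_fst
  exact h.lintegral_comp hf

/-- **S6: second moment of the circumradii** -/
theorem mom_wS (L : ℕ) : ∫⁻ ω, ∑' t, wS (points 1 ω) L t ∂sampleLaw ≤
    9 * mu0 * (L : ℝ≥0∞) ^ 2 := by
  calc ∫⁻ ω, ∑' t, wS (points 1 ω) L t ∂sampleLaw
      ≤ ∫⁻ ω : Sample, ∑ k ∈ bx L, ∑' m, V ω.1 k m ∂sampleLaw := by
        refine lintegral_mono fun ω => ?_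
        calc ∑' t, wS (points 1 ω) L t ≤ ∑' t, ∑ k ∈ bx L, ∑' m, U ω k m t :=
              ENNReal.tsum_le_tsum fun t => w_le ω L t
          _ = ∑ k ∈ bx L, ∑' t, ∑' m, U ω k m t :=
              Summable.tsum_finsetSum fun k _ => ENNReal.summable
          _ = ∑ k ∈ bx L, ∑' m, ∑' t, U ω k m t :=
              Finset.sum_congr rfl fun k _ => ENNReal.tsum_comm
          _ ≤ _ := Finset.sum_le_sum fun k _ => ENNReal.tsum_le_tsum fun m => U_le ω k m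
    _ = ∫⁻ N, ∑ k ∈ bx L, ∑' m, V N k m ∂mu :=
        lint_fst (f := fun N => ∑ k ∈ bx L, ∑' m, V N k m)
          (Finset.measurable_sum _ fun k _ => Measurable.tsum fun m => meas_V k m)
    _ = ∑ k ∈ bx L, ∫⁻ N, ∑' m, V N k m ∂mu :=
        lintegral_finsetSum _ fun k _ => Measurable.tsum fun m => meas_V k m
    _ ≤ ∑ k ∈ bx L, 9 * mu0 := Finset.sum_le_sum fun k _ => lint_V k
    _ = 9 * mu0 * (L : ℝ≥0∞) ^ 2 := by
        rw [Finset.sum_const, card_bx, nsmul_eq_mul]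
        push_cast
        ring

theorem C_ne_top : 9 * mu0 ≠ ⊤ := ENNReal.mul_ne_top (by simp) mu0_ne_top

/-- **S6**, literal form -/
theorem mom : ∃ C : ℝ≥0∞, C ≠ ⊤ ∧ ∀ L : ℕ, ∫⁻ ω, ∑' t : ℂ × ℂ × ℂ,
    (if Del (points 1 ω) t.1 t.2.1 t.2.2 ∧ Metric.closedBall (cen t) (rad t) ⊆ sq 0 L then
      ENNReal.ofReal (rad t ^ 2) else 0) ∂sampleLaw ≤ C * (L : ℝ≥0∞) ^ 2 :=
  ⟨9 * mu0, C_ne_top, fun L => mom_wS L⟩

/-- the same for every weight `w S t` dominated by `c ‖t.1 - o‖ ^ 2` for some circumcentre `o` of a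
Delaunay triangle with the closed circumdisc in the square -/
theorem mom' {c : ℝ≥0∞} (hc : c ≠ ⊤) : ∃ C : ℝ≥0∞, C ≠ ⊤ ∧
    ∀ (L : ℕ) (w : Set ℂ → ℂ × ℂ × ℂ → ℝ≥0∞),
      (∀ S t, w S t ≠ 0 → Del S t.1 t.2.1 t.2.2 ∧ ∃ o : ℂ, ‖t.2.1 - o‖ = ‖t.1 - o‖ ∧
        ‖t.2.2 - o‖ = ‖t.1 - o‖ ∧ Metric.closedBall o ‖t.1 - o‖ ⊆ sq 0 L ∧
          w S t ≤ c * ENNReal.ofReal (‖t.1 - o‖ ^ 2)) →
      ∫⁻ ω, ∑' t : ℂ × ℂ × ℂ, w (points 1 ω) t ∂sampleLaw ≤ C * (L : ℝ≥0∞) ^ 2 := by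
  refine ⟨c * (9 * mu0), ENNReal.mul_ne_top hc C_ne_top, fun L w hw => ?_⟩
  have h1 : ∀ S t, w S t ≤ c * wS S L t := by
    intro S t
    by_cases h0 : w S t = 0
    · rw [h0]; exact zero_le
    obtain ⟨h2, o, h3, h4, h5, h6⟩ := hw S t h0
    have h7 : cen t = o := cen_eq h2.2.2.2.1.ne' ⟨h3, h4⟩
    unfold wS
    rw [if_pos]
    · unfold rad
      rw [h7]
      exact h6
    · refine ⟨h2, ?_⟩
      unfold rad
      rw [h7]
      exact h5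
  calc ∫⁻ ω, ∑' t : ℂ × ℂ × ℂ, w (points 1 ω) t ∂sampleLaw
      ≤ ∫⁻ ω, c * ∑' t, wS (points 1 ω) L t ∂sampleLaw := by
        refine lintegral_mono fun ω => ?_
        rw [← ENNReal.tsum_mul_left]
        exact ENNReal.tsum_le_tsum fun t => h1 _ t
    _ = c * ∫⁻ ω, ∑' t, wS (points 1 ω) L t ∂sampleLaw := lintegral_const_mul' _ _ hc
    _ ≤ c * (9 * mu0 * (L : ℝ≥0∞) ^ 2) := by gcongr; exact mom_wS L
    _ = _ := by ring

end Crest.Agent.R143.Momx616
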