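import Crest.Agent.R143.CB_838

/-!
# Row 143, block X (helper838): many crossings and circuits, explored sites black

* `free_up` : `V` free sites, `E` explored sites which count as black, increasing events
* `multi` : finitely many increasing events (Harris)
* `multi_circ` : black circuits around finitely many centres
* `multi_all` : circuits, horizontal and vertical crossings together
-/

set_option autoImplicit false

noncomputable section

open scoped Classical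

namespace Crest.Agent.R143.Multix838

open Crest.Agent.R143.B0x346 Crest.Agent.R143.DelGx806 Crest.Agent.R143.DelRx806
open Crest.Agent.R143.ToolWx838 Crest.Agent.R143.Blkx838 Crest.Agent.R143.ToolW2x838
open Crest.Agent.R143.ToolW3x838 Crest.Agent.R143.Circ4x838 Crest.Agent.R143.Harx315
open Crest.Agent.R143.RB0x838 Crest.Agent.R143.CircPx838 Crest.Agent.R143.Gatex838
open Crest.Agent.R143.CBx838

variable {S V E : Finset ℂ} {z0 e : ℂ}

/-- increasing in all colourings -/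
def Inc (A : Finset ℂ → Prop) : Prop := ∀ β β', β ⊆ β' → A β → A β'

theorem Inc.up {A : Finset ℂ → Prop} (h : Inc A) (V : Finset ℂ) : Up V A := fun β β' h1 _ h2 => h β β' h1 h2

/-- **explored sites black** -/
theorem free_up (hd : Disjoint V E) {A : Finset ℂ → Prop} (hA : Inc A) :
    pr (V ∪ E) A ≤ pr V (fun β => A (β ∪ E)) := by
  rw [pr_sum (V := V ∪ E) (W := E) Finset.subset_union_right]
  have hV : (V ∪ E) \ E = V := by
    rw [Finset.union_sdiff_right, Finset.sdiff_eq_self_of_disjoint hd]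
  rw [hV]
  have hle : ∀ γ ∈ E.powerset, pr V (fun β => A (β ∪ γ)) ≤ pr V (fun β => A (β ∪ E)) := by
    intro γ hγ
    rw [Finset.mem_powerset] at hγ
    exact pr_mono fun β _ h => hA _ _ (Finset.union_subset_union_right hγ) h
  have hsum := Finset.sum_le_sum hle
  rw [Finset.sum_const, Finset.card_powerset, nsmul_eq_mul] at hsum
  rw [div_le_iff₀ (by positivity)]
  refine hsum.trans (le_of_eq ?_)
  push_cast
  ring

/-- **finitely many increasing events** -/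
theorem multi {ι : Type*} (s : Finset ι) (hd : Disjoint V E) {A : ι → Finset ℂ → Prop}
    (hA : ∀ i ∈ s, Inc (A i)) {p : ℝ} (hp : 0 ≤ p) (h : ∀ i ∈ s, p ≤ pr (V ∪ E) (A i)) :
    p ^ s.card ≤ pr V (fun β => ∀ i ∈ s, A i (β ∪ E)) := by
  have h1 := harris_prod_up (V := V ∪ E) s (A := A) (fun i hi => (hA i hi).up _)
  have h2 : p ^ s.card ≤ ∏ i ∈ s, pr (V ∪ E) (A i) := by
    rw [← Finset.prod_const]
    exact Finset.prod_le_prod (fun _ _ => hp) h
  refine (h2.trans h1).trans (free_up hd (A := fun β => ∀ i ∈ s, A i β) ?_)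
  intro β β' hβ hh i hi
  exact hA i hi β β' hβ (hh i hi)

/-- the same with finitely many families of events -/
theorem multi_list (hd : Disjoint V E) {l : List (Finset ℂ → Prop)}
    (hA : ∀ A ∈ l, Inc A) {p : ℝ} (hp : 0 ≤ p) (h : ∀ A ∈ l, p ≤ pr (V ∪ E) A) :
    p ^ l.length ≤ pr V (fun β => ∀ A ∈ l, A (β ∪ E)) := by
  have h1 := multi (V := V) (E := E) (Finset.univ : Finset (Fin l.length)) hd (A := fun i => l.get i)
    (fun i _ => hA _ (List.get_mem l i)) hp (fun i _ => h _ (List.get_mem l i))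
  rw [Finset.card_univ, Fintype.card_fin] at h1
  refine h1.trans (pr_mono fun β _ hh A hAl => ?_)
  obtain ⟨i, rfl⟩ := List.get_of_mem hAl
  exact hh i (Finset.mem_univ i)

theorem inc_circ (S : Finset ℂ) (z : ℂ) (r : ℝ) : Inc fun β => ∃ c, CircC S z r β c :=
  fun _ _ h1 ⟨c, hc⟩ => ⟨c, hc.mono h1⟩

theorem inc_hc (S : Finset ℂ) (z0 e : ℂ) (x0 x1 y0 y1 m : ℝ) :
    Inc fun β => ∃ l, HC S z0 e x0 x1 y0 y1 m β l := fun _ _ h1 ⟨l, hl⟩ => ⟨l, hl.mono h1⟩

theorem inc_vc (S : Finset ℂ) (z0 e : ℂ) (x0 x1 y0 y1 m : ℝ) :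
    Inc fun β => ∃ l, VC S z0 e x0 x1 y0 y1 m β l := fun _ _ h1 ⟨l, hl⟩ => ⟨l, hl.mono h1⟩

/-- a rectangle with its crossing: centre `z`, direction `e`, `x0 x1 y0 y1 m`, horizontal or vertical -/
structure Rect where
  z : ℂ
  e : ℂ
  x0 : ℝ
  x1 : ℝ
  y0 : ℝ
  y1 : ℝ
  m : ℝ
  hor : Bool

/-- the crossing event -/
def Rect.Ev (S : Finset ℂ) (q : Rect) (β : Finset ℂ) : Prop :=
  if q.hor then ∃ l, HC S q.z q.e q.x0 q.x1 q.y0 q.y1 q.m β l
  else ∃ l, VC S q.z q.e q.x0 q.x1 q.y0 q.y1 q.m β l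

theorem Rect.inc (S : Finset ℂ) (q : Rect) : Inc (q.Ev S) := by
  unfold Rect.Ev
  intro β β' hβ h
  split_ifs at h ⊢ with hq
  · exact inc_hc S _ _ _ _ _ _ _ β β' hβ h
  · exact inc_vc S _ _ _ _ _ _ _ β β' hβ h

/-- shape conditions at the scale `ρ` with the constant `k` -/
structure Rect.Fit (q : Rect) (k ρ : ℝ) : Prop where
  e : ‖q.e‖ = 1
  x0 : |q.x0| ≤ k * ρ
  x1 : |q.x1| ≤ k * ρ
  y0 : |q.y0| ≤ k * ρ
  y1 : |q.y1| ≤ k * ρ
  x : ρ ≤ k * (q.x1 - q.x0)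
  y : ρ ≤ k * (q.y1 - q.y0)
  w : if q.hor then q.y1 - q.y0 ≤ 2 * ρ ∧ (q.y1 - q.y0) / 2 ≤ q.m
    else q.x1 - q.x0 ≤ 2 * ρ ∧ (q.x1 - q.x0) / 2 ≤ q.m

/-- region of the sites used by the rectangle -/
def Rect.Reg (q : Rect) (s : ℂ) : Prop :=
  if q.hor then (q.y0 < Y q.z q.e s ∧ Y q.z q.e s < q.y1) ∧ q.x0 - q.m ≤ X q.z q.e s ∧
    X q.z q.e s ≤ q.x1 + q.m
  else (q.x0 < X q.z q.e s ∧ X q.z q.e s < q.x1) ∧ q.y0 - q.m ≤ Y q.z q.e s ∧
    Y q.z q.e s ≤ q.y1 + q.m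

/-- **circuits around the centres `Q` (size `h`) and crossings of the rectangles `T`**: joint
probability at least `exp (- C (1 + C4)) ^ (#Q + #T)`, free sites `V`, explored sites `E` black -/
theorem multi_all (hRB : RB) : ∀ k : ℝ, 1 ≤ k → ∃ C c1 K : ℝ, 0 < C ∧ 0 < c1 ∧ 0 < K ∧
    ∀ (S : Finset ℂ) (z0 : ℂ) (R ρ d C4 : ℝ), 0 < ρ → Nv S z0 R ρ d C4 → d ≤ c1 * ρ →
    ∀ V E : Finset ℂ, V ⊆ S → E ⊆ S → Disjoint V E →
    ∀ (Q : List ℂ) (h : ℝ) (T : List Rect), ρ ≤ k * h → h ≤ ρ →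
    (∀ q ∈ Q, ‖q - z0‖ + K * ρ ≤ R) → (∀ q ∈ T, ‖q.z - z0‖ + K * ρ ≤ R) →
    (∀ q ∈ T, q.Fit k ρ) →
    (∀ q ∈ Q, ∀ s ∈ S, h < sup (s - q) → sup (s - q) < 2 * h → s ∈ V ∪ E) →
    (∀ q ∈ T, ∀ s ∈ S, q.Reg s → s ∈ V ∪ E) →
    Real.exp (-C * (1 + C4)) ^ (Q.length + T.length) ≤
      pr V (fun β => (∀ q ∈ Q, ∃ c, CircC S q h (β ∪ E) c) ∧ ∀ q ∈ T, q.Ev S (β ∪ E)) := by
  intro k hk
  obtain ⟨C1, a1, K1, hC1, ha1, hK1, H1⟩ := circ_pr hRB
  obtain ⟨C2, a2, K2, hC2, ha2, hK2, H2⟩ := rb_hc hRB k hk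
  obtain ⟨C3, a3, K3, hC3, ha3, hK3, H3⟩ := rb_vc hRB k hk
  have hk0 : 0 < k := by linarith
  refine ⟨C1 * k ^ 2 + C2 + C3, min (a1 / k) (min a2 a3), K1 + K2 + K3, by positivity, by positivity,
    by positivity, ?_⟩
  intro S z0 R ρ d C4 hρ hN hd V E hV hE hVE Q h T hρh hhρ hQ hT hF hQs hTs
  set C := C1 * k ^ 2 + C2 + C3 with hC
  set p := Real.exp (-C * (1 + C4)) with hp
  have hC4 := hN.C4
  have hh : 0 < h := by
    by_contra hcon
    push Not at hcon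
    nlinarith
  have hVE' : V ∪ E ⊆ S := Finset.union_subset hV hE
  have hd1 : d ≤ a1 * h := by
    have h1 := hd.trans (mul_le_mul_of_nonneg_right (min_le_left _ _) hρ.le)
    have h2 : a1 / k * ρ ≤ a1 * h := by
      rw [div_mul_eq_mul_div, div_le_iff₀ hk0]
      nlinarith
    linarith
  have hd2 : d ≤ a2 * ρ := hd.trans (mul_le_mul_of_nonneg_right
    ((min_le_right _ _).trans (min_le_left _ _)) hρ.le)
  have hd3 : d ≤ a3 * ρ := hd.trans (mul_le_mul_of_nonneg_right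
    ((min_le_right _ _).trans (min_le_right _ _)) hρ.le)
  have e1 : ∀ q ∈ Q, p ≤ pr (V ∪ E) (fun β => ∃ c, CircC S q h β c) := by
    intro q hq
    have hq1 := hQ q hq
    have hsh : ‖q - z0‖ + K1 * h ≤ R := by
      nlinarith [mul_nonneg (add_nonneg hK2.le hK3.le) hρ.le, mul_le_mul_of_nonneg_left hhρ hK1.le]
    have hM : Mesh S q (K1 * h) h (C4 * k ^ 2) :=
      mesh_small (mesh_shift hN.mesh hsh) hh hhρ hC4 hρh
    refine le_trans ?_ (H1 S q h d (C4 * k ^ 2) hh (LDns.shift hN.dns hsh) (by positivity) hM hd1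
      (V ∪ E) hVE' (fun s hs h1 h2 => hQs q hq s hs h1 h2))
    rw [hp, Real.exp_le_exp]
    have hk1 : 1 ≤ k ^ 2 := one_le_pow₀ hk
    nlinarith [mul_nonneg hC2.le hC4, mul_nonneg hC3.le hC4, mul_nonneg hC1.le hC4,
      mul_nonneg hC1.le (sub_nonneg.2 hk1)]
  have e2 : ∀ q ∈ T, p ≤ pr (V ∪ E) (q.Ev S) := by
    intro q hq
    have hq1 := hT q hq
    have hf := hF q hq
    have hreg := hTs q hq
    have hw := hf.w
    by_cases hh : q.hor = true
    · simp only [Rect.Reg, hh, if_true] at hreg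
      simp only [hh, if_true] at hw
      have hsh : ‖q.z - z0‖ + K2 * ρ ≤ R := by
        nlinarith [mul_nonneg hK1.le hρ.le, mul_nonneg hK3.le hρ.le]
      have h1 := H2 S q.z ρ d C4 hρ ⟨LDns.shift hN.dns hsh, mesh_shift hN.mesh hsh, hC4⟩ hd2 q.e q.x0 q.x1 q.y0 q.y1
        q.m hf.e hf.x0 hf.x1 hf.y0 hf.y1 hf.x hf.y hw.1 hw.2 (V ∪ E) hVE'
        (fun s hs a b c d => hreg s hs ⟨⟨a, b⟩, c, d⟩)
      have h2 : pr (V ∪ E) (fun β => ∃ l, HC S q.z q.e q.x0 q.x1 q.y0 q.y1 q.m β l) =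
          pr (V ∪ E) (q.Ev S) := by
        apply pr_congr
        intro β _
        simp only [Rect.Ev, hh, if_true]
      rw [← h2]
      refine le_trans ?_ h1
      rw [hp, Real.exp_le_exp]
      nlinarith [mul_nonneg hC3.le hC4, mul_nonneg hC1.le (mul_nonneg (sq_nonneg k) hC4),
        mul_nonneg hC1.le (sq_nonneg k)]
    · simp only [Rect.Reg, hh] at hreg
      simp only [hh] at hw
      have hsh : ‖q.z - z0‖ + K3 * ρ ≤ R := by
        nlinarith [mul_nonneg hK1.le hρ.le, mul_nonneg hK2.le hρ.le]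
      have h1 := H3 S q.z ρ d C4 hρ ⟨LDns.shift hN.dns hsh, mesh_shift hN.mesh hsh, hC4⟩ hd3 q.e q.x0 q.x1 q.y0 q.y1
        q.m hf.e hf.x0 hf.x1 hf.y0 hf.y1 hf.x hf.y hw.1 hw.2 (V ∪ E) hVE'
        (fun s hs a b c d => hreg s hs ⟨⟨a, b⟩, c, d⟩)
      have h2 : pr (V ∪ E) (fun β => ∃ l, VC S q.z q.e q.x0 q.x1 q.y0 q.y1 q.m β l) =
          pr (V ∪ E) (q.Ev S) := by
        apply pr_congr
        intro β _
        simp only [Rect.Ev, hh]
        simp
      rw [← h2]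
      refine le_trans ?_ h1
      rw [hp, Real.exp_le_exp]
      nlinarith [mul_nonneg hC2.le hC4, mul_nonneg hC1.le (mul_nonneg (sq_nonneg k) hC4),
        mul_nonneg hC1.le (sq_nonneg k)]
  have h3 := multi_list (V := V) (E := E) hVE
    (l := (Q.map fun q => fun β => ∃ c, CircC S q h β c) ++ T.map fun q => q.Ev S) (p := p)
    (by
      intro A hA
      rcases List.mem_append.1 hA with hA | hA
      · obtain ⟨q, -, rfl⟩ := List.mem_map.1 hA
        exact inc_circ S q h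
      · obtain ⟨q, -, rfl⟩ := List.mem_map.1 hA
        exact q.inc S) (Real.exp_pos _).le
    (by
      intro A hA
      rcases List.mem_append.1 hA with hA | hA
      · obtain ⟨q, hq, rfl⟩ := List.mem_map.1 hA
        exact e1 q hq
      · obtain ⟨q, hq, rfl⟩ := List.mem_map.1 hA
        exact e2 q hq)
  rw [List.length_append, List.length_map, List.length_map] at h3
  refine h3.trans (pr_mono fun β _ hh => ⟨fun q hq => ?_, fun q hq => ?_⟩)
  · exact hh _ (List.mem_append_left _ (List.mem_map.2 ⟨q, hq, rfl⟩))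
  · exact hh _ (List.mem_append_right _ (List.mem_map.2 ⟨q, hq, rfl⟩))

end Crest.Agent.R143.Multix838
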