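import Crest.Agent.R143.SysD_166
import Crest.Agent.R143.TlR_709
import Crest.Agent.R143.TlG_58
import Crest.Agent.R143.Har_315
import Crest.Agent.R143.C2SD_395

/-!
# Row 143 (S0194), RIG: the field `hθ` of 654's `Quen`, probability half (helper139)

* `av_pr`, `av_pr'` : mean over the black sets of an event of `β ∩ W` (of `W \ β`) = `pr W`
* `yv_site`, `yv_site'` : 395's `yv` of the giants of `rc0 hS` in a colouring which has the colours of
  `β` on the free cells = the hit vertex `hv S (st A) k (β ∩ ff)`, resp. `hv S (st A) k (ff \ β)` for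
  the complementary colouring
* `Sys.touch` : the tiles `ka`, `kb` of the touches of 166 and 709's index `tlp` of the hit vertices
* `zV_local`, `yP_local`, `yP_fl_local` : 58's end points as 346's `zV` on the whole net
* **`theta_of`**, **`theta_poly`** : `av (far ..) ≤ θ₁ + θ₂` from 930's comparison on the two arcs and
  the geometric input `v` in the giant, `‖v - v'‖ ≤ η` ⟹ near indices
-/

set_option autoImplicit false
set_option linter.unusedSectionVars false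

noncomputable section

open scoped Classical

namespace Crest.Agent.R143.NearBx139

open Set
open Crest.ProbabilityR.Voronoi
open Crest.Agent.R143.B0x346 Crest.Agent.R143.DelGx806 Crest.Agent.R143.DelRx806
  Crest.Agent.R143.JColx54
open Crest.Agent.R143.Frame1x395 Crest.Agent.R143.Frame2x395 Crest.Agent.R143.Frame3x395
  Crest.Agent.R143.Frame4x395 Crest.Agent.R143.Frame8x395 Crest.Agent.R143.Frame9x395
  Crest.Agent.R143.Frame10x395
open Crest.Agent.R143.Frame5x395 (sd mem_sd th th_spec)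
open Crest.Agent.R143.FinCx811 (Cs rc0 cell_mem cs)
open Crest.Agent.R143.C2SBx395 Crest.Agent.R143.C2SCx395 Crest.Agent.R143.C2SDx395
open Crest.Agent.R143.Freshx829 (rep rep_eq)
open Crest.Agent.R143.SmallAx304 (chiS chiS_inner)
open Crest.Agent.R143.K33x877 (Clu fr)
open Crest.Agent.R143.NetUx346 (ff mem_ff HitO Hex hv hv_eq hv_mem)
open Crest.Agent.R143.NetVx346 (zV Bl)
open Crest.Agent.R143.Harx315 (pr pr_flip)
open Crest.Agent.R143.CorMx970 (av far av_add av_mono av_congr)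
open Crest.Agent.R143.IndLoc3x279 (clr)
open Crest.Agent.R143.OutSx358 Crest.Agent.R143.SysCx166
open Crest.Agent.R143.TlRx709 (tlp tl rep_state)

/-! ### means of indicators -/

theorem av_ind (V : Finset ℂ) (P : Finset ℂ → Prop) :
    av V.powerset (fun β => if P β then (1 : ℝ) else 0) = pr V P := by
  unfold av Harx315.pr Harx315.nb Harx315.fl
  rw [Finset.card_powerset, ← Finset.sum_filter, Finset.sum_const, nsmul_eq_mul, mul_one,
    smul_eq_mul]
  push_cast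
  rw [inv_mul_eq_div]

/-- mean over the black sets of an event of the colours in `W` -/
theorem av_pr {V W : Finset ℂ} (hW : W ⊆ V) (P : Finset ℂ → Prop) :
    av V.powerset (fun β => if P (β ∩ W) then (1 : ℝ) else 0) = pr W P := by
  rw [av_ind V fun β => P (β ∩ W), Harx315.pr_dep hW]
  · rw [← av_ind, ← av_ind]
    refine av_congr fun β hβ => ?_
    rw [Finset.inter_eq_left.2 (Finset.mem_powerset.1 hβ)]
  · intro β _
    show P (β ∩ W) ↔ P (β ∩ W ∩ W)
    rw [Finset.inter_assoc, Finset.inter_self]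

/-- the complementary colouring -/
theorem av_pr' {V W : Finset ℂ} (hW : W ⊆ V) (P : Finset ℂ → Prop) :
    av V.powerset (fun β => if P (W \ β) then (1 : ℝ) else 0) = pr W P := by
  rw [← pr_flip W P, ← av_pr hW fun β => P (W \ β)]
  refine av_congr fun β _ => ?_
  have e : W \ (β ∩ W) = W \ β := by
    ext x
    simp only [Finset.mem_sdiff, Finset.mem_inter]
    tauto
  rw [e]

/-! ### the touches of the giants are at the hit vertices -/

section touch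

variable {S : Finset ℂ} {hS : GP (S : Set ℂ)} {h3 : 3 ≤ S.card} {A : ZMod 3 → Set (Cs hS)}
  {i j k : ZMod 3} {g : D0 S} {β : Finset ℂ} {μ : Cs hS → ZMod 2}

/-- colours of the free sites -/
theorem col_free (H : Hl A j) (hμ : ∀ c, Free A c → μ c = chiS hS h3 β c) {v : ℂ}
    (hv : v ∈ fr S (st A)) {c : Cs hS} (hc : c.1 = Quot.mk (hullE S) v) : μ c = 1 ↔ v ∈ β := by
  have hf := free_of_fr hv hc
  have ho : ¬ OnHull S v := fun h => hf j (H c v h hc)
  have e : c = cs hS h3 ⟨v, hv.1⟩ := Subtype.ext hc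
  rw [hμ c hf, e, chiS_inner hS h3 β (v := ⟨v, hv.1⟩) ho]
  by_cases h : v ∈ β
  · rw [if_pos h]
    exact ⟨fun _ => h, fun _ => rfl⟩
  · rw [if_neg h]
    exact ⟨fun h' => absurd h' (by decide), fun h' => absurd h' h⟩

theorem cmp_chi (H : Hl A j) (hμ : ∀ c, Free A c → μ c = chiS hS h3 β c) :
    Cmp A ((β ∩ ff S (st A) : Finset ℂ) : Set ℂ) {c | μ c = 1} := by
  intro v hv c hc
  rw [Finset.mem_coe, Finset.mem_inter]
  show μ c = 1 ↔ _
  rw [col_free H hμ hv hc]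
  exact ⟨fun h => ⟨h, mem_ff.2 hv⟩, fun h => h.1⟩

theorem cmp_chi' (H : Hl A j) (hμ : ∀ c, Free A c → μ c = chiS hS h3 β c) :
    Cmp A ((ff S (st A) \ β : Finset ℂ) : Set ℂ) {c | μ c = 1}ᶜ := by
  intro v hv c hc
  rw [Finset.mem_coe, Finset.mem_sdiff]
  show ¬ μ c = 1 ↔ _
  rw [col_free H hμ hv hc]
  exact ⟨fun h => ⟨mem_ff.2 hv, h⟩, fun h => h.2⟩

/-- a function of the sites at the hit -/
theorem yv_cmp {R : Type} [Zero R] (G : Gi (rc0 hS) A) (H : Hl A j) (F : Far A j)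
    (Ro : Root (rc0 hS) A i g) {T : Finset ℂ} (hT : T ⊆ ff S (st A)) {T' : Set (Cs hS)}
    (hc : Cmp A (T : Set ℂ) T') (z : ℂ → R) (k : ZMod 3) :
    yv (rc0 hS) A k T' (fun c => z (rep hS c)) = z (hv S (st A) k (T : Set ℂ)) := by
  have hX := hex G H Ro
  obtain ⟨d, hd⟩ := hit_ex G Ro k T'
  rw [yv_eq G hd, hv_eq hX hT ((hitO_hit H hc (th_spec d.2)).2 hd)]
  show z (rep hS ((rc0 hS).cell d)) = z d.1.1
  rw [rep_state d (hit_off G F hd)]

/-- **the touch of the giant `k`** -/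
theorem yv_site {R : Type} [Zero R] (G : Gi (rc0 hS) A) (H : Hl A j) (F : Far A j)
    (Ro : Root (rc0 hS) A i g) (hμ : ∀ c, Free A c → μ c = chiS hS h3 β c) (z : ℂ → R)
    (k : ZMod 3) :
    yv (rc0 hS) A k {c | μ c = 1} (fun c => z (rep hS c)) =
      z (hv S (st A) k ((β ∩ ff S (st A) : Finset ℂ) : Set ℂ)) :=
  yv_cmp G H F Ro Finset.inter_subset_right (cmp_chi H hμ) z k

/-- **the touch of the giant `k` in the complementary colouring** -/
theorem yv_site' {R : Type} [Zero R] (G : Gi (rc0 hS) A) (H : Hl A j) (F : Far A j)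
    (Ro : Root (rc0 hS) A i g) (hμ : ∀ c, Free A c → μ c = chiS hS h3 β c) (z : ℂ → R)
    (k : ZMod 3) :
    yv (rc0 hS) A k {c | μ c = 1}ᶜ (fun c => z (rep hS c)) =
      z (hv S (st A) k ((ff S (st A) \ β : Finset ℂ) : Set ℂ)) :=
  yv_cmp G H F Ro Finset.sdiff_subset (cmp_chi' H hμ) z k

end touch

/-! ### 58's end points on the whole net -/

section loc

open Crest.Agent.R143.Locx922 (Hol)
open Crest.Agent.R143.LocUx700 (deep agr_deep mem_Vin bd_Vin)
open Crest.Agent.R143.LocTx700 (SameT sameT_local)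
open Crest.Agent.R143.NetVx346 (Vin hitsV)
open Crest.Agent.R143.PolyUx346 (Poly)
open Crest.Agent.R143.MeasPx609 (yP)
open Crest.Agent.R143.TlAx58 (Vw Bw fl yP_clr yP_fl_clr)

variable {S S' : Finset ℂ} {P : Set ℂ} {d : ℝ} {L L' : ℂ → ZMod 3}

/-- the end points depend on the points of the closed region only -/
theorem zV_local (hd : 0 < d) (hH : Hol (S : Set ℂ) (deep P d) d)
    (h : ∀ x ∈ P, x ∈ S ↔ x ∈ S') (hL : ∀ x ∈ P, L x = L' x) (i : ZMod 3) (T : Set ℂ)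
    (z : ℂ → ℂ) :
    zV S (Vin S P d) (Bl S (Vin S P d) L) i T z =
      zV S' (Vin S' P d) (Bl S' (Vin S' P d) L') i T z := by
  have hV : Vin S P d = Vin S' P d := LocUx700.Vin_eq hd h
  have hs : SameT S S' (Vin S P d) := sameT_local hd hH (agr_deep hd h)
    fun v hv => (mem_Vin.1 (Finset.mem_coe.1 hv)).2
  have hl : ∀ x ∈ LocTx700.bd S (Vin S P d), L x = L' x := fun x hx => hL x (bd_Vin hd hH hx)
  have e : hitsV S (Vin S P d) (Bl S (Vin S P d) L) i T =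
      hitsV S' (Vin S P d) (Bl S' (Vin S P d) L') i T := by
    rw [LocUx700.hitsV_eq, LocUx700.hitsV_eq]
    ext t
    rw [LocTx700.mem_hitsV, LocTx700.mem_hitsV]
    refine ⟨hs.hitV_imp hl, hs.symm.hitV_imp fun x hx => ?_⟩
    rw [← hs.bd] at hx
    exact (hl x hx).symm
  rw [← hV]
  unfold zV
  rw [e]

variable {u : Poly} {Wd : Set ℂ} {β : Finset ℂ} {w : ZMod 3} {z : ℂ → ℂ}

theorem sw_agree (hPW : u.P ⊆ Wd) : ∀ x ∈ u.P, x ∈ S ↔ x ∈ TlAx58.Sw Wd S := by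
  intro x hx
  unfold TlAx58.Sw
  rw [Finset.mem_filter]
  exact ⟨fun h => ⟨h, hPW hx⟩, fun h => h.1⟩

theorem vw_eq (hd : 0 < d) (hPW : u.P ⊆ Wd) : Vw u d Wd S = Vin S u.P d :=
  (LocUx700.Vin_eq hd (sw_agree hPW)).symm

/-- the end point of a colouring -/
theorem yP_local (hd : 0 < d) (hH : Hol (S : Set ℂ) (deep u.P d) d) (hPW : u.P ⊆ Wd)
    (hβ : β ⊆ S) :
    yP u d Wd z w (clr S β) = zV S (Vin S u.P d) (Bl S (Vin S u.P d) u.Lab) w
      ((β ∩ Vin S u.P d : Finset ℂ) : Set ℂ) z := by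
  have e : β ∩ Vw u d Wd S = β ∩ Vin S u.P d := by rw [vw_eq hd hPW]
  rw [yP_clr w hβ, e]
  exact (zV_local hd hH (sw_agree hPW) (fun _ _ => rfl) w _ z).symm

/-- the end point of the complementary colouring -/
theorem yP_fl_local (hd : 0 < d) (hH : Hol (S : Set ℂ) (deep u.P d) d) (hPW : u.P ⊆ Wd) :
    yP u d Wd z w (fl (clr S β)) = zV S (Vin S u.P d) (Bl S (Vin S u.P d) u.Lab) w
      ((Vin S u.P d \ β : Finset ℂ) : Set ℂ) z := by
  have e : Vw u d Wd S \ (β ∩ Vw u d Wd S) = Vin S u.P d \ β := by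
    rw [vw_eq hd hPW]
    ext x
    simp only [Finset.mem_sdiff, Finset.mem_inter]
    tauto
  rw [yP_fl_clr w, e]
  exact (zV_local hd hH (sw_agree hPW) (fun _ _ => rfl) w _ z).symm

end loc

/-! ### the touches of 166 -/

section sys

variable {S : Finset ℂ} {hS : GP (S : Set ℂ)} {h3 : 3 ≤ S.card}
  {H R : Set (Cs hS)} {Q : Set (D0 S)} {ι : Type} {pa : ι → (Cs hS → ZMod 2) → D0 S}
  {na : ι → (Cs hS → ZMod 2) → ℕ} {Ev : ι → (Cs hS → ZMod 2) → Prop} {k j : ZMod 3}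
  {nn m r : ℕ} {F : ℕ → Set (D0 S)} {Bt : ℕ → Set ℂ} {n : ℕ} {σ : Cs hS → ZMod 2}
  {β : Finset ℂ}

/-- near indices -/
def Nr (r x y : ℕ) : Prop := x ≤ y + r ∧ y ≤ x + r

theorem Nr.trans {r s x y z : ℕ} (h : Nr r x y) (h' : Nr s y z) : Nr (r + s) x z := by
  unfold Nr at *
  omega

/-- free cells have the second colour -/
theorem mx_free (Y : Sys (rc0 hS) H R Q pa na Ev) {i : ι} (h : Ev i σ) (τ : Cs hS → ZMod 2)
    {c : Cs hS} (hc : Free (gA (rc0 hS) H R Q pa na Ev k σ) c) :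
    mx (rc0 hS) H R pa na Ev σ τ c = τ c := by
  refine (Y.hE (τ := τ) h).2 c fun hE => ?_
  rw [Y.gA_eq k h] at hc
  exact ((Y.ex h).not_free (i := k)).2 hE hc

/-- **the tiles of the touches and the indices of the hit vertices** -/
theorem touch (Y : Sys (rc0 hS) H R Q pa na Ev)
    (hx : Hx (rc0 hS) pa na Ev nn m F (tl hS Bt n) σ) (hnn : 0 < nn)
    (Hh : Hl (gA (rc0 hS) H R Q pa na Ev k σ) j) (Fa : Far (gA (rc0 hS) H R Q pa na Ev k σ) j)
    (h3 : 3 ≤ S.card) (β : Finset ℂ) :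
    Nr 1 (ka (rc0 hS) H R Q pa na Ev nn m F (tl hS Bt n) σ (chiS hS h3 β))
      (tlp Bt n (hv S (st (gA (rc0 hS) H R Q pa na Ev k σ)) k
        ((β ∩ ff S (st (gA (rc0 hS) H R Q pa na Ev k σ)) : Finset ℂ) : Set ℂ))) ∧
    Nr 1 (kb (rc0 hS) H R Q pa na Ev nn m F (tl hS Bt n) σ (chiS hS h3 β))
      (tlp Bt n (hv S (st (gA (rc0 hS) H R Q pa na Ev k σ)) (k + 1)
        ((ff S (st (gA (rc0 hS) H R Q pa na Ev k σ)) \ β : Finset ℂ) : Set ℂ))) := by
  obtain ⟨h1, h2⟩ := Y.index hx hnn (chiS hS h3 β) k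
  obtain ⟨x, hx'⟩ := hx
  have hEv : Ev x.1 σ := hx'.1
  have G : Gi (rc0 hS) (gA (rc0 hS) H R Q pa na Ev k σ) := by
    rw [Y.gA_eq k hEv]
    exact (Y.ex hEv).gi
  have Ro := (Y.ex hEv).root (i := k)
  have Ro' : Root (rc0 hS) (gA (rc0 hS) H R Q pa na Ev k σ) k
      (Splx117.gp (rc0 hS) (cfg (rc0 hS) σ) (pa x.1 σ) (rt (rc0 hS) Q pa na x.1 σ)) := by
    rw [Y.gA_eq k hEv]
    exact Ro
  have hμ : ∀ c, Free (gA (rc0 hS) H R Q pa na Ev k σ) c →
      mx (rc0 hS) H R pa na Ev σ (chiS hS h3 β) c = chiS hS h3 β c :=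
    fun c hc => mx_free Y hEv _ hc
  have e1 := yv_site (h3 := h3) G Hh Fa Ro' hμ (tlp Bt n) k
  have e2 := yv_site' (h3 := h3) G Hh Fa Ro' hμ (tlp Bt n) (k + 1)
  have e1' : yv (rc0 hS) (gA (rc0 hS) H R Q pa na Ev k σ) k
      {c | mx (rc0 hS) H R pa na Ev σ (chiS hS h3 β) c = 1} (tl hS Bt n) = _ := e1
  have e2' : yv (rc0 hS) (gA (rc0 hS) H R Q pa na Ev k σ) (k + 1)
      {c | mx (rc0 hS) H R pa na Ev σ (chiS hS h3 β) c = 1}ᶜ (tl hS Bt n) = _ := e2
  rw [e1'] at h1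
  rw [e2'] at h2
  exact ⟨h1, h2⟩

/-- colourings with a far hit on the class `k` -/
def BdH (S V : Finset ℂ) (A : ZMod 3 → Set ℂ) (B : ZMod 3 → Set ℂ) (η : ℝ) (k : ZMod 3)
    (T : Finset ℂ) : Prop :=
  η < ‖hv S A k (T : Set ℂ) - zV S V B k ((T ∩ V : Finset ℂ) : Set ℂ) (fun x => x)‖

/-- **the field `hθ`** from the comparison on the two arcs and near indices -/
theorem theta_of (Y : Sys (rc0 hS) H R Q pa na Ev)
    (hx : Hx (rc0 hS) pa na Ev nn m F (tl hS Bt n) σ) (hnn : 0 < nn)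
    (Hh : Hl (gA (rc0 hS) H R Q pa na Ev k σ) j) (Fa : Far (gA (rc0 hS) H R Q pa na Ev k σ) j)
    (h3 : 3 ≤ S.card) {V : Finset ℂ} {B : ZMod 3 → Set ℂ} {η θ₁ θ₂ : ℝ} {a b : Finset ℂ → ℕ}
    (hV : V ⊆ ff S (st (gA (rc0 hS) H R Q pa na Ev k σ)))
    (p1 : pr (ff S (st (gA (rc0 hS) H R Q pa na Ev k σ)))
      (BdH S V (st (gA (rc0 hS) H R Q pa na Ev k σ)) B η k) ≤ θ₁)
    (p2 : pr (ff S (st (gA (rc0 hS) H R Q pa na Ev k σ)))
      (BdH S V (st (gA (rc0 hS) H R Q pa na Ev k σ)) B η (k + 1)) ≤ θ₂)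
    (ia : ∀ β ⊆ S, ∀ v ∈ st (gA (rc0 hS) H R Q pa na Ev k σ) k,
      ‖v - zV S V B k ((β ∩ V : Finset ℂ) : Set ℂ) (fun x => x)‖ ≤ η → Nr r (tlp Bt n v) (a β))
    (ib : ∀ β ⊆ S, ∀ v ∈ st (gA (rc0 hS) H R Q pa na Ev k σ) (k + 1),
      ‖v - zV S V B (k + 1) ((V \ β : Finset ℂ) : Set ℂ) (fun x => x)‖ ≤ η →
        Nr r (tlp Bt n v) (b β)) :
    av S.powerset (far (r + 1)
      (fun (_ : Finset ℂ) τ => ka (rc0 hS) H R Q pa na Ev nn m F (tl hS Bt n) σ (chiS hS h3 τ))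
      (fun (_ : Finset ℂ) τ => kb (rc0 hS) H R Q pa na Ev nn m F (tl hS Bt n) σ (chiS hS h3 τ))
      a b β) ≤ θ₁ + θ₂ := by
  set A := gA (rc0 hS) H R Q pa na Ev k σ with hA
  have hsub : ff S (st A) ⊆ S := Finset.filter_subset _ _
  obtain ⟨x, hx'⟩ := id hx
  have hEv : Ev x.1 σ := hx'.1
  have G : Gi (rc0 hS) A := by
    rw [hA, Y.gA_eq k hEv]
    exact (Y.ex hEv).gi
  have Ro' : Root (rc0 hS) A k
      (Splx117.gp (rc0 hS) (cfg (rc0 hS) σ) (pa x.1 σ) (rt (rc0 hS) Q pa na x.1 σ)) := by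
    rw [hA, Y.gA_eq k hEv]
    exact (Y.ex hEv).root (i := k)
  have hX : Hex S (st A) := hex G Hh Ro'
  have key : ∀ τ ∈ S.powerset, far (r + 1)
      (fun (_ : Finset ℂ) τ => ka (rc0 hS) H R Q pa na Ev nn m F (tl hS Bt n) σ (chiS hS h3 τ))
      (fun (_ : Finset ℂ) τ => kb (rc0 hS) H R Q pa na Ev nn m F (tl hS Bt n) σ (chiS hS h3 τ))
      a b β τ ≤ (if BdH S V (st A) B η k (τ ∩ ff S (st A)) then (1 : ℝ) else 0) +
        (if BdH S V (st A) B η (k + 1) (ff S (st A) \ τ) then (1 : ℝ) else 0) := by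
    intro τ hτ
    have hτ' := Finset.mem_powerset.1 hτ
    obtain ⟨t1, t2⟩ := touch Y hx hnn Hh Fa h3 τ
    have far1 : ∀ {x y : ℝ}, 0 ≤ x → 0 ≤ y → far (r + 1)
        (fun (_ : Finset ℂ) τ => ka (rc0 hS) H R Q pa na Ev nn m F (tl hS Bt n) σ (chiS hS h3 τ))
        (fun (_ : Finset ℂ) τ => kb (rc0 hS) H R Q pa na Ev nn m F (tl hS Bt n) σ (chiS hS h3 τ))
        a b β τ ≤ 1 := by
      intro x y _ _
      unfold far
      split_ifs <;> norm_num
    by_cases b1 : BdH S V (st A) B η k (τ ∩ ff S (st A))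
    · rw [if_pos b1]
      have h2 : (0 : ℝ) ≤ if BdH S V (st A) B η (k + 1) (ff S (st A) \ τ) then (1 : ℝ) else 0 := by
        split_ifs <;> norm_num
      have := far1 h2 h2
      linarith
    · by_cases b2 : BdH S V (st A) B η (k + 1) (ff S (st A) \ τ)
      · rw [if_neg b1, if_pos b2]
        have := far1 (le_refl (0 : ℝ)) (le_refl (0 : ℝ))
        linarith
      · rw [if_neg b1, if_neg b2, add_zero]
        have c1 : hv S (st A) k ((τ ∩ ff S (st A) : Finset ℂ) : Set ℂ) ∈ st A k :=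
          hv_mem hX Finset.inter_subset_right
        have c2 : hv S (st A) (k + 1) ((ff S (st A) \ τ : Finset ℂ) : Set ℂ) ∈ st A (k + 1) :=
          hv_mem hX Finset.sdiff_subset
        have e1 : τ ∩ ff S (st A) ∩ V = τ ∩ V := by
          rw [Finset.inter_assoc, Finset.inter_eq_right.2 hV]
        have e2 : (ff S (st A) \ τ) ∩ V = V \ τ := by
          ext v
          simp only [Finset.mem_sdiff, Finset.mem_inter]
          exact ⟨fun h => ⟨h.2, h.1.2⟩, fun h => ⟨⟨hV h.1, h.2⟩, h.1⟩⟩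
        unfold BdH at b1 b2
        rw [e1, not_lt] at b1
        rw [e2, not_lt] at b2
        have n1 := t1.trans (ia τ hτ' _ c1 b1)
        have n2 := t2.trans (ib τ hτ' _ c2 b2)
        obtain ⟨n3, n4⟩ := n1
        obtain ⟨n5, n6⟩ := n2
        rw [add_comm 1 r] at n3 n4 n5 n6
        exact le_of_eq (if_pos ⟨⟨n3, n4⟩, n5, n6⟩)
  refine (av_mono key).trans ?_
  rw [av_add, av_pr hsub (BdH S V (st A) B η k), av_pr' hsub (BdH S V (st A) B η (k + 1))]
  exact add_le_add p1 p2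

open Crest.Agent.R143.Locx922 (Hol)
open Crest.Agent.R143.LocUx700 (deep)
open Crest.Agent.R143.NetVx346 (Vin)
open Crest.Agent.R143.PolyUx346 (Poly)
open Crest.Agent.R143.TlAx58 (ta tb tlz gt)
open Crest.Agent.R143.Layx416 (rr)

/-- **the field `hθ`, literal**: `w` = white label, `k = w + 1`; `tb`, `ta` = 58's tiles of the end
points of `u`; `N` = number of tiles (time order against space order). Input: 930's comparison and
"a site of the giant near a point has a near index" on the two arcs -/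
theorem theta_poly {σ₀ : Finset ℂ} (Y : Sys (rc0 hS) H R Q pa na Ev) {nt mt : ℕ}
    (hx : Hx (rc0 hS) pa na Ev nt mt F (tl hS Bt n) (chiS hS h3 σ₀)) (hnt : 0 < nt)
    (Hh : Hl (gA (rc0 hS) H R Q pa na Ev k (chiS hS h3 σ₀)) j)
    (Fa : Far (gA (rc0 hS) H R Q pa na Ev k (chiS hS h3 σ₀)) j)
    {u : Poly} {d η θ h : ℝ} {Wd : Set ℂ} {w : ZMod 3} {W : ℤ → ℤ × ℤ} {A e : ℤ → ℤ} {N : ℕ}
    (hd : 0 < d) (hH : Hol (S : Set ℂ) (deep u.P d) d) (hPW : u.P ⊆ Wd) (hk : k = w + 1)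
    (hV : Vin S u.P d ⊆ ff S (st (gA (rc0 hS) H R Q pa na Ev k (chiS hS h3 σ₀))))
    (hp : ∀ i : ZMod 3, pr (ff S (st (gA (rc0 hS) H R Q pa na Ev k (chiS hS h3 σ₀))))
      (fun β => η < ‖hv S (st (gA (rc0 hS) H R Q pa na Ev k (chiS hS h3 σ₀))) i (β : Set ℂ) -
        zV S (Vin S u.P d) (Bl S (Vin S u.P d) u.Lab) i
          ((β ∩ Vin S u.P d : Finset ℂ) : Set ℂ) id‖) ≤ θ)
    (ia : ∀ v ∈ st (gA (rc0 hS) H R Q pa na Ev k (chiS hS h3 σ₀)) k, ∀ v' : ℂ, ‖v - v'‖ ≤ η →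
      Nr r (tlp Bt n v) (N - tlz (gt h W A e w) (rr A e w) (Layx416.nn A e w) v'))
    (ib : ∀ v ∈ st (gA (rc0 hS) H R Q pa na Ev k (chiS hS h3 σ₀)) (k + 1), ∀ v' : ℂ,
      ‖v - v'‖ ≤ η → Nr r (tlp Bt n v) (N - tlz (gt h W A e w) 0 (rr A e w) v')) :
    av S.powerset (far (r + 1)
      (fun σ τ => ka (rc0 hS) H R Q pa na Ev nt mt F (tl hS Bt n) (chiS hS h3 σ) (chiS hS h3 τ))
      (fun σ τ => kb (rc0 hS) H R Q pa na Ev nt mt F (tl hS Bt n) (chiS hS h3 σ) (chiS hS h3 τ))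
      (fun τ => N - tb u d h Wd W A e w (clr S τ)) (fun τ => N - ta u d h Wd W A e w (clr S τ))
      σ₀) ≤ θ + θ := by
  have hk2 : k + 1 = w + 2 := by rw [hk, add_assoc]; rfl
  refine theta_of (a := fun τ => N - tb u d h Wd W A e w (clr S τ))
    (b := fun τ => N - ta u d h Wd W A e w (clr S τ)) (β := σ₀) Y hx hnt Hh Fa h3 (η := η) hV
    (hp k) (hp (k + 1)) (fun β hβ v hv hn => ?_) fun β hβ v hv hn => ?_
  · have e1 : MeasPx609.yP u d Wd id (w + 1) (clr S β) = zV S (Vin S u.P d)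
        (Bl S (Vin S u.P d) u.Lab) k ((β ∩ Vin S u.P d : Finset ℂ) : Set ℂ) (fun x => x) := by
      rw [yP_local hd hH hPW hβ, hk]
      rfl
    have h1 := ia v hv _ hn
    rw [← e1] at h1
    exact h1
  · have e1 : MeasPx609.yP u d Wd id (w + 2) (TlAx58.fl (clr S β)) = zV S (Vin S u.P d)
        (Bl S (Vin S u.P d) u.Lab) (k + 1) ((Vin S u.P d \ β : Finset ℂ) : Set ℂ)
          (fun x => x) := by
      rw [yP_fl_local hd hH hPW, hk2]
      rfl
    have h1 := ib v hv _ hn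
    rw [← e1] at h1
    exact h1

end sys

end Crest.Agent.R143.NearBx139
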