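import Crest.Agent.R143.SmI_304
import Crest.Agent.R143.CorE_133
import Crest.Agent.R143.LnkG_372
import Crest.Agent.R143.LnkL_927
import Crest.Agent.R143.GWX_597

/-!
# Row 143 (S0194), CORE-C, RIG: field `small` for the family of all out strands (helper304)

168's family on `rc0 hS`, `S = SU u ε ω` (133), window of `SmE` = `UU u`, `k ≤ 18 η`.
* `nr_UU`, `all_NrS` : `Nr 0 (m h) (cells u.U) r ⊆ UU u`, strips inside `NrS .. (2 h - 2 d)`
* `hd_U` : circumdiscs of the darts off the white giant are in `UU u`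
* `far_S` : 749's far states on a fixed environment
* **`small_U`** : `SmE` + zones + `CorH` and `EvA` on `g > 0` ⟹ hypothesis `small` of 654's `goodI`
-/

set_option autoImplicit false
set_option linter.unusedSectionVars false

noncomputable section

open scoped Classical

namespace Crest.Agent.R143.SmJx304

open MeasureTheory Set Filter Topology
open Crest.ProbabilityR.Voronoi
open Crest.Agent.R143.B0x346 Crest.Agent.R143.DelGx806 Crest.Agent.R143.DelRx806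
  Crest.Agent.R143.FinCx811 Crest.Agent.R143.Resax778 Crest.Agent.R143.SmallAx304
  Crest.Agent.R143.ColXx829 Crest.Agent.R143.QuenSx654 Crest.Agent.R143.SysCx166
open Crest.Agent.R143.Frame1x395 Crest.Agent.R143.Frame2x395 Crest.Agent.R143.Frame3x395
  Crest.Agent.R143.Frame4x395 Crest.Agent.R143.Frame8x395 Crest.Agent.R143.Frame9x395
  Crest.Agent.R143.Frame10x395
open Crest.Agent.R143.Frame5x395 (sd mem_sd th th_spec)
open Crest.Agent.R143.Coarse2x166 (zs)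
open Crest.Agent.R143.C2SDx395 (zc)
open Crest.Agent.R143.Mass1x302 (cdisc)
open Crest.Agent.R143.OutSx358 (Sys OO wg rt gr)
open Crest.Agent.R143.SysAx168 (EvA)
open Crest.Agent.R143.Uniqx323 (Zn Strd)
open Crest.Agent.R143.RcTx422 (Hc RC RC_mono Hc_eq)
open Crest.Agent.R143.CorMx970 (av)
open Crest.Agent.R143.IndLoc3x279 (clr)
open Crest.Agent.R143.PP0x831 (LocalOn)
open Crest.Agent.R143.CorEx133 Crest.Agent.R143.PolyUx346 Crest.Agent.R143.LayUx416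
open Crest.Agent.R143.ExtUx387 (Nr NrS mem_FaS off_disc_strd)
open Crest.Agent.R143.BigUx749 (ClR far_corH)
open Crest.Agent.R143.WLocx713 (sX)
open Crest.Agent.R143.CorHx713 (CorH)
open Crest.Agent.R143.TileRx228 (RR)
open Crest.Agent.R143.Brkx478 (Bk cells)
open Crest.Agent.R143.LnkLx927 (All)

/-! ### geometry -/

section geo

variable {u : Poly} {m M : ℕ} {p W : ℤ → ℤ × ℤ} {A e : ℤ → ℤ} {η d : ℝ}

/-- neighbourhoods of the polygon are in `UU` -/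
theorem nr_norm {r : ℝ} (hr : r ≤ 1) {z : ℂ} (hz : z ∈ Nr 0 u.s (cells (u.U : Set Bk)) r) :
    ‖z‖ < Rp u + 4 := by
  by_contra hc
  exact mem_FaS.1 (fas hr (not_lt.1 hc)) hz

theorem nr_UU {r : ℝ} (hr : r ≤ 1) : Nr 0 u.s (cells (u.U : Set Bk)) r ⊆ UU u := fun _ hz =>
  mem_UU.2 (nr_norm hr hz).le

/-- the strips are near the polygon -/
theorem all_NrS (L : LayU u m M p W A e) (hh : (m : ℝ) * (100 * η) = u.s)
    (hde : 100 * d ≤ η) :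
    All η W ⊆ NrS 0 u.s (cells (u.U : Set Bk)) (2 * (100 * η) - 2 * d) := by
  have h0 := L.h_pos hh
  have hm := L.m_pos
  rintro s ⟨b, hs⟩
  have hf := L.fine
  obtain ⟨x, hx, x1, x2⟩ := LnkGx372.RR_sharp (h := 100 * η) hf h0
    (by have := hm; omega) (A' := 19 / 2 * η) (B' := 103 / 2 * η) (by linarith) (by linarith) hs
  obtain ⟨q, hq, hx⟩ := mem_iUnion₂.1 hx
  obtain ⟨y1, y2, y3, y4⟩ := hx
  have e1 : ((m : ℤ) : ℝ) * (100 * η) = u.s := by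
    rw [← hh]
    push_cast
    ring
  rw [e1] at y1 y2 y3 y4
  obtain ⟨a1, a2⟩ := abs_lt.1 x1
  obtain ⟨a3, a4⟩ := abs_lt.1 x2
  refine ⟨q, hq, ?_, ?_, ?_, ?_⟩
  · rw [Complex.zero_re]; linarith
  · rw [Complex.zero_re]; linarith
  · rw [Complex.zero_im]; linarith
  · rw [Complex.zero_im]; linarith

end geo

/-- 749's far states on a fixed environment -/
theorem far_S {X : Set (ℂ × Bool)} {U : Set ℂ} {M : ℕ} {W : ℤ → ℤ × ℤ} {η d : ℝ} {o : ℤ}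
    {N : ℕ} (H : CorH X U M W η d o N) (h3 : 3 ≤ N) {S : Finset ℂ} {hS : GP (S : Set ℂ)}
    (e : sX X = S) {σ : Cs hS → ZMod 2} {Z : Zn (rc0 hS)} {b : ZMod 2} {q : D0 S} {n : ℕ}
    (h : Strd (rc0 hS) Z b σ q n)
    (hE : Z.E ⊆ ClR hS (RR (10 * η) (52 * η) (100 * η) W (o + N - 1)))
    (hW : Z.W ⊆ ClR hS (RR (10 * η) (52 * η) (100 * η) W o)) {k : ℝ} (hk : k ≤ 18 * η) :
    ∃ u v, u ≤ n ∧ v ≤ n ∧
      (k ≤ |(((stp (rc0 hS) (cfg (rc0 hS) σ))^[u] q).1.1 -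
          ((stp (rc0 hS) (cfg (rc0 hS) σ))^[v] q).1.1).re| ∨
        k ≤ |(((stp (rc0 hS) (cfg (rc0 hS) σ))^[u] q).1.1 -
          ((stp (rc0 hS) (cfg (rc0 hS) σ))^[v] q).1.1).im|) := by
  subst e
  exact far_corH H h3 h hE hW hk

section env

variable {u : Poly} {ε d K1 c2 ρ0 : ℝ} {ω : Sample} {m M : ℕ} {p W : ℤ → ℤ × ℤ} {A e : ℤ → ℤ}
  {η : ℝ} {hS : GP (SU u ε ω : Set ℂ)}

/-- cells of sites of a set inside `UU` -/
theorem clR_RC (C : CorEnv u ε d K1 c2 ρ0 ω) {F : Set ℂ} (hF : F ⊆ UU u) :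
    ClR hS F ⊆ RC hS F := by
  rintro c ⟨s, h1, h2, h3⟩
  exact ⟨s, h1, h2, C.inn (hF h2), h3⟩

/-- **304's `hd` on the environment of `u`** -/
theorem hd_U (C : CorEnv u ε d K1 c2 ρ0 ω) (L : LayU u m M p W A e)
    (hh : (m : ℝ) * (100 * η) = u.s) (hde : 100 * d ≤ η) {R : Set (Cs hS)} {Z : Zn (rc0 hS)}
    {σ : Cs hS → ZMod 2} {q : D0 (SU u ε ω)} {n : ℕ} (hZR : Z.R ⊆ RC hS (All η W))
    (hR : R ⊆ RC hS (All η W)) (hst : Strd (rc0 hS) Z 1 σ q n) (d0 : D0 (SU u ε ω))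
    (hd0 : (rc0 hS).cell d0 ∉ Extx358.Ww (rc0 hS) (Hc hS) R q n σ) :
    cdisc (d0.1.1, d0.1.2, th (SU u ε ω) d0.1) ⊆ UU u := by
  have h0 := L.h_pos hh
  have hm := L.m_pos
  have hle := h_le L hh
  have hd := C.d0
  have e1 : ((m : ℤ) : ℝ) * (100 * η) = u.s := by
    rw [← hh]
    push_cast
    ring
  have e2 : ((2 : ℤ) : ℝ) * (100 * η) = 2 * (100 * η) := by
    push_cast
    ring
  refine off_disc_strd (c := 0) (L := RU u) (d := d) (h := 100 * η) (m := (m : ℤ)) (k := 2)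
    (o := 0) (B := All η W) C.dns h0 (by norm_num) (by omega) (U := (u.U : Set Bk)) u.con' ?_ ?_
    hZR hR hst ?_ d0 hd0
  · rw [e1, e2]
    intro z hz
    rw [sub_zero]
    have := nr_norm (u := u) (by linarith) hz
    unfold RU
    linarith
  · rw [e1, e2]
    exact all_NrS L hh hde
  · rw [e1, e2]
    exact nr_UU (by linarith)

/-- **field `small` for the family of all out strands** -/
theorem small_U (C : CorEnv u ε d K1 c2 ρ0 ω) {k e1 : ℝ} (h : SmE ε ω (UU u) k e1)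
    (L : LayU u m M p W A e) (hh : (m : ℝ) * (100 * η) = u.s) (hde : 100 * d ≤ η)
    (hk : k ≤ 18 * η) (h3 : 3 ≤ (SU u ε ω).card) {h₀ : Cs hS} (hh₀ : h₀ ∈ Hc hS)
    {R : Set (Cs hS)} {Q : Set (D0 (SU u ε ω))} {Z : Zn (rc0 hS)} {o : ℤ} {n : ℕ} (hn : 3 ≤ n)
    (hZR : Z.R ⊆ RC hS (All η W)) (hR : R ⊆ RC hS (All η W))
    (hE : Z.E ⊆ ClR hS (RR (10 * η) (52 * η) (100 * η) W (o + n - 1)))
    (hW : Z.W ⊆ ClR hS (RR (10 * η) (52 * η) (100 * η) W o))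
    (Y : Sys (rc0 hS) {h₀} R Q (fun (i : D0 (SU u ε ω) × ℕ) _ => i.1) (fun i _ => i.2)
      (EvA (rc0 hS) {h₀} R Q Z)) (d₀ : D0 (SU u ε ω))
    {g : Set (ℂ × Bool) → ℝ} (g0 : ∀ X, 0 ≤ g X) (g1 : ∀ X, g X ≤ 1)
    (hg : ∀ β ∈ (SU u ε ω).powerset, g (clr (SU u ε ω) β) = g (Xc hS h3 (chiS hS h3 β)))
    (hx : ∀ σ, 0 < g (Xc hS h3 σ) → CorH (Xc hS h3 σ) (UU u) M W η d o n ∧
      ∃ i, EvA (rc0 hS) {h₀} R Q Z i σ) :
    av (SU u ε ω).powerset (fun σ => g (clr (SU u ε ω) σ) * av (SU u ε ω).powerset fun τ =>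
      ‖Vb (rc0 hS) {h₀} R Q (fun (i : D0 (SU u ε ω) × ℕ) _ => i.1) (fun i _ => i.2)
        (EvA (rc0 hS) {h₀} R Q Z) d₀ (zs (rc0 hS) om (zc hS id)) (chiS hS h3 σ)
        (chiS hS h3 τ)‖) ≤ e1 := by
  have hε := C.e0
  refine SmIx304.small_sys h h3 ?_ ?_ Y d₀ g0 g1 hg ?_
  · intro z hz
    rw [Finset.mem_coe, mem_SU hε]
    refine ⟨fun h' => ⟨h', ?_⟩, fun h' => h'.1⟩
    have h1 := mem_UU.1 hz
    have h2 := one_le_Rp u
    unfold RU
    linarith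
  · intro v _ hv
    exact C.inn hv
  · intro σ hσ
    obtain ⟨H, i, hi⟩ := hx σ hσ
    refine ⟨i, hi, fun d1 hd1 => ?_, ?_⟩
    · refine hd_U C L hh hde hZR hR hi.1 d1 ?_
      rw [Hc_eq hh₀]
      exact hd1
    · exact far_S H hn sX_Xc hi.1 hE hW hk

/-- the same with a weight local in a region without hull sites -/
theorem small_U' (C : CorEnv u ε d K1 c2 ρ0 ω) {k e1 : ℝ} (h : SmE ε ω (UU u) k e1)
    (L : LayU u m M p W A e) (hh : (m : ℝ) * (100 * η) = u.s) (hde : 100 * d ≤ η)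
    (hk : k ≤ 18 * η) (h3 : 3 ≤ (SU u ε ω).card) {h₀ : Cs hS} (hh₀ : h₀ ∈ Hc hS)
    {R : Set (Cs hS)} {Q : Set (D0 (SU u ε ω))} {Z : Zn (rc0 hS)} {o : ℤ} {n : ℕ} (hn : 3 ≤ n)
    (hZR : Z.R ⊆ RC hS (All η W)) (hR : R ⊆ RC hS (All η W))
    (hE : Z.E ⊆ ClR hS (RR (10 * η) (52 * η) (100 * η) W (o + n - 1)))
    (hW : Z.W ⊆ ClR hS (RR (10 * η) (52 * η) (100 * η) W o))
    (Y : Sys (rc0 hS) {h₀} R Q (fun (i : D0 (SU u ε ω) × ℕ) _ => i.1) (fun i _ => i.2)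
      (EvA (rc0 hS) {h₀} R Q Z)) (d₀ : D0 (SU u ε ω))
    {g : Set (ℂ × Bool) → ℝ} {G : Set ℂ} (gl : LocalOn G g) (hG : G ⊆ UU u)
    (g0 : ∀ X, 0 ≤ g X) (g1 : ∀ X, g X ≤ 1)
    (hx : ∀ σ, 0 < g (Xc hS h3 σ) → CorH (Xc hS h3 σ) (UU u) M W η d o n ∧
      ∃ i, EvA (rc0 hS) {h₀} R Q Z i σ) :
    av (SU u ε ω).powerset (fun σ => g (clr (SU u ε ω) σ) * av (SU u ε ω).powerset fun τ =>
      ‖Vb (rc0 hS) {h₀} R Q (fun (i : D0 (SU u ε ω) × ℕ) _ => i.1) (fun i _ => i.2)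
        (EvA (rc0 hS) {h₀} R Q Z) d₀ (zs (rc0 hS) om (zc hS id)) (chiS hS h3 σ)
        (chiS hS h3 τ)‖) ≤ e1 :=
  small_U C h L hh hde hk h3 hh₀ hn hZR hR hE hW Y d₀ g0 g1
    (fun _ _ => (GWXx597.loc_chiS gl fun _ _ hv => C.inn (hG hv)).symm) hx

end env

end Crest.Agent.R143.SmJx304
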