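import Crest.Agent.R143.RigZ_609
import Crest.Agent.R143.GoodA_654
import Crest.Agent.R143.CorrC_831
import Crest.Agent.R143.HV_832
import Crest.Agent.R143.SmJ_304
import Crest.Agent.R143.DryQ_829
import Crest.Agent.R143.GPosC_348

/-!
# Row 143 (S0194), RIG: `QuenX` at one environment (helper597)

Objects of 609's `RigZd_609`, one polygon `u : Poly`, white label `w`, scale `N` (`u.n + 4 ≤ N`), mesh
`ε`, one environment `ω` with 133's `CorEnv u ε √ε ..`; sites `SU u ε ω`, tiles `nT u w N`, first tile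
`oT u w N`, unit `et N`, tile of the root `rT u w N`.

* `CW_UU`, `inn_CW` : the corridor is inside `UU u`, no hull sites; `gW_xc`
* **`Sx`** : the system of the out strands of one environment (831's `CorrD`)
* `Sx.hx`, `Sx.hV`, `Sx.small` : hypotheses of 654's `quenI`
* **`quen_u`** : `QuenX` from `Sx`, `SmE`, `hC` (930), `hθ` (737 / 139 / 798), `hQ` (810 / 829)
-/

set_option autoImplicit false
set_option linter.unusedSectionVars false
set_option linter.style.haveILetI false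

noncomputable section

open scoped Classical

namespace Crest.Agent.R143.QuenIx597

open MeasureTheory Set Filter Topology
open scoped ENNReal
open Crest.ProbabilityR.Voronoi
open Crest.Agent.R143.PP0x831 Crest.Agent.R143.Janx304 Crest.Agent.R143.Dbl2x609
open Crest.Agent.R143.B0x346 Crest.Agent.R143.DelGx806 Crest.Agent.R143.DelRx806
  Crest.Agent.R143.FinCx811 Crest.Agent.R143.Resax778 Crest.Agent.R143.SmallAx304
open Crest.Agent.R143.Frame1x395 Crest.Agent.R143.Frame2x395 Crest.Agent.R143.Frame3x395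
  Crest.Agent.R143.Frame4x395
open Crest.Agent.R143.Frame8x395 hiding cfg
open Crest.Agent.R143.Frame9x395 Crest.Agent.R143.Frame10x395
open Crest.Agent.R143.Frame5x395 (th)
open Crest.Agent.R143.Coarse2x166 (zs)
open Crest.Agent.R143.C2SDx395 (zc)
open Crest.Agent.R143.C2SBx395 Crest.Agent.R143.C2SCx395
open Crest.Agent.R143.NetUx346 Crest.Agent.R143.NetVx346
open Crest.Agent.R143.CorMx970 (av far)
open Crest.Agent.R143.IndLoc3x279 (clr)
open Crest.Agent.R143.OutSx358 (Sys gA ac)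
open Crest.Agent.R143.SysAx168 (EvA)
open Crest.Agent.R143.Uniqx323 (Zn Strd)
open Crest.Agent.R143.SysCx166 Crest.Agent.R143.SysDx166 Crest.Agent.R143.RigDx654
  Crest.Agent.R143.QuenSx654
open Crest.Agent.R143.ColXx829 (Xc)
open Crest.Agent.R143.RcTx422 (Hc RC Hc_eq)
open Crest.Agent.R143.BigUx749 (ClR)
open Crest.Agent.R143.LnkLx927 (All)
open Crest.Agent.R143.RingDx117 (RD)
open Crest.Agent.R143.PolyUx346 (Poly)
open Crest.Agent.R143.CorEx133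
open Crest.Agent.R143.RigPx854 (ly ly_spec mN mN_hN mN_10 hN hN_pos nT)
open Crest.Agent.R143.RigZdx609 Crest.Agent.R143.LayUx416 Crest.Agent.R143.Layx416
open Crest.Agent.R143.RigZx609 (QuenX)
open Crest.Agent.R143.TileRx228
open Crest.Agent.R143.CorHx713 (CorH xx yy)
open Crest.Agent.R143.CorrIx831 (Ft tlt Bk Stk SDS)
open Crest.Agent.R143.SpRx169 (QX)
open Crest.Agent.R143.Sptx832 (VX)
open Crest.Agent.R143.SpMx169 (fP)
open Crest.Agent.R143.R10Px923 (Cpl)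

variable {N : ℕ} {ε : ℝ} {u : Poly} {w : ZMod 3}

/-- the first tile of the corridor -/
abbrev oT (u : Poly) (w : ZMod 3) (N : ℕ) : ℤ := al (ly u N).A (ly u N).e w

/-- gate of the root -/
abbrev rT (u : Poly) (w : ZMod 3) (N : ℕ) : ℕ := rr (ly u N).A (ly u N).e w

/-! ### the corridor and the discs -/

section geo

variable (Z : TData) (hN : u.n + 4 ≤ N) (hε : 0 < ε)

theorem mh (hN : u.n + 4 ≤ N) : (mN u N : ℝ) * (100 * et N) = u.s := by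
  rw [et_h]
  exact mN_hN (by omega)

/-- the corridor is inside `UU u` -/
theorem CW_UU : CW Z u w hN hε ⊆ UU u := by
  have h1 := Z.num N ε
  have h2 := et_pos N
  rw [CW_eq]
  exact DisIx749.sub_UU (ly_spec hN) (mNh Z hN ε) (by rw [h1.A', h1.h]; linarith)
    (by rw [h1.A', h1.B']; linarith) (by rw [h1.B']; linarith) (by rw [h1.B', h1.h]; linarith)

theorem gW_nonneg (X : Set (ℂ × Bool)) : 0 ≤ gW Z u w hN hε X := LimSx133.gR_nonneg _ _ _ _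

theorem gW_le_one (X : Set (ℂ × Bool)) : gW Z u w hN hε X ≤ 1 := LimSx133.gR_le_one _ _ _ _

theorem gW_local : LocalOn (CW Z u w hN hε) (gW Z u w hN hε) :=
  LimSx133.gR_local (net Z u w hN hε) (hNu Z hN hε)

theorem gW_gw {S β : Finset ℂ} : gW Z u w hN hε (clr S β) =
    ((net Z u w hN hε).gw (uM hN) (uM hN) (paint S β)).toReal :=
  LimSx133.gR_fin (net Z u w hN hε) (hNu Z hN hε) ColXx829.clr_fin

variable {ω : Sample} {d K1 c2 ρ0 : ℝ}

/-- no hull site in the corridor -/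
theorem inn_CW (C : CorEnv u ε d K1 c2 ρ0 ω) {v : ℂ} (_ : v ∈ SU u ε ω)
    (h : v ∈ CW Z u w hN hε) : ¬ OnHull (SU u ε ω) v := C.inn (CW_UU Z hN hε h)

/-- the weight in colourings of the cells -/
theorem gW_xc (C : CorEnv u ε d K1 c2 ρ0 ω) {hS : GP (SU u ε ω : Set ℂ)}
    {h3 : 3 ≤ (SU u ε ω).card} {β : Finset ℂ} :
    gW Z u w hN hε (Xc hS h3 (chiS hS h3 β)) = gW Z u w hN hε (clr (SU u ε ω) β) :=
  GWXx597.loc_chiS (gW_local Z hN hε) fun _ hv h => inn_CW Z hN hε C hv h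

end geo

/-! ### the system of the out strands -/

section sys

variable (Z : TData) (w) (hN : u.n + 4 ≤ N) (hε : 0 < ε) {ω : Sample}
  (hS : GP (SU u ε ω : Set ℂ)) (h3 : 3 ≤ (SU u ε ω).card)

/-- states of the tile of the root -/
abbrev Qs (w : ZMod 3) (N : ℕ) : Set (D0 (SU u ε ω)) :=
  RD (SU u ε ω) (Bk (et N) (ly u N).W (oT u w N) (rT u w N - 1))

/-- first state -/
abbrev paI : D0 (SU u ε ω) × ℕ → (Cs hS → ZMod 2) → D0 (SU u ε ω) := fun i _ => i.1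

/-- length -/
abbrev naI : D0 (SU u ε ω) × ℕ → (Cs hS → ZMod 2) → ℕ := fun i _ => i.2

/-- the events -/
abbrev EvI (w : ZMod 3) (N : ℕ) (h₀ : Cs hS) (R : Set (Cs hS)) (Zz : Zn (rc0 hS)) :
    D0 (SU u ε ω) × ℕ → (Cs hS → ZMod 2) → Prop := EvA (rc0 hS) {h₀} R (Qs w N) Zz

/-- **one environment**: the system of the out strands (831's `CorrD`) -/
structure Sx (h₀ : Cs hS) (R : Set (Cs hS)) (Zz : Zn (rc0 hS)) : Prop where
  h0 : h₀ ∈ Hc hS
  Y : Sys (rc0 hS) {h₀} R (Qs w N) (paI hS) (naI hS) (EvI hS w N h₀ R Zz)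
  nac : ∀ j σ, EvI hS w N h₀ R Zz j σ → h₀ ∉ ac (rc0 hS) j.1 j.2 σ
  zR : Zz.R ⊆ RC hS (All (et N) (ly u N).W)
  rR : R ⊆ RC hS (All (et N) (ly u N).W)
  zE : Zz.E ⊆ ClR hS (RR (10 * et N) (52 * et N) (100 * et N) (ly u N).W
    (oT u w N + nT u w N - 1))
  zW : Zz.W ⊆ ClR hS (RR (10 * et N) (52 * et N) (100 * et N) (ly u N).W (oT u w N))
  cor : ∀ s, 0 < gW Z u w hN hε (Xc hS h3 s) →
    CorH (Xc hS h3 s) (UU u) (ly u N).M (ly u N).W (et N) √ε (oT u w N) (nT u w N)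
  out : ∀ s, 0 < gW Z u w hN hε (Xc hS h3 s) → ∃ (p : ℕ → D0 (SU u ε ω)) (q : D0 (SU u ε ω))
    (k : ℕ) (T : ℕ → ℕ), (∀ j : ℕ, (p j).1 =
      (yy (et N) (ly u N).W (Xc hS h3 s) (oT u w N + j),
        xx (et N) (ly u N).W (Xc hS h3 s) (oT u w N + j))) ∧
    SDS hS s (et N) (ly u N).W (oT u w N) (nT u w N) p q k T ∧
    Hv (rc0 hS) (paI hS) (naI hS) (EvI hS w N h₀ R Zz) (nT u w N) (nT u w N)
      (Ft (SU u ε ω) (et N) (ly u N).W (oT u w N) (nT u w N))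
      (tlt hS (et N) (ly u N).W (oT u w N) (nT u w N)) s ((q, T (nT u w N)), T)
  vs : ∀ s, 0 < gW Z u w hN hε (Xc hS h3 s) → ∀ {f : ℂ × ℂ × ℂ → ℂ} {v : D0 (SU u ε ω) → ℂ},
    (∀ k, k < nT u w N → ∀ e : D0 (SU u ε ω), e.1.2 ∈ Bk (et N) (ly u N).W (oT u w N) k →
      th (SU u ε ω) e.1 ∈ Bk (et N) (ly u N).W (oT u w N) k →
        v e = f (e.1.2, th (SU u ε ω) e.1, e.1.1)) →
    ∀ l, 2 ≤ l → l + 2 < nT u w N →
      Vs (rc0 hS) (paI hS) (naI hS) (EvI hS w N h₀ R Zz) v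
        (Ft (SU u ε ω) (et N) (ly u N).W (oT u w N) (nT u w N)) l s =
        VX f (nT u w N) (Bk (et N) (ly u N).W (oT u w N))
          (QX (100 * et N) (ly u N).W (oT u w N) (nT u w N))
          (Stk (et N) (ly u N).W (oT u w N)) (nT u w N - 1 - l) (Xc hS h3 s)

variable {Z w hN hε hS h3} {h₀ : Cs hS} {R : Set (Cs hS)} {Zz : Zn (rc0 hS)}
  {K1 c2 ρ0 : ℝ}

namespace Sx

theorem hv (X : Sx w Z hN hε hS h3 h₀ R Zz) (s : Cs hS → ZMod 2)
    (h : 0 < gW Z u w hN hε (Xc hS h3 s)) : Hx (rc0 hS) (paI hS) (naI hS)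
    (EvI hS w N h₀ R Zz) (nT u w N) (nT u w N)
    (Ft (SU u ε ω) (et N) (ly u N).W (oT u w N) (nT u w N))
    (tlt hS (et N) (ly u N).W (oT u w N) (nT u w N)) s := by
  obtain ⟨p, q, k, T, -, -, h1⟩ := X.out s h
  exact ⟨_, h1⟩

/-- the hull cell -/
theorem hH (X : Sx w Z hN hε hS h3 h₀ R Zz) (c : Cs hS) (v : ℂ) (hv : OnHull (SU u ε ω) v)
    (e : c.1 = Quot.mk (hullE (SU u ε ω)) v) : c ∈ ({h₀} : Set (Cs hS)) := by
  rw [← Hc_eq X.h0]
  exact ⟨v, hv, e⟩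

theorem hZ (X : Sx w Z hN hε hS h3 h₀ R Zz) (j : D0 (SU u ε ω) × ℕ) (σ : Cs hS → ZMod 2)
    (h : EvI hS w N h₀ R Zz j σ) (c : Cs hS) (hc : c ∈ ({h₀} : Set (Cs hS))) :
    c ∉ ac (rc0 hS) (paI hS j σ) (naI hS j σ) σ := by
  rw [show c = h₀ from hc]
  exact X.nac j σ h

/-- hypothesis `hx` of 654's `quenI` -/
theorem hx (X : Sx w Z hN hε hS h3 h₀ R Zz) (C : CorEnv u ε √ε K1 c2 ρ0 ω) (σ : Finset ℂ)
    (h : 0 < gW Z u w hN hε (clr (SU u ε ω) σ)) : Hx (rc0 hS) (paI hS) (naI hS)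
    (EvI hS w N h₀ R Zz) (nT u w N) (nT u w N)
    (Ft (SU u ε ω) (et N) (ly u N).W (oT u w N) (nT u w N))
    (tlt hS (et N) (ly u N).W (oT u w N) (nT u w N)) (chiS hS h3 σ) := by
  rw [← gW_xc (hS := hS) (h3 := h3) Z hN hε C] at h
  exact X.hv _ h

/-- hypothesis `hV` of 654's `quenI` -/
theorem hV (X : Sx w Z hN hε hS h3 h₀ R Zz) (C : CorEnv u ε √ε K1 c2 ρ0 ω) (σ : Finset ℂ)
    (h : 0 < gW Z u w hN hε (clr (SU u ε ω) σ)) (l : ℕ) (h1 : 2 ≤ l) (h2 : l + 2 < nT u w N) :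
    VL Z fP u w ε hN (nT u w N - 1 - l) (clr (SU u ε ω) σ) =
      Vs (rc0 hS) (paI hS) (naI hS) (EvI hS w N h₀ R Zz) (zs (rc0 hS) om (zc hS id))
        (Ft (SU u ε ω) (et N) (ly u N).W (oT u w N) (nT u w N)) l (chiS hS h3 σ) := by
  rw [← gW_xc (hS := hS) (h3 := h3) Z hN hε C] at h
  have key := HVx832.hV_C (X.cor _ h) (Z.isS N ε) (z := zc hS id) (HVx832.hz_zc hS)
    (fun {f v} => X.vs _ h (f := f) (v := v)) (j := nT u w N - 1 - l) (by omega) (by omega)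
  rw [show nT u w N - 1 - (nT u w N - 1 - l) = l by omega] at key
  exact key

/-- hypothesis `small` of 654's `quenI` -/
theorem small (X : Sx w Z hN hε hS h3 h₀ R Zz) (C : CorEnv u ε √ε K1 c2 ρ0 ω)
    (hd : 100 * √ε ≤ et N) (hn : 3 ≤ nT u w N) {E : ℝ} (hE : SmE ε ω (UU u) (18 * et N) E)
    (d₀ : D0 (SU u ε ω)) :
    av (SU u ε ω).powerset (fun σ => gW Z u w hN hε (clr (SU u ε ω) σ) *
      av (SU u ε ω).powerset fun τ =>
      ‖Vb (rc0 hS) {h₀} R (Qs w N) (paI hS) (naI hS) (EvI hS w N h₀ R Zz) d₀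
        (zs (rc0 hS) om (zc hS id)) (chiS hS h3 σ) (chiS hS h3 τ)‖) ≤ E :=
  SmJx304.small_U' C hE (ly_spec hN) (mh hN) hd le_rfl h3 X.h0 hn X.zR X.rR X.zE X.zW X.Y d₀
    (gW_local Z hN hε) (CW_UU Z hN hε) (gW_nonneg Z hN hε) (gW_le_one Z hN hε)
    fun σ hσ => ⟨X.cor σ hσ, by
      obtain ⟨x, hx⟩ := X.hv σ hσ
      exact ⟨x.1, hx.1⟩⟩

end Sx

/-- the giants of the label `w` for the black sites `σ` -/
abbrev GI (hS : GP (SU u ε ω : Set ℂ)) (h3 : 3 ≤ (SU u ε ω).card) (w : ZMod 3) (N : ℕ)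
    (h₀ : Cs hS) (R : Set (Cs hS)) (Zz : Zn (rc0 hS)) (σ : Finset ℂ) : ZMod 3 → Set ℂ :=
  st (gA (rc0 hS) {h₀} R (Qs w N) (paI hS) (naI hS) (EvI hS w N h₀ R Zz) (w + 1)
    (chiS hS h3 σ))

/-- tile of the touch on `w + 1`, order of time -/
abbrev kaI (hS : GP (SU u ε ω : Set ℂ)) (h3 : 3 ≤ (SU u ε ω).card) (w : ZMod 3) (N : ℕ)
    (h₀ : Cs hS) (R : Set (Cs hS)) (Zz : Zn (rc0 hS)) (σ τ : Finset ℂ) : ℕ :=
  ka (rc0 hS) {h₀} R (Qs w N) (paI hS) (naI hS) (EvI hS w N h₀ R Zz) (nT u w N) (nT u w N)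
    (Ft (SU u ε ω) (et N) (ly u N).W (oT u w N) (nT u w N))
    (tlt hS (et N) (ly u N).W (oT u w N) (nT u w N)) (chiS hS h3 σ) (chiS hS h3 τ)

/-- tile of the touch on `w + 2`, order of time -/
abbrev kbI (hS : GP (SU u ε ω : Set ℂ)) (h3 : 3 ≤ (SU u ε ω).card) (w : ZMod 3) (N : ℕ)
    (h₀ : Cs hS) (R : Set (Cs hS)) (Zz : Zn (rc0 hS)) (σ τ : Finset ℂ) : ℕ :=
  kb (rc0 hS) {h₀} R (Qs w N) (paI hS) (naI hS) (EvI hS w N h₀ R Zz) (nT u w N) (nT u w N)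
    (Ft (SU u ε ω) (et N) (ly u N).W (oT u w N) (nT u w N))
    (tlt hS (et N) (ly u N).W (oT u w N) (nT u w N)) (chiS hS h3 σ) (chiS hS h3 τ)

/-- charges of the tiles between the touches, order of time -/
abbrev WdI (hS : GP (SU u ε ω : Set ℂ)) (h3 : 3 ≤ (SU u ε ω).card) (w : ZMod 3) (N : ℕ)
    (h₀ : Cs hS) (R : Set (Cs hS)) (Zz : Zn (rc0 hS)) (d₀ : D0 (SU u ε ω)) (l : ℕ)
    (σ τ : Finset ℂ) : ℂ :=
  Wd (rc0 hS) {h₀} R (Qs w N) (paI hS) (naI hS) (EvI hS w N h₀ R Zz) (w + 1) d₀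
    (zs (rc0 hS) om (zc hS id))
    (Ft (SU u ε ω) (et N) (ly u N).W (oT u w N) (nT u w N)) l (chiS hS h3 σ) (chiS hS h3 τ)

/-- **`QuenX` at one environment** (654's `quenI` for the concrete objects) -/
theorem quen_u (X : Sx w Z hN hε hS h3 h₀ R Zz) (C : CorEnv u ε √ε K1 c2 ρ0 ω)
    (hd : 100 * √ε ≤ et N) {E : ℝ} (hE : SmE ε ω (UU u) (18 * et N) E) (d₀ : D0 (SU u ε ω))
    {η θ0 θ Qq : ℝ} {r : ℕ} (hη : 0 ≤ η)
    (hC : ∀ σ ∈ (SU u ε ω).powerset, 0 < gW Z u w hN hε (clr (SU u ε ω) σ) →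
      Vin (SU u ε ω) u.P √ε ⊆ ff (SU u ε ω) (GI hS h3 w N h₀ R Zz σ) ∧
      Cpl (SU u ε ω) (GI hS h3 w N h₀ R Zz σ) (Vin (SU u ε ω) u.P √ε)
        (Bl (SU u ε ω) (Vin (SU u ε ω) u.P √ε) u.Lab) η θ0)
    (hθ : ∀ σ ∈ (SU u ε ω).powerset, 0 < gW Z u w hN hε (clr (SU u ε ω) σ) →
      av (SU u ε ω).powerset (far r (kaI hS h3 w N h₀ R Zz) (kbI hS h3 w N h₀ R Zz)
        (fun τ => nT u w N - tB u w N ε (clr (SU u ε ω) τ))
        (fun τ => nT u w N - tA u w N ε (clr (SU u ε ω) τ)) σ) ≤ θ)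
    (hQ : ∑ l ∈ Finset.range (nT u w N), av (SU u ε ω).powerset (fun σ =>
      gW Z u w hN hε (clr (SU u ε ω) σ) * av (SU u ε ω).powerset fun τ =>
        ‖WdI hS h3 w N h₀ R Zz d₀ l σ τ‖ ^ 2) ≤ Qq) :
    QuenX (nT u w N) (r + 1) 3 (SU u ε ω) (gW Z u w hN hε) (VL Z fP u w ε hN) (tA u w N ε)
      (tB u w N ε) om (RigCx654.tI (InpJx609.mv u ε ω) (w + 1)) E (3 * (η + 2 * RU u * θ0)) θ
      Qq := by
  have L := (ly_spec hN).lay
  have hr1 := L.rr_pos w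
  have hr2 := L.rr_lt w
  have hn : 16 ≤ nT u w N := by
    show 16 ≤ nn (ly u N).A (ly u N).e w
    omega
  have hR := RU_ge u
  refine ⟨_, _, _, _, _, _, GoodAx654.quenI (hS := hS) (h3 := h3) (g := gW Z u w hN hε)
    (V := VL Z fP u w ε hN) (ta := tA u w N ε) (tb := tB u w N ε) (ω := ω) (u := u) (b := RU u)
    X.Y (by omega) X.hH X.hZ (fun σ _ h => X.hx C σ h) (fun σ _ h l h1 h2 => X.hV C σ h l h1 h2)
    (fun τ _ => TlAx58.ta_le_nn _ _ _ _ _ _ L) (fun τ _ => TlAx58.tb_le _ _ _ _ _ _ L)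
    (X.small C hd (by omega) hE d₀) hε ?_ ?_ (by linarith) ?_ hη hC hθ hQ⟩
  · exact C.hol.mono ((LocUx700.deep_sub (Real.sqrt_nonneg ε)).trans (P_sub_UU u))
  · intro x hx
    rw [mem_SU hε]
    exact ⟨fun h => h.1, fun h => ⟨h, by
      have h1 := P_norm u hx
      have h2 := one_le_Rp u
      unfold RU
      linarith⟩⟩
  · intro v hv
    rw [mem_SU hε] at hv
    exact hv.2

end sys

end Crest.Agent.R143.QuenIx597
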