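import Crest.Agent.R143.NearC_139
import Crest.Agent.R143.QuenI_597
import Crest.Agent.R143.HxG_166
import Crest.Agent.R143.RigN_377

/-!
# Row 143 (S0194), RIG: the field `hθ` of 597's `quen_u` with the numbers of RigN (helper377)

* `Sd` : the strand at every colouring with positive weight (831's `SDS` and 168's event)
* `gate_Bk` : a site of the enlarged strip of a tile is near the gate of the tile
* **`hth`** : `av (far (2 (rI 13 N) + 2) kaI kbI ..) ≤ th u e0 N ε`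
-/

set_option autoImplicit false
set_option linter.unusedSectionVars false

noncomputable section

open scoped Classical

namespace Crest.Agent.R143.NearNx377

open MeasureTheory Set Filter Topology
open Crest.ProbabilityR.Voronoi
open Crest.Agent.R143.B0x346 Crest.Agent.R143.DelGx806
open Crest.Agent.R143.FinCx811 (Cs rc0)
open Crest.Agent.R143.SmallAx304 (chiS)
open Crest.Agent.R143.Frame1x395 Crest.Agent.R143.Frame2x395 Crest.Agent.R143.Frame3x395
  Crest.Agent.R143.Frame4x395 Crest.Agent.R143.Frame8x395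
open Crest.Agent.R143.Frame9x395 Crest.Agent.R143.Frame10x395
open Crest.Agent.R143.NetUx346 (ff hv)
open Crest.Agent.R143.NetVx346 (zV Vin)
open Crest.Agent.R143.Harx315 (pr)
open Crest.Agent.R143.CorMx970 (av far)
open Crest.Agent.R143.IndLoc3x279 (clr)
open Crest.Agent.R143.Uniqx323 (Zn)
open Crest.Agent.R143.ColXx829 (Xc)
open Crest.Agent.R143.PolyUx346 (Poly)
open Crest.Agent.R143.CorEx133
open Crest.Agent.R143.RigPx854 (ly ly_spec mN mN_hN hN hN_pos nT)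
open Crest.Agent.R143.RigZdx609 Crest.Agent.R143.LayUx416 Crest.Agent.R143.Layx416
open Crest.Agent.R143.CorrIx831 (Ft tlt Bk SDS)
open Crest.Agent.R143.QuenIx597
open Crest.Agent.R143.RigNx377

variable {N : ℕ} {ε : ℝ} {u : Poly} {w : ZMod 3} {Z : TData} {hn : u.n + 4 ≤ N} {hε : 0 < ε}
  {ω : Sample} {hS : GP (SU u ε ω : Set ℂ)} {h3 : 3 ≤ (SU u ε ω).card} {h₀ : Cs hS}
  {R : Set (Cs hS)} {Zz : Zn (rc0 hS)}

/-- **the strand** at every colouring with positive weight -/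
def Sd (w : ZMod 3) (Z : TData) (hn : u.n + 4 ≤ N) (hε : 0 < ε) (hS : GP (SU u ε ω : Set ℂ))
    (h3 : 3 ≤ (SU u ε ω).card) (h₀ : Cs hS) (R : Set (Cs hS)) (Zz : Zn (rc0 hS)) : Prop :=
  ∀ s, 0 < gW Z u w hn hε (Xc hS h3 s) →
    ∃ (p : ℕ → D0 (SU u ε ω)) (q : D0 (SU u ε ω)) (Nn : ℕ) (T : ℕ → ℕ),
      SDS hS s (et N) (ly u N).W (oT u w N) (nT u w N) p q Nn T ∧
        EvI hS w N h₀ R Zz (q, T (nT u w N)) s

/-- a site of the enlarged strip of a tile is near the gate of the tile -/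
theorem gate_Bk (hn : u.n + 4 ≤ N) : ∀ j < nn (ly u N).A (ly u N).e w,
    ∀ v ∈ Bk (et N) (ly u N).W (oT u w N) j,
      dist (TlAx58.gt (hN N) (ly u N).W (ly u N).A (ly u N).e w j) v ≤
        19 / 2 * et N + 103 / 2 * et N + 19 / 2 * et N + hN N / 2 := by
  intro j _ v hv
  have h1 := et_pos N
  have h2 := (TlRx709.rr_gate (ly_spec hn).lay.fp (h := 100 * et N) (by positivity)
    (A := 19 / 2 * et N) (B := 103 / 2 * et N) (by positivity) (by positivity)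
    (a := oT u w N + j) (s := v) hv).1
  rw [et_h] at h2
  exact h2

/-- **field `hθ`** of `quen_u` -/
theorem hth {K1 c2' ρ0 e0 : ℝ} (X : Sx w Z hn hε hS h3 h₀ R Zz) (sd : Sd w Z hn hε hS h3 h₀ R Zz)
    (C : CorEnv u ε √ε K1 c2' ρ0 ω) (hW : NumW u 13 e0 N) (hE : NumE N ε)
    (hC : ∀ σ ∈ (SU u ε ω).powerset, 0 < gW Z u w hn hε (clr (SU u ε ω) σ) →
      Vin (SU u ε ω) u.P √ε ⊆ ff (SU u ε ω) (GI hS h3 w N h₀ R Zz σ) ∧
      (∀ i : ZMod 3, pr (ff (SU u ε ω) (GI hS h3 w N h₀ R Zz σ)) (fun β => et0 N <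
        ‖hv (SU u ε ω) (GI hS h3 w N h₀ R Zz σ) i (β : Set ℂ) -
          zV (TlAx58.Sw u.P (SU u ε ω)) (TlAx58.Vw u √ε u.P (SU u ε ω))
            (TlAx58.Bw u √ε u.P (SU u ε ω)) i
            ((β ∩ Vin (SU u ε ω) u.P √ε : Finset ℂ) : Set ℂ) id‖) ≤ th0 u N) ∧
      ∀ i : ZMod 3, Eddx798.fU u √ε u.P i (SU u ε ω) ≤ th1 u N) :
    ∀ σ ∈ (SU u ε ω).powerset, 0 < gW Z u w hn hε (clr (SU u ε ω) σ) →
      av (SU u ε ω).powerset (far (2 * rI 13 N + 2) (kaI hS h3 w N h₀ R Zz)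
        (kbI hS h3 w N h₀ R Zz) (fun τ => nT u w N - tB u w N ε (clr (SU u ε ω) τ))
        (fun τ => nT u w N - tA u w N ε (clr (SU u ε ω) τ)) σ) ≤ th u e0 N ε := by
  intro σ hσ h0
  have hη := et_pos N
  have hη' := et_h N
  have hs : ∀ σ ∈ (SU u ε ω).powerset, 0 < gW Z u w hn hε (clr (SU u ε ω) σ) →
      ∃ i : D0 (SU u ε ω) × ℕ, EvI hS w N h₀ R Zz i (chiS hS h3 σ) ∧
        ∀ t ≤ i.2, ∃ j < nT u w N,
        Freshx829.rep hS ((rc0 hS).cell (NonXx592.P (rc0 hS) (cfg (rc0 hS) (chiS hS h3 σ))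
          i.1 t)) ∈ Bk (et N) (ly u N).W (oT u w N) (nT u w N - 1 - j) := by
    intro σ _ h
    rw [← gW_xc (hS := hS) (h3 := h3) Z hn hε C] at h
    obtain ⟨p, q, Nn, T, e1, e2⟩ := sd _ h
    exact HxGx166.hs_of e2 e1 (HxGx166.inn_cor (X.cor _ h))
  have key := NearCx139.near_pr (k := w + 1) X.Y X.hH X.hZ rfl (ly_spec hn)
    (mN_hN (by omega)) (Real.sqrt_pos.2 hε) (subset_refl u.P)
    (C.hol.mono ((LocUx700.deep_sub (Real.sqrt_nonneg ε)).trans (P_sub_UU u)))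
    (gate_Bk (w := w) hn) (r := rI 13 N) hW.r4 hW.r7 (e0 := et0 N)
    (rI_near (by linarith) (by linarith [hE.s5, Real.sqrt_nonneg ε]))
    (g := gW Z u w hn hε) (m' := nT u w N)
    (F := Ft (SU u ε ω) (et N) (ly u N).W (oT u w N) (nT u w N))
    (fun σ _ h => X.hx C σ h) hs (fun σ hσ h => ⟨(hC σ hσ h).1, (hC σ hσ h).2.1⟩)
    (hC σ hσ h0).2.2 σ hσ h0
  refine key.trans ?_
  have h1 := th1_le u N
  unfold th
  linarith

end Crest.Agent.R143.NearNx377
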