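import Crest.Agent.R143.L2Ind_705

/-!
# Row 143 (S0194): necklace theorem, block T3 (helper565, after helper300, note 2961, and helper571)

* `cs` : `(∫⁻ f)² ≤ μ univ * ∫⁻ f²`
* `jensen` : `μ univ * ‖⨍ X - m₀‖² ≤ ∫⁻ ‖X - m₀‖²`
* `prod_mean` : independent variables: `∏ λ_k univ * ‖a + ∑ m_k‖² ≤ ∫⁻ ‖a + ∑ f_k (x k)‖²`
* `prod_var` : `(∏_{j ≠ k} λ_j univ) * ∫⁻ ‖f_k - m_k‖² ≤ ∫⁻ ‖∑ f_j (x j)‖²`
* `mean`, `mean_measurable`, `t3_mean`, `t3_var` : the statement (T3)
-/

set_option autoImplicit false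
set_option linter.unusedSectionVars false

noncomputable section

namespace Crest.Agent.R143.NeckT3x565

open MeasureTheory ProbabilityTheory Set
open scoped ENNReal NNReal
open Crest.Agent.R143.L2Indx705

/-! ### one variable -/

section one

variable {X : Type*} [MeasurableSpace X]

/-- Cauchy-Schwarz with the constant function -/
theorem cs (μ : Measure X) {f : X → ℝ≥0∞} (hf : AEMeasurable f μ) :
    (∫⁻ x, f x ∂μ) ^ 2 ≤ μ univ * ∫⁻ x, f x ^ 2 ∂μ := by
  have h := ENNReal.lintegral_mul_le_Lp_mul_Lq μ (Real.HolderConjugate.two_two) hf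
    (aemeasurable_const (b := (1 : ℝ≥0∞)))
  simp only [Pi.mul_apply, mul_one, ENNReal.one_rpow, lintegral_const, one_mul] at h
  have h2 : ∀ a : ℝ≥0∞, (a ^ (1 / (2 : ℝ))) ^ 2 = a := by
    intro a
    rw [← ENNReal.rpow_natCast, ← ENNReal.rpow_mul]
    norm_num
  have h3 : ∀ a : ℝ≥0∞, a ^ (2 : ℝ) = a ^ 2 := by
    intro a
    rw [← ENNReal.rpow_natCast]
    norm_num
  calc (∫⁻ x, f x ∂μ) ^ 2 ≤ ((∫⁻ x, f x ^ (2 : ℝ) ∂μ) ^ (1 / (2 : ℝ)) *
        (μ univ) ^ (1 / (2 : ℝ))) ^ 2 := by gcongr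
    _ = μ univ * ∫⁻ x, f x ^ 2 ∂μ := by
      rw [mul_pow, h2, h2, mul_comm]
      simp only [h3]

/-- **Jensen** -/
theorem jensen (μ : Measure X) [IsFiniteMeasure μ] {f : X → ℂ} (hf : AEStronglyMeasurable f μ)
    (a : ℂ) : μ univ * ‖a + ⨍ x, f x ∂μ‖ₑ ^ 2 ≤ ∫⁻ x, ‖a + f x‖ₑ ^ 2 ∂μ := by
  by_cases hμ : μ univ = 0
  · rw [hμ, zero_mul]; exact bot_le
  have hne : NeZero μ := ⟨fun h => hμ (by rw [h]; rfl)⟩
  by_cases hfin : ∫⁻ x, ‖a + f x‖ₑ ^ 2 ∂μ = ∞
  · rw [hfin]; exact le_top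
  have hm : AEStronglyMeasurable (fun x => a + f x) μ := aestronglyMeasurable_const.add hf
  have h1 := cs μ hm.enorm
  have hlt : (∫⁻ x, ‖a + f x‖ₑ ∂μ) ≠ ∞ := by
    intro h
    rw [h] at h1
    have : μ univ * ∫⁻ x, ‖a + f x‖ₑ ^ 2 ∂μ < ∞ :=
      ENNReal.mul_lt_top (measure_lt_top _ _) (lt_of_le_of_ne le_top hfin)
    rw [ENNReal.top_pow (by norm_num)] at h1
    exact absurd (lt_of_le_of_lt h1 this) (lt_irrefl _)
  have hint : Integrable (fun x => a + f x) μ := ⟨hm, lt_of_le_of_ne le_top hlt⟩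
  have hintf : Integrable f μ := by
    have := hint.sub (integrable_const a)
    refine this.congr (ae_of_all _ fun x => ?_)
    simp
  have hav : a + ⨍ x, f x ∂μ = ⨍ x, (a + f x) ∂μ := by
    rw [average_eq, average_eq, integral_add (integrable_const _) hintf, integral_const, smul_add,
      smul_smul]
    have hne' : μ.real univ ≠ 0 := by
      rw [measureReal_def]
      exact ENNReal.toReal_ne_zero.2 ⟨hμ, measure_ne_top _ _⟩
    rw [inv_mul_cancel₀ hne', one_smul]
  have h2 : μ univ * ‖⨍ x, (a + f x) ∂μ‖ₑ ≤ ∫⁻ x, ‖a + f x‖ₑ ∂μ := by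
    have e : μ univ * ‖⨍ x, (a + f x) ∂μ‖ₑ = ‖∫ x, (a + f x) ∂μ‖ₑ := by
      have := measure_smul_average μ (fun x => a + f x)
      rw [← this, enorm_smul, measureReal_def]
      congr 1
      rw [Real.enorm_eq_ofReal ENNReal.toReal_nonneg, ENNReal.ofReal_toReal (measure_ne_top _ _)]
    rw [e]
    exact enorm_integral_le_lintegral_enorm _
  rw [hav]
  have h3 : μ univ * (μ univ * ‖⨍ x, (a + f x) ∂μ‖ₑ ^ 2) ≤
      μ univ * ∫⁻ x, ‖a + f x‖ₑ ^ 2 ∂μ := by
    calc μ univ * (μ univ * ‖⨍ x, (a + f x) ∂μ‖ₑ ^ 2) = (μ univ * ‖⨍ x, (a + f x) ∂μ‖ₑ) ^ 2 := by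
          ring
      _ ≤ (∫⁻ x, ‖a + f x‖ₑ ∂μ) ^ 2 := by gcongr
      _ ≤ _ := h1
  exact (ENNReal.mul_le_mul_iff_right hμ (measure_ne_top _ _)).1 h3

end one

/-! ### independent variables -/

section indep

variable {X : Type*} [MeasurableSpace X]

/-- **the mean of a sum of independent variables** -/
theorem prod_mean : ∀ (n : ℕ) (μ : Fin n → Measure X) [∀ k, IsFiniteMeasure (μ k)]
    (f : Fin n → X → ℂ), (∀ k, Measurable (f k)) → ∀ a : ℂ,
    (∏ k, μ k univ) * ‖a + ∑ k, ⨍ x, f k x ∂(μ k)‖ₑ ^ 2 ≤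
      ∫⁻ x, ‖a + ∑ k, f k (x k)‖ₑ ^ 2 ∂(Measure.pi μ) := by
  intro n
  induction n with
  | zero =>
    intro μ _ f hf a
    simp
  | succ n ih =>
    intro μ _ f hf a
    have hmp := (measurePreserving_piFinSuccAbove μ 0).symm
    have hF : Measurable fun x : Fin (n + 1) → X => ‖a + ∑ k, f k (x k)‖ₑ ^ 2 := by
      refine (measurable_enorm.comp ?_).pow_const 2
      refine measurable_const.add (Finset.measurable_sum _ fun k _ => ?_)
      exact (hf k).comp (measurable_pi_apply k)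
    have e1 : ∫⁻ x, ‖a + ∑ k, f k (x k)‖ₑ ^ 2 ∂(Measure.pi μ) =
        ∫⁻ p : X × (Fin n → X), ‖a + (f 0 p.1 + ∑ k : Fin n, f k.succ (p.2 k))‖ₑ ^ 2
          ∂((μ 0).prod (Measure.pi fun j => μ ((0 : Fin (n + 1)).succAbove j))) := by
      rw [← hmp.lintegral_comp hF]
      refine lintegral_congr fun p => ?_
      rw [Fin.sum_univ_succ]
      rfl
    have hF2 : Measurable fun p : X × (Fin n → X) =>
        ‖a + (f 0 p.1 + ∑ k : Fin n, f k.succ (p.2 k))‖ₑ ^ 2 := by
      refine (measurable_enorm.comp ?_).pow_const 2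
      refine measurable_const.add (((hf 0).comp measurable_fst).add
        (Finset.measurable_sum _ fun k _ => ?_))
      exact (hf _).comp ((measurable_pi_apply k).comp measurable_snd)
    rw [e1, lintegral_prod_symm _ hF2.aemeasurable]
    calc (∏ k, μ k univ) * ‖a + ∑ k, ⨍ x, f k x ∂(μ k)‖ₑ ^ 2
        = μ 0 univ * ((∏ k : Fin n, μ k.succ univ) *
          ‖(a + ⨍ x, f 0 x ∂(μ 0)) + ∑ k : Fin n, ⨍ x, f k.succ x ∂(μ k.succ)‖ₑ ^ 2) := by
          rw [Fin.prod_univ_succ, Fin.sum_univ_succ, mul_assoc, add_assoc]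
      _ ≤ μ 0 univ * ∫⁻ y, ‖(a + ⨍ x, f 0 x ∂(μ 0)) + ∑ k : Fin n, f k.succ (y k)‖ₑ ^ 2
            ∂(Measure.pi fun j : Fin n => μ j.succ) := by
          gcongr
          exact ih (fun j => μ j.succ) (fun k => f k.succ) (fun k => hf _) _
      _ = ∫⁻ y, μ 0 univ * ‖(a + ⨍ x, f 0 x ∂(μ 0)) + ∑ k : Fin n, f k.succ (y k)‖ₑ ^ 2
            ∂(Measure.pi fun j : Fin n => μ j.succ) := by
          rw [lintegral_const_mul' _ _ (measure_ne_top _ _)]
      _ ≤ _ := by
          refine lintegral_mono fun y => ?_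
          have h := jensen (μ 0) (hf 0).aestronglyMeasurable
            (a + ∑ k : Fin n, f k.succ (y k))
          have e2 : (a + ∑ k : Fin n, f k.succ (y k)) + ⨍ x, f 0 x ∂(μ 0) =
            (a + ⨍ x, f 0 x ∂(μ 0)) + ∑ k : Fin n, f k.succ (y k) := by ring
          rw [e2] at h
          refine h.trans (lintegral_mono fun x => ?_)
          rw [show (a + ∑ k : Fin n, f k.succ (y k)) + f 0 x =
            a + (f 0 x + ∑ k : Fin n, f k.succ (y k)) by ring]

/-- **the variance of one of the independent variables** -/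
theorem prod_var (n : ℕ) (μ : Fin (n + 1) → Measure X) [∀ k, IsFiniteMeasure (μ k)]
    (f : Fin (n + 1) → X → ℂ) (hf : ∀ k, Measurable (f k)) (k : Fin (n + 1)) :
    (∏ j : Fin n, μ (k.succAbove j) univ) * ∫⁻ x, ‖f k x - ⨍ y, f k y ∂(μ k)‖ₑ ^ 2 ∂(μ k) ≤
      ∫⁻ x, ‖∑ j, f j (x j)‖ₑ ^ 2 ∂(Measure.pi μ) := by
  have hmp := (measurePreserving_piFinSuccAbove μ k).symm
  have hF : Measurable fun x : Fin (n + 1) → X => ‖∑ j, f j (x j)‖ₑ ^ 2 := by
    refine (measurable_enorm.comp ?_).pow_const 2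
    refine Finset.measurable_sum _ fun k _ => ?_
    exact (hf k).comp (measurable_pi_apply k)
  have e1 : ∫⁻ x, ‖∑ j, f j (x j)‖ₑ ^ 2 ∂(Measure.pi μ) =
      ∫⁻ p : X × (Fin n → X), ‖f k p.1 + ∑ j : Fin n, f (k.succAbove j) (p.2 j)‖ₑ ^ 2
        ∂((μ k).prod (Measure.pi fun j => μ (k.succAbove j))) := by
    rw [← hmp.lintegral_comp hF]
    refine lintegral_congr fun p => ?_
    rw [Fin.sum_univ_succAbove _ k]
    congr 3
    · show f k (Fin.insertNth (α := fun _ => X) k p.1 p.2 k) = _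
      rw [Fin.insertNth_apply_same]
    · refine Finset.sum_congr rfl fun j _ => ?_
      show f _ (Fin.insertNth (α := fun _ => X) k p.1 p.2 (k.succAbove j)) = _
      rw [Fin.insertNth_apply_succAbove]
  have hF2 : Measurable fun p : X × (Fin n → X) =>
      ‖f k p.1 + ∑ j : Fin n, f (k.succAbove j) (p.2 j)‖ₑ ^ 2 := by
    refine (measurable_enorm.comp ?_).pow_const 2
    refine ((hf k).comp measurable_fst).add (Finset.measurable_sum _ fun j _ => ?_)
    exact (hf _).comp ((measurable_pi_apply j).comp measurable_snd)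
  rw [e1, lintegral_prod_symm _ hF2.aemeasurable]
  have e2 : (∏ j : Fin n, μ (k.succAbove j) univ) =
      (Measure.pi fun j => μ (k.succAbove j)) univ := by
    rw [Measure.pi_univ]
  rw [e2, mul_comm, ← lintegral_const]
  refine lintegral_mono fun y => ?_
  have h := mean_min (μ k) (f k) (hf k).aestronglyMeasurable
    (-∑ j : Fin n, f (k.succAbove j) (y j))
  simpa only [sub_neg_eq_add] using h

end indep

/-! ### two coordinates of a product -/

theorem map_two {ι : Type*} [Fintype ι] {G : Type*} [MeasurableSpace G] (μ : Measure G)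
    [IsProbabilityMeasure μ] {i j : ι} (hij : i ≠ j) :
    (Measure.pi fun _ : ι => μ).map (fun g => (g i, g j)) = μ.prod μ := by
  classical
  symm
  refine Measure.prod_eq fun s t hs ht => ?_
  have hm : Measurable fun g : ι → G => (g i, g j) :=
    (measurable_pi_apply i).prodMk (measurable_pi_apply j)
  rw [Measure.map_apply hm (hs.prod ht)]
  have e : (fun g : ι → G => (g i, g j)) ⁻¹' (s ×ˢ t) =
      Set.pi univ (fun l => if l = i then s else if l = j then t else univ) := by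
    ext g
    simp only [mem_preimage, mem_prod, mem_pi, mem_univ, true_implies]
    constructor
    · rintro ⟨h1, h2⟩ l
      by_cases hl : l = i
      · rw [if_pos hl, hl]; exact h1
      · rw [if_neg hl]
        by_cases hl' : l = j
        · rw [if_pos hl', hl']; exact h2
        · rw [if_neg hl']; exact mem_univ _
    · intro h
      have h1 := h i
      have h2 := h j
      rw [if_pos rfl] at h1
      rw [if_neg (Ne.symm hij), if_pos rfl] at h2
      exact ⟨h1, h2⟩
  rw [e, Measure.pi_pi]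
  have e2 : ∀ l : ι, μ (if l = i then s else if l = j then t else univ) =
      (if l = i then μ s else 1) * (if l = j then μ t else 1) := by
    intro l
    by_cases hl : l = i
    · rw [if_pos hl, if_pos hl, if_neg (by rw [hl]; exact hij), mul_one]
    · rw [if_neg hl, if_neg hl, one_mul]
      by_cases hl' : l = j
      · rw [if_pos hl', if_pos hl']
      · rw [if_neg hl', if_neg hl', measure_univ]
  simp only [e2, Finset.prod_mul_distrib]
  rw [Finset.prod_ite_eq' Finset.univ i, Finset.prod_ite_eq' Finset.univ j]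
  simp

/-! ### the statement (T3) -/

section T3

variable {G X : Type*} [MeasurableSpace G] [MeasurableSpace X]

/-- conditional mean given the two gates and the tube event -/
def mean (ν : Measure X) (E : Set (G × G × X)) (Z : G × G × X → ℂ) (p : G × G) : ℂ :=
  ⨍ x in {x | (p.1, p.2, x) ∈ E}, Z (p.1, p.2, x) ∂ν

theorem mean_measurable (ν : Measure X) [SFinite ν] {E : Set (G × G × X)} (hE : MeasurableSet E)
    {Z : G × G × X → ℂ} (hZ : Measurable Z) : Measurable (mean ν E Z) := by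
  have hs : Measurable fun q : X × (G × G) => ((q.2.1, q.2.2, q.1) : G × G × X) :=
    (measurable_fst.comp measurable_snd).prodMk
      ((measurable_snd.comp measurable_snd).prodMk measurable_fst)
  exact cmean_measurable ν (X := fun q : X × (G × G) => Z (q.2.1, q.2.2, q.1)) (hZ.comp hs)
    (S := {q | ((q.2.1, q.2.2, q.1) : G × G × X) ∈ E}) (hs hE)

variable {n : ℕ} (μ : Measure G) (ν : Fin (n + 2) → Measure X) [IsProbabilityMeasure μ]
  [∀ k, IsProbabilityMeasure (ν k)]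
  {E : Fin (n + 2) → Set (G × G × X)} (hE : ∀ k, MeasurableSet (E k))
  {Z : Fin (n + 2) → G × G × X → ℂ} (hZ : ∀ k, Measurable (Z k)) {c : ℝ≥0∞}
  (hc : ∀ k g g1, c ≤ ν k {x | (g, g1, x) ∈ E k})

theorem restr_eq (g : Fin (n + 2) → G) :
    (Measure.pi ν).restrict {x | ∀ k, (g k, g (k + 1), x k) ∈ E k} =
      Measure.pi fun k => (ν k).restrict {x | (g k, g (k + 1), x) ∈ E k} := by
  have h : {x : Fin (n + 2) → X | ∀ k, (g k, g (k + 1), x k) ∈ E k} =
      Set.pi univ fun k => {x | (g k, g (k + 1), x) ∈ E k} := by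
    ext x
    simp [Set.mem_pi]
  rw [h, Measure.restrict_pi_pi]

include hE hZ hc

omit [IsProbabilityMeasure μ] in
/-- **(T3) (1)** -/
theorem t3_mean : c ^ (n + 2) * ∫⁻ g, ‖∑ k, mean (ν k) (E k) (Z k) (g k, g (k + 1))‖ₑ ^ 2
      ∂(Measure.pi fun _ : Fin (n + 2) => μ) ≤
    ∫⁻ g, ∫⁻ x in {x | ∀ k, (g k, g (k + 1), x k) ∈ E k},
      ‖∑ k, Z k (g k, g (k + 1), x k)‖ₑ ^ 2 ∂(Measure.pi ν)
        ∂(Measure.pi fun _ : Fin (n + 2) => μ) := by
  have hm : Measurable fun g : Fin (n + 2) → G =>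
      ‖∑ k, mean (ν k) (E k) (Z k) (g k, g (k + 1))‖ₑ ^ 2 := by
    refine (measurable_enorm.comp ?_).pow_const 2
    refine Finset.measurable_sum _ fun k _ => ?_
    exact (mean_measurable (ν k) (hE k) (hZ k)).comp
      ((measurable_pi_apply k).prodMk (measurable_pi_apply (k + 1)))
  rw [← lintegral_const_mul _ hm]
  refine lintegral_mono fun g => ?_
  rw [restr_eq ν g]
  have h := prod_mean (n + 2) (fun k => (ν k).restrict {x | (g k, g (k + 1), x) ∈ E k})
    (fun k x => Z k (g k, g (k + 1), x))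
    (fun k => (hZ k).comp (measurable_const.prodMk (measurable_const.prodMk measurable_id))) 0
  simp only [zero_add] at h
  refine le_trans ?_ h
  gcongr ?_ * ?_
  · calc c ^ (n + 2) = ∏ _k : Fin (n + 2), c := by simp
      _ ≤ _ := by
        refine Finset.prod_le_prod' fun k _ => ?_
        rw [Measure.restrict_apply_univ]
        exact hc k _ _
  · exact le_rfl

/-- **(T3) (2)** -/
theorem t3_var (k : Fin (n + 2)) : c ^ (n + 1) * ∫⁻ z in E k,
      ‖Z k z - mean (ν k) (E k) (Z k) (z.1, z.2.1)‖ₑ ^ 2 ∂(μ.prod (μ.prod (ν k))) ≤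
    ∫⁻ g, ∫⁻ x in {x | ∀ k, (g k, g (k + 1), x k) ∈ E k},
      ‖∑ k, Z k (g k, g (k + 1), x k)‖ₑ ^ 2 ∂(Measure.pi ν)
        ∂(Measure.pi fun _ : Fin (n + 2) => μ) := by
  set F : G × G × X → ℝ≥0∞ := fun z => ‖Z k z - mean (ν k) (E k) (Z k) (z.1, z.2.1)‖ₑ ^ 2 with hF
  have hFm : Measurable F := by
    refine (measurable_enorm.comp ?_).pow_const 2
    exact (hZ k).sub ((mean_measurable (ν k) (hE k) (hZ k)).comp
      (measurable_fst.prodMk (measurable_fst.comp measurable_snd)))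
  have hI : Measurable ((E k).indicator F) := hFm.indicator (hE k)
  set H : G × G → ℝ≥0∞ := fun p => ∫⁻ x, (E k).indicator F (p.1, p.2, x) ∂(ν k) with hH
  have hHm : Measurable H := by
    have hs : Measurable fun q : (G × G) × X => ((q.1.1, q.1.2, q.2) : G × G × X) :=
      (measurable_fst.comp measurable_fst).prodMk
        ((measurable_snd.comp measurable_fst).prodMk measurable_snd)
    exact (hI.comp hs).lintegral_prod_right'
  have hkk : k ≠ k + 1 := by
    intro h
    have h1 : (1 : Fin (n + 2)) = 0 := by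
      have := congrArg (fun t => t - k) h
      simpa using this.symm
    exact absurd h1 (by simp)
  have e1 : ∫⁻ z in E k, F z ∂(μ.prod (μ.prod (ν k))) =
      ∫⁻ g, H (g k, g (k + 1)) ∂(Measure.pi fun _ : Fin (n + 2) => μ) := by
    rw [← lintegral_indicator (hE k), lintegral_prod _ hI.aemeasurable]
    have a1 : ∀ g : G, ∫⁻ q, (E k).indicator F (g, q) ∂(μ.prod (ν k)) = ∫⁻ g1, H (g, g1) ∂μ := by
      intro g
      rw [lintegral_prod (fun q : G × X => (E k).indicator F (g, q))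
        (hI.comp (measurable_const.prodMk measurable_id)).aemeasurable]
    simp only [a1]
    rw [← lintegral_prod _ hHm.aemeasurable, ← map_two μ hkk, lintegral_map hHm
      ((measurable_pi_apply k).prodMk (measurable_pi_apply (k + 1)))]
  have hm : Measurable fun g : Fin (n + 2) → G => H (g k, g (k + 1)) :=
    hHm.comp ((measurable_pi_apply k).prodMk (measurable_pi_apply (k + 1)))
  rw [e1, ← lintegral_const_mul _ hm]
  refine lintegral_mono fun g => ?_
  rw [restr_eq ν g]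
  have h := prod_var (n + 1) (fun k => (ν k).restrict {x | (g k, g (k + 1), x) ∈ E k})
    (fun k x => Z k (g k, g (k + 1), x))
    (fun k => (hZ k).comp (measurable_const.prodMk (measurable_const.prodMk measurable_id))) k
  refine le_trans ?_ h
  gcongr ?_ * ?_
  · calc c ^ (n + 1) = ∏ _k : Fin (n + 1), c := by simp
      _ ≤ _ := by
        refine Finset.prod_le_prod' fun k _ => ?_
        rw [Measure.restrict_apply_univ]
        exact hc _ _ _
  · have hSm : MeasurableSet {x | (g k, g (k + 1), x) ∈ E k} :=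
      (measurable_const.prodMk (measurable_const.prodMk measurable_id)) (hE k)
    rw [← lintegral_indicator hSm]
    refine le_of_eq (lintegral_congr fun x => ?_)
    by_cases hx : (g k, g (k + 1), x) ∈ E k
    · rw [indicator_of_mem hx, indicator_of_mem (show x ∈ {x | (g k, g (k + 1), x) ∈ E k} from hx)]
      rfl
    · rw [indicator_of_notMem hx,
        indicator_of_notMem (show x ∉ {x | (g k, g (k + 1), x) ∈ E k} from hx)]

end T3

/-! ### the case of eight gates -/

section eight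

variable {G X : Type*} [MeasurableSpace G] [MeasurableSpace X] (μ : Measure G)
  (ν : Fin 8 → Measure X) [IsProbabilityMeasure μ] [∀ k, IsProbabilityMeasure (ν k)]

theorem t3_mean8 {E : Fin 8 → Set (G × G × X)} (hE : ∀ k, MeasurableSet (E k))
    {Z : Fin 8 → G × G × X → ℂ} (hZ : ∀ k, Measurable (Z k)) {c : ℝ≥0∞}
    (hc : ∀ k g g1, c ≤ ν k {x | (g, g1, x) ∈ E k}) :
    c ^ 8 * ∫⁻ g, ‖∑ k, mean (ν k) (E k) (Z k) (g k, g (k + 1))‖ₑ ^ 2
      ∂(Measure.pi fun _ : Fin 8 => μ) ≤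
    ∫⁻ g, ∫⁻ x in {x | ∀ k, (g k, g (k + 1), x k) ∈ E k},
      ‖∑ k, Z k (g k, g (k + 1), x k)‖ₑ ^ 2 ∂(Measure.pi ν)
        ∂(Measure.pi fun _ : Fin 8 => μ) :=
  t3_mean (n := 6) μ ν hE hZ hc

theorem t3_var8 {E : Fin 8 → Set (G × G × X)} (hE : ∀ k, MeasurableSet (E k))
    {Z : Fin 8 → G × G × X → ℂ} (hZ : ∀ k, Measurable (Z k)) {c : ℝ≥0∞}
    (hc : ∀ k g g1, c ≤ ν k {x | (g, g1, x) ∈ E k}) (k : Fin 8) :
    c ^ 7 * ∫⁻ z in E k, ‖Z k z - mean (ν k) (E k) (Z k) (z.1, z.2.1)‖ₑ ^ 2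
      ∂(μ.prod (μ.prod (ν k))) ≤
    ∫⁻ g, ∫⁻ x in {x | ∀ k, (g k, g (k + 1), x k) ∈ E k},
      ‖∑ k, Z k (g k, g (k + 1), x k)‖ₑ ^ 2 ∂(Measure.pi ν)
        ∂(Measure.pi fun _ : Fin 8 => μ) :=
  t3_var (n := 6) μ ν hE hZ hc k

end eight

end Crest.Agent.R143.NeckT3x565
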