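import Crest.Agent.R143.Neck_571
import Crest.Agent.R143.NeckT3_565

/-!
# Row 143: the necklace theorem, full form (helper571; note 2961 of helper300)

`Γ` = normalised gate configurations (law `μ`), `Ξ` = normalised configurations of the tubes
outside the gates (laws `ν τ`), `E τ ⊆ Γ × Γ × Ξ` = tube event, `Z τ` = normalised charge
(incoming direction `1`).
-/

set_option autoImplicit false
set_option linter.unusedSectionVars false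

noncomputable section

namespace Crest.Agent.R143.Neck2x571

open MeasureTheory ProbabilityTheory Set Complex
open Crest.Agent.R143.Neckx571
open Crest.Agent.R143.NeckT3x565 (mean mean_measurable t3_mean8 t3_var8)
open scoped ENNReal NNReal

variable {Γ Ξ : Type*} [MeasurableSpace Γ] [MeasurableSpace Ξ]

theorem enorm_add_sq_le {V : Type*} [NormedAddCommGroup V] (x y : V) :
    ‖x + y‖ₑ ^ 2 ≤ 2 * ‖x‖ₑ ^ 2 + 2 * ‖y‖ₑ ^ 2 := by
  have h0 : ‖x + y‖₊ ≤ ‖x‖₊ + ‖y‖₊ := nnnorm_add_le x y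
  have h1 : ‖x + y‖₊ ^ 2 ≤ 2 * ‖x‖₊ ^ 2 + 2 * ‖y‖₊ ^ 2 := by
    have h3 : ‖x + y‖ ≤ ‖x‖ + ‖y‖ := norm_add_le x y
    have : (‖x + y‖ : ℝ) ^ 2 ≤ 2 * ‖x‖ ^ 2 + 2 * ‖y‖ ^ 2 := by
      nlinarith [sq_nonneg (‖x‖ - ‖y‖), norm_nonneg x, norm_nonneg y, norm_nonneg (x + y)]
    exact_mod_cast this
  simp only [enorm_eq_nnnorm]
  exact_mod_cast h1

theorem enorm_sub_sq_le {V : Type*} [NormedAddCommGroup V] (x y z : V) :
    ‖x - z‖ₑ ^ 2 ≤ 2 * ‖x - y‖ₑ ^ 2 + 2 * ‖y - z‖ₑ ^ 2 := by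
  have h := enorm_add_sq_le (x - y) (y - z)
  rwa [sub_add_sub_cancel] at h

/-- Jensen for the average over an event -/
theorem setAverage_sq_le {A : Type*} [MeasurableSpace A] (κ : Measure A) [IsFiniteMeasure κ]
    (S : Set A) {f : A → ℂ} (hf : AEStronglyMeasurable f (κ.restrict S)) :
    κ S * ‖⨍ a in S, f a ∂κ‖ₑ ^ 2 ≤ ∫⁻ a in S, ‖f a‖ₑ ^ 2 ∂κ := by
  by_cases hS : κ S = 0
  · rw [hS, zero_mul]; exact zero_le
  have hS' : κ S ≠ ∞ := measure_ne_top κ S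
  have hne : NeZero (κ.restrict S) := ⟨by rwa [Ne, Measure.restrict_eq_zero]⟩
  have hprob : IsProbabilityMeasure ((κ.restrict S univ)⁻¹ • κ.restrict S) :=
    inferInstance
  have h := enorm_integral_sq_le ((κ.restrict S univ)⁻¹ • κ.restrict S)
    (f := f) (hf.mono_ac (Measure.smul_absolutelyContinuous))
  rw [lintegral_smul_measure] at h
  rw [Measure.restrict_apply_univ] at h
  have h2 : ⨍ a in S, f a ∂κ = ∫ a, f a ∂((κ S)⁻¹ • κ.restrict S) := by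
    rw [average, Measure.restrict_apply_univ]
  rw [h2]
  calc κ S * ‖∫ a, f a ∂((κ S)⁻¹ • κ.restrict S)‖ₑ ^ 2
      ≤ κ S * ((κ S)⁻¹ • ∫⁻ a in S, ‖f a‖ₑ ^ 2 ∂κ) := by gcongr
    _ = ∫⁻ a in S, ‖f a‖ₑ ^ 2 ∂κ := by
      rw [smul_eq_mul, ← mul_assoc, ENNReal.mul_inv_cancel hS hS', one_mul]

theorem section_meas {E : Set (Γ × Γ × Ξ)} (hE : MeasurableSet E) (g g' : Γ) :
    MeasurableSet {x | (g, g', x) ∈ E} := by
  have h : Measurable fun x : Ξ => (g, g', x) :=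
    measurable_const.prodMk (measurable_const.prodMk measurable_id)
  exact h hE

theorem mean_sq_le (ν : Measure Ξ) [IsProbabilityMeasure ν] (E : Set (Γ × Γ × Ξ))
    {Z : Γ × Γ × Ξ → ℂ} (hZ : Measurable Z) {c : ℝ≥0∞} (p : Γ × Γ)
    (hc : c ≤ ν {x | (p.1, p.2, x) ∈ E}) :
    c * ‖mean ν E Z p‖ₑ ^ 2 ≤ ∫⁻ x in {x | (p.1, p.2, x) ∈ E}, ‖Z (p.1, p.2, x)‖ₑ ^ 2 ∂ν := by
  refine le_trans ?_ (setAverage_sq_le ν {x | (p.1, p.2, x) ∈ E} ?_)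
  · unfold mean
    gcongr
  · exact (hZ.comp (measurable_const.prodMk
      (measurable_const.prodMk measurable_id))).aestronglyMeasurable

theorem lintegral_E (μ : Measure Γ) [IsProbabilityMeasure μ] (ν : Measure Ξ)
    [IsProbabilityMeasure ν] {E : Set (Γ × Γ × Ξ)} (hE : MeasurableSet E)
    {F : Γ × Γ × Ξ → ℝ≥0∞} (hF : Measurable F) :
    ∫⁻ z in E, F z ∂(μ.prod (μ.prod ν)) =
      ∫⁻ p, ∫⁻ x in {x | (p.1, p.2, x) ∈ E}, F (p.1, p.2, x) ∂ν ∂(μ.prod μ) := by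
  have hFE : Measurable (E.indicator F) := hF.indicator hE
  have hx : ∀ g g' : Γ, ∫⁻ x in {x | (g, g', x) ∈ E}, F (g, g', x) ∂ν =
      ∫⁻ x, E.indicator F (g, g', x) ∂ν := by
    intro g g'
    rw [← lintegral_indicator (section_meas hE g g')]
    refine lintegral_congr fun x => ?_
    by_cases h : (g, g', x) ∈ E
    · rw [indicator_of_mem (show x ∈ {x | (g, g', x) ∈ E} from h), indicator_of_mem h]
    · rw [indicator_of_notMem (show x ∉ {x | (g, g', x) ∈ E} from h), indicator_of_notMem h]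
  rw [← lintegral_indicator hE, lintegral_prod _ hFE.aemeasurable]
  simp only [hx]
  have hm : Measurable fun p : Γ × Γ => ∫⁻ x, E.indicator F (p.1, p.2, x) ∂ν := by
    have : Measurable fun q : (Γ × Γ) × Ξ => E.indicator F (q.1.1, q.1.2, q.2) :=
      hFE.comp ((measurable_fst.comp measurable_fst).prodMk
        ((measurable_snd.comp measurable_fst).prodMk measurable_snd))
    exact this.lintegral_prod_right'
  rw [lintegral_prod _ hm.aemeasurable]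
  refine lintegral_congr fun g => ?_
  rw [lintegral_prod (fun y : Γ × Ξ => E.indicator F (g, y))
    (hFE.comp measurable_prodMk_left).aemeasurable]

theorem mean_L2 (μ : Measure Γ) [IsProbabilityMeasure μ] (ν : Measure Ξ)
    [IsProbabilityMeasure ν] {E : Set (Γ × Γ × Ξ)} (hE : MeasurableSet E)
    {Z : Γ × Γ × Ξ → ℂ} (hZ : Measurable Z) {c : ℝ≥0∞}
    (hc : ∀ g g', c ≤ ν {x | (g, g', x) ∈ E}) (hc1 : c ≠ ∞) :
    c * ∫⁻ p, ‖mean ν E Z p‖ₑ ^ 2 ∂(μ.prod μ) ≤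
      ∫⁻ z in E, ‖Z z‖ₑ ^ 2 ∂(μ.prod (μ.prod ν)) := by
  rw [lintegral_E μ ν hE (hZ.enorm.pow_const 2), ← lintegral_const_mul' _ _ hc1]
  exact lintegral_mono fun p => mean_sq_le ν E hZ p (hc _ _)

theorem mean_const_mul (ν : Measure Ξ) (E : Set (Γ × Γ × Ξ)) (Z : Γ × Γ × Ξ → ℂ) (d : ℂ)
    (p : Γ × Γ) : mean ν E (fun z => d * Z z) p = d * mean ν E Z p := by
  unfold mean
  rw [average, average, integral_const_mul]

/-- **the necklace theorem** for a probability law of the gates -/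
theorem prob_form (μ : Measure Γ) [IsProbabilityMeasure μ] (ν : Turn → Measure Ξ)
    [∀ τ, IsProbabilityMeasure (ν τ)] {E : Turn → Set (Γ × Γ × Ξ)}
    (hE : ∀ τ, MeasurableSet (E τ)) {Z : Turn → Γ × Γ × Ξ → ℂ} (hZ : ∀ τ, Measurable (Z τ))
    {c : ℝ≥0∞} (hc0 : c ≠ 0) (hc : ∀ τ g g', c ≤ ν τ {x | (g, g', x) ∈ E τ})
    (hK : ∀ τ, ∫⁻ z in E τ, ‖Z τ z‖ₑ ^ 2 ∂(μ.prod (μ.prod (ν τ))) ≠ ∞) {ρ : ℝ≥0∞}
    (hρ : ∫⁻ g, ∫⁻ x in {x : Fin 8 → Ξ | ∀ k, (g k, g (k + 1), x k) ∈ E (octT k)},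
      ‖∑ k, octD k * Z (octT k) (g k, g (k + 1), x k)‖ₑ ^ 2
        ∂(Measure.pi fun k => ν (octT k)) ∂(law μ 8) ≤ ρ) (τ : Turn) :
    c ^ 8 * ∫⁻ z in E τ, ‖Z τ z - lin (alphaN μ fun τ => mean (ν τ) (E τ) (Z τ))
      (UN μ fun τ => mean (ν τ) (E τ) (Z τ)) τ (z.1, z.2.1)‖ₑ ^ 2
        ∂(μ.prod (μ.prod (ν τ))) ≤ 34 * ρ := by
  obtain ⟨g₀⟩ : Nonempty Γ := by
    by_contra h
    have : IsEmpty Γ := not_nonempty_iff.1 h
    have h1 : μ univ = 0 := by rw [univ_eq_empty_iff.2 this]; simp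
    rw [measure_univ] at h1
    exact one_ne_zero h1
  have hc1 : c ≤ 1 := (hc .S g₀ g₀).trans prob_le_one
  have hct : c ≠ ∞ := ne_top_of_le_ne_top ENNReal.one_ne_top hc1
  set m : Turn → Γ × Γ → ℂ := fun τ => mean (ν τ) (E τ) (Z τ) with hm_def
  have t1 := (t3_mean8 μ (fun k => ν (octT k)) (E := fun k => E (octT k))
    (fun k => hE _) (Z := fun k z => octD k * Z (octT k) z) (fun k => (hZ _).const_mul _)
    (fun k g g' => hc _ g g')).trans hρ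
  have t2 := fun k => (t3_var8 μ (fun k => ν (octT k)) (E := fun k => E (octT k))
    (fun k => hE _) (Z := fun k z => octD k * Z (octT k) z) (fun k => (hZ _).const_mul _)
    (fun k g g' => hc _ g g') k).trans hρ
  have mm : ∀ k, mean (ν (octT k)) (E (octT k)) (fun z => octD k * Z (octT k) z) = octF m k := by
    intro k
    funext p
    rw [mean_const_mul]
    rfl
  have hm : ∀ τ, Measurable (m τ) := fun τ => mean_measurable (ν τ) (hE τ) (hZ τ)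
  have h2 : ∀ τ, MemLp (m τ) 2 (μ.prod μ) := by
    intro τ
    refine ⟨(hm τ).aestronglyMeasurable, ?_⟩
    have h := mean_L2 μ (ν τ) (hE τ) (hZ τ) (fun g g' => hc τ g g') hct
    rw [← eLpNorm_two_sq] at h
    by_contra h3
    rw [not_lt, top_le_iff] at h3
    rw [show (mean (ν τ) (E τ) (Z τ)) = m τ from rfl, h3] at h
    rw [ENNReal.top_pow (by norm_num), ENNReal.mul_top hc0, top_le_iff] at h
    exact hK τ h
  have ml := mean_level μ m hm h2 τ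
  have hcyc : c ^ 8 * eLpNorm (cyc (octF m)) 2 (law μ 8) ^ 2 ≤ ρ := by
    rw [eLpNorm_two_sq]
    simp only [mm] at t1
    exact t1
  have hU := UN_meas μ m hm
  have hl : Measurable (lin (alphaN μ m) (UN μ m) τ) := lin_meas _ hU τ
  set l := lin (alphaN μ m) (UN μ m) τ with hl_def
  have hvar : c ^ 7 * ∫⁻ z in E τ, ‖Z τ z - m τ (z.1, z.2.1)‖ₑ ^ 2 ∂(μ.prod (μ.prod (ν τ))) ≤ ρ := by
    have key : ∀ k, c ^ 7 * ∫⁻ z in E (octT k), ‖Z (octT k) z - m (octT k) (z.1, z.2.1)‖ₑ ^ 2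
        ∂(μ.prod (μ.prod (ν (octT k)))) ≤ ρ := by
      intro k
      have h := t2 k
      simp only [mm] at h
      refine le_trans (le_of_eq ?_) h
      congr 1
      refine lintegral_congr fun z => ?_
      unfold octF
      rw [← mul_sub, enorm_mul, enorm_octD, one_mul]
    cases τ
    · exact key 0
    · exact key 1
    · exact key 3
  have hmean : c ^ 8 * ∫⁻ z in E τ, ‖m τ (z.1, z.2.1) - l (z.1, z.2.1)‖ₑ ^ 2
      ∂(μ.prod (μ.prod (ν τ))) ≤ 16 * ρ := by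
    have hF : Measurable fun z : Γ × Γ × Ξ => ‖m τ (z.1, z.2.1) - l (z.1, z.2.1)‖ₑ ^ 2 := by
      have : Measurable fun z : Γ × Γ × Ξ => (z.1, z.2.1) :=
        measurable_fst.prodMk (measurable_fst.comp measurable_snd)
      exact (((hm τ).comp this).sub (hl.comp this)).enorm.pow_const 2
    rw [lintegral_E μ (ν τ) (hE τ) hF]
    have h1 : ∫⁻ p : Γ × Γ, ∫⁻ x in {x | (p.1, p.2, x) ∈ E τ}, ‖m τ (p.1, p.2) - l (p.1, p.2)‖ₑ ^ 2
        ∂(ν τ) ∂(μ.prod μ) ≤ ∫⁻ p : Γ × Γ, ‖m τ p - l p‖ₑ ^ 2 ∂(μ.prod μ) := by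
      refine lintegral_mono fun p => ?_
      rw [setLIntegral_const]
      exact mul_le_of_le_one_right (by positivity) prob_le_one
    refine le_trans (mul_le_mul_right h1 _) ?_
    rw [← eLpNorm_two_sq]
    calc c ^ 8 * eLpNorm (fun p => m τ p - l p) 2 (μ.prod μ) ^ 2
        ≤ c ^ 8 * (4 * eLpNorm (cyc (octF m)) 2 (law μ 8)) ^ 2 := by gcongr
      _ = 16 * (c ^ 8 * eLpNorm (cyc (octF m)) 2 (law μ 8) ^ 2) := by ring
      _ ≤ 16 * ρ := by gcongr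
  have hc8 : c ^ 8 ≤ c ^ 7 := by
    calc c ^ 8 = c ^ 7 * c := by ring
      _ ≤ c ^ 7 * 1 := by gcongr
      _ = c ^ 7 := mul_one _
  have hcomb : ∫⁻ z in E τ, ‖Z τ z - l (z.1, z.2.1)‖ₑ ^ 2 ∂(μ.prod (μ.prod (ν τ))) ≤
      2 * ∫⁻ z in E τ, ‖Z τ z - m τ (z.1, z.2.1)‖ₑ ^ 2 ∂(μ.prod (μ.prod (ν τ))) +
      2 * ∫⁻ z in E τ, ‖m τ (z.1, z.2.1) - l (z.1, z.2.1)‖ₑ ^ 2 ∂(μ.prod (μ.prod (ν τ))) := by
    have hp : Measurable fun z : Γ × Γ × Ξ => (z.1, z.2.1) :=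
      measurable_fst.prodMk (measurable_fst.comp measurable_snd)
    have hM : Measurable fun z : Γ × Γ × Ξ => 2 * ‖Z τ z - m τ (z.1, z.2.1)‖ₑ ^ 2 :=
      (((hZ τ).sub ((hm τ).comp hp)).enorm.pow_const 2).const_mul 2
    rw [← lintegral_const_mul' _ _ (by norm_num), ← lintegral_const_mul' _ _ (by norm_num),
      ← lintegral_add_left hM]
    exact lintegral_mono fun z => enorm_sub_sq_le _ _ _
  calc c ^ 8 * ∫⁻ z in E τ, ‖Z τ z - l (z.1, z.2.1)‖ₑ ^ 2 ∂(μ.prod (μ.prod (ν τ)))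
      ≤ c ^ 8 * (2 * ∫⁻ z in E τ, ‖Z τ z - m τ (z.1, z.2.1)‖ₑ ^ 2 ∂(μ.prod (μ.prod (ν τ))) +
        2 * ∫⁻ z in E τ, ‖m τ (z.1, z.2.1) - l (z.1, z.2.1)‖ₑ ^ 2 ∂(μ.prod (μ.prod (ν τ)))) := by
        gcongr
    _ = 2 * (c ^ 8 * ∫⁻ z in E τ, ‖Z τ z - m τ (z.1, z.2.1)‖ₑ ^ 2 ∂(μ.prod (μ.prod (ν τ)))) +
        2 * (c ^ 8 * ∫⁻ z in E τ, ‖m τ (z.1, z.2.1) - l (z.1, z.2.1)‖ₑ ^ 2
          ∂(μ.prod (μ.prod (ν τ)))) := by ring
    _ ≤ 2 * (c ^ 7 * ∫⁻ z in E τ, ‖Z τ z - m τ (z.1, z.2.1)‖ₑ ^ 2 ∂(μ.prod (μ.prod (ν τ)))) +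
        2 * (16 * ρ) := by gcongr
    _ ≤ 2 * ρ + 2 * (16 * ρ) := by gcongr
    _ = 34 * ρ := by ring

/-- the `L²` norm of the conditional means -/
theorem mean_eLp (μ : Measure Γ) [IsProbabilityMeasure μ] (ν : Turn → Measure Ξ)
    [∀ τ, IsProbabilityMeasure (ν τ)] {E : Turn → Set (Γ × Γ × Ξ)}
    (hE : ∀ τ, MeasurableSet (E τ)) {Z : Turn → Γ × Γ × Ξ → ℂ} (hZ : ∀ τ, Measurable (Z τ))
    {c K : ℝ≥0∞} (hc0 : c ≠ 0) (hct : c ≠ ∞) (hc : ∀ τ g g', c ≤ ν τ {x | (g, g', x) ∈ E τ})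
    (hK : ∀ τ, ∫⁻ z in E τ, ‖Z τ z‖ₑ ^ 2 ∂(μ.prod (μ.prod (ν τ))) ≤ K) (τ : Turn) :
    eLpNorm (mean (ν τ) (E τ) (Z τ)) 2 (μ.prod μ) ≤ (K / c) ^ (1 / 2 : ℝ) := by
  have h := (mean_L2 μ (ν τ) (hE τ) (hZ τ) (fun g g' => hc τ g g') hct).trans (hK τ)
  rw [← eLpNorm_two_sq, mul_comm, ← ENNReal.le_div_iff_mul_le (Or.inl hc0) (Or.inl hct)] at h
  have h2 := ENNReal.rpow_le_rpow h (show (0 : ℝ) ≤ 1 / 2 by norm_num)
  rwa [← ENNReal.rpow_natCast, ← ENNReal.rpow_mul, show ((2 : ℕ) : ℝ) * (1 / 2) = 1 by norm_num,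
    ENNReal.rpow_one] at h2

theorem sqrt_sq (x : ℝ≥0∞) : (x ^ (1 / 2 : ℝ)) ^ 2 = x := by
  rw [← ENNReal.rpow_natCast, ← ENNReal.rpow_mul]
  norm_num

/-- **the necklace theorem**, probability law of the gates, with bounds -/
theorem prob_necklace (μ : Measure Γ) [IsProbabilityMeasure μ] (ν : Turn → Measure Ξ)
    [∀ τ, IsProbabilityMeasure (ν τ)] {E : Turn → Set (Γ × Γ × Ξ)}
    (hE : ∀ τ, MeasurableSet (E τ)) {Z : Turn → Γ × Γ × Ξ → ℂ} (hZ : ∀ τ, Measurable (Z τ))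
    {c K : ℝ≥0∞} (hc0 : c ≠ 0) (hc : ∀ τ g g', c ≤ ν τ {x | (g, g', x) ∈ E τ})
    (hKt : K ≠ ∞) (hK : ∀ τ, ∫⁻ z in E τ, ‖Z τ z‖ₑ ^ 2 ∂(μ.prod (μ.prod (ν τ))) ≤ K)
    {ρ : ℝ≥0∞}
    (hρ : ∫⁻ g, ∫⁻ x in {x : Fin 8 → Ξ | ∀ k, (g k, g (k + 1), x k) ∈ E (octT k)},
      ‖∑ k, octD k * Z (octT k) (g k, g (k + 1), x k)‖ₑ ^ 2
        ∂(Measure.pi fun k => ν (octT k)) ∂(law μ 8) ≤ ρ) :
    ∃ (α : ℂ) (U : Γ → ℂ), Measurable U ∧ c * ‖α‖ₑ ^ 2 ≤ K ∧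
      c * ∫⁻ g, ‖U g‖ₑ ^ 2 ∂μ ≤ 16 * K ∧
      ∀ τ, c ^ 8 * ∫⁻ z in E τ, ‖Z τ z - lin α U τ (z.1, z.2.1)‖ₑ ^ 2
        ∂(μ.prod (μ.prod (ν τ))) ≤ 34 * ρ := by
  obtain ⟨g₀⟩ : Nonempty Γ := by
    by_contra h
    have : IsEmpty Γ := not_nonempty_iff.1 h
    have h1 : μ univ = 0 := by rw [univ_eq_empty_iff.2 this]; simp
    rw [measure_univ] at h1
    exact one_ne_zero h1
  have hc1 : c ≤ 1 := (hc .S g₀ g₀).trans prob_le_one
  have hct : c ≠ ∞ := ne_top_of_le_ne_top ENNReal.one_ne_top hc1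
  set m : Turn → Γ × Γ → ℂ := fun τ => mean (ν τ) (E τ) (Z τ) with hm_def
  have hm : ∀ τ, Measurable (m τ) := fun τ => mean_measurable (ν τ) (hE τ) (hZ τ)
  have hκ : ∀ τ, eLpNorm (m τ) 2 (μ.prod μ) ≤ (K / c) ^ (1 / 2 : ℝ) :=
    mean_eLp μ ν hE hZ hc0 hct hc hK
  refine ⟨alphaN μ m, UN μ m, UN_meas μ m hm, ?_, ?_, fun τ => prob_form μ ν hE hZ hc0 hc
    (fun τ => ne_top_of_le_ne_top hKt (hK τ)) hρ τ⟩
  · calc c * ‖alphaN μ m‖ₑ ^ 2 ≤ c * ((K / c) ^ (1 / 2 : ℝ)) ^ 2 := by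
          gcongr
          exact (alphaN_norm μ m hm).trans (hκ _)
      _ = K := by rw [sqrt_sq, ENNReal.mul_div_cancel hc0 hct]
  · rw [← eLpNorm_two_sq]
    calc c * eLpNorm (UN μ m) 2 μ ^ 2 ≤ c * (4 * (K / c) ^ (1 / 2 : ℝ)) ^ 2 := by
          gcongr
          exact UN_norm μ m hm hκ
      _ = 16 * (c * ((K / c) ^ (1 / 2 : ℝ)) ^ 2) := by ring
      _ = 16 * K := by rw [sqrt_sq, ENNReal.mul_div_cancel hc0 hct]

/-! ### good gates -/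

/-- both gates good, tube open -/
def GE (G : Set Γ) (E : Set (Γ × Γ × Ξ)) : Set (Γ × Γ × Ξ) :=
  {z | z.1 ∈ G ∧ z.2.1 ∈ G ∧ z ∈ E}

/-- the event, extended to bad gates -/
def EX (G : Set Γ) (E : Set (Γ × Γ × Ξ)) : Set (Γ × Γ × Ξ) :=
  {z | z.1 ∈ G → z.2.1 ∈ G → z ∈ E}

theorem GE_meas {G : Set Γ} (hG : MeasurableSet G) {E : Set (Γ × Γ × Ξ)} (hE : MeasurableSet E) :
    MeasurableSet (GE G E) :=
  (measurable_fst hG).inter (((measurable_fst.comp measurable_snd) hG).inter hE)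

theorem EX_meas {G : Set Γ} (hG : MeasurableSet G) {E : Set (Γ × Γ × Ξ)} (hE : MeasurableSet E) :
    MeasurableSet (EX G E) := by
  have h : EX G E = (Prod.fst ⁻¹' G)ᶜ ∪ (((fun z : Γ × Γ × Ξ => z.2.1) ⁻¹' G)ᶜ ∪ E) := by
    ext z
    simp only [EX, mem_ofPred_eq, mem_union, mem_compl_iff, mem_preimage]
    tauto
  rw [h]
  exact (measurable_fst hG).compl.union
    (((measurable_fst.comp measurable_snd) hG).compl.union hE)

/-- law of a good gate -/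
def glaw (μ : Measure Γ) (G : Set Γ) : Measure Γ := (μ G)⁻¹ • μ.restrict G

theorem glaw_prob (μ : Measure Γ) [IsFiniteMeasure μ] {G : Set Γ} (hG0 : μ G ≠ 0) :
    IsProbabilityMeasure (glaw μ G) := by
  refine ⟨?_⟩
  rw [glaw, Measure.smul_apply, Measure.restrict_apply_univ, smul_eq_mul]
  exact ENNReal.inv_mul_cancel hG0 (measure_ne_top μ G)

theorem law_glaw (μ : Measure Γ) [IsFiniteMeasure μ] (G : Set Γ)
    (hG0 : μ G ≠ 0) (n : ℕ) :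
    (Measure.pi fun _ : Fin n => glaw μ G) =
      ((μ G)⁻¹) ^ n • (Measure.pi fun _ : Fin n => μ).restrict (univ.pi fun _ => G) := by
  have := glaw_prob μ hG0
  rw [Measure.restrict_pi_pi]
  refine (Measure.pi_eq fun s hs => ?_).symm.symm
  rw [Measure.smul_apply, Measure.pi_pi, smul_eq_mul]
  simp only [glaw, Measure.smul_apply, smul_eq_mul]
  rw [Finset.prod_mul_distrib, Finset.prod_const, Finset.card_univ, Fintype.card_fin]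

theorem glaw_prod (μ : Measure Γ) [IsFiniteMeasure μ] (ν : Measure Ξ) [IsProbabilityMeasure ν]
    {G : Set Γ} (hG : MeasurableSet G) (hG0 : μ G ≠ 0) :
    (glaw μ G).prod ((glaw μ G).prod ν) =
      ((μ G)⁻¹ * (μ G)⁻¹) • (μ.prod (μ.prod ν)).restrict (G ×ˢ (G ×ˢ univ)) := by
  have h1 : (glaw μ G).prod ν = (μ G)⁻¹ • (μ.prod ν).restrict (G ×ˢ univ) := by
    rw [glaw, Measure.prod_smul_left, ← Measure.prod_restrict, Measure.restrict_univ]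
  rw [h1, glaw, Measure.prod_smul_left, Measure.prod_smul_right, smul_smul]
  simp only [← Measure.prod_restrict]

theorem lintegral_glaw (μ : Measure Γ) [IsFiniteMeasure μ] (ν : Measure Ξ)
    [IsProbabilityMeasure ν] {G : Set Γ} (hG : MeasurableSet G) (hG0 : μ G ≠ 0)
    {E : Set (Γ × Γ × Ξ)} (hE : MeasurableSet E) (F : Γ × Γ × Ξ → ℝ≥0∞) :
    ∫⁻ z in EX G E, F z ∂((glaw μ G).prod ((glaw μ G).prod ν)) =
      (μ G)⁻¹ * (μ G)⁻¹ * ∫⁻ z in GE G E, F z ∂(μ.prod (μ.prod ν)) := by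
  rw [glaw_prod μ ν hG hG0, Measure.restrict_smul, lintegral_smul_measure, smul_eq_mul,
    Measure.restrict_restrict (EX_meas hG hE)]
  congr 3
  ext z
  simp only [EX, GE, mem_inter_iff, mem_ofPred_eq, mem_prod, mem_univ, and_true]
  tauto

theorem pow_cancel {q x y : ℝ≥0∞} (hq0 : q ≠ 0) (hqt : q ≠ ∞) (h : q⁻¹ * q⁻¹ * x ≤ q⁻¹ ^ 8 * y) :
    q ^ 6 * x ≤ y := by
  have h1 : q * q⁻¹ = 1 := ENNReal.mul_inv_cancel hq0 hqt
  calc q ^ 6 * x = q ^ 6 * (q * q⁻¹) ^ 2 * x := by rw [h1, one_pow, mul_one]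
    _ = q ^ 8 * (q⁻¹ * q⁻¹ * x) := by ring
    _ ≤ q ^ 8 * (q⁻¹ ^ 8 * y) := by gcongr
    _ = (q * q⁻¹) ^ 8 * y := by ring
    _ = y := by rw [h1, one_pow, one_mul]

/-- **the necklace theorem.**  `G` = good gates, `q = μ G`.  From the bound of the octagon
(`ρ` = second moment of the total charge of the closed necklace of eight tubes on the event that
all gates are good and all tubes are open) and the a priori bound `K` (frame) one gets a slope `α`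
and a corrector `U` of the gates with
`Z τ (g, g', x) = α * disp τ + rot τ * U g' - U g + O(ρ^{1/2})` in `L²` on the tube event. -/
theorem necklace (μ : Measure Γ) [IsProbabilityMeasure μ] (ν : Turn → Measure Ξ)
    [∀ τ, IsProbabilityMeasure (ν τ)] {G : Set Γ} (hG : MeasurableSet G) (hG0 : μ G ≠ 0)
    {E : Turn → Set (Γ × Γ × Ξ)} (hE : ∀ τ, MeasurableSet (E τ))
    {Z : Turn → Γ × Γ × Ξ → ℂ} (hZ : ∀ τ, Measurable (Z τ)) {c K : ℝ≥0∞} (hc0 : c ≠ 0)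
    (hc : ∀ τ, ∀ g ∈ G, ∀ g' ∈ G, c ≤ ν τ {x | (g, g', x) ∈ E τ}) (hKt : K ≠ ∞)
    (hK : ∀ τ, ∫⁻ z in GE G (E τ), ‖Z τ z‖ₑ ^ 2 ∂(μ.prod (μ.prod (ν τ))) ≤ K) {ρ : ℝ≥0∞}
    (hρ : ∫⁻ g in univ.pi fun _ : Fin 8 => G,
      ∫⁻ x in {x : Fin 8 → Ξ | ∀ k, (g k, g (k + 1), x k) ∈ E (octT k)},
      ‖∑ k, octD k * Z (octT k) (g k, g (k + 1), x k)‖ₑ ^ 2
        ∂(Measure.pi fun k => ν (octT k)) ∂(law μ 8) ≤ ρ) :
    ∃ (α : ℂ) (U : Γ → ℂ), Measurable U ∧ c * μ G ^ 2 * ‖α‖ₑ ^ 2 ≤ K ∧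
      c * μ G * ∫⁻ g in G, ‖U g‖ₑ ^ 2 ∂μ ≤ 16 * K ∧
      ∀ τ, c ^ 8 * μ G ^ 6 * ∫⁻ z in GE G (E τ), ‖Z τ z - lin α U τ (z.1, z.2.1)‖ₑ ^ 2
        ∂(μ.prod (μ.prod (ν τ))) ≤ 34 * ρ := by
  have hGt : μ G ≠ ∞ := measure_ne_top μ G
  have := glaw_prob μ hG0
  have hq : μ G * (μ G)⁻¹ = 1 := ENNReal.mul_inv_cancel hG0 hGt
  obtain ⟨g₀, hg₀⟩ : G.Nonempty := by
    rw [nonempty_iff_ne_empty]
    rintro rfl
    exact hG0 measure_empty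
  have hc1 : c ≤ 1 := (hc .S g₀ hg₀ g₀ hg₀).trans prob_le_one
  have hcX : ∀ τ g g', c ≤ ν τ {x | (g, g', x) ∈ EX G (E τ)} := by
    intro τ g g'
    by_cases h : g ∈ G ∧ g' ∈ G
    · refine (hc τ g h.1 g' h.2).trans (measure_mono fun x hx => ?_)
      exact fun _ _ => hx
    · have : {x | (g, g', x) ∈ EX G (E τ)} = univ := by
        ext x
        simp only [EX, mem_ofPred_eq, mem_univ, iff_true]
        tauto
      rw [this, measure_univ]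
      exact hc1
  have hKX : ∀ τ, ∫⁻ z in EX G (E τ), ‖Z τ z‖ₑ ^ 2
      ∂((glaw μ G).prod ((glaw μ G).prod (ν τ))) ≤ (μ G)⁻¹ * (μ G)⁻¹ * K := by
    intro τ
    rw [lintegral_glaw μ (ν τ) hG hG0 (hE τ)]
    gcongr
    exact hK τ
  have hKXt : (μ G)⁻¹ * (μ G)⁻¹ * K ≠ ∞ :=
    ENNReal.mul_ne_top (ENNReal.mul_ne_top (ENNReal.inv_ne_top.2 hG0) (ENNReal.inv_ne_top.2 hG0))
      hKt
  have hρX : ∫⁻ g, ∫⁻ x in {x : Fin 8 → Ξ | ∀ k, (g k, g (k + 1), x k) ∈ EX G (E (octT k))},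
      ‖∑ k, octD k * Z (octT k) (g k, g (k + 1), x k)‖ₑ ^ 2
        ∂(Measure.pi fun k => ν (octT k)) ∂(law (glaw μ G) 8) ≤ (μ G)⁻¹ ^ 8 * ρ := by
    unfold law
    rw [law_glaw μ G hG0 8, lintegral_smul_measure, smul_eq_mul]
    gcongr
    refine le_trans (le_of_eq ?_) hρ
    refine setLIntegral_congr_fun (MeasurableSet.univ_pi fun _ => hG) fun g hg => ?_
    have : {x : Fin 8 → Ξ | ∀ k, (g k, g (k + 1), x k) ∈ EX G (E (octT k))} =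
        {x : Fin 8 → Ξ | ∀ k, (g k, g (k + 1), x k) ∈ E (octT k)} := by
      ext x
      simp only [EX, mem_ofPred_eq]
      exact forall_congr' fun k => ⟨fun h => h (hg k trivial) (hg (k + 1) trivial),
        fun h _ _ => h⟩
    simp only [this]
  obtain ⟨α, U, hU, b1, b2, b3⟩ := prob_necklace (glaw μ G) ν (fun τ => EX_meas hG (hE τ)) hZ hc0
    hcX hKXt hKX hρX
  refine ⟨α, U, hU, ?_, ?_, fun τ => ?_⟩
  · calc c * μ G ^ 2 * ‖α‖ₑ ^ 2 = μ G ^ 2 * (c * ‖α‖ₑ ^ 2) := by ring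
      _ ≤ μ G ^ 2 * ((μ G)⁻¹ * (μ G)⁻¹ * K) := by gcongr
      _ = (μ G * (μ G)⁻¹) ^ 2 * K := by ring
      _ = K := by rw [hq, one_pow, one_mul]
  · rw [glaw, lintegral_smul_measure, smul_eq_mul] at b2
    calc c * μ G * ∫⁻ g in G, ‖U g‖ₑ ^ 2 ∂μ
        = c * μ G * ((μ G * (μ G)⁻¹) * ∫⁻ g in G, ‖U g‖ₑ ^ 2 ∂μ) := by rw [hq, one_mul]
      _ = μ G ^ 2 * (c * ((μ G)⁻¹ * ∫⁻ g in G, ‖U g‖ₑ ^ 2 ∂μ)) := by ring
      _ ≤ μ G ^ 2 * (16 * ((μ G)⁻¹ * (μ G)⁻¹ * K)) := by gcongr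
      _ = 16 * ((μ G * (μ G)⁻¹) ^ 2 * K) := by ring
      _ = 16 * K := by rw [hq, one_pow, one_mul]
  · have h := b3 τ
    rw [lintegral_glaw μ (ν τ) hG hG0 (hE τ)] at h
    have h2 := pow_cancel hG0 hGt (x := c ^ 8 * ∫⁻ z in GE G (E τ),
      ‖Z τ z - lin α U τ (z.1, z.2.1)‖ₑ ^ 2 ∂(μ.prod (μ.prod (ν τ)))) (y := 34 * ρ)
      (by
        refine le_trans (le_of_eq ?_) (h.trans (le_of_eq ?_))
        · ring
        · ring)
    refine le_trans (le_of_eq ?_) h2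
    ring

end Crest.Agent.R143.Neck2x571
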