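import Crest.Agent.R143.Neck2_571

/-!
# Row 143: the necklace theorem, chains (helper571; note 2961 of helper300, (T6))

* `chain_identity` : the telescoping identity
* `chain_L2` : charge of a chain of tubes `= α * displacement + d_n U(g_n) - d_0 U(g_0) + small`
* `chain_law` : the same with the constants of `Neck2x571.necklace`
-/

set_option autoImplicit false
set_option linter.unusedSectionVars false

noncomputable section

namespace Crest.Agent.R143.Neck3x571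

open MeasureTheory ProbabilityTheory Set Complex
open Crest.Agent.R143.Neckx571 Crest.Agent.R143.Neck2x571
open scoped ENNReal NNReal

variable {Γ Ξ : Type*} [MeasurableSpace Γ] [MeasurableSpace Ξ]

theorem telescope (n : ℕ) (v : Fin (n + 1) → ℂ) :
    ∑ k : Fin n, (v k.succ - v k.castSucc) = v (Fin.last n) - v 0 := by
  induction n with
  | zero => simp
  | succ n ih =>
    rw [Fin.sum_univ_castSucc]
    have h := ih fun k => v k.castSucc
    simp only [Fin.succ_castSucc, Fin.succ_last]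
    simp only [Fin.castSucc_zero] at h
    rw [h]
    ring

theorem chain_identity {n : ℕ} (α : ℂ) (U : Γ → ℂ) (τ : Fin n → Turn) (d : Fin (n + 1) → ℂ)
    (hd : ∀ k : Fin n, d k.succ = d k.castSucc * (τ k).rot) (g : Fin (n + 1) → Γ)
    (z : Fin n → ℂ) :
    ∑ k, d k.castSucc * z k - (α * ∑ k, d k.castSucc * (τ k).disp +
      d (Fin.last n) * U (g (Fin.last n)) - d 0 * U (g 0)) =
      ∑ k, d k.castSucc * (z k - lin α U (τ k) (g k.castSucc, g k.succ)) := by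
  have h := telescope n fun k => d k * U (g k)
  rw [add_sub_assoc, ← h, Finset.mul_sum, ← Finset.sum_add_distrib, ← Finset.sum_sub_distrib]
  refine Finset.sum_congr rfl fun k _ => ?_
  unfold lin
  rw [hd k]
  ring

theorem enorm_sum_sq_le {n : ℕ} (a : Fin n → ℂ) :
    ‖∑ k, a k‖ₑ ^ 2 ≤ n * ∑ k, ‖a k‖ₑ ^ 2 := by
  have h1 : ‖∑ k, a k‖ ^ 2 ≤ n * ∑ k, ‖a k‖ ^ 2 := by
    have h2 : ‖∑ k, a k‖ ≤ ∑ k, ‖a k‖ := norm_sum_le _ _
    have h3 := sq_sum_le_card_mul_sum_sq (s := (Finset.univ : Finset (Fin n)))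
      (f := fun k => ‖a k‖)
    rw [Finset.card_univ, Fintype.card_fin] at h3
    refine le_trans ?_ h3
    gcongr
  have e : ∀ w : ℂ, ‖w‖ₑ ^ 2 = ENNReal.ofReal (‖w‖ ^ 2) := fun w => by
    rw [ENNReal.ofReal_pow (norm_nonneg _), ofReal_norm]
  simp only [e]
  rw [← ENNReal.ofReal_sum_of_nonneg fun k _ => by positivity, ← ENNReal.ofReal_natCast,
    ← ENNReal.ofReal_mul (by positivity)]
  exact ENNReal.ofReal_le_ofReal h1

/-- the charge of a chain of tubes -/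
theorem chain_L2 {Ω : Type*} [MeasurableSpace Ω] (P : Measure Ω) (μ : Measure Γ)
    (ν : Turn → Measure Ξ) {G : Set Γ} (hG : MeasurableSet G)
    {E : Turn → Set (Γ × Γ × Ξ)} (hE : ∀ τ, MeasurableSet (E τ))
    {Z : Turn → Γ × Γ × Ξ → ℂ} (hZ : ∀ τ, Measurable (Z τ)) (α : ℂ) {U : Γ → ℂ}
    (hU : Measurable U) {n : ℕ} (τ : Fin n → Turn) (d : Fin (n + 1) → ℂ)
    (hd : ∀ k : Fin n, d k.succ = d k.castSucc * (τ k).rot) (hd1 : ∀ k, ‖d k‖ₑ = 1)
    {g : Fin (n + 1) → Ω → Γ} (hg : ∀ k, Measurable (g k)) {x : Fin n → Ω → Ξ}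
    (hx : ∀ k, Measurable (x k))
    (hlaw : ∀ k : Fin n, P.map (fun ω => (g k.castSucc ω, g k.succ ω, x k ω)) =
      μ.prod (μ.prod (ν (τ k)))) :
    ∫⁻ ω in {ω | (∀ k, g k ω ∈ G) ∧ ∀ k : Fin n, (g k.castSucc ω, g k.succ ω, x k ω) ∈ E (τ k)},
      ‖∑ k : Fin n, d k.castSucc * Z (τ k) (g k.castSucc ω, g k.succ ω, x k ω) -
        (α * ∑ k : Fin n, d k.castSucc * (τ k).disp + d (Fin.last n) * U (g (Fin.last n) ω) -
          d 0 * U (g 0 ω))‖ₑ ^ 2 ∂P ≤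
      n * ∑ k : Fin n, ∫⁻ z in GE G (E (τ k)), ‖Z (τ k) z - lin α U (τ k) (z.1, z.2.1)‖ₑ ^ 2
        ∂(μ.prod (μ.prod (ν (τ k)))) := by
  set B := {ω | (∀ k, g k ω ∈ G) ∧ ∀ k : Fin n, (g k.castSucc ω, g k.succ ω, x k ω) ∈ E (τ k)}
    with hB
  have ht : ∀ k : Fin n, Measurable fun ω => (g k.castSucc ω, g k.succ ω, x k ω) := fun k =>
    (hg _).prodMk ((hg _).prodMk (hx _))
  have hp : Measurable fun z : Γ × Γ × Ξ => (z.1, z.2.1) :=
    measurable_fst.prodMk (measurable_fst.comp measurable_snd)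
  have hF : ∀ k : Fin n, Measurable fun z : Γ × Γ × Ξ =>
      ‖Z (τ k) z - lin α U (τ k) (z.1, z.2.1)‖ₑ ^ 2 := fun k =>
    ((hZ _).sub ((lin_meas α hU (τ k)).comp hp)).enorm.pow_const 2
  calc ∫⁻ ω in B, ‖∑ k : Fin n, d k.castSucc * Z (τ k) (g k.castSucc ω, g k.succ ω, x k ω) -
        (α * ∑ k : Fin n, d k.castSucc * (τ k).disp + d (Fin.last n) * U (g (Fin.last n) ω) -
          d 0 * U (g 0 ω))‖ₑ ^ 2 ∂P
      ≤ ∫⁻ ω in B, n * ∑ k : Fin n, ‖Z (τ k) (g k.castSucc ω, g k.succ ω, x k ω) -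
          lin α U (τ k) (g k.castSucc ω, g k.succ ω)‖ₑ ^ 2 ∂P := by
        refine lintegral_mono fun ω => ?_
        rw [chain_identity α U τ d hd (fun k => g k ω)
          fun k => Z (τ k) (g k.castSucc ω, g k.succ ω, x k ω)]
        refine (enorm_sum_sq_le _).trans (le_of_eq ?_)
        congr 1
        refine Finset.sum_congr rfl fun k _ => ?_
        rw [enorm_mul, hd1, one_mul]
    _ = n * ∑ k : Fin n, ∫⁻ ω in B, ‖Z (τ k) (g k.castSucc ω, g k.succ ω, x k ω) -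
          lin α U (τ k) (g k.castSucc ω, g k.succ ω)‖ₑ ^ 2 ∂P := by
        rw [lintegral_const_mul' _ _ (ENNReal.natCast_ne_top n), lintegral_finsetSum]
        exact fun k _ => (hF k).comp (ht k)
    _ ≤ n * ∑ k : Fin n, ∫⁻ z in GE G (E (τ k)), ‖Z (τ k) z - lin α U (τ k) (z.1, z.2.1)‖ₑ ^ 2
        ∂(μ.prod (μ.prod (ν (τ k)))) := by
        gcongr with k _
        rw [← hlaw k, setLIntegral_map (GE_meas hG (hE _)) (hF k) (ht k)]
        refine lintegral_mono_set fun ω hω => ?_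
        exact ⟨hω.1 _, hω.1 _, hω.2 k⟩

/-- the charge of a chain of tubes, with the constants of the necklace theorem -/
theorem chain_law {Ω : Type*} [MeasurableSpace Ω] (P : Measure Ω) (μ : Measure Γ)
    (ν : Turn → Measure Ξ) {G : Set Γ} (hG : MeasurableSet G)
    {E : Turn → Set (Γ × Γ × Ξ)} (hE : ∀ τ, MeasurableSet (E τ))
    {Z : Turn → Γ × Γ × Ξ → ℂ} (hZ : ∀ τ, Measurable (Z τ)) (α : ℂ) {U : Γ → ℂ}
    (hU : Measurable U) {c ρ : ℝ≥0∞}
    (hN : ∀ τ, c * ∫⁻ z in GE G (E τ), ‖Z τ z - lin α U τ (z.1, z.2.1)‖ₑ ^ 2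
      ∂(μ.prod (μ.prod (ν τ))) ≤ ρ)
    {n : ℕ} (τ : Fin n → Turn) (d : Fin (n + 1) → ℂ)
    (hd : ∀ k : Fin n, d k.succ = d k.castSucc * (τ k).rot) (hd1 : ∀ k, ‖d k‖ₑ = 1)
    {g : Fin (n + 1) → Ω → Γ} (hg : ∀ k, Measurable (g k)) {x : Fin n → Ω → Ξ}
    (hx : ∀ k, Measurable (x k))
    (hlaw : ∀ k : Fin n, P.map (fun ω => (g k.castSucc ω, g k.succ ω, x k ω)) =
      μ.prod (μ.prod (ν (τ k)))) :
    c * ∫⁻ ω in {ω | (∀ k, g k ω ∈ G) ∧
        ∀ k : Fin n, (g k.castSucc ω, g k.succ ω, x k ω) ∈ E (τ k)},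
      ‖∑ k : Fin n, d k.castSucc * Z (τ k) (g k.castSucc ω, g k.succ ω, x k ω) -
        (α * ∑ k : Fin n, d k.castSucc * (τ k).disp + d (Fin.last n) * U (g (Fin.last n) ω) -
          d 0 * U (g 0 ω))‖ₑ ^ 2 ∂P ≤ (n : ℝ≥0∞) ^ 2 * ρ := by
  have h := chain_L2 P μ ν hG hE hZ α hU τ d hd hd1 hg hx hlaw
  calc c * _ ≤ c * (n * ∑ k : Fin n, ∫⁻ z in GE G (E (τ k)),
        ‖Z (τ k) z - lin α U (τ k) (z.1, z.2.1)‖ₑ ^ 2 ∂(μ.prod (μ.prod (ν (τ k))))) := by gcongr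
    _ = n * ∑ k : Fin n, c * ∫⁻ z in GE G (E (τ k)),
        ‖Z (τ k) z - lin α U (τ k) (z.1, z.2.1)‖ₑ ^ 2 ∂(μ.prod (μ.prod (ν (τ k)))) := by
        rw [Finset.mul_sum, Finset.mul_sum, Finset.mul_sum]
        refine Finset.sum_congr rfl fun k _ => by ring
    _ ≤ n * ∑ _k : Fin n, ρ := by
        gcongr with k _
        exact hN _
    _ = (n : ℝ≥0∞) ^ 2 * ρ := by
        rw [Finset.sum_const, Finset.card_univ, Fintype.card_fin, nsmul_eq_mul]
        ring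

end Crest.Agent.R143.Neck3x571
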