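import Crest.Agent.R143.TileG_73

/-!
# Row 143, CORE-C, block V4 (c): white landings inside the strip `b0 < Y < q1` (helper73)

* `up_low` : the lower part `M` of the upper arm (after its last site with `Y ≥ q1`)
* `white_right'`, `white_left'` : the landing chain is linked to `x`, the last site of the upper arm, and
  the region has to contain only window sites with `b0 < Y < q1`
-/

set_option autoImplicit false

noncomputable section

open scoped Classical

namespace Crest.Agent.R143.TileGx73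

open Crest.Agent.R143.B0x346 Crest.Agent.R143.DelGx806 Crest.Agent.R143.DelRx806
open Crest.Agent.R143.ToolWx838 Crest.Agent.R143.Blkx838 Crest.Agent.R143.ToolW2x838
open Crest.Agent.R143.ToolW3x838 Crest.Agent.R143.Circ4x838 Crest.Agent.R143.Harx315
open Crest.Agent.R143.RB0x838 Crest.Agent.R143.CircPx838 Crest.Agent.R143.Gatex838
open Crest.Agent.R143.Neckx921

variable {S V β : Finset ℂ} {z0 e : ℂ} {a0 a1 b0 b1 l0 l1 r0 r1 p0 p1 q0 q1 m m' mN : ℝ}

/-- lower part of the upper arm -/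
theorem up_low {up dn : List ℂ} {y : ℂ} (h : Neck S z0 e a0 a1 b0 b1 mN V β up y dn)
    (hq : q1 ≤ b1) : ∃ u M, (u :: M) <:+ up ∧ q1 ≤ Y z0 e u ∧ ∀ s ∈ M, Y z0 e s < q1 := by
  obtain ⟨u, M, h1, h2, h3⟩ := last_mark (M := fun s => q1 ≤ Y z0 e s) (A := fun _ => False) up
    ⟨up.head h.nu, List.head_mem h.nu, hq.trans h.top⟩ (fun _ _ _ h => h.elim)
  exact ⟨u, M, h1, h2, fun s hs => not_le.1 (h3 s hs).1⟩

/-- a white horizontal crossing above the neck meets the lower part of the upper arm -/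
theorem meetw' {up dn : List ℂ} {y u : ℂ} {M : List ℂ}
    (h : Neck S z0 e a0 a1 b0 b1 mN V β up y dn) (hM : (u :: M) <:+ up) (hu : q1 ≤ Y z0 e u)
    (hS : GP (S : Set ℂ)) (he : e ≠ 0) (hy : Y z0 e y ≤ q0)
    {P : List ℂ} (hP : P ≠ []) (dP : ∀ p ∈ prs P, DE S p.1 p.2) (cP : ∀ s ∈ P, s ∉ β)
    (hPy : ∀ s ∈ P, q0 < Y z0 e s ∧ Y z0 e s < q1)
    (h0 : X z0 e (P.head hP) ≤ a0) (h1 : a1 ≤ X z0 e (P.getLast hP)) : ∃ s ∈ P, s ∈ M := by
  obtain ⟨L, rfl⟩ := hM
  set Q : List ℂ := ((u :: M) ++ [y]).reverse with hQ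
  have hQn : Q ≠ [] := by rw [hQ]; simp
  have dQ : ∀ p ∈ prs Q, DE S p.1 p.2 := by
    refine prs_rev fun p hp => h.adj p ?_
    rw [prs_append]
    refine List.mem_append_left _ ?_
    rw [List.append_assoc]
    exact prs_suffix (List.suffix_append L ((u :: M) ++ [y])) p hp
  have hmem : ∀ s, s ∈ Q ↔ s = u ∨ s ∈ M ∨ s = y := by
    intro s
    rw [hQ, List.mem_reverse, List.mem_append, List.mem_singleton, List.mem_cons, or_assoc]
  obtain ⟨s, hs1, hs2⟩ := cross_e hS he hP hQn dP dQ hPy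
    (fun a ha => (h.win a (by
      rcases (hmem a).1 ha with h2 | h2 | h2
      · rw [h2]; simp
      · simp [h2]
      · rw [h2]; simp)).1) h0 h1
    (by
      have : Q.head hQn = y := by simp [hQ]
      rw [this]; exact hy)
    (by
      have : Q.getLast hQn = u := by
        simp only [hQ]
        rw [List.getLast_reverse]
        simp
      rw [this]
      exact hu)
  rcases (hmem s).1 hs2 with h2 | h2 | h2
  · have := (hPy s hs1).2
    rw [h2] at this
    linarith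
  · exact ⟨s, hs1, h2⟩
  · exact absurd (by rw [h2]; exact h.cy.2) (cP s hs1)

/-- links inside the lower part of the upper arm -/
theorem low_link {up dn : List ℂ} {y u : ℂ} {M : List ℂ}
    (h : Neck S z0 e a0 a1 b0 b1 mN V β up y dn) (hM : (u :: M) <:+ up)
    (hM1 : ∀ s ∈ M, Y z0 e s < q1) (hup : ∀ s ∈ up, b0 < Y z0 e s) {R : Set ℂ}
    (hR0 : ∀ s ∈ V, a0 < X z0 e s → X z0 e s < a1 → b0 < Y z0 e s → Y z0 e s < q1 → s ∈ R)
    {t0 : ℂ} (ht0 : t0 ∈ M) : Lk S {s | (s ∈ V ∧ s ∉ β) ∧ s ∈ R} (up.getLast h.nu) t0 := by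
  have hMne : M ≠ [] := List.ne_nil_of_mem ht0
  have hsuf : M <:+ up := (List.suffix_cons u M).trans hM
  have hlast : up.getLast h.nu = M.getLast hMne := by
    obtain ⟨L, hL⟩ := hsuf
    subst hL
    rw [List.getLast_append_of_ne_nil _ hMne]
  rw [hlast]
  refine lk_list (fun p hp => h.adj p ?_) (fun s hs => ?_) (List.getLast_mem hMne) ht0
  · have h1 : p ∈ prs up := prs_suffix hsuf p hp
    rw [prs_append]
    refine List.mem_append_left _ ?_
    clear * - h1
    induction up with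
    | nil => simp at h1
    | cons a up ih =>
      cases up with
      | nil => simp at h1
      | cons b up =>
        rw [prs_cons, List.mem_cons] at h1
        simp only [List.cons_append, prs_cons, List.mem_cons] at ih ⊢
        rcases h1 with rfl | h1
        · exact Or.inl rfl
        · exact Or.inr (ih h1)
  · have hs' := hsuf.subset hs
    have hw := h.win s (List.mem_append_left _ hs')
    exact ⟨h.cu s hs', hR0 s (h.cu s hs').1 hw.1.1 hw.1.2 (hup s hs') (hM1 s hs)⟩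

/-- **white landing, right**, region inside `b0 < Y < q1` -/
theorem white_right' {up dn : List ℂ} {y : ℂ} (hN : Neck S z0 e a0 a1 b0 b1 mN V β up y dn)
    (hup : ∀ s ∈ up, b0 < Y z0 e s)
    (hS : GP (S : Set ℂ)) (he : e ≠ 0) {P Q : List ℂ} (h : HC S z0 e a0 l1 q0 q1 m (V \ β) P)
    (v : VC S z0 e l0 l1 q0 q1 m' (V \ β) Q) (hy : Y z0 e y ≤ q0) (hq1 : q1 ≤ b1) (h1 : a1 ≤ l0)
    (h01 : a1 ≤ l1) {R : Set ℂ}
    (hR : ∀ s ∈ V, a0 < X z0 e s → X z0 e s ≤ l1 + m → q0 < Y z0 e s → Y z0 e s < q1 → s ∈ R)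
    (hR0 : ∀ s ∈ V, a0 < X z0 e s → X z0 e s < a1 → b0 < Y z0 e s → Y z0 e s < q1 → s ∈ R)
    (hR' : ∀ s ∈ Q, s ∈ R) {t : ℂ} (ht : t ∈ Q) :
    Lk S {s | (s ∈ V ∧ s ∉ β) ∧ s ∈ R} (up.getLast hN.nu) t := by
  obtain ⟨u, M, hM, hu, hM1⟩ := up_low hN hq1
  have hcol : ∀ s ∈ P, s ∈ V ∧ s ∉ β := fun s hs => Finset.mem_sdiff.1 (h.col s hs)
  obtain ⟨t0, T, hT, ht0, hTT⟩ := last_mark (M := fun s => s ∈ M) (A := fun s => X z0 e s ≤ a0) P
    (meetw' hN hM hu hS he hy h.ne h.adj (fun s hs => (hcol s hs).2) h.strip h.left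
      (h01.trans h.right))
    (fun s T hT hs => meetw' hN hM hu hS he hy (by simp) (fun p hp => h.adj p (prs_suffix hT p hp))
      (fun u hu => (hcol u (hT.subset hu)).2) (fun u hu => h.strip u (hT.subset hu))
      (by simpa using hs) (by rw [suffix_last hT h.ne]; exact h01.trans h.right))
  have hup0 : t0 ∈ up := ((List.suffix_cons u M).trans hM).subset ht0
  have hwin := hN.win t0 (List.mem_append_left _ hup0)
  have hX : ∀ s ∈ t0 :: T, a0 < X z0 e s := by
    intro s hs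
    rcases List.mem_cons.1 hs with rfl | hs
    · exact hwin.1.1
    · exact not_le.1 (hTT s hs).2
  obtain ⟨s, hs1, hs2⟩ := cross_e hS he (P := t0 :: T) (Q := Q) (by simp) v.ne
    (fun p hp => h.adj p (prs_suffix hT p hp)) v.adj (fun u hu => h.strip u (hT.subset hu)) v.strip
    (by simpa using (hwin.1.2.le.trans h1)) (by rw [suffix_last hT h.ne]; exact h.right) v.left
    v.right
  have k0 := low_link hN hM hM1 hup hR0 ht0
  have k1 : Lk S {s | (s ∈ V ∧ s ∉ β) ∧ s ∈ R} t0 s := by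
    refine lk_list (fun p hp => h.adj p (prs_suffix hT p hp)) (fun u hu => ?_)
      (by simp) hs1
    have hu' := hT.subset hu
    exact ⟨hcol u hu', hR u (hcol u hu').1 (hX u hu) (h.loc u hu').2 (h.strip u hu').1
      (h.strip u hu').2⟩
  exact (k0.trans k1).trans (lk_list (A := {s | (s ∈ V ∧ s ∉ β) ∧ s ∈ R}) v.adj
    (fun u hu => ⟨Finset.mem_sdiff.1 (v.col u hu), hR' u hu⟩) hs2 ht)

/-- **white landing, left**, region inside `b0 < Y < q1` -/
theorem white_left' {up dn : List ℂ} {y : ℂ} (hN : Neck S z0 e a0 a1 b0 b1 mN V β up y dn)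
    (hup : ∀ s ∈ up, b0 < Y z0 e s)
    (hS : GP (S : Set ℂ)) (he : e ≠ 0) {P Q : List ℂ} (h : HC S z0 e r0 a1 q0 q1 m (V \ β) P)
    (v : VC S z0 e r0 r1 q0 q1 m' (V \ β) Q) (hy : Y z0 e y ≤ q0) (hq1 : q1 ≤ b1) (h1 : r1 ≤ a0)
    (h01 : r0 ≤ a0) {R : Set ℂ}
    (hR : ∀ s ∈ V, X z0 e s < a1 → r0 - m ≤ X z0 e s → q0 < Y z0 e s → Y z0 e s < q1 → s ∈ R)
    (hR0 : ∀ s ∈ V, a0 < X z0 e s → X z0 e s < a1 → b0 < Y z0 e s → Y z0 e s < q1 → s ∈ R)
    (hR' : ∀ s ∈ Q, s ∈ R) {t : ℂ} (ht : t ∈ Q) :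
    Lk S {s | (s ∈ V ∧ s ∉ β) ∧ s ∈ R} (up.getLast hN.nu) t := by
  obtain ⟨u, M, hM, hu, hM1⟩ := up_low hN hq1
  have hcol : ∀ s ∈ P, s ∈ V ∧ s ∉ β := fun s hs => Finset.mem_sdiff.1 (h.col s hs)
  have hex : ∃ s ∈ P.reverse, s ∈ M := by
    obtain ⟨s, h2, h3⟩ := meetw' hN hM hu hS he hy h.ne h.adj (fun s hs => (hcol s hs).2) h.strip
      (h.left.trans h01) h.right
    exact ⟨s, List.mem_reverse.2 h2, h3⟩
  obtain ⟨t0, T, hT, ht0, hTT⟩ := last_mark (M := fun s => s ∈ M) (A := fun s => a1 ≤ X z0 e s)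
    P.reverse hex
    (fun s T hT hs => by
      obtain ⟨w, h2, h3⟩ := meetw' hN hM hu hS he hy (P := (s :: T).reverse) (by simp)
        (prs_rev fun p hp => prs_rev h.adj p (prs_suffix hT p hp))
        (fun u hu => (hcol u (List.mem_reverse.1 (hT.subset (List.mem_reverse.1 hu)))).2)
        (fun u hu => h.strip u (List.mem_reverse.1 (hT.subset (List.mem_reverse.1 hu))))
        (by rw [suffix_rev_head hT h.ne]; exact h.left.trans h01) (by simpa using hs)
      exact ⟨w, List.mem_reverse.1 h2, h3⟩)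
  have hup0 : t0 ∈ up := ((List.suffix_cons u M).trans hM).subset ht0
  have hwin := hN.win t0 (List.mem_append_left _ hup0)
  have hX : ∀ s ∈ t0 :: T, X z0 e s < a1 := by
    intro s hs
    rcases List.mem_cons.1 hs with rfl | hs
    · exact hwin.1.2
    · exact not_le.1 (hTT s hs).2
  have dT : ∀ p ∈ prs (t0 :: T), DE S p.1 p.2 := fun p hp => prs_rev h.adj p (prs_suffix hT p hp)
  have mT : ∀ u ∈ t0 :: T, u ∈ P := fun u hu => List.mem_reverse.1 (hT.subset hu)
  obtain ⟨s, hs1, hs2⟩ := cross_e hS he (P := (t0 :: T).reverse) (Q := Q) (by simp) v.ne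
    (prs_rev dT) v.adj (fun u hu => h.strip u (mT u (List.mem_reverse.1 hu))) v.strip
    (by rw [suffix_rev_head hT h.ne]; exact h.left) (by simpa using (h1.trans hwin.1.1.le)) v.left
    v.right
  rw [List.mem_reverse] at hs1
  have k0 := low_link hN hM hM1 hup hR0 ht0
  have k1 : Lk S {s | (s ∈ V ∧ s ∉ β) ∧ s ∈ R} t0 s := by
    refine lk_list dT (fun u hu => ?_) (by simp) hs1
    have hu' := mT u hu
    exact ⟨hcol u hu', hR u (hcol u hu').1 (hX u hu) (h.loc u hu').1 (h.strip u hu').1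
      (h.strip u hu').2⟩
  exact (k0.trans k1).trans (lk_list (A := {s | (s ∈ V ∧ s ∉ β) ∧ s ∈ R}) v.adj
    (fun u hu => ⟨Finset.mem_sdiff.1 (v.col u hu), hR' u hu⟩) hs2 ht)

end Crest.Agent.R143.TileGx73
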