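import Crest.Agent.R143.Neck4_921
import Crest.Agent.R143.LanePr_73

/-!
# Row 143, CORE-C, block V4: the gate event gives the black links (helper921)

* `Neck.scale`, `neckD_scale` : frame `(z0, η e)`
* `ge_blackR`, `ge_blackL` : **black landing from `GE`**, for every gate dart `(y, x)` (white halves:
  120's `ge_whiteR`, `ge_whiteL`)
-/

set_option autoImplicit false

noncomputable section

open scoped Classical

namespace Crest.Agent.R143.Neckx921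

open Crest.Agent.R143.B0x346 Crest.Agent.R143.DelGx806 Crest.Agent.R143.DelRx806
open Crest.Agent.R143.ToolWx838 Crest.Agent.R143.Blkx838 Crest.Agent.R143.ToolW2x838
open Crest.Agent.R143.ToolW3x838 Crest.Agent.R143.Circ4x838 Crest.Agent.R143.Harx315
open Crest.Agent.R143.RB0x838 Crest.Agent.R143.CircPx838 Crest.Agent.R143.Gatex838
open Crest.Agent.R143.LanePrx73 (X_scale Y_scale inv_le_iff' le_inv_iff' inv_lt_iff' lt_inv_iff')

variable {S V β : Finset ℂ} {z0 e : ℂ}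
variable {a0 a1 b0 b1 p1 r0 r1 c0 c1 d0 d1 lR0 lR1 lL0 lL1 m mN η : ℝ}

/-! ### scaling -/

theorem Neck.scale (hη : 0 < η) {up dn : List ℂ} {y : ℂ} :
    Neck S z0 ((η : ℂ) * e) a0 a1 b0 b1 m V β up y dn ↔
      Neck S z0 e (η * a0) (η * a1) (η * b0) (η * b1) (η * m) V β up y dn := by
  have e1 : ∀ s, X z0 ((η : ℂ) * e) s = η⁻¹ * X z0 e s := X_scale hη.ne' z0 e
  have e2 : ∀ s, Y z0 ((η : ℂ) * e) s = η⁻¹ * Y z0 e s := Y_scale hη.ne' z0 e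
  constructor
  · intro h
    refine ⟨h.nu, h.nd, h.adj, h.cu, fun s hs hb => h.cd s hs ?_, h.cy, fun s hs => ?_, ?_, ?_, ?_,
      fun s hs => ?_⟩
    · rw [e2, lt_inv_iff' hη]; exact hb
    · have := h.win s hs
      rw [e1, e2, lt_inv_iff' hη, inv_lt_iff' hη, le_inv_iff' hη, inv_le_iff' hη, mul_sub,
        mul_add] at this
      exact this
    · have := h.yb
      rw [e2, lt_inv_iff' hη, inv_lt_iff' hη] at this
      exact this
    · have := h.top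
      rw [e2, le_inv_iff' hη] at this
      exact this
    · have := h.bot
      rw [e2, inv_le_iff' hη] at this
      exact this
    · have := h.upb s hs
      rw [e2, lt_inv_iff' hη] at this
      exact this
  · intro h
    refine ⟨h.nu, h.nd, h.adj, h.cu, fun s hs hb => h.cd s hs ?_, h.cy, fun s hs => ?_, ?_, ?_, ?_,
      fun s hs => ?_⟩
    · rw [e2, lt_inv_iff' hη] at hb; exact hb
    · rw [e1, e2, lt_inv_iff' hη, inv_lt_iff' hη, le_inv_iff' hη, inv_le_iff' hη, mul_sub,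
        mul_add]
      exact h.win s hs
    · rw [e2, lt_inv_iff' hη, inv_lt_iff' hη]
      exact h.yb
    · rw [e2, le_inv_iff' hη]
      exact h.top
    · rw [e2, inv_le_iff' hη]
      exact h.bot
    · rw [e2, lt_inv_iff' hη]
      exact h.upb s hs

theorem neckD_scale (hη : 0 < η) {y x : ℂ} :
    NeckD S z0 ((η : ℂ) * e) a0 a1 b0 b1 m V β y x ↔
      NeckD S z0 e (η * a0) (η * a1) (η * b0) (η * b1) (η * m) V β y x := by
  unfold NeckD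
  constructor
  · rintro ⟨up, dn, h, rfl⟩
    exact ⟨up, dn, (Neck.scale hη).1 h, rfl⟩
  · rintro ⟨up, dn, h, rfl⟩
    exact ⟨up, dn, (Neck.scale hη).2 h, rfl⟩

/-! ### black links from `GE` -/

/-- **black landing on the right from `GE`**, for every gate dart `(y, x)` -/
theorem ge_blackR {L : Lc} (hS : GP (S : Set ℂ)) (he : e ≠ 0)
    (h : GE S V z0 e L r0 r1 lR0 lR1 lL0 lL1 p1 c0 c1 d0 d1 b1 m mN β) {y x : ℂ}
    (g : NeckD S z0 e L.a0 L.a1 L.b0 b1 mN V β y x) (k0 : r0 + m ≤ L.a0) (k1 : lR1 ≤ r1 - m)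
    (hpb : p1 ≤ b1) (h1 : L.a1 + 2 * m ≤ lR0) (h2 : lR0 < lR1) (h3 : L.a0 < lR1) {R : Set ℂ}
    (hR : ∀ s ∈ β, L.a0 < X z0 e s → X z0 e s ≤ lR1 + 2 * m → L.b0 < Y z0 e s → Y z0 e s < p1 →
      s ∈ R)
    (hR1 : ∀ s ∈ β, lR0 < X z0 e s → X z0 e s < lR1 → L.p0 - m ≤ Y z0 e s → Y z0 e s ≤ p1 + m →
      s ∈ R) :
    ∃ Q, VC S z0 e lR0 lR1 L.p0 p1 m β Q ∧ ∀ t ∈ Q, Lk S {s | s ∈ β ∧ s ∈ R} y t := by
  obtain ⟨Q, ⟨P, hP⟩, hQ⟩ := h.extRB k0 h3 k1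
  obtain ⟨up, dn, hN, rfl⟩ := g
  exact ⟨Q, hQ, fun t ht => black_rightH hN hS he hP hQ hpb h1 h2 hR
    (fun s hs => hR1 s (hQ.col s hs) (hQ.strip s hs).1 (hQ.strip s hs).2 (hQ.loc s hs).1
      (hQ.loc s hs).2) ht⟩

/-- **black landing on the left from `GE`**, for every gate dart `(y, x)` -/
theorem ge_blackL {L : Lc} (hS : GP (S : Set ℂ)) (he : e ≠ 0)
    (h : GE S V z0 e L r0 r1 lR0 lR1 lL0 lL1 p1 c0 c1 d0 d1 b1 m mN β) {y x : ℂ}
    (g : NeckD S z0 e L.a0 L.a1 L.b0 b1 mN V β y x) (k0 : r0 + m ≤ lL0) (k1 : L.a1 ≤ r1 - m)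
    (hpb : p1 ≤ b1) (h1 : lL1 + 2 * m ≤ L.a0) (h2 : lL0 < lL1) (h3 : lL0 < L.a1) {R : Set ℂ}
    (hR : ∀ s ∈ β, X z0 e s < L.a1 → lL0 - 2 * m ≤ X z0 e s → L.b0 < Y z0 e s → Y z0 e s < p1 →
      s ∈ R)
    (hR1 : ∀ s ∈ β, lL0 < X z0 e s → X z0 e s < lL1 → L.p0 - m ≤ Y z0 e s → Y z0 e s ≤ p1 + m →
      s ∈ R) :
    ∃ Q, VC S z0 e lL0 lL1 L.p0 p1 m β Q ∧ ∀ t ∈ Q, Lk S {s | s ∈ β ∧ s ∈ R} y t := by
  obtain ⟨Q, ⟨P, hP⟩, hQ⟩ := h.extLB k0 h3 k1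
  obtain ⟨up, dn, hN, rfl⟩ := g
  exact ⟨Q, hQ, fun t ht => black_leftH hN hS he hP hQ hpb h1 h2 hR
    (fun s hs => hR1 s (hQ.col s hs) (hQ.strip s hs).1 (hQ.strip s hs).2 (hQ.loc s hs).1
      (hQ.loc s hs).2) ht⟩

end Crest.Agent.R143.Neckx921
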