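import Mathlib

/-!
# Row 143: the necklace theorem, mean level (helper571; note 2961 of helper300, (T4), (T5))

Three types of tubes `S, L, R` (straight, left turn, right turn).  `m τ (g, g')` is the (mean)
charge of a tube of type `τ` between the gates `g`, `g'`, incoming direction `1`.  One closed
necklace is enough: the octagon with turns `S L L R L L S L` and incoming directions
`1, 1, i, -1, i, -1, -i, -i`.

* `mean_level` : if the total mean charge of the octagon is `≤ ε` in `L²(gates)`, then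
  `m τ (g, g') = α * disp τ + rot τ * U g' - U g + O(ε)` in `L²`, for all three types.
-/

set_option autoImplicit false
set_option linter.unusedSectionVars false

noncomputable section

namespace Crest.Agent.R143.Neckx571

open MeasureTheory ProbabilityTheory Set Complex
open scoped ENNReal NNReal

/-- the types of the tubes: straight, left turn, right turn -/
inductive Turn
  | S
  | L
  | R
  deriving DecidableEq

/-- outgoing direction / incoming direction -/
def Turn.rot : Turn → ℂ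
  | .S => 1
  | .L => I
  | .R => -I

/-- displacement of the midpoints, incoming direction `1`, mesh `1` -/
def Turn.disp : Turn → ℂ
  | .S => 1
  | .L => (1 + I) / 2
  | .R => (1 - I) / 2

/-- turns of the octagon -/
def octT : Fin 8 → Turn := ![.S, .L, .L, .R, .L, .L, .S, .L]

/-- incoming directions of the octagon -/
def octD : Fin 8 → ℂ := ![1, 1, I, -1, I, -1, -I, -I]

theorem octD_succ (k : Fin 8) : octD (k + 1) = octD k * (octT k).rot := by
  fin_cases k <;> simp [octD, octT, Turn.rot]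

theorem octD_disp : ∑ k, octD k * (octT k).disp = 0 := by
  simp only [Fin.sum_univ_eight, octD, octT, Turn.disp, Matrix.cons_val]
  ring_nf
  simp

theorem norm_octD (k : Fin 8) : ‖octD k‖ = 1 := by
  fin_cases k <;> simp [octD]

theorem enorm_octD (k : Fin 8) : ‖octD k‖ₑ = 1 := by
  have := norm_octD k
  rw [← ofReal_norm, this]; simp

/-! ### Jensen -/

section Jensen

variable {A B : Type*} [MeasurableSpace A] [MeasurableSpace B]

theorem eLpNorm_two_sq (μ : Measure A) (f : A → ℂ) :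
    eLpNorm f 2 μ ^ 2 = ∫⁻ a, ‖f a‖ₑ ^ 2 ∂μ := by
  rw [eLpNorm_eq_lintegral_rpow_enorm_toReal (by norm_num) (by norm_num)]
  simp only [ENNReal.toReal_ofNat]
  rw [← ENNReal.rpow_natCast, ← ENNReal.rpow_mul]
  norm_num

theorem enorm_integral_le (μ : Measure A) [IsProbabilityMeasure μ] {f : A → ℂ}
    (hf : AEStronglyMeasurable f μ) : ‖∫ a, f a ∂μ‖ₑ ≤ eLpNorm f 2 μ := by
  refine (enorm_integral_le_lintegral_enorm f).trans ?_
  rw [← eLpNorm_one_eq_lintegral_enorm]
  exact eLpNorm_le_eLpNorm_of_exponent_le (by norm_num) hf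

theorem enorm_integral_sq_le (μ : Measure A) [IsProbabilityMeasure μ] {f : A → ℂ}
    (hf : AEStronglyMeasurable f μ) : ‖∫ a, f a ∂μ‖ₑ ^ 2 ≤ ∫⁻ a, ‖f a‖ₑ ^ 2 ∂μ := by
  rw [← eLpNorm_two_sq]
  gcongr
  exact enorm_integral_le μ hf

/-- partial mean is a contraction of `L²` -/
theorem eLpNorm_integral_le (μ : Measure A) (ν : Measure B) [SFinite μ]
    [IsProbabilityMeasure ν] {F : A × B → ℂ} (hF : Measurable F) :
    eLpNorm (fun a => ∫ b, F (a, b) ∂ν) 2 μ ≤ eLpNorm F 2 (μ.prod ν) := by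
  have h : eLpNorm (fun a => ∫ b, F (a, b) ∂ν) 2 μ ^ 2 ≤ eLpNorm F 2 (μ.prod ν) ^ 2 := by
    rw [eLpNorm_two_sq, eLpNorm_two_sq, lintegral_prod _ (hF.enorm.pow_const 2).aemeasurable]
    refine lintegral_mono fun a => ?_
    exact enorm_integral_sq_le ν (hF.comp measurable_prodMk_left).aestronglyMeasurable
  exact (ENNReal.pow_le_pow_left_iff (by norm_num)).1 h

end Jensen

/-! ### the product of eight gates -/

section Pi

variable {Γ : Type*} [MeasurableSpace Γ] (μ : Measure Γ) [IsProbabilityMeasure μ]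

/-- the law of `n` independent gates -/
abbrev law (n : ℕ) : Measure (Fin n → Γ) := Measure.pi fun _ : Fin n => μ

theorem lintegral_succ (n : ℕ) {f : (Fin (n + 1) → Γ) → ℝ≥0∞} (hf : Measurable f) :
    ∫⁻ g, f g ∂(law μ (n + 1)) = ∫⁻ a, ∫⁻ r, f (Fin.cons a r) ∂(law μ n) ∂μ := by
  have h := (measurePreserving_piFinSuccAbove (fun _ : Fin (n + 1) => μ) 0).symm
  rw [← h.lintegral_comp hf, lintegral_prod]
  · refine lintegral_congr fun a => lintegral_congr fun r => ?_
    congr 1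
    exact Fin.insertNth_zero' a r
  · exact (hf.comp (MeasurableEquiv.measurable _)).aemeasurable

theorem mp_eval {n : ℕ} (i : Fin n) : MeasurePreserving (fun g : Fin n → Γ => g i) (law μ n) μ :=
  measurePreserving_eval (fun _ : Fin n => μ) i

theorem mp_pair {n : ℕ} {i j : Fin n} (hij : i ≠ j) :
    MeasurePreserving (fun g : Fin n → Γ => (g i, g j)) (law μ n) (μ.prod μ) := by
  refine ⟨(measurable_pi_apply i).prodMk (measurable_pi_apply j), ?_⟩
  symm
  refine Measure.prod_eq fun s t hs ht => ?_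
  rw [Measure.map_apply ((measurable_pi_apply i).prodMk (measurable_pi_apply j)) (hs.prod ht)]
  have h : (fun g : Fin n → Γ => (g i, g j)) ⁻¹' s ×ˢ t =
      Set.univ.pi (fun k => if k = i then s else if k = j then t else Set.univ) := by
    ext g
    simp only [mem_preimage, mem_prod, mem_pi, mem_univ, true_implies]
    constructor
    · rintro ⟨h1, h2⟩ k
      split_ifs with h3 h4
      · rw [h3]; exact h1
      · rw [h4]; exact h2
      · trivial
    · intro h
      have h1 := h i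
      have h2 := h j
      rw [if_pos rfl] at h1
      rw [if_neg hij.symm, if_pos rfl] at h2
      exact ⟨h1, h2⟩
  rw [h, Measure.pi_pi]
  have h2 : ∀ k, μ (if k = i then s else if k = j then t else Set.univ) =
      (if k = i then μ s else 1) * (if k = j then μ t else 1) := by
    intro k
    split_ifs with h3 h4 h4
    · exact absurd (h3.symm.trans h4) hij
    · rw [mul_one]
    · rw [one_mul]
    · rw [measure_univ, one_mul]
  rw [Finset.prod_congr rfl fun k _ => h2 k, Finset.prod_mul_distrib, Finset.prod_ite_eq',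
    Finset.prod_ite_eq', if_pos (Finset.mem_univ _), if_pos (Finset.mem_univ _)]

theorem mp_perm {n : ℕ} (e : Fin n ≃ Fin n) :
    MeasurePreserving (fun (g : Fin n → Γ) (k : Fin n) => g (e k)) (law μ n) (law μ n) := by
  have hm : Measurable (fun (g : Fin n → Γ) (k : Fin n) => g (e k)) :=
    measurable_pi_lambda _ fun k => measurable_pi_apply _
  refine ⟨hm, ?_⟩
  symm
  refine Measure.pi_eq fun s hs => ?_
  rw [Measure.map_apply hm (MeasurableSet.univ_pi hs)]
  have h : (fun (g : Fin n → Γ) (k : Fin n) => g (e k)) ⁻¹' Set.univ.pi s =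
      Set.univ.pi (fun k => s (e.symm k)) := by
    ext g
    simp only [mem_preimage, mem_pi, mem_univ, true_implies]
    constructor
    · intro h k
      have := h (e.symm k)
      rwa [Equiv.apply_symm_apply] at this
    · intro h k
      have := h (e k)
      rwa [Equiv.symm_apply_apply] at this
  rw [h, Measure.pi_pi]
  exact Equiv.prod_comp e.symm fun k => μ (s k)

/-- the partial means -/
def mA (f : Γ × Γ → ℂ) (g : Γ) : ℂ := ∫ y, f (g, y) ∂μ
/-- the partial means -/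
def mB (f : Γ × Γ → ℂ) (g : Γ) : ℂ := ∫ x, f (x, g) ∂μ
/-- the mean -/
def mC (f : Γ × Γ → ℂ) : ℂ := ∫ z, f z ∂(μ.prod μ)

variable {f : Γ × Γ → ℂ}

theorem mA_meas (hf : Measurable f) : Measurable (mA μ f) :=
  (hf.stronglyMeasurable.integral_prod_right' (ν := μ)).measurable

theorem mB_meas (hf : Measurable f) : Measurable (mB μ f) :=
  (hf.stronglyMeasurable.integral_prod_left' (μ := μ)).measurable

theorem mA_norm (hf : Measurable f) : eLpNorm (mA μ f) 2 μ ≤ eLpNorm f 2 (μ.prod μ) :=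
  eLpNorm_integral_le μ μ hf

theorem mB_norm (hf : Measurable f) : eLpNorm (mB μ f) 2 μ ≤ eLpNorm f 2 (μ.prod μ) := by
  have h := eLpNorm_integral_le μ μ (F := fun z : Γ × Γ => f z.swap) (hf.comp measurable_swap)
  have h2 : eLpNorm (fun z : Γ × Γ => f z.swap) 2 (μ.prod μ) = eLpNorm f 2 (μ.prod μ) := by
    have h3 := (Measure.measurePreserving_swap (μ := μ) (ν := μ))
    exact eLpNorm_comp_measurePreserving hf.aestronglyMeasurable h3
  rw [h2] at h
  exact h

theorem mA_mean (h2 : MemLp f 2 (μ.prod μ)) : ∫ g, mA μ f g ∂μ = mC μ f := by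
  unfold mA mC
  rw [integral_prod _ (h2.integrable (by norm_num))]

theorem mB_mean (h2 : MemLp f 2 (μ.prod μ)) : ∫ g, mB μ f g ∂μ = mC μ f := by
  unfold mB mC
  rw [integral_prod_symm _ (h2.integrable (by norm_num))]

theorem mA_int (h2 : MemLp f 2 (μ.prod μ)) : Integrable (mA μ f) μ :=
  (h2.integrable (by norm_num)).integral_prod_left

theorem mB_int (h2 : MemLp f 2 (μ.prod μ)) : Integrable (mB μ f) μ :=
  (h2.integrable (by norm_num)).integral_prod_right

theorem mean_pair {n : ℕ} {i j : Fin n} (hij : i ≠ j) (hf : Measurable f) :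
    ∫ r : Fin n → Γ, f (r i, r j) ∂(law μ n) = mC μ f := by
  have h := mp_pair μ hij
  have h1 := integral_map (μ := law μ n) (φ := fun g : Fin n → Γ => (g i, g j))
    h.measurable.aemeasurable (f := f) hf.aestronglyMeasurable
  rw [h.map_eq] at h1
  exact h1.symm

theorem int_pair {n : ℕ} {i j : Fin n} (hij : i ≠ j) (hf : Measurable f)
    (h2 : MemLp f 2 (μ.prod μ)) :
    Integrable (fun r : Fin n → Γ => f (r i, r j)) (law μ n) := by
  have h := mp_pair μ hij
  exact (h.integrable_comp hf.aestronglyMeasurable).2 (h2.integrable (by norm_num))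

theorem mean_one {n : ℕ} (i : Fin n) {h : Γ → ℂ} (hh : Measurable h) :
    ∫ r : Fin n → Γ, h (r i) ∂(law μ n) = ∫ x, h x ∂μ := by
  have h0 := mp_eval μ i
  have h1 := integral_map (μ := law μ n) (φ := fun g : Fin n → Γ => g i)
    h0.measurable.aemeasurable (f := h) hh.aestronglyMeasurable
  rw [h0.map_eq] at h1
  exact h1.symm

theorem int_one {n : ℕ} (i : Fin n) {h : Γ → ℂ} (hh : Measurable h) (hi : Integrable h μ) :
    Integrable (fun r : Fin n → Γ => h (r i)) (law μ n) :=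
  ((mp_eval μ i).integrable_comp hh.aestronglyMeasurable).2 hi

/-- the cyclic sum over eight tubes -/
def cyc (f : Fin 8 → Γ × Γ → ℂ) (g : Fin 8 → Γ) : ℂ := ∑ k, f k (g k, g (k + 1))

theorem cyc_meas {f : Fin 8 → Γ × Γ → ℂ} (hf : ∀ k, Measurable (f k)) : Measurable (cyc f) := by
  unfold cyc
  refine Finset.measurable_sum _ fun k _ => ?_
  exact (hf k).comp ((measurable_pi_apply k).prodMk (measurable_pi_apply (k + 1)))

/-- the function of the two gates of the tube `k` which remains when all other gates are averaged -/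
def pairF (f : Fin 8 → Γ × Γ → ℂ) (k : Fin 8) (z : Γ × Γ) : ℂ :=
  f k z + mA μ (f (k + 1)) z.2 + mB μ (f (k - 1)) z.1 +
    ((∑ j, mC μ (f j)) - mC μ (f k) - mC μ (f (k + 1)) - mC μ (f (k - 1)))

theorem pairF_meas {f : Fin 8 → Γ × Γ → ℂ} (hf : ∀ k, Measurable (f k)) (k : Fin 8) :
    Measurable (pairF μ f k) :=
  (((hf k).add ((mA_meas μ (hf _)).comp measurable_snd)).add
    ((mB_meas μ (hf _)).comp measurable_fst)).add_const _

theorem pair_zero {f : Fin 8 → Γ × Γ → ℂ} (hf : ∀ k, Measurable (f k))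
    (h2 : ∀ k, MemLp (f k) 2 (μ.prod μ)) :
    ∫⁻ z, ‖pairF μ f 0 z‖ₑ ^ 2 ∂(μ.prod μ) ≤ ∫⁻ g, ‖cyc f g‖ₑ ^ 2 ∂(law μ 8) := by
  have hm : Measurable fun g : Fin 8 → Γ => ‖cyc f g‖ₑ ^ 2 := (cyc_meas hf).enorm.pow_const 2
  rw [lintegral_succ μ 7 hm, lintegral_prod _ ((pairF_meas μ hf 0).enorm.pow_const 2).aemeasurable]
  have i1 : ∀ᵐ b ∂μ, Integrable (fun y => f 1 (b, y)) μ :=
    ((h2 1).integrable (by norm_num)).prod_right_ae
  have i7 : ∀ᵐ a ∂μ, Integrable (fun x => f 7 (x, a)) μ :=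
    ((h2 7).integrable (by norm_num)).prod_left_ae
  refine lintegral_mono_ae ?_
  filter_upwards [i7] with a ha
  have hm1 : Measurable fun r : Fin 7 → Γ => ‖cyc f (Fin.cons a r)‖ₑ ^ 2 :=
    hm.comp (measurable_pi_lambda _ fun k => by
      refine Fin.cases ?_ (fun j => ?_) k
      · simp
      · simpa using measurable_pi_apply j)
  rw [lintegral_succ μ 6 hm1]
  refine lintegral_mono_ae ?_
  filter_upwards [i1] with b hb
  have key : ∀ r : Fin 6 → Γ, cyc f (Fin.cons a (Fin.cons b r)) =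
      f 0 (a, b) + f 1 (b, r 0) + f 2 (r 0, r 1) + f 3 (r 1, r 2) + f 4 (r 2, r 3) +
        f 5 (r 3, r 4) + f 6 (r 4, r 5) + f 7 (r 5, a) := by
    intro r
    unfold cyc
    rw [Fin.sum_univ_eight]
    rfl
  simp only [key]
  have I0 : Integrable (fun _ : Fin 6 → Γ => f 0 (a, b)) (law μ 6) := integrable_const _
  have I1 : Integrable (fun r : Fin 6 → Γ => f 1 (b, r 0)) (law μ 6) :=
    int_one μ 0 ((hf 1).comp measurable_prodMk_left) hb
  have I2 : Integrable (fun r : Fin 6 → Γ => f 2 (r 0, r 1)) (law μ 6) :=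
    int_pair μ (by decide) (hf 2) (h2 2)
  have I3 : Integrable (fun r : Fin 6 → Γ => f 3 (r 1, r 2)) (law μ 6) :=
    int_pair μ (by decide) (hf 3) (h2 3)
  have I4 : Integrable (fun r : Fin 6 → Γ => f 4 (r 2, r 3)) (law μ 6) :=
    int_pair μ (by decide) (hf 4) (h2 4)
  have I5 : Integrable (fun r : Fin 6 → Γ => f 5 (r 3, r 4)) (law μ 6) :=
    int_pair μ (by decide) (hf 5) (h2 5)
  have I6 : Integrable (fun r : Fin 6 → Γ => f 6 (r 4, r 5)) (law μ 6) :=
    int_pair μ (by decide) (hf 6) (h2 6)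
  have I7 : Integrable (fun r : Fin 6 → Γ => f 7 (r 5, a)) (law μ 6) :=
    int_one μ 5 ((hf 7).comp measurable_prodMk_right) ha
  have hint : ∫ r : Fin 6 → Γ, (f 0 (a, b) + f 1 (b, r 0) + f 2 (r 0, r 1) + f 3 (r 1, r 2) +
      f 4 (r 2, r 3) + f 5 (r 3, r 4) + f 6 (r 4, r 5) + f 7 (r 5, a)) ∂(law μ 6) =
      pairF μ f 0 (a, b) := by
    have J1 : Integrable (fun r : Fin 6 → Γ => f 0 (a, b) + f 1 (b, r 0)) (law μ 6) := I0.add I1
    have J2 : Integrable (fun r : Fin 6 → Γ => f 0 (a, b) + f 1 (b, r 0) + f 2 (r 0, r 1))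
      (law μ 6) := J1.add I2
    have J3 : Integrable (fun r : Fin 6 → Γ => f 0 (a, b) + f 1 (b, r 0) + f 2 (r 0, r 1) +
      f 3 (r 1, r 2)) (law μ 6) := J2.add I3
    have J4 : Integrable (fun r : Fin 6 → Γ => f 0 (a, b) + f 1 (b, r 0) + f 2 (r 0, r 1) +
      f 3 (r 1, r 2) + f 4 (r 2, r 3)) (law μ 6) := J3.add I4
    have J5 : Integrable (fun r : Fin 6 → Γ => f 0 (a, b) + f 1 (b, r 0) + f 2 (r 0, r 1) +
      f 3 (r 1, r 2) + f 4 (r 2, r 3) + f 5 (r 3, r 4)) (law μ 6) := J4.add I5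
    have J6 : Integrable (fun r : Fin 6 → Γ => f 0 (a, b) + f 1 (b, r 0) + f 2 (r 0, r 1) +
      f 3 (r 1, r 2) + f 4 (r 2, r 3) + f 5 (r 3, r 4) + f 6 (r 4, r 5)) (law μ 6) := J5.add I6
    rw [integral_add J6 I7, integral_add J5 I6, integral_add J4 I5, integral_add J3 I4,
      integral_add J2 I3, integral_add J1 I2, integral_add I0 I1]
    rw [mean_pair μ (by decide) (hf 2), mean_pair μ (by decide) (hf 3),
      mean_pair μ (by decide) (hf 4), mean_pair μ (by decide) (hf 5),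
      mean_pair μ (by decide) (hf 6),
      mean_one μ 0 (h := fun y => f 1 (b, y)) ((hf 1).comp measurable_prodMk_left),
      mean_one μ 5 (h := fun x => f 7 (x, a)) ((hf 7).comp measurable_prodMk_right)]
    rw [integral_const]
    unfold pairF mA mB
    rw [Fin.sum_univ_eight]
    have e1 : (0 : Fin 8) + 1 = 1 := rfl
    have e2 : (0 : Fin 8) - 1 = 7 := rfl
    rw [e1, e2]
    simp only [measureReal_def, measure_univ, ENNReal.toReal_one, one_smul]
    ring
  rw [← hint]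
  refine enorm_integral_sq_le _ ?_
  exact (((((((I0.add I1).add I2).add I3).add I4).add I5).add I6).add I7).aestronglyMeasurable

/-- rotation of the necklace -/
theorem pair_norm {f : Fin 8 → Γ × Γ → ℂ} (hf : ∀ k, Measurable (f k))
    (h2 : ∀ k, MemLp (f k) 2 (μ.prod μ)) (k : Fin 8) :
    eLpNorm (pairF μ f k) 2 (μ.prod μ) ≤ eLpNorm (cyc f) 2 (law μ 8) := by
  have h := pair_zero μ (f := fun j => f (j + k)) (fun j => hf _) fun j => h2 _
  have e1 : pairF μ (fun j => f (j + k)) 0 = pairF μ f k := by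
    funext z
    unfold pairF
    have a1 : (0 : Fin 8) + k = k := zero_add k
    have a2 : (0 : Fin 8) + 1 + k = k + 1 := by rw [zero_add, add_comm]
    have a3 : (0 : Fin 8) - 1 + k = k - 1 := by rw [zero_sub, add_comm, ← sub_eq_add_neg]
    simp only [a1, a2, a3]
    have a4 : ∑ j, mC μ (f (j + k)) = ∑ j, mC μ (f j) :=
      Equiv.sum_comp (Equiv.addRight k) fun j => mC μ (f j)
    rw [a4]
  have e2 : ∫⁻ g, ‖cyc (fun j => f (j + k)) g‖ₑ ^ 2 ∂(law μ 8) =
      ∫⁻ g, ‖cyc f g‖ₑ ^ 2 ∂(law μ 8) := by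
    have hp := mp_perm μ (n := 8) (Equiv.subRight k)
    rw [← hp.lintegral_comp ((cyc_meas hf).enorm.pow_const 2)]
    refine lintegral_congr fun g => ?_
    congr 2
    unfold cyc
    rw [← Equiv.sum_comp (Equiv.addRight k) fun j =>
      f j (g ((Equiv.subRight k) j), g ((Equiv.subRight k) (j + 1)))]
    refine Finset.sum_congr rfl fun j _ => ?_
    simp only [Equiv.coe_addRight, Equiv.subRight_apply, add_sub_cancel_right]
    congr 3
    rw [add_right_comm, add_sub_cancel_right]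
  rw [e1, e2, ← eLpNorm_two_sq, ← eLpNorm_two_sq] at h
  exact (ENNReal.pow_le_pow_left_iff (by norm_num)).1 h

/-- the function of one gate which remains when all other gates are averaged -/
def oneF (f : Fin 8 → Γ × Γ → ℂ) (k : Fin 8) (a : Γ) : ℂ :=
  mA μ (f k) a + mB μ (f (k - 1)) a + ((∑ j, mC μ (f j)) - mC μ (f k) - mC μ (f (k - 1)))

theorem oneF_meas {f : Fin 8 → Γ × Γ → ℂ} (hf : ∀ k, Measurable (f k)) (k : Fin 8) :
    Measurable (oneF μ f k) :=
  ((mA_meas μ (hf _)).add (mB_meas μ (hf _))).add_const _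

theorem one_norm {f : Fin 8 → Γ × Γ → ℂ} (hf : ∀ k, Measurable (f k))
    (h2 : ∀ k, MemLp (f k) 2 (μ.prod μ)) (k : Fin 8) :
    eLpNorm (oneF μ f k) 2 μ ≤ eLpNorm (cyc f) 2 (law μ 8) := by
  refine le_trans ?_ (pair_norm μ hf h2 k)
  refine le_trans (le_of_eq ?_) (eLpNorm_integral_le μ μ (pairF_meas μ hf k))
  refine eLpNorm_congr_ae ?_
  have ik : ∀ᵐ a ∂μ, Integrable (fun y => f k (a, y)) μ :=
    ((h2 k).integrable (by norm_num)).prod_right_ae
  filter_upwards [ik] with a ha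
  unfold pairF oneF
  simp only
  have J1 : Integrable (fun y => f k (a, y) + mA μ (f (k + 1)) y) μ :=
    ha.add (mA_int μ (h2 _))
  have J2 : Integrable (fun y => f k (a, y) + mA μ (f (k + 1)) y + mB μ (f (k - 1)) a) μ :=
    J1.add (integrable_const _)
  rw [integral_add J2 (integrable_const _), integral_add J1 (integrable_const _),
    integral_add ha (mA_int μ (h2 _)), mA_mean μ (h2 _), integral_const, integral_const]
  simp only [measureReal_def, measure_univ, ENNReal.toReal_one, one_smul]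
  unfold mA
  ring

theorem const_norm {f : Fin 8 → Γ × Γ → ℂ} (hf : ∀ k, Measurable (f k))
    (h2 : ∀ k, MemLp (f k) 2 (μ.prod μ)) :
    ‖∑ j, mC μ (f j)‖ₑ ≤ eLpNorm (cyc f) 2 (law μ 8) := by
  refine le_trans ?_ (one_norm μ hf h2 0)
  refine le_trans (le_of_eq ?_) (enorm_integral_le μ (oneF_meas μ hf 0).aestronglyMeasurable)
  congr 1
  unfold oneF
  have J1 : Integrable (fun a => mA μ (f 0) a + mB μ (f (0 - 1)) a) μ :=
    (mA_int μ (h2 _)).add (mB_int μ (h2 _))
  rw [integral_add J1 (integrable_const _), integral_add (mA_int μ (h2 _)) (mB_int μ (h2 _)),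
    mA_mean μ (h2 _), mB_mean μ (h2 _), integral_const]
  simp only [measureReal_def, measure_univ, ENNReal.toReal_one, one_smul]
  ring

/-! ### the octagon -/

/-- the rotated mean charges along the octagon -/
def octF (m : Turn → Γ × Γ → ℂ) (k : Fin 8) (z : Γ × Γ) : ℂ := octD k * m (octT k) z

variable (m : Turn → Γ × Γ → ℂ)

/-- slope: charge per unit of displacement -/
def alphaN : ℂ := mC μ (m .S)

/-- correction for the turning of the end gates -/
def hN : ℂ := (mC μ (m .L) - alphaN μ m * ((1 + I) / 2)) / (I - 1)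

/-- the corrector of a gate -/
def UN (g : Γ) : ℂ := -(mA μ (m .L) g - mC μ (m .L)) + hN μ m

theorem UN_meas (hm : ∀ τ, Measurable (m τ)) : Measurable (UN μ m) :=
  (((mA_meas μ (hm _)).sub_const _).neg).add_const _

/-- the model charge -/
def lin (α : ℂ) (U : Γ → ℂ) (τ : Turn) (z : Γ × Γ) : ℂ :=
  α * τ.disp + τ.rot * U z.2 - U z.1

theorem lin_meas (α : ℂ) {U : Γ → ℂ} (hU : Measurable U) (τ : Turn) : Measurable (lin α U τ) :=
  (((hU.comp measurable_snd).const_mul _).const_add _).sub (hU.comp measurable_fst)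

theorem hN_mul : hN μ m * (I - 1) = mC μ (m .L) - alphaN μ m * ((1 + I) / 2) := by
  unfold hN
  rw [div_mul_cancel₀]
  intro h
  have := congrArg Complex.re h
  simp at this

theorem mC_const_mul (c : ℂ) (f : Γ × Γ → ℂ) : mC μ (fun z => c * f z) = c * mC μ f := by
  unfold mC; rw [integral_const_mul]

theorem mA_const_mul (c : ℂ) (f : Γ × Γ → ℂ) (g : Γ) : mA μ (fun z => c * f z) g = c * mA μ f g := by
  unfold mA; rw [integral_const_mul]

theorem mB_const_mul (c : ℂ) (f : Γ × Γ → ℂ) (g : Γ) : mB μ (fun z => c * f z) g = c * mB μ f g := by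
  unfold mB; rw [integral_const_mul]

theorem sumC : ∑ j, mC μ (octF m j) =
    mC μ (m .S) * (1 - I) + I * mC μ (m .L) - mC μ (m .R) := by
  unfold octF
  simp only [mC_const_mul]
  rw [Fin.sum_univ_eight]
  simp only [octD, octT, Matrix.cons_val]
  ring

theorem eLpNorm_fst (h : Γ → ℂ) (hh : Measurable h) :
    eLpNorm (fun z : Γ × Γ => h z.1) 2 (μ.prod μ) = eLpNorm h 2 μ :=
  eLpNorm_comp_measurePreserving hh.aestronglyMeasurable measurePreserving_fst

theorem eLpNorm_snd (h : Γ → ℂ) (hh : Measurable h) :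
    eLpNorm (fun z : Γ × Γ => h z.2) 2 (μ.prod μ) = eLpNorm h 2 μ :=
  eLpNorm_comp_measurePreserving hh.aestronglyMeasurable measurePreserving_snd

theorem eLpNorm_cmul (c : ℂ) (hc : ‖c‖ₑ ≤ 1) {A : Type*} [MeasurableSpace A] (κ : Measure A)
    (h : A → ℂ) : eLpNorm (fun z => c * h z) 2 κ ≤ eLpNorm h 2 κ := by
  have := eLpNorm_const_smul (c := c) (f := h) (p := 2) (μ := κ)
  change eLpNorm (c • h) 2 κ ≤ _
  rw [this]
  exact mul_le_of_le_one_left (by positivity) hc

theorem comb {p : Γ × Γ → ℂ} {q : Γ → ℂ} (hp : Measurable p) (hq : Measurable q) {u v w S : ℂ}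
    {ε : ℝ≥0∞} (hu : ‖u‖ₑ ≤ 1) (hv : ‖v‖ₑ ≤ 1) (hw : ‖w‖ₑ ≤ 2)
    (h1 : eLpNorm p 2 (μ.prod μ) ≤ ε) (h2 : eLpNorm q 2 μ ≤ ε) (h3 : ‖S‖ₑ ≤ ε) :
    eLpNorm (fun z => u * p z + v * q z.1 + w * S) 2 (μ.prod μ) ≤ 4 * ε := by
  have a1 : eLpNorm (fun z => u * p z) 2 (μ.prod μ) ≤ ε := (eLpNorm_cmul u hu _ p).trans h1
  have a2 : eLpNorm (fun z : Γ × Γ => v * q z.1) 2 (μ.prod μ) ≤ ε := by
    refine (eLpNorm_cmul v hv _ fun z : Γ × Γ => q z.1).trans ?_
    rw [eLpNorm_fst μ q hq]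
    exact h2
  have a3 : eLpNorm (fun _ : Γ × Γ => w * S) 2 (μ.prod μ) ≤ 2 * ε := by
    rw [eLpNorm_const _ (by norm_num) (NeZero.ne _), measure_univ, enorm_mul]
    simp only [ENNReal.one_rpow, mul_one]
    gcongr
  have m1 : Measurable (fun z : Γ × Γ => u * p z) := hp.const_mul u
  have m2 : Measurable (fun z : Γ × Γ => v * q z.1) := (hq.comp measurable_fst).const_mul v
  have b1 := eLpNorm_add_le (p := 2) (m1.add m2).aestronglyMeasurable
    (aestronglyMeasurable_const (b := w * S)) (by norm_num) (μ := μ.prod μ)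
  have b2 := eLpNorm_add_le (p := 2) m1.aestronglyMeasurable m2.aestronglyMeasurable (by norm_num)
    (μ := μ.prod μ)
  calc eLpNorm (fun z => u * p z + v * q z.1 + w * S) 2 (μ.prod μ)
      ≤ eLpNorm ((fun z => u * p z) + fun z : Γ × Γ => v * q z.1) 2 (μ.prod μ) +
          eLpNorm (fun _ : Γ × Γ => w * S) 2 (μ.prod μ) := b1
    _ ≤ (eLpNorm (fun z => u * p z) 2 (μ.prod μ) +
          eLpNorm (fun z : Γ × Γ => v * q z.1) 2 (μ.prod μ)) +
          eLpNorm (fun _ : Γ × Γ => w * S) 2 (μ.prod μ) := by gcongr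
    _ ≤ (ε + ε) + 2 * ε := by gcongr
    _ = 4 * ε := by ring

/-- **the mean level**: one necklace (the octagon) determines the law of all tubes -/
theorem mean_level (hm : ∀ τ, Measurable (m τ)) (h2 : ∀ τ, MemLp (m τ) 2 (μ.prod μ)) (τ : Turn) :
    eLpNorm (fun z => m τ z - lin (alphaN μ m) (UN μ m) τ z) 2 (μ.prod μ) ≤
      4 * eLpNorm (cyc (octF m)) 2 (law μ 8) := by
  have hf : ∀ k, Measurable (octF m k) := fun k => (hm _).const_mul _
  have h2f : ∀ k, MemLp (octF m k) 2 (μ.prod μ) := fun k => (h2 _).const_mul _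
  have P0 := pair_norm μ hf h2f 0
  have P1 := pair_norm μ hf h2f 1
  have P3 := pair_norm μ hf h2f 3
  have Q1 := one_norm μ hf h2f 1
  have Q2 := one_norm μ hf h2f 2
  have C := const_norm μ hf h2f
  have hI : ‖(I : ℂ)‖ₑ ≤ 1 := by rw [← ofReal_norm]; simp
  have hI' : ‖(-I : ℂ)‖ₑ ≤ 2 := by rw [← ofReal_norm]; simp
  have h1 : ‖(1 : ℂ)‖ₑ ≤ 1 := by rw [← ofReal_norm]; simp
  have h1' : ‖(-1 : ℂ)‖ₑ ≤ 1 := by rw [← ofReal_norm]; simp
  have h0 : ‖(0 : ℂ)‖ₑ ≤ 2 := by simp
  have h11 : ‖(-(1 + I) : ℂ)‖ₑ ≤ 2 := by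
    rw [← ofReal_norm, show (2 : ℝ≥0∞) = ENNReal.ofReal 2 by simp]
    refine ENNReal.ofReal_le_ofReal ?_
    rw [norm_neg]
    refine (norm_add_le _ _).trans ?_
    simp
    norm_num
  have hS := sumC μ m
  have hh := hN_mul μ m
  cases τ with
  | S =>
    refine le_trans (le_of_eq ?_) (comb μ (pairF_meas μ hf 0) (oneF_meas μ hf 2)
      h1 hI h11 P0 Q2 C)
    congr 1
    funext z
    unfold pairF oneF lin UN alphaN Turn.disp Turn.rot
    have e1 : (0 : Fin 8) + 1 = 1 := rfl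
    have e2 : (0 : Fin 8) - 1 = 7 := rfl
    have e3 : (2 : Fin 8) - 1 = 1 := rfl
    rw [e1, e2, e3]
    generalize (∑ j, mC μ (octF m j)) = SS at *
    unfold octF
    simp only [mC_const_mul, mA_const_mul, mB_const_mul, octD, octT, Matrix.cons_val]
    linear_combination (mC μ (m .L) - mA μ (m .L) z.1) * I_sq
  | L =>
    refine le_trans (le_of_eq ?_) (comb μ (pairF_meas μ hf 1) (oneF_meas μ hf 1)
      h1 h1' h0 P1 Q1 C)
    congr 1
    funext z
    unfold pairF oneF lin UN Turn.disp Turn.rot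
    have e1 : (1 : Fin 8) + 1 = 2 := rfl
    have e2 : (1 : Fin 8) - 1 = 0 := rfl
    rw [e1, e2]
    generalize (∑ j, mC μ (octF m j)) = SS at *
    unfold octF
    simp only [mC_const_mul, mA_const_mul, mB_const_mul, octD, octT, Matrix.cons_val]
    linear_combination -hh
  | R =>
    refine le_trans (le_of_eq ?_) (comb μ (pairF_meas μ hf 3) (oneF_meas μ hf 2)
      h1' hI hI' P3 Q2 C)
    congr 1
    funext z
    unfold pairF oneF lin UN Turn.disp Turn.rot
    have e1 : (3 : Fin 8) + 1 = 4 := rfl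
    have e2 : (3 : Fin 8) - 1 = 2 := rfl
    have e3 : (2 : Fin 8) - 1 = 1 := rfl
    rw [e1, e2, e3]
    generalize (∑ j, mC μ (octF m j)) = SS at *
    unfold octF
    simp only [mC_const_mul, mA_const_mul, mB_const_mul, octD, octT, Matrix.cons_val]
    unfold alphaN at hh
    unfold alphaN
    linear_combination hS - I * hh +
      (mC μ (m .L) - mA μ (m .L) z.1 + hN μ m + mC μ (m .S) / 2) * I_sq

/-! ### bounds -/

theorem mC_norm {f : Γ × Γ → ℂ} (hf : Measurable f) : ‖mC μ f‖ₑ ≤ eLpNorm f 2 (μ.prod μ) :=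
  enorm_integral_le _ hf.aestronglyMeasurable

theorem alphaN_norm (hm : ∀ τ, Measurable (m τ)) :
    ‖alphaN μ m‖ₑ ≤ eLpNorm (m .S) 2 (μ.prod μ) := mC_norm μ (hm _)

theorem hN_norm (hm : ∀ τ, Measurable (m τ)) {κ : ℝ≥0∞}
    (hκ : ∀ τ, eLpNorm (m τ) 2 (μ.prod μ) ≤ κ) : ‖hN μ m‖ₑ ≤ 2 * κ := by
  have h1 : ‖mC μ (m .L)‖ₑ ≤ κ := (mC_norm μ (hm _)).trans (hκ _)
  have h2 : ‖alphaN μ m‖ₑ ≤ κ := (alphaN_norm μ m hm).trans (hκ _)
  have h3 : ‖((1 + I) / 2 : ℂ)‖ₑ ≤ 1 := by
    rw [← ofReal_norm, ENNReal.ofReal_le_one, norm_div]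
    have : ‖(1 + I : ℂ)‖ ≤ 2 := by
      refine (norm_add_le _ _).trans ?_
      simp
      norm_num
    rw [Complex.norm_ofNat]
    linarith
  have h4 : ‖((I - 1 : ℂ))⁻¹‖ₑ ≤ 1 := by
    rw [← ofReal_norm, ENNReal.ofReal_le_one, norm_inv]
    refine inv_le_one_of_one_le₀ ?_
    have := Complex.abs_re_le_norm (I - 1)
    simpa using this
  unfold hN
  rw [div_eq_mul_inv, enorm_mul]
  calc ‖mC μ (m .L) - alphaN μ m * ((1 + I) / 2)‖ₑ * ‖((I - 1 : ℂ))⁻¹‖ₑ
      ≤ ‖mC μ (m .L) - alphaN μ m * ((1 + I) / 2)‖ₑ * 1 := by gcongr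
    _ ≤ ‖mC μ (m .L)‖ₑ + ‖alphaN μ m * ((1 + I) / 2)‖ₑ := by rw [mul_one]; exact enorm_sub_le
    _ ≤ κ + κ * 1 := by rw [enorm_mul]; gcongr
    _ = 2 * κ := by ring

theorem UN_norm (hm : ∀ τ, Measurable (m τ)) {κ : ℝ≥0∞}
    (hκ : ∀ τ, eLpNorm (m τ) 2 (μ.prod μ) ≤ κ) : eLpNorm (UN μ m) 2 μ ≤ 4 * κ := by
  have a1 : eLpNorm (mA μ (m .L)) 2 μ ≤ κ := (mA_norm μ (hm _)).trans (hκ _)
  have a2 : ‖mC μ (m .L)‖ₑ ≤ κ := (mC_norm μ (hm _)).trans (hκ _)
  have a3 := hN_norm μ m hm hκ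
  have hc : ∀ c : ℂ, eLpNorm (fun _ : Γ => c) 2 μ = ‖c‖ₑ := by
    intro c
    rw [eLpNorm_const _ (by norm_num) (NeZero.ne _), measure_univ]
    simp
  have e1 : UN μ m = (fun g => -mA μ (m .L) g) + fun _ => mC μ (m .L) + hN μ m := by
    funext g
    simp only [UN, Pi.add_apply]
    ring
  rw [e1]
  refine (eLpNorm_add_le (mA_meas μ (hm _)).neg.aestronglyMeasurable
    aestronglyMeasurable_const (by norm_num)).trans ?_
  rw [hc, eLpNorm_neg]
  calc eLpNorm (mA μ (m .L)) 2 μ + ‖mC μ (m .L) + hN μ m‖ₑ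
      ≤ κ + (κ + 2 * κ) := add_le_add a1 ((enorm_add_le _ _).trans (add_le_add a2 a3))
    _ = 4 * κ := by ring

end Pi

end Crest.Agent.R143.Neckx571
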