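import Crest.Agent.R143.Resa_778

/-!
# Row 143: partial tiles, relative bound with TWO NESTED STOPPING SETS (helper867)

`Resax778.dens` / `Partx778.part` ask `O σ \ T = K (r σ)` for a FIXED set `T`.  For the explored
cells `O σ = Out σ` of the corridor this is never true: after its first visit to `T` the strand can
come back out of `T` before it passes the wall of the next gate, and the outer cells which are
joined to the hull only through `T` (pockets) depend on `σ` on `T`.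

Replacement (`nest`) : for the window of tile `l` let, for every pair of darts `d`,
`OD d σ` = cells revealed by the two strands through `d` stopped at the window (+ outer cells), a
stopping set on the event `E d σ`.  `lab ρ` = the necks of two FAR gates (function of the far
cells `Far`), `G` = all gates and tiles.  Hypothesis on `G ρ` :
`OD (lab ρ) ρ ⊆ O ρ` and `O ρ \ OD (lab ρ) ρ` has no far cell.
Then for every `F ≥ 0` whose mean over the fresh cells of `OD d` is at most `Φ`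
(on `E d`, if the revealed cells have an extension in `G` with label `d`) :
`∑ σ, ∑ τ, g σ * F (mix O σ τ) ≤ Φ * |B| ^ |S| * ∑ σ, gf σ`
where `g ≤ gf` on `G` and `gf` (the weight of the far gates and tiles) only sees `Far`.
No uniqueness of strands is needed.
-/

set_option autoImplicit false
set_option linter.unusedSectionVars false

open scoped Classical

noncomputable section

namespace Crest.Agent.R143.Nestx867

open Crest.Agent.R143.Resax778

variable {S B D : Type*} [Fintype S] [Fintype B] [Fintype D]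

/-- a stopping set restricted to an adapted event, extended by all cells -/
theorem stop_ext {OD : (S → B) → Finset S} {E : (S → B) → Prop}
    (hE : ∀ σ τ, E σ → (∀ s ∈ OD σ, τ s = σ s) → E τ ∧ OD τ = OD σ) :
    StopSet fun σ => if E σ then OD σ else Finset.univ := by
  intro σ τ h
  by_cases hσ : E σ
  · have h' : ∀ s ∈ OD σ, τ s = σ s := fun s hs => h s (by
      show s ∈ (if E σ then OD σ else Finset.univ)
      rw [if_pos hσ]; exact hs)
    obtain ⟨h1, h2⟩ := hE σ τ hσ h'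
    show (if E τ then OD τ else Finset.univ) = (if E σ then OD σ else Finset.univ)
    rw [if_pos hσ, if_pos h1, h2]
  · have e : τ = σ := by
      funext s
      exact h s (by
        show s ∈ (if E σ then OD σ else Finset.univ)
        rw [if_neg hσ]; exact Finset.mem_univ s)
    rw [e]

variable {O : (S → B) → Finset S} {OD : D → (S → B) → Finset S} {E : D → (S → B) → Prop}

/-- the revealed cells of `d` have an extension in `G` with label `d` -/
def Ex (OD : D → (S → B) → Finset S) (G : (S → B) → Prop) (lab : (S → B) → D) (d : D)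
    (σ : S → B) : Prop :=
  ∃ ρ, (∀ s ∈ OD d σ, ρ s = σ s) ∧ G ρ ∧ lab ρ = d

/-- `Ex` is adapted -/
theorem Ex.congr {G : (S → B) → Prop} {lab : (S → B) → D} {d : D} {σ τ : S → B}
    (hO : OD d τ = OD d σ) (h : ∀ s ∈ OD d σ, τ s = σ s) (H : Ex OD G lab d σ) :
    Ex OD G lab d τ := by
  obtain ⟨ρ, h1, h2, h3⟩ := H
  refine ⟨ρ, fun s hs => ?_, h2, h3⟩
  rw [hO] at hs
  rw [h1 s hs, h s hs]

/-- the two mixtures agree off `O \ OD` -/
theorem mix_eq_off {O₁ O₂ : (S → B) → Finset S} {σ τ : S → B} (h : O₂ σ ⊆ O₁ σ) {s : S}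
    (hs : s ∉ O₁ σ \ O₂ σ) : mix O₁ σ τ s = mix O₂ σ τ s := by
  by_cases h2 : s ∈ O₂ σ
  · rw [mix_on h2, mix_on (h h2)]
  · have h1 : s ∉ O₁ σ := fun h1 => hs (Finset.mem_sdiff.2 ⟨h1, h2⟩)
    rw [mix_off h2, mix_off h1]

/-- **NESTED STOPPING SETS, first half** : the weight of the far gates seen from the two strands -/
theorem nest_swap (hO : StopSet O)
    (hE : ∀ d σ τ, E d σ → (∀ s ∈ OD d σ, τ s = σ s) → E d τ ∧ OD d τ = OD d σ)
    {Far : Finset S} {gf : (S → B) → ℝ}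
    (hgf : ∀ σ τ, (∀ s ∈ Far, τ s = σ s) → gf τ = gf σ) (hgf0 : ∀ σ, 0 ≤ gf σ)
    {lab : (S → B) → D} (hlab : ∀ σ τ, (∀ s ∈ Far, τ s = σ s) → lab τ = lab σ)
    {G : (S → B) → Prop} {g : (S → B) → ℝ} (hg : ∀ σ, G σ → g σ ≤ gf σ)
    (hg0 : ∀ σ, ¬ G σ → g σ ≤ 0)
    (hN : ∀ ρ, G ρ → E (lab ρ) ρ ∧ OD (lab ρ) ρ ⊆ O ρ ∧
      Disjoint (O ρ \ OD (lab ρ) ρ) Far)
    {F : (S → B) → ℝ} (hF0 : ∀ μ, 0 ≤ F μ) :
    ∑ σ, ∑ τ, g σ * F (mix O σ τ) ≤
      ∑ d : D, ∑ σ, ∑ τ, (if E d σ ∧ Ex OD G lab d σ ∧ lab σ = d then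
        gf σ * F (mix (OD d) σ τ) else 0) := by
  rw [sum_swap hO g F]
  -- pointwise bound of the swapped sum
  have key : ∀ σ τ : S → B, g (mix O σ τ) * F σ ≤
      ∑ d : D, (if E d σ ∧ Ex OD G lab d σ ∧ lab (mix (OD d) σ τ) = d then
        gf (mix (OD d) σ τ) * F σ else 0) := by
    intro σ τ
    have nn : ∀ d : D, 0 ≤ (if E d σ ∧ Ex OD G lab d σ ∧ lab (mix (OD d) σ τ) = d then
        gf (mix (OD d) σ τ) * F σ else 0) := by
      intro d
      split_ifs
      · exact mul_nonneg (hgf0 _) (hF0 _)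
      · exact le_rfl
    by_cases hG : G (mix O σ τ)
    · set ρ := mix O σ τ with hρ
      obtain ⟨h1, h2, h3⟩ := hN ρ hG
      have eO : O ρ = O σ := stop_mix hO σ τ
      have agr : ∀ s ∈ OD (lab ρ) ρ, σ s = ρ s := fun s hs => by
        have : s ∈ O σ := eO ▸ h2 hs
        rw [hρ, mix_on this]
      obtain ⟨h4, h5⟩ := hE (lab ρ) ρ σ h1 agr
      have sub : OD (lab ρ) σ ⊆ O σ := by rw [h5, ← eO]; exact h2
      have far : ∀ s ∈ Far, mix (OD (lab ρ)) σ τ s = ρ s := by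
        intro s hs
        refine (mix_eq_off sub ?_).symm
        intro hs'
        rw [h5, ← eO] at hs'
        exact Finset.disjoint_left.1 h3 hs' hs
      have l1 : lab (mix (OD (lab ρ)) σ τ) = lab ρ := hlab _ _ far
      have g1 : gf (mix (OD (lab ρ)) σ τ) = gf ρ := hgf _ _ far
      have ex : Ex OD G lab (lab ρ) σ := by
        refine ⟨ρ, fun s hs => ?_, hG, rfl⟩
        rw [h5] at hs
        exact (agr s hs).symm
      refine le_trans ?_ (Finset.single_le_sum (fun d _ => nn d) (Finset.mem_univ (lab ρ)))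
      rw [if_pos ⟨h4, ex, l1⟩, g1]
      exact mul_le_mul_of_nonneg_right (hg ρ hG) (hF0 σ)
    · exact (mul_nonpos_of_nonpos_of_nonneg (hg0 _ hG) (hF0 σ)).trans
        (Finset.sum_nonneg fun d _ => nn d)
  have step1 : ∑ σ, ∑ τ, g (mix O σ τ) * F σ ≤
      ∑ d : D, ∑ σ, ∑ τ, (if E d σ ∧ Ex OD G lab d σ ∧ lab (mix (OD d) σ τ) = d then
        gf (mix (OD d) σ τ) * F σ else 0) := by
    calc ∑ σ, ∑ τ, g (mix O σ τ) * F σ
        ≤ ∑ σ, ∑ τ, ∑ d : D, (if E d σ ∧ Ex OD G lab d σ ∧ lab (mix (OD d) σ τ) = d then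
            gf (mix (OD d) σ τ) * F σ else 0) :=
          Finset.sum_le_sum fun σ _ => Finset.sum_le_sum fun τ _ => key σ τ
      _ = ∑ σ, ∑ d : D, ∑ τ, (if E d σ ∧ Ex OD G lab d σ ∧ lab (mix (OD d) σ τ) = d then
            gf (mix (OD d) σ τ) * F σ else 0) :=
          Finset.sum_congr rfl fun σ _ => Finset.sum_comm
      _ = _ := Finset.sum_comm
  refine step1.trans (le_of_eq ?_)
  refine Finset.sum_congr rfl fun d _ => ?_
  -- swap back for the stopping set of `d`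
  set O' : (S → B) → Finset S := fun σ => if E d σ then OD d σ else Finset.univ with hO'
  have sO' : StopSet O' := stop_ext (hE d)
  have mE : ∀ σ τ, E d σ → mix O' σ τ = mix (OD d) σ τ := by
    intro σ τ h
    funext s
    have e : O' σ = OD d σ := if_pos h
    by_cases hs : s ∈ OD d σ
    · rw [mix_on (O := OD d) hs, mix_on (by rw [e]; exact hs)]
    · rw [mix_off (O := OD d) hs, mix_off (by rw [e]; exact hs)]
  have adp : ∀ σ τ, (E d (mix O' σ τ) ∧ Ex OD G lab d (mix O' σ τ)) ↔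
      (E d σ ∧ Ex OD G lab d σ) := by
    intro σ τ
    by_cases h : E d σ
    · have h0 : ∀ s ∈ OD d σ, mix O' σ τ s = σ s := fun s hs =>
        mix_on (by show s ∈ O' σ; rw [show O' σ = OD d σ from if_pos h]; exact hs)
      obtain ⟨h1, h2⟩ := hE d σ _ h h0
      constructor
      · rintro ⟨-, h3⟩
        refine ⟨h, Ex.congr h2.symm (fun s hs => ?_) h3⟩
        rw [h2] at hs
        exact (h0 s hs).symm
      · rintro ⟨-, h3⟩
        exact ⟨h1, Ex.congr h2 h0 h3⟩
    · have e : mix O' σ τ = σ := by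
        funext s
        exact mix_on (by rw [show O' σ = Finset.univ from if_neg h]; exact Finset.mem_univ s)
      rw [e]
  have H := sum_swap (R := ℝ) sO' (fun σ => if lab σ = d then gf σ else 0)
    (fun σ => if E d σ ∧ Ex OD G lab d σ then F σ else 0)
  have e1 : ∀ σ τ : S → B, (if E d σ ∧ Ex OD G lab d σ ∧ lab (mix (OD d) σ τ) = d then
      gf (mix (OD d) σ τ) * F σ else 0) =
      (if lab (mix O' σ τ) = d then gf (mix O' σ τ) else 0) *
        (if E d σ ∧ Ex OD G lab d σ then F σ else 0) := by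
    intro σ τ
    by_cases h : E d σ
    · rw [mE σ τ h]
      by_cases h2 : Ex OD G lab d σ
      · by_cases h3 : lab (mix (OD d) σ τ) = d
        · rw [if_pos ⟨h, h2, h3⟩, if_pos h3, if_pos ⟨h, h2⟩]
        · rw [if_neg (fun hh => h3 hh.2.2 : ¬ (E d σ ∧ Ex OD G lab d σ ∧
            lab (mix (OD d) σ τ) = d)), if_neg h3, zero_mul]
      · rw [if_neg (fun hh => h2 hh.2.1 : ¬ (E d σ ∧ Ex OD G lab d σ ∧
            lab (mix (OD d) σ τ) = d)),
          if_neg (fun hh => h2 hh.2 : ¬ (E d σ ∧ Ex OD G lab d σ)), mul_zero]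
    · rw [if_neg (fun hh => h hh.1 : ¬ (E d σ ∧ Ex OD G lab d σ ∧
            lab (mix (OD d) σ τ) = d)),
          if_neg (fun hh => h hh.1 : ¬ (E d σ ∧ Ex OD G lab d σ)), mul_zero]
  have e2 : ∀ σ τ : S → B, (if E d σ ∧ Ex OD G lab d σ ∧ lab σ = d then
      gf σ * F (mix (OD d) σ τ) else 0) =
      (if lab σ = d then gf σ else 0) *
        (if E d (mix O' σ τ) ∧ Ex OD G lab d (mix O' σ τ) then F (mix O' σ τ) else 0) := by
    intro σ τ
    by_cases h : E d σ ∧ Ex OD G lab d σ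
    · rw [if_pos ((adp σ τ).2 h), mE σ τ h.1]
      by_cases h3 : lab σ = d
      · rw [if_pos ⟨h.1, h.2, h3⟩, if_pos h3]
      · rw [if_neg (fun hh => h3 hh.2.2 : ¬ (E d σ ∧ Ex OD G lab d σ ∧ lab σ = d)),
          if_neg h3, zero_mul]
    · rw [if_neg (fun hh => h ((adp σ τ).1 hh) : ¬ (E d (mix O' σ τ) ∧
          Ex OD G lab d (mix O' σ τ))),
        if_neg (fun hh => h ⟨hh.1, hh.2.1⟩ : ¬ (E d σ ∧ Ex OD G lab d σ ∧ lab σ = d)), mul_zero]
  calc ∑ σ, ∑ τ, (if E d σ ∧ Ex OD G lab d σ ∧ lab (mix (OD d) σ τ) = d then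
        gf (mix (OD d) σ τ) * F σ else 0)
      = ∑ σ, ∑ τ, (if lab (mix O' σ τ) = d then gf (mix O' σ τ) else 0) *
          (if E d σ ∧ Ex OD G lab d σ then F σ else 0) :=
        Finset.sum_congr rfl fun σ _ => Finset.sum_congr rfl fun τ _ => e1 σ τ
    _ = ∑ σ, ∑ τ, (if lab σ = d then gf σ else 0) *
          (if E d (mix O' σ τ) ∧ Ex OD G lab d (mix O' σ τ) then F (mix O' σ τ) else 0) := H.symm
    _ = _ := Finset.sum_congr rfl fun σ _ => Finset.sum_congr rfl fun τ _ => (e2 σ τ).symm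

/-- **NESTED STOPPING SETS** : relative bound -/
theorem nest (hO : StopSet O)
    (hE : ∀ d σ τ, E d σ → (∀ s ∈ OD d σ, τ s = σ s) → E d τ ∧ OD d τ = OD d σ)
    {Far : Finset S} {gf : (S → B) → ℝ}
    (hgf : ∀ σ τ, (∀ s ∈ Far, τ s = σ s) → gf τ = gf σ) (hgf0 : ∀ σ, 0 ≤ gf σ)
    {lab : (S → B) → D} (hlab : ∀ σ τ, (∀ s ∈ Far, τ s = σ s) → lab τ = lab σ)
    {G : (S → B) → Prop} {g : (S → B) → ℝ} (hg : ∀ σ, G σ → g σ ≤ gf σ)
    (hg0 : ∀ σ, ¬ G σ → g σ ≤ 0)
    (hN : ∀ ρ, G ρ → E (lab ρ) ρ ∧ OD (lab ρ) ρ ⊆ O ρ ∧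
      Disjoint (O ρ \ OD (lab ρ) ρ) Far)
    {F : (S → B) → ℝ} (hF0 : ∀ μ, 0 ≤ F μ) {Φ : ℝ}
    (hF : ∀ d σ, E d σ → Ex OD G lab d σ → lab σ = d →
      ∑ τ, F (mix (OD d) σ τ) ≤ Φ * ((Fintype.card B ^ Fintype.card S : ℕ) : ℝ)) (hΦ : 0 ≤ Φ) :
    ∑ σ, ∑ τ, g σ * F (mix O σ τ) ≤
      Φ * ((Fintype.card B ^ Fintype.card S : ℕ) : ℝ) * ∑ σ, gf σ := by
  refine (nest_swap hO hE hgf hgf0 hlab hg hg0 hN hF0).trans ?_
  have h1 : ∀ d : D, ∀ σ : S → B,
      ∑ τ, (if E d σ ∧ Ex OD G lab d σ ∧ lab σ = d then gf σ * F (mix (OD d) σ τ) else 0) ≤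
        if lab σ = d then
          Φ * ((Fintype.card B ^ Fintype.card S : ℕ) : ℝ) * gf σ else 0 := by
    intro d σ
    by_cases h : E d σ ∧ Ex OD G lab d σ ∧ lab σ = d
    · rw [if_pos h.2.2]
      calc ∑ τ, (if E d σ ∧ Ex OD G lab d σ ∧ lab σ = d then
            gf σ * F (mix (OD d) σ τ) else 0)
          = gf σ * ∑ τ, F (mix (OD d) σ τ) := by
            rw [Finset.mul_sum]
            exact Finset.sum_congr rfl fun τ _ => if_pos h
        _ ≤ gf σ * (Φ * ((Fintype.card B ^ Fintype.card S : ℕ) : ℝ)) :=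
            mul_le_mul_of_nonneg_left (hF d σ h.1 h.2.1 h.2.2) (hgf0 σ)
        _ = _ := by ring
    · have z : ∑ τ : S → B, (if E d σ ∧ Ex OD G lab d σ ∧ lab σ = d then
          gf σ * F (mix (OD d) σ τ) else 0) = 0 :=
        Finset.sum_eq_zero fun τ _ => if_neg h
      rw [z]
      split_ifs
      · exact mul_nonneg (mul_nonneg hΦ (Nat.cast_nonneg _)) (hgf0 σ)
      · exact le_rfl
  calc ∑ d : D, ∑ σ, ∑ τ, (if E d σ ∧ Ex OD G lab d σ ∧ lab σ = d then
        gf σ * F (mix (OD d) σ τ) else 0)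
      ≤ ∑ d : D, ∑ σ, (if lab σ = d then
          Φ * ((Fintype.card B ^ Fintype.card S : ℕ) : ℝ) * gf σ else 0) :=
        Finset.sum_le_sum fun d _ => Finset.sum_le_sum fun σ _ => h1 d σ
    _ = ∑ σ, ∑ d : D, (if lab σ = d then
          Φ * ((Fintype.card B ^ Fintype.card S : ℕ) : ℝ) * gf σ else 0) := Finset.sum_comm
    _ = ∑ σ, Φ * ((Fintype.card B ^ Fintype.card S : ℕ) : ℝ) * gf σ := by
        refine Finset.sum_congr rfl fun σ _ => ?_
        rw [Finset.sum_ite_eq, if_pos (Finset.mem_univ _)]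
    _ = _ := by rw [← Finset.mul_sum]

end Crest.Agent.R143.Nestx867
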