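import Crest.Agent.R143.RingU_197

/-!
# Row 143 (S0194), block H, COMPOSITION, part 5 (helper197): the number of the deep chords

* **`ng_le`** : in 795's environment with `Rr` large and `ρ0` small the mean number `Ng` of the deep
  chords is at most `m` (`m` depends only on the depth `d0`), for all small meshes
-/

set_option autoImplicit false

noncomputable section

open scoped Classical

namespace Crest.Agent.R143.NgBx197

open MeasureTheory Filter Topology Set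
open Crest.ProbabilityR.Voronoi
open Crest.Agent.R143.B0x346 Crest.Agent.R143.SumScx302 Crest.Agent.R143.Mass1x302
  Crest.Agent.R143.DelGx806 Crest.Agent.R143.DelRx806
open Crest.Agent.R143.PP0x831 Crest.Agent.R143.HBudx136 Crest.Agent.R143.HGluex136
  Crest.Agent.R143.SmallAx304 Crest.Agent.R143.Dblx609
  Crest.Agent.R143.Dbl2x609 Crest.Agent.R143.Asm3x414 Crest.Agent.R143.Asm4x414
open Crest.Agent.R143.Frame1x395 Crest.Agent.R143.Frame10x395
open Crest.Agent.R143.StgIx432 Crest.Agent.R143.HCompx197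
open Crest.Agent.R143.EnvRx795 (EnvS)
open scoped ENNReal

/-- **the number of the deep chords** -/
theorem ng_le {d0 : ℝ} (hd0 : 0 < d0) (hdb : d0 ≤ 1 / 4) : ∃ (m : ℕ) (Rr0 ρ00 : ℝ), 0 < ρ00 ∧
    ∀ Rr ρ0 : ℝ, Rr0 ≤ Rr → ρ0 ≤ ρ00 → ∀ᶠ ε : ℝ in 𝓝[>] 0, ∀ {s : ℝ} {A β Rv : Finset ℂ}
      {E : EFam}, 0 ≤ s → s ≤ 1 → Facts (Ub 0 1 s) (sq 0 1) A β Rv (E A β) →
      EnvS A Rr √ε ρ0 → Ng 0 1 d0 E A β ≤ (m : ℝ≥0∞) := by
  obtain ⟨C0, cc, c1, c2, K, η, a1, a2, a3, a4, a5, a6, a7, -, HC⟩ :=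
    StrHx795.chords_E EnvRx795.Ce EnvRx795.Ce_pos.le
  obtain ⟨m, hm⟩ := HC (3 * 1 + 2) (d0 / 2) (by positivity)
  set R : ℝ := min (d0 / 10) (η * (d0 / 2)) with hR
  have r0 : 0 < R := lt_min (by positivity) (by positivity)
  have r1 : R ≤ d0 / 10 := min_le_left _ _
  have r2 : R ≤ η * (d0 / 2) := min_le_right _ _
  have HC' : Cst EnvRx795.Ce C0 cc c1 c2 K d0 1 R m := by
    intro S E B z0 μ d G hd hD hπ
    exact hm G r0 r2 hd hD hπ
  refine ⟨m, 5 + K * (d0 / 2) + d0 / 2 + 2, min (1 / 2) (c2 * R), by positivity, ?_⟩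
  intro Rr ρ0 hRr hρ
  have t1 : Tendsto (fun ε : ℝ => √ε) (𝓝[>] 0) (𝓝 0) := by
    have h := (Real.continuous_sqrt.tendsto 0).mono_left (nhdsWithin_le_nhds (s := Ioi 0))
    rwa [Real.sqrt_zero] at h
  have e1 : ∀ x : ℝ, 0 < x → ∀ᶠ ε : ℝ in 𝓝[>] 0, √ε ≤ x := fun x hx =>
    t1.eventually (ge_mem_nhds hx)
  filter_upwards [e1 1 one_pos, e1 (R / 2) (by positivity), e1 (c1 * R) (by positivity)]
    with ε g1 g2 g3 s A β Rv E hs hs1 F env
  have hD : CntGx197.Dense A 0 (3 * 1 + 2) K √ε c2 R (d0 / 2) EnvRx795.Ce := by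
    refine env.dense (hρ.trans (min_le_left _ _)) g1 ?_ (by positivity)
      (hρ.trans (min_le_right _ _))
    rw [norm_zero]
    linarith
  exact (one_conf (z := 0) (b := 1) F HC' one_pos hs hs1 hd0 (by linarith) r1 a6 env.dpos
    (by linarith) g3 hD).2.2.1

end Crest.Agent.R143.NgBx197
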