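import Crest.Agent.R143.NstA_700
import Crest.Agent.R143.EQE1_63
import Crest.Agent.R143.J4_872
import Crest.Agent.R143.Gauge3_950
import Crest.Agent.R143.GapI_877

/-!
# Row 143, leaf NST (helper700), part B: the steps of a leg around a box

`XB S z0 r β = 4 Σ_k KE S z0 r k β`.

* `circ_few` : a circuit of the square annulus with at most `XB` bichromatic oriented edges
* `walk_cross` : a path of the walker from the inside to the outside of a closed chain uses an edge of it
* `leadsN_inj` : a leg visits every state at most once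
* `steps_le` : the number of `l`-steps which start near `z0` is at most `XB`
-/

set_option autoImplicit false

noncomputable section

open scoped Classical

namespace Crest.Agent.R143.NstBx700

open Crest.Agent.R143.B0x346 Crest.Agent.R143.DelGx806 Crest.Agent.R143.DelRx806
open Crest.Agent.R143.ToolWx838 hiding dir
open Crest.Agent.R143.Blkx838 Crest.Agent.R143.ToolW2x838
open Crest.Agent.R143.ToolW3x838 Crest.Agent.R143.Circ4x838 Crest.Agent.R143.Harx315
open Crest.Agent.R143.RB0x838 Crest.Agent.R143.CircPx838 Crest.Agent.R143.Gatex838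
open Crest.Agent.R143.NstAx700
open Crest.Agent.R143.JWalkx872 Crest.Agent.R143.J1x872 Crest.Agent.R143.J4x872
  Crest.Agent.R143.XFx903 Crest.Agent.R143.EQE1x63

variable {S V : Finset ℂ} {z0 : ℂ} {r : ℝ}

/-- bound for the number of steps -/
def XB (S : Finset ℂ) (z0 : ℂ) (r : ℝ) (β : Finset ℂ) : ℕ := 4 * ∑ k : Fin 4, KE S z0 r k β

/-- oriented bichromatic edges of a chain -/
def EB (β : Finset ℂ) (l : List ℂ) : Finset (ℂ × ℂ) :=
  ((prs l).filter fun p => decide (bic β p)).toFinset ∪
    (((prs l).filter fun p => decide (bic β p)).map Prod.swap).toFinset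

theorem card_eb (β : Finset ℂ) (l : List ℂ) : (EB β l).card ≤ 4 * wt β l := by
  have h1 := (bic_le β l).1
  rw [List.countP_eq_length_filter] at h1
  have h2 := List.toFinset_card_le ((prs l).filter fun p => decide (bic β p))
  have h3 := List.toFinset_card_le (((prs l).filter fun p => decide (bic β p)).map Prod.swap)
  rw [List.length_map] at h3
  have h4 : (EB β l).card ≤ _ := Finset.card_union_le _ _
  omega

theorem bic_swap {β : Finset ℂ} {p : ℂ × ℂ} : bic β p.swap ↔ bic β p := by
  unfold bic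
  rw [Prod.fst_swap, Prod.snd_swap]
  tauto

theorem mem_eb {β : Finset ℂ} {l : List ℂ} {p : ℂ × ℂ} (h : p ∈ prs l ∨ p.swap ∈ prs l)
    (hb : bic β p) : p ∈ EB β l := by
  unfold EB
  rw [Finset.mem_union, List.mem_toFinset, List.mem_toFinset, List.mem_filter, List.mem_map]
  rcases h with h | h
  · exact Or.inl ⟨h, by simpa using hb⟩
  · refine Or.inr ⟨p.swap, List.mem_filter.2 ⟨h, by simpa using bic_swap.2 hb⟩, Prod.swap_swap p⟩

/-- four chains give a circuit, with its edges -/
theorem circ_edges (hS : GP (S : Set ℂ)) (hr : 0 < r) {T L B R : List ℂ}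
    (hT : Cross S (zc z0 r 0) (dir 0) (3 / 2 * r) (1 / 4 * r) S T)
    (hL : Cross S (zc z0 r 1) (dir 1) (3 / 2 * r) (1 / 4 * r) S L)
    (hB : Cross S (zc z0 r 2) (dir 2) (3 / 2 * r) (1 / 4 * r) S B)
    (hR : Cross S (zc z0 r 3) (dir 3) (3 / 2 * r) (1 / 4 * r) S R) :
    ∃ c, CircC S z0 r S c ∧ ∀ p ∈ prs c, (p ∈ prs T ∨ p.swap ∈ prs T) ∨
      (p ∈ prs L ∨ p.swap ∈ prs L) ∨ (p ∈ prs B ∨ p.swap ∈ prs B) ∨
      (p ∈ prs R ∨ p.swap ∈ prs R) := by
  have aT := CE.ann hr hT
  have aL := CE.ann hr hL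
  have aB := CE.ann hr hB
  have aR := CE.ann hr hR
  have hTs := hT.strip
  have hLs := hL.strip
  have hBs := hB.strip
  have hRs := hR.strip
  have hT1 := hT.left
  have hT2 := hT.right
  have hL1 := hL.left
  have hL2 := hL.right
  have hB1 := hB.left
  have hB2 := hB.right
  have hR1 := hR.left
  have hR2 := hR.right
  simp only [zc, dir, div_one, div_I_re, div_I_im, Complex.sub_re, Complex.sub_im, Complex.add_re,
    Complex.add_im, Complex.mul_re, Complex.mul_im, Complex.ofReal_re, Complex.ofReal_im,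
    Complex.I_re, Complex.I_im, mul_zero, mul_one, zero_mul, sub_zero, add_zero, zero_add,
    abs_lt] at hTs hLs hBs hRs hT1 hT2 hL1 hL2 hB1 hB2 hR1 hR2
  obtain ⟨c, hc, hl⟩ := circuit (ρ := 3 / 2 * r) (r := r) (z0 := z0) hS (by linarith) hT.ne hL.ne hB.ne hR.ne
    hT.adj hL.adj hB.adj hR.adj (fun s hs => ⟨by linarith [hTs s hs], by linarith [hTs s hs]⟩)
    (fun s hs => ⟨by linarith [hLs s hs], by linarith [hLs s hs]⟩)
    (fun s hs => ⟨by linarith [hBs s hs], by linarith [hBs s hs]⟩)
    (fun s hs => ⟨by linarith [hRs s hs], by linarith [hRs s hs]⟩)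
    (by linarith) (by linarith) (by linarith) (by linarith) (by linarith) (by linarith)
    (by linarith) (by linarith)
  have hall : ∀ s ∈ c, s ∈ S ∧ r < sup (s - z0) ∧ sup (s - z0) < 2 * r := by
    intro s hs
    rcases hc.mem s hs with h | h | h | h
    · exact ⟨hT.col s h, aT s h⟩
    · exact ⟨hL.col s h, aL s h⟩
    · exact ⟨hB.col s h, aB s h⟩
    · exact ⟨hR.col s h, aR s h⟩
  refine ⟨c, ⟨hl, ?_, fun s hs => (hall s hs).1, fun s hs => (hall s hs).2.1,
    fun s hs => (hall s hs).2.2, fun z hz => ?_⟩, hc.prs⟩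
  · rintro rfl
    have := hc.wind z0 (by simp; exact hr.le) (by simp; exact hr.le)
    simp [asum] at this
  · unfold sup at hz
    rw [max_le_iff, Complex.sub_re, Complex.sub_im] at hz
    exact hc.wind z hz.1 hz.2

/-- **a circuit with few bichromatic edges** -/
theorem circ_few (hS : GP (S : Set ℂ)) (hr : 0 < r)
    (h : ∀ k : Fin 4, ∃ l, Cross S (zc z0 r k) (dir k) (3 / 2 * r) (1 / 4 * r) S l)
    (β : Finset ℂ) : ∃ c, CircC S z0 r S c ∧ ∃ E : Finset (ℂ × ℂ), E.card ≤ XB S z0 r β ∧
      ∀ p, ¬ Avoid c p → bic β p → p ∈ E := by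
  have key : ∀ k : Fin 4, ∃ l, Cross S (zc z0 r k) (dir k) (3 / 2 * r) (1 / 4 * r) S l ∧
      wt β l = KE S z0 r k β := by
    intro k
    obtain ⟨l, hl⟩ := h k
    obtain ⟨m, hm, e⟩ := kk_spec (β := β) ⟨l, (pe_iff.2 hl : PE S z0 r k l)⟩
    exact ⟨m, pe_iff.1 hm, e⟩
  obtain ⟨T, hT, eT⟩ := key 0
  obtain ⟨L, hL, eL⟩ := key 1
  obtain ⟨B, hB, eB⟩ := key 2
  obtain ⟨R, hR, eR⟩ := key 3
  obtain ⟨c, hc, hp⟩ := circ_edges hS hr hT hL hB hR
  refine ⟨c, hc, EB β T ∪ EB β L ∪ EB β B ∪ EB β R, ?_, ?_⟩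
  · have h1 := card_eb β T
    have h2 := card_eb β L
    have h3 := card_eb β B
    have h4 := card_eb β R
    have u1 := Finset.card_union_le (EB β T ∪ EB β L ∪ EB β B) (EB β R)
    have u2 := Finset.card_union_le (EB β T ∪ EB β L) (EB β B)
    have u3 := Finset.card_union_le (EB β T) (EB β L)
    unfold XB
    rw [Fin.sum_univ_four, ← eT, ← eL, ← eB, ← eR]
    omega
  · intro p hav hb
    have hav' : p ∈ prs c ∨ p.swap ∈ prs c := by
      unfold Avoid at hav
      by_contra hcon
      push Not at hcon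
      exact hav hcon
    have key2 : ∀ q : ℂ × ℂ, q ∈ prs c → bic β q → q ∈ EB β T ∪ EB β L ∪ EB β B ∪ EB β R ∧
        q.swap ∈ EB β T ∪ EB β L ∪ EB β B ∪ EB β R := by
      intro q hq hb
      have hb' : bic β q.swap := bic_swap.2 hb
      have hor : ∀ {l : List ℂ}, (q ∈ prs l ∨ q.swap ∈ prs l) →
          (q.swap ∈ prs l ∨ q.swap.swap ∈ prs l) := fun h => by
        rw [Prod.swap_swap]; exact h.symm
      simp only [Finset.mem_union]
      rcases hp q hq with h | h | h | h
      · exact ⟨Or.inl (Or.inl (Or.inl (mem_eb h hb))),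
          Or.inl (Or.inl (Or.inl (mem_eb (hor h) hb')))⟩
      · exact ⟨Or.inl (Or.inl (Or.inr (mem_eb h hb))),
          Or.inl (Or.inl (Or.inr (mem_eb (hor h) hb')))⟩
      · exact ⟨Or.inl (Or.inr (mem_eb h hb)), Or.inl (Or.inr (mem_eb (hor h) hb'))⟩
      · exact ⟨Or.inr (mem_eb h hb), Or.inr (mem_eb (hor h) hb')⟩
    rcases hav' with h | h
    · exact (key2 p h hb).1
    · have := (key2 p.swap h (bic_swap.2 hb)).2
      rwa [Prod.swap_swap] at this

/-! ### paths of the walker -/

section walk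

variable {G : Trg ℂ} {kl : Set (ℂ × ℂ)} {O : Set (ℂ × ℂ × ℂ)} {D : Set (ℂ × ℂ)}
  {J : Finset (ℂ × ℂ)} {c : List ℂ}

/-- a path from the inside to the outside of `c` has a state where the total angle changes -/
theorem walk_cross (hS : GP (S : Set ℂ)) (hG : G.T = delT S) :
    ∀ (M : List ((ℂ × ℂ) × (ℂ × ℂ))) (p q : ℂ × ℂ), Fol G O D J p M q →
    AL S c p ≠ 0 → AL S c q.swap = 0 → M ≠ [] → ∃ a ∈ M, AL S c a.1 ≠ AL S c a.1.swap := by
  intro M
  induction M with
  | nil => intro p q _ _ _ h; exact absurd rfl h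
  | cons a M ih =>
    rintro p q ⟨h1, m, h2, h3, h4⟩ hp hq _
    have h5 : AL S c m.swap = AL S c p := al_step hS hG h3
    rcases M with _ | ⟨b, M⟩
    · change m = q at h4
      rw [h4, hq] at h5
      exact absurd h5.symm hp
    · by_cases h6 : AL S c m = 0
      · have hb : b.1 = m := h4.1
        refine ⟨b, by simp, ?_⟩
        rw [hb, h6, h5]
        exact fun h => hp h.symm
      · obtain ⟨x, hx, h7⟩ := ih m q h4 h6 hq (by simp)
        exact ⟨x, List.mem_cons_of_mem _ hx, h7⟩

/-- comparison of two paths of the same walk -/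
theorem fol_split : ∀ (L L' : List ((ℂ × ℂ) × (ℂ × ℂ))) (p q q' : ℂ × ℂ),
    Fol G O D J p L q → Fol G O D J p L' q' →
    (∃ M, L' = L ++ M ∧ Fol G O D J q M q') ∨ (∃ M, M ≠ [] ∧ L = L' ++ M ∧ Fol G O D J q' M q) := by
  intro L
  induction L with
  | nil =>
    intro L' p q q' h h'
    change p = q at h
    subst h
    exact Or.inl ⟨L', rfl, h'⟩
  | cons a L ih =>
    intro L' p q q' h h'
    rcases L' with _ | ⟨b, L'⟩
    · change p = q' at h'
      subst h'
      exact Or.inr ⟨a :: L, by simp, rfl, h⟩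
    · obtain ⟨ha, m, hm, hst, hf⟩ := h
      obtain ⟨hb, m', hm', hst', hf'⟩ := h'
      have e := step_det hst hst'
      subst e
      have hu := turn_unc_unique hm hm'
      have hab : a = b := Prod.ext (ha.trans hb.symm) hu
      subst hab
      rcases ih L' m q q' hf hf' with ⟨M, h1, h2⟩ | ⟨M, h0, h1, h2⟩
      · exact Or.inl ⟨M, by rw [h1]; rfl, h2⟩
      · exact Or.inr ⟨M, h0, by rw [h1]; rfl, h2⟩

theorem fol_append : ∀ (L M : List ((ℂ × ℂ) × (ℂ × ℂ))) (p q q' : ℂ × ℂ),
    Fol G O D J p L q → Fol G O D J q M q' → Fol G O D J p (L ++ M) q' := by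
  intro L
  induction L with
  | nil =>
    intro M p q q' h h'
    change p = q at h
    subst h
    exact h'
  | cons a L ih =>
    rintro M p q q' ⟨h1, m, h2, h3, h4⟩ h'
    exact ⟨h1, m, h2, h3, ih M m q q' h4 h'⟩

/-- the states of a path, with their number of steps -/
theorem fol_get : ∀ (L : List ((ℂ × ℂ) × (ℂ × ℂ))) (p q : ℂ × ℂ), Fol G O D J p L q →
    ∀ (i : ℕ) (h : i < L.length), LeadsN G O D J i p (L[i]).1 := by
  intro L
  induction L with
  | nil => intro p q _ i h; simp at h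
  | cons a L ih =>
    rintro p q ⟨h1, m, h2, h3, h4⟩ i h
    rcases i with _ | i
    · exact h1.symm
    · exact ⟨m, h3, ih m q h4 i (by simpa using h)⟩

theorem leadsN_leads {n : ℕ} {p q : ℂ × ℂ} (h : LeadsN G O D J n p q) : Leads G O D J p q :=
  leads_iff_leadsN.2 ⟨n, h⟩

/-- a leg visits every state at most once -/
theorem leadsN_inj (hJ : IsJoin G kl O D J) (hO : RotInv O) {p : ℂ × ℂ} (hp : p ∈ D) :
    ∀ (n m : ℕ) (s : ℂ × ℂ), LeadsN G O D J n p s → LeadsN G O D J m p s → n = m := by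
  have hpJ : p ∈ J := (hJ.mark p.1 p.2 hp).1
  have key : ∀ m : ℕ, LeadsN G O D J (m + 1) p p → False := by
    intro m h
    obtain ⟨x, _, hx⟩ := leadsN_untail m _ _ h
    exact mark_pre hJ hp x hx
  intro n
  induction n with
  | zero =>
    intro m s h h'
    change p = s at h
    subst h
    rcases m with _ | m
    · rfl
    · exact (key m h').elim
  | succ n ih =>
    intro m s h h'
    rcases m with _ | m
    · change p = s at h'
      subst h'
      exact (key n h).elim
    · obtain ⟨x, h1, h2⟩ := leadsN_untail n _ _ h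
      obtain ⟨y, h3, h4⟩ := leadsN_untail m _ _ h'
      have hx := leads_step_mem hJ hpJ (leadsN_leads h1) h2
      have hy := leads_step_mem hJ hpJ (leadsN_leads h3) h4
      have e := step_det (step_rev hJ hO hx h2) (step_rev hJ hO hy h4)
      have : x = y := by
        rw [Prod.mk.injEq] at e
        exact Prod.ext e.2 e.1
      subst this
      rw [ih m x h1 h3]

end walk

end Crest.Agent.R143.NstBx700
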