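import Crest.Agent.R143.XW1_315

/-!
# Row 143 (S0194): second moments of strand counts, uniform integrability (helper136)

* `sq_tail` : geometric tail => second moment (uniform average over a finite set)
* `sq_sum` : second moment of a sum of counts
* `ev_le`, `big_le` : `E[f ; A] <= (P A)^(1/2) (E f^2)^(1/2)`, `E[f ; f > M] <= E f^2 / M`
* `ui` : `E[sum_b N_b ; A] <= #b * (2/(1-p)) * (P A)^(1/2)`
* `ex_*` : the same for `pr`, `ex` of `XW1_315`
-/

set_option autoImplicit false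

noncomputable section

open scoped Classical
open Finset

namespace Crest.Agent.R143.NstUIx136

variable {ι κ : Type*}

/-- average over a finite set -/
def av (s : Finset ι) (f : ι → ℝ) : ℝ := (∑ i ∈ s, f i) / s.card

/-- frequency -/
def fr (s : Finset ι) (A : ι → Prop) : ℝ := ((s.filter A).card : ℝ) / s.card

theorem av_ind (s : Finset ι) (A : ι → Prop) : av s (fun i => if A i then 1 else 0) = fr s A := by
  unfold av fr
  rw [← sum_filter, sum_const, nsmul_eq_mul, mul_one]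

theorem av_mono {s : Finset ι} {f g : ι → ℝ} (h : ∀ i ∈ s, f i ≤ g i) : av s f ≤ av s g := by
  unfold av
  exact div_le_div_of_nonneg_right (sum_le_sum h) (Nat.cast_nonneg _)

theorem av_nonneg {s : Finset ι} {f : ι → ℝ} (h : ∀ i ∈ s, 0 ≤ f i) : 0 ≤ av s f := by
  unfold av
  exact div_nonneg (sum_nonneg h) (Nat.cast_nonneg _)

theorem fr_nonneg (s : Finset ι) (A : ι → Prop) : 0 ≤ fr s A := by
  unfold fr
  positivity

theorem av_sum (s : Finset ι) (t : Finset κ) (f : κ → ι → ℝ) :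
    av s (fun i => ∑ b ∈ t, f b i) = ∑ b ∈ t, av s (f b) := by
  unfold av
  rw [sum_comm, sum_div]

theorem av_cmul (s : Finset ι) (c : ℝ) (f : ι → ℝ) : av s (fun i => c * f i) = c * av s f := by
  unfold av
  rw [← mul_sum, mul_div_assoc]

theorem geo_le {p : ℝ} (h0 : 0 ≤ p) (h1 : p < 1) (n : ℕ) :
    ∑ k ∈ range n, ((2 * k + 1 : ℕ) : ℝ) * p ^ (k + 1) ≤ 2 / (1 - p) ^ 2 := by
  have hn : ‖p‖ < 1 := by rw [Real.norm_of_nonneg h0]; exact h1
  have hs := (summable_pow_mul_geometric_of_norm_lt_one 1 hn)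
  have hs' : Summable (fun k : ℕ => (k : ℝ) * p ^ k) := by simpa using hs
  have ht : ∑' k : ℕ, (k : ℝ) * p ^ k = p / (1 - p) ^ 2 := tsum_coe_mul_geometric_of_norm_lt_one hn
  have hp2 : 0 < (1 - p) ^ 2 := by
    have : 0 < 1 - p := by linarith
    positivity
  calc ∑ k ∈ range n, ((2 * k + 1 : ℕ) : ℝ) * p ^ (k + 1)
      ≤ ∑ k ∈ range n, 2 * (((k + 1 : ℕ) : ℝ) * p ^ (k + 1)) := by
        refine sum_le_sum fun k _ => ?_
        have : 0 ≤ p ^ (k + 1) := pow_nonneg h0 _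
        push_cast
        nlinarith
    _ = 2 * ∑ k ∈ range n, ((k + 1 : ℕ) : ℝ) * p ^ (k + 1) := by rw [mul_sum]
    _ ≤ 2 * ∑ k ∈ range (n + 1), (k : ℝ) * p ^ k := by
        rw [sum_range_succ' (fun k => ((k : ℕ) : ℝ) * p ^ k) n]
        simp
    _ ≤ 2 * (p / (1 - p) ^ 2) := by
        rw [← ht]
        have := hs'.sum_le_tsum (range (n + 1)) (fun k _ => by positivity)
        linarith
    _ ≤ 2 / (1 - p) ^ 2 := by
        rw [← mul_div_assoc]
        apply div_le_div_of_nonneg_right _ hp2.le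
        linarith

/-- geometric tail => second moment -/
theorem sq_tail {s : Finset ι} {N : ι → ℕ} {p : ℝ} (h0 : 0 ≤ p) (h1 : p < 1)
    (h : ∀ k : ℕ, fr s (fun i => k ≤ N i) ≤ p ^ k) :
    av s (fun i => (N i : ℝ) ^ 2) ≤ 2 / (1 - p) ^ 2 := by
  set n := s.sup N with hn
  have e : ∀ i ∈ s, (N i : ℝ) ^ 2 ≤
      ∑ k ∈ range n, ((2 * k + 1 : ℕ) : ℝ) * (if k + 1 ≤ N i then 1 else 0) := by
    intro i hi
    have hNi : N i ≤ n := le_sup (f := N) hi
    have h2 : ∀ m : ℕ, ∑ k ∈ range m, ((2 * k + 1 : ℕ) : ℝ) = (m : ℝ) ^ 2 := by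
      intro m
      induction m with
      | zero => simp
      | succ m ih => rw [sum_range_succ, ih]; push_cast; ring
    rw [← h2 (N i)]
    calc ∑ k ∈ range (N i), ((2 * k + 1 : ℕ) : ℝ)
        = ∑ k ∈ range (N i), ((2 * k + 1 : ℕ) : ℝ) * (if k + 1 ≤ N i then 1 else 0) := by
          refine sum_congr rfl fun k hk => ?_
          rw [if_pos (Nat.succ_le_of_lt (mem_range.1 hk)), mul_one]
      _ ≤ _ := by
          refine sum_le_sum_of_subset_of_nonneg (range_subset_range.2 hNi) fun k _ _ => ?_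
          positivity
  refine (av_mono e).trans ?_
  rw [av_sum]
  refine le_trans (sum_le_sum fun k _ => ?_) (geo_le h0 h1 n)
  rw [av_cmul]
  refine mul_le_mul_of_nonneg_left ?_ (Nat.cast_nonneg _)
  refine le_trans (le_of_eq ?_) (h (k + 1))
  convert av_ind s (fun i => k + 1 ≤ N i)

/-- first moment from the second -/
theorem ev_le {s : Finset ι} {f : ι → ℝ} (A : ι → Prop) :
    av s (fun i => if A i then f i else 0) ≤
      Real.sqrt (fr s A) * Real.sqrt (av s (fun i => f i ^ 2)) := by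
  rcases s.eq_empty_or_nonempty with rfl | hs
  · simp [av, fr]
  have hc : (0 : ℝ) < s.card := by exact_mod_cast hs.card_pos
  rw [← Real.sqrt_mul (fr_nonneg s A)]
  apply Real.le_sqrt_of_sq_le
  unfold av fr
  rw [div_pow, div_mul_div_comm, ← sq]
  apply div_le_div_of_nonneg_right _ (by positivity)
  have h1 : ∑ i ∈ s, (if A i then f i else 0) = ∑ i ∈ s, (if A i then 1 else 0) * f i := by
    refine sum_congr rfl fun i _ => ?_
    split_ifs <;> simp
  rw [h1]
  refine (sum_mul_sq_le_sq_mul_sq s (fun i => if A i then (1 : ℝ) else 0) f).trans (le_of_eq ?_)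
  congr 1
  rw [← sum_filter_add_sum_filter_not s A]
  rw [sum_congr rfl (g := fun _ => (1 : ℝ)) (fun i hi => by
    rw [if_pos (mem_filter.1 hi).2]; norm_num)]
  rw [sum_const, nsmul_eq_mul, mul_one]
  rw [sum_eq_zero (s := s.filter fun i => ¬ A i) (fun i hi => by
    rw [if_neg (mem_filter.1 hi).2]; norm_num)]
  rw [add_zero]

/-- truncation -/
theorem big_le {s : Finset ι} {f : ι → ℝ} {M : ℝ} (hM : 0 < M) (hf : ∀ i ∈ s, 0 ≤ f i) :
    av s (fun i => if M < f i then f i else 0) ≤ av s (fun i => f i ^ 2) / M := by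
  rw [le_div_iff₀ hM, mul_comm, ← av_cmul]
  refine av_mono fun i hi => ?_
  split_ifs with h
  · have := hf i hi
    nlinarith
  · rw [mul_zero]; positivity

/-- second moment of a sum -/
theorem sq_sum {s : Finset ι} {t : Finset κ} {N : κ → ι → ℕ} {p : ℝ} (h0 : 0 ≤ p) (h1 : p < 1)
    (h : ∀ b ∈ t, ∀ k : ℕ, fr s (fun i => k ≤ N b i) ≤ p ^ k) :
    av s (fun i => (∑ b ∈ t, (N b i : ℝ)) ^ 2) ≤ (t.card : ℝ) ^ 2 * (2 / (1 - p) ^ 2) := by
  have e1 : ∀ i ∈ s, (∑ b ∈ t, (N b i : ℝ)) ^ 2 ≤ (t.card : ℝ) * ∑ b ∈ t, (N b i : ℝ) ^ 2 :=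
    fun i _ => sq_sum_le_card_mul_sum_sq
  refine (av_mono e1).trans ?_
  rw [av_cmul, av_sum, sq, mul_assoc]
  apply mul_le_mul_of_nonneg_left _ (Nat.cast_nonneg _)
  refine (sum_le_sum fun b hb => sq_tail h0 h1 (h b hb)).trans (le_of_eq ?_)
  rw [sum_const, nsmul_eq_mul]

/-- **uniform integrability of a sum of counts** -/
theorem ui {s : Finset ι} {t : Finset κ} {N : κ → ι → ℕ} {p : ℝ} (h0 : 0 ≤ p) (h1 : p < 1)
    (h : ∀ b ∈ t, ∀ k : ℕ, fr s (fun i => k ≤ N b i) ≤ p ^ k) {f : ι → ℝ} {c : ℝ} (hc : 0 ≤ c)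
    (hf0 : ∀ i ∈ s, 0 ≤ f i) (hf : ∀ i ∈ s, f i ≤ c * ∑ b ∈ t, (N b i : ℝ)) (A : ι → Prop) :
    av s (fun i => if A i then f i else 0) ≤
      c * t.card * (2 / (1 - p)) * Real.sqrt (fr s A) := by
  have hp : 0 < 1 - p := by linarith
  refine (ev_le A).trans ?_
  rw [mul_comm (Real.sqrt (fr s A))]
  apply mul_le_mul_of_nonneg_right _ (Real.sqrt_nonneg _)
  rw [Real.sqrt_le_left (by positivity)]
  have e1 : ∀ i ∈ s, f i ^ 2 ≤ c ^ 2 * (∑ b ∈ t, (N b i : ℝ)) ^ 2 := by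
    intro i hi
    rw [← mul_pow]
    exact pow_le_pow_left₀ (hf0 i hi) (hf i hi) 2
  refine (av_mono e1).trans ?_
  rw [av_cmul]
  refine (mul_le_mul_of_nonneg_left (sq_sum h0 h1 h) (sq_nonneg c)).trans ?_
  have : c ^ 2 * ((t.card : ℝ) ^ 2 * (2 / (1 - p) ^ 2)) =
      (c * t.card) ^ 2 * (2 / (1 - p) ^ 2) := by ring
  rw [this, mul_pow (c * (t.card : ℝ))]
  apply mul_le_mul_of_nonneg_left _ (sq_nonneg _)
  rw [div_pow]
  apply div_le_div_of_nonneg_right _ (by positivity)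
  norm_num

/-! ### the same for `pr`, `ex` -/

open Crest.Agent.R143.XW1x315 Crest.Agent.R143.Harx315

variable {α : Type*}

theorem ex_av (V : Finset α) (f : Finset α → ℝ) : ex V f = av V.powerset f := by
  unfold ex av
  rw [card_powerset]
  push_cast
  rfl

theorem pr_fr (V : Finset α) (A : Finset α → Prop) : pr V A = fr V.powerset A := by
  unfold pr fr nb fl
  rw [card_powerset]
  push_cast
  rfl

/-- **uniform integrability of a sum of counts** for fair colourings -/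
theorem ex_ui {V : Finset α} {t : Finset κ} {N : κ → Finset α → ℕ} {p : ℝ} (h0 : 0 ≤ p)
    (h1 : p < 1) (h : ∀ b ∈ t, ∀ k : ℕ, pr V (fun β => k ≤ N b β) ≤ p ^ k)
    {f : Finset α → ℝ} {c : ℝ} (hc : 0 ≤ c) (hf0 : ∀ β, β ⊆ V → 0 ≤ f β)
    (hf : ∀ β, β ⊆ V → f β ≤ c * ∑ b ∈ t, (N b β : ℝ)) (A : Finset α → Prop) :
    ex V (fun β => if A β then f β else 0) ≤
      c * t.card * (2 / (1 - p)) * Real.sqrt (pr V A) := by
  rw [ex_av, pr_fr]
  refine ui h0 h1 (fun b hb k => ?_) hc (fun β hβ => hf0 β (mem_powerset.1 hβ))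
    (fun β hβ => hf β (mem_powerset.1 hβ)) A
  rw [← pr_fr]
  exact h b hb k

/-- second moment for fair colourings -/
theorem ex_sq {V : Finset α} {t : Finset κ} {N : κ → Finset α → ℕ} {p : ℝ} (h0 : 0 ≤ p)
    (h1 : p < 1) (h : ∀ b ∈ t, ∀ k : ℕ, pr V (fun β => k ≤ N b β) ≤ p ^ k) :
    ex V (fun β => (∑ b ∈ t, (N b β : ℝ)) ^ 2) ≤ (t.card : ℝ) ^ 2 * (2 / (1 - p) ^ 2) := by
  rw [ex_av]
  refine sq_sum h0 h1 fun b hb k => ?_
  rw [← pr_fr]
  exact h b hb k

end Crest.Agent.R143.NstUIx136
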