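import Crest.Agent.R143.Y9C_831
import Crest.Agent.R143.B6a_654

/-!
# R143, block Y (helper831): kernel bounds and the numbers
-/

set_option autoImplicit false

noncomputable section

open scoped Classical

namespace Crest.Agent.R143.Y9Ex831

open MeasureTheory Set Filter Topology Function
open Crest.ProbabilityR.Voronoi
open Crest.Agent.R143.B0x346 Crest.Agent.R143.B0Dx346 Crest.Agent.R143.PP1x831
open Crest.Agent.R143.Y0x831 Crest.Agent.R143.Lawx831 Crest.Agent.R143.Y5Dx831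
open Crest.Agent.R143.Y6Bx831
open Crest.Agent.R143.Y8Dx831 Crest.Agent.R143.Y9Ax831 Crest.Agent.R143.Y9Bx831
open Crest.Agent.R143.Y9Cx831 Crest.Agent.R143.Mollx887 Crest.Agent.R143.B6x654
open scoped ENNReal

local notation "smk" => Crest.Agent.R143.Lawx831.mk
local notation "del" => Crest.Agent.R143.Var2x831.del

/-! ### the kernel -/

theorem kb_sup {r : ℝ} (hr : 0 < r) (z : ℂ) : ‖kb r z‖ ≤ Lk / r ^ 3 := by
  rcases lt_or_ge ‖z‖ r with h | h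
  · have h1 := kb_lip hr z 0
    have h0 : kb r 0 = 0 := by unfold kb; simp
    rw [h0, sub_zero, sub_zero] at h1
    refine h1.trans ?_
    have h2 : Lk / r ^ 4 * ‖z‖ ≤ Lk / r ^ 4 * r :=
      mul_le_mul_of_nonneg_left h.le (div_nonneg Lk_nonneg (by positivity))
    refine h2.trans (le_of_eq ?_)
    field_simp
  · rw [kb_zero hr h, norm_zero]
    exact div_nonneg Lk_nonneg (by positivity)

theorem int_near {κ : ℂ → ℂ} {A0 : ℝ} (hA0 : 0 ≤ A0) (hsup : ∀ z, ‖κ z‖ ≤ A0) {ε d : ℝ}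
    (hd : 0 < d) (k : ℤ × ℤ) : ∫ z in Nr ε d k, ‖κ z‖ ≤ A0 * (Real.pi * (7 * d) ^ 2) := by
  have hvol : volume.real (Nr ε d k) = Real.pi * (7 * d) ^ 2 := by
    unfold Nr
    rw [Measure.real, Complex.volume_closedBall]
    rw [ENNReal.toReal_mul, ENNReal.toReal_pow, ENNReal.toReal_ofReal (by positivity)]
    simp
    ring
  have hfin : volume (Nr ε d k) < ⊤ := by
    unfold Nr
    exact measure_closedBall_lt_top
  have h1 := norm_setIntegral_le_of_norm_le_const (μ := volume) (s := Nr ε d k)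
    (f := fun z => ‖κ z‖) (C := A0) hfin (fun z _ => by rw [norm_norm]; exact hsup z)
  rw [hvol] at h1
  exact (le_abs_self _).trans h1

/-! ### one kernel -/

variable {D : Dom} {Rb R1 ε C K a C4 d δ : ℝ} {M : ℕ}

theorem step (hL : YL) (hc : D.c = 0) (hF : Free1 D R1) (hε : 0 < ε) (hd : ε ≤ d) (hδ : 0 ≤ δ)
    (h8 : ∀ p, GQ D Rb R1 ε C K a C4 M p → Y8c D R1 ε d p)
    (hOA : ∀ p, GQ D Rb R1 ε C K a C4 M p → OAc D R1 ε δ p)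
    {f : Pos × ℂ → ℂ} (hfm : Measurable f) (hb : ∀ q, ‖f q‖ ≤ 3)
    (hf : ∀ p, GQ D Rb R1 ε C K a C4 M p → ∀ z, f (p, z) = hval (NP D ε p) z)
    (hf' : ∀ p, GQ D Rb R1 ε C K a C4 M p → ∀ k ∈ KF ⌊R1 / ε⌋, ∀ z,
      f (del k p, z) = hval (NP D ε (del k p)) z)
    {κ : ℂ → ℂ} (hκm : Measurable κ) (hκ : Integrable κ) (hsup : ∀ z, κ z ≠ 0 → ‖z‖ < R1)
    {A : ℝ} (hA : ∀ k ∈ KF ⌊R1 / ε⌋, ∫ z in Nr ε d k, ‖κ z‖ ≤ A) (p0 : Pos) :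
    ∫ p, ‖gF f κ (KF ⌊R1 / ε⌋) p0 p - ∫ y, gF f κ (KF ⌊R1 / ε⌋) p0 y ∂posLaw‖ ∂posLaw ≤
      √(4 * (2 * (∫ z, ‖κ z‖) ^ 2 * (81 * (4 ^ M * M) * (4 * δ)) +
          72 * (KF ⌊R1 / ε⌋).card * A ^ 2) +
        144 * (KF ⌊R1 / ε⌋).card * (∫ z, ‖κ z‖) ^ 2 *
          (posLaw {p | ¬ GQ D Rb R1 ε C K a C4 M ((KF ⌊R1 / ε⌋).piecewise p p0)}).toReal) := by
  have h := conc (p0 := p0) (Kf := KF ⌊R1 / ε⌋) hfm hb hκm hκ (Nr ε d)
    (fun k => measurableSet_closedBall) (B := 81 * (4 ^ M * M) * (4 * δ)) (by positivity) hA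
    {p | GQ D Rb R1 ε C K a C4 M ((KF ⌊R1 / ε⌋).piecewise p p0)} ?_
  · exact h
  · intro p hp
    filter_upwards [far_bound hL hc hF hε hd (h8 _ hp) (hOA _ hp) hδ hp.num (hf _ hp) (hf' _ hp)]
      with z hz hκz
    exact hz (hsup z hκz)

/-! ### numbers -/

theorem ev_rpow_le {e : ℝ} (he : 0 < e) (Kc : ℝ) : ∀ᶠ ε : ℝ in 𝓝[>] 0, Kc * ε ^ e ≤ 1 := by
  have h1 : Tendsto (fun ε : ℝ => Kc * ε ^ e) (𝓝[>] 0) (𝓝 (Kc * 0)) := by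
    refine Tendsto.const_mul Kc ?_
    have h2 : Tendsto (fun ε : ℝ => ε ^ e) (𝓝 0) (𝓝 ((0 : ℝ) ^ e)) :=
      (Real.continuousAt_rpow_const 0 e (Or.inr he.le)).tendsto
    rw [Real.zero_rpow he.ne'] at h2
    exact h2.mono_left nhdsWithin_le_nhds
  rw [mul_zero] at h1
  exact (h1.eventually_lt_const zero_lt_one).mono fun _ h => h.le

theorem card_KF {R1 ε : ℝ} (hε : 0 < ε) (hR : 0 < R1) :
    ((KF ⌊R1 / ε⌋).card : ℝ) ≤ 4 * R1 ^ 2 * ε ^ (-2 : ℝ) := by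
  have hn0 : 0 ≤ ⌊R1 / ε⌋ := Int.floor_nonneg.2 (by positivity)
  have h1 : (((KF ⌊R1 / ε⌋).card : ℕ) : ℝ) = (2 * ((⌊R1 / ε⌋ : ℤ) : ℝ)) ^ 2 := by
    unfold KF
    rw [Finset.card_product, Int.card_Ico]
    have h2 : (((⌊R1 / ε⌋ - -⌊R1 / ε⌋).toNat : ℕ) : ℝ) = 2 * ((⌊R1 / ε⌋ : ℤ) : ℝ) := by
      have h3 : (((⌊R1 / ε⌋ - -⌊R1 / ε⌋).toNat : ℕ) : ℤ) = ⌊R1 / ε⌋ - -⌊R1 / ε⌋ :=
        Int.toNat_of_nonneg (by omega)
      have h4 : (((⌊R1 / ε⌋ - -⌊R1 / ε⌋).toNat : ℕ) : ℝ) =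
          (((⌊R1 / ε⌋ - -⌊R1 / ε⌋ : ℤ)) : ℝ) := by exact_mod_cast h3
      rw [h4]; push_cast; ring
    rw [Nat.cast_mul, h2]; ring
  rw [h1]
  have h5 : ((⌊R1 / ε⌋ : ℤ) : ℝ) ≤ R1 / ε := Int.floor_le _
  have h6 : (0 : ℝ) ≤ ((⌊R1 / ε⌋ : ℤ) : ℝ) := by exact_mod_cast hn0
  have h7 : ε ^ (-2 : ℝ) = (ε ^ 2)⁻¹ := by
    rw [Real.rpow_neg hε.le]
    congr 1
    exact_mod_cast Real.rpow_natCast ε 2
  rw [h7]
  calc (2 * ((⌊R1 / ε⌋ : ℤ) : ℝ)) ^ 2 ≤ (2 * (R1 / ε)) ^ 2 := by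
        apply pow_le_pow_left₀ (by positivity); linarith
    _ = 4 * R1 ^ 2 * (ε ^ 2)⁻¹ := by field_simp; ring

theorem M_bound {η ε : ℝ} (hε : 0 < ε) (h1 : ε < 1) (hη : 0 < η) :
    (4 : ℝ) ^ ⌊η * Real.log (1 / ε)⌋₊ * (⌊η * Real.log (1 / ε)⌋₊ : ℝ) ≤ ε ^ (-(3 * η)) := by
  set M := ⌊η * Real.log (1 / ε)⌋₊ with hM
  have hlog : 0 < Real.log (1 / ε) := Real.log_pos (by rw [lt_div_iff₀ hε]; linarith)
  have h2 : (M : ℝ) ≤ η * Real.log (1 / ε) := Nat.floor_le (by positivity)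
  have h3 : (M : ℝ) ≤ 4 ^ M := by exact_mod_cast (Nat.lt_pow_self (by norm_num : 1 < 4)).le
  have h4 : (4 : ℝ) ^ M * (M : ℝ) ≤ 16 ^ M := by
    calc (4 : ℝ) ^ M * (M : ℝ) ≤ 4 ^ M * 4 ^ M := mul_le_mul_of_nonneg_left h3 (by positivity)
      _ = 16 ^ M := by rw [← mul_pow]; norm_num
  have h5 : (16 : ℝ) ≤ Real.exp 3 := by
    have := Real.exp_one_gt_d9
    have h6 : Real.exp 3 = Real.exp 1 ^ 3 := by rw [← Real.exp_nat_mul]; norm_num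
    rw [h6]
    calc (16 : ℝ) ≤ 2.7 ^ 3 := by norm_num
      _ ≤ Real.exp 1 ^ 3 := pow_le_pow_left₀ (by norm_num) (by linarith) 3
  calc (4 : ℝ) ^ M * (M : ℝ) ≤ 16 ^ M := h4
    _ ≤ Real.exp 3 ^ M := pow_le_pow_left₀ (by norm_num) h5 M
    _ = Real.exp (3 * M) := by rw [← Real.exp_nat_mul]; ring_nf
    _ ≤ Real.exp (3 * (η * Real.log (1 / ε))) := Real.exp_le_exp.2 (by linarith)
    _ = ε ^ (-(3 * η)) := by
        rw [Real.rpow_def_of_pos hε, one_div, Real.log_inv]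
        congr 1; ring

theorem ev_rad {C : ℝ} (hC : 0 < C) : ∀ᶠ ε : ℝ in 𝓝[>] 0, rad C ε ≤ ε ^ (15 / 16 : ℝ) := by
  have h0 : ∀ᶠ ε : ℝ in 𝓝[>] 0, 0 < ε := eventually_mem_nhdsWithin
  have h1 : ∀ᶠ ε : ℝ in 𝓝[>] 0, ε < 1 :=
    nhdsWithin_le_nhds (eventually_lt_nhds (by norm_num : (0 : ℝ) < 1))
  have h2 : Tendsto (fun ε : ℝ => Real.log ε * ε ^ (1 / 8 : ℝ)) (𝓝[>] 0) (𝓝 0) :=
    tendsto_log_mul_rpow_nhdsGT_zero (by norm_num)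
  have h3 : ∀ᶠ ε : ℝ in 𝓝[>] 0, -(1 / C ^ 2) < Real.log ε * ε ^ (1 / 8 : ℝ) :=
    h2.eventually_const_lt (by have : 0 < 1 / C ^ 2 := by positivity
                               linarith)
  filter_upwards [h0, h1, h3] with ε e0 e1 e3
  unfold rad
  have hlog : 0 < Real.log (1 / ε) := Real.log_pos (by rw [lt_div_iff₀ e0]; linarith)
  have h4 : Real.log (1 / ε) * ε ^ (1 / 8 : ℝ) ≤ 1 / C ^ 2 := by
    rw [one_div, Real.log_inv]; linarith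
  have h5 : C ^ 2 * Real.log (1 / ε) ≤ (ε ^ (1 / 8 : ℝ))⁻¹ := by
    rw [le_inv_comm₀ (by positivity) (Real.rpow_pos_of_pos e0 _), inv_eq_one_div,
      le_div_iff₀ (by positivity)]
    rw [le_div_iff₀ (by positivity)] at h4
    linarith
  have h6 : C * √(Real.log (1 / ε)) ≤ (ε ^ (1 / 16 : ℝ))⁻¹ := by
    have h7 : ((ε ^ (1 / 16 : ℝ))⁻¹) ^ 2 = (ε ^ (1 / 8 : ℝ))⁻¹ := by
      rw [inv_pow, ← Real.rpow_natCast, ← Real.rpow_mul e0.le]; norm_num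
    have h8 : (C * √(Real.log (1 / ε))) ^ 2 = C ^ 2 * Real.log (1 / ε) := by
      rw [mul_pow, Real.sq_sqrt hlog.le]
    refine le_of_sq_le_sq ?_ (by positivity)
    rw [h7, h8]; exact h5
  calc C * ε * √(Real.log (1 / ε)) = ε * (C * √(Real.log (1 / ε))) := by ring
    _ ≤ ε * (ε ^ (1 / 16 : ℝ))⁻¹ := mul_le_mul_of_nonneg_left h6 e0.le
    _ = ε ^ (15 / 16 : ℝ) := by
        rw [← Real.rpow_neg e0.le]
        nth_rewrite 1 [← Real.rpow_one ε]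
        rw [← Real.rpow_add e0]; norm_num

end Crest.Agent.R143.Y9Ex831
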