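import Crest.Agent.R143.CircP_838
import Crest.Agent.R143.Y9E_831
import Crest.Agent.R143.M4U_991
import Crest.Agent.R143.DomD_722

/-!
# R143 (helper831): the one-arm bound `OA` from `RB`
-/

set_option autoImplicit false

noncomputable section

open scoped Classical

namespace Crest.Agent.R143.OAx831

open Set Filter Topology
open Crest.ProbabilityR.Voronoi
open Crest.Agent.R143.B0x346 Crest.Agent.R143.B0Dx346 Crest.Agent.R143.PP1x831
open Crest.Agent.R143.Y0x831 Crest.Agent.R143.Harx315 Crest.Agent.R143.RB0x838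
open Crest.Agent.R143.CircPx838 Crest.Agent.R143.Blkx838 Crest.Agent.R143.ToolWx838
open Crest.Agent.R143.ToolW3x838 Crest.Agent.R143.Locx922

variable {S : Finset ℂ} {N : Net ℂ}

lemma DE_of_Nb (hT : N.T = delT S) {x y : ℂ} (h : Nb N.toTrg x y) : DE S x y := by
  unfold Nb Trg.E at h
  rw [Finset.mem_union, Finset.mem_image, Finset.mem_image] at h
  rcases h with ⟨t, ht, he⟩ | ⟨t, ht, he⟩
  · rw [hT] at ht
    simp only [Prod.mk.injEq] at he
    exact Or.inl ⟨t.2.2, by rw [← he.1, ← he.2]; exact ht⟩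
  · rw [hT] at ht
    simp only [Prod.mk.injEq] at he
    exact Or.inr ⟨t.2.2, by rw [← he.1, ← he.2]; exact ht⟩

/-- the angle of a loop is constant along an edge which avoids it -/
lemma asum_step (hS : GP (S : Set ℂ)) {c : List ℂ} (hc : Loop S c) {x y : ℂ} (h : DE S x y)
    (hx : x ∉ c) (hy : y ∉ c) : asum x c = asum y c := by
  by_contra hne
  obtain ⟨s, hs, hs'⟩ := site_of_ne hS hc (q := [x, y]) (by
    intro p hp
    simp only [prs_cons, prs_one, List.mem_singleton] at hp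
    rw [hp]; exact h) (by simp) (by simpa using hne)
  simp only [List.mem_cons, List.not_mem_nil, or_false] at hs'
  rcases hs' with rfl | rfl
  · exact hx hs
  · exact hy hs

/-- a black circuit around `v` separates `v` from the white cluster of the arc -/
theorem no_touch (hS : GP (S : Set ℂ)) (hT : N.T = delT S) {β : Finset ℂ} {k : ZMod 3} {v : ℂ}
    {r : ℝ} {c : List ℂ} (hr : 0 < r) (hc : CircC S v r (innN N S \ β) c)
    (hex : 2 * r ≤ sup ((N.ex (k + 1)).2 - v)) :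
    ¬ Tch N.toTrg (Cl N.toTrg (wK N k (β : Set ℂ)) (N.ex (k + 1)).2) v := by
  have hw : ∀ x ∈ wK N k (β : Set ℂ), x ∉ c := by
    intro x hx hxc
    have h1 := hc.col x hxc
    rw [Finset.mem_sdiff] at h1
    rcases hx with hx | hx
    · exact (Finset.mem_filter.1 h1.1).2 (k + 1) hx
    · exact h1.2 (Finset.mem_coe.1 hx)
  have hcl : ∀ x ∈ Cl N.toTrg (wK N k (β : Set ℂ)) (N.ex (k + 1)).2,
      x ∈ wK N k (β : Set ℂ) ∧ asum x c = asum (N.ex (k + 1)).2 c := by
    rintro x ⟨h1, h2⟩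
    induction h2 with
    | refl => exact ⟨h1, rfl⟩
    | tail _ h3 ih =>
        refine ⟨h3.2, ?_⟩
        rw [← ih.2]
        exact (asum_step hS hc.loop (DE_of_Nb hT h3.1) (hw _ ih.1) (hw _ h3.2)).symm
  have h0 : asum (N.ex (k + 1)).2 c = 0 := hc.out hex
  have hv : asum v c = 2 * Real.pi := hc.wind v (by
    rw [sub_self]; unfold sup; simp [hr.le])
  have hvc : v ∉ c := by
    intro h
    have := hc.lo v h
    rw [sub_self] at this
    unfold sup at this
    simp at this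
    linarith
  have hpi := Real.pi_pos
  rintro (h | ⟨x, hx, hxc⟩)
  · have := (hcl v h).2
    rw [hv, h0] at this
    linarith
  · have h1 := hcl x hxc
    have h2 := asum_step hS hc.loop (DE_of_Nb hT hx) hvc (hw x h1.1)
    rw [hv, h1.2, h0] at h2
    linarith

/-! ### numbers -/

theorem nlog {y : ℝ} (hy : 1 ≤ y) : (2 : ℝ) ^ Nat.log 2 ⌊y⌋₊ ≤ y ∧
    Real.log y - 1 ≤ (Nat.log 2 ⌊y⌋₊ : ℝ) := by
  have h1 : 1 ≤ ⌊y⌋₊ := Nat.le_floor (by simpa using hy)
  constructor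
  · have h2 : 2 ^ Nat.log 2 ⌊y⌋₊ ≤ ⌊y⌋₊ := Nat.pow_log_le_self 2 (by omega)
    calc (2 : ℝ) ^ Nat.log 2 ⌊y⌋₊ = ((2 ^ Nat.log 2 ⌊y⌋₊ : ℕ) : ℝ) := by push_cast; rfl
      _ ≤ (⌊y⌋₊ : ℝ) := by exact_mod_cast h2
      _ ≤ y := Nat.floor_le (by linarith)
  · have h2 : ⌊y⌋₊ < 2 ^ (Nat.log 2 ⌊y⌋₊ + 1) := Nat.lt_pow_succ_log_self (by norm_num) _
    have h3 : y < (2 : ℝ) ^ (Nat.log 2 ⌊y⌋₊ + 1) := by
      have h4 : (⌊y⌋₊ : ℝ) + 1 ≤ (2 : ℝ) ^ (Nat.log 2 ⌊y⌋₊ + 1) := by exact_mod_cast h2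
      linarith [Nat.lt_floor_add_one y]
    have h5 : Real.log y ≤ (Nat.log 2 ⌊y⌋₊ + 1 : ℕ) * Real.log 2 := by
      rw [← Real.log_pow]
      exact Real.log_le_log (by linarith) h3.le
    have h6 : Real.log 2 ≤ 1 := by linarith [Real.log_two_lt_d9]
    have h7 : (0 : ℝ) ≤ ((Nat.log 2 ⌊y⌋₊ + 1 : ℕ) : ℝ) := by positivity
    have h8 : ((Nat.log 2 ⌊y⌋₊ + 1 : ℕ) : ℝ) * Real.log 2 ≤ ((Nat.log 2 ⌊y⌋₊ + 1 : ℕ) : ℝ) := by
      nlinarith
    push_cast at h5 h8 ⊢
    linarith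

/-- **the one-arm bound** -/
theorem oa (hRB : RB) : OA := by
  obtain ⟨Cr, c1, Kr, hCr, hc1, hKr, hno⟩ := no_circ_white hRB
  intro D δ hOK R1 C K a C4 hR1 hC hK ha hC4
  obtain ⟨dA, hdA, hA⟩ := DomDx722.arc D δ hOK
  set p := Real.exp (-Cr * (1 + 36 * C4)) with hp
  have hp0 : 0 < p := Real.exp_pos _
  have hp1 : p ≤ 1 := by
    rw [hp]; exact Real.exp_le_one_iff.2 (by nlinarith)
  refine ⟨p / 4, by positivity, ?_⟩
  set R3 := min (R1 / (8 * (Kr + 1))) (1 / 3) with hR3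
  have hR30 : 0 < R3 := lt_min (by positivity) (by norm_num)
  have ev0 : ∀ᶠ ε : ℝ in 𝓝[>] 0, 0 < ε := eventually_mem_nhdsWithin
  have ev1 : ∀ᶠ ε : ℝ in 𝓝[>] 0, ε < 1 / 2 :=
    nhdsWithin_le_nhds (eventually_lt_nhds (by norm_num : (0 : ℝ) < 1 / 2))
  have hlogt : Tendsto (fun ε : ℝ => Real.log (1 / ε)) (𝓝[>] 0) atTop := by
    simp_rw [one_div, Real.log_inv]
    exact tendsto_neg_atBot_atTop.comp Real.tendsto_log_nhdsGT_zero
  have evx : ∀ {e : ℝ}, 0 < e → ∀ {b : ℝ}, 0 < b → ∀ᶠ ε : ℝ in 𝓝[>] 0, ε ^ e ≤ b := by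
    intro e he b hb
    filter_upwards [Y9Ex831.ev_rpow_le he (1 / b)] with ε h
    rw [one_div, inv_mul_le_iff₀ hb, mul_one] at h
    exact h
  have evl : ∀ᶠ ε : ℝ in 𝓝[>] 0, ε * Real.log (1 / ε) ^ a ≤ ε ^ (1 / 2 : ℝ) := by
    have h1 : Tendsto (fun x : ℝ => x ^ a * Real.exp (-(1 / 2) * x)) atTop (𝓝 0) :=
      tendsto_rpow_mul_exp_neg_mul_atTop_nhds_zero a (1 / 2) (by norm_num)
    have h2 := (h1.comp hlogt).eventually_lt_const (zero_lt_one)
    filter_upwards [ev0, h2] with ε e0 e2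
    have h3 : Real.exp (-(1 / 2) * Real.log (1 / ε)) = ε ^ (1 / 2 : ℝ) := by
      have hl : Real.log (1 / ε) = -Real.log ε := by rw [one_div, Real.log_inv]
      rw [Real.rpow_def_of_pos e0, hl]; congr 1; ring
    simp only [Function.comp] at e2
    rw [h3] at e2
    have h4 : ε = ε ^ (1 / 2 : ℝ) * ε ^ (1 / 2 : ℝ) := by
      rw [← Real.rpow_add e0]; norm_num
    have h5 : 0 < ε ^ (1 / 2 : ℝ) := Real.rpow_pos_of_pos e0 _
    calc ε * Real.log (1 / ε) ^ a
        = ε ^ (1 / 2 : ℝ) * (Real.log (1 / ε) ^ a * ε ^ (1 / 2 : ℝ)) := by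
          nth_rewrite 1 [h4]; ring
      _ ≤ ε ^ (1 / 2 : ℝ) * 1 := mul_le_mul_of_nonneg_left e2.le h5.le
      _ = ε ^ (1 / 2 : ℝ) := mul_one _
  have evd : ∀ᶠ ε : ℝ in 𝓝[>] 0, rad C ε ≤ c1 * ε ^ (1 / 2 : ℝ) ∧
      2 * rad C ε ≤ ε ^ (1 / 2 : ℝ) := by
    filter_upwards [ev0, Y9Ex831.ev_rad hC, evx (by norm_num : (0 : ℝ) < 7 / 16) hc1,
      evx (by norm_num : (0 : ℝ) < 7 / 16) (by norm_num : (0 : ℝ) < 1 / 2)] with ε e0 e1 e2 e3
    have h4 : ε ^ (15 / 16 : ℝ) = ε ^ (7 / 16 : ℝ) * ε ^ (1 / 2 : ℝ) := by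
      rw [← Real.rpow_add e0]; norm_num
    have h5 : 0 < ε ^ (1 / 2 : ℝ) := Real.rpow_pos_of_pos e0 _
    rw [h4] at e1
    constructor
    · exact e1.trans (mul_le_mul_of_nonneg_right e2 h5.le)
    · have := mul_le_mul_of_nonneg_right e3 h5.le
      linarith
  have evr : ∀ {b : ℝ}, 0 < b → ∀ᶠ ε : ℝ in 𝓝[>] 0, rad C ε ≤ b := by
    intro b hb
    filter_upwards [Y9Ex831.ev_rad hC, evx (by norm_num : (0 : ℝ) < 15 / 16) hb] with ε e1 e2
    exact e1.trans e2
  have evn : ∀ᶠ ε : ℝ in 𝓝[>] 0, 1 / 4 * Real.log (1 / ε) ≤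
      Real.log (R3 / ε ^ (1 / 2 : ℝ)) - 1 := by
    filter_upwards [ev0, hlogt.eventually_ge_atTop (4 * (1 - Real.log R3))] with ε e0 e1
    have hl : Real.log (1 / ε) = -Real.log ε := by rw [one_div, Real.log_inv]
    rw [Real.log_div hR30.ne' (Real.rpow_pos_of_pos e0 _).ne', Real.log_rpow e0]
    rw [hl] at e1 ⊢
    linarith
  filter_upwards [ev0, ev1, evx (by norm_num : (0 : ℝ) < 1 / 2) hR30, evl, evd,
    evr hdA, evr (show 0 < D.L / 8 by have := hOK.Lpos; positivity),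
    evr (show 0 < R1 / 8 by positivity), evn, hlogt.eventually_gt_atTop 0]
    with ε e0 e1 e2 e3 e4 e5 e6 e7 e8 e9
  intro ω hG v hv hout hsub k
  set d := rad C ε with hd
  have hd0 : 0 < d := by rw [hd]; unfold rad; positivity
  set r := ε ^ (1 / 2 : ℝ) with hr
  have hr0 : 0 < r := Real.rpow_pos_of_pos e0 _
  have hL := hOK.Lpos
  obtain ⟨hN, hAOK, hthird⟩ := hA ε d _ ω e0 hd0 e5 hG.env
  set S := D.sites ε ω with hSdef
  set N := D.netS S with hNdef
  have hHol := Env.hol_sites hG.env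
  rw [← hSdef] at hHol
  have hWb : ∀ x, ‖x - v‖ ≤ R1 → x ∈ Metric.closedBall D.c (D.L - 2 * d) := by
    intro x hx
    have h1 : x ∈ Metric.closedBall v R1 := by rwa [mem_closedBall_iff_norm]
    exact Metric.closedBall_subset_closedBall (by linarith) (hsub h1)
  have hnotout : ∀ x, ‖x - v‖ ≤ R1 → x ∉ D.out := by
    intro x hx hxo
    have h1 : x ∈ Metric.closedBall v R1 := by rwa [mem_closedBall_iff_norm]
    have : x ∈ Metric.closedBall v R1 ∩ D.out := ⟨h1, hxo⟩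
    rw [hout] at this
    exact this
  have hinn : ∀ s ∈ S, ‖s - v‖ ≤ R1 / 2 → s ∈ innN N S := by
    intro s hs hsv
    refine hthird s hs ?_ ?_
    · rw [Set.eq_empty_iff_forall_notMem]
      rintro z ⟨hz, hzo⟩
      have h1 := cell_sub_ball hd0 hHol (hWb s (by linarith)) hz
      refine hnotout z ?_ hzo
      have h2 := norm_tri z s v
      linarith
    · intro x y hxy
      have h1 : ∀ b, ¬ hullE S s b ∧ ¬ hullE S b s := fun b =>
        not_hull hd0 hHol (hWb s (by linarith)) b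
      constructor
      · rintro rfl; exact (h1 y).1 hxy
      · rintro rfl; exact (h1 x).2 hxy
  set y := R3 / r with hy
  have hy1 : 1 ≤ y := by rw [hy, le_div_iff₀ hr0]; linarith
  set n := Nat.log 2 ⌊y⌋₊ with hn
  obtain ⟨n1, n2⟩ := nlog hy1
  rw [← hn] at n1 n2
  have hjr : ∀ j ∈ Finset.range n, r ≤ 2 ^ j * r ∧ (2 : ℝ) ^ j * r ≤ R3 := by
    intro j hj
    have hjn : (2 : ℝ) ^ j ≤ 2 ^ n :=
      pow_le_pow_right₀ (by norm_num) (Finset.mem_range.1 hj).le
    have h1 : (1 : ℝ) ≤ 2 ^ j := one_le_pow₀ (by norm_num)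
    refine ⟨by nlinarith, ?_⟩
    calc (2 : ℝ) ^ j * r ≤ y * r := mul_le_mul_of_nonneg_right (hjn.trans n1) hr0.le
      _ = R3 := by rw [hy]; field_simp
  have hR3a : Kr * R3 ≤ R1 / 8 ∧ R3 ≤ R1 / 8 := by
    have h1 : R3 ≤ R1 / (8 * (Kr + 1)) := min_le_left _ _
    have h2 : R3 * (8 * (Kr + 1)) ≤ R1 := by rwa [le_div_iff₀ (by positivity)] at h1
    constructor <;> nlinarith
  have hR3b : R3 ≤ 1 / 3 := min_le_right _ _
  have key := hno S v r d (36 * C4) hr0 (by positivity) (Finset.range n) ?_ ?_ e4.1 (innN N S)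
    (Finset.filter_subset _ _) ?_
  · -- conclusion
    have hcard : (Finset.range n).card = n := Finset.card_range n
    rw [hcard] at key
    have hincl : pr (innN N S) (fun β => Tch N.toTrg (Cl N.toTrg (wK N k (β : Set ℂ))
        (N.ex (k + 1)).2) v) ≤
        pr (innN N S) (fun β => ∀ j ∈ Finset.range n,
          ¬ ∃ c, CircC S v (2 ^ j * r) (innN N S \ β) c) := by
      refine pr_mono fun β _ hT j hj => ?_
      rintro ⟨c, hc⟩
      refine no_touch hN.gp hN.tri (k := k) (lt_of_lt_of_le hr0 (hjr j hj).1) hc ?_ hT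
      have hhull := hN.hex (k + 1)
      have h1 : (N.ex (k + 1)).2 ∉ Metric.closedBall D.c (D.L - 2 * d) := by
        intro hW
        exact (not_hull hd0 hHol hW (N.ex (k + 1)).1).2 hhull
      have h2 : R1 < ‖(N.ex (k + 1)).2 - v‖ := by
        by_contra hlt
        rw [not_lt] at hlt
        exact h1 (hWb _ hlt)
      have h3 := norm_le_sup ((N.ex (k + 1)).2 - v)
      have h4 := (hjr j hj).2
      linarith [hR3a.2]
    have hpow : (1 - p) ^ n ≤ ε ^ (p / 4) := by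
      have h1 : (1 - p) ^ n ≤ Real.exp (-p) ^ n :=
        pow_le_pow_left₀ (by linarith) (by linarith [Real.add_one_le_exp (-p)]) n
      refine h1.trans ?_
      rw [← Real.exp_nat_mul, Real.rpow_def_of_pos e0]
      apply Real.exp_le_exp.2
      have h2 : 1 / 4 * Real.log (1 / ε) ≤ (n : ℝ) := e8.trans n2
      have hl : Real.log (1 / ε) = -Real.log ε := by rw [one_div, Real.log_inv]
      rw [hl] at h2
      nlinarith
    have hfin := (hincl.trans key).trans hpow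
    rw [pr_le_iff] at hfin
    unfold nb fl at hfin
    rw [card_coe_filter (innN N S).powerset (fun β => Tch N.toTrg (Cl N.toTrg (wK N k β)
      (N.ex (k + 1)).2) v)]
    exact hfin
  · -- density
    intro j hj
    refine ⟨hN.gp, hd0, fun z hz => ?_⟩
    have h1 : ‖z - v‖ ≤ R1 := by
      have h2 := (hjr j hj).2
      have h3 : Kr * ((2 : ℝ) ^ j * r) ≤ Kr * R3 := mul_le_mul_of_nonneg_left h2 hKr.le
      linarith [hR3a.1]
    exact hHol z (hWb z h1) z (by rw [sub_self, norm_zero]; exact hd0.le)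
  · -- mesh
    intro j hj z hz
    obtain ⟨h1, h2⟩ := hjr j hj
    set b := (2 : ℝ) ^ j * r with hb
    have hzv : ‖z - v‖ ≤ R1 / 8 := by
      have h3 : Kr * b ≤ Kr * R3 := mul_le_mul_of_nonneg_left h2 hKr.le
      linarith [hR3a.1]
    have hin : ∀ x ∈ Metric.closedBall z b, x ∈ Metric.closedBall D.c (D.L - 2 * d) := by
      intro x hx
      rw [mem_closedBall_iff_norm] at hx
      refine hWb x ?_
      have := norm_tri x z v
      linarith [hR3a.2]
    have hM := M4Ux991.sum_V' hd0 hG.env (V := Metric.closedBall z b) (W := Metric.ball z (3 * b))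
      (C := C4 * (3 * b) ^ 2) hin ?_ (by positivity) ?_
    · refine hM.trans (le_of_eq ?_)
      ring
    · intro x hx w hw
      rw [mem_closedBall_iff_norm] at hx
      rw [mem_ball_iff_norm] at hw ⊢
      have := norm_tri w x z
      linarith [e4.2]
    · refine hG.diam z ?_ (3 * b) (by linarith) (by linarith)
      have h3 := hWb z (by linarith)
      exact Metric.closedBall_subset_closedBall (by linarith) h3
  · -- the sites of the annuli are free
    intro j hj s hs h1 h2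
    refine hinn s hs ?_
    have h3 := norm_le_sup (s - v)
    have h4 := (hjr j hj).2
    linarith [hR3a.2]

end Crest.Agent.R143.OAx831
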