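import Crest.Agent.R143.WLoc3_713
import Crest.Agent.R143.FinM_609

/-!
# Row 143 (S0194), CORE-C block V, leaf V3 (helper713): measurability of the stopped segment sums

Everything as a function of the coloured configuration `X : Set (ℂ × Bool)` (831's `cfg ε ω`).

* `sX X`, `cX X` : sites and colours of `X`
* `U3` : the third site of a directed side is unique
* `ArrS`, `CntS` : as `Arr`, `Cnt`, with all states at the times `< n` in `sd S` (automatic for an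
  occupied start if the hull is wired: `arrS_iff`, `cntS_iff`)
* `PIso.cnt` : transport of `CntS` along the isomorphisms `PIso` of 609
* `zS` : the stopped segment sum with start darts `St X` and target `Tg X`; `zS_fme` : it is
  measurable in the points; `zS_eq` : it is `Zst`; `zS_cut` : it is a function of `X ∩ ovr R`
-/

set_option autoImplicit false
set_option linter.all false

noncomputable section

open scoped Classical

namespace Crest.Agent.R143.WLocx713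

open Set MeasureTheory
open Crest.Agent.R143.B0x346 Crest.Agent.R143.DelGx806 Crest.Agent.R143.DelRx806
  Crest.Agent.R143.JColx54
open Crest.Agent.R143.Frame1x395 Crest.Agent.R143.Frame3x395 Crest.Agent.R143.Frame8x395
  Crest.Agent.R143.Frame10x395 Crest.Agent.R143.Locx922
open Crest.Agent.R143.Frame5x395 (sd mem_sd th th_spec)
open Crest.Agent.R143.PP0x831 Crest.Agent.R143.Poisx304 Crest.Agent.R143.Janx304
open Crest.Agent.R143.Prodx609 Crest.Agent.R143.FinMx609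

variable {S S' : Finset ℂ} {W : Set ℂ} {d : ℝ} {χ χ' : ℂ → ZMod 2}

/-! ### safe versions -/

/-- first arrival with live states before -/
def ArrS (S : Finset ℂ) (χ : ℂ → ZMod 2) (W : Set ℂ) (T : Set (ℂ × ℂ)) (e : ℂ × ℂ) (n : ℕ) : Prop :=
  Arr S χ W T e n ∧ ∀ i < n, (nx S χ)^[i] e ∈ sd S

theorem arrS_iff (hS : GP (S : Set ℂ)) (hχ : HullC S χ) {T : Set (ℂ × ℂ)} {e : ℂ × ℂ}
    (he : Occ S χ e) {n : ℕ} : ArrS S χ W T e n ↔ Arr S χ W T e n :=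
  ⟨fun h => h.1, fun h => ⟨h, fun i _ => (he.it hS hχ i).1⟩⟩

/-- counted gap of the stopped walk, safe version -/
def CntS (S : Finset ℂ) (χ : ℂ → ZMod 2) (W : Set ℂ) (T : Set (ℂ × ℂ)) (e : ℂ × ℂ)
    (t : ℂ × ℂ × ℂ) : Prop :=
  ∃ n, ArrS S χ W T e n ∧ ∃ i < n, (nx S χ)^[i] e = (t.1, t.2.1) ∧ t.2.2 = th S (t.1, t.2.1) ∧
    lg S χ (t.1, t.2.1) ∧ Np S χ e n i

theorem cntS_iff (hS : GP (S : Set ℂ)) (hχ : HullC S χ) {T : Set (ℂ × ℂ)} {e : ℂ × ℂ}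
    (he : Occ S χ e) {t : ℂ × ℂ × ℂ} : CntS S χ W T e t ↔ Cnt S χ W T e t := by
  unfold CntS Cnt
  simp only [arrS_iff hS hχ he]

theorem cntS_mem {T : Set (ℂ × ℂ)} {e : ℂ × ℂ} {t : ℂ × ℂ × ℂ} (h : CntS S χ W T e t) :
    t ∈ delT S := by
  obtain ⟨n, hn, i, hi, h1, h2, -⟩ := h
  have h3 := hn.2 i hi
  rw [h1] at h3
  have h4 := th_spec h3
  rw [← h2] at h4
  exact h4

/-- locality of the safe arrival: the second configuration may have a mixed hull -/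
theorem arrS_loc (hS : GP (S : Set ℂ)) (hS' : GP (S' : Set ℂ)) (hχ : HullC S χ) (hd : 0 < d)
    (hH : Hol (S : Set ℂ) W d) (hA : Agr (S : Set ℂ) (S' : Set ℂ) W (2 * d))
    (hc : CAgr S χ χ' W (2 * d)) {T : Set (ℂ × ℂ)} {e : ℂ × ℂ} (he : Occ S χ e) (n : ℕ) :
    ArrS S' χ' W T e n ↔ ArrS S χ W T e n := by
  unfold ArrS
  rw [arr_loc hS hS' hχ hd hH hA hc he n]
  refine and_congr_right fun hn => ?_
  have hW : ∀ i < n, ((nx S χ)^[i] e).1 ∈ W := fun i hi => (hn.2 i hi).2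
  constructor
  · intro _ i _
    exact (he.it hS hχ i).1
  · intro _ i hi
    rw [it_loc hS hS' hχ hd hH hA hc he hW i hi.le]
    exact (th_loc hS' hd hH hA (he.it hS hχ i).1 (Or.inl (hW i hi))).1

theorem cntS_loc (hS : GP (S : Set ℂ)) (hS' : GP (S' : Set ℂ)) (hχ : HullC S χ) (hd : 0 < d)
    (hH : Hol (S : Set ℂ) W d) (hA : Agr (S : Set ℂ) (S' : Set ℂ) W (2 * d))
    (hc : CAgr S χ χ' W (2 * d)) {T : Set (ℂ × ℂ)} {e : ℂ × ℂ} (he : Occ S χ e)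
    (t : ℂ × ℂ × ℂ) : CntS S' χ' W T e t ↔ CntS S χ W T e t := by
  have h1 := cnt_loc hS hS' hχ hd hH hA hc (T := T) he t
  have h2 := fun n => arrS_loc hS hS' hχ hd hH hA hc (T := T) he n
  have h3 := fun n => arr_loc hS hS' hχ hd hH hA hc (T := T) he n
  rw [cntS_iff hS hχ he, ← h1]
  unfold CntS Cnt
  refine exists_congr fun n => ?_
  rw [h2 n, h3 n, arrS_iff hS hχ he]

/-! ### configurations -/

/-- the sites as a finite set -/
def sX (X : Set (ℂ × Bool)) : Finset ℂ := if h : (ps X).Finite then h.toFinset else ∅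

/-- the colours -/
def cX (X : Set (ℂ × Bool)) (v : ℂ) : ZMod 2 := if (v, true) ∈ X then 1 else 0

theorem coe_sX {X : Set (ℂ × Bool)} (hX : X.Finite) : (sX X : Set ℂ) = ps X := by
  have h : (ps X).Finite := hX.image _
  unfold sX
  rw [dif_pos h, Set.Finite.coe_toFinset]

theorem mem_sX {X : Set (ℂ × Bool)} (hX : X.Finite) {v : ℂ} : v ∈ sX X ↔ v ∈ ps X := by
  rw [← Finset.mem_coe, coe_sX hX]

theorem del_sX {X : Set (ℂ × Bool)} (hX : X.Finite) {a b c : ℂ} :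
    (a, b, c) ∈ delT (sX X) ↔ Del (ps X) a b c := by
  rw [mem_delT, coe_sX hX]

theorem ps_of_del {X : Set (ℂ × Bool)} (hX : X.Finite) {a b c : ℂ} (h : (a, b, c) ∈ delT (sX X)) :
    a ∈ ps X ∧ b ∈ ps X ∧ c ∈ ps X := by
  have h1 := (del_sX hX).1 h
  exact ⟨h1.1, h1.2.1, h1.2.2.1⟩

/-- the third site is unique -/
def U3 (S : Finset ℂ) : Prop :=
  ∀ a b c c' : ℂ, (a, b, c) ∈ delT S → (a, b, c') ∈ delT S → c = c'

theorem u3_of_gp (hS : GP (S : Set ℂ)) : U3 S := (g1 S hS).2.1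

theorem U3.th_eq (h : U3 S) {a b c : ℂ} (hc : (a, b, c) ∈ delT S) : th S (a, b) = c :=
  h a b _ _ (th_spec (e := (a, b)) (mem_sd.2 ⟨c, hc⟩)) hc

section transport

variable {ι κ : Type*} [Finite ι] [Finite κ] {U : ι → Set ℂ} {R : κ → ℂ × ℂ × ℂ → Prop}
  {X X' : Set (ℂ × Bool)} {e : ℂ → ℂ}

theorem iso_del (hX : X.Finite) (hX' : X'.Finite) (he : PIso U R X X' e) {a b c : ℂ}
    (ha : a ∈ ps X) (hb : b ∈ ps X) (hc : c ∈ ps X) :
    (a, b, c) ∈ delT (sX X) ↔ (e a, e b, e c) ∈ delT (sX X') := by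
  rw [del_sX hX, del_sX hX', he.del a ha b hb c hc]

theorem iso_col (he : PIso U R X X' e) {a : ℂ} (ha : a ∈ ps X) : cX X' (e a) = cX X a := by
  unfold cX
  have := he.col a ha true
  simp only [this]

theorem iso_u3 (hX : X.Finite) (hX' : X'.Finite) (he : PIso U R X X' e) (h : U3 (sX X)) :
    U3 (sX X') := by
  intro a b c c' h1 h2
  obtain ⟨ha, hb, hc⟩ := ps_of_del hX' h1
  obtain ⟨-, -, hc'⟩ := ps_of_del hX' h2
  obtain ⟨a, qa, rfl⟩ := he.bij.surjOn ha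
  obtain ⟨b, qb, rfl⟩ := he.bij.surjOn hb
  obtain ⟨c, qc, rfl⟩ := he.bij.surjOn hc
  obtain ⟨c', qc', rfl⟩ := he.bij.surjOn hc'
  rw [h a b c c' ((iso_del hX hX' he qa qb qc).2 h1) ((iso_del hX hX' he qa qb qc').2 h2)]

/-- image of a state -/
def mp (e : ℂ → ℂ) (p : ℂ × ℂ) : ℂ × ℂ := (e p.1, e p.2)

theorem sd_ps (hX : X.Finite) {p : ℂ × ℂ} (hp : p ∈ sd (sX X)) : p.1 ∈ ps X ∧ p.2 ∈ ps X := by
  obtain ⟨c, hc⟩ := mem_sd.1 hp
  obtain ⟨h1, h2, -⟩ := ps_of_del hX hc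
  exact ⟨h1, h2⟩

theorem iso_th (hX : X.Finite) (hX' : X'.Finite) (he : PIso U R X X' e) (h : U3 (sX X))
    {p : ℂ × ℂ} (hp : p ∈ sd (sX X)) :
    mp e p ∈ sd (sX X') ∧ th (sX X') (mp e p) = e (th (sX X) p) ∧ th (sX X) p ∈ ps X := by
  obtain ⟨a, b⟩ := p
  have h1 := th_spec hp
  obtain ⟨ha, hb, hc⟩ := ps_of_del hX h1
  have h2 := (iso_del hX hX' he ha hb hc).1 h1
  exact ⟨mem_sd.2 ⟨_, h2⟩, (iso_u3 hX hX' he h).th_eq h2, hc⟩

theorem iso_sd (hX : X.Finite) (hX' : X'.Finite) (he : PIso U R X X' e) {p : ℂ × ℂ}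
    (h1 : p.1 ∈ ps X) (h2 : p.2 ∈ ps X) (hp : mp e p ∈ sd (sX X')) : p ∈ sd (sX X) := by
  obtain ⟨c, hc⟩ := mem_sd.1 hp
  obtain ⟨-, -, h3⟩ := ps_of_del hX' hc
  obtain ⟨c, hc', rfl⟩ := he.bij.surjOn h3
  exact mem_sd.2 ⟨c, (iso_del hX hX' he h1 h2 hc').2 hc⟩

theorem iso_lg (hX : X.Finite) (hX' : X'.Finite) (he : PIso U R X X' e) (h : U3 (sX X))
    {p : ℂ × ℂ} (hp : p ∈ sd (sX X)) : lg (sX X') (cX X') (mp e p) ↔ lg (sX X) (cX X) p := by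
  obtain ⟨-, h2, h3⟩ := iso_th hX hX' he h hp
  unfold lg
  rw [h2, iso_col he h3]
  show cX X' (e p.2) + _ = 1 ↔ _
  rw [iso_col he (sd_ps hX hp).2]

theorem iso_nx (hX : X.Finite) (hX' : X'.Finite) (he : PIso U R X X' e) (h : U3 (sX X))
    {p : ℂ × ℂ} (hp : p ∈ sd (sX X)) :
    nx (sX X') (cX X') (mp e p) = mp e (nx (sX X) (cX X) p) ∧
      (nx (sX X) (cX X) p).1 ∈ ps X ∧ (nx (sX X) (cX X) p).2 ∈ ps X := by
  obtain ⟨-, h2, h3⟩ := iso_th hX hX' he h hp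
  have h4 := iso_lg hX hX' he h hp
  obtain ⟨h5, h6⟩ := sd_ps hX hp
  unfold lg at h4
  unfold nx
  by_cases hc : cX X p.2 + cX X (th (sX X) p) = 1
  · rw [if_pos hc, if_pos (h4.2 hc), h2]
    exact ⟨rfl, h3, h6⟩
  · rw [if_neg hc, if_neg (fun h => hc (h4.1 h)), h2]
    exact ⟨rfl, h5, h3⟩

theorem iso_it (hX : X.Finite) (hX' : X'.Finite) (he : PIso U R X X' e) (h : U3 (sX X))
    {p : ℂ × ℂ} (h1 : p.1 ∈ ps X) (h2 : p.2 ∈ ps X) {n : ℕ}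
    (hn : ∀ i < n, (nx (sX X) (cX X))^[i] p ∈ sd (sX X)) :
    ∀ i ≤ n, (nx (sX X') (cX X'))^[i] (mp e p) = mp e ((nx (sX X) (cX X))^[i] p) ∧
      ((nx (sX X) (cX X))^[i] p).1 ∈ ps X ∧ ((nx (sX X) (cX X))^[i] p).2 ∈ ps X := by
  intro i
  induction i with
  | zero => intro _; exact ⟨rfl, h1, h2⟩
  | succ i ih =>
    intro hi
    obtain ⟨e1, e2, e3⟩ := ih (by omega)
    rw [Function.iterate_succ_apply', Function.iterate_succ_apply', e1]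
    exact iso_nx hX hX' he h (hn i (by omega))

/-- a target which is transported -/
def TInv (U : ι → Set ℂ) (R : κ → ℂ × ℂ × ℂ → Prop) (Tg : Set (ℂ × Bool) → Set (ℂ × ℂ)) : Prop :=
  ∀ X X' : Set (ℂ × Bool), X.Finite → X'.Finite → ∀ e, PIso U R X X' e →
    ∀ p : ℂ × ℂ, p.1 ∈ ps X → p.2 ∈ ps X → (p ∈ Tg X ↔ mp e p ∈ Tg X')

theorem iso_arr (hX : X.Finite) (hX' : X'.Finite) (he : PIso U R X X' e) (h : U3 (sX X))
    {a : ι} {Tg : Set (ℂ × Bool) → Set (ℂ × ℂ)} (hT : TInv U R Tg)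
    {p : ℂ × ℂ} (h1 : p.1 ∈ ps X) (h2 : p.2 ∈ ps X) {n : ℕ}
    (hn : ArrS (sX X) (cX X) (U a) (Tg X) p n) :
    ArrS (sX X') (cX X') (U a) (Tg X') (mp e p) n := by
  have h3 := iso_it hX hX' he h h1 h2 hn.2
  refine ⟨⟨?_, fun i hi => ⟨?_, ?_⟩⟩, fun i hi => ?_⟩
  · rw [(h3 n le_rfl).1]
    exact (hT X X' hX hX' e he _ (h3 n le_rfl).2.1 (h3 n le_rfl).2.2).1 hn.1.1
  · rw [(h3 i hi.le).1]
    intro hc
    exact (hn.1.2 i hi).1
      ((hT X X' hX hX' e he _ (h3 i hi.le).2.1 (h3 i hi.le).2.2).2 hc)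
  · rw [(h3 i hi.le).1]
    exact (he.loc _ (h3 i hi.le).2.1 a).1 (hn.1.2 i hi).2
  · rw [(h3 i hi.le).1]
    exact (iso_th hX hX' he h (hn.2 i hi)).1

theorem iso_np (hX : X.Finite) (hX' : X'.Finite) (he : PIso U R X X' e) (h : U3 (sX X))
    {p : ℂ × ℂ} (h1 : p.1 ∈ ps X) (h2 : p.2 ∈ ps X) {n : ℕ}
    (hn : ∀ i < n, (nx (sX X) (cX X))^[i] p ∈ sd (sX X)) {i : ℕ} (hi : i < n)
    (hp : Np (sX X) (cX X) p n i) : Np (sX X') (cX X') (mp e p) n i := by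
  have h3 := iso_it hX hX' he h h1 h2 hn
  intro u hu v hv hvn hc
  rw [(h3 u (by omega)).1, (h3 v hvn).1] at hc
  exact hp u hu v hv hvn (he.bij.injOn (h3 u (by omega)).2.1 (h3 v hvn).2.1 hc)

/-- **transport of the counted gaps** -/
theorem iso_cnt (hX : X.Finite) (hX' : X'.Finite) (he : PIso U R X X' e) (h : U3 (sX X))
    {a : ι} {Tg : Set (ℂ × Bool) → Set (ℂ × ℂ)} (hT : TInv U R Tg)
    {p : ℂ × ℂ} (h1 : p.1 ∈ ps X) (h2 : p.2 ∈ ps X) {t : ℂ × ℂ × ℂ}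
    (ht : CntS (sX X) (cX X) (U a) (Tg X) p t) :
    CntS (sX X') (cX X') (U a) (Tg X') (mp e p) (e t.1, e t.2.1, e t.2.2) := by
  obtain ⟨n, hn, i, hi, e1, e2, e3, e4⟩ := ht
  have h3 := iso_it hX hX' he h h1 h2 hn.2
  have h4 : (t.1, t.2.1) ∈ sd (sX X) := e1 ▸ hn.2 i hi
  obtain ⟨-, h5, -⟩ := iso_th hX hX' he h h4
  refine ⟨n, iso_arr hX hX' he h hT h1 h2 hn, i, hi, ?_, ?_, ?_, iso_np hX hX' he h h1 h2 hn.2 hi e4⟩
  · rw [(h3 i hi.le).1, e1]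
    rfl
  · show e t.2.2 = th (sX X') (mp e (t.1, t.2.1))
    rw [h5, e2]
  · exact (iso_lg hX hX' he h h4).2 e3

/-- start darts which are transported -/
def SInv (U : ι → Set ℂ) (R : κ → ℂ × ℂ × ℂ → Prop) (St : Set (ℂ × Bool) → ℂ × ℂ → Prop) : Prop :=
  (∀ X p, St X p → p.1 ∈ ps X ∧ p.2 ∈ ps X) ∧
  ∀ X X' : Set (ℂ × Bool), X.Finite → X'.Finite → ∀ e, PIso U R X X' e →
    ∀ p : ℂ × ℂ, St X p → St X' (mp e p)

end transport

/-! ### the stopped segment sum of a configuration -/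

/-- counted gaps -/
def pS (W : Set ℂ) (St : Set (ℂ × Bool) → ℂ × ℂ → Prop) (Tg : Set (ℂ × Bool) → Set (ℂ × ℂ))
    (X : Set (ℂ × Bool)) (t : ℂ × ℂ × ℂ) : Prop :=
  X.Finite ∧ U3 (sX X) ∧ ∃ p, St X p ∧ CntS (sX X) (cX X) W (Tg X) p t

/-- **the stopped segment sum** with start darts `St` and target `Tg` -/
def zS (f : ℂ × ℂ × ℂ → ℂ) (W : Set ℂ) (St : Set (ℂ × Bool) → ℂ × ℂ → Prop)
    (Tg : Set (ℂ × Bool) → Set (ℂ × ℂ)) (X : Set (ℂ × Bool)) : ℂ :=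
  ∑ᶠ (t : ℂ × ℂ × ℂ) (_ : pS W St Tg X t), f t

section meas

variable {ι κ : Type*} [Finite ι] [Finite κ] {U : ι → Set ℂ} {R : κ → ℂ × ℂ × ℂ → Prop}
  {St : Set (ℂ × Bool) → ℂ × ℂ → Prop} {Tg : Set (ℂ × Bool) → Set (ℂ × ℂ)}

theorem pS_mem {X : Set (ℂ × Bool)} {t : ℂ × ℂ × ℂ} (h : pS W St Tg X t) :
    t.1 ∈ ps X ∧ t.2.1 ∈ ps X ∧ t.2.2 ∈ ps X := by
  obtain ⟨hX, -, p, -, h⟩ := h
  exact ps_of_del hX (cntS_mem h)

/-- **measurability** -/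
theorem zS_fme (hU : ∀ a, MeasurableSet (U a)) (hR : ∀ a, MeasurableSet {t | R a t}) {a : ι}
    (hS : SInv U R St) (hT : TInv U R Tg) {f : ℂ × ℂ × ℂ → ℂ} (hf : Measurable f) :
    FMe (zS f (U a) St Tg) := by
  refine fme_sum hU hR (P := pS (U a) St Tg) (fun X t h => pS_mem h) ?_ hf
  rintro X X' hX hX' e he x hx y hy w hw ⟨-, h3, p, hp, h⟩
  refine ⟨hX', iso_u3 hX hX' he h3, mp e p, hS.2 X X' hX hX' e he p hp, ?_⟩
  exact iso_cnt hX hX' he h3 hT (hS.1 X p hp).1 (hS.1 X p hp).2 h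

end meas

section eval

variable {St : Set (ℂ × Bool) → ℂ × ℂ → Prop} {Tg : Set (ℂ × Bool) → Set (ℂ × ℂ)}

/-- value of the sum if there is exactly one start dart -/
theorem zS_one {X : Set (ℂ × Bool)} (hX : X.Finite) (h3 : U3 (sX X)) {p : ℂ × ℂ} (hp : St X p)
    (hu : ∀ q, St X q → q = p) (f : ℂ × ℂ × ℂ → ℂ) :
    zS f W St Tg X =
      ∑ t ∈ delT (sX X), if CntS (sX X) (cX X) W (Tg X) p t then f t else 0 := by
  unfold zS
  rw [← Finset.sum_filter, ← finsum_mem_coe_finset]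
  refine finsum_congr fun t => finsum_congr_Prop ?_ fun _ => rfl
  rw [Finset.mem_coe, Finset.mem_filter]
  apply propext
  constructor
  · rintro ⟨-, -, q, hq, h⟩
    rw [hu q hq] at h
    exact ⟨cntS_mem h, h⟩
  · rintro ⟨-, h⟩
    exact ⟨hX, h3, p, hp, h⟩

/-- **it is `Zst`** -/
theorem zS_eq {X : Set (ℂ × Bool)} (hX : X.Finite) (hS : GP (ps X)) (hχ : HullC (sX X) (cX X))
    {p : ℂ × ℂ} (hp : St X p) (hu : ∀ q, St X q → q = p) (ho : Occ (sX X) (cX X) p)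
    (f : ℂ × ℂ × ℂ → ℂ) :
    zS f W St Tg X = Zst (sX X) (cX X) (fun a b c => f (a, b, c)) W (Tg X) p := by
  have hS' : GP (sX X : Set ℂ) := by rw [coe_sX hX]; exact hS
  rw [zS_one hX (u3_of_gp hS') hp hu, zst_sum hS' hχ _ ho]
  refine Finset.sum_congr rfl fun t _ => ?_
  rw [cntS_iff hS' hχ ho]

theorem ps_inter {X : Set (ℂ × Bool)} {R : Set ℂ} : ps (X ∩ ovr R) = ps X ∩ R := by
  ext v
  simp only [ps, ovr, mem_image, mem_inter_iff]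
  constructor
  · rintro ⟨x, ⟨h1, h2⟩, rfl⟩
    exact ⟨⟨x, h1, rfl⟩, h2⟩
  · rintro ⟨⟨x, h1, rfl⟩, h2⟩
    exact ⟨x, ⟨h1, h2⟩, rfl⟩

theorem cX_inter {X : Set (ℂ × Bool)} {R : Set ℂ} {v : ℂ} (hv : v ∈ R) :
    cX (X ∩ ovr R) v = cX X v := by
  unfold cX
  have : (v, true) ∈ X ∩ ovr R ↔ (v, true) ∈ X := ⟨fun h => h.1, fun h => ⟨h, hv⟩⟩
  simp only [this]

/-- **the stopped segment sum is a function of the configuration in `R`** -/
theorem zS_cut {X : Set (ℂ × Bool)} (hX : X.Finite) (hS : GP (ps X))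
    (hχ : HullC (sX X) (cX X)) (hd : 0 < d) (hH : Hol (ps X) W d) {R : Set ℂ}
    (hR : ∀ w ∈ W, ∀ s, ‖s - w‖ < 2 * d → s ∈ R)
    (hSt : ∀ p, St (X ∩ ovr R) p ↔ St X p) (hTg : Tg (X ∩ ovr R) = Tg X)
    (ho : ∀ p, St X p → Occ (sX X) (cX X) p) (f : ℂ × ℂ × ℂ → ℂ) :
    zS f W St Tg (X ∩ ovr R) = zS f W St Tg X := by
  have hS' : GP (sX X : Set ℂ) := by rw [coe_sX hX]; exact hS
  have hY : (X ∩ ovr R).Finite := hX.subset inter_subset_left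
  have hc : (sX (X ∩ ovr R) : Set ℂ) = ps X ∩ R := by rw [coe_sX hY, ps_inter]
  have hSY : GP (sX (X ∩ ovr R) : Set ℂ) := by
    rw [hc]
    exact Locx922.GP.mono hS inter_subset_left
  have hH' : Hol (sX X : Set ℂ) W d := by rw [coe_sX hX]; exact hH
  have hA : Agr (sX X : Set ℂ) (sX (X ∩ ovr R) : Set ℂ) W (2 * d) := by
    intro w hw s hs
    rw [hc, coe_sX hX]
    exact ⟨fun h => ⟨h, hR w hw s hs⟩, fun h => h.1⟩
  have hC : CAgr (sX X) (cX X) (cX (X ∩ ovr R)) W (2 * d) := by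
    intro w hw v _ hvw
    rw [cX_inter (hR w hw v hvw)]
  unfold zS
  refine finsum_congr fun t => finsum_congr_Prop ?_ fun _ => rfl
  apply propext
  constructor
  · rintro ⟨-, -, p, hp, h⟩
    have hp' := (hSt p).1 hp
    rw [hTg] at h
    exact ⟨hX, u3_of_gp hS', p, hp', (cntS_loc hS' hSY hχ hd hH' hA hC (ho p hp') t).1 h⟩
  · rintro ⟨-, -, p, hp, h⟩
    refine ⟨hY, u3_of_gp hSY, p, (hSt p).2 hp, ?_⟩
    rw [hTg]
    exact (cntS_loc hS' hSY hχ hd hH' hA hC (ho p hp) t).2 h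

end eval

end Crest.Agent.R143.WLocx713
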