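import Crest.Agent.R143.Spl3_117
import Crest.Agent.R143.MassP_304
import Crest.Agent.R143.WLoc4_713

/-!
# Row 143 (S0194): the closed block of a ring of gates is a macroscopic block of the sample
(helper416)

* `CX` : the configuration `x` of the closed map comes from the colours of the coloured set `X`
* `blk_PsC` : a macroscopic block inside `U` has `‖charge‖² ≤ PsC κ U X` (304)
* `ring_PsC` : the ring of 117 (`ring_main`): `‖∑ ZZ k‖² ≤ PsC κ U X`
* `lint_ring` : second moment of the charge of the ring, on any event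
-/

set_option autoImplicit false

noncomputable section

open scoped Classical

namespace Crest.Agent.R143.OctBx416

open MeasureTheory Set Filter Topology
open Crest.ProbabilityR.Voronoi
open Crest.Agent.R143.B0x346 Crest.Agent.R143.SumScx302 Crest.Agent.R143.PP0x831
  Crest.Agent.R143.ColSumx304 Crest.Agent.R143.MassCx304 Crest.Agent.R143.Mass2x302
  Crest.Agent.R143.Mass3x302 Crest.Agent.R143.Mass4x302 Crest.Agent.R143.Mass5x302
open Crest.Agent.R143.Mass1x302 hiding ps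
open Crest.Agent.R143.Frame1x395 Crest.Agent.R143.Frame2x395 Crest.Agent.R143.Frame3x395
  Crest.Agent.R143.Frame4x395 Crest.Agent.R143.Frame8x395 Crest.Agent.R143.Frame9x395
  Crest.Agent.R143.Frame11x395 Crest.Agent.R143.Splx117
open scoped ENNReal

variable {D C : Type} {M : CMap D C} {P U : Set ℂ} {δ : ℂ → ℂ → D} {κ : ℂ → C}
variable {x : D → ZMod 2} {X : Set (ℂ × Bool)} {col : ℂ → Bool}

/-- inside `U` the occupied darts are the edges between two colours of `X` -/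
structure CX (P U : Set ℂ) (δ : ℂ → ℂ → D) (x : D → ZMod 2) (X : Set (ℂ × Bool))
    (col : ℂ → Bool) : Prop where
  mem : ∀ a ∈ P, a ∈ U → (a, col a) ∈ X
  occ : ∀ a b c, Fc P U a b c → x (δ a b) = 1 → col a ≠ col b

theorem col_const {l : Finset T3} (hc : CX P U δ x X col) (h : LpU P U l) (hl : Cpt δ x l)
    {s t : T3} (hs : s ∈ l) (ht : t ∈ l) : col t.1 = col s.1 := by
  have h1 := h.lp.orb s hs t ht
  induction h1 with
  | refl => rfl
  | @tail u v _ h2 ih =>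
    obtain ⟨hv, h3⟩ := h2
    have hu : u ∈ l := by
      rename_i h4
      rcases Relation.ReflTransGen.cases_tail h4 with h5 | ⟨w, -, h5, -⟩
      · rw [h5]; exact hs
      · exact h5
    have e := ih hu
    rw [← e]
    rcases h3 with ⟨-, e1, e2⟩ | ⟨-, e1, -⟩
    · have o1 := hc.occ _ _ _ (h.fc hu) (hl u hu)
      have o2 := hc.occ _ _ _ (h.fc hv) (hl v hv)
      rw [e2] at o2
      revert o1 o2
      cases col u.1 <;> cases col v.1 <;> cases col u.2.1 <;> simp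
    · rw [e1]

theorem rz_of {l : Finset T3} (hc : CX P U δ x X col) (h : LpU P U l) (hl : Cpt δ x l) :
    Rz X (lf l) (rt l) := by
  obtain ⟨s, hs⟩ := h.lp.ne
  refine ⟨col s.1, fun z hz => ?_, fun z hz => ?_⟩
  · obtain ⟨t, ht, rfl⟩ := Finset.mem_image.1 hz
    rw [← col_const hc h hl hs ht]
    exact hc.mem _ (h.fc ht).1.1 (fc_memU (h.fc ht))
  · obtain ⟨t, ht, rfl⟩ := Finset.mem_image.1 hz
    have e : (!col s.1) = col t.2.1 := by
      rw [← col_const hc h hl hs ht]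
      have := hc.occ _ _ _ (h.fc ht) (hl t ht)
      revert this
      cases col t.1 <;> cases col t.2.1 <;> simp
    rw [e]
    exact hc.mem _ (h.fc ht).rot.1.1 (fc_memU (h.fc ht).rot)

/-- **a macroscopic block of the sample** -/
theorem blk_PsC [Fintype D] (A : Agr P U M δ κ) (hx : IsC M ∅ x) (hX : Mass1x302.ps X = P)
    (hc : CX P U δ x X col) {g : D} (hg : Gp M x g) (hU : InU P U M δ x g) {k : ℝ}
    (hB : Big P U M δ x k g) {a : D → ℂ}
    (ha : ∀ t : T3, Fc P U t.1 t.2.1 t.2.2 → a (gd δ t) = Nn t) :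
    ENNReal.ofReal (‖∑ t ∈ blk M x g, a t‖ ^ 2) ≤ PsC k U X := by
  obtain ⟨l, s, hl, hs, h1, hcp, h2, ml⟩ := exists_lp A hx hg hU
  have ho : IsOb P (l, bl l s) := ⟨hl.lp, s, hs, h1, rfl⟩
  have hsp : spt (l, bl l s) ⊆ U := Set.iUnion₂_subset fun t ht => hl.sub t ht
  have him : im δ (l, bl l s) = blk M x g := by
    show (bl l s).image (gd δ) = blk M x g
    rw [← A.blk_img hx hl hcp hs h1, h2]
  rw [← him, sum_im A ho hsp a fun t ht => ha t (hl.fc ht)]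
  refine le_PsC (o := (l, bl l s)) (by rw [hX]; exact ho) hsp ?_ (rz_of hc hl hcp)
  intro z hz
  obtain ⟨n, a', b, c, f1, f2, f3⟩ := hB z
  apply f3
  have f4 : (a', b, c) ∈ l := (ml _).2 ⟨f1, n, f2⟩
  exact (Set.subset_biUnion_of_mem (u := fun t => cdisc t) f4).trans hz

/-- **the charge of a ring of gates** -/
theorem ring_PsC [Fintype D] (A : Agr P U M δ κ) (hX : Mass1x302.ps X = P)
    (hc : CX P U δ x X col) {n : ℕ} {p : ℕ → D} {R : ℕ → Set D} (hR : Ring M x n p R)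
    (G : ∀ k, ∀ d ∈ R k, Gen M (M.cell d)) (hl : Links M x n p)
    (hne : ∀ k, M.cell (p k) ≠ M.cell (p (k + 1)))
    (hRU : ∀ k, ∀ d ∈ R k, x d = 1 → ∃ a b c, Fc P U a b c ∧ d = δ a b)
    {k : ℝ} {i j : ℕ} {a b c a' b' c' : ℂ} (h : Fc P U a b c) (h' : Fc P U a' b' c')
    (hi : p i = δ a b) (hj : p j = δ a' b') (hk : k ≤ |a.re - a'.re| ∨ k ≤ |a.im - a'.im|)
    {w : D → ℂ} (hw : ∀ t : T3, Fc P U t.1 t.2.1 t.2.2 → w (gd δ t) = Nn t) :
    ENNReal.ofReal (‖∑ k ∈ Finset.range n, ZZ M x w (R k) (p k) (p (k + 1))‖ ^ 2) ≤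
      PsC k U X := by
  have hx := hR.even
  obtain ⟨β, hβ, h1, h2, ⟨m, hm⟩, h4⟩ := ring_main hR G hl hne
  obtain ⟨hg, hb⟩ := mem_blks hx hβ hm
  obtain ⟨N, L⟩ := lp_exists hx (hR.occ 0)
  have hN : 0 < N := L.pos
  have key : ∀ i, (stp M x)^[i] (M.rho (Splx117.gp M x (p 0) m)) = (stp M x)^[i + m] (p 0) := by
    intro i
    rw [rho_gp, ← Function.iterate_add_apply]
  have hit : ∀ q, ∃ i, (stp M x)^[i] (M.rho (Splx117.gp M x (p 0) m)) = p q := by
    intro q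
    obtain ⟨i, hi⟩ := h1 q
    refine ⟨i + m * N - m, ?_⟩
    have e1 : m ≤ m * N := Nat.le_mul_of_pos_right m hN
    rw [key, show i + m * N - m + m = i + m * N by omega]
    have : ∀ r, (stp M x)^[i + r * N] (p 0) = (stp M x)^[i] (p 0) := by
      intro r
      induction r with
      | zero => simp
      | succ r ih => rw [Nat.succ_mul, ← add_assoc, L.add, ih]
    rw [this, hi]
  rw [← h4 w, hb]
  refine blk_PsC A hx hX hc hg ?_ ?_ hw
  · intro q
    obtain ⟨k', hk'⟩ := h2 (q + m)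
    obtain ⟨a1, b1, c1, f1, f2⟩ := hRU k' _ hk' (occ_it hx (hR.occ 0) _)
    exact ⟨a1, b1, c1, f1, by rw [key]; exact f2⟩
  · obtain ⟨n1, hn1⟩ := hit i
    obtain ⟨n2, hn2⟩ := hit j
    exact big_of h h' (hn1.trans hi) (hn2.trans hj) hk

/-! ### the closed map `cm0` of a finite set of sites -/

section cm

open Crest.Agent.R143.WLocx713 Crest.Agent.R143.DelRx806 Crest.Agent.R143.DelGx806
open Crest.Agent.R143.Frame5x395 (sd mem_sd th th_spec)
open Crest.Agent.R143.Frame10x395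

variable {S : Finset ℂ} {χ : ℂ → ZMod 2}

/-- the colours on the hull do not count -/
def hX (S : Finset ℂ) (X : Set (ℂ × Bool)) (v : ℂ) : ZMod 2 := if OnHull S v then 0 else cX X v

theorem hX_hull (hS : GP (S : Set ℂ)) (X : Set (ℂ × Bool)) : HullC S (hX S X) := by
  intro a b h
  have h1 : OnHull S a := onHull_left hS h
  have h2 : OnHull S b := ⟨a, h⟩
  unfold hX
  rw [if_pos h1, if_pos h2]

/-- the charge of a dart -/
def wN (S : Finset ℂ) (g : D0 S) : ℂ := Nn (g.1.2, th S g.1, g.1.1)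

theorem wN_gd (hS : GP (S : Set ℂ)) (hPS : ∀ z ∈ U, z ∈ P ↔ z ∈ (S : Set ℂ))
    (e0 : D0 S) {t : T3} (hf : Fc P U t.1 t.2.1 t.2.2) : wN S (gd (dl e0) t) = Nn t := by
  obtain ⟨a, b, c⟩ := t
  change Fc P U a b c at hf
  have h3 := hf.rot.rot
  have ht : (c, a, b) ∈ delT S := mem_delT.2 (fc_congr hPS h3).1
  have e1 : gd (dl e0) (a, b, c) = ⟨(c, a), mem_sd.2 ⟨b, ht⟩⟩ := dl_eq (mem_sd.2 ⟨b, ht⟩)
  rw [e1]
  show Nn (a, th S (c, a), c) = _
  rw [Frame10x395.th0 hS ht]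

theorem cx_cm0 (hS : GP (S : Set ℂ)) (hχ : HullC S χ) (hPS : ∀ z ∈ U, z ∈ P ↔ z ∈ (S : Set ℂ))
    (hX : Mass1x302.ps X = P) (hcol : ∀ a ∈ P, a ∈ U → χ a = cX X a) (e0 : D0 S) :
    CX P U (dl e0) (cfg (cm0 hS) (lift S hχ)) X fun a => decide ((a, true) ∈ X) := by
  refine ⟨fun a ha _ => ?_, fun a b c hf h1 => ?_⟩
  · by_cases h : (a, true) ∈ X
    · rw [decide_eq_true h]; exact h
    · rw [decide_eq_false h]
      rw [← hX] at ha
      obtain ⟨⟨a', β⟩, h1, rfl⟩ := ha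
      cases β
      · exact h1
      · exact absurd h1 h
  · have h2 : (a, b) ∈ sd S := mem_sd.2 ⟨c, mem_delT.2 (fc_congr hPS hf).1⟩
    rw [dl_eq h2, cfg_lift] at h1
    change χ a + χ b = 1 at h1
    rw [hcol a hf.1.1 (fc_memU hf), hcol b hf.rot.1.1 (fc_memU hf.rot)] at h1
    unfold cX at h1
    intro h3
    by_cases ha : (a, true) ∈ X <;> by_cases hb : (b, true) ∈ X
    · rw [if_pos ha, if_pos hb] at h1; exact absurd h1 (by decide)
    · simp [ha, hb] at h3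
    · simp [ha, hb] at h3
    · rw [if_neg ha, if_neg hb] at h1; exact absurd h1 (by decide)

/-- **the ring of gates on `cm0`**: `S` = finite set of sites, equal to the positions `P` of `X`
inside `U`, no hull site in `U`, colours `χ` = those of `X` inside `U` -/
theorem ring_cm0 (hP : GP P) (hS : GP (S : Set ℂ)) (hPS : ∀ z ∈ U, z ∈ P ↔ z ∈ (S : Set ℂ))
    (hin : ∀ v ∈ S, v ∈ U → ¬ OnHull S v) (hχ : HullC S χ)
    (hX : Mass1x302.ps X = P) (hcol : ∀ a ∈ P, a ∈ U → χ a = cX X a)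
    {n : ℕ} {p : ℕ → D0 S} {R : ℕ → Set (D0 S)}
    (hR : Ring (cm0 hS) (cfg (cm0 hS) (lift S hχ)) n p R)
    (G : ∀ k, ∀ d ∈ R k, Gen (cm0 hS) ((cm0 hS).cell d))
    (hl : Links (cm0 hS) (cfg (cm0 hS) (lift S hχ)) n p)
    (hne : ∀ k, (cm0 hS).cell (p k) ≠ (cm0 hS).cell (p (k + 1)))
    (hRU : ∀ k, ∀ d ∈ R k, cdisc (d.1.1, d.1.2, th S d.1) ⊆ U)
    {k : ℝ} {i j : ℕ} (hk : k ≤ |(p i).1.1.re - (p j).1.1.re| ∨ k ≤ |(p i).1.1.im - (p j).1.1.im|) :
    ENNReal.ofReal (‖∑ k ∈ Finset.range n, ZZ (cm0 hS) (cfg (cm0 hS) (lift S hχ)) (wN S) (R k)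
      (p k) (p (k + 1))‖ ^ 2) ≤ PsC k U X := by
  have hfc : ∀ k, ∀ d ∈ R k, Fc P U d.1.1 d.1.2 (th S d.1) := by
    intro k d hd
    have h1 : Fc (S : Set ℂ) U d.1.1 d.1.2 (th S d.1) :=
      ⟨mem_delT.1 (th_spec d.2), hRU k d hd⟩
    exact fc_congr (fun z hz => (hPS z hz).symm) h1
  have e0 := p 0
  have hd : ∀ d : D0 S, dl e0 d.1.1 d.1.2 = d := fun d => by
    rw [dl_eq (show (d.1.1, d.1.2) ∈ sd S from d.2)]
  refine ring_PsC (agr0 hP hS hPS hin e0) hX (cx_cm0 hS hχ hPS hX hcol e0) hR G hl hne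
    (fun k d hk _ => ⟨_, _, _, hfc k d hk, (hd d).symm⟩) (hfc _ _ (hR.mem0 i))
    (hfc _ _ (hR.mem0 j)) (hd _).symm (hd _).symm hk fun t ht => wN_gd hS hPS e0 ht

end cm

/-- second moment over an event -/
theorem lint_ring {Y : Type*} [MeasurableSpace Y] {μ : Measure Y} {k : ℝ} {Ev : Set Y}
    (hEv : MeasurableSet Ev) {Z : Y → ℂ} {X : Y → Set (ℂ × Bool)}
    (h : ∀ ω ∈ Ev, ENNReal.ofReal (‖Z ω‖ ^ 2) ≤ PsC k U (X ω)) :
    ∫⁻ ω in Ev, ‖Z ω‖ₑ ^ 2 ∂μ ≤ ∫⁻ ω, PsC k U (X ω) ∂μ := by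
  have h1 : ∀ z : ℂ, ENNReal.ofReal (‖z‖ ^ 2) = ‖z‖ₑ ^ 2 := fun z => by
    rw [ENNReal.ofReal_pow (norm_nonneg _), ofReal_norm]
  refine le_trans ?_ (setLIntegral_le_lintegral Ev _)
  refine setLIntegral_mono' hEv fun ω hω => ?_
  rw [← h1]
  exact h ω hω

end Crest.Agent.R143.OctBx416
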