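import Crest.Agent.R143.SepV_686
import Crest.Agent.R143.SepS_697
import Crest.Agent.R143.LocT_776
import Crest.Agent.R143.CurO_66
import Crest.Agent.R143.SubH_117
import Crest.Agent.R143.LocI_535

/-!
# Row 143 (S0194), RIG, LOCX: the sites of the closed curtain are not bad (helper697)

`H : CorH X U M W η d o n`, `St : StH H Rs q N T` (the strand), `Z = zc (rc0 H.gp) R q (T n) ..` its
blocking set, `Z' ⊆ Z`, `TT` = cells of the tiles `a .. b` (window).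

* `blk_zc`, `blk_all` : the blocking cells are cells of inner sites of the strips
* `ext_off`, **`ok_hull`** : sites linked off the strips to a site of the hull
* `arc_sub`, `mem_Z_RS`, `mem_Z_LS`, **`ok_arc`** : the sites of the arcs
* **`ok_up`** : the part of `up` above the first site in `Z`
* **`ok_out`**, **`ok_white`**, **`ok_K`** : the vertical chains and the inner path
* **`okH`** : all sites of the curtain; `good_of_ok` : 535's form
-/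

set_option autoImplicit false
set_option linter.unusedSectionVars false

noncomputable section

open scoped Classical

namespace Crest.Agent.R143.OkHx697

open Crest.Agent.R143.B0x346 Crest.Agent.R143.DelGx806 Crest.Agent.R143.DelRx806
  Crest.Agent.R143.JColx54
open Crest.Agent.R143.ToolWx838 Crest.Agent.R143.Blkx838
open Crest.Agent.R143.ToolW3x838
open Crest.Agent.R143.Frame1x395 Crest.Agent.R143.Frame2x395 Crest.Agent.R143.Frame3x395
  Crest.Agent.R143.Frame4x395 Crest.Agent.R143.Frame8x395 Crest.Agent.R143.Frame9x395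
  Crest.Agent.R143.Frame10x395 Crest.Agent.R143.Frame11x395
open Crest.Agent.R143.Splx117 Crest.Agent.R143.WLocx713 Crest.Agent.R143.RingDx117
  Crest.Agent.R143.CorrDx117
open Crest.Agent.R143.Neckx921 (Neck NeckD Tile Lk)
open Crest.Agent.R143.TileRx228 Crest.Agent.R143.DCorGx713
open Crest.Agent.R143.PP0x831
open Crest.Agent.R143.Sepx686 Crest.Agent.R143.SepLx686
open Crest.Agent.R143.CorHx713 Crest.Agent.R143.SepHx697
open Crest.Agent.R143.Extx358 (Ad Ext Bd)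
open Crest.Agent.R143.RcTx422
open Crest.Agent.R143.FinCx811 (rc0 Cs rcol cs)
open Crest.Agent.R143.OutSx358 (zc ac)
open Crest.Agent.R143.LocDx776 (Ok)
open Crest.Agent.R143.LocTx776 (Wn Off VCh)
open Crest.Agent.R143.CurOx66 (BlkS)
open Crest.Agent.R143.SepWx686 Crest.Agent.R143.SepWHx686 Crest.Agent.R143.SepVx686
open Crest.Agent.R143.RegEx523 (Kin)

/-! ### one planar map -/

section gen

variable {S : Finset ℂ} {hS : GP (S : Set ℂ)} {Z Z' TT Y : Set (Cs hS)} {A' B' h : ℝ}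
  {W : ℤ → ℤ × ℤ}

/-- two cells of the same site -/
theorem cell_eq {c c' : Cs hS} {v : ℂ} (e : c.1 = Quot.mk (hullE S) v)
    (e' : c'.1 = Quot.mk (hullE S) v) : c = c' := Subtype.ext (e.trans e'.symm)

/-- `Ok` is a statement on one cell -/
theorem ok_of {v : ℂ} {c : Cs hS} (e : c.1 = Quot.mk (hullE S) v)
    (h : c ∈ Z ∨ ¬ Ext (rc0 hS) (Hc hS) Z c ∨ Ext (rc0 hS) (Hc hS) (Z' ∪ TT) c) :
    Ok hS Z Z' TT v := fun _ e' => cell_eq e e' ▸ h

theorem ok_mem {v : ℂ} {c : Cs hS} (e : c.1 = Quot.mk (hullE S) v) (h : c ∈ Z) :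
    Ok hS Z Z' TT v := ok_of e (Or.inl h)

theorem ok_not {v : ℂ} (h : ∀ c : Cs hS, c.1 = Quot.mk (hullE S) v → ¬ Ext (rc0 hS) (Hc hS) Z c) :
    Ok hS Z Z' TT v := fun c e => Or.inr (Or.inl (h c e))

theorem ok_ext {v : ℂ}
    (h : ∀ c : Cs hS, c.1 = Quot.mk (hullE S) v → Ext (rc0 hS) (Hc hS) (Z' ∪ TT) c) :
    Ok hS Z Z' TT v := fun c e => Or.inr (Or.inr (h c e))

/-- 535's form -/
theorem good_of_ok {v : ℂ} (h : Ok hS Z Z' TT v) : v ∈ LocIx535.Good Z Z' TT := by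
  intro c e h1
  rcases h c e with h2 | h2 | h2
  · exact absurd h2 h1.off
  · exact absurd h1 h2
  · exact h2

/-- a site off the strips has its cell off the blocking cells -/
theorem off_blk (hY : BlkS A' B' h W Y) {s : ℂ} (hs : s ∈ Off S A' B' h W) {c : Cs hS}
    (e : c.1 = Quot.mk (hullE S) s) : c ∉ Y := hY.off hs e

/-- **a site linked off the strips to a site of the hull is in `Ext`** -/
theorem ext_off (hY : BlkS A' B' h W Y) {w0 v : ℂ} (hw : OnHull S w0)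
    (hl : Lk S (Off S A' B' h W) w0 v) {c : Cs hS} (e : c.1 = Quot.mk (hullE S) v) :
    Ext (rc0 hS) (Hc hS) Y c :=
  LocDx776.ext_lk (A := Off S A' B' h W) (fun _ hs _ e => off_blk hY hs e) hl
    (fun _ e' => Ext.hull ⟨w0, hw, e'⟩ (off_blk hY hl.1.1 e')) e

/-- **sites linked off the strips to a site of the hull** -/
theorem ok_hull (hY : BlkS A' B' h W (Z' ∪ TT)) {w0 v : ℂ} (hw : OnHull S w0)
    (hl : Lk S (Off S A' B' h W) w0 v) : Ok hS Z Z' TT v := ok_ext fun _ e => ext_off hY hw hl e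

/-- **the part of `up` above the first site in `Z`** -/
theorem ok_lk (hZ : Z' ⊆ Z) (hY : BlkS A' B' h W (Z' ∪ TT)) {V : Set ℂ}
    (hV : ∀ s ∈ V, ∀ c : Cs hS, c.1 = Quot.mk (hullE S) s → c ∉ Z ∧ c ∉ TT) {w0 t v : ℂ}
    (hw : OnHull S w0) (ht : Lk S (Off S A' B' h W) w0 t) (hl : Lk S V t v) :
    Ok hS Z Z' TT v := by
  refine ok_ext fun c e => ?_
  refine LocDx776.ext_lk (A := V) (fun s hs c e => ?_) hl (fun _ e' => ext_off hY hw ht e') e
  rintro (h1 | h1)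
  · exact (hV s hs c e).1 (hZ h1)
  · exact (hV s hs c e).2 h1

end gen

/-! ### the strand -/

variable {X : Set (ℂ × Bool)} {U K0 : Set ℂ} {M n k0 k1 : ℕ} {W : ℤ → ℤ × ℤ} {η d : ℝ} {o : ℤ}

section strand

variable {H : CorH X U M W η d o n} {Rs : Set (D0 (sX X))} {q : D0 (sX X)} {N : ℕ} {T : ℕ → ℕ}
  {R Z' TT : Set (Cs H.gp)}

/-- the blocking cells in terms of sites -/
theorem mem_zh (St : StH H Rs q N T) {c : Cs H.gp} : c ∈ ZH H R q T ↔
    (∃ s ∈ LS (sX X) (cX X) q.1 (T n), c.1 = Quot.mk _ s) ∨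
    (∃ s ∈ RS (sX X) (cX X) q.1 (T n), c.1 = Quot.mk _ s) ∨
    (c ∈ R ∧ rcol H.gp (cX X) H.hull c = 0) := by
  have hq : xc H.gp H.hull q = 1 := St.lp.occ
  rw [PLSx535.mem_zc, ← mem_wl_LS hq, ← mem_wr_RS hq]
  unfold ac
  rw [Finset.mem_union, or_assoc]
  exact Iff.rfl

theorem mem_Z_LS (St : StH H Rs q N T) {s : ℂ} (hs : s ∈ LS (sX X) (cX X) q.1 (T n))
    {c : Cs H.gp} (e : c.1 = Quot.mk _ s) : c ∈ ZH H R q T := (mem_zh St).2 (Or.inl ⟨s, hs, e⟩)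

theorem mem_Z_RS (St : StH H Rs q N T) {s : ℂ} (hs : s ∈ RS (sX X) (cX X) q.1 (T n))
    {c : Cs H.gp} (e : c.1 = Quot.mk _ s) : c ∈ ZH H R q T :=
  (mem_zh St).2 (Or.inr (Or.inl ⟨s, hs, e⟩))

/-- a white site of a cell of `R` -/
theorem mem_Z_R (St : StH H Rs q N T) {s : ℂ} (h0 : cX X s = 0) {c : Cs H.gp}
    (e : c.1 = Quot.mk _ s) (hc : c ∈ R) : c ∈ ZH H R q T :=
  (mem_zh St).2 (Or.inr (Or.inr ⟨hc, (rcol_val e).trans h0⟩))

/-- **the blocking cells are cells of inner sites of the strips** -/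
theorem blk_zc (St : StH H Rs q N T)
    (hR1 : ∀ c ∈ R, ∃ s ∈ sX X, s ∈ BR η W M o n ∧ c.1 = Quot.mk _ s) :
    BlkS (19 / 2 * η) (103 / 2 * η) (100 * η) W (ZH H R q T) := by
  have h0 := H.e0
  have inn : ∀ {s : ℂ} {a : ℤ}, s ∈ RR (19 / 2 * η) (103 / 2 * η) (100 * η) W a →
      ¬ OnHull (sX X) s := fun hs => H.inn (H.sub_U (by linarith) (by linarith) _ hs)
  intro c hc
  rcases (mem_zh St).1 hc with ⟨s, ⟨i, hi, rfl⟩, e⟩ | ⟨s, ⟨i, hi, rfl⟩, e⟩ | ⟨h1, -⟩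
  · obtain ⟨k, -, h2, -⟩ := st_mem St hi
    exact ⟨_, inn h2, ⟨_, h2⟩, e⟩
  · obtain ⟨k, -, -, h2⟩ := st_mem St hi
    exact ⟨_, inn h2, ⟨_, h2⟩, e⟩
  · obtain ⟨s, -, ⟨a, -, -, h2⟩, e⟩ := hR1 c h1
    exact ⟨s, inn h2, ⟨a, h2⟩, e⟩

/-- the window is the cells of sites of the tiles `a .. b` -/
def TW (H : CorH X U M W η d o n) (TT : Set (Cs H.gp)) (a b : ℤ) : Prop :=
  ∀ c ∈ TT, ∃ s ∈ sX X, (∃ j : ℤ, a ≤ j ∧ j ≤ b ∧
    s ∈ RR (19 / 2 * η) (103 / 2 * η) (100 * η) W j) ∧ c.1 = Quot.mk (hullE (sX X)) s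

theorem blk_T {a b : ℤ} (hT : TW H TT a b) :
    BlkS (19 / 2 * η) (103 / 2 * η) (100 * η) W TT := by
  have h0 := H.e0
  intro c hc
  obtain ⟨s, -, ⟨j, -, -, h2⟩, e⟩ := hT c hc
  exact ⟨s, H.inn (H.sub_U (by linarith) (by linarith) _ h2), ⟨j, h2⟩, e⟩

/-- **all blocking cells** -/
theorem blk_all (St : StH H Rs q N T)
    (hR1 : ∀ c ∈ R, ∃ s ∈ sX X, s ∈ BR η W M o n ∧ c.1 = Quot.mk _ s)
    (hZ : Z' ⊆ ZH H R q T) {a b : ℤ} (hT : TW H TT a b) :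
    BlkS (19 / 2 * η) (103 / 2 * η) (100 * η) W (Z' ∪ TT) :=
  BlkS.union (BlkS.mono (blk_zc St hR1) hZ) (blk_T hT)

/-- a cell of the window is not the cell of a site off the tiles `a .. b` -/
theorem not_T {a b : ℤ} (hT : TW H TT a b) {s : ℂ}
    (hs : ∀ j : ℤ, a ≤ j → j ≤ b → s ∉ RR (19 / 2 * η) (103 / 2 * η) (100 * η) W j)
    {c : Cs H.gp} (e : c.1 = Quot.mk _ s) : c ∉ TT := by
  have h0 := H.e0
  intro hc
  obtain ⟨v, -, ⟨j, h1, h2, h3⟩, e'⟩ := hT c hc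
  have h4 : ¬ OnHull (sX X) v := H.inn (H.sub_U (by linarith) (by linarith) _ h3)
  have h5 : s = v := quot_inner H.gp h4 (e'.symm.trans e)
  exact hs j h1 h2 (h5 ▸ h3)

/-- **the arcs between the gates are in the strand** -/
theorem arc_sub (St : StH H Rs q N T) (t : ℕ → ℕ) {k : ℕ} (h1 : 0 < k) (h2 : k + 1 < n) :
    LS (sX X) (cX X) (H.p (k + 1)).1 (tB n T t k) ⊆ LS (sX X) (cX X) q.1 (T n) ∧
      RS (sX X) (cX X) (H.p (k + 1)).1 (tB n T t k) ⊆ RS (sX X) (cX X) q.1 (T n) := by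
  have key : tB n T t k = T (n - k) - T (n - k - 1) := by
    unfold tB
    rw [if_pos ⟨h1, h2⟩]
  have sta : (nx (sX X) (cX X))^[T (n - k - 1)] q.1 = (H.p (k + 1)).1 := by
    rw [st_at St (show 0 < n - k - 1 by omega) (by omega), show n - (n - k - 1) = k + 1 by omega]
  have mon : T (n - k - 1) ≤ T (n - k) := by
    have := St.mono (n - k - 1) (by omega)
    rwa [show n - k - 1 + 1 = n - k by omega] at this
  have hT := st_T St (show n - k ≤ n by omega)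
  constructor
  · rintro s ⟨i, hi, rfl⟩
    rw [key] at hi
    exact ⟨i + T (n - k - 1), by omega, by rw [← sta, it_add]⟩
  · rintro s ⟨i, hi, rfl⟩
    rw [key] at hi
    exact ⟨i + T (n - k - 1), by omega, by rw [← sta, it_add]⟩

/-- **the sites of the arcs** -/
theorem ok_arc (St : StH H Rs q N T) (t : ℕ → ℕ) {k : ℕ} (h1 : 0 < k) (h2 : k + 1 < n) {v : ℂ}
    (hv : v ∈ LS (sX X) (cX X) (H.p (k + 1)).1 (tB n T t k) ∨
      v ∈ RS (sX X) (cX X) (H.p (k + 1)).1 (tB n T t k)) :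
    Ok H.gp (ZH H R q T) Z' TT v := fun _ e => Or.inl <| by
  rcases hv with h | h
  · exact mem_Z_LS St ((arc_sub St t h1 h2).1 h) e
  · exact mem_Z_RS St ((arc_sub St t h1 h2).2 h) e

/-! ### the four classes -/

/-- linked off the strips to a site of the hull -/
def HL (X : Set (ℂ × Bool)) (η : ℝ) (W : ℤ → ℤ × ℤ) (v : ℂ) : Prop :=
  ∃ w, OnHull (sX X) w ∧
    Lk (sX X) (Off (sX X) (19 / 2 * η) (103 / 2 * η) (100 * η) W) w v

theorem hl_of {w v : ℂ} (hw : OnHull (sX X) w)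
    (h : Lk (sX X) (Off (sX X) (19 / 2 * η) (103 / 2 * η) (100 * η) W) w v) : HL X η W v := ⟨w, hw, h⟩

theorem hl_to {w v : ℂ} (hw : OnHull (sX X) w)
    (h : Lk (sX X) (Off (sX X) (19 / 2 * η) (103 / 2 * η) (100 * η) W) v w) : HL X η W v :=
  ⟨w, hw, h.symm⟩

theorem HL.lk {u v : ℂ} (hu : HL X η W u)
    (h : Lk (sX X) (Off (sX X) (19 / 2 * η) (103 / 2 * η) (100 * η) W) u v) : HL X η W v := by
  obtain ⟨w, hw, h1⟩ := hu
  exact ⟨w, hw, h1.trans h⟩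

/-- 66's outer part -/
theorem hl_outP {A' B' : ℝ} {V : Set ℂ} {b b' v : ℂ}
    (O : CurOx66.OutP (sX X) A' B' (100 * η) W V b b') (hA : 19 / 2 * η ≤ A')
    (hB : 103 / 2 * η ≤ B') (hv : v ∈ V) : HL X η W v := by
  obtain ⟨x, hx, hl⟩ := O.hull v hv
  refine hl_to hx (hl.mono fun s hs => ⟨hs.1, fun c hc => hs.2 c (RR_mono hA hB _ W _ hc)⟩)

/-- **the classes of the sites of the curtain**: cell in `Z`; not in `Ext Z`; linked off the strips
to the hull; linked to such a site by sites off `Z` and off the tiles `a .. b` -/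
def Cl (H : CorH X U M W η d o n) (R : Set (Cs H.gp)) (q : D0 (sX X)) (T : ℕ → ℕ) (a b : ℤ)
    (v : ℂ) : Prop :=
  (∀ c : Cs H.gp, c.1 = Quot.mk (hullE (sX X)) v → c ∈ ZH H R q T) ∨ NE H R q T v ∨
    HL X η W v ∨
    ∃ (t : ℂ) (V : Set ℂ), HL X η W t ∧ Lk (sX X) V t v ∧
      ∀ s ∈ V, (∀ c : Cs H.gp, c.1 = Quot.mk (hullE (sX X)) s → c ∉ ZH H R q T) ∧
        ∀ j : ℤ, a ≤ j → j ≤ b → s ∉ RR (19 / 2 * η) (103 / 2 * η) (100 * η) W j

/-- the sites of the classes are not bad -/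
theorem Cl.ok {a b : ℤ} {v : ℂ} (h : Cl H R q T a b v) (St : StH H Rs q N T)
    (hR1 : ∀ c ∈ R, ∃ s ∈ sX X, s ∈ BR η W M o n ∧ c.1 = Quot.mk _ s)
    (hZ : Z' ⊆ ZH H R q T) (hT : TW H TT a b) : Ok H.gp (ZH H R q T) Z' TT v := by
  have hY := blk_all St hR1 hZ hT
  rcases h with h | h | ⟨w, hw, h⟩ | ⟨t, V, ⟨w, hw, h1⟩, h2, h3⟩
  · exact fun c e => Or.inl (h c e)
  · exact ok_not h
  · exact ok_hull hY hw h
  · exact ok_lk hZ hY (fun s hs c e => ⟨(h3 s hs).1 c e, not_T hT (h3 s hs).2 e⟩) hw h1 h2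

/-- **ALL SITES OF THE CURTAIN** -/
theorem okH (St : StH H Rs q N T)
    (hR1 : ∀ c ∈ R, ∃ s ∈ sX X, s ∈ BR η W M o n ∧ c.1 = Quot.mk _ s)
    (hZ : Z' ⊆ ZH H R q T) {a b : ℤ} (hT : TW H TT a b)
    {VR VF VL VK : Set ℂ} (hVR : ∀ v ∈ VR, Cl H R q T a b v) (hVF : ∀ v ∈ VF, Cl H R q T a b v)
    (hVL : ∀ v ∈ VL, Cl H R q T a b v) (hVK : ∀ v ∈ VK, Cl H R q T a b v) :
    ∀ s, s ∈ VR ∨ s ∈ VF ∨ s ∈ VL ∨ s ∈ VK → Ok H.gp (ZH H R q T) Z' TT s := by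
  rintro s (h | h | h | h)
  · exact (hVR s h).ok St hR1 hZ hT
  · exact (hVF s h).ok St hR1 hZ hT
  · exact (hVL s h).ok St hR1 hZ hT
  · exact (hVK s h).ok St hR1 hZ hT

/-- 535's form -/
theorem goodH (St : StH H Rs q N T)
    (hR1 : ∀ c ∈ R, ∃ s ∈ sX X, s ∈ BR η W M o n ∧ c.1 = Quot.mk _ s)
    (hZ : Z' ⊆ ZH H R q T) {a b : ℤ} (hT : TW H TT a b)
    {V : Set ℂ} (hV : ∀ v ∈ V, Cl H R q T a b v) :
    V ⊆ LocIx535.Good (ZH H R q T) Z' TT := fun s hs =>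
  good_of_ok ((hV s hs).ok St hR1 hZ hT)

/-- the window `clS` of 117 -/
theorem tw_clS {F : Set ℂ} {a b : ℤ}
    (hF : ∀ s ∈ F, ∃ j : ℤ, a ≤ j ∧ j ≤ b ∧ s ∈ RR (19 / 2 * η) (103 / 2 * η) (100 * η) W j) :
    TW H (SubHx117.clS H.gp F) a b := by
  rintro c ⟨s, h1, h2, h3⟩
  exact ⟨s, h1, hF s h2, h3⟩

/-! ### the gates -/

/-- the window of the gate `g` is off the tiles which do not touch the gate -/
theorem win_far (H : CorH X U M W η d o n) {g j : ℤ} (h1 : ¬ (M : ℤ) ∣ j - g)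
    (h2 : ¬ (M : ℤ) ∣ j - g - 1) (h3 : ¬ (M : ℤ) ∣ j - g + 1) {v : ℂ}
    (hx : |Gatex838.X (gz (100 * η) W g) (ge W g) v| ≤ 2 * η)
    (hy : |Gatex838.Y (gz (100 * η) W g) (ge W g) v| ≤ 11 * η) :
    v ∉ RR (19 / 2 * η) (103 / 2 * η) (100 * η) W j := by
  have h0 := H.e0
  have hd := CorPx503.dsj_of H.path (A := 12 * η) (B := 53 * η) (h := 100 * η) (by linarith)
    (by linarith) (by linarith) g j h1 h2 h3
  intro hv
  refine Set.disjoint_left.1 hd (win_right H.path (by linarith) (by linarith)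
    (lt_of_le_of_lt hx (by linarith)) (lt_of_le_of_lt hy (by linarith))) ?_
  exact RR_mono (by linarith) (by linarith) _ W _ hv

/-- the tiles `a .. b` do not touch the gate `g` -/
def FarG (M : ℕ) (g a b : ℤ) : Prop :=
  (b + 2 ≤ g ∧ g + 2 ≤ a + M) ∨ (g + 2 ≤ a ∧ b + 2 ≤ g + M)

theorem FarG.dvd {g a b j : ℤ} (h : FarG M g a b) (h1 : a ≤ j) (h2 : j ≤ b) :
    ¬ (M : ℤ) ∣ j - g ∧ ¬ (M : ℤ) ∣ j - g - 1 ∧ ¬ (M : ℤ) ∣ j - g + 1 := by
  rcases h with h | h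
  · exact ⟨CorPx503.not_dvd_of (by omega) (by omega) (by omega),
      CorPx503.not_dvd_of (by omega) (by omega) (by omega),
      CorPx503.not_dvd_of (by omega) (by omega) (by omega)⟩
  · exact ⟨CorPx503.not_dvd_of (by omega) (by omega) (by omega),
      CorPx503.not_dvd_of (by omega) (by omega) (by omega),
      CorPx503.not_dvd_of (by omega) (by omega) (by omega)⟩

/-- **the sites of an out gate** (336): cell in `Z`, or in `dn`, or joined to the top `t` of `up` by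
sites of `up` off `Z` -/
theorem cl_out (St : StH H Rs q N T) (G : Geo (sX X) M n k0 k1 W η o K0)
    (hf : ∀ k : ℕ, k < n → FA (cm0 H.gp) (xc H.gp H.hull)
      (RD (sX X) (RR (19 / 2 * η) (103 / 2 * η) (100 * η) W (o + k))) (H.p (k + 1)) (H.p k))
    (hR : ∀ s ∈ sX X, s ∈ BR η W M o n → ∃ c ∈ R, c.1 = Quot.mk (hullE (sX X)) s)
    {k : ℕ} (h3 : 3 ≤ k) (hk : k + 3 ≤ n)
    (st : ∀ a : ℤ, o + k - 2 ≤ a → a ≤ o + k + 1 → ge W (a + 1) = ge W a)
    (foot : Idxx927.wl (gz (100 * η) W (o + k)) (ge W (o + k)) (-(10 * η)) ∈ K0)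
    {up dn : List ℂ}
    (Nk : Neck (sX X) (gz (100 * η) W (o + k)) (ge W (o + k)) (-η) η (-(9 * η)) (10 * η) η
      (sX X) (bX X) up (yy η W X (o + k)) dn) (hx : up.getLast Nk.nu = xx η W X (o + k))
    {a b : ℤ} (hfar : FarG M (o + k) a b) {t : ℂ} (ht : HL X η W t) {v : ℂ}
    (hv : (∀ c : Cs H.gp, c.1 = Quot.mk (hullE (sX X)) v → c ∈ ZH H R q T) ∨ v ∈ dn ∨
      Lk (sX X) {s | s ∈ up ∧ ∀ c : Cs H.gp, c.1 = Quot.mk (hullE (sX X)) s → c ∉ ZH H R q T} t v) :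
    Cl H R q T a b v := by
  have h0 := H.e0
  rcases hv with h | h | h
  · exact Or.inl h
  · exact Or.inr (Or.inl (dn_out St G hf hR h3 hk st foot Nk hx h))
  · refine Or.inr (Or.inr (Or.inr ⟨t, _, ht, h, fun s hs => ⟨hs.2, fun j h1 h2 => ?_⟩⟩))
    have hw := Nk.win s (List.mem_append_left _ hs.1)
    obtain ⟨d1, d2, d3⟩ := hfar.dvd h1 h2
    refine win_far H d1 d2 d3 (abs_le.2 ⟨by linarith [hw.1.1], by linarith [hw.1.2]⟩)
      (abs_le.2 ⟨by linarith [hw.2.1], by linarith [hw.2.2]⟩)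

/-- **the sites of a closing gate** (686's `vch_white`) -/
theorem cl_white {g a b : ℤ}
    (ux : ∀ v ∈ sX X, v ∈ Wn η W g (2 * η) (19 / 2 * η) (11 * η) → HL X η W v) {v : ℂ}
    (hvS : v ∈ sX X)
    (hv : (∀ c : Cs H.gp, c.1 = Quot.mk (hullE (sX X)) v → c ∈ ZH H R q T) ∨ NE H R q T v ∨
      (v ∈ Wn η W g (2 * η) (19 / 2 * η) (11 * η) ∧ cX X v = 0)) : Cl H R q T a b v := by
  rcases hv with h | h | h
  · exact Or.inl h
  · exact Or.inr (Or.inl h)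
  · exact Or.inr (Or.inr (Or.inl (ux v hvS h.1)))

/-- the outer part -/
theorem cl_F {a b : ℤ} {v : ℂ} (hv : HL X η W v) : Cl H R q T a b v :=
  Or.inr (Or.inr (Or.inl hv))

/-- **the inner part** (643's `vk_K0`): in `K0`, or in the low window of a separator gate -/
theorem cl_K {c : ℝ} {cw : List ℂ} (C : ChW H q T K0 c cw) (St : StH H Rs q N T)
    (hR : ∀ s ∈ sX X, s ∈ BR η W M o n → ∃ c ∈ R, c.1 = Quot.mk (hullE (sX X)) s) {gR gL a b : ℤ}
    (lR : ∀ v ∈ Wn η W gR (2 * η) (-(10 * η)) (-(9 * η)), NE H R q T v)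
    (lL : ∀ v ∈ Wn η W gL (2 * η) (-(10 * η)) (-(9 * η)), NE H R q T v) {v : ℂ}
    (hv : v ∈ K0 ∨ v ∈ Wn η W gR (2 * η) (-(10 * η)) (-(9 * η)) ∨
      v ∈ Wn η W gL (2 * η) (-(10 * η)) (-(9 * η))) : Cl H R q T a b v := by
  rcases hv with h | h | h
  · exact Or.inr (Or.inl (low_K0 C St hR h))
  · exact Or.inr (Or.inl (lR v h))
  · exact Or.inr (Or.inl (lL v h))

end strand

end Crest.Agent.R143.OkHx697
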