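import Crest.Agent.R143.CorM_970

/-!
# Row 143 (S0194), RIG, box R6 (helper302): one place per type (note 3745), abstract form

`V` = charge of one full tile (function of the corridor), `W` = charge of the closed block minus the
inner block, restricted to the tile; `W = V` when the tile is strictly between the two touches.
* `one_q` : one environment
* `one_a` : integrated over the environments
* `one_bad` : crude bound of the bad environments
-/

set_option autoImplicit false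

noncomputable section

open scoped Classical

namespace Crest.Agent.R143.Onex302

open MeasureTheory
open Crest.Agent.R143.CorMx970

section quenched

variable {α β : Type*} {A : Finset α} {B : Finset β}

/-- the tile `l` is strictly between the touches of the polygon -/
def inn (r l : ℕ) (a' b' : β → ℕ) (τ : β) : ℝ := if a' τ + r + 2 ≤ l ∧ l + r + 2 < b' τ then 1 else 0

theorem inn_nonneg (r l : ℕ) (a' b' : β → ℕ) (τ : β) : 0 ≤ inn r l a' b' τ := by
  unfold inn; split_ifs <;> norm_num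

theorem inn_le_one (r l : ℕ) (a' b' : β → ℕ) (τ : β) : inn r l a' b' τ ≤ 1 := by
  unfold inn; split_ifs <;> norm_num

/-- **one environment** -/
theorem one_q {g : α → ℝ} (hg : ∀ σ ∈ A, 0 ≤ g σ) {V : α → ℂ} {W : α → β → ℂ}
    {a b : α → β → ℕ} {a' b' : β → ℕ} {r l : ℕ} {θ Q : ℝ}
    (hW : ∀ σ ∈ A, 0 < g σ → ∀ τ ∈ B, a σ τ + 2 ≤ l → l + 2 < b σ τ → W σ τ = V σ)
    (hθ : ∀ σ ∈ A, 0 < g σ → av B (far r a b a' b' σ) ≤ θ)
    (hQ : av A (fun σ => g σ * av B fun τ => ‖W σ τ‖ ^ 2) ≤ Q) :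
    av A (fun σ => g σ * ‖V σ‖ ^ 2) * (av B (inn r l a' b') - θ) ≤ Q := by
  refine le_trans ?_ hQ
  rw [← av_mulR']
  refine av_mono fun σ hσ => ?_
  rcases (hg σ hσ).eq_or_lt with h0 | h0
  · rw [← h0]; simp
  rw [mul_assoc]
  refine mul_le_mul_of_nonneg_left ?_ (hg σ hσ)
  have h1 : ∀ τ ∈ B, ‖V σ‖ ^ 2 * inn r l a' b' τ ≤
      ‖W σ τ‖ ^ 2 + ‖V σ‖ ^ 2 * far r a b a' b' σ τ := by
    intro τ hτ
    by_cases hf : (a σ τ ≤ a' τ + r ∧ a' τ ≤ a σ τ + r) ∧ (b σ τ ≤ b' τ + r ∧ b' τ ≤ b σ τ + r)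
    · unfold far
      rw [if_pos hf, mul_zero, add_zero]
      unfold inn
      by_cases hi : a' τ + r + 2 ≤ l ∧ l + r + 2 < b' τ
      · rw [if_pos hi, mul_one, hW σ hσ h0 τ hτ (by omega) (by omega)]
      · rw [if_neg hi, mul_zero]; positivity
    · unfold far
      rw [if_neg hf, mul_one]
      have h2 := mul_le_mul_of_nonneg_left (inn_le_one r l a' b' τ) (sq_nonneg ‖V σ‖)
      have h3 := sq_nonneg ‖W σ τ‖
      linarith
  have h2 := av_mono h1
  rw [av_add, av_mulL', av_mulL'] at h2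
  have h3 := mul_le_mul_of_nonneg_left (hθ σ hσ h0) (sq_nonneg ‖V σ‖)
  rw [mul_sub]
  linarith

end quenched

section annealed

variable {Ω : Type*} [MeasurableSpace Ω] {P : Measure Ω}

/-- **integrated form** -/
theorem one_a [IsProbabilityMeasure P] {w2 q Qm : Ω → ℝ} {bad : Set Ω} {θ ρ K : ℝ}
    (iw : Integrable w2 P) (w0 : ∀ ω, 0 ≤ w2 ω)
    (iwq : Integrable (fun ω => w2 ω * q ω) P) (ind : ∫ ω, w2 ω * q ω ∂P = (∫ ω, w2 ω ∂P) * ∫ ω, q ω ∂P)
    (half : 1 / 2 ≤ ∫ ω, q ω ∂P) (iQ : Integrable Qm P)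
    (ib : Integrable (fun ω => w2 ω * bad.indicator 1 ω) P)
    (main : ∀ᵐ ω ∂P, w2 ω * (q ω - θ) ≤ Qm ω + w2 ω * bad.indicator 1 ω)
    (hQ : ∫ ω, Qm ω ∂P ≤ K) (hb : ∫ ω, w2 ω * bad.indicator 1 ω ∂P ≤ ρ) (hθ : θ ≤ 1 / 4) :
    ∫ ω, w2 ω ∂P ≤ 4 * (K + ρ) := by
  have e : (fun ω => w2 ω * (q ω - θ)) = fun ω => w2 ω * q ω - w2 ω * θ := by
    funext ω; ring
  have h1 := integral_mono_ae (μ := P) (f := fun ω => w2 ω * (q ω - θ))
    (g := fun ω => Qm ω + w2 ω * bad.indicator 1 ω)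
    (by rw [e]; exact iwq.sub (iw.mul_const _)) (iQ.add ib) main
  rw [e, integral_sub iwq (iw.mul_const _), integral_add iQ ib, ind, integral_mul_const] at h1
  have h2 : 0 ≤ ∫ ω, w2 ω ∂P := integral_nonneg w0
  nlinarith

/-- crude bound of the bad environments -/
theorem one_bad {w2 X : Ω → ℝ} {bad : Set Ω} (hbad : MeasurableSet bad)
    (iw : AEStronglyMeasurable w2 P) (w0 : ∀ ω, 0 ≤ w2 ω) (hX : ∀ ω, w2 ω ≤ X ω)
    (iX : Integrable (fun ω => X ω ^ 2) P) [IsFiniteMeasure P] :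
    Integrable (fun ω => w2 ω * bad.indicator 1 ω) P ∧
      ∫ ω, w2 ω * bad.indicator 1 ω ∂P ≤ √(P.real bad) * √(∫ ω, X ω ^ 2 ∂P) := by
  have ib : Integrable (bad.indicator (1 : Ω → ℝ)) P :=
    (integrable_const (1 : ℝ)).indicator hbad
  obtain ⟨i1, b1⟩ := int_sqrt_le ib iX
    (fun ω => Set.indicator_nonneg (fun _ _ => zero_le_one) ω) (fun ω => sq_nonneg (X ω))
  have e3 : ∫ ω, bad.indicator (1 : Ω → ℝ) ω ∂P = P.real bad := by
    rw [integral_indicator_one hbad]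
  rw [e3] at b1
  have hle : ∀ ω, w2 ω * bad.indicator 1 ω ≤ √(bad.indicator 1 ω * X ω ^ 2) := by
    intro ω
    by_cases hω : ω ∈ bad
    · rw [Set.indicator_of_mem hω, Pi.one_apply, mul_one, one_mul]
      rw [Real.sqrt_sq ((w0 ω).trans (hX ω))]
      exact hX ω
    · rw [Set.indicator_of_notMem hω, mul_zero]
      exact Real.sqrt_nonneg _
  have hnn : ∀ ω, 0 ≤ w2 ω * bad.indicator 1 ω := fun ω =>
    mul_nonneg (w0 ω) (Set.indicator_nonneg (fun _ _ => zero_le_one) ω)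
  have im : AEStronglyMeasurable (fun ω => w2 ω * bad.indicator 1 ω) P :=
    iw.mul ib.aestronglyMeasurable
  have i2 : Integrable (fun ω => w2 ω * bad.indicator 1 ω) P :=
    i1.mono' im (ae_of_all _ fun ω => by rw [Real.norm_of_nonneg (hnn ω)]; exact hle ω)
  exact ⟨i2, (integral_mono i2 i1 hle).trans b1⟩

end annealed

end Crest.Agent.R143.Onex302
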