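import Crest.Agent.R143.FinI_894
import Crest.Agent.R143.RigN_377
import Crest.Agent.R143.BadI_133
import Crest.Agent.R143.DispZ_840

/-!
# Row 143 (S0194): `Op Z u w` from four environment level inputs (helper894)

`Z` any template with `PosP Z`; numbers of 377 (`RigN_377`), bad set of 133 (`BadI_133`), displacement
of 840.

* `MomP`, `QP`, `ConP`, `QuenP` : the four inputs (854, 377, 923 / 930, 597)
* **`op_of`** : `Op Z u w`; **`leaf_of_inputs`** : the row
-/

set_option autoImplicit false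

noncomputable section

open scoped Classical

namespace Crest.Agent.R143.OpIx894

open MeasureTheory Set Filter Topology
open scoped ENNReal
open Crest.ProbabilityR.Voronoi
open Crest.Agent.R143.PP0x831 Crest.Agent.R143.B0x346
open Crest.Agent.R143.Finx894
open Crest.Agent.R143.PolyUx346 (Poly)
open Crest.Agent.R143.IndLoc3x279 (clr)
open Crest.Agent.R143.EnvIx279
open Crest.Agent.R143.RigCx654 (dI tI)
open Crest.Agent.R143.InpJx609 (mv)
open Crest.Agent.R143.RigPx854
open Crest.Agent.R143.RigZdx609 (TData tA tB zL gW VL g0 et)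
open Crest.Agent.R143.RigZx609
open Crest.Agent.R143.CorEx133 (RU UU SU)
open Crest.Agent.R143.QuenSx654 (SmE)
open Crest.Agent.R143.SpMx169 (fP fP_meas)
open Crest.Agent.R143.BadIx133 (Pm Gd)
open Crest.Agent.R143.RigNx377
open Crest.Agent.R143.DispZx840

variable (Z : TData) (u : Poly) (w : ZMod 3)

/-- (9) second moments (854 MomI) -/
def MomP : Prop := ∃ C1 : ℝ, 0 ≤ C1 ∧ Ev u fun N ε hn he => ∀ l ∈ Finset.range (nT u w N),
    Integrable (fun ω => gW Z u w hn he (cfg ε ω) * ‖VL Z fP u w ε hn l (cfg ε ω)‖ ^ 2)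
      sampleLaw ∧
    ∫ ω, gW Z u w hn he (cfg ε ω) * ‖VL Z fP u w ε hn l (cfg ε ω)‖ ^ 2 ∂sampleLaw ≤
      (C1 * hN N) ^ 2 * g0 Z u w hn he

/-- (9) quenched majorant (377 RigQ) -/
def QP (Q : ℕ → ℝ → Sample → ℝ) : Prop := ∃ C3 : ℝ, Ev u fun N ε hn he =>
    (∀ ω, 0 ≤ Q N ε ω) ∧ Integrable (Q N ε) sampleLaw ∧
    ∫ ω, Q N ε ω ∂sampleLaw ≤ C3 ^ 2 * hN N * g0 Z u w hn he

/-- the good environments: 133's, for all the parameters of the list -/
def Ok (F : ℕ → List Pm) (N : ℕ) (ε : ℝ) (ω : Sample) : Prop := Gd u (F N) ε ω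

/-- 930's environment, and everybody's list -/
def badL (F : ℕ → List Pm) (_ : ℝ) (N : ℕ) (ε : ℝ) : Set Sample :=
  {ω | ¬ Ok u F N ε ω}

/-- R10 (923 UKin, 930): unique hit at the good environments -/
def ConP (F : ℕ → List Pm) : Prop := ∀ᶠ e0 : ℝ in 𝓝[>] 0, Ev u fun N ε hn he =>
    ∀ᵐ ω ∂sampleLaw, NumW u 13 e0 N → NumE N ε → Ok u F N ε ω →
      ∀ β ⊆ SU u ε ω, 0 < gW Z u w hn he (clr (SU u ε ω) β) →
        ∃ A : ZMod 3 → Set ℂ, R10Nx930.Con C0 c0 K0 u ε (hN N) ω A u.P

/-- (1) - (7) quenched data at the good environments (597 QuenI) -/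
def QuenP (F : ℕ → List Pm) (k : ℕ → ℝ) (c : ℕ) (Q : ℕ → ℝ → Sample → ℝ) : Prop :=
  ∀ᶠ e0 : ℝ in 𝓝[>] 0, Ev u fun N ε hn he => ∀ᵐ ω ∂sampleLaw,
    NumW u 13 e0 N → NumE N ε → Ok u F N ε ω → ∀ E : ℝ, SmE ε ω (UU u) (k N) E →
      QuenX (nT u w N) (rF 13 N) c (SU u ε ω) (gW Z u w hn he) (VL Z fP u w ε hn)
        (tA u w N ε) (tB u w N ε) om (tI (mv u ε ω) (w + 1)) E (a2 u e0 N ε) (th u e0 N ε)
        (Q N ε ω)

variable {Z u w}

theorem hbadL (F : ℕ → List Pm) : ∀ᶠ e0 : ℝ in 𝓝[>] 0, ∀ᶠ N : ℕ in atTop, ∀ η > 0,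
    ∀ᶠ ε : ℝ in 𝓝[>] 0, sampleLaw (badL u F e0 N ε) ≤ ENNReal.ofReal η :=
  Eventually.of_forall fun _ => Eventually.of_forall fun N => BadIx133.gd_small u (F N)

/-- **`Op Z u w`** -/
theorem op_of {F : ℕ → List Pm} {k : ℕ → ℝ} {c : ℕ} {Q : ℕ → ℝ → Sample → ℝ}
    (hp : PosP Z) (hk : ∀ N, 0 < k N) (hm : MomP Z u w) (hq : QP Z u w Q) (hc : ConP Z u w F)
    (hQ : QuenP Z u w F k c Q) : Nonempty (Op Z u w) := by
  obtain ⟨C1, hC1, hm⟩ := hm
  obtain ⟨C3, hq⟩ := hq
  have hd := disp_op (Z := Z) hp (u := u) (w := w) (C := C0) (c := c0) (K := K0)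
    (bad := badL u F) (zero_le_one.trans C0_ge) c0_pos K0_nonneg
    (by
      unfold Ev at hm ⊢
      filter_upwards [hm] with N h1
      filter_upwards [h1] with ε h2 hn he l hl
      exact (h2 hn he l hl).1)
    (hbadL F)
    (by
      filter_upwards [hc, ev_num u 13] with e0 h1 h2
      have h3 := h1.and h2
      unfold Ev at h3 ⊢
      filter_upwards [h3] with N h4
      filter_upwards [h4] with ε h5 hn he
      obtain ⟨h6, h7⟩ := h5 hn he
      filter_upwards [h6] with ω h8 h9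
      exact h8 h7.1 h7.2 (not_not.1 h9))
  exact ⟨{ C1 := C1
           C3 := C3
           C7 := 2 * (13 : ℕ) + 3
           k := k
           r := fun _ N => rF 13 N
           c := c
           Q := Q
           bad := badL u F
           a2 := a2 u
           θ := th u
           cd := cZ C0 c0 K0 u w (rhoZ Z u w (badL u F))
           hC1 := hC1
           hk := hk
           hr := rF_hr 13
           mom := hm
           hQ := hq
           hbad := hbadL F
           ha := a2_t3 u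
           ha0 := a2_ev u
           hθ := th_t3 u
           hθ0 := th_ev u
           hcd := hd.1
           quen := by
             filter_upwards [hQ, ev_num u 13] with e0 h1 h2
             have h3 := h1.and h2
             unfold Ev at h3 ⊢
             filter_upwards [h3] with N h4
             filter_upwards [h4] with ε h5 hn he
             obtain ⟨h6, h7⟩ := h5 hn he
             filter_upwards [h6] with ω h8 h9
             exact h8 h7.1 h7.2 (not_not.1 h9)
           disp := hd.2 }⟩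

/-- **the row from the four inputs** -/
theorem leaf_of_inputs (hp : PosP Z)
    (h : ∀ (u : Poly) (w : ZMod 3), ∃ (F : ℕ → List Pm) (k : ℕ → ℝ) (c : ℕ)
      (Q : ℕ → ℝ → Sample → ℝ), (∀ N, 0 < k N) ∧ MomP Z u w ∧ QP Z u w Q ∧ ConP Z u w F ∧
        QuenP Z u w F k c Q) : Leaf894 :=
  FinIx894.leaf_of_op hp fun u w => by
    obtain ⟨F, k, c, Q, h1, h2, h3, h4, h5⟩ := h u w
    exact op_of hp h1 h2 h3 h4 h5

end Crest.Agent.R143.OpIx894
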