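import Crest.Agent.R143.FinI_894
import Crest.Agent.R143.RigX_609
import Crest.Agent.R143.QuenI_597

/-!
# Row 143 (S0194): 609's inner input from the data of one environment (helper894)

* **`EnvD`** : data of one environment: 597's `Sx` (831 CorrD), `UKin` of the giants (923), `near`
  (798), `q` (810 / 829)
* `EnvD.r10`, `EnvD.con` : R10 (930) for every colouring with positive weight; `EnvD.quen` : `QuenX`;
  **`EnvD.inn`** : 609's `InnP`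
* **`EnvP`** : `EnvD` at almost every environment of the list `L N`; **`inn_env : EnvP → Inn`**
* **`rig_env`**, **`leaf_env`** : RIG, and the row, from `PosP`, `Mom`, `Qok`, `EnvP`
-/

set_option autoImplicit false

noncomputable section

open scoped Classical

namespace Crest.Agent.R143.OpJx894

open MeasureTheory Set Filter Topology
open scoped ENNReal
open Crest.ProbabilityR.Voronoi
open Crest.Agent.R143.PP0x831 Crest.Agent.R143.B0x346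
open Crest.Agent.R143.DelGx806 Crest.Agent.R143.DelRx806 Crest.Agent.R143.FinCx811
  Crest.Agent.R143.Resax778 Crest.Agent.R143.SmallAx304 Crest.Agent.R143.C2SDx395
open Crest.Agent.R143.Frame1x395 Crest.Agent.R143.Frame2x395 Crest.Agent.R143.Frame10x395
open Crest.Agent.R143.Finx894
open Crest.Agent.R143.PolyUx346 (Poly)
open Crest.Agent.R143.NetUx346 Crest.Agent.R143.NetVx346
open Crest.Agent.R143.CorMx970 (av far)
open Crest.Agent.R143.IndLoc3x279 (clr)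
open Crest.Agent.R143.EnvIx279
open Crest.Agent.R143.Uniqx323 (Zn)
open Crest.Agent.R143.RigCx654 (dI tI)
open Crest.Agent.R143.InpJx609 (mv)
open Crest.Agent.R143.RigPx854 (ly ly_spec mN mN_hN hN hN_pos nT)
open Crest.Agent.R143.RigZdx609 (TData tA tB zL gW VL g0 et et_pos)
open Crest.Agent.R143.RigZx609
open Crest.Agent.R143.CorEx133 (RU UU SU CorEnv)
open Crest.Agent.R143.QuenSx654 (SmE)
open Crest.Agent.R143.SpMx169 (fP fP_meas)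
open Crest.Agent.R143.R10Nx930 (Con Du)
open Crest.Agent.R143.R10Px923 (UKin Nw)
open Crest.Agent.R143.RigNx377
open Crest.Agent.R143.RigYx609 (CEs OkT)
open Crest.Agent.R143.RigXx609
open Crest.Agent.R143.QuenIx597

/-- **the data of one environment** -/
structure EnvD (Z : TData) (u : Poly) (w : ZMod 3) {N : ℕ} {ε : ℝ} (hn : u.n + 4 ≤ N)
    (he : 0 < ε) (ω : Sample) (hS : GP (SU u ε ω : Set ℂ)) (h3 : 3 ≤ (SU u ε ω).card)
    (h₀ : Cs hS) (R : Set (Cs hS)) (Zz : Zn (rc0 hS)) (d₀ : D0 (SU u ε ω)) (Qq : ℝ) : Prop where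
  /-- the system of the out strands (831) -/
  X : Sx w Z hn he hS h3 h₀ R Zz
  /-- the giants (923) -/
  uk : ∀ σ ∈ (SU u ε ω).powerset, 0 < gW Z u w hn he (clr (SU u ε ω) σ) →
    ∃ (o : ℂ × ℂ × ℂ) (i : ZMod 3) (A1 B1 w' a0 a1 b0 b1 m' : ℝ), A1 ≤ B1 ∧ B1 < hN N ∧
      Nw (hN N) √ε w' a0 a1 b0 b1 m' ∧
      UKin (SU u ε ω) (GI hS h3 w N h₀ R Zz σ) o i u.P (hN N) A1 B1 w' a0 a1 b0 b1 m'
        (ly u N).W (ly u N).A (ly u N).e
  /-- the tiles of the touches (798) -/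
  near : ∀ σ ∈ (SU u ε ω).powerset, 0 < gW Z u w hn he (clr (SU u ε ω) σ) →
    av (SU u ε ω).powerset (far (2 * rI 13 N + 2) (kaI hS h3 w N h₀ R Zz)
      (kbI hS h3 w N h₀ R Zz) (fun τ => nT u w N - tB u w N ε (clr (SU u ε ω) τ))
      (fun τ => nT u w N - tA u w N ε (clr (SU u ε ω) τ)) σ) ≤ 4 * th0 u N
  /-- the quenched majorant (810 / 829) -/
  q : ∑ l ∈ Finset.range (nT u w N), av (SU u ε ω).powerset (fun σ =>
      gW Z u w hn he (clr (SU u ε ω) σ) * av (SU u ε ω).powerset fun τ =>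
        ‖WdI hS h3 w N h₀ R Zz d₀ l σ τ‖ ^ 2) ≤ Qq

section one

variable {Z : TData} {u : Poly} {w : ZMod 3} {N : ℕ} {ε : ℝ} {hn : u.n + 4 ≤ N} {he : 0 < ε}
  {ω : Sample} {hS : GP (SU u ε ω : Set ℂ)} {h3 : 3 ≤ (SU u ε ω).card} {h₀ : Cs hS}
  {R : Set (Cs hS)} {Zz : Zn (rc0 hS)} {d₀ : D0 (SU u ε ω)} {Qq e0 : ℝ}

/-- **R10 for the giants** -/
theorem EnvD.r10 (D : EnvD Z u w hn he ω hS h3 h₀ R Zz d₀ Qq) (hW : NumW u 13 e0 N)
    (hE : NumE N ε) (C : EnvN u N ε ω) {σ : Finset ℂ} (hσ : σ ∈ (SU u ε ω).powerset)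
    (hg : 0 < gW Z u w hn he (clr (SU u ε ω) σ)) :
    Vin (SU u ε ω) u.P √ε ⊆ ff (SU u ε ω) (GI hS h3 w N h₀ R Zz σ) ∧
      ∀ Wd : Set ℂ, u.P ⊆ Wd → Con C0 c0 K0 u ε (hN N) ω (GI hS h3 w N h₀ R Zz σ) Wd := by
  obtain ⟨o, i, A1, B1, w', a0, a1, b0, b1, m', h1, h2, h3, h4⟩ := D.uk σ hσ hg
  exact r10s.2.2.2.2.2.2 u ε (hN N) (c2c u N) (dU u) ω (hN_pos N) hW.h100 le_rfl
    (c2c_mul u N).le hE.c1 hE.s5 C (mN u N) _ _ _ _ _ (ly_spec hn) (mN_hN (by omega)) _ o i A1 B1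
    w' a0 a1 b0 b1 m' h1 h2 h3 h4

/-- 840's `con` -/
theorem EnvD.con (D : EnvD Z u w hn he ω hS h3 h₀ R Zz d₀ Qq) (hW : NumW u 13 e0 N)
    (hE : NumE N ε) (C : EnvN u N ε ω) :
    ∀ β ⊆ SU u ε ω, 0 < gW Z u w hn he (clr (SU u ε ω) β) →
      ∃ A : ZMod 3 → Set ℂ, Con C0 c0 K0 u ε (hN N) ω A u.P := fun _ hβ hg =>
  ⟨_, (D.r10 hW hE C (Finset.mem_powerset.2 hβ) hg).2 _ subset_rfl⟩

/-- **`QuenX`** -/
theorem EnvD.quen (D : EnvD Z u w hn he ω hS h3 h₀ R Zz d₀ Qq) (hW : NumW u 13 e0 N)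
    (hE : NumE N ε) (hd : 100 * √ε ≤ et N) (C : EnvN u N ε ω) {E : ℝ}
    (hSm : SmE ε ω (UU u) (18 * et N) E) :
    QuenX (nT u w N) (rF 13 N) 3 (SU u ε ω) (gW Z u w hn he) (VL Z fP u w ε hn)
      (tA u w N ε) (tB u w N ε) om (tI (mv u ε ω) (w + 1)) E (a2 u e0 N ε) (th u e0 N ε) Qq :=
  quen_u D.X C hd hSm d₀ (et0_pos N).le (fun σ hσ hg => by
    obtain ⟨h1, h2⟩ := D.r10 hW hE C hσ hg
    exact ⟨h1, ((h2 u.P subset_rfl).1 (et0 N) hW.lo hW.up).1⟩) D.near D.q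

/-- **609's inner input at one environment** -/
theorem EnvD.inn {Q : ℕ → ℝ → Sample → ℝ} (D : EnvD Z u w hn he ω hS h3 h₀ R Zz d₀ (Q N ε ω))
    (hW : NumW u 13 e0 N) (hE : NumE N ε) (hd : 100 * √ε ≤ et N) (C : EnvN u N ε ω) :
    InnP Z u w Q e0 N ε hn he ω :=
  ⟨fun _ hSm => D.quen hW hE hd C hSm, D.con hW hE C⟩

end one

/-! ### all environments -/

/-- **the data at almost every environment of the list** -/
def EnvP (Z : TData) (u : Poly) (w : ZMod 3) (L : ℕ → List (ℝ × ℝ × ℝ))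
    (Q : ℕ → ℝ → Sample → ℝ) : Prop :=
  ∀ e0 : ℝ, Ev u fun N ε hn he => NumW u 13 e0 N → NumE N ε →
    ∀ᵐ ω ∂sampleLaw, CEs u ε (L N) ω → ∃ (hS : GP (SU u ε ω : Set ℂ))
      (h3 : 3 ≤ (SU u ε ω).card) (h₀ : Cs hS) (R : Set (Cs hS)) (Zz : Zn (rc0 hS))
      (d₀ : D0 (SU u ε ω)), EnvD Z u w hn he ω hS h3 h₀ R Zz d₀ (Q N ε ω)

theorem mesh100 (N : ℕ) : ∀ᶠ ε : ℝ in 𝓝[>] 0, 100 * √ε ≤ et N := by
  filter_upwards [RigYx609.mesh_ok (hN_pos N) one_pos] with ε h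
  unfold et
  linarith [h.2.2, Real.sqrt_nonneg ε]

/-- **609's inner input** -/
theorem inn_env {Z : TData} {u : Poly} {w : ZMod 3} {L : ℕ → List (ℝ × ℝ × ℝ)}
    {Q : ℕ → ℝ → Sample → ℝ} (hL : ∀ N, (K0, c2c u N, dU u) ∈ L N) (h : EnvP Z u w L Q) :
    Inn Z u w L Q := by
  intro e0
  have h1 := h e0
  unfold Ev at h1 ⊢
  filter_upwards [h1] with N h2
  filter_upwards [h2, mesh100 N] with ε h3 h4 hn he hW hE
  filter_upwards [h3 hn he hW hE] with ω h5 h6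
  obtain ⟨hS, h3, h₀, R, Zz, d₀, D⟩ := h5 h6
  exact D.inn hW hE h4 (h6 _ (hL N))

/-- **RIG** -/
theorem rig_env {Z : TData} (hp : PosP Z) (hm : ∀ u w, ∃ C1 : ℝ, 0 ≤ C1 ∧ Mom Z u w C1)
    (h : ∀ u w, ∃ (C3 : ℝ) (Q : ℕ → ℝ → Sample → ℝ) (L : ℕ → List (ℝ × ℝ × ℝ)),
      Qok Z u w C3 Q ∧ (∀ᶠ N in atTop, ∀ t ∈ L N, OkT t) ∧
        (∀ N, (K0, c2c u N, dU u) ∈ L N) ∧ EnvP Z u w L Q) : FinCx894.Rig :=
  rig_of_innZ hp hm fun u w => by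
    obtain ⟨C3, Q, L, h1, h2, h3, h4⟩ := h u w
    exact ⟨C3, Q, L, h1, h2, inn_env h3 h4⟩

/-- **the row** -/
theorem leaf_env {Z : TData} (hp : PosP Z) (hm : ∀ u w, ∃ C1 : ℝ, 0 ≤ C1 ∧ Mom Z u w C1)
    (h : ∀ u w, ∃ (C3 : ℝ) (Q : ℕ → ℝ → Sample → ℝ) (L : ℕ → List (ℝ × ℝ × ℝ)),
      Qok Z u w C3 Q ∧ (∀ᶠ N in atTop, ∀ t ∈ L N, OkT t) ∧
        (∀ N, (K0, c2c u N, dU u) ∈ L N) ∧ EnvP Z u w L Q) : Leaf894 :=
  FinHx894.leaf_rig (rig_env hp hm h)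

end Crest.Agent.R143.OpJx894
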