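import Crest.Agent.R143.FinL_894
import Crest.Agent.R143.QuenJ_597
import Crest.Agent.R143.SxZ_832
import Crest.Agent.R143.UKinS_571
import Crest.Agent.R143.PLL_228
import Crest.Agent.R143.BrZ_609
import Crest.Agent.R143.QFD_490
import Crest.Agent.R143.StgI_432

/-!
# Row 143 (S0194): the data of almost every good environment (helper894)

* **`envD_of`** : 894's `EnvD` from 597's `Sx` (with 832's strips), 571's `uk_env`, 597's `Sx.near`,
  `Sx.q`, and `TileI`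
* **`CurZ`** : the curtain (228's `CurI`) at almost every good environment, the only hypothesis
* **`envZ_of : CurZ → EnvZ`**; **`leaf_cur`** : the row from `CurZ` (854, 490 : second moments)
-/

set_option autoImplicit false

noncomputable section

open scoped Classical

namespace Crest.Agent.R143.OpKx894

open MeasureTheory Set Filter Topology
open scoped ENNReal
open Crest.ProbabilityR.Voronoi
open Crest.Agent.R143.PP0x831 Crest.Agent.R143.B0x346
open Crest.Agent.R143.DelGx806 Crest.Agent.R143.DelRx806 Crest.Agent.R143.FinCx811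
  Crest.Agent.R143.Resax778 Crest.Agent.R143.SmallAx304 Crest.Agent.R143.C2SDx395
open Crest.Agent.R143.Frame1x395 Crest.Agent.R143.Frame2x395 Crest.Agent.R143.Frame10x395
open Crest.Agent.R143.Finx894 Crest.Agent.R143.FinJx894 Crest.Agent.R143.FinKx894
  Crest.Agent.R143.FinLx894
open Crest.Agent.R143.PolyUx346 (Poly)
open Crest.Agent.R143.NetUx346 Crest.Agent.R143.NetVx346
open Crest.Agent.R143.CorMx970 (av far)
open Crest.Agent.R143.IndLoc3x279 (clr)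
open Crest.Agent.R143.Dbl2x609 Crest.Agent.R143.Janx304 Crest.Agent.R143.ColSumx304
  Crest.Agent.R143.Lawx831
open Crest.Agent.R143.Uniqx323 (Zn)
open Crest.Agent.R143.RcTx422 (Hc RC Hc_eq)
open Crest.Agent.R143.RigPx854 (ly ly_spec mN mN_hN hN hN_pos nT)
open Crest.Agent.R143.RigZdx609 (TData tA tB zL gW VL g0 et et_pos)
open Crest.Agent.R143.RigZx609
open Crest.Agent.R143.CorEx133 (RU UU SU CorEnv)
open Crest.Agent.R143.R10Nx930 (Con Du)
open Crest.Agent.R143.R10Px923 (UKin Nw)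
open Crest.Agent.R143.RigNx377
open Crest.Agent.R143.RigQx377
open Crest.Agent.R143.RigYx609 (CEs OkT)
open Crest.Agent.R143.RigXx609
open Crest.Agent.R143.OpJx894
open Crest.Agent.R143.QuenIx597
open Crest.Agent.R143.SxZx832

section one

variable {Z : TData} {u : Poly} {w : ZMod 3} {N : ℕ} {ε : ℝ} {hn : u.n + 4 ≤ N} {he : 0 < ε}
  {ω : Sample} {hS : GP (SU u ε ω : Set ℂ)} {h3 : 3 ≤ (SU u ε ω).card} {h₀ : Cs hS}
  {Zz : Zn (rc0 hS)} {e0 : ℝ}

/-- R10 for the giants -/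
theorem r10_of (X : Sx w Z hn he hS h3 h₀ (Rc hS w N) Zz) (hW : NumW u 13 e0 N) (hE : NumE N ε)
    (hd : 100 * √ε ≤ et N) (C : EnvN u N ε ω) : ∀ σ ∈ (SU u ε ω).powerset,
    0 < gW Z u w hn he (clr (SU u ε ω) σ) →
      Vin (SU u ε ω) u.P √ε ⊆ ff (SU u ε ω) (GI hS h3 w N h₀ (Rc hS w N) Zz σ) ∧
      Con C0 c0 K0 u ε (hN N) ω (GI hS h3 w N h₀ (Rc hS w N) Zz σ) u.P := by
  intro σ hσ hg
  obtain ⟨o, i, A1, B1, w', a0, a1, b0, b1, m', h1, h2, h3, h4⟩ :=
    UKinSx571.uk_env X C hd σ hσ hg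
  obtain ⟨h5, h6⟩ := r10s.2.2.2.2.2.2 u ε (hN N) (c2c u N) (dU u) ω (hN_pos N) hW.h100 le_rfl
    (c2c_mul u N).le hE.c1 hE.s5 C (mN u N) _ _ _ _ _ (ly_spec hn) (mN_hN (by omega)) _ o i A1 B1
    w' a0 a1 b0 b1 m' h1 h2 h3 h4
  exact ⟨h5, h6 _ subset_rfl⟩

/-- **the data of one environment** -/
theorem envD_of (X : Sx w Z hn he hS h3 h₀ (Rc hS w N) Zz) (hW : NumW u 13 e0 N)
    (hE : NumE N ε) (hd : 100 * √ε ≤ et N) (C : EnvN u N ε ω) (hm : 40 ≤ mN u N)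
    (hε2 : ε ≤ 2 * hN N) (hA : ∫⁻ ω, (Z.tpl N he).A (cfg ε ω) ∂sampleLaw ≠ 0)
    (hi : ∀ c, Inj ε (toPos ω) c)
    (T : ∀ l < nT u w N, TileI w Z hn he hS h3 h₀ (Rc hS w N) Zz l) (d₀ : D0 (SU u ε ω)) :
    EnvD Z u w hn he ω hS h3 h₀ (Rc hS w N) Zz d₀ (Qz Z u w N ε ω) where
  X := X
  uk := UKinSx571.uk_env X C hd
  near := X.near C hW hE (r10_of X hW hE hd C)
  q := X.q C hd hm hε2 hA hi T d₀

end one

/-- **the curtain** at almost every good environment -/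
def CurZ : Prop := ∀ (u : Poly) (w : ZMod 3), Ev u fun N ε hn he =>
  ∀ᵐ ω ∂sampleLaw, ∀ (C : EnvN u N ε ω) (hd : 100 * √ε ≤ et N), 40 ≤ mN u N → NumE N ε →
    ∀ (hS : GP (SU u ε ω : Set ℂ)) (h3 : 3 ≤ (SU u ε ω).card) (h₀ : Cs hS),
      Sx w Z hn he hS h3 h₀ (Rc hS w N) (Zq hS hn C hd w J2_l J2_r h₀) →
        PLLx228.CurI w Z hn he hS h3 (Rc hS w N) (Zq hS hn C hd w J2_l J2_r h₀)

theorem mN40 {u : Poly} {e0 : ℝ} {N : ℕ} (h : NumW u 13 e0 N) : 40 ≤ mN u N := by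
  have h1 := h.r4
  have h2 := h.lo
  have h0 := hN_pos N
  have h3 : 16 ≤ ⌊et0 N / hN N⌋₊ := Nat.le_floor (by
    rw [le_div_iff₀ h0]
    push_cast
    linarith)
  have h4 : 29 ≤ rI 13 N := by
    unfold rI
    omega
  omega

/-- **(II)** -/
theorem envZ_of (hc : CurZ) : EnvZ := by
  intro u w
  refine ⟨fun N => [(K0, c2c u N, dU u)], ?_, ?_, ?_⟩
  · refine Eventually.of_forall fun N t ht => ?_
    rw [List.mem_singleton.1 ht]
    exact ⟨K0_nonneg, c2c_pos u N, dU_pos u⟩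
  · exact fun N => List.mem_singleton.2 rfl
  · intro e0
    have h1 := hc u w
    unfold Ev at h1 ⊢
    obtain ⟨cc, hcc, c1, hc1, hpos⟩ := posZ
    filter_upwards [h1] with N h2
    filter_upwards [h2, mesh100 N, aeZ N, hpos N,
      (tendsto_id.mono_left nhdsWithin_le_nhds : Tendsto (fun ε : ℝ => ε) (𝓝[>] 0) (𝓝 0)).eventually
        (gt_mem_nhds (show (0 : ℝ) < 2 * hN N by have := hN_pos N; positivity))]
      with ε h3 h4 h5 h6 h7 hn he hW hE
    have hA : ∫⁻ ω, (Z.tpl N he).A (cfg ε ω) ∂sampleLaw ≠ 0 := by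
      intro h
      have h8 := (h6 he).2
      rw [h] at h8
      exact absurd (ENNReal.ofReal_eq_zero.1 (le_antisymm h8 zero_le)) (not_le.2 hc1)
    filter_upwards [h3 hn he, sx_ae (u := u) Z hn he (h5 he) h4, ae_injω he] with ω k1 k2 k3 k4
    have C : EnvN u N ε ω := k4 _ (List.mem_singleton.2 rfl)
    obtain ⟨-, h₀, hh, X⟩ := k2 _ _ _ C C.gpS C.card w
    have T := PLLx228.tileI_of X C h4 (mN40 hW) (BrZx609.Rc_RC hn C)
      (k1 C h4 (mN40 hW) hE C.gpS C.card h₀ X)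
    obtain ⟨d₀⟩ := StgIx432.exists_dart C.gpS C.card
    exact ⟨C.gpS, C.card, h₀, _, _, d₀, envD_of X hW hE h4 C (mN40 hW) h7.le hA k3 T d₀⟩

/-- **the row** -/
theorem leaf_cur (hc : CurZ) : Leaf894 := leaf_q QFDx490.qfd (envZ_of hc)

end Crest.Agent.R143.OpKx894
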