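import Crest.Agent.R143.Jump_697
import Crest.Agent.R143.GauB_749
import Crest.Agent.R143.RE0_723

/-!
# Row 143 (S0194), CONT leaf K1: the side function of a chain of sites (helper40)

* `uc l a b` : number of passages of the chain `l` through the edge `{a, b}`
* `wd l t` : winding number mod 2 of a closed chain around the triangle `t`; `wd_rot`, `wd_jump`,
  `wd_hull`
* `star` : a function of the triangles without jumps at the edges at `v` is constant on the
  triangles at `v`
* `side` : **side function** of a chain of Delaunay edges between two hull sites, with its values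
  at the hull edges (`SideF`)
* `SideF.star`, `SideF.cross`, `SideF.pth`, `SideF.low_site`, `SideF.high_site`, `SideF.nodup`
* `exists_chain` : `Pth S V x y` gives a simple list of sites of `V`
-/

set_option autoImplicit false

noncomputable section

open scoped Classical

namespace Crest.Agent.R143.Sidex40

open Crest.Agent.R143.B0x346 Crest.Agent.R143.DelGx806 Crest.Agent.R143.DelRx806
open Crest.Agent.R143.ToolWx838 Crest.Agent.R143.Blkx838 Crest.Agent.R143.Planarx54
open Crest.Agent.R143.Jumpx697

variable {S : Finset ℂ}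

/-- number of passages of the chain `l` through the edge `{a, b}` -/
def uc (l : List ℂ) (a b : ℂ) : ℕ := (prs l).count (a, b) + (prs l).count (b, a)

theorem uc_comm (l : List ℂ) (a b : ℂ) : uc l a b = uc l b a := Nat.add_comm _ _

theorem uc_zero {l : List ℂ} {a b : ℂ} (h1 : (a, b) ∉ prs l) (h2 : (b, a) ∉ prs l) :
    uc l a b = 0 := by
  unfold uc
  rw [List.count_eq_zero_of_not_mem h1, List.count_eq_zero_of_not_mem h2]

theorem uc_left {l : List ℂ} {a b : ℂ} (h : a ∉ l) : uc l a b = 0 :=
  uc_zero (fun h' => h (mem_of_prs h').1) (fun h' => h (mem_of_prs h').2)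

theorem uc_right {l : List ℂ} {a b : ℂ} (h : b ∉ l) : uc l a b = 0 := by
  rw [uc_comm]; exact uc_left h

/-- centre of a triangle -/
def cen (t : ℂ × ℂ × ℂ) : ℂ := (t.1 + t.2.1 + t.2.2) / 3

theorem cen_rot (a b c : ℂ) : cen (b, c, a) = cen (a, b, c) := by
  unfold cen; ring

theorem cen_in {a b c : ℂ} (h : (a, b, c) ∈ delT S) : InO (cen (a, b, c)) a b c := by
  obtain ⟨o, T⟩ := mem_delT_iff.1 h
  have hp := T.pos
  have h0 : 0 < (b.re - a.re) * (c.im - a.im) - (b.im - a.im) * (c.re - a.re) := by
    have := hp
    unfold cr at this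
    simpa using this
  have hre : (cen (a, b, c)).re = (a.re + b.re + c.re) / 3 := by
    unfold cen
    have : ((a, b, c).1 + (a, b, c).2.1 + (a, b, c).2.2) / 3 = ((1 / 3 : ℝ) : ℂ) * (a + b + c) := by
      push_cast; ring
    rw [this, Complex.re_ofReal_mul]
    simp only [Complex.add_re]; ring
  have him : (cen (a, b, c)).im = (a.im + b.im + c.im) / 3 := by
    unfold cen
    have : ((a, b, c).1 + (a, b, c).2.1 + (a, b, c).2.2) / 3 = ((1 / 3 : ℝ) : ℂ) * (a + b + c) := by
      push_cast; ring
    rw [this, Complex.im_ofReal_mul]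
    simp only [Complex.add_im]; ring
  refine ⟨?_, ?_, ?_⟩ <;>
  · unfold Lft cr
    simp only [Complex.sub_re, Complex.sub_im]
    rw [hre, him]
    linarith

/-- winding number mod 2 of a closed chain around a triangle -/
def wd (l : List ℂ) (t : ℂ × ℂ × ℂ) : ZMod 2 :=
  ((round (asum (cen t) l / (2 * Real.pi)) : ℤ) : ZMod 2)

theorem wd_rot (l : List ℂ) (a b c : ℂ) : wd l (b, c, a) = wd l (a, b, c) := by
  unfold wd
  rw [cen_rot]

theorem loop_ne (hS : GP (S : Set ℂ)) {l : List ℂ} (hl : Loop S l) {a b c : ℂ}
    (h : (a, b, c) ∈ delT S) : ∃ k : ℤ, asum (cen (a, b, c)) l = 2 * Real.pi * k := by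
  by_cases h2 : 2 ≤ l.length
  · exact asum_closed ((off_open hS hl h (cen_in h)).ne h2) hl.closed
  · refine ⟨0, ?_⟩
    match l, h2 with
    | [], _ => simp
    | [a], _ => simp
    | a :: b :: l, h2 => simp at h2

theorem wd_eq {l : List ℂ} {t : ℂ × ℂ × ℂ} {k : ℤ} (h : asum (cen t) l = 2 * Real.pi * k) :
    wd l t = (k : ZMod 2) := by
  unfold wd
  have hp : (2 * Real.pi) ≠ 0 := by positivity
  rw [h, mul_div_cancel_left₀ _ hp, round_intCast]

/-- **jump** of the winding number mod 2 across an edge -/
theorem wd_jump (hS : GP (S : Set ℂ)) {l : List ℂ} (hl : Loop S l) {a b c d : ℂ}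
    (h : (a, b, c) ∈ delT S) (h' : (b, a, d) ∈ delT S) :
    wd l (a, b, c) + wd l (b, a, d) = (uc l a b : ZMod 2) := by
  obtain ⟨k, hk⟩ := loop_ne hS hl h
  obtain ⟨k', hk'⟩ := loop_ne hS hl h'
  rw [wd_eq hk, wd_eq hk']
  have h1 := asum_jump hS hl h h' (cen_in h) (cen_in h')
  rw [hk, hk'] at h1
  have hp : (0 : ℝ) < 2 * Real.pi := by positivity
  have h2 : (k : ℝ) - k' = ((prs l).count (a, b) : ℝ) - (prs l).count (b, a) := by
    have : 2 * Real.pi * ((k : ℝ) - k') =
        2 * Real.pi * (((prs l).count (a, b) : ℝ) - (prs l).count (b, a)) := by linarith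
    exact mul_left_cancel₀ hp.ne' this
  have h3 : k - k' = ((prs l).count (a, b) : ℤ) - ((prs l).count (b, a) : ℤ) := by
    exact_mod_cast h2
  have h4 : ((k - k' : ℤ) : ZMod 2) = ((((prs l).count (a, b) : ℤ) - ((prs l).count (b, a) : ℤ) : ℤ) :
      ZMod 2) := by rw [h3]
  push_cast at h4
  unfold uc
  push_cast
  have e : ∀ x y z w : ZMod 2, x - y = z - w → x + y = z + w := by decide
  exact e _ _ _ _ h4

/-- the winding number mod 2 at a hull edge -/
theorem wd_hull (hS : GP (S : Set ℂ)) {l : List ℂ} (hl : Loop S l) (hlS : ∀ s ∈ l, s ∈ S)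
    {a b c : ℂ} (h : (a, b, c) ∈ delT S) (hh : hullE S a b) :
    wd l (a, b, c) = (uc l a b : ZMod 2) := by
  obtain ⟨k, hk⟩ := loop_ne hS hl h
  rw [wd_eq hk]
  obtain ⟨o, T⟩ := mem_delT_iff.1 h
  have hab : a ≠ b := T.ne.1
  have hac : a ≠ c := T.ne.2.2
  have hbc : b ≠ c := T.ne.2.1
  have hx := cen_in h
  set x := cen (a, b, c) with hxd
  have hl' : Loop S (det a b c l) := by
    refine ⟨by rw [det_head, det_last]; exact hl.closed, fun p hp => ?_⟩
    rcases det_prs a b c l hp with h1 | rfl | rfl | rfl | rfl
    · exact hl.del p h1.1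
    · exact Or.inr ⟨b, rot_mem (rot_mem h)⟩
    · exact Or.inl ⟨a, rot_mem h⟩
    · exact Or.inr ⟨a, rot_mem h⟩
    · exact Or.inl ⟨b, rot_mem (rot_mem h)⟩
  have hav : Avoid (det a b c l) (a, b) := by
    constructor
    · intro hp
      rcases det_prs a b c l hp with h1 | h1 | h1 | h1 | h1
      · exact h1.2.1 rfl
      · exact hbc (congrArg Prod.snd h1)
      · exact hab (congrArg Prod.fst h1)
      · exact hac (congrArg Prod.fst h1)
      · exact hac (congrArg Prod.fst h1)
    · intro hp
      rcases det_prs a b c l hp with h1 | h1 | h1 | h1 | h1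
      · exact h1.2.2 rfl
      · exact hac (congrArg Prod.snd h1)
      · exact hac (congrArg Prod.snd h1)
      · exact hbc (congrArg Prod.fst h1)
      · exact hbc (congrArg Prod.fst h1)
  have hmem : ∀ s ∈ det a b c l, s ∈ S := by
    intro s hs
    have hd : ∀ m : List ℂ, (∀ s ∈ m, s ∈ S) → ∀ s ∈ det a b c m, s ∈ S := by
      have hcS : c ∈ S := (mem_delT.1 h).2.2.1
      intro m
      induction m with
      | nil => intro _ s hs; simp [det] at hs
      | cons u m ih =>
        intro hm s hs
        cases m with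
        | nil => exact hm s (by simpa [det] using hs)
        | cons v m =>
          have ih' := ih (fun s hs => hm s (List.mem_cons_of_mem _ hs))
          unfold det at hs
          split_ifs at hs
          · rcases List.mem_cons.1 hs with rfl | hs
            · exact hm _ List.mem_cons_self
            rcases List.mem_cons.1 hs with rfl | hs
            · exact hcS
            · exact ih' s hs
          · rcases List.mem_cons.1 hs with rfl | hs
            · exact hm _ List.mem_cons_self
            · exact ih' s hs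
    exact hd l hlS s hs
  have e1 : asum x (det a b c l) = 0 := by
    rw [asum_open_mid hS hl' h hx hav, asum_hull hS hl' hmem hh hav]
  have hxs : ∀ u v : ℂ, DE S u v → x ∉ segment ℝ u v := fun u v hd => edge_open hS h hx hd
  have dab : DE S a b := Or.inl ⟨c, h⟩
  have dac : DE S a c := Or.inr ⟨b, rot_mem (rot_mem h)⟩
  have dcb : DE S c b := Or.inr ⟨a, rot_mem h⟩
  have Y := Planar2x54.ang_sum hx.1 hx.2.1 hx.2.2
  change ToolWx838.ang x a b + ToolWx838.ang x b c + ToolWx838.ang x c a = 2 * Real.pi at Y
  have xa := ang_comm (hxs a b dab)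
  have xb := ang_comm (hxs a c dac)
  have xc := ang_comm (hxs c b dcb)
  have k1 := det_asum (x := x) (d := c) hab (δ := 2 * Real.pi) (δ' := -(2 * Real.pi)) (by linarith)
    (by linarith) l
  rw [e1, hk] at k1
  have hp : (0 : ℝ) < 2 * Real.pi := by positivity
  have h2 : (k : ℝ) = ((prs l).count (a, b) : ℝ) - (prs l).count (b, a) := by
    have : 2 * Real.pi * (k : ℝ) =
        2 * Real.pi * (((prs l).count (a, b) : ℝ) - (prs l).count (b, a)) := by linarith
    exact mul_left_cancel₀ hp.ne' this
  have h3 : k = ((prs l).count (a, b) : ℤ) - ((prs l).count (b, a) : ℤ) := by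
    exact_mod_cast h2
  rw [h3]
  unfold uc
  push_cast
  have e : ∀ z w : ZMod 2, z - w = z + w := by decide
  exact e _ _

/-! ### stars -/

/-- a function on the triangles without jumps at the edges at `v` is constant on the triangles at
`v` -/
theorem star (hS : GP (S : Set ℂ)) {s : ℂ × ℂ × ℂ → ZMod 2} (hr : ∀ a b c, s (b, c, a) = s (a, b, c))
    {v : ℂ} (hj : ∀ u c d, (v, u, c) ∈ delT S → (u, v, d) ∈ delT S → s (v, u, c) = s (u, v, d))
    {a b a' b' : ℂ} (h : (v, a, b) ∈ delT S) (h' : (v, a', b') ∈ delT S) :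
    s (v, a, b) = s (v, a', b') := by
  have rot := (g1 S hS).1
  set G : Trg ℂ := ⟨delT S, fun h => rot _ _ _ h, fun h h' => (g1 S hS).2.1 _ _ _ _ h h',
    fun h => (g1 S hS).2.2 _ _ _ h⟩ with hG
  have hGT : G.T = delT S := rfl
  set V : Finset ℂ := S.erase v with hV
  have hvV : v ∉ V := by rw [hV]; simp
  have hrots : ∀ t t' : ℂ × ℂ × ℂ, t' ∈ rots t → s t' = s t := by
    rintro ⟨x, y, z⟩ t' h
    simp only [rots, Set.mem_insert_iff, Set.mem_singleton_iff] at h
    rcases h with rfl | rfl | rfl
    · rfl
    · exact hr _ _ _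
    · rw [← hr z x y]
  have hlk : ∀ t t' : ℂ × ℂ × ℂ, Ex0x922.Lk (GauBx749.killV G V) t t' → s t = s t' := by
    intro t t' h
    induction h with
    | refl => rfl
    | tail _ h2 ih =>
      rw [ih]
      rcases h2 with h2 | h2
      · exact (hrots _ _ h2).symm
      · obtain ⟨x, y, z, z', k1, k2, k3, k4, k5⟩ := h2
        rw [← hrots _ _ k3, ← hrots _ _ k4]
        have k1' : (x, y, z) ∈ delT S := k1
        have k2' : (y, x, z') ∈ delT S := k2
        have hx : x ∈ S := (mem_delT.1 k1').1
        have hy : y ∈ S := (mem_delT.1 k1').2.1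
        have hk : ¬ (x ∈ V ∧ y ∈ V) := k5
        rw [hV, Finset.mem_erase, Finset.mem_erase] at hk
        rcases eq_or_ne x v with hxv | hxv
        · subst hxv
          exact hj _ _ _ k1' k2'
        · have hyv : y = v := by
            by_contra hne
            exact hk ⟨⟨hxv, hx⟩, ⟨hne, hy⟩⟩
          subst hyv
          exact (hj _ _ _ k2' k1').symm
  by_cases hv : ∃ u, hullE S u v
  · obtain ⟨x, y, h1, h2, h3⟩ := GauBx749.fan_hull hS hGT hvV hv h
    obtain ⟨x', y', h1', h2', h3'⟩ := GauBx749.fan_hull hS hGT hvV hv h'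
    have hxx : x = x' := hull_end_unique hS h1 h1'
    subst hxx
    have hyy : y = y' := (g1 S hS).2.1 _ _ _ _ h2 h2'
    subst hyy
    rw [hlk _ _ h3, hlk _ _ h3']
  · push Not at hv
    exact hlk _ _ (GauBx749.fan_in hS hGT hvV hv h h')

/-! ### lists -/

theorem prs_range (f : ℕ → ℂ) (m : ℕ) :
    prs ((List.range (m + 1)).map f) = (List.range m).map fun k => (f k, f (k + 1)) := by
  induction m with
  | zero => rfl
  | succ m ih =>
    rw [List.range_succ, List.map_append, List.map_singleton]
    rw [List.range_succ (n := m), List.map_append, List.map_singleton, List.append_assoc,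
      List.singleton_append, prs_append]
    have e1 : (List.range m).map f ++ [f m] = (List.range (m + 1)).map f := by
      rw [List.range_succ, List.map_append, List.map_singleton]
    rw [e1, ih, List.map_append]
    rfl

theorem uc_nodup {l : List ℂ} (hl : l.Nodup) {a b : ℂ} (h : (a, b) ∈ prs l) : uc l a b = 1 := by
  induction l with
  | nil => simp at h
  | cons u l ih =>
    cases l with
    | nil => simp at h
    | cons v l =>
      have hu : u ∉ v :: l := (List.nodup_cons.1 hl).1
      have hl' := (List.nodup_cons.1 hl).2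
      rw [prs_cons] at h
      unfold uc
      rw [prs_cons]
      rcases List.mem_cons.1 h with h1 | h1
      · obtain ⟨rfl, rfl⟩ := Prod.mk.inj h1
        have e1 : (prs (b :: l)).count (a, b) = 0 :=
          List.count_eq_zero_of_not_mem fun h' => hu (mem_of_prs h').1
        have e2 : (prs (b :: l)).count (b, a) = 0 :=
          List.count_eq_zero_of_not_mem fun h' => hu (mem_of_prs h').2
        rw [List.count_cons_self, e1, List.count_cons_of_ne, e2]
        intro h'
        exact hu (by rw [(Prod.mk.inj h').1]; exact List.mem_cons_self)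
      · have e := ih hl' h1
        unfold uc at e
        have ha : a ∈ v :: l := (mem_of_prs h1).1
        have hb : b ∈ v :: l := (mem_of_prs h1).2
        rw [List.count_cons_of_ne, List.count_cons_of_ne, e]
        · intro h'
          exact hu (by rw [(Prod.mk.inj h').1]; exact hb)
        · intro h'
          exact hu (by rw [(Prod.mk.inj h').1]; exact ha)

/-! ### the side function -/

/-- hull arc -/
def arcL (w : ℤ → ℂ) (j : ℤ) (m : ℕ) : List ℂ := (List.range (m + 1)).map fun k : ℕ => w (j + k)

theorem prs_arcL (w : ℤ → ℂ) (j : ℤ) (m : ℕ) :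
    prs (arcL w j m) = (List.range m).map fun k : ℕ => (w (j + k), w (j + k + 1)) := by
  unfold arcL
  rw [prs_range]
  refine List.map_congr_left fun k _ => ?_
  push_cast
  rw [add_assoc]

theorem hull_not_rev {a b : ℂ} (h : hullE S a b) : ¬ hullE S b a := fun h' => by
  obtain ⟨c, hc⟩ := h'.1
  exact h.2 c hc

theorem count_arcL {n : ℕ} {w : ℤ → ℂ} (H : HullCyc S n w) {j : ℤ} {m : ℕ} (hm : m ≤ n) {k : ℤ}
    (h1 : j ≤ k) (h2 : k < j + n) :
    uc (arcL w j m) (w k) (w (k + 1)) = if k < j + m then 1 else 0 := by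
  have hrev : (w (k + 1), w k) ∉ prs (arcL w j m) := by
    rw [prs_arcL]
    intro h
    obtain ⟨q, -, hq⟩ := List.mem_map.1 h
    have e1 := (Prod.mk.inj hq).1
    have e2 := (Prod.mk.inj hq).2
    have h3 := H.edge (j + q)
    rw [e1, e2] at h3
    exact hull_not_rev (H.edge k) h3
  unfold uc
  rw [List.count_eq_zero_of_not_mem hrev, Nat.add_zero]
  split_ifs with h3
  · obtain ⟨q, hq⟩ := Int.eq_ofNat_of_zero_le (show 0 ≤ k - j by omega)
    have hkq : k = j + q := by omega
    refine List.count_eq_one_of_mem ?_ ?_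
    · rw [prs_arcL]
      refine List.Nodup.map_on ?_ List.nodup_range
      intro x hx y hy hxy
      have hx' := List.mem_range.1 hx
      have hy' := List.mem_range.1 hy
      have e := (Prod.mk.inj hxy).1
      by_contra hne
      rcases lt_or_gt_of_ne hne with h | h
      · exact ne_of_lt H.pos H.per H.inj (i := j + x) (j := j + y) (by omega) (by omega) e
      · exact ne_of_lt H.pos H.per H.inj (i := j + y) (j := j + x) (by omega) (by omega) e.symm
    · rw [prs_arcL]
      refine List.mem_map.2 ⟨q, List.mem_range.2 (by omega), ?_⟩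
      rw [hkq]
  · refine List.count_eq_zero_of_not_mem ?_
    rw [prs_arcL]
    intro h
    obtain ⟨q, hq, hq2⟩ := List.mem_map.1 h
    have hq' := List.mem_range.1 hq
    have e := (Prod.mk.inj hq2).1
    exact ne_of_lt H.pos H.per H.inj (i := j + q) (j := k) (by omega) (by omega) e

/-- `s` is a side function of the chain `l` of Delaunay edges from the hull site `w i` to the hull
site `w j` -/
structure SideF (S : Finset ℂ) (n : ℕ) (w : ℤ → ℂ) (l : List ℂ) (i j : ℤ)
    (s : ℂ × ℂ × ℂ → ZMod 2) : Prop where
  rot : ∀ a b c, s (b, c, a) = s (a, b, c)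
  jump : ∀ a b c d, (a, b, c) ∈ delT S → (b, a, d) ∈ delT S →
    s (a, b, c) + s (b, a, d) = (uc l a b : ZMod 2)
  low : ∀ k c, i ≤ k → k < j → (w k, w (k + 1), c) ∈ delT S →
    s (w k, w (k + 1), c) = (uc l (w k) (w (k + 1)) : ZMod 2)
  high : ∀ k c, j ≤ k → k < i + n → (w k, w (k + 1), c) ∈ delT S →
    s (w k, w (k + 1), c) = 1 + (uc l (w k) (w (k + 1)) : ZMod 2)

/-- **side function** of a chain `l` of Delaunay edges from the hull site `w i` to the hull site
`w j` -/
theorem side (hS : GP (S : Set ℂ)) {n : ℕ} {w : ℤ → ℂ} (H : HullCyc S n w) {l : List ℂ}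
    (hd : ∀ p ∈ prs l, DE S p.1 p.2) {i j : ℤ} (hij : i ≤ j) (hj : j < i + n)
    (h1 : l.head? = some (w i)) (h2 : l.getLast? = some (w j)) :
    ∃ s, SideF S n w l i j s := by
  have hl0 : l ≠ [] := by
    rintro rfl
    simp at h1
  obtain ⟨l0, hl0'⟩ : ∃ l0, l = l0 ++ [w j] := by
    refine ⟨l.dropLast, ?_⟩
    have e := List.dropLast_append_getLast hl0
    have e2 : l.getLast hl0 = w j := by
      rw [List.getLast?_eq_some_getLast hl0] at h2
      exact Option.some.inj h2
    rw [e2] at e
    exact e.symm
  set m : ℕ := (i + n - j).toNat with hm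
  have hm1 : (m : ℤ) = i + n - j := by omega
  have hmn : m ≤ n := by omega
  have hm0 : 0 < m := by omega
  obtain ⟨r, hr⟩ : ∃ r, arcL w j m = w j :: r := by
    unfold arcL
    rw [List.range_succ_eq_map, List.map_cons, Nat.cast_zero, add_zero]
    exact ⟨_, rfl⟩
  set L : List ℂ := l0 ++ w j :: r with hL
  have hprs : prs L = prs l ++ prs (arcL w j m) := by
    rw [hL, prs_append, ← hl0', hr]
  have huc : ∀ a b, uc L a b = uc l a b + uc (arcL w j m) a b := by
    intro a b
    unfold uc
    rw [hprs, List.count_append, List.count_append]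
    ring
  have harc : ∀ p ∈ prs (arcL w j m), hullE S p.1 p.2 := by
    intro p hp
    rw [prs_arcL] at hp
    obtain ⟨q, -, rfl⟩ := List.mem_map.1 hp
    exact H.edge _
  have hloop : Loop S L := by
    refine ⟨?_, fun p hp => ?_⟩
    · have e1 : L.head? = some (w i) := by
        rw [← h1, hl0', hL]
        cases l0 <;> rfl
      have e2 : L.getLast? = (w j :: r).getLast? := by
        rw [hL]
        rw [List.getLast?_append]
        simp [List.getLast?_cons]
      have e3 : (arcL w j m).getLast? = some (w (j + m)) := by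
        unfold arcL
        rw [List.range_succ, List.map_append, List.map_singleton]
        simp
      rw [e1, e2, ← hr, e3, hm1]
      have : j + (i + n - j) = i + n := by ring
      rw [this, H.per]
    · rw [hprs] at hp
      rcases List.mem_append.1 hp with h | h
      · exact hd p h
      · exact Or.inl (harc p h).1
  have hLS : ∀ s ∈ L, s ∈ S := by
    intro s hs
    rw [hL] at hs
    rcases List.mem_append.1 hs with h | h
    · have hsl : s ∈ l := by rw [hl0']; exact List.mem_append_left _ h
      by_cases hlen : 2 ≤ l.length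
      · obtain ⟨p, hp, hsp⟩ : ∃ p ∈ prs l, s = p.1 ∨ s = p.2 := by
          have key : ∀ q : List ℂ, 2 ≤ q.length → s ∈ q → ∃ p ∈ prs q, s = p.1 ∨ s = p.2 := by
            intro q
            induction q with
            | nil => intro h; simp at h
            | cons u q ih =>
              intro h hs
              cases q with
              | nil => simp at h
              | cons v q =>
                rcases List.mem_cons.1 hs with rfl | hs
                · exact ⟨_, List.mem_cons_self, Or.inl rfl⟩
                · cases q with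
                  | nil =>
                    have : s = v := by simpa using hs
                    exact ⟨_, List.mem_cons_self, Or.inr this⟩
                  | cons x q =>
                    obtain ⟨p, hp, h'⟩ := ih (by simp) hs
                    exact ⟨p, List.mem_cons_of_mem _ hp, h'⟩
          exact key l hlen hsl
        have := hd p hp
        rcases this with ⟨c, hc⟩ | ⟨c, hc⟩
        · rcases hsp with rfl | rfl
          · exact (mem_delT.1 hc).1
          · exact (mem_delT.1 hc).2.1
        · rcases hsp with rfl | rfl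
          · exact (mem_delT.1 hc).2.1
          · exact (mem_delT.1 hc).1
      · have hl1 : l0 = [] := by
          have : l.length = l0.length + 1 := by rw [hl0']; simp
          have : l0.length = 0 := by omega
          exact List.length_eq_zero_iff.1 this
        rw [hl1] at h
        simp at h
    · have : s ∈ arcL w j m := by rw [hr]; exact h
      unfold arcL at this
      obtain ⟨q, -, rfl⟩ := List.mem_map.1 this
      exact (hullE.mem (H.edge _)).1
  have hcz : ∀ a b c d, (a, b, c) ∈ delT S → (b, a, d) ∈ delT S → uc (arcL w j m) a b = 0 := by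
    intro a b c d h h'
    refine uc_zero (fun hp => ?_) (fun hp => ?_)
    · exact (harc _ hp).2 d h'
    · exact (harc _ hp).2 c h
  refine ⟨wd L, wd_rot L, fun a b c d h h' => ?_, fun k c hk1 hk2 h => ?_, fun k c hk1 hk2 h => ?_⟩
  · rw [wd_jump hS hloop h h', huc, hcz a b c d h h', Nat.add_zero]
  · have e := wd_hull hS hloop hLS h (H.edge k)
    rw [e, huc]
    have e2 : uc (arcL w j m) (w k) (w (k + 1)) = 0 := by
      have := count_arcL H hmn (j := j) (k := k + n) (by omega) (by omega)
      rw [if_neg (by omega), H.per, show k + n + 1 = (k + 1) + n by ring, H.per] at this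
      exact this
    rw [e2, Nat.add_zero]
  · have e := wd_hull hS hloop hLS h (H.edge k)
    rw [e, huc, count_arcL H hmn hk1 (by omega), if_pos (by omega)]
    push_cast
    ring


namespace SideF

variable {n : ℕ} {w : ℤ → ℂ} {l : List ℂ} {i j : ℤ} {s : ℂ × ℂ × ℂ → ZMod 2}

/-- no jump at an edge with a site off the chain -/
theorem cross (F : SideF S n w l i j s) {a b c d : ℂ} (h : (a, b, c) ∈ delT S)
    (h' : (b, a, d) ∈ delT S) (hl : a ∉ l ∨ b ∉ l) : s (a, b, c) = s (b, a, d) := by
  have h1 := F.jump a b c d h h'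
  have h2 : uc l a b = 0 := by
    rcases hl with hl | hl
    · exact uc_left hl
    · exact uc_right hl
  rw [h2, Nat.cast_zero] at h1
  have e : ∀ x y : ZMod 2, x + y = 0 → x = y := by decide
  exact e _ _ h1

/-- jump at an edge which is passed once -/
theorem nodup (F : SideF S n w l i j s) (hl : l.Nodup) {a b c d : ℂ} (h : (a, b, c) ∈ delT S)
    (h' : (b, a, d) ∈ delT S) (hp : (a, b) ∈ prs l ∨ (b, a) ∈ prs l) :
    s (a, b, c) + s (b, a, d) = 1 := by
  rw [F.jump a b c d h h']
  rcases hp with hp | hp
  · rw [uc_nodup hl hp, Nat.cast_one]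
  · rw [uc_comm, uc_nodup hl hp, Nat.cast_one]

/-- all triangles at a site off the chain are on the same side -/
theorem star (F : SideF S n w l i j s) (hS : GP (S : Set ℂ)) {v : ℂ} (hv : v ∉ l)
    {a b a' b' : ℂ} (h : (v, a, b) ∈ delT S) (h' : (v, a', b') ∈ delT S) :
    s (v, a, b) = s (v, a', b') :=
  Sidex40.star hS F.rot (fun _ _ _ h1 h2 => F.cross h1 h2 (Or.inl hv)) h h'

/-- all triangles at two adjacent sites off the chain are on the same side -/
theorem adj (F : SideF S n w l i j s) (hS : GP (S : Set ℂ)) {u v : ℂ} (hu : u ∉ l) (hv : v ∉ l)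
    (huv : JColx54.Adj S u v) {a b a' b' : ℂ} (h : (u, a, b) ∈ delT S) (h' : (v, a', b') ∈ delT S) :
    s (u, a, b) = s (v, a', b') := by
  rcases huv with ⟨c, hc⟩ | ⟨c, hc⟩
  · exact (F.star hS hu h hc).trans ((F.rot u v c).symm.trans (F.star hS hv (rot_mem hc) h'))
  · exact (F.star hS hu h (rot_mem hc)).trans ((F.rot v u c).trans (F.star hS hv hc h'))

/-- all triangles at two sites joined off the chain are on the same side -/
theorem pth (F : SideF S n w l i j s) (hS : GP (S : Set ℂ)) {V : Set ℂ} (hV : ∀ v ∈ V, v ∉ l)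
    {x y : ℂ} (hp : RE0x723.Pth S V x y) {a b a' b' : ℂ} (h : (x, a, b) ∈ delT S)
    (h' : (y, a', b') ∈ delT S) : s (x, a, b) = s (y, a', b') := by
  obtain ⟨hx, hp⟩ := hp
  have key : ∀ y, Relation.ReflTransGen (fun a b => JColx54.Adj S a b ∧ b ∈ V) x y → y ∈ V ∧
      ∀ a' b', (y, a', b') ∈ delT S → s (x, a, b) = s (y, a', b') := by
    intro y hy
    induction hy with
    | refl => exact ⟨hx, fun a' b' h' => F.star hS (hV x hx) h h'⟩
    | @tail u v h1 h2 ih =>
      refine ⟨h2.2, fun a' b' h' => ?_⟩
      obtain ⟨a2, b2, h3⟩ : ∃ a2 b2, (u, a2, b2) ∈ delT S := by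
        rcases h2.1 with ⟨c, hc⟩ | ⟨c, hc⟩
        · exact ⟨_, _, hc⟩
        · exact ⟨_, _, rot_mem hc⟩
      rw [ih.2 a2 b2 h3]
      exact F.adj hS (hV u ih.1) (hV v h2.2) h2.1 h3 h'
  exact (key y hp).2 a' b' h'

/-- hull sites off the chain on the low arc -/
theorem low_site (F : SideF S n w l i j s) (hS : GP (S : Set ℂ)) (H : HullCyc S n w) {k : ℤ}
    (h1 : i < k) (h2 : k < j) (hk : w k ∉ l) {a b : ℂ} (h : (w k, a, b) ∈ delT S) :
    s (w k, a, b) = 0 := by
  obtain ⟨c, hc⟩ := (H.edge k).1
  rw [F.star hS hk h hc, F.low k c (by omega) h2 hc, uc_left hk, Nat.cast_zero]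

/-- hull sites off the chain on the high arc -/
theorem high_site (F : SideF S n w l i j s) (hS : GP (S : Set ℂ)) (H : HullCyc S n w) {k : ℤ}
    (h1 : j < k) (h2 : k < i + n) (hk : w k ∉ l) {a b : ℂ} (h : (w k, a, b) ∈ delT S) :
    s (w k, a, b) = 1 := by
  obtain ⟨c, hc⟩ := (H.edge k).1
  rw [F.star hS hk h hc, F.high k c (by omega) h2 hc, uc_left hk, Nat.cast_zero, add_zero]

end SideF

/-! ### chains from paths -/

/-- a path gives a simple list -/
theorem exists_chain {V : Set ℂ} {x y : ℂ} (h : RE0x723.Pth S V x y) :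
    ∃ l : List ℂ, l.head? = some x ∧ l.getLast? = some y ∧ (∀ v ∈ l, v ∈ V) ∧ l.Nodup ∧
      ∀ p ∈ prs l, DE S p.1 p.2 := by
  obtain ⟨hx, h⟩ := h
  have key : ∀ y, Relation.ReflTransGen (fun a b => JColx54.Adj S a b ∧ b ∈ V) x y →
      ∃ l : List ℂ, l.head? = some y ∧ l.getLast? = some x ∧ (∀ v ∈ l, v ∈ V) ∧ l.Nodup ∧
        ∀ p ∈ prs l, DE S p.2 p.1 := by
    intro y hy
    induction hy with
    | refl => exact ⟨[x], rfl, rfl, by simpa using hx, by simp, by simp⟩
    | @tail u v h1 h2 ih =>
      obtain ⟨l, k1, k2, k3, k4, k5⟩ := ih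
      by_cases hv : v ∈ l
      · obtain ⟨l1, l2, rfl⟩ := List.append_of_mem hv
        refine ⟨v :: l2, rfl, ?_, fun z hz => k3 z (List.mem_append_right _ hz),
          (List.nodup_append.1 k4).2.1, fun p hp => ?_⟩
        · rw [← k2, List.getLast?_append]
          simp [List.getLast?_cons]
        · rw [prs_append] at k5
          exact k5 p (List.mem_append_right _ hp)
      · match l, k1 with
        | [], k1 => simp at k1
        | z :: l, k1 =>
          have hz : z = u := by simpa using k1
          subst hz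
          refine ⟨v :: z :: l, rfl, by rw [← k2]; simp [List.getLast?_cons], ?_, ?_, ?_⟩
          · intro q hq
            rcases List.mem_cons.1 hq with rfl | hq
            · exact h2.2
            · exact k3 q hq
          · exact List.nodup_cons.2 ⟨hv, k4⟩
          · intro p hp
            rw [prs_cons] at hp
            rcases List.mem_cons.1 hp with rfl | hp
            · exact h2.1
            · exact k5 p hp
  obtain ⟨l, k1, k2, k3, k4, k5⟩ := key y h
  refine ⟨l.reverse, by rw [List.head?_reverse, k2], by rw [List.getLast?_reverse, k1],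
    fun v hv => k3 v (List.mem_reverse.1 hv), List.nodup_reverse.2 k4, fun p hp => ?_⟩
  rw [prs_reverse] at hp
  obtain ⟨q, hq, rfl⟩ := List.mem_map.1 (List.mem_reverse.1 hp)
  exact k5 q hq

end Crest.Agent.R143.Sidex40
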