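import Crest.Agent.R143.Jump_697
import Crest.Agent.R143.Side_40

/-!
# Row 143 (S0194), R1g: closed polygons made of Delaunay edges and of outer segments (helper881)

* `Wl S K l` : closed chain, every edge is a Delaunay edge or does not meet the region `K`
* `comb_in`, `opn`, `vtx` : index in an open triangle inside `K`, at a vertex
* `jump` : jump of the index across an edge, points of `K` on both sides
* `walk` : the index is constant along chains of Delaunay edges in `K` off `l`
* `fan` : two values around a site which is passed once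
-/

set_option autoImplicit false

noncomputable section

open scoped Classical

namespace Crest.Agent.R143.OrAx881

open Crest.Agent.R143.B0x346 Crest.Agent.R143.DelGx806 Crest.Agent.R143.DelRx806
open Crest.Agent.R143.ToolWx838 Crest.Agent.R143.Blkx838 Crest.Agent.R143.ToolW3x838
open Crest.Agent.R143.Planarx54
open Crest.Agent.R143.Jumpx697 Crest.Agent.R143.Sidex40

variable {S : Finset ℂ} {K : Set ℂ} {l : List ℂ}

/-- closed chain, every edge is a Delaunay edge or does not meet `K` -/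
structure Wl (S : Finset ℂ) (K : Set ℂ) (l : List ℂ) : Prop where
  cl : l.head? = l.getLast?
  ed : ∀ p ∈ prs l, DE S p.1 p.2 ∨ ∀ z ∈ K, z ∉ segment ℝ p.1 p.2

/-! ### points of a triangle -/

theorem lft_comb {a b c : ℂ} (h : 0 < cr (b - a) (c - a)) {r s t : ℝ} (ht : 0 < t)
    (hst : r + s + t = 1) : Lft ((r : ℂ) * a + (s : ℂ) * b + (t : ℂ) * c) a b := by
  unfold Lft
  rw [cr_sub] at h ⊢
  have hre : ((r : ℂ) * a + (s : ℂ) * b + (t : ℂ) * c).re = r * a.re + s * b.re + t * c.re := by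
    simp
  have him : ((r : ℂ) * a + (s : ℂ) * b + (t : ℂ) * c).im = r * a.im + s * b.im + t * c.im := by
    simp
  rw [hre, him]
  have hr : r = 1 - s - t := by linarith
  have : (b.re - a.re) * (r * a.im + s * b.im + t * c.im - a.im) -
      (b.im - a.im) * (r * a.re + s * b.re + t * c.re - a.re) =
      t * ((b.re - a.re) * (c.im - a.im) - (b.im - a.im) * (c.re - a.re)) := by
    subst hr; ring
  rw [this]
  positivity

/-- a convex combination with positive weights is in the open triangle -/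
theorem comb_in {a b c x : ℂ} (h : (a, b, c) ∈ delT S) {r s t : ℝ} (hr : 0 < r) (hs : 0 < s)
    (ht : 0 < t) (hst : r + s + t = 1) (hx : x = (r : ℂ) * a + (s : ℂ) * b + (t : ℂ) * c) :
    InO x a b c := by
  obtain ⟨o, T⟩ := mem_delT_iff.1 h
  have hp := T.pos
  have hp2 : 0 < cr (c - b) (a - b) := by rw [← cr_rot]; exact hp
  have hp3 : 0 < cr (a - c) (b - c) := by rw [← cr_rot]; exact hp2
  subst hx
  refine ⟨lft_comb hp ht hst, ?_, ?_⟩
  · have := lft_comb hp2 (r := s) (s := t) (t := r) hr (by linarith)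
    rwa [show (s : ℂ) * b + (t : ℂ) * c + (r : ℂ) * a = (r : ℂ) * a + (s : ℂ) * b + (t : ℂ) * c by
      ring] at this
  · have := lft_comb hp3 (r := t) (s := r) (t := s) hs (by linarith)
    rwa [show (t : ℂ) * c + (r : ℂ) * a + (s : ℂ) * b = (r : ℂ) * a + (s : ℂ) * b + (t : ℂ) * c by
      ring] at this

/-- from a point of the open triangle towards a point of the closed triangle -/
theorem InO.seg {a b c x y z : ℂ} (hx : InO x a b c) (hy : InT y a b c) {s t : ℝ} (hs : 0 < s)
    (ht : 0 ≤ t) (hst : s + t = 1) (hz : z = s • x + t • y) : InO z a b c := by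
  have key : ∀ u v : ℂ, 0 < cr (v - u) (x - u) → 0 ≤ cr (v - u) (y - u) → Lft z u v := by
    intro u v h1 h2
    unfold Lft
    rw [cr_sub] at h1 h2 ⊢
    have hs' : s = 1 - t := by linarith
    have : (v.re - u.re) * (z.im - u.im) - (v.im - u.im) * (z.re - u.re)
        = s * ((v.re - u.re) * (x.im - u.im) - (v.im - u.im) * (x.re - u.re)) +
          t * ((v.re - u.re) * (y.im - u.im) - (v.im - u.im) * (y.re - u.re)) := by
      subst hz
      subst hs'
      simp only [Complex.add_re, Complex.add_im, Complex.real_smul, Complex.mul_re, Complex.mul_im,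
        Complex.ofReal_re, Complex.ofReal_im]
      ring
    rw [this]
    have := mul_pos hs h1
    have := mul_nonneg ht h2
    linarith
  exact ⟨key _ _ hx.1 hy.1, key _ _ hx.2.1 hy.2.1, key _ _ hx.2.2 hy.2.2⟩

theorem pos_of {a b c : ℂ} (h : (a, b, c) ∈ delT S) : 0 < cr (b - a) (c - a) :=
  (mem_delT_iff.1 h).choose_spec.pos

/-- a vertex is in the closed triangle -/
theorem inT_vtx {a b c : ℂ} (h : (a, b, c) ∈ delT S) : InT a a b c := by
  have hp := pos_of h
  have hp2 : 0 < cr (c - b) (a - b) := by rw [← cr_rot]; exact hp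
  refine ⟨?_, hp2.le, ?_⟩
  · simp [cr]
  · show 0 ≤ cr (a - c) (a - c)
    unfold cr; linarith [mul_comm (a - c).re (a - c).im]

/-- a point of the side is in the closed triangle -/
theorem inT_side {a b c : ℂ} (h : (a, b, c) ∈ delT S) {s t : ℝ} (hs : 0 ≤ s) (ht : 0 ≤ t)
    (hst : s + t = 1) : InT ((s : ℂ) * a + (t : ℂ) * b) a b c := by
  have hp := pos_of h
  rw [cr_sub] at hp
  have hre : ((s : ℂ) * a + (t : ℂ) * b).re = s * a.re + t * b.re := by simp
  have him : ((s : ℂ) * a + (t : ℂ) * b).im = s * a.im + t * b.im := by simp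
  have hs' : s = 1 - t := by linarith
  refine ⟨?_, ?_, ?_⟩
  · show 0 ≤ cr (b - a) (_ - a)
    rw [cr_sub, hre, him]
    have : (b.re - a.re) * (s * a.im + t * b.im - a.im) -
        (b.im - a.im) * (s * a.re + t * b.re - a.re) = 0 := by subst hs'; ring
    rw [this]
  · show 0 ≤ cr (c - b) (_ - b)
    rw [cr_sub, hre, him]
    have : (c.re - b.re) * (s * a.im + t * b.im - b.im) -
        (c.im - b.im) * (s * a.re + t * b.re - b.re) =
        s * ((b.re - a.re) * (c.im - a.im) - (b.im - a.im) * (c.re - a.re)) := by subst hs'; ring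
    rw [this]; positivity
  · show 0 ≤ cr (a - c) (_ - c)
    rw [cr_sub, hre, him]
    have : (a.re - c.re) * (s * a.im + t * b.im - c.im) -
        (a.im - c.im) * (s * a.re + t * b.re - c.re) =
        t * ((b.re - a.re) * (c.im - a.im) - (b.im - a.im) * (c.re - a.re)) := by subst hs'; ring
    rw [this]; positivity

/-! ### constant index -/

theorem Wl.opn_off (hS : GP (S : Set ℂ)) (hl : Wl S K l) {a b c x : ℂ} (h : (a, b, c) ∈ delT S)
    (hx : InO x a b c) (kx : x ∈ K) : Off x l := fun p hp hseg => by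
  rcases hl.ed p hp with hd | hd
  · exact edge_open hS h hx hd hseg
  · exact hd x kx hseg

/-- two points of the same open triangle -/
theorem Wl.opn (hS : GP (S : Set ℂ)) (hK : Convex ℝ K) (hl : Wl S K l) {a b c x y : ℂ}
    (h : (a, b, c) ∈ delT S) (hx : InO x a b c) (hy : InO y a b c) (kx : x ∈ K) (ky : y ∈ K) :
    asum x l = asum y l := by
  refine asum_seg hl.cl fun z hz => ?_
  have kz : z ∈ K := hK.segment_subset kx ky hz
  obtain ⟨s, t, hs, ht, hst, rfl⟩ := hz
  refine hl.opn_off hS h ?_ kz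
  rcases hs.lt_or_eq with hs | hs
  · exact InO.seg hx hy.inT hs ht hst rfl
  · have : t = 1 := by linarith
    rw [← hs, this, zero_smul, one_smul, zero_add]
    exact hy

/-- from the open triangle to a vertex which is not on the chain -/
theorem Wl.vtx (hS : GP (S : Set ℂ)) (hK : Convex ℝ K) (hl : Wl S K l) {a b c x : ℂ}
    (h : (a, b, c) ∈ delT S) (hx : InO x a b c) (kx : x ∈ K) (ka : a ∈ K) (ha : a ∉ l) :
    asum x l = asum a l := by
  refine asum_seg hl.cl fun z hz => ?_
  have kz : z ∈ K := hK.segment_subset kx ka hz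
  obtain ⟨s, t, hs, ht, hst, rfl⟩ := hz
  rcases hs.lt_or_eq with hs | hs
  · exact hl.opn_off hS h (InO.seg hx (inT_vtx h) hs ht hst rfl) kz
  · have h1 : t = 1 := by linarith
    rw [← hs, h1, zero_smul, one_smul, zero_add]
    intro p hp hseg
    rcases hl.ed p hp with hd | hd
    · rcases edge_vertex hS hd (mem_delT.1 h).1 hseg with e | e
      · exact ha (e ▸ (mem_of_prs hp).1)
      · exact ha (e ▸ (mem_of_prs hp).2)
    · exact hd a ka hseg

/-- from the open triangle to a point of the side `(a, b)`, which is not used -/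
theorem Wl.side (hS : GP (S : Set ℂ)) (hK : Convex ℝ K) (hl : Wl S K l) {a b c x m : ℂ}
    (h : (a, b, c) ∈ delT S) (hx : InO x a b c) (kx : x ∈ K) (km : m ∈ K) (hav : Avoid l (a, b))
    {s t : ℝ} (hs : 0 < s) (ht : 0 < t) (hst : s + t = 1) (hm : m = (s : ℂ) * a + (t : ℂ) * b) :
    asum x l = asum m l := by
  refine asum_seg hl.cl fun z hz => ?_
  have kz : z ∈ K := hK.segment_subset kx km hz
  obtain ⟨s', t', hs', ht', hst', rfl⟩ := hz
  rcases hs'.lt_or_eq with hs' | hs'
  · refine hl.opn_off hS h (InO.seg hx ?_ hs' ht' hst' rfl) kz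
    rw [hm]
    exact inT_side h hs.le ht.le hst
  · have h1 : t' = 1 := by linarith
    rw [← hs', h1, zero_smul, one_smul, zero_add]
    intro p hp hseg
    rcases hl.ed p hp with hd | hd
    · rcases edge_side hS (Or.inl ⟨c, h⟩) hs ht hst hm hd hseg with ⟨h1, h2⟩ | ⟨h1, h2⟩
      · exact hav.1 (by rw [← h1, ← h2]; exact hp)
      · exact hav.2 (by rw [Prod.swap_prod_mk, ← h1, ← h2]; exact hp)
    · exact hd m km hseg

/-- the index is constant along a chain of Delaunay edges of `K` off `l` -/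
theorem Wl.walk (hS : GP (S : Set ℂ)) (hK : Convex ℝ K) (hl : Wl S K l) {q : List ℂ} (hq : q ≠ [])
    (hd : ∀ p ∈ prs q, DE S p.1 p.2) (hk : ∀ s ∈ q, s ∈ K) (ho : ∀ s ∈ q, s ∉ l) :
    asum (q.head hq) l = asum (q.getLast hq) l := by
  refine asum_walk hl.cl hq fun p hp z hz r hr hseg => ?_
  have m1 := mem_of_prs hp
  have m2 := mem_of_prs hr
  rcases hl.ed r hr with h | h
  · rcases edges_meet hS (hd p hp) h hz hseg with h | h | h | h
    · exact ho _ m1.1 (h ▸ m2.1)
    · exact ho _ m1.1 (h ▸ m2.2)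
    · exact ho _ m1.2 (h ▸ m2.1)
    · exact ho _ m1.2 (h ▸ m2.2)
  · exact h z (hK.segment_subset (hk _ m1.1) (hk _ m1.2) hz) hseg

/-! ### jump -/

theorem Wl.det (hl : Wl S K l) {a b d : ℂ} (h' : (b, a, d) ∈ delT S) : Wl S K (det a b d l) := by
  refine ⟨by rw [det_head, det_last]; exact hl.cl, fun p hp => ?_⟩
  rcases det_prs a b d l hp with h1 | rfl | rfl | rfl | rfl
  · exact hl.ed p h1.1
  · exact Or.inl (Or.inl ⟨b, rot_mem h'⟩)
  · exact Or.inl (Or.inr ⟨a, rot_mem (rot_mem h')⟩)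
  · exact Or.inl (Or.inl ⟨a, rot_mem (rot_mem h')⟩)
  · exact Or.inl (Or.inr ⟨b, rot_mem h'⟩)

/-- **jump across an edge**, all points in `K` -/
theorem Wl.jump (hS : GP (S : Set ℂ)) (hK : Convex ℝ K) (hl : Wl S K l) {a b c d x y m : ℂ}
    (h : (a, b, c) ∈ delT S) (h' : (b, a, d) ∈ delT S) (hx : InO x a b c) (hy : InO y b a d)
    (kx : x ∈ K) (ky : y ∈ K) (km : m ∈ K) {s t : ℝ} (hs : 0 < s) (ht : 0 < t) (hst : s + t = 1)
    (hm : m = (s : ℂ) * a + (t : ℂ) * b) :
    asum x l - asum y l = 2 * Real.pi * (((prs l).count (a, b) : ℝ) - (prs l).count (b, a)) := by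
  obtain ⟨o, T⟩ := mem_delT_iff.1 h
  obtain ⟨o', T'⟩ := mem_delT_iff.1 h'
  have hab : a ≠ b := T.ne.1
  have hdL : Lft d b a := T'.pos
  have hl' := hl.det h'
  have had : a ≠ d := (T'.ne.2.1)
  have hbd : b ≠ d := T'.ne.2.2
  have hav : Avoid (Jumpx697.det a b d l) (a, b) := by
    constructor
    · intro hp
      rcases det_prs a b d l hp with h1 | h1 | h1 | h1 | h1
      · exact h1.2.1 rfl
      · exact hbd (congrArg Prod.snd h1)
      · exact hab (congrArg Prod.fst h1)
      · exact had (congrArg Prod.fst h1)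
      · exact had (congrArg Prod.fst h1)
    · intro hp
      rcases det_prs a b d l hp with h1 | h1 | h1 | h1 | h1
      · exact h1.2.2 rfl
      · exact had (congrArg Prod.snd h1)
      · exact had (congrArg Prod.snd h1)
      · exact hbd (congrArg Prod.fst h1)
      · exact hbd (congrArg Prod.fst h1)
  have e1 : asum x (Jumpx697.det a b d l) = asum m (Jumpx697.det a b d l) :=
    hl'.side hS hK h hx kx km hav hs ht hst hm
  have e2 : asum y (Jumpx697.det a b d l) = asum m (Jumpx697.det a b d l) :=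
    hl'.side hS hK h' hy ky km hav.swap ht hs (by linarith) (by rw [hm]; ring)
  have hxs : ∀ u v : ℂ, DE S u v → x ∉ segment ℝ u v := fun u v hd => edge_open hS h hx hd
  have hys : ∀ u v : ℂ, DE S u v → y ∉ segment ℝ u v := fun u v hd => edge_open hS h' hy hd
  have dab : DE S a b := Or.inl ⟨c, h⟩
  have dad : DE S a d := Or.inl ⟨b, rot_mem h'⟩
  have ddb : DE S d b := Or.inl ⟨a, rot_mem (rot_mem h')⟩
  have X := ang_tri_out hx.1 hdL
  have Y := Planar2x54.ang_sum hy.1 hy.2.1 hy.2.2
  change ToolWx838.ang y b a + ToolWx838.ang y a d + ToolWx838.ang y d b = 2 * Real.pi at Y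
  have xa := ang_comm (hxs a b dab)
  have xb := ang_comm (hxs a d dad)
  have xc := ang_comm (hxs d b ddb)
  have ya := ang_comm (hys a b dab)
  have yb := ang_comm (hys a d dad)
  have yc := ang_comm (hys d b ddb)
  have k1 := det_asum (x := x) (d := d) hab (δ := 0) (δ' := 0) (by linarith) (by linarith) l
  have k2 := det_asum (x := y) (d := d) hab (δ := -(2 * Real.pi)) (δ' := 2 * Real.pi) (by linarith)
    (by linarith) l
  have : asum x l - asum y l = (asum x l - asum x (Jumpx697.det a b d l)) -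
      (asum y l - asum y (Jumpx697.det a b d l)) := by rw [e1, e2]; ring
  rw [this, k1, k2]
  ring

/-! ### two values around a site -/

/-- the Delaunay triangulation -/
def tg (S : Finset ℂ) (hS : GP (S : Set ℂ)) : Trg ℂ where
  T := delT S
  rot := fun h => rot_mem h
  uniq := fun h h' => (g1 S hS).2.1 _ _ _ _ h h'
  ne := fun h => (g1 S hS).2.2 _ _ _ h

/-- the point of the triangle `(y, a, b)` near `y` -/
def pz (y : ℂ) (t : ℝ) (a b : ℂ) : ℂ := y + t * ((a - y) + (b - y))

theorem pz_in {y a b : ℂ} (h : (y, a, b) ∈ delT S) {t : ℝ} (ht : 0 < t) (ht' : t < 1 / 2) :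
    InO (pz y t a b) y a b := by
  refine comb_in h (r := 1 - 2 * t) (s := t) (t := t) (by linarith) ht ht (by ring) ?_
  unfold pz; push_cast; ring

theorem small_t {y : ℂ} (hKo : IsOpen K) (ky : y ∈ K) (S : Finset ℂ) :
    ∃ t : ℝ, 0 < t ∧ t < 1 / 2 ∧ (∀ a ∈ S, ∀ b ∈ S, pz y t a b ∈ K) ∧
      ∀ a ∈ S, ((1 - t : ℝ) : ℂ) * y + (t : ℂ) * a ∈ K := by
  have e1 : ∀ a b : ℂ, ∀ᶠ t : ℝ in nhdsWithin 0 (Set.Ioi 0), pz y t a b ∈ K := by
    intro a b
    have hc : Continuous fun t : ℝ => pz y t a b := by unfold pz; fun_prop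
    have h0 : pz y 0 a b ∈ K := by unfold pz; simpa using ky
    exact (hc.continuousAt.eventually (hKo.mem_nhds h0)).filter_mono nhdsWithin_le_nhds
  have e2 : ∀ a : ℂ, ∀ᶠ t : ℝ in nhdsWithin 0 (Set.Ioi 0), ((1 - t : ℝ) : ℂ) * y + (t : ℂ) * a ∈ K := by
    intro a
    have hc : Continuous fun t : ℝ => ((1 - t : ℝ) : ℂ) * y + (t : ℂ) * a := by fun_prop
    have h0 : ((1 - (0 : ℝ) : ℝ) : ℂ) * y + ((0 : ℝ) : ℂ) * a ∈ K := by simpa using ky
    exact (hc.continuousAt.eventually (hKo.mem_nhds h0)).filter_mono nhdsWithin_le_nhds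
  have e3 : ∀ᶠ t : ℝ in nhdsWithin 0 (Set.Ioi 0), ∀ a ∈ S, ∀ b ∈ S, pz y t a b ∈ K := by
    rw [Filter.eventually_all_finset]
    intro a _
    rw [Filter.eventually_all_finset]
    exact fun b _ => e1 a b
  have e4 : ∀ᶠ t : ℝ in nhdsWithin 0 (Set.Ioi 0), ∀ a ∈ S, ((1 - t : ℝ) : ℂ) * y + (t : ℂ) * a ∈ K := by
    rw [Filter.eventually_all_finset]
    exact fun a _ => e2 a
  have e5 : ∀ᶠ t : ℝ in nhdsWithin 0 (Set.Ioi 0), t < 1 / 2 :=
    Filter.Eventually.filter_mono nhdsWithin_le_nhds (Iio_mem_nhds (by norm_num))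
  have e6 : ∀ᶠ t : ℝ in nhdsWithin 0 (Set.Ioi 0), 0 < t := self_mem_nhdsWithin
  obtain ⟨t, h3, h4, h5, h6⟩ := (e3.and (e4.and (e5.and e6))).exists
  exact ⟨t, h6, h5, h3, h4⟩

/-- **two values around a site which is passed once**, by `d1 → y → x` -/
theorem Wl.fan (hS : GP (S : Set ℂ)) (hK : Convex ℝ K) (hKo : IsOpen K) (hl : Wl S K l)
    {y x d1 c : ℂ} (ky : y ∈ K) (hy : ∀ a, ¬ hullE S a y) (hx : (y, x, c) ∈ delT S)
    (h1 : ∀ u, (y, u) ∈ prs l → u = x) (h3 : ∀ u, (u, y) ∈ prs l → u = d1)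
    (h4 : (prs l).count (d1, y) = 1) {a b z z0 : ℂ} (ha : (y, a, b) ∈ delT S)
    (hz0 : InO z0 y x c) (kz0 : z0 ∈ K) (hz : InO z y a b) (kz : z ∈ K) :
    asum z l = asum z0 l ∨ asum z l = asum z0 l - 2 * Real.pi := by
  obtain ⟨d, u, hR, h0, hall⟩ := ring_exists hS (mem_nbs.2 ⟨c, hx⟩) hy (G := tg S hS) rfl
  obtain ⟨t, ht0, ht1, htK, htm⟩ := small_t hKo ky S
  have tri : ∀ i : ℤ, (y, u i, u (i + 1)) ∈ delT S := fun i => hR.mem i
  have uS : ∀ i : ℤ, u i ∈ S := fun i => (mem_delT.1 (tri i)).2.1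
  set g : ℤ → ℝ := fun i => asum (pz y t (u i) (u (i + 1))) l with hg
  have hin : ∀ i : ℤ, InO (pz y t (u i) (u (i + 1))) y (u i) (u (i + 1)) := fun i =>
    pz_in (tri i) ht0 ht1
  have hKi : ∀ i : ℤ, pz y t (u i) (u (i + 1)) ∈ K := fun i => htK _ (uS i) _ (uS _)
  have step : ∀ i : ℤ, g (i + 1) - g i =
      2 * Real.pi * (((prs l).count (y, u (i + 1)) : ℝ) - (prs l).count (u (i + 1), y)) := by
    intro i
    have t1 := tri (i + 1)
    have t2 : (u (i + 1), y, u i) ∈ delT S := rot_mem (rot_mem (tri i))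
    refine hl.jump hS hK t1 t2 (hin (i + 1)) ?_ (hKi _) (hKi _) (htm _ (uS (i + 1)))
      (s := 1 - t) (t := t) (by linarith) ht0 (by ring) rfl
    refine comb_in t2 (r := t) (s := 1 - 2 * t) (t := t) ht0 (by linarith) ht0 (by ring) ?_
    unfold pz; push_cast; ring
  have key : ∀ n : ℕ, n < d →
      ((∀ k : ℕ, 0 < k → k ≤ n → u k ≠ d1) ∧ g n = g 0) ∨
        ((∃ k : ℕ, 0 < k ∧ k ≤ n ∧ u k = d1) ∧ g n = g 0 - 2 * Real.pi) := by
    intro n
    induction n with
    | zero =>
      intro _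
      left
      exact ⟨fun k h h' => absurd h' (by omega), rfl⟩
    | succ n ih =>
      intro hn
      have s1 := step n
      have c1 : (prs l).count (y, u ((n : ℤ) + 1)) = 0 := by
        rw [List.count_eq_zero]
        intro hm
        have e := h1 _ hm
        rw [← h0] at e
        have := hR.inj ((n : ℤ) + 1) 0 (by omega) (by omega) le_rfl (by omega) e
        omega
      have en : ((n + 1 : ℕ) : ℤ) = (n : ℤ) + 1 := by push_cast; rfl
      rw [c1] at s1
      by_cases hd : u ((n : ℤ) + 1) = d1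
      · rw [hd, h4] at s1
        rcases ih (by omega) with ⟨i1, i2⟩ | ⟨⟨k, k1, k2, k3⟩, i2⟩
        · right
          refine ⟨⟨n + 1, by omega, le_rfl, by rw [en]; exact hd⟩, ?_⟩
          rw [en]
          rw [i2] at s1
          push_cast at s1
          linarith
        · exfalso
          have := hR.inj ((n : ℤ) + 1) k (by omega) (by omega) (by omega) (by omega)
            (by rw [hd, k3])
          omega
      · have c2 : (prs l).count (u ((n : ℤ) + 1), y) = 0 := by
          rw [List.count_eq_zero]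
          intro hm
          exact hd (h3 _ hm)
        rw [c2] at s1
        have s2 : g ((n + 1 : ℕ) : ℤ) = g n := by
          rw [en]
          push_cast at s1
          linarith
        rcases ih (by omega) with ⟨i1, i2⟩ | ⟨⟨k, k1, k2, k3⟩, i2⟩
        · left
          refine ⟨fun k h h' => ?_, by rw [s2, i2]⟩
          rcases Nat.lt_or_ge k (n + 1) with hk | hk
          · exact i1 k h (by omega)
          · have : k = n + 1 := by omega
            subst this
            rw [en]; exact hd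
        · right
          exact ⟨⟨k, k1, by omega, k3⟩, by rw [s2, i2]⟩
  -- the triangle `(y, a, b)`
  obtain ⟨i, hi1, hi2⟩ := hall a b ha
  have hn : ∃ n : ℕ, n < d ∧ u n = a ∧ u (n + 1) = b := by
    have hd : (0 : ℤ) < d := by exact_mod_cast hR.pos
    have e2 : u (i % d) = u i := mod_per hR.pos hR.per i
    have e3 : u (i % d + 1) = u (i + 1) := by
      rw [← mod_per hR.pos hR.per (i % d + 1), ← mod_per hR.pos hR.per (i + 1)]
      congr 1
      rw [Int.emod_add_emod]
    obtain ⟨n, hn⟩ := Int.eq_ofNat_of_zero_le (Int.emod_nonneg i hd.ne')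
    have hlt := Int.emod_lt_of_pos i hd
    refine ⟨n, by omega, ?_, ?_⟩
    · rw [← hi1, ← e2, hn]
    · rw [← hi2, ← e3, hn]
  obtain ⟨n, hnd, hn1, hn2⟩ := hn
  have ez : asum z l = g n := by
    refine hl.opn hS hK ha hz ?_ kz (hKi n)
    rw [hn1, hn2]
    exact pz_in ha ht0 ht1
  have ez0 : asum z0 l = g 0 := by
    have h5 := tri 0
    rw [h0, zero_add] at h5
    have ec : u 1 = c := (g1 S hS).2.1 _ _ _ _ h5 hx
    refine hl.opn hS hK hx hz0 ?_ kz0 (hKi 0)
    rw [h0, zero_add, ec]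
    exact pz_in hx ht0 ht1
  rw [ez, ez0]
  rcases key n hnd with h | h
  · exact Or.inl h.2
  · exact Or.inr h.2

end Crest.Agent.R143.OrAx881
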