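import Mathlib

/-!
# Row 143 (S0194), CONT, (K7): three labels on a cycle without the cyclic pattern `0, 2, 1` form three
intervals (helper951)
-/

set_option autoImplicit false

namespace Crest.Agent.R143.Threex951

/-- periodic labels: every label occurs after every index within one period -/
theorem occ {N : ℕ} (hN : 0 < N) {α : Type*} {lab : ℕ → α} (per : ∀ k, lab (k + N) = lab k) {x : α}
    (h : ∃ k, lab k = x) (a : ℕ) : ∃ b, a ≤ b ∧ b < a + N ∧ lab b = x := by
  obtain ⟨k, rfl⟩ := h
  have hp : ∀ k, lab (k % N) = lab k := fun k => Function.Periodic.map_mod_nat (f := lab) per k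
  refine ⟨a + (k + (N - a % N)) % N, by omega, by have := Nat.mod_lt (k + (N - a % N)) hN; omega, ?_⟩
  rw [← hp (a + (k + (N - a % N)) % N), ← hp k]
  congr 1
  rw [Nat.add_mod_mod]
  have h1 : a % N < N := Nat.mod_lt _ hN
  have h2 : a + (k + (N - a % N)) = k + N * (a / N + 1) := by
    have h3 := Nat.mod_add_div a N
    rw [Nat.mul_add, Nat.mul_one]
    omega
  rw [h2, Nat.add_mul_mod_self_left]

/-- **three intervals** -/
theorem three_comb {N : ℕ} (hN : 0 < N) {lab : ℕ → ZMod 3} (per : ∀ k, lab (k + N) = lab k)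
    (hall : ∀ i, ∃ k, lab k = i)
    (ord : ∀ k0 k2 k1, k0 < k2 → k2 < k1 → k1 < k0 + N → lab k0 = 0 → lab k2 = 2 → lab k1 = 1 →
      False) :
    ∃ a0 a1 a2, a0 < a1 ∧ a1 < a2 ∧ a2 < a0 + N ∧ (∀ k, a0 ≤ k → k < a1 → lab k = 0) ∧
      (∀ k, a1 ≤ k → k < a2 → lab k = 1) ∧ (∀ k, a2 ≤ k → k < a0 + N → lab k = 2) := by
  classical
  have h3 : ∀ x : ZMod 3, x = 0 ∨ x = 1 ∨ x = 2 := by decide
  have h01 : (0 : ZMod 3) ≠ 1 := by decide
  have h02 : (0 : ZMod 3) ≠ 2 := by decide
  have h12 : (1 : ZMod 3) ≠ 2 := by decide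
  -- a nonzero label, then the next zero
  obtain ⟨c, -, -, hc⟩ := occ hN per (hall 1) 0
  have hex : ∃ n, lab (c + n) = 0 := by
    obtain ⟨b, hb, -, hb'⟩ := occ hN per (hall 0) c
    exact ⟨b - c, by rw [Nat.add_sub_cancel' hb]; exact hb'⟩
  set n := Nat.find hex with hn
  have hn0 : lab (c + n) = 0 := Nat.find_spec hex
  have hn1 : n ≠ 0 := by
    intro h
    rw [h, add_zero, hc] at hn0
    exact h01 hn0.symm
  have hnm : lab (c + n - 1) ≠ 0 := by
    have := Nat.find_min hex (m := n - 1) (by omega)
    rwa [show c + (n - 1) = c + n - 1 by omega] at this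
  set a0 := c + n with ha0
  have ha0p : 1 ≤ a0 := by omega
  have hprev : lab (a0 + N - 1) ≠ 0 := by
    rw [show a0 + N - 1 = (a0 - 1) + N by omega, per]
    exact hnm
  -- first nonzero label after `a0`
  have hex1 : ∃ m, lab (a0 + m) ≠ 0 := ⟨N - 1, by rwa [show a0 + (N - 1) = a0 + N - 1 by omega]⟩
  set m := Nat.find hex1 with hm
  have hm0 : lab (a0 + m) ≠ 0 := Nat.find_spec hex1
  have hm1 : ∀ k, a0 ≤ k → k < a0 + m → lab k = 0 := by
    intro k h1 h2
    have := Nat.find_min hex1 (m := k - a0) (by omega)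
    rw [Nat.add_sub_cancel' h1, not_not] at this
    exact this
  have hmpos : 0 < m := by
    rcases Nat.eq_zero_or_pos m with h | h
    · rw [h, add_zero] at hm0; exact absurd hn0 hm0
    · exact h
  have hmN : m ≤ N - 1 := Nat.find_min' hex1 (by rwa [show a0 + (N - 1) = a0 + N - 1 by omega])
  set a1 := a0 + m with ha1
  -- the label of `a1` is `1`
  have hl1 : lab a1 = 1 := by
    rcases h3 (lab a1) with h | h | h
    · exact absurd h hm0
    · exact h
    · exfalso
      obtain ⟨b, b1, b2, b3⟩ := occ hN per (hall 1) a0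
      have : a1 < b := by
        by_contra hcon
        push Not at hcon
        rcases eq_or_lt_of_le hcon with e | e
        · rw [e, h] at b3; exact h12 b3.symm
        · rw [hm1 b b1 e] at b3; exact h01 b3
      exact ord a0 a1 b (by omega) this b2 hn0 h b3
  -- the last label is `2`
  have hlast : lab (a0 + N - 1) = 2 := by
    rcases h3 (lab (a0 + N - 1)) with h | h | h
    · exact absurd h hprev
    · exfalso
      obtain ⟨b, b1, b2, b3⟩ := occ hN per (hall 2) a0
      have h4 : a0 < b := by
        rcases eq_or_lt_of_le b1 with e | e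
        · rw [← e, hn0] at b3; exact absurd b3 h02
        · exact e
      have h5 : b < a0 + N - 1 := by
        rcases eq_or_lt_of_le (show b ≤ a0 + N - 1 by omega) with e | e
        · rw [e, h] at b3; exact absurd b3 h12
        · exact e
      exact ord a0 b (a0 + N - 1) h4 h5 (by omega) hn0 b3 h
    · exact h
  have ha1l : a1 < a0 + N - 1 := by
    rcases eq_or_lt_of_le (show a1 ≤ a0 + N - 1 by omega) with e | e
    · rw [← e, hl1] at hlast; exact absurd hlast h12
    · exact e
  -- no zero after `a1`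
  have hno0 : ∀ k, a1 ≤ k → k < a0 + N → lab k ≠ 0 := by
    intro k k1 k2 h0
    have k3 : a1 < k := by
      rcases eq_or_lt_of_le k1 with e | e
      · rw [← e, hl1] at h0; exact absurd h0.symm h01
      · exact e
    have k4 : k < a0 + N - 1 := by
      rcases eq_or_lt_of_le (show k ≤ a0 + N - 1 by omega) with e | e
      · rw [e, hlast] at h0; exact absurd h0.symm h02
      · exact e
    exact ord k (a0 + N - 1) (a1 + N) k4 (by omega) (by omega) h0 hlast (by rw [per]; exact hl1)
  -- first `2` after `a1`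
  have hex2 : ∃ r, lab (a1 + r) = 2 := ⟨a0 + N - 1 - a1, by
    rw [show a1 + (a0 + N - 1 - a1) = a0 + N - 1 by omega]; exact hlast⟩
  set r := Nat.find hex2 with hr
  have hr0 : lab (a1 + r) = 2 := Nat.find_spec hex2
  have hrmin : ∀ k, a1 ≤ k → k < a1 + r → lab k ≠ 2 := by
    intro k h1 h2 h
    exact Nat.find_min hex2 (m := k - a1) (by omega) (by rw [Nat.add_sub_cancel' h1]; exact h)
  have hrle : r ≤ a0 + N - 1 - a1 := Nat.find_min' hex2 (by
    rw [show a1 + (a0 + N - 1 - a1) = a0 + N - 1 by omega]; exact hlast)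
  have hrpos : 0 < r := by
    rcases Nat.eq_zero_or_pos r with h | h
    · rw [h, add_zero, hl1] at hr0; exact absurd hr0 h12
    · exact h
  refine ⟨a0, a1, a1 + r, by omega, by omega, by omega, hm1, fun k k1 k2 => ?_, fun k k1 k2 => ?_⟩
  · rcases h3 (lab k) with h | h | h
    · exact absurd h (hno0 k k1 (by omega))
    · exact h
    · exact absurd h (hrmin k k1 k2)
  · rcases h3 (lab k) with h | h | h
    · exact absurd h (hno0 k (by omega) k2)
    · exfalso
      have : a1 + r < k := by
        rcases eq_or_lt_of_le k1 with e | e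
        · rw [← e, hr0] at h; exact absurd h.symm h12
        · exact e
      exact ord a0 (a1 + r) k (by omega) this k2 hn0 hr0 h
    · exact h

end Crest.Agent.R143.Threex951
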