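import Crest.Agent.R143.Ord_165
import Crest.Agent.R143.Sep_755
import Crest.Agent.R143.Three_951

/-!
# Row 143 (S0194), CONT (K7): the labels of the spokes form three counterclockwise intervals
(helper165)

* `ins_of` : density near the polygon puts it strictly inside the hull
* `stg_of` : the setting of `Ord_165` from the setting of `Sep_755`
* `ord755` : ORD in the language of `Sep_755`
* `three` : three intervals
-/

set_option autoImplicit false

noncomputable section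

namespace Crest.Agent.R143.Ordx165

open Set Complex
open Crest.Agent.R158.Sp896
open Crest.Agent.R143.Tenx416 (Pg)
open Crest.Agent.R143.LabDx755
open Crest.Agent.R143.B0x346 Crest.Agent.R143.DelGx806 Crest.Agent.R143.DelRx806
open Crest.Agent.R143.RE0x723 (Pth)

variable {S : Finset ℂ} {s μ r δ : ℝ} {F : Set V} {N n : ℕ} {v : ℕ → V} {w : ℤ → ℂ}

/-- sites near every point of the polygon: it is strictly inside the hull -/
theorem ins_of (H : HullCyc S n w) {d : ℝ} (hd : 0 < d)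
    (hh : ∀ z ∈ Pg s F, ∀ p, ‖p - z‖ ≤ 2 * d → ∃ x ∈ S, ‖x - p‖ ≤ d) : Ins s F w := by
  intro z hz i
  set e := w (i + 1) - w i with he
  have he0 : e ≠ 0 := sub_ne_zero.2 (DelRx806.hullE.ne (H.edge i)).symm
  have hn : 0 < ‖e‖ := norm_pos_iff.2 he0
  -- the point at distance `2 d` on the outer side
  set t : ℝ := 2 * d / ‖e‖ with ht
  have ht0 : 0 < t := by positivity
  obtain ⟨x, hx, hxp⟩ := hh z hz (z - t * (I * e)) (by
    rw [sub_sub_cancel_left, norm_neg, norm_mul, norm_mul, Complex.norm_I, one_mul,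
      Complex.norm_real, Real.norm_eq_abs, abs_of_pos ht0, ht, div_mul_cancel₀ _ hn.ne'])
  have h1 := hull_side (H.edge i) x hx
  by_contra hcon
  push Not at hcon
  -- `cr e (x - z) < 0`
  have h2 : cr e (x - z) ≤ ‖e‖ * d - t * (‖e‖ * ‖e‖) := by
    have e1 : cr e (x - z) = cr e (x - (z - t * (I * e))) - t * (‖e‖ * ‖e‖) := by
      have : ‖e‖ * ‖e‖ = e.re * e.re + e.im * e.im := by
        rw [← _root_.sq, ← Complex.normSq_eq_norm_sq, Complex.normSq_apply]
      rw [this]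
      unfold cr
      simp
      ring
    have e2 : cr e (x - (z - t * (I * e))) ≤ ‖e‖ * d := by
      have h3 : cr e (x - (z - t * (I * e))) =
          ((starRingEnd ℂ) e * (x - (z - t * (I * e)))).im := by
        unfold cr
        simp
        ring
      rw [h3]
      refine (Complex.im_le_norm _).trans ?_
      rw [norm_mul, RCLike.norm_conj]
      exact mul_le_mul_of_nonneg_left hxp hn.le
    linarith
  have h3 : t * (‖e‖ * ‖e‖) = 2 * d * ‖e‖ := by
    rw [ht]; field_simp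
  have h4 : cr e (x - w i) = cr e (x - z) + cr e (z - w i) := by
    unfold cr; simp; ring
  have h5 : 0 < ‖e‖ * d := by positivity
  rw [← he] at h1
  linarith

/-- the setting -/
theorem stg_of (Z : Sepx755.St S s μ r δ F N v) (H : HullCyc S n w) (hI : Ins s F w) :
    Stg S s μ r F N v {x | Sepx755.Out s δ F x} n w :=
  ⟨Z.gp, Z.hμ, Z.hr1, Z.hr, Z.C, Z.B, Z.con, fun a b hab ha hb z hz hball =>
    Z.shallow (q := [a, b]) (by simpa using hab) (by
      intro x hx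
      simp only [List.mem_cons, List.not_mem_nil, or_false] at hx
      rcases hx with rfl | rfl
      · exact ha
      · exact hb) hball (by rw [Labx755.on_two]; exact hz), H, hI⟩

theorem spo_of {k : ℕ} {y c : ℂ} {l : List ℂ} (h : Sepx755.Spo S s μ r δ F v k y c l) :
    Spo S s μ r {x | Sepx755.Out s δ F x} v k y c l :=
  ⟨h.pl, h.out, h.inn, h.del, h.near, h.last⟩

/-- **ORD** in the language of `Sep_755` -/
theorem ord755 (Z : Sepx755.St S s μ r δ F N v) (H : HullCyc S n w) (hI : Ins s F w)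
    {X : ZMod 3 → Set ℂ} (hO : ∀ i, ∀ x ∈ X i, Sepx755.Out s δ F x)
    (hd : ∀ i j, i ≠ j → Disjoint (X i) (X j)) {p0 p1 p2 : ℤ} (A : Arc3 w n X p0 p1 p2)
    {k0 k1 k2 : ℕ} (k02 : k0 < k2) (k21 : k2 < k1) (k10 : k1 < k0 + N)
    {y0 y1 y2 c0 c1 c2 : ℂ} {l0 l1 l2 : List ℂ} (s0 : Sepx755.Spo S s μ r δ F v k0 y0 c0 l0)
    (s1 : Sepx755.Spo S s μ r δ F v k1 y1 c1 l1) (s2 : Sepx755.Spo S s μ r δ F v k2 y2 c2 l2)
    (q0 : ∃ j, Pth S (X 0) y0 (w j)) (q1 : ∃ j, Pth S (X 1) y1 (w j))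
    (q2 : ∃ j, Pth S (X 2) y2 (w j)) : False :=
  ord (stg_of Z H hI) (fun i x hx => hO i x hx) hd A k02 k21 k10 (spo_of s0) (spo_of s1)
    (spo_of s2) q0 q1 q2

/-- **three intervals**: the labels of the spokes -/
theorem three (Z : Sepx755.St S s μ r δ F N v) (H : HullCyc S n w) (hI : Ins s F w)
    {X : ZMod 3 → Set ℂ} (hO : ∀ i, ∀ x ∈ X i, Sepx755.Out s δ F x)
    (hd : ∀ i j, i ≠ j → Disjoint (X i) (X j)) {p0 p1 p2 : ℤ} (A : Arc3 w n X p0 p1 p2)
    (con : ∀ i, ∀ x ∈ X i, ∀ y ∈ X i, Pth S (X i) x y) {lab : ℕ → ZMod 3}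
    (per : ∀ k, lab (k + N) = lab k) (all : ∀ i, ∃ k, lab k = i)
    (spk : ∀ k, ∃ y c l, Sepx755.Spo S s μ r δ F v k y c l ∧ y ∈ X (lab k)) :
    ∃ a0 a1 a2, a0 < a1 ∧ a1 < a2 ∧ a2 < a0 + N ∧ (∀ k, a0 ≤ k → k < a1 → lab k = 0) ∧
      (∀ k, a1 ≤ k → k < a2 → lab k = 1) ∧ (∀ k, a2 ≤ k → k < a0 + N → lab k = 2) := by
  refine Threex951.three_comb (by have := Z.C.four_le; omega) per all ?_
  intro k0 k2 k1 h1 h2 h3 e0 e2 e1
  obtain ⟨y0, c0, l0, s0, f0⟩ := spk k0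
  obtain ⟨y1, c1, l1, s1, f1⟩ := spk k1
  obtain ⟨y2, c2, l2, s2, f2⟩ := spk k2
  rw [e0] at f0
  rw [e1] at f1
  rw [e2] at f2
  have := A.h20
  exact ord755 Z H hI hO hd A h1 h2 h3 s0 s1 s2
    ⟨p1, con 0 _ f0 _ (A.a0 p1 A.h01 le_rfl)⟩ ⟨p2, con 1 _ f1 _ (A.a1 p2 A.h12 le_rfl)⟩
    ⟨p0 + n, con 2 _ f2 _ (A.a2 _ A.h20 le_rfl)⟩

end Crest.Agent.R143.Ordx165
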