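import Crest.Agent.R143.Lab_755
import Crest.Agent.R143.LabB2_951

/-!
# Row 143 (S0194), CONT (K7): the three labels round the polygon are counterclockwise (helper165)

`ord` : three disjoint classes of sites outside the polygon, met by the hull in counterclockwise
order, cannot touch the boundary walk in clockwise order. Index proof: three loops
(piece of the inner ring, spoke and chain of one class, hull arc, chain and spoke of another class);
the third class joins a hull site to the centres without meeting the loop, so every loop has total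
angle `0` at the centres; but the sum of the three is the ring (`2 π`) plus the hull (`> 0`).

The set of outer sites is a parameter `O` (`Shal`: chains in `O` are shallow).
-/

set_option autoImplicit false

noncomputable section

namespace Crest.Agent.R143.Ordx165

open Set Complex
open Crest.Agent.R158.Sp896
open Crest.Agent.R143.ToolWx838 Crest.Agent.R143.ToolW2x838 Crest.Agent.R143.ToolW3x838
  Crest.Agent.R143.Blkx838
open Crest.Agent.R143.Tenx416 (Pg)
open Crest.Agent.R143.LabDx755 Crest.Agent.R143.Labx755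
open Crest.Agent.R143.B0x346 Crest.Agent.R143.DelGx806 Crest.Agent.R143.DelRx806
open Crest.Agent.R143.RE0x723 (Pth)

variable {S : Finset ℂ} {s μ r : ℝ} {F : Set V} {N n : ℕ} {v : ℕ → V} {w : ℤ → ℂ} {O : Set ℂ}

/-! ### outer sites -/

/-- chains of outer sites do not reach the depth `μ / 2` -/
def Shal (S : Finset ℂ) (s μ : ℝ) (F : Set V) (O : Set ℂ) : Prop :=
  ∀ a b, DE S a b → a ∈ O → b ∈ O → ∀ z ∈ segment ℝ a b, ¬ Metric.ball z (μ / 2) ⊆ Pg s F

/-- outer sites = sites `x` for which `closedBall x d` is not inside the polygon -/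
def Ot (s d : ℝ) (F : Set V) : Set ℂ := {x | ¬ Metric.closedBall x d ⊆ Pg s F}

theorem shal_ot {d : ℝ} (hd : 0 ≤ d) (hdμ : d < μ / 4)
    (hsh : ∀ a b, DE S a b → (∃ z ∈ segment ℝ a b, z ∈ Pg s F) → ‖a - b‖ ≤ μ / 2) :
    Shal S s μ F (Ot s d F) := by
  intro a b hab ha hb z hz hball
  have h0 : z ∈ Pg s F := hball (Metric.mem_ball_self (by linarith))
  have h1 := hsh _ _ hab ⟨z, hz, h0⟩
  obtain ⟨t, t', ht, ht', htt, rfl⟩ := hz
  have e1 : dist a (t • a + t' • b) = t' * ‖a - b‖ := by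
    rw [dist_eq_norm]
    have : a - (t • a + t' • b) = t' • (a - b) := by
      have : t = 1 - t' := by linarith
      subst this
      simp only [Complex.real_smul]; push_cast; ring
    rw [this, norm_smul, Real.norm_eq_abs, abs_of_nonneg ht']
  have e2 : dist b (t • a + t' • b) = t * ‖a - b‖ := by
    rw [dist_eq_norm]
    have : b - (t • a + t' • b) = -(t • (a - b)) := by
      have : t' = 1 - t := by linarith
      subst this
      simp only [Complex.real_smul]; push_cast; ring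
    rw [this, norm_neg, norm_smul, Real.norm_eq_abs, abs_of_nonneg ht]
  have h5 : 0 ≤ ‖a - b‖ := norm_nonneg _
  rcases le_total t' (1 / 2) with h2 | h2
  · refine ha (subset_trans (Metric.closedBall_subset_ball' ?_) hball)
    rw [e1]
    nlinarith
  · refine hb (subset_trans (Metric.closedBall_subset_ball' ?_) hball)
    rw [e2]
    nlinarith

theorem shal_pg (hμ : 0 < μ) (hsh : Shr S s μ F) : Shal S s μ F (Pg s F)ᶜ := by
  intro a b hab ha hb z hz hball
  refine shallow hsh hμ (q := [a, b]) (by simpa using hab) ?_ hball (by rw [on_two]; exact hz)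
  intro x hx
  simp only [List.mem_cons, List.not_mem_nil, or_false] at hx
  rcases hx with rfl | rfl
  · exact ha
  · exact hb

theorem Shal.on {O : Set ℂ} (h : Shal S s μ F O) {q : List ℂ} (hq : ∀ p ∈ prs q, DE S p.1 p.2)
    (hO : ∀ x ∈ q, x ∈ O) {z : ℂ} (hz : Metric.ball z (μ / 2) ⊆ Pg s F) : z ∉ On q := by
  rintro ⟨p, hp, hzp⟩
  have m := mem_of_prs hp
  exact h _ _ (hq p hp) (hO _ m.1) (hO _ m.2) z hzp hz

/-- spoke at the boundary edge `k`: chain of sites from `y ∈ O` to a site near `M k`; `y` is its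
only site in `O` -/
structure Spo (S : Finset ℂ) (s μ r : ℝ) (O : Set ℂ) (v : ℕ → V) (k : ℕ) (y c : ℂ)
    (l : List ℂ) : Prop where
  pl : Pl l y c
  out : y ∈ O
  inn : ∀ x ∈ l, x ∈ O → x = y
  del : ∀ p ∈ prs l, DE S p.1 p.2
  near : ∀ x ∈ l, ‖x - md s v k‖ ≤ r
  last : ‖c - M s μ v k‖ ≤ μ / 2

theorem Spo.of_spk {k : ℕ} {y c : ℂ} {l : List ℂ} (h : Spk S s μ r F v k y c l) :
    Spo S s μ r (Pg s F)ᶜ v k y c l :=
  ⟨h.pl, h.out, h.inn, h.del, h.near, h.last⟩

/-! ### chains -/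

theorem mem_S_of_pl {q : List ℂ} {a b : ℂ} (hq : Pl q a b) (hD : ∀ p ∈ prs q, DE S p.1 p.2)
    (hb : b ∈ S) : ∀ x ∈ q, x ∈ S := by
  have dm : ∀ a b, DE S a b → a ∈ S ∧ b ∈ S := by
    rintro a b (⟨c, hc⟩ | ⟨c, hc⟩)
    · obtain ⟨o, hc⟩ := mem_delT_iff.1 hc
      exact ⟨hc.ma, hc.mb⟩
    · obtain ⟨o, hc⟩ := mem_delT_iff.1 hc
      exact ⟨hc.mb, hc.ma⟩
  induction q generalizing a with
  | nil => exact absurd rfl hq.ne
  | cons c q ih =>
    cases q with
    | nil =>
      intro x hx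
      rw [List.mem_singleton] at hx
      have := hq.lt
      simp only [List.getLast?_singleton, Option.some.injEq] at this
      rw [hx, this]
      exact hb
    | cons c' q =>
      have h1 : Pl (c' :: q) c' b := ⟨rfl, by rw [← hq.lt]; rfl⟩
      have h2 := ih h1 fun p hp => hD p (by
        rw [prs_cons]; exact List.mem_cons_of_mem _ hp)
      intro x hx
      rcases List.mem_cons.1 hx with rfl | hx
      · exact (dm _ _ (hD (x, c') (by simp))).1
      · exact h2 x hx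

/-! ### the hull polyline -/

/-- `w a, w (a + 1), .., w (a + m)` -/
def hl (w : ℤ → ℂ) (a : ℤ) : ℕ → List ℂ
  | 0 => [w a]
  | m + 1 => hl w a m ++ [w (a + m + 1)]

theorem hl_pl (w : ℤ → ℂ) (a : ℤ) (m : ℕ) : Pl (hl w a m) (w a) (w (a + m)) := by
  induction m with
  | zero =>
    show Pl [w a] (w a) (w (a + (0 : ℕ)))
    simpa using pl_one (w a)
  | succ m ih =>
    refine ⟨?_, ?_⟩
    · show (hl w a m ++ _).head? = _
      obtain ⟨q, hq⟩ := ih.left
      rw [hq]; rfl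
    · show (hl w a m ++ [w (a + m + 1)]).getLast? = _
      rw [List.getLast?_append]
      simp [Int.add_assoc]

theorem hl_succ (w : ℤ → ℂ) (a : ℤ) (m : ℕ) :
    hl w a (m + 1) = cat (hl w a m) [w (a + m), w (a + m + 1)] := rfl

theorem hl_add (w : ℤ → ℂ) (a : ℤ) (m m' : ℕ) :
    hl w a (m + m') = cat (hl w a m) (hl w (a + m) m') := by
  induction m' with
  | zero => simp [Labx755.cat, hl]
  | succ m' ih =>
    rw [← Nat.add_assoc]
    show hl w a (m + m') ++ _ = _
    rw [ih]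
    unfold Labx755.cat
    have : (hl w (a + m) (m' + 1)).tail = (hl w (a + m) m').tail ++ [w (a + m + m' + 1)] := by
      show (hl w (a + m) m' ++ _).tail = _
      obtain ⟨q, hq⟩ := (hl_pl w (a + m) m').left
      rw [hq]; rfl
    rw [this, List.append_assoc]
    push_cast
    simp [Int.add_assoc]

theorem hl_mem {a : ℤ} {m : ℕ} {x : ℂ} (h : x ∈ hl w a m) : ∃ j, a ≤ j ∧ j ≤ a + m ∧ x = w j := by
  induction m with
  | zero =>
    rw [show hl w a 0 = [w a] from rfl, List.mem_singleton] at h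
    exact ⟨a, le_rfl, by simp, h⟩
  | succ m ih =>
    rw [show hl w a (m + 1) = hl w a m ++ [w (a + m + 1)] from rfl, List.mem_append,
      List.mem_singleton] at h
    rcases h with h | h
    · obtain ⟨j, h1, h2, h3⟩ := ih h
      exact ⟨j, h1, by push_cast; omega, h3⟩
    · exact ⟨a + m + 1, by omega, by push_cast; omega, h⟩

theorem hl_prs {a : ℤ} {m : ℕ} {p : ℂ × ℂ} (h : p ∈ prs (hl w a m)) :
    ∃ j, a ≤ j ∧ j < a + m ∧ p = (w j, w (j + 1)) := by
  induction m with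
  | zero =>
    rw [show hl w a 0 = [w a] from rfl, prs_one] at h
    exact absurd h (by simp)
  | succ m ih =>
    obtain ⟨q, hq⟩ := (hl_pl w a m).right
    rw [show hl w a (m + 1) = hl w a m ++ [w (a + m + 1)] from rfl, hq, List.append_assoc,
      List.singleton_append, prs_append] at h
    rcases List.mem_append.1 h with h | h
    · rw [← hq] at h
      obtain ⟨j, h1, h2, h3⟩ := ih h
      exact ⟨j, h1, by push_cast; omega, h3⟩
    · simp only [prs_cons, prs_one, List.mem_singleton] at h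
      exact ⟨a + m, by omega, by push_cast; omega, h⟩

theorem de_hull {a b : ℂ} (h : hullE S a b) : DE S a b := by
  obtain ⟨⟨c, hc⟩, -⟩ := h
  exact Or.inl ⟨c, hc⟩

theorem hl_DE (H : HullCyc S n w) {a : ℤ} {m : ℕ} : ∀ p ∈ prs (hl w a m), DE S p.1 p.2 := by
  intro p hp
  obtain ⟨j, -, -, rfl⟩ := hl_prs hp
  exact de_hull (H.edge j)

/-- all points of the polygon are strictly inside the hull -/
def Ins (s : ℝ) (F : Set V) (w : ℤ → ℂ) : Prop :=
  ∀ z ∈ Pg s F, ∀ i, 0 < cr (w (i + 1) - w i) (z - w i)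

theorem cr_on_seg {a b z : ℂ} (h : z ∈ segment ℝ a b) : cr (b - a) (z - a) = 0 := by
  obtain ⟨t, t', ht, ht', htt, rfl⟩ := h
  have : t = 1 - t' := by linarith
  subst this
  unfold cr
  simp
  ring

theorem hl_off (hI : Ins s F w) {a : ℤ} {m : ℕ} {z : ℂ} (hz : z ∈ Pg s F) : z ∉ On (hl w a m) := by
  rintro ⟨p, hp, h⟩
  obtain ⟨j, -, -, rfl⟩ := hl_prs hp
  have := hI z hz j
  rw [cr_on_seg h] at this
  exact lt_irrefl _ this

theorem asum_hl_pos (hI : Ins s F w) {a : ℤ} {m : ℕ} {z : ℂ} (hz : z ∈ Pg s F) :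
    0 < asum z (hl w a (m + 1)) := by
  have e : ∀ j : ℤ, 0 < asum z [w j, w (j + 1)] := by
    intro j
    have h := hI z hz j
    rw [← cr_view] at h
    have := (ang_pos h).1
    simpa using this
  induction m with
  | zero =>
    have := e a
    rw [hl_succ, asum_cat (hl_pl w a 0) ⟨by simp, rfl⟩]
    simpa [hl] using this
  | succ m ih =>
    rw [hl_succ, asum_cat (hl_pl w a (m + 1)) (pl_two _ _)]
    have := e (a + (m + 1 : ℕ))
    linarith

/-- the open half plane at a hull site -/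
theorem half (hS : GP (S : Set ℂ)) (H : HullCyc S n w) (hn : 3 ≤ n) (j : ℤ) {z : ℂ}
    (hz : (z ∈ S ∧ z ≠ w j) ∨ ∀ i, 0 < cr (w (i + 1) - w i) (z - w i)) :
    0 < ((z - w j) / (I * (w (j + 1) - w (j - 1)))).re := by
  have hne : w (j - 1) ≠ w (j + 1) := DelRx806.ne_of_lt H.pos H.per H.inj (by omega) (by omega)
  have h1 : 0 < cr (w j - w (j - 1)) (z - w j) + cr (w (j + 1) - w j) (z - w j) := by
    have eA : cr (w j - w (j - 1)) (z - w j) = cr (w j - w (j - 1)) (z - w (j - 1)) := by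
      unfold cr; simp; ring
    rcases hz with ⟨hz, hzj⟩ | hz
    · have e1 := H.edge (j - 1)
      rw [sub_add_cancel] at e1
      by_cases h : z = w (j - 1)
      · have h2 := hull_side_lt hS (H.edge j) hz hzj.symm (by rw [h]; exact hne.symm)
        have h3 : cr (w j - w (j - 1)) (z - w (j - 1)) = 0 := by
          rw [h]; unfold cr; simp
        rw [eA, h3, zero_add]
        exact h2
      · have h2 := hull_side_lt hS e1 hz (Ne.symm h) hzj.symm
        have h3 := hull_side (H.edge j) z hz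
        rw [eA]
        linarith
    · have h2 := hz (j - 1)
      rw [sub_add_cancel] at h2
      have h3 := hz j
      rw [eA]
      linarith
  have e : cr (w j - w (j - 1)) (z - w j) + cr (w (j + 1) - w j) (z - w j) =
      cr (w (j + 1) - w (j - 1)) (z - w j) := by
    unfold cr; simp; ring
  rw [e] at h1
  set u := w (j + 1) - w (j - 1) with hu
  have hu0 : u ≠ 0 := sub_ne_zero.2 hne.symm
  have h2 : ((z - w j) / (I * u)).re = cr u (z - w j) / Complex.normSq u := by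
    rw [Complex.div_re]
    simp only [Complex.mul_re, Complex.mul_im, Complex.I_re, Complex.I_im, Complex.normSq_mul,
      Complex.normSq_I]
    unfold cr
    field_simp
    ring
  rw [h2]
  exact div_pos h1 (Complex.normSq_pos.2 hu0)

/-! ### tails -/

/-- spoke at the edge `k` with foot `y` and a chain in `X` from `y` to the hull site `w Q` -/
structure Tl (S : Finset ℂ) (s μ r : ℝ) (O : Set ℂ) (v : ℕ → V) (w : ℤ → ℂ) (X : Set ℂ) (k : ℕ)
    (Q : ℤ) (y c : ℂ) (l q : List ℂ) : Prop where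
  sp : Spo S s μ r O v k y c l
  pq : Pl q y (w Q)
  qX : ∀ x ∈ q, x ∈ X
  qD : ∀ p ∈ prs q, DE S p.1 p.2

/-- `M k, c, .., y, .., w Q` -/
def tail (s μ : ℝ) (v : ℕ → V) (k : ℕ) (c : ℂ) (l q : List ℂ) : List ℂ :=
  cat (cat [M s μ v k, c] l.reverse) q

section tails

variable {X : Set ℂ} {k : ℕ} {Q : ℤ} {y c : ℂ} {l q : List ℂ}

theorem Tl.pl (h : Tl S s μ r O v w X k Q y c l q) : Pl (tail s μ v k c l q) (M s μ v k) (w Q) :=
  ((pl_two _ _).cat h.sp.pl.rev).cat h.pq

theorem Tl.on (h : Tl S s μ r O v w X k Q y c l q) :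
    On (tail s μ v k c l q) = (segment ℝ c (M s μ v k) ∪ On l) ∪ On q := by
  unfold tail
  rw [on_cat ((pl_two _ _).cat h.sp.pl.rev) h.pq, on_cat (pl_two _ _) h.sp.pl.rev, on_two, on_rev,
    segment_symm]

theorem Tl.yX (h : Tl S s μ r O v w X k Q y c l q) : y ∈ X := by
  obtain ⟨m, hm⟩ := h.pq.left
  exact h.qX y (by rw [hm]; simp)

theorem Tl.wX (h : Tl S s μ r O v w X k Q y c l q) : w Q ∈ X := by
  obtain ⟨m, hm⟩ := h.pq.right
  exact h.qX _ (by rw [hm]; simp)

theorem Spo.nbl (h : Spo S s μ r O v k y c l) : On l ⊆ nb s r v k :=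
  on_conv (convex_closedBall _ _) fun x hx => by
    rw [mem_closedBall_iff_norm]; exact h.near x hx

theorem Spo.nbc (C : Cyc F N v) (hμ : 0 < μ) (hr : μ ≤ r)
    (h : Spo S s μ r O v k y c l) : segment ℝ c (M s μ v k) ⊆ nb s r v k := by
  refine (convex_closedBall _ _).segment_subset ?_ ?_
  · rw [mem_closedBall_iff_norm]
    exact h.near c (by obtain ⟨m, rfl⟩ := h.pl.right; simp)
  · rw [mem_closedBall_iff_norm, M_md C hμ]
    exact hr

theorem Spo.deep (B : Bs s μ F N v) (hμ : 0 < μ)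
    (h : Spo S s μ r O v k y c l) {z : ℂ} (hz : z ∈ segment ℝ c (M s μ v k)) :
    Metric.ball z (μ / 2) ⊆ Pg s F := by
  have h1 : segment ℝ c (M s μ v k) ⊆ Metric.closedBall (M s μ v k) (μ / 2) :=
    (convex_closedBall _ _).segment_subset (by rw [mem_closedBall_iff_norm]; exact h.last)
      (Metric.mem_closedBall_self (by linarith))
  have h2 := h1 hz
  refine subset_trans ?_ (B.ring k _ (M_rs k))
  refine Metric.ball_subset_ball' ?_
  rw [Metric.mem_closedBall] at h2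
  linarith

/-- points of a tail -/
theorem Tl.off (C : Cyc F N v) (hμ : 0 < μ) (hr : μ ≤ r) (h : Tl S s μ r O v w X k Q y c l q)
    {z : ℂ} (h1 : z ∉ nb s r v k) (h2 : z ∉ On q) : z ∉ On (tail s μ v k c l q) := by
  rw [h.on]
  rintro ((h' | h') | h')
  · exact h1 (h.sp.nbc C hμ hr h')
  · exact h1 (h.sp.nbl h')
  · exact h2 h'

/-- vertices of a tail -/
theorem Tl.mem (h : Tl S s μ r O v w X k Q y c l q) (hw : w Q ∈ S) {x : ℂ}
    (hx : x ∈ tail s μ v k c l q) : x = M s μ v k ∨ (x ∈ S ∧ (x ∈ l ∨ x ∈ q)) := by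
  have hq := mem_S_of_pl h.pq h.qD hw
  have hy : y ∈ S := by
    obtain ⟨m, hm⟩ := h.pq.left
    exact hq y (by rw [hm]; simp)
  have hl := mem_S_of_pl h.sp.pl.rev (fun p hp => by
    rw [prs_reverse] at hp
    simp only [List.mem_reverse, List.mem_map] at hp
    obtain ⟨p', hp', rfl⟩ := hp
    rcases h.sp.del p' hp' with h1 | h1
    · exact Or.inr h1
    · exact Or.inl h1) hy
  unfold tail Labx755.cat at hx
  simp only [List.mem_append] at hx
  rcases hx with (hx | hx) | hx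
  · simp only [List.mem_cons, List.not_mem_nil, or_false] at hx
    rcases hx with rfl | rfl
    · exact Or.inl rfl
    · have : x ∈ l := by obtain ⟨m, rfl⟩ := h.sp.pl.right; simp
      exact Or.inr ⟨hl x (List.mem_reverse.2 this), Or.inl this⟩
  · have := List.mem_of_mem_tail hx
    exact Or.inr ⟨hl x this, Or.inl (List.mem_reverse.1 this)⟩
  · have := List.mem_of_mem_tail hx
    exact Or.inr ⟨hq x this, Or.inr this⟩

theorem Tl.per (C : Cyc F N v) (h : Tl S s μ r O v w X k Q y c l q) :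
    Tl S s μ r O v w X (k + N) Q y c l q := by
  have e1 : md s v (k + N) = md s v k := by
    unfold md
    rw [show k + N + 1 = k + 1 + N by ring, C.per, C.per]
  refine ⟨⟨h.sp.pl, h.sp.out, h.sp.inn, h.sp.del, ?_, ?_⟩, h.pq, h.qX, h.qD⟩
  · rw [e1]; exact h.sp.near
  · rw [M_per C]; exact h.sp.last

end tails

/-! ### one loop -/

/-- ring from the edge `a`, `m` steps, to the edge `b`; tail of `b`; hull; tail of `a` -/
def lp (s μ : ℝ) (v : ℕ → V) (w : ℤ → ℂ) (ka m : ℕ) (Ta Tb : List ℂ) (Qb : ℤ) (m' : ℕ) : List ℂ :=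
  cat (cat (cat (rg s μ v ka m) Tb) (hl w Qb m')) Ta.reverse

theorem vert_rg (B : Bs s μ F N v) (hμ : 0 < μ) (i m : ℕ) : ∀ a ∈ rg s μ v i m, a ∈ Pg s F := by
  have key : ∀ n, ∀ a ∈ rg s μ v i n, ∃ j, a ∈ rs s μ v j := by
    intro n
    induction n with
    | zero =>
      intro a ha
      rw [show rg s μ v i 0 = [M s μ v i] from rfl, List.mem_singleton] at ha
      exact ⟨i, ha ▸ M_rs i⟩
    | succ n ih =>
      intro a ha
      rw [show rg s μ v i (n + 1) = rg s μ v i n ++ [W s μ v (i + n), M s μ v (i + n + 1)] from rfl,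
        List.mem_append] at ha
      rcases ha with ha | ha
      · exact ih a ha
      · simp only [List.mem_cons, List.not_mem_nil, or_false] at ha
        rcases ha with rfl | rfl
        · exact ⟨i + n, Or.inl (right_mem_segment ℝ _ _)⟩
        · exact ⟨i + n + 1, M_rs _⟩
  intro a ha
  obtain ⟨j, hj⟩ := key m a ha
  exact B.ring j a hj (Metric.mem_ball_self hμ)

/-- the setting -/
structure Stg (S : Finset ℂ) (s μ r : ℝ) (F : Set V) (N : ℕ) (v : ℕ → V) (O : Set ℂ) (n : ℕ)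
    (w : ℤ → ℂ) : Prop where
  gp : GP (S : Set ℂ)
  μ0 : 0 < μ
  μr : μ ≤ r
  rs : 8 * r < s
  cyc : Cyc F N v
  base : Bs s μ F N v
  con : ∀ q ∈ F, ∀ q' ∈ F, Con F q q'
  shal : Shal S s μ F O
  hul : HullCyc S n w
  ins : Ins s F w

theorem three_le (G : ∃ O, Stg S s μ r F N v O n w) : 3 ≤ n := by
  obtain ⟨O, G⟩ := G
  by_contra hcon
  have h0 := G.hul.pos
  have hz : M s μ v 0 ∈ Pg s F := G.base.ring 0 _ (M_rs 0) (Metric.mem_ball_self G.μ0)
  have h1 := G.ins _ hz 0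
  have h2 := G.ins _ hz 1
  have p0 := G.hul.per 0
  have p1 := G.hul.per 1
  have hn : n = 1 ∨ n = 2 := by omega
  rcases hn with rfl | rfl
  · norm_num at p0 h1
    rw [p0] at h1
    unfold cr at h1
    simp at h1
  · norm_num at p0 h1 h2
    rw [p0] at h2
    unfold cr at h1 h2
    simp only [Complex.sub_re, Complex.sub_im] at h1 h2
    linarith

section loop

variable {Xa Xb Xc : Set ℂ} {ka kb kc m m' : ℕ} {Qa Qb Qc : ℤ} {ya yb yc ca cb cc : ℂ}
  {la lb lc' qa qb qc : List ℂ}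

theorem lp_pl (ta : Tl S s μ r O v w Xa ka Qa ya ca la qa)
    (tb : Tl S s μ r O v w Xb kb Qb yb cb lb qb) (hM : M s μ v (ka + m) = M s μ v kb)
    (hQ : w (Qb + m') = w Qa) :
    Pl (lp s μ v w ka m (tail s μ v ka ca la qa) (tail s μ v kb cb lb qb) Qb m')
      (M s μ v ka) (M s μ v ka) := by
  have p1 := rg_pl s μ v ka m
  rw [hM] at p1
  have p3 := hl_pl w Qb m'
  rw [hQ] at p3
  exact ((p1.cat tb.pl).cat p3).cat ta.pl.rev

theorem lp_on (ta : Tl S s μ r O v w Xa ka Qa ya ca la qa)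
    (tb : Tl S s μ r O v w Xb kb Qb yb cb lb qb) (hM : M s μ v (ka + m) = M s μ v kb)
    (hQ : w (Qb + m') = w Qa) :
    On (lp s μ v w ka m (tail s μ v ka ca la qa) (tail s μ v kb cb lb qb) Qb m') =
      ((On (rg s μ v ka m) ∪ On (tail s μ v kb cb lb qb)) ∪ On (hl w Qb m')) ∪
        On (tail s μ v ka ca la qa) := by
  have p1 := rg_pl s μ v ka m
  rw [hM] at p1
  have p3 := hl_pl w Qb m'
  rw [hQ] at p3
  unfold lp
  rw [on_cat ((p1.cat tb.pl).cat p3) ta.pl.rev, on_cat (p1.cat tb.pl) p3, on_cat p1 tb.pl, on_rev]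

theorem lp_asum (ta : Tl S s μ r O v w Xa ka Qa ya ca la qa)
    (tb : Tl S s μ r O v w Xb kb Qb yb cb lb qb) (hM : M s μ v (ka + m) = M s μ v kb)
    (hQ : w (Qb + m') = w Qa) {z : ℂ} (hz : z ∉ On (tail s μ v ka ca la qa)) :
    asum z (lp s μ v w ka m (tail s μ v ka ca la qa) (tail s μ v kb cb lb qb) Qb m') =
      asum z (rg s μ v ka m) + asum z (tail s μ v kb cb lb qb) + asum z (hl w Qb m') -
        asum z (tail s μ v ka ca la qa) := by
  have p1 := rg_pl s μ v ka m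
  rw [hM] at p1
  have p3 := hl_pl w Qb m'
  rw [hQ] at p3
  unfold lp
  rw [asum_cat ((p1.cat tb.pl).cat p3) ta.pl.rev, asum_cat (p1.cat tb.pl) p3, asum_cat p1 tb.pl,
    asum_rev hz]
  ring

/-- **one loop**: total angle `0` at the centres -/
theorem loop0 (G : Stg S s μ r F N v O n w) (Oa : Xa ⊆ O) (Ob : Xb ⊆ O) (Oc : Xc ⊆ O)
    (dac : Disjoint Xa Xc) (dbc : Disjoint Xb Xc)
    (ta : Tl S s μ r O v w Xa ka Qa ya ca la qa)
    (tb : Tl S s μ r O v w Xb kb Qb yb cb lb qb)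
    (tc : Tl S s μ r O v w Xc kc Qc yc cc lc' qc)
    (hM : M s μ v (ka + m) = M s μ v kb) (hQ : w (Qb + m') = w Qa)
    (hh : ∀ j, Qb ≤ j → j ≤ Qb + m' → w j ∈ Xa ∪ Xb)
    (ea : ka % N ≠ kc % N) (eb : kb % N ≠ kc % N)
    (ej : ∀ j, ka ≤ j → j < ka + m → j % N ≠ kc % N ∧ (j + 1) % N ≠ kc % N) {g : V} (hg : g ∈ F) :
    asum (ctr s g)
      (lp s μ v w ka m (tail s μ v ka ca la qa) (tail s μ v kb cb lb qb) Qb m') = 0 := by
  have hr0 : 0 < r := lt_of_lt_of_le G.μ0 G.μr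
  have wS : ∀ j, w j ∈ S := fun j => (hullE.mem (G.hul.edge j)).1
  have pl := lp_pl (m := m) (m' := m') ta tb hM hQ
  have on := lp_on (m := m) (m' := m') ta tb hM hQ
  -- membership
  have na : ∀ x ∈ Xa, x ∉ Xc := fun x h1 h2 => Set.disjoint_left.1 dac h1 h2
  have nb' : ∀ x ∈ Xb, x ∉ Xc := fun x h1 h2 => Set.disjoint_left.1 dbc h1 h2
  have nh : ∀ x ∈ Xa ∪ Xb, x ∉ Xc := by
    rintro x (h | h)
    · exact na x h
    · exact nb' x h
  -- sites on the tails are not outer sites of `Xc`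
  have sA : ∀ x, x ∈ la ∨ x ∈ qa → x ∉ Xc := by
    rintro x (h | h) hx
    · have := ta.sp.inn x h (Oc hx)
      rw [this] at hx
      exact na _ ta.yX hx
    · exact na x (ta.qX x h) hx
  have sB : ∀ x, x ∈ lb ∨ x ∈ qb → x ∉ Xc := by
    rintro x (h | h) hx
    · have := tb.sp.inn x h (Oc hx)
      rw [this] at hx
      exact nb' _ tb.yX hx
    · exact nb' x (tb.qX x h) hx
  have Min : ∀ k, M s μ v k ∈ Pg s F := fun k =>
    G.base.ring k _ (M_rs k) (Metric.mem_ball_self G.μ0)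
  -- (1) at the hull site
  have z1 : asum (w Qc)
      (lp s μ v w ka m (tail s μ v ka ca la qa) (tail s μ v kb cb lb qb) Qb m') = 0 := by
    refine asum_half_closed (u := I * (w (Qc + 1) - w (Qc - 1))) (by rw [pl.hd, pl.lt]) ?_
    intro x hx
    refine half G.gp G.hul (three_le ⟨O, G⟩) Qc ?_
    have hxc : ∀ x, x ∉ Xc → x ≠ w Qc := fun x h e => h (e ▸ tc.wX)
    unfold lp Labx755.cat at hx
    simp only [List.mem_append] at hx
    rcases hx with ((hx | hx) | hx) | hx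
    · exact Or.inr (G.ins x (vert_rg G.base G.μ0 _ _ x hx))
    · rcases tb.mem (wS _) (List.mem_of_mem_tail hx) with h | ⟨h1, h2⟩
      · exact Or.inr (G.ins x (h ▸ Min kb))
      · exact Or.inl ⟨h1, hxc x (sB x h2)⟩
    · obtain ⟨j, h1, h2, rfl⟩ := hl_mem (List.mem_of_mem_tail hx)
      exact Or.inl ⟨wS j, hxc _ (nh _ (hh j h1 h2))⟩
    · rcases ta.mem (wS _) (List.mem_reverse.1 (List.mem_of_mem_tail hx)) with h | ⟨h1, h2⟩
      · exact Or.inr (G.ins x (h ▸ Min ka))
      · exact Or.inl ⟨h1, hxc x (sA x h2)⟩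
  have ringdeep : ∀ z, z ∈ On (rg s μ v ka m) → Metric.ball z (μ / 2) ⊆ Pg s F := by
    intro z hz
    obtain ⟨j, -, hj⟩ := Set.mem_iUnion₂.1 (on_rg s μ v ka m hz)
    exact half_ball G.μ0 (G.base.ring j z hj)
  have self : ∀ z, Metric.ball z (μ / 2) ⊆ Pg s F → z ∈ Pg s F := fun z h =>
    h (Metric.mem_ball_self (half_pos G.μ0))
  have qaO : ∀ x ∈ qa, x ∈ O := fun x hx => Oa (ta.qX x hx)
  have qbO : ∀ x ∈ qb, x ∈ O := fun x hx => Ob (tb.qX x hx)
  have qcO : ∀ x ∈ qc, x ∈ O := fun x hx => Oc (tc.qX x hx)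
  -- (2) the path of the third class
  have e1 := asum_eq_of pl tc.pq.rev (by
    rw [Set.disjoint_left, on, ta.on, tb.on, on_rev]
    rintro z hz (((h' | ((h' | h') | h')) | h') | ((h' | h') | h'))
    · exact G.shal.on tc.qD qcO (ringdeep z h') hz
    · exact G.shal.on tc.qD qcO (tb.sp.deep G.base G.μ0 h') hz
    · exact Set.disjoint_left.1 (disj_chain G.gp tc.qD tb.sp.del fun x hx hx' =>
        sB x (Or.inl hx') (tc.qX x hx)) hz h'
    · exact Set.disjoint_left.1 (disj_chain G.gp tc.qD tb.qD fun x hx hx' =>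
        sB x (Or.inr hx') (tc.qX x hx)) hz h'
    · refine Set.disjoint_left.1 (disj_chain G.gp tc.qD (hl_DE G.hul) fun x hx hx' => ?_) hz h'
      obtain ⟨j, h1, h2, rfl⟩ := hl_mem hx'
      exact nh _ (hh j h1 h2) (tc.qX _ hx)
    · exact G.shal.on tc.qD qcO (ta.sp.deep G.base G.μ0 h') hz
    · exact Set.disjoint_left.1 (disj_chain G.gp tc.qD ta.sp.del fun x hx hx' =>
        sA x (Or.inl hx') (tc.qX x hx)) hz h'
    · exact Set.disjoint_left.1 (disj_chain G.gp tc.qD ta.qD fun x hx hx' =>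
        sA x (Or.inr hx') (tc.qX x hx)) hz h')
  -- points near the spoke `kc` or on its radius
  have gen : ∀ z, (z ∈ nb s r v kc ∨ z ∈ rd s v kc) →
      (Metric.ball z (μ / 2) ⊆ Pg s F ∨ z ∈ On lc') →
      z ∉ On (lp s μ v w ka m (tail s μ v ka ca la qa) (tail s μ v kb cb lb qb) Qb m') := by
    intro z hz hz2
    rw [on]
    have lcX : ∀ x ∈ lc', x ∈ O → x = yc := fun x hx hO => tc.sp.inn x hx hO
    have oq : ∀ q : List ℂ, (∀ p ∈ prs q, DE S p.1 p.2) → (∀ x ∈ q, x ∈ O) →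
        (∀ x ∈ q, x ∉ Xc) → z ∉ On q := by
      intro q hq hO hX h'
      rcases hz2 with h2 | h2
      · exact G.shal.on hq hO h2 h'
      · refine Set.disjoint_left.1 (disj_chain G.gp tc.sp.del hq fun x hx hx' => ?_) h2 h'
        have := lcX x hx (hO x hx')
        exact hX x hx' (this ▸ tc.yX)
    rintro (((h' | h') | h') | h')
    · obtain ⟨j, hj, hj'⟩ := Set.mem_iUnion₂.1 (on_rg s μ v ka m h')
      have := ej j hj.1 hj.2
      exact rs_sep G.base G.rs this.1 this.2 hz hr0 hj'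
    · exact tb.off G.cyc G.μ0 G.μr (nb_sep G.base G.rs eb hz hr0)
        (oq qb tb.qD qbO fun x hx => sB x (Or.inr hx)) h'
    · rcases hz2 with h2 | h2
      · exact hl_off G.ins (self z h2) h'
      · refine Set.disjoint_left.1 (disj_chain G.gp tc.sp.del (hl_DE G.hul)
          fun x hx hx' => ?_) h2 h'
        obtain ⟨j, h3, h4, rfl⟩ := hl_mem hx'
        have h5 := hh j h3 h4
        have hO : w j ∈ O := by
          rcases h5 with h | h
          · exact Oa h
          · exact Ob h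
        have := lcX _ hx hO
        exact nh _ h5 (this ▸ tc.yX)
    · exact ta.off G.cyc G.μ0 G.μr (nb_sep G.base G.rs ea hz hr0)
        (oq qa ta.qD qaO fun x hx => sA x (Or.inr hx)) h'
  have e2 := asum_eq_of pl tc.sp.pl (Set.disjoint_left.2 fun z hz =>
    gen z (Or.inl (tc.sp.nbl hz)) (Or.inr hz))
  have e3 := asum_eq_of pl (pl_two cc (M s μ v kc)) (by
    rw [on_two]
    exact Set.disjoint_left.2 fun z hz =>
      gen z (Or.inl (tc.sp.nbc G.cyc G.μ0 G.μr hz)) (Or.inl (tc.sp.deep G.base G.μ0 hz)))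
  have e4 := asum_eq_of pl (pl_two (M s μ v kc) (ctr s (ic v kc))) (by
    rw [on_two]
    refine Set.disjoint_left.2 fun z hz =>
      gen z (Or.inr ?_) (Or.inl (half_ball G.μ0 (G.base.rad kc z hz)))
    exact (convex_segment _ _).segment_subset (G.base.mrd kc) (right_mem_segment ℝ _ _) hz)
  -- (3) between the centres
  obtain ⟨P, hP, hz⟩ := cen_path G.base (G.cyc.left kc) (G.con _ (G.cyc.left kc) _ hg)
  have e5 := asum_eq_of pl hP (by
    rw [Set.disjoint_left, on]
    intro z hzP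
    obtain ⟨h1, h2⟩ := hz z hzP
    have h3 := half_ball G.μ0 h1
    have nbk : ∀ k, z ∉ nb s r v k := by
      intro k h'
      rw [mem_closedBall_iff_norm] at h'
      have := (h2 k).2
      have := G.rs
      linarith
    rintro (((h' | h') | h') | h')
    · obtain ⟨j, hj, hj'⟩ := Set.mem_iUnion₂.1 (on_rg s μ v ka m h')
      have := (h2 j).1 z hj'
      rw [sub_self, norm_zero] at this
      have := G.rs
      linarith
    · exact tb.off G.cyc G.μ0 G.μr (nbk _) (fun h => G.shal.on tb.qD qbO h3 h) h'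
    · exact hl_off G.ins (self z h3) h'
    · exact ta.off G.cyc G.μ0 G.μr (nbk _) (fun h => G.shal.on ta.qD qaO h3 h) h')
  have e6 : ctr s (Crest.Agent.R158.Sp896.lc (v kc) (v (kc + 1))) = ctr s (ic v kc) := rfl
  rw [e6] at e5
  rw [← e5, ← e4, ← e3, ← e2, ← e1, z1]

end loop

/-! ### the orientation -/

/-- the hull carries the labels `0, 1, 2` counterclockwise -/
structure Arc3 (w : ℤ → ℂ) (n : ℕ) (X : ZMod 3 → Set ℂ) (p0 p1 p2 : ℤ) : Prop where
  h01 : p0 < p1
  h12 : p1 < p2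
  h20 : p2 < p0 + n
  a0 : ∀ j, p0 < j → j ≤ p1 → w j ∈ X 0
  a1 : ∀ j, p1 < j → j ≤ p2 → w j ∈ X 1
  a2 : ∀ j, p2 < j → j ≤ p0 + n → w j ∈ X 2

theorem exists_pos (H : HullCyc S n w) (p0 j : ℤ) : ∃ j', p0 < j' ∧ j' ≤ p0 + n ∧ w j' = w j := by
  have hn : (0 : ℤ) < n := by exact_mod_cast H.pos
  refine ⟨p0 + 1 + (j - p0 - 1) % n, ?_, ?_, ?_⟩
  · have := Int.emod_nonneg (j - p0 - 1) hn.ne'
    omega
  · have := Int.emod_lt_of_pos (j - p0 - 1) hn
    omega
  · have e : (p0 + 1 + (j - p0 - 1) % n) % (n : ℤ) = j % n := by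
      rw [Int.add_emod, Int.emod_emod_of_dvd _ (dvd_refl _), ← Int.add_emod]
      congr 1
      ring
    rw [← mod_per H.pos H.per, e, mod_per H.pos H.per]

/-- **ORD**: the labels do not occur in clockwise order along the boundary walk -/
theorem ord (G : Stg S s μ r F N v O n w) {X : ZMod 3 → Set ℂ} (hO : ∀ i, X i ⊆ O)
    (hd : ∀ i j, i ≠ j → Disjoint (X i) (X j)) {p0 p1 p2 : ℤ} (A : Arc3 w n X p0 p1 p2)
    {k0 k1 k2 : ℕ} (k02 : k0 < k2) (k21 : k2 < k1) (k10 : k1 < k0 + N)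
    {y0 y1 y2 c0 c1 c2 : ℂ} {l0 l1 l2 : List ℂ} (s0 : Spo S s μ r O v k0 y0 c0 l0)
    (s1 : Spo S s μ r O v k1 y1 c1 l1) (s2 : Spo S s μ r O v k2 y2 c2 l2)
    (q0 : ∃ j, Pth S (X 0) y0 (w j)) (q1 : ∃ j, Pth S (X 1) y1 (w j))
    (q2 : ∃ j, Pth S (X 2) y2 (w j)) : False := by
  have hr0 : 0 < r := lt_of_lt_of_le G.μ0 G.μr
  have d01 := hd 0 1 (by decide)
  have d02 := hd 0 2 (by decide)
  have d12 := hd 1 2 (by decide)
  -- hull positions
  obtain ⟨j0, q0⟩ := q0
  obtain ⟨j1, q1⟩ := q1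
  obtain ⟨j2, q2⟩ := q2
  obtain ⟨Q0, f0, g0, e0⟩ := exists_pos G.hul p0 j0
  obtain ⟨Q1, f1, g1, e1⟩ := exists_pos G.hul p0 j1
  obtain ⟨Q2, f2, g2, e2⟩ := exists_pos G.hul p0 j2
  rw [← e0] at q0
  rw [← e1] at q1
  rw [← e2] at q2
  have i0 : Q0 ≤ p1 := by
    by_contra hcon
    push Not at hcon
    rcases le_or_gt Q0 p2 with h | h
    · exact Set.disjoint_left.1 d01 q0.snd (A.a1 _ hcon h)
    · exact Set.disjoint_left.1 d02 q0.snd (A.a2 _ h g0)
  have i1 : p1 < Q1 ∧ Q1 ≤ p2 := by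
    constructor
    · by_contra hcon
      push Not at hcon
      exact Set.disjoint_left.1 d01 (A.a0 _ f1 hcon) q1.snd
    · by_contra hcon
      push Not at hcon
      exact Set.disjoint_left.1 d12 q1.snd (A.a2 _ hcon g1)
  have i2 : p2 < Q2 := by
    by_contra hcon
    push Not at hcon
    rcases le_or_gt Q2 p1 with h | h
    · exact Set.disjoint_left.1 d02 (A.a0 _ f2 h) q2.snd
    · exact Set.disjoint_left.1 d12 (A.a1 _ h hcon) q2.snd
  obtain ⟨r0, pr0, rX0, rD0⟩ := exists_chain q0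
  obtain ⟨r1, pr1, rX1, rD1⟩ := exists_chain q1
  obtain ⟨r2, pr2, rX2, rD2⟩ := exists_chain q2
  have t0 : Tl S s μ r O v w (X 0) k0 Q0 y0 c0 l0 r0 := ⟨s0, pr0, rX0, rD0⟩
  have t1 : Tl S s μ r O v w (X 1) k1 Q1 y1 c1 l1 r1 := ⟨s1, pr1, rX1, rD1⟩
  have t2 : Tl S s μ r O v w (X 2) k2 Q2 y2 c2 l2 r2 := ⟨s2, pr2, rX2, rD2⟩
  -- lengths
  obtain ⟨m1, rfl⟩ : ∃ m1 : ℕ, Q1 = Q0 + m1 := ⟨(Q1 - Q0).toNat, by omega⟩
  obtain ⟨m2, rfl⟩ : ∃ m2 : ℕ, Q2 = Q0 + m1 + m2 := ⟨(Q2 - (Q0 + m1)).toNat, by omega⟩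
  obtain ⟨m3, hm3⟩ : ∃ m3 : ℕ, n = m1 + m2 + m3 := ⟨n - (m1 + m2), by omega⟩
  obtain ⟨u1, rfl⟩ : ∃ u1, k2 = k0 + u1 := ⟨k2 - k0, by omega⟩
  obtain ⟨u2, rfl⟩ : ∃ u2, k1 = k0 + u1 + u2 := ⟨k1 - (k0 + u1), by omega⟩
  obtain ⟨u3, hu3⟩ : ∃ u3, N = u1 + u2 + u3 := ⟨N - (u1 + u2), by omega⟩
  have wn : ∀ j, w (j + n) = w j := G.hul.per
  have MN : M s μ v (k0 + u1 + u2 + u3) = M s μ v k0 := by
    rw [show k0 + u1 + u2 + u3 = k0 + N by omega, M_per G.cyc]
  have hq : ic v k0 ∈ F := G.cyc.left k0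
  have LA := loop0 (m := u1) (m' := m3) G (hO 0) (hO 2) (hO 1) d01 d12.symm t0 t2 t1 rfl
    (by rw [show Q0 + m1 + m2 + m3 = Q0 + (n : ℤ) by rw [hm3]; push_cast; ring]; exact wn Q0)
    (by
      intro j h1 h2
      rcases le_or_gt j (p0 + n) with h | h
      · exact Or.inr (A.a2 j (by omega) h)
      · refine Or.inl ?_
        have := A.a0 (j - n) (by omega) (by omega)
        rwa [← wn (j - n), sub_add_cancel] at this)
    (mod_ne (by omega) (by omega)) (mod_ne (by omega) (by omega))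
    (fun j h1 h2 => ⟨mod_ne (by omega) (by omega), mod_ne (by omega) (by omega)⟩) hq
  have LB := loop0 (m := u2) (m' := m2) G (hO 2) (hO 1) (hO 0) d02.symm d01.symm t2 t1 t0 rfl
    rfl
    (by
      intro j h1 h2
      rcases le_or_gt j p2 with h | h
      · exact Or.inr (A.a1 j (by omega) h)
      · exact Or.inl (A.a2 j h (by omega)))
    (mod_ne' (by omega) (by omega)) (mod_ne' (by omega) (by omega))
    (fun j h1 h2 => ⟨mod_ne' (by omega) (by omega), mod_ne' (by omega) (by omega)⟩) hq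
  have LC := loop0 (m := u3) (m' := m1) G (hO 1) (hO 0) (hO 2) d12 d02 t1 t0 t2 MN
    rfl
    (by
      intro j h1 h2
      rcases le_or_gt j p1 with h | h
      · exact Or.inr (A.a0 j (by omega) h)
      · exact Or.inl (A.a1 j h (by omega)))
    (mod_ne' (by omega) (by omega)) (mod_ne (by omega) (by omega))
    (fun j h1 h2 => ⟨mod_ne' (by omega) (by omega), mod_ne' (by omega) (by omega)⟩) hq
  -- the centre is off the tails
  set z := ctr s (ic v k0) with hz
  have zd : Metric.ball z (μ / 2) ⊆ Pg s F :=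
    half_ball G.μ0 (G.base.rad k0 z (right_mem_segment ℝ _ _))
  have zP : z ∈ Pg s F := zd (Metric.mem_ball_self (half_pos G.μ0))
  have zr : z ∈ rd s v k0 := right_mem_segment ℝ _ _
  have zn0 : z ∉ nb s r v k0 := by
    rw [mem_closedBall_iff_norm, hz, LabBx951.ctr_ic G.cyc, add_sub_cancel_left, norm_mul, norm_mul,
      ev_norm G.cyc, Complex.norm_I]
    have h1 : ‖(s : ℂ) / 2‖ = s / 2 := by
      rw [norm_div, Complex.norm_real, Real.norm_eq_abs, abs_of_pos (by have := G.rs; linarith)]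
      norm_num
    rw [h1]
    have := G.rs
    push Not
    linarith
  have o0 := t0.off G.cyc G.μ0 G.μr zn0 fun h =>
    G.shal.on rD0 (fun x hx => hO 0 (rX0 x hx)) zd h
  have o1 := t1.off G.cyc G.μ0 G.μr
    (nb_sep G.base G.rs (mod_ne' (by omega) (by omega)) (Or.inr zr) hr0) fun h =>
    G.shal.on rD1 (fun x hx => hO 1 (rX1 x hx)) zd h
  have o2 := t2.off G.cyc G.μ0 G.μr
    (nb_sep G.base G.rs (mod_ne' (by omega) (by omega)) (Or.inr zr) hr0) fun h =>
    G.shal.on rD2 (fun x hx => hO 2 (rX2 x hx)) zd h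
  rw [lp_asum t0 t2 rfl (by
    rw [show Q0 + m1 + m2 + m3 = Q0 + (n : ℤ) by rw [hm3]; push_cast; ring]; exact wn Q0) o0] at LA
  rw [lp_asum t2 t1 rfl rfl o2] at LB
  rw [lp_asum t1 t0 MN rfl o1] at LC
  -- sums
  have R : asum z (rg s μ v k0 N) = asum z (rg s μ v k0 u1) + asum z (rg s μ v (k0 + u1) u2) +
      asum z (rg s μ v (k0 + u1 + u2) u3) := by
    rw [hu3, rg_add s μ v k0 (u1 + u2) u3, asum_cat (rg_pl s μ v k0 (u1 + u2))
      (c := M s μ v (k0 + (u1 + u2) + u3)) (rg_pl s μ v (k0 + (u1 + u2)) u3),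
      rg_add s μ v k0 u1 u2, asum_cat (rg_pl s μ v k0 u1) (rg_pl s μ v (k0 + u1) u2),
      ← Nat.add_assoc]
  have Hh : asum z (hl w Q0 n) = asum z (hl w Q0 m1) + asum z (hl w (Q0 + m1) m2) +
      asum z (hl w (Q0 + m1 + m2) m3) := by
    have hc : ((m1 + m2 : ℕ) : ℤ) = m1 + m2 := by push_cast; ring
    rw [hm3, hl_add w Q0 (m1 + m2) m3, asum_cat (hl_pl w Q0 (m1 + m2))
      (hl_pl w (Q0 + (m1 + m2 : ℕ)) m3), hl_add w Q0 m1 m2, asum_cat (hl_pl w Q0 m1)
      (hl_pl w (Q0 + m1) m2), hc, ← add_assoc]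
  have Rv : asum z (rg s μ v k0 N) = 2 * Real.pi := G.base.idx k0 _ hq
  have Hv : 0 < asum z (hl w Q0 n) := by
    obtain ⟨n', hn'⟩ : ∃ n', n = n' + 1 := ⟨n - 1, by have := G.hul.pos; omega⟩
    rw [hn']
    exact asum_hl_pos G.ins zP
  have := Real.pi_pos
  linarith

end Crest.Agent.R143.Ordx165
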