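import Crest.Agent.R143.Sep_755
import Crest.Agent.R143.Three_951

/-!
# Row 143 (S0194), CONT (K7): the labels along a grid polygon are in the order of the hull
(helper755)

* `hl` : path along the hull; `InH S z` : inside the hull polygon
* `ord` : three disjoint classes of outer sites with hull arcs; the spokes cannot be in the wrong
  order
-/

set_option autoImplicit false

noncomputable section

namespace Crest.Agent.R143.Ordx755

open Set Complex
open Crest.Agent.R158.Sp896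
open Crest.Agent.R143.ToolWx838 Crest.Agent.R143.ToolW3x838 Crest.Agent.R143.Blkx838
open Crest.Agent.R143.Tenx416 (Pg)
open Crest.Agent.R143.LabDx755
open Crest.Agent.R143.Labx755 (On Pl cat asum_cat on_cat on_rev off_iff asum_rev pl_two on_two pl_one
  on_one asum_eq_of on_sub on_conv exists_chain disj_chain Shr rg_pl rg_add on_rg mem_on_left
  mem_on_right ev_norm M_md M_per M_rs nb half_ball cen_path asum_far mod_ne mod_ne' nb_sep rs_sep)
open Crest.Agent.R143.B0x346 (GP cr hullE)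
open Crest.Agent.R143.RE0x723 (Pth)
open Crest.Agent.R143.DelRx806 (HullCyc)
open Crest.Agent.R143.DelGx806 (hull_side_lt)
open Crest.Agent.R143.Sepx755

variable {l m : List ℂ} {a b c x z : ℂ}

theorem prs_cat (h : Pl l a b) (h' : Pl m b c) : prs (cat l m) = prs l ++ prs m := by
  obtain ⟨l0, rfl⟩ := h.right
  obtain ⟨m0, rfl⟩ := h'.left
  unfold Labx755.cat
  rw [List.tail_cons, List.append_assoc, List.singleton_append, prs_append]

/-- chains of Delaunay edges -/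
theorem del_cat {S : Finset ℂ} (h : Pl l a b) (h' : Pl m b c) (hl : ∀ p ∈ prs l, DE S p.1 p.2)
    (hm : ∀ p ∈ prs m, DE S p.1 p.2) : ∀ p ∈ prs (cat l m), DE S p.1 p.2 := by
  intro p hp
  rw [prs_cat h h'] at hp
  rcases List.mem_append.1 hp with hp | hp
  · exact hl p hp
  · exact hm p hp

theorem del_rev {S : Finset ℂ} (hl : ∀ p ∈ prs l, DE S p.1 p.2) :
    ∀ p ∈ prs l.reverse, DE S p.1 p.2 := by
  intro p hp
  rw [prs_reverse, List.mem_reverse, List.mem_map] at hp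
  obtain ⟨p', hp', rfl⟩ := hp
  exact (hl p' hp').symm

/-! ### the hull -/

/-- hull path `w a, .., w (a + m)` -/
def hl (w : ℤ → ℂ) (a : ℤ) : ℕ → List ℂ
  | 0 => [w a]
  | m + 1 => cat (hl w a m) [w (a + m), w (a + m + 1)]

/-- inside the hull polygon -/
def InH (S : Finset ℂ) (z : ℂ) : Prop := ∀ a b, hullE S a b → 0 < cr (b - a) (z - a)

variable {S : Finset ℂ} {n : ℕ} {w : ℤ → ℂ}

theorem hl_pl (w : ℤ → ℂ) (a : ℤ) (m : ℕ) : Pl (hl w a m) (w a) (w (a + m)) := by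
  induction m with
  | zero => simpa [hl] using pl_one (w a)
  | succ m ih =>
    have := ih.cat (pl_two (w (a + m)) (w (a + m + 1)))
    have e : a + ((m + 1 : ℕ) : ℤ) = a + m + 1 := by push_cast; ring
    rw [e]
    exact this

theorem hl_mem {a : ℤ} {m : ℕ} {x : ℂ} (h : x ∈ hl w a m) : ∃ j, a ≤ j ∧ j ≤ a + m ∧ x = w j := by
  induction m with
  | zero =>
    rw [show hl w a 0 = [w a] from rfl, List.mem_singleton] at h
    exact ⟨a, le_rfl, by simp, h⟩
  | succ m ih =>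
    rcases mem_cat (show x ∈ cat (hl w a m) [w (a + m), w (a + m + 1)] from h) with h | h
    · obtain ⟨j, h1, h2, h3⟩ := ih h
      exact ⟨j, h1, by push_cast; omega, h3⟩
    · simp only [List.mem_cons, List.not_mem_nil, or_false] at h
      rcases h with rfl | rfl
      · exact ⟨_, by omega, by push_cast; omega, rfl⟩
      · exact ⟨_, by omega, by push_cast; omega, rfl⟩

theorem de_hull (h : hullE S a b) : DE S a b := Or.inl h.1

theorem hl_del (H : HullCyc S n w) (a : ℤ) (m : ℕ) : ∀ p ∈ prs (hl w a m), DE S p.1 p.2 := by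
  induction m with
  | zero => simp [hl]
  | succ m ih =>
    refine del_cat (hl_pl w a m) (pl_two _ _) ih fun p hp => ?_
    simp only [prs_cons, prs_one, List.mem_singleton] at hp
    rw [hp]
    exact de_hull (H.edge (a + m))

theorem cr_expand (a b x : ℂ) : cr (a - x) (b - x) = cr (b - a) (x - a) := by
  unfold cr
  simp only [Complex.sub_re, Complex.sub_im]
  ring

/-- an edge seen with the point on its left has a positive angle -/
theorem ang_pos (h : 0 < cr (b - a) (x - a)) : 0 < ang x a b := by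
  unfold ang
  have h1 : 0 < ((b - x) / (a - x)).im := by
    rw [Complex.div_im]
    have h0 : a - x ≠ 0 := by
      intro h0
      have : x - a = 0 := by rw [← neg_sub, h0, neg_zero]
      rw [this] at h
      simp [cr] at h
    have h2 : 0 < Complex.normSq (a - x) := Complex.normSq_pos.2 h0
    rw [← cr_expand] at h
    unfold cr at h
    rw [← sub_div]
    exact div_pos (by linarith) h2
  have := (Complex.arg_nonneg_iff (z := (b - x) / (a - x))).2 h1.le
  refine lt_of_le_of_ne this fun h2 => ?_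
  have := (Complex.arg_eq_zero_iff.1 h2.symm).2
  linarith

theorem hl_pos (H : HullCyc S n w) (hz : InH S z) (a : ℤ) (m : ℕ) : 0 ≤ asum z (hl w a m) := by
  induction m with
  | zero => simp [hl]
  | succ m ih =>
    have : asum z (hl w a (m + 1)) = asum z (hl w a m) + asum z [w (a + m), w (a + m + 1)] :=
      asum_cat (hl_pl w a m) (pl_two _ _)
    rw [this]
    have h1 : 0 < ang z (w (a + m)) (w (a + m + 1)) := ang_pos (hz _ _ (H.edge _))
    simp only [asum_cons, asum_one]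
    linarith

theorem cr_half (e z : ℂ) (he : e ≠ 0) : (z / (I * e)).re = cr e z / Complex.normSq e := by
  rw [Complex.div_re]
  simp only [Complex.mul_re, Complex.mul_im, Complex.I_re, Complex.I_im, Complex.normSq_mul,
    Complex.normSq_I]
  unfold cr
  have : Complex.normSq e ≠ 0 := fun h => he (Complex.normSq_eq_zero.1 h)
  field_simp
  ring

/-- a hull site is extreme -/
theorem ext_site (hS : GP (S : Set ℂ)) (H : HullCyc S n w) (t : ℤ) :
    ∃ u, (∀ z ∈ S, z ≠ w t → 0 < ((z - w t) / u).re) ∧ ∀ z, InH S z → 0 < ((z - w t) / u).re := by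
  have h2 := H.edge t
  have h1 : hullE S (w (t - 1)) (w t) := by
    have := H.edge (t - 1)
    rwa [sub_add_cancel] at this
  set e2 := w (t + 1) - w t with he2
  set e1 := w t - w (t - 1) with he1
  have add : ∀ z, cr (e1 + e2) (z - w t) = cr e1 (z - w (t - 1)) + cr e2 (z - w t) := by
    intro z
    rw [he1, he2]
    unfold cr
    simp only [Complex.sub_re, Complex.sub_im, Complex.add_re, Complex.add_im]
    ring
  have key : ∀ z, (0 < cr (e1 + e2) (z - w t)) → 0 < ((z - w t) / (I * (e1 + e2))).re := by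
    intro z hz
    have hne : e1 + e2 ≠ 0 := by
      intro h
      rw [h] at hz
      simp [cr] at hz
    rw [cr_half _ _ hne]
    exact div_pos hz (Complex.normSq_pos.2 hne)
  refine ⟨I * (e1 + e2), fun z hz hne => key z ?_, fun z hz => key z ?_⟩
  · rw [add]
    by_cases h3 : z = w (t + 1)
    · by_cases h4 : z = w (t - 1)
      · exfalso
        have h5 : hullE S (w t) (w (t + 1)) := h2
        rw [← h3, h4] at h5
        obtain ⟨c, hc⟩ := h5.1
        exact h1.2 c hc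
      · have h5 := hull_side_lt hS h1 hz (Ne.symm h4) (Ne.symm hne)
        have h6 := Crest.Agent.R143.DelGx806.hull_side h2 z hz
        linarith
    · have h5 := hull_side_lt hS h2 hz (Ne.symm hne) (Ne.symm h3)
      have h6 := Crest.Agent.R143.DelGx806.hull_side h1 z hz
      linarith
  · rw [add]
    exact add_pos (hz _ _ h1) (hz _ _ h2)

/-! ### ORD -/

/-- hull arcs of three classes, counterclockwise order `0, 1, 2` -/
structure Hul (S : Finset ℂ) (A : ZMod 3 → Set ℂ) (n : ℕ) (w : ℤ → ℂ) (p : ℕ → ℤ) : Prop where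
  cyc : HullCyc S n w
  lt0 : p 0 < p 1
  lt1 : p 1 < p 2
  lt2 : p 2 < p 0 + n
  a0 : ∀ k, p 0 < k → k ≤ p 1 → w k ∈ A 0
  a1 : ∀ k, p 1 < k → k ≤ p 2 → w k ∈ A 1
  a2 : ∀ k, p 2 < k → k ≤ p 0 + n → w k ∈ A 2

/-- chain of Delaunay edges in a set -/
structure Chn (S : Finset ℂ) (X : Set ℂ) (l : List ℂ) (a b : ℂ) : Prop where
  pl : Pl l a b
  mem : ∀ x ∈ l, x ∈ X
  del : ∀ p ∈ prs l, DE S p.1 p.2

theorem exists_chn {X : Set ℂ} (h : Pth S X a b) : ∃ l, Chn S X l a b := by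
  obtain ⟨l, h1, h2, h3⟩ := exists_chain h
  exact ⟨l, h1, h2, h3⟩

section main

variable {s μ r δ : ℝ} {F : Set V} {N : ℕ} {v : ℕ → V}

/-- one of the three loops -/
theorem loop0 (Z : St S s μ r δ F N v) (hP : ∀ z ∈ Pg s F, InH S z) {X Y T : Set ℂ}
    (hXS : ∀ x ∈ X, x ∈ S) (hYS : ∀ x ∈ Y, x ∈ S)
    (oX : ∀ x ∈ X, Out s δ F x) (oY : ∀ x ∈ Y, Out s δ F x) (oT : ∀ x ∈ T, Out s δ F x)
    (dX : Disjoint T X) (dY : Disjoint T Y) (H : HullCyc S n w) {t : ℤ}
    {i m k : ℕ} (ej : ∀ j, i ≤ j → j ≤ i + m → j % N ≠ k % N)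
    {yi yj yk ci cj ck ei ee : ℂ} {li lj lk gi gj gk hp : List ℂ}
    (si : Spo S s μ r δ F v i yi ci li) (sj : Spo S s μ r δ F v (i + m) yj cj lj)
    (sk : Spo S s μ r δ F v k yk ck lk)
    (hi : Chn S X gi yi ei) (hj : Chn S Y gj yj ee) (hk : Chn S T gk yk (w t))
    (hh : Chn S (X ∪ Y) hp ee ei) (k0 : ℕ) :
    asum (ctr s (ic v k0)) (rg s μ v i m) + gw s μ v (ctr s (ic v k0)) (i + m) cj lj +
      (asum (ctr s (ic v k0)) gj + asum (ctr s (ic v k0)) hp - asum (ctr s (ic v k0)) gi) -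
      gw s μ v (ctr s (ic v k0)) i ci li = 0 := by
  have hdeep : Metric.ball (ctr s (ic v k0)) (μ / 2) ⊆ Pg s F :=
    half_ball Z.hμ (Z.B.rad k0 _ (right_mem_segment ℝ _ _))
  have hq1 : Pl (cat gj hp) yj ei := hj.pl.cat hh.pl
  have hq : Pl (cat (cat gj hp) gi.reverse) yj yi := hq1.cat hi.pl.rev
  have mq : ∀ x ∈ cat (cat gj hp) gi.reverse, x ∈ X ∪ Y := by
    intro x hx
    rcases mem_cat hx with hx | hx
    · rcases mem_cat hx with hx | hx
      · exact Or.inr (hj.mem x hx)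
      · exact hh.mem x hx
    · exact Or.inl (hi.mem x (List.mem_reverse.1 hx))
  have P : Lp S s μ r δ F v i m yi yj ci cj li lj (cat (cat gj hp) gi.reverse) := by
    refine ⟨si, sj, hq, fun x hx => ?_, ?_, fun x hx => ?_⟩
    · rcases mq x hx with h | h
      · exact hXS x h
      · exact hYS x h
    · exact del_cat hq1 hi.pl.rev (del_cat hj.pl hh.pl hj.del hh.del) (del_rev hi.del)
    · rcases mq x hx with h | h
      · exact oX x h
      · exact oY x h
  obtain ⟨u, hu1, hu2⟩ := ext_site Z.gp H t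
  have h0 := P.idx0 Z sk ej hk.pl hk.del (fun x hx => oT x (hk.mem x hx)) (by
    intro x hx hx'
    rcases mq x hx' with h | h
    · exact Set.disjoint_left.1 dX (hk.mem x hx) h
    · exact Set.disjoint_left.1 dY (hk.mem x hx) h) hu1 (fun z hz => hu2 z (hP z hz))
    (q0 := ic v k0) (Z.C.left k0)
  rw [P.sum (fun h => Z.ctr_nb k0 i (si.nbl h)) (fun h => Z.ctr_nb k0 i (si.nbc Z h)),
    asum_cat hq1 hi.pl.rev, asum_cat hj.pl hh.pl,
    asum_rev (Z.shallow hi.del (fun x hx => oX x (hi.mem x hx)) hdeep)] at h0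
  linarith

/-- **ORD**: the classes `0, 1, 2` touch the boundary in the order of the hull -/
theorem ord (Z : St S s μ r δ F N v) (hP : ∀ z ∈ Pg s F, InH S z) {A : ZMod 3 → Set ℂ}
    (sub : ∀ i, ∀ x ∈ A i, x ∈ S) (out : ∀ i, ∀ x ∈ A i, Out s δ F x)
    (disj : ∀ i j, i ≠ j → Disjoint (A i) (A j))
    (con : ∀ i, ∀ x ∈ A i, ∀ y ∈ A i, Pth S (A i) x y) {p : ℕ → ℤ} (H : Hul S A n w p)
    {k0 k1 k2 : ℕ} (h02 : k0 < k2) (h21 : k2 < k1) (h10 : k1 < k0 + N)
    {y0 y1 y2 c0 c1 c2 : ℂ} {l0 l1 l2 : List ℂ}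
    (s0 : Spo S s μ r δ F v k0 y0 c0 l0) (s1 : Spo S s μ r δ F v k1 y1 c1 l1)
    (s2 : Spo S s μ r δ F v k2 y2 c2 l2) (m0 : y0 ∈ A 0) (m1 : y1 ∈ A 1) (m2 : y2 ∈ A 2) :
    False := by
  have d01 : (0 : ZMod 3) ≠ 1 := by decide
  have d02 : (0 : ZMod 3) ≠ 2 := by decide
  have d12 : (1 : ZMod 3) ≠ 2 := by decide
  have q1 := H.lt0
  have q2 := H.lt1
  have q3 := H.lt2
  have e0 : w (p 1) ∈ A 0 := H.a0 _ q1 le_rfl
  have e1 : w (p 2) ∈ A 1 := H.a1 _ q2 le_rfl
  have e2 : w (p 0 + n) ∈ A 2 := H.a2 _ q3 le_rfl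
  obtain ⟨g0, hg0⟩ := exists_chn (con 0 y0 m0 _ e0)
  obtain ⟨g1, hg1⟩ := exists_chn (con 1 y1 m1 _ e1)
  obtain ⟨g2, hg2⟩ := exists_chn (con 2 y2 m2 _ e2)
  obtain ⟨t1, ht1⟩ : ∃ t : ℕ, p 2 = p 1 + t := ⟨(p 2 - p 1).toNat, by omega⟩
  obtain ⟨t2, ht2⟩ : ∃ t : ℕ, p 0 + n = p 2 + t := ⟨(p 0 + n - p 2).toNat, by omega⟩
  obtain ⟨t3, ht3⟩ : ∃ t : ℕ, p 1 + n = p 0 + n + t := ⟨(p 1 - p 0).toNat, by omega⟩
  have H01 : Chn S (A 1 ∪ A 0) (hl w (p 1) t1) (w (p 1)) (w (p 2)) := by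
    refine ⟨?_, fun x hx => ?_, hl_del H.cyc _ _⟩
    · rw [ht1]; exact hl_pl w _ _
    · obtain ⟨j, j1, j2, rfl⟩ := hl_mem hx
      rcases eq_or_lt_of_le j1 with rfl | j1
      · exact Or.inr e0
      · exact Or.inl (H.a1 _ j1 (by omega))
  have H12 : Chn S (A 2 ∪ A 1) (hl w (p 2) t2) (w (p 2)) (w (p 0 + n)) := by
    refine ⟨?_, fun x hx => ?_, hl_del H.cyc _ _⟩
    · rw [ht2]; exact hl_pl w _ _
    · obtain ⟨j, j1, j2, rfl⟩ := hl_mem hx
      rcases eq_or_lt_of_le j1 with rfl | j1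
      · exact Or.inr e1
      · exact Or.inl (H.a2 _ j1 (by omega))
  have H20 : Chn S (A 0 ∪ A 2) (hl w (p 0 + n) t3) (w (p 0 + n)) (w (p 1)) := by
    refine ⟨?_, fun x hx => ?_, hl_del H.cyc _ _⟩
    · have := hl_pl w (p 0 + n) t3
      have e : w (p 1 + n) = w (p 1) := H.cyc.per _
      rwa [← ht3, e] at this
    · obtain ⟨j, j1, j2, rfl⟩ := hl_mem hx
      rcases eq_or_lt_of_le j1 with rfl | j1
      · exact Or.inr e2
      · have := H.a0 (j - n) (by omega) (by omega)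
        have e : w j = w (j - n) := by
          have := H.cyc.per (j - n)
          rwa [sub_add_cancel] at this
        rw [e]
        exact Or.inl this
  obtain ⟨n1, rfl⟩ : ∃ t, k2 = k0 + t := ⟨k2 - k0, by omega⟩
  obtain ⟨n2, rfl⟩ : ∃ t, k1 = k0 + n1 + t := ⟨k1 - (k0 + n1), by omega⟩
  obtain ⟨n3, hn3⟩ : ∃ t, k0 + N = k0 + n1 + n2 + t := ⟨k0 + N - (k0 + n1 + n2), by omega⟩
  have s0' : Spo S s μ r δ F v (k0 + n1 + n2 + n3) y0 c0 l0 := by
    rw [← hn3]; exact s0.per Z.C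
  -- the loops
  have L1 := loop0 Z hP (sub 0) (sub 2) (out 0) (out 2) (out 1) (disj 1 0 d01.symm) (disj 1 2 d12)
    H.cyc (t := p 2) (i := k0) (m := n1) (k := k0 + n1 + n2)
    (fun j j1 j2 => mod_ne (by omega) (by omega)) s0 s2 s1 hg0 hg2 hg1 H20 k0
  have L2 := loop0 Z hP (sub 2) (sub 1) (out 2) (out 1) (out 0) (disj 0 2 d02) (disj 0 1 d01)
    H.cyc (t := p 1) (i := k0 + n1) (m := n2) (k := k0)
    (fun j j1 j2 => mod_ne' (by omega) (by omega)) s2 s1 s0 hg2 hg1 hg0 H12 k0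
  have L3 := loop0 Z hP (sub 1) (sub 0) (out 1) (out 0) (out 2) (disj 2 1 d12.symm)
    (disj 2 0 d02.symm)
    H.cyc (t := p 0 + n) (i := k0 + n1 + n2) (m := n3) (k := k0 + n1)
    (fun j j1 j2 => mod_ne' (by omega) (by omega)) s1 s0' s2 hg1 hg0 hg2 H01 k0
  -- ring
  have i1 := Z.B.idx k0 _ (Z.C.left k0)
  have hN : N = n1 + n2 + n3 := by omega
  have i2 : asum (ctr s (ic v k0)) (rg s μ v k0 N) = asum (ctr s (ic v k0)) (rg s μ v k0 n1) +
      asum (ctr s (ic v k0)) (rg s μ v (k0 + n1) n2) +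
      asum (ctr s (ic v k0)) (rg s μ v (k0 + n1 + n2) n3) := by
    rw [hN, rg_add, asum_cat (rg_pl s μ v k0 (n1 + n2)) (by
      have := rg_pl s μ v (k0 + (n1 + n2)) n3; exact this), rg_add,
      asum_cat (rg_pl s μ v k0 n1) (rg_pl s μ v (k0 + n1) n2), ← Nat.add_assoc]
  have i3 : gw s μ v (ctr s (ic v k0)) (k0 + n1 + n2 + n3) c0 l0 =
      gw s μ v (ctr s (ic v k0)) k0 c0 l0 := by
    rw [← hn3, gw_per Z.C]
  rw [i3] at L3
  have hin : InH S (ctr s (ic v k0)) :=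
    hP _ (Z.B.rad k0 _ (right_mem_segment ℝ _ _) (Metric.mem_ball_self Z.hμ))
  have a1 := hl_pos H.cyc hin (p 1) t1
  have a2 := hl_pos H.cyc hin (p 2) t2
  have a3 := hl_pos H.cyc hin (p 0 + n) t3
  have hpi := Real.pi_pos
  have e : ic v k0 = lc (v k0) (v (k0 + 1)) := rfl
  rw [← e, i2] at i1
  linarith

/-- **THREE**: three intervals in the order of the hull -/
theorem three (Z : St S s μ r δ F N v) (hP : ∀ z ∈ Pg s F, InH S z) {A : ZMod 3 → Set ℂ}
    (sub : ∀ i, ∀ x ∈ A i, x ∈ S) (out : ∀ i, ∀ x ∈ A i, Out s δ F x)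
    (disj : ∀ i j, i ≠ j → Disjoint (A i) (A j))
    (con : ∀ i, ∀ x ∈ A i, ∀ y ∈ A i, Pth S (A i) x y) {p : ℕ → ℤ} (H : Hul S A n w p)
    {lab : ℕ → ZMod 3} (per : ∀ k, lab (k + N) = lab k) (hall : ∀ i, ∃ k, lab k = i)
    (spk : ∀ k, ∃ y c l, Spo S s μ r δ F v k y c l ∧ y ∈ A (lab k)) :
    ∃ a0 a1 a2, a0 < a1 ∧ a1 < a2 ∧ a2 < a0 + N ∧ (∀ k, a0 ≤ k → k < a1 → lab k = 0) ∧
      (∀ k, a1 ≤ k → k < a2 → lab k = 1) ∧ (∀ k, a2 ≤ k → k < a0 + N → lab k = 2) := by
  have hN : 0 < N := by have := Z.C.four_le; omega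
  refine Threex951.three_comb hN per hall fun k0 k2 k1 h1 h2 h3 e0 e2 e1 => ?_
  obtain ⟨y0, c0, l0, s0, m0⟩ := spk k0
  obtain ⟨y1, c1, l1, s1, m1⟩ := spk k1
  obtain ⟨y2, c2, l2, s2, m2⟩ := spk k2
  rw [e0] at m0
  rw [e1] at m1
  rw [e2] at m2
  exact ord Z hP sub out disj con H h1 h2 h3 s0 s1 s2 m0 m1 m2

end main

end Crest.Agent.R143.Ordx755
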