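import Crest.Agent.R143.Jump_697
import Crest.Agent.R143.Vis_313
import Crest.Agent.R143.GateA_838

/-!
# Row 143 (S0194), CORE-C, R1/R2: orientation of the corridor (helper697), part A

A chain `k ++ x :: y :: z :: m` passes the site `y` once. The total angle seen from a point near `y`
takes two values, according to the side.
* `arg_neg_div` : `arg (-(b / u))` from `arg (-u)`, `arg (-b)` (the direction `1` is the reference)
* `near` : limit at `y` of the total angle along a segment `(y, y + u]`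
* `Fw` : total angle of an open chain closed by two vertical half lines; `fw_const`, `fw_west`,
  `fw_east`
-/

set_option autoImplicit false

noncomputable section

open scoped Classical

namespace Crest.Agent.R143.Orientx697

open Crest.Agent.R143.B0x346 Crest.Agent.R143.DelGx806 Crest.Agent.R143.DelRx806
open Crest.Agent.R143.ToolWx838 Crest.Agent.R143.Blkx838 Crest.Agent.R143.ToolW2x838
open Crest.Agent.R143.ToolW3x838 Crest.Agent.R143.Gatex838
open Filter Topology

/-! ### arguments -/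

theorem arg_eq_of {w : ℂ} {r θ : ℝ} (hr : 0 < r) (h : θ ∈ Set.Ioc (-Real.pi) Real.pi)
    (hw : w = (r : ℂ) * Complex.exp (θ * Complex.I)) : w.arg = θ := by
  rw [hw, Complex.exp_mul_I]
  exact Complex.arg_mul_cos_add_sin_mul_I hr h

theorem polar {w : ℂ} (hw : w ≠ 0) : w = (‖w‖ : ℂ) * Complex.exp (w.arg * Complex.I) :=
  (Complex.norm_mul_exp_arg_mul_I w).symm

theorem div_polar {U B : ℂ} (hU : U ≠ 0) (hB : B ≠ 0) :
    B / U = ((‖B‖ / ‖U‖ : ℝ) : ℂ) * Complex.exp ((B.arg - U.arg : ℝ) * Complex.I) := by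
  have h1 := polar hU
  have h2 := polar hB
  have nU : (‖U‖ : ℂ) ≠ 0 := by exact_mod_cast (norm_pos_iff.2 hU).ne'
  have e : ((B.arg - U.arg : ℝ) : ℂ) * Complex.I = B.arg * Complex.I - U.arg * Complex.I := by
    push_cast; ring
  rw [e, Complex.exp_sub]
  conv_lhs => rw [h1, h2]
  push_cast
  field_simp

/-- the argument of `-(B / U)` -/
theorem arg_neg_div {U B : ℂ} (hU : U ≠ 0) (hB : B ≠ 0) :
    (U.arg < B.arg → (-(B / U)).arg = B.arg - U.arg - Real.pi) ∧
      (B.arg < U.arg → (-(B / U)).arg = B.arg - U.arg + Real.pi) := by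
  have nU := norm_pos_iff.2 hU
  have nB := norm_pos_iff.2 hB
  have u1 := Complex.neg_pi_lt_arg U
  have u2 := Complex.arg_le_pi U
  have b1 := Complex.neg_pi_lt_arg B
  have b2 := Complex.arg_le_pi B
  have e0 : Complex.exp (Real.pi * Complex.I) = -1 := Complex.exp_pi_mul_I
  constructor
  · intro h
    refine arg_eq_of (r := ‖B‖ / ‖U‖) (by positivity) ⟨by linarith, by linarith⟩ ?_
    rw [div_polar hU hB]
    have : ((B.arg - U.arg - Real.pi : ℝ) : ℂ) * Complex.I =
        ((B.arg - U.arg : ℝ) : ℂ) * Complex.I - Real.pi * Complex.I := by push_cast; ring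
    rw [this, Complex.exp_sub, e0]
    ring
  · intro h
    refine arg_eq_of (r := ‖B‖ / ‖U‖) (by positivity) ⟨by linarith, by linarith⟩ ?_
    rw [div_polar hU hB]
    have : ((B.arg - U.arg + Real.pi : ℝ) : ℂ) * Complex.I =
        ((B.arg - U.arg : ℝ) : ℂ) * Complex.I + Real.pi * Complex.I := by push_cast; ring
    rw [this, Complex.exp_add, e0]
    ring

/-- the angle of the direction `u` seen from the direction `v` -/
def Aa (v u : ℂ) : ℝ := (-(u / v)).arg

theorem aa_div {v u b : ℂ} (hv : v ≠ 0) (hu : u ≠ 0) (hb : b ≠ 0) :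
    (Aa v u < Aa v b → (-(b / u)).arg = Aa v b - Aa v u - Real.pi) ∧
      (Aa v b < Aa v u → (-(b / u)).arg = Aa v b - Aa v u + Real.pi) := by
  have h := arg_neg_div (U := -(u / v)) (B := -(b / v)) (neg_ne_zero.2 (div_ne_zero hu hv))
    (neg_ne_zero.2 (div_ne_zero hb hv))
  have e : -(b / v) / -(u / v) = b / u := by field_simp
  rw [e] at h
  exact h

/-- equal angles: equal directions -/
theorem aa_eq {v u b : ℂ} (hv : v ≠ 0) (hu : u ≠ 0) (hb : b ≠ 0) (h : Aa v u = Aa v b) :
    ∃ r : ℝ, 0 < r ∧ b = (r : ℂ) * u := by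
  have hU : -(u / v) ≠ 0 := neg_ne_zero.2 (div_ne_zero hu hv)
  have hB : -(b / v) ≠ 0 := neg_ne_zero.2 (div_ne_zero hb hv)
  refine ⟨‖-(b / v)‖ / ‖-(u / v)‖, div_pos (norm_pos_iff.2 hB) (norm_pos_iff.2 hU), ?_⟩
  have h1 := div_polar hU hB
  unfold Aa at h
  rw [← h, sub_self] at h1
  have e : -(b / v) / -(u / v) = b / u := by field_simp
  rw [e] at h1
  rw [div_eq_iff hu, Complex.ofReal_zero, zero_mul, Complex.exp_zero, mul_one] at h1
  exact h1

/-- a direction which is not the direction `1` -/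
theorem slit_of {w : ℂ} (hw : w ≠ 0) (h : ∀ r : ℝ, 0 < r → w ≠ r) : -w ∈ Complex.slitPlane := by
  rw [Complex.mem_slitPlane_iff]
  by_contra hcon
  push Not at hcon
  obtain ⟨h1, h2⟩ := hcon
  simp only [Complex.neg_re, Complex.neg_im, neg_eq_zero] at h1 h2
  have h3 : w = (w.re : ℂ) := Complex.ext (by simp) (by simpa using h2)
  have h4 : w.re ≠ 0 := by
    intro h0
    rw [h0] at h3
    exact hw (by simpa using h3)
  exact h w.re (lt_of_le_of_ne (by linarith) (Ne.symm h4)) h3

/-! ### near a vertex of the chain -/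

theorem asum_pass (q : ℂ) (k m : List ℂ) (a y b : ℂ) :
    asum q (k ++ a :: y :: b :: m) =
      asum q (k ++ [a]) + ang q a y + ang q y b + asum q (b :: m) := by
  rw [asum_append]
  simp only [asum_cons]
  ring

/-- **limit at the vertex `y` of the chain `k ++ a :: y :: b :: m`** along `(y, y + u]` -/
theorem near {k m : List ℂ} {a y b u : ℂ} (hk : Off y (k ++ [a])) (hm : Off y (b :: m))
    (ha : a ≠ y) (hu : u ≠ 0) (h1 : -(u / (a - y)) ∈ Complex.slitPlane)
    (h2 : -((b - y) / u) ∈ Complex.slitPlane) {h : ℂ → ℝ} (hh : ContinuousAt h y) {I : ℝ}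
    (hI : ∀ t : ℝ, 0 < t → t ≤ 1 →
      asum (y + t * u) (k ++ a :: y :: b :: m) - h (y + t * u) = I) :
    I = asum y (k ++ [a]) + asum y (b :: m) + Aa (a - y) u + (-((b - y) / u)).arg - h y := by
  set g : ℝ → ℝ := fun t => asum (y + t * u) (k ++ [a]) + asum (y + t * u) (b :: m) +
    (-(u / (a - y - t * u))).arg + (-((b - y - t * u) / u)).arg - h (y + t * u) with hg
  have hp : ContinuousAt (fun t : ℝ => y + (t : ℂ) * u) 0 := by fun_prop
  have hp0 : y + ((0 : ℝ) : ℂ) * u = y := by simp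
  have c1 : ContinuousAt (fun t : ℝ => asum (y + t * u) (k ++ [a])) 0 := by
    have := asum_cont hk
    rw [← hp0] at this
    exact ContinuousAt.comp (f := fun t : ℝ => y + (t : ℂ) * u) this hp
  have c2 : ContinuousAt (fun t : ℝ => asum (y + t * u) (b :: m)) 0 := by
    have := asum_cont hm
    rw [← hp0] at this
    exact ContinuousAt.comp (f := fun t : ℝ => y + (t : ℂ) * u) this hp
  have c5 : ContinuousAt (fun t : ℝ => h (y + t * u)) 0 := by
    have := hh
    rw [← hp0] at this
    exact ContinuousAt.comp (f := fun t : ℝ => y + (t : ℂ) * u) this hp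
  have ha' : a - y ≠ 0 := sub_ne_zero.2 ha
  have c3 : ContinuousAt (fun t : ℝ => (-(u / (a - y - t * u))).arg) 0 := by
    have i1 : ContinuousAt (fun t : ℝ => -(u / (a - y - (t : ℂ) * u))) 0 := by
      refine ContinuousAt.neg (ContinuousAt.div continuousAt_const (by fun_prop) ?_)
      simpa using ha'
    refine ContinuousAt.comp (g := Complex.arg) (f := fun t : ℝ => -(u / (a - y - (t : ℂ) * u))) ?_ i1
    exact Complex.continuousAt_arg (by simpa using h1)
  have c4 : ContinuousAt (fun t : ℝ => (-((b - y - t * u) / u)).arg) 0 := by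
    have i1 : ContinuousAt (fun t : ℝ => -((b - y - (t : ℂ) * u) / u)) 0 := by fun_prop
    refine ContinuousAt.comp (g := Complex.arg)
      (f := fun t : ℝ => -((b - y - (t : ℂ) * u) / u)) ?_ i1
    exact Complex.continuousAt_arg (by simpa using h2)
  have cg : ContinuousAt g 0 := (((c1.add c2).add c3).add c4).sub c5
  have g0 : g 0 = asum y (k ++ [a]) + asum y (b :: m) + Aa (a - y) u +
      (-((b - y) / u)).arg - h y := by
    simp only [hg, Aa]
    simp
  rw [← g0]
  have hev : ∀ᶠ t in 𝓝[>] (0 : ℝ), g t = I := by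
    have : Set.Ioc (0 : ℝ) 1 ∈ 𝓝[>] (0 : ℝ) := Ioc_mem_nhdsGT one_pos
    filter_upwards [this] with t ht
    rw [← hI t ht.1 ht.2, asum_pass]
    simp only [hg]
    have tu : (t : ℂ) ≠ 0 := by exact_mod_cast ht.1.ne'
    have e1 : ang (y + t * u) a y = (-(u / (a - y - t * u))).arg := by
      unfold ang
      have : (y - (y + t * u)) / (a - (y + t * u)) = (t : ℂ) * (-(u / (a - y - t * u))) := by
        rw [← sub_sub]
        ring
      rw [this, Complex.arg_real_mul _ ht.1]
    have e2 : ang (y + t * u) y b = (-((b - y - t * u) / u)).arg := by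
      unfold ang
      have h3 : (b - (y + t * u)) / (y - (y + t * u)) =
          ((t⁻¹ : ℝ) : ℂ) * (-((b - y - t * u) / u)) := by
        push_cast
        field_simp
        ring
      rw [h3, Complex.arg_real_mul _ (inv_pos.2 ht.1)]
    rw [e1, e2]
    ring
  have l1 : Tendsto g (𝓝[>] 0) (𝓝 (g 0)) := cg.tendsto.mono_left nhdsWithin_le_nhds
  have l2 : Tendsto g (𝓝[>] 0) (𝓝 I) := by
    refine Tendsto.congr' ?_ tendsto_const_nhds
    filter_upwards [hev] with t ht using ht.symm
  exact tendsto_nhds_unique l2 l1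

/-- the two values -/
theorem near2 {k m : List ℂ} {a y b u : ℂ} (hk : Off y (k ++ [a])) (hm : Off y (b :: m))
    (ha : a ≠ y) (hb : b ≠ y) (hu : u ≠ 0) (h1 : -(u / (a - y)) ∈ Complex.slitPlane)
    (h2 : -((b - y) / u) ∈ Complex.slitPlane) {h : ℂ → ℝ} (hh : ContinuousAt h y) {I : ℝ}
    (hI : ∀ t : ℝ, 0 < t → t ≤ 1 →
      asum (y + t * u) (k ++ a :: y :: b :: m) - h (y + t * u) = I) :
    (Aa (a - y) u < Aa (a - y) (b - y) ∧
      I = asum y (k ++ [a]) + asum y (b :: m) + Aa (a - y) (b - y) - h y - Real.pi) ∨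
    (Aa (a - y) (b - y) < Aa (a - y) u ∧
      I = asum y (k ++ [a]) + asum y (b :: m) + Aa (a - y) (b - y) - h y + Real.pi) := by
  have h3 := near hk hm ha hu h1 h2 hh hI
  have hv : a - y ≠ 0 := sub_ne_zero.2 ha
  have hb' : b - y ≠ 0 := sub_ne_zero.2 hb
  obtain ⟨d1, d2⟩ := aa_div hv hu hb'
  rcases lt_trichotomy (Aa (a - y) u) (Aa (a - y) (b - y)) with h4 | h4 | h4
  · left
    refine ⟨h4, ?_⟩
    rw [h3, d1 h4]; ring
  · exfalso
    obtain ⟨r, hr, he⟩ := aa_eq hv hu hb' h4
    rw [he, mul_div_assoc, div_self hu, mul_one, Complex.mem_slitPlane_iff] at h2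
    simp at h2
    linarith
  · right
    refine ⟨h4, ?_⟩
    rw [h3, d2 h4]; ring

/-! ### an open chain closed by vertical half lines -/

/-- the chain `O` closed by vertical half lines -/
def Fw (e : ℂ) (O : List ℂ) (tp bt q : ℂ) : ℝ :=
  asum q O - ((Complex.I * ((bt - q) / e)).arg - (((tp - q) / e) / Complex.I).arg)

theorem im_div (e a q z0 : ℂ) : ((a - q) / e).im = Y z0 e a - Y z0 e q := by
  unfold Y
  rw [← Complex.sub_im, ← sub_div]
  congr 2
  ring

theorem re_div (e a q z0 : ℂ) : ((a - q) / e).re = X z0 e a - X z0 e q := by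
  unfold X
  rw [← Complex.sub_re, ← sub_div]
  congr 2
  ring

theorem fw_cont {e : ℂ} {O : List ℂ} {tp bt q : ℂ} (ho : Off q O)
    (h1 : 0 < ((tp - q) / e).im) (h2 : ((bt - q) / e).im < 0) :
    ContinuousAt (fun q => Fw e O tp bt q) q ∧
      ContinuousAt (fun q => (Complex.I * ((bt - q) / e)).arg - (((tp - q) / e) / Complex.I).arg) q := by
  have c2 : ContinuousAt (fun q => (Complex.I * ((bt - q) / e)).arg -
      (((tp - q) / e) / Complex.I).arg) q := by
    refine ContinuousAt.sub ?_ ?_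
    · have i1 : ContinuousAt (fun q : ℂ => Complex.I * ((bt - q) / e)) q := by fun_prop
      refine ContinuousAt.comp (g := Complex.arg) (f := fun q : ℂ => Complex.I * ((bt - q) / e)) ?_ i1
      refine Complex.continuousAt_arg (Complex.mem_slitPlane_iff.2 (Or.inl ?_))
      simp only [Complex.mul_re, Complex.I_re, Complex.I_im]
      linarith
    · have i1 : ContinuousAt (fun q : ℂ => ((tp - q) / e) / Complex.I) q := by fun_prop
      refine ContinuousAt.comp (g := Complex.arg) (f := fun q : ℂ => ((tp - q) / e) / Complex.I) ?_ i1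
      refine Complex.continuousAt_arg (Complex.mem_slitPlane_iff.2 (Or.inl ?_))
      rw [div_eq_mul_inv _ Complex.I, Complex.inv_I]
      simp only [Complex.mul_re, Complex.neg_re, Complex.neg_im, Complex.I_re, Complex.I_im]
      linarith
  exact ⟨(asum_cont ho).sub c2, c2⟩

theorem fw_int {e : ℂ} (he : e ≠ 0) {O : List ℂ} (hO : O ≠ []) {q : ℂ} (hq : ∀ a ∈ O, a ≠ q) :
    ∃ k : ℤ, Fw e O (O.head hO) (O.getLast hO) q = Real.pi + 2 * Real.pi * k := by
  set tp := O.head hO with htp
  set bt := O.getLast hO with hbt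
  have h1 := exp_asum hq hO
  rw [← htp, ← hbt] at h1
  have ht : tp - q ≠ 0 := sub_ne_zero.2 (hq _ (List.head_mem hO))
  have hb : bt - q ≠ 0 := sub_ne_zero.2 (hq _ (List.getLast_mem hO))
  have nt : (‖tp - q‖ : ℂ) ≠ 0 := by exact_mod_cast (norm_pos_iff.2 ht).ne'
  have nb : (‖bt - q‖ : ℂ) ≠ 0 := by exact_mod_cast (norm_pos_iff.2 hb).ne'
  have ne : (‖e‖ : ℂ) ≠ 0 := by exact_mod_cast (norm_pos_iff.2 he).ne'
  have p1 : Complex.exp ((Complex.I * ((bt - q) / e)).arg * Complex.I) =
      (Complex.I * ((bt - q) / e)) / ((‖bt - q‖ : ℂ) / ‖e‖) := by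
    have h2 := polar (w := Complex.I * ((bt - q) / e))
      (mul_ne_zero Complex.I_ne_zero (div_ne_zero hb he))
    have n2 : ‖Complex.I * ((bt - q) / e)‖ = ‖bt - q‖ / ‖e‖ := by simp
    rw [n2] at h2
    rw [eq_div_iff (div_ne_zero nb ne), mul_comm]
    rw [← Complex.ofReal_div]
    exact h2.symm
  have p2 : Complex.exp ((((tp - q) / e) / Complex.I).arg * Complex.I) =
      (((tp - q) / e) / Complex.I) / ((‖tp - q‖ : ℂ) / ‖e‖) := by
    have h2 := polar (w := ((tp - q) / e) / Complex.I)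
      (div_ne_zero (div_ne_zero ht he) Complex.I_ne_zero)
    have n2 : ‖((tp - q) / e) / Complex.I‖ = ‖tp - q‖ / ‖e‖ := by simp
    rw [n2] at h2
    rw [eq_div_iff (div_ne_zero nt ne), mul_comm]
    rw [← Complex.ofReal_div]
    exact h2.symm
  have h3 : Complex.exp (((Fw e O tp bt q - Real.pi : ℝ) : ℂ) * Complex.I) = 1 := by
    have e1 : ((Fw e O tp bt q - Real.pi : ℝ) : ℂ) * Complex.I =
        (asum q O : ℂ) * Complex.I - (Complex.I * ((bt - q) / e)).arg * Complex.I +
          (((tp - q) / e) / Complex.I).arg * Complex.I - Real.pi * Complex.I := by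
      unfold Fw; push_cast; ring
    rw [e1, Complex.exp_sub, Complex.exp_add, Complex.exp_sub, p1, p2, Complex.exp_pi_mul_I]
    unfold dir at h1
    have h4 : Complex.exp ((asum q O : ℂ) * Complex.I) =
        ((bt - q) / ‖bt - q‖) / ((tp - q) / ‖tp - q‖) := by
      rw [eq_div_iff (div_ne_zero ht nt)]
      exact h1
    rw [h4]
    field_simp
    rw [Complex.I_sq]
  obtain ⟨n, hn⟩ := Complex.exp_eq_one_iff.1 h3
  refine ⟨n, ?_⟩
  have h5 : ((Fw e O tp bt q - Real.pi : ℝ) : ℂ) = ((n * (2 * Real.pi) : ℝ) : ℂ) := by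
    have hI := Complex.I_ne_zero
    apply mul_right_cancel₀ hI
    rw [hn]; push_cast; ring
  have h6 := Complex.ofReal_injective h5
  linarith

/-- constant on connected sets off the chain -/
theorem fw_const {e : ℂ} (he : e ≠ 0) {O : List ℂ} (hO : O ≠ []) (hO2 : 2 ≤ O.length) {P : Set ℂ}
    (hP : IsPreconnected P) (hoff : ∀ q ∈ P, Off q O)
    (hs : ∀ q ∈ P, 0 < ((O.head hO - q) / e).im ∧ ((O.getLast hO - q) / e).im < 0)
    {p q : ℂ} (hp : p ∈ P) (hq : q ∈ P) :
    Fw e O (O.head hO) (O.getLast hO) p = Fw e O (O.head hO) (O.getLast hO) q := by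
  have hc : ContinuousOn (fun z => (Fw e O (O.head hO) (O.getLast hO) z - Real.pi) /
      (2 * Real.pi)) P := fun z hz =>
    (((fw_cont (hoff z hz) (hs z hz).1 (hs z hz).2).1.sub continuousAt_const).div_const
      _).continuousWithinAt
  have hpi : (2 * Real.pi) ≠ 0 := by positivity
  have hint : ∀ z ∈ P, ∃ k : ℤ, (Fw e O (O.head hO) (O.getLast hO) z - Real.pi) /
      (2 * Real.pi) = k := by
    intro z hz
    obtain ⟨k, hk⟩ := fw_int he hO ((hoff z hz).ne hO2)
    exact ⟨k, by rw [hk]; field_simp; ring⟩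
  have him := hP.image _ hc
  have h3 : (fun z => (Fw e O (O.head hO) (O.getLast hO) z - Real.pi) / (2 * Real.pi)) '' P ⊆
      Set.range ((↑) : ℤ → ℝ) := by
    rintro _ ⟨z, hz, rfl⟩
    obtain ⟨k, hk⟩ := hint z hz
    exact ⟨k, hk.symm⟩
  have h4 : ((fun z => (Fw e O (O.head hO) (O.getLast hO) z - Real.pi) /
      (2 * Real.pi)) '' P).Subsingleton := by
    have htd : IsTotallyDisconnected (Set.range ((↑) : ℤ → ℝ)) := by
      have : (Set.range ((↑) : ℤ → ℝ)).Countable := Set.countable_range _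
      exact this.isTotallyDisconnected
    exact htd _ h3 him
  have h5 := h4 ⟨p, hp, rfl⟩ ⟨q, hq, rfl⟩
  simp only at h5
  field_simp at h5
  linarith

/-- west of the chain -/
theorem fw_west {e : ℂ} {O : List ℂ} (hO : O ≠ []) {q : ℂ}
    (h : ∀ a ∈ O, 0 < ((a - q) / e).re) (h1 : 0 < ((O.head hO - q) / e).im)
    (h2 : ((O.getLast hO - q) / e).im < 0) :
    Fw e O (O.head hO) (O.getLast hO) q = -Real.pi := by
  unfold Fw
  rw [asum_half hO h, arg_I_mul_low h2, arg_div_I_up h1]
  ring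

/-- east of the chain -/
theorem fw_east {e : ℂ} {O : List ℂ} (hO : O ≠ []) {q : ℂ}
    (h : ∀ a ∈ O, ((a - q) / e).re < 0) (h1 : 0 < ((O.head hO - q) / e).im)
    (h2 : ((O.getLast hO - q) / e).im < 0) :
    Fw e O (O.head hO) (O.getLast hO) q = Real.pi := by
  unfold Fw
  rw [asum_half (u := -e) hO (fun a ha => by
    rw [div_neg, Complex.neg_re]
    linarith [h a ha]), arg_I_mul_low h2, arg_div_I_up h1, div_neg, div_neg, arg_neg_low h2,
    arg_neg_up h1]
  ring

end Crest.Agent.R143.Orientx697
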