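import Crest.Agent.R143.OrientA_697

/-!
# Row 143 (S0194), CORE-C, R1/R2: orientation of the corridor (helper697), part B

* `wall_order` : a vertical chain `k ++ x :: y :: z :: m` and two arms of `y`, one going west (first
  site `w1`), one going east (first site `e1`): seen from `y`, the directions `x, w1, z, e1` follow
  each other counterclockwise
* `gamma_left` : a closed chain `x, y, w1, ..` which does not wind around `e1` has index `-1` at the
  triangle on the left of `y → x`
-/

set_option autoImplicit false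

noncomputable section

open scoped Classical

namespace Crest.Agent.R143.Orientx697

open Crest.Agent.R143.B0x346 Crest.Agent.R143.DelGx806 Crest.Agent.R143.DelRx806
open Crest.Agent.R143.ToolWx838 Crest.Agent.R143.Blkx838 Crest.Agent.R143.ToolW2x838
open Crest.Agent.R143.ToolW3x838 Crest.Agent.R143.Gatex838
open Crest.Agent.R143.Visx313 (off_of)

variable {S : Finset ℂ} {z0 e : ℂ} {a0 a1 : ℝ}

theorem de_mem (hS : GP (S : Set ℂ)) {a b : ℂ} (h : DE S a b) : a ∈ S ∧ b ∈ S ∧ a ≠ b := by
  obtain ⟨-, -, -, ma, mb, hne, -⟩ := h.circ hS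
  exact ⟨ma, mb, hne⟩

/-! ### points of Delaunay edges off a chain -/

theorem off_seg (hS : GP (S : Set ℂ)) {O : List ℂ} (hO : ∀ p ∈ prs O, DE S p.1 p.2) {c c' : ℂ}
    (h : DE S c c') (hc : c ∉ O) (hc' : c' ∉ O) {z : ℂ} (hz : z ∈ segment ℝ c c') : Off z O := by
  obtain ⟨m1, m2, -⟩ := de_mem hS h
  obtain ⟨s, t, hs, ht, hst, rfl⟩ := hz
  rcases hs.lt_or_eq with hs | hs
  · rcases ht.lt_or_eq with ht | ht
    · intro p hp hseg
      rcases edge_side hS h hs ht hst (by simp) (hO p hp) hseg with ⟨h1, -⟩ | ⟨-, h2⟩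
      · exact hc (h1 ▸ (mem_of_prs hp).1)
      · exact hc (h2 ▸ (mem_of_prs hp).2)
    · have e1 : s = 1 := by linarith
      rw [← ht, e1]
      simpa using off_of hS hO m1 hc
  · have e1 : t = 1 := by linarith
    rw [← hs, e1]
    simpa using off_of hS hO m2 hc'

theorem off_half (hS : GP (S : Set ℂ)) {O : List ℂ} (hO : ∀ p ∈ prs O, DE S p.1 p.2) {y c : ℂ}
    (h : DE S y c) (hc : c ∉ O) {t : ℝ} (h0 : 0 < t) (h1 : t ≤ 1) :
    Off (y + t * (c - y)) O := by
  obtain ⟨m1, m2, -⟩ := de_mem hS h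
  have e1 : y + (t : ℂ) * (c - y) = ((1 - t : ℝ) : ℂ) * y + (t : ℂ) * c := by push_cast; ring
  rcases h1.lt_or_eq with h1 | h1
  · intro p hp hseg
    rcases edge_side hS h (s := 1 - t) (t := t) (by linarith) h0 (by ring) e1 (hO p hp) hseg with
      ⟨-, h2⟩ | ⟨h2, -⟩
    · exact hc (h2 ▸ (mem_of_prs hp).2)
    · exact hc (h2 ▸ (mem_of_prs hp).1)
  · rw [h1]
    have : y + ((1 : ℝ) : ℂ) * (c - y) = c := by push_cast; ring
    rw [this]
    exact off_of hS hO m2 hc

/-- two different neighbours are seen in different directions -/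
theorem dir_ne (hS : GP (S : Set ℂ)) {y c c' : ℂ} (h : DE S y c) (h' : DE S y c') (hne : c ≠ c') :
    ∀ r : ℝ, 0 < r → (c - y) / (c' - y) ≠ r := by
  obtain ⟨-, m2, n1⟩ := de_mem hS h
  obtain ⟨-, m2', n1'⟩ := de_mem hS h'
  intro r hr he
  have hc' : c' - y ≠ 0 := sub_ne_zero.2 n1'.symm
  rw [div_eq_iff hc'] at he
  rcases le_or_gt r 1 with h1 | h1
  · have hm : c ∈ segment ℝ y c' := by
      refine ⟨1 - r, r, by linarith, hr.le, by ring, ?_⟩
      simp only [Complex.real_smul]
      push_cast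
      linear_combination -he
    rcases edge_vertex hS h' m2 hm with h2 | h2
    · exact n1 h2.symm
    · exact hne h2
  · have hr0 : (r : ℂ) ≠ 0 := by exact_mod_cast hr.ne'
    have hm : c' ∈ segment ℝ y c := by
      refine ⟨1 - r⁻¹, r⁻¹, ?_, by positivity, by ring, ?_⟩
      · have : r⁻¹ ≤ 1 := inv_le_one_of_one_le₀ h1.le
        linarith
      · simp only [Complex.real_smul]
        push_cast
        have : c = y + r * (c' - y) := by linear_combination he
        rw [this]
        field_simp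
        ring
    rcases edge_vertex hS h m2' hm with h2 | h2
    · exact n1' h2.symm
    · exact hne h2.symm

theorem slit_nbr (hS : GP (S : Set ℂ)) {y c c' : ℂ} (h : DE S y c) (h' : DE S y c') (hne : c ≠ c') :
    -((c - y) / (c' - y)) ∈ Complex.slitPlane := by
  obtain ⟨-, -, n1⟩ := de_mem hS h
  obtain ⟨-, -, n1'⟩ := de_mem hS h'
  exact slit_of (div_ne_zero (sub_ne_zero.2 n1.symm) (sub_ne_zero.2 n1'.symm)) (dir_ne hS h h' hne)

/-! ### arms -/

theorem strip_conv {tp bt : ℂ} :
    Convex ℝ {q : ℂ | 0 < ((tp - q) / e).im ∧ ((bt - q) / e).im < 0} := by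
  rintro a ⟨ha1, ha2⟩ b ⟨hb1, hb2⟩ s t hs ht hst
  have key : ∀ c : ℂ, ((c - (s • a + t • b)) / e).im = s * ((c - a) / e).im + t * ((c - b) / e).im := by
    intro c
    have e1 : (c - (s • a + t • b)) / e = (s : ℂ) * ((c - a) / e) + (t : ℂ) * ((c - b) / e) := by
      simp only [Complex.real_smul]
      have e2 : c = (s : ℂ) * c + (t : ℂ) * c := by
        rw [← add_mul, ← Complex.ofReal_add, hst]; simp
      have e3 : c - ((s : ℂ) * a + (t : ℂ) * b) = (s : ℂ) * (c - a) + (t : ℂ) * (c - b) := by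
        linear_combination e2
      rw [e3]; ring
    rw [e1]
    simp
  constructor
  · rw [key]
    rcases hs.lt_or_eq with hs' | hs'
    · have := mul_pos hs' ha1
      have := mul_nonneg ht hb1.le
      linarith
    · have : t = 1 := by linarith
      rw [← hs', this]; linarith
  · rw [key]
    rcases hs.lt_or_eq with hs' | hs'
    · have := mul_pos_of_neg_of_neg (neg_lt_zero.2 hs') ha2
      have := mul_nonneg ht (neg_nonneg.2 hb2.le)
      nlinarith
    · have : t = 1 := by linarith
      rw [← hs', this]; linarith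

/-- the winding of the wall is constant along an arm -/
theorem fw_arm (hS : GP (S : Set ℂ)) (he : e ≠ 0) {O : List ℂ} (hO : O ≠ []) (hO2 : 2 ≤ O.length)
    (dO : ∀ p ∈ prs O, DE S p.1 p.2) {l : List ℂ} (hl : l ≠ []) (dl : ∀ p ∈ prs l, DE S p.1 p.2)
    (hlO : ∀ s ∈ l, s ∉ O)
    (hs : ∀ s ∈ l, 0 < ((O.head hO - s) / e).im ∧ ((O.getLast hO - s) / e).im < 0) :
    Fw e O (O.head hO) (O.getLast hO) (l.head hl) =
      Fw e O (O.head hO) (O.getLast hO) (l.getLast hl) := by
  induction l with
  | nil => exact absurd rfl hl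
  | cons a l ih =>
    cases l with
    | nil => rfl
    | cons b l =>
      have h1 := ih (by simp) (fun p hp => dl p (by rw [prs_cons]; exact List.mem_cons_of_mem _ hp))
        (fun s hs => hlO s (List.mem_cons_of_mem _ hs)) (fun s h => hs s (List.mem_cons_of_mem _ h))
      rw [List.getLast_cons (by simp), ← h1]
      simp only [List.head_cons]
      have hab : DE S a b := dl (a, b) (by rw [prs_cons]; exact List.mem_cons_self)
      refine fw_const he hO hO2 (convex_segment a b).isPreconnected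
        (fun q hq => off_seg hS dO hab (hlO a (by simp)) (hlO b (by simp)) hq)
        (fun q hq => (strip_conv (e := e)).segment_subset (hs a (by simp)) (hs b (by simp)) hq)
        (left_mem_segment ℝ a b) (right_mem_segment ℝ a b)

/-! ### the wall -/

/-- **order of the neighbours of the neck** -/
theorem wall_order (hS : GP (S : Set ℂ)) (he : e ≠ 0) {k m : List ℂ} {x y z : ℂ}
    (dO : ∀ p ∈ prs (k ++ x :: y :: z :: m), DE S p.1 p.2) (y1 : y ∉ k ++ [x]) (y2 : y ∉ z :: m)
    (win : ∀ s ∈ k ++ x :: y :: z :: m, a0 < X z0 e s ∧ X z0 e s < a1)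
    {tp bt : ℂ} (htp : (k ++ x :: y :: z :: m).head? = some tp)
    (hbt : (k ++ x :: y :: z :: m).getLast? = some bt)
    (hy : Y z0 e bt < Y z0 e y ∧ Y z0 e y < Y z0 e tp)
    {w1 : ℂ} {lw : List ℂ} (hw : DE S y w1) (dw : ∀ p ∈ prs (w1 :: lw), DE S p.1 p.2)
    (wO : ∀ s ∈ w1 :: lw, s ∉ k ++ x :: y :: z :: m)
    (wY : ∀ s ∈ w1 :: lw, Y z0 e bt < Y z0 e s ∧ Y z0 e s < Y z0 e tp)
    (wX : X z0 e ((w1 :: lw).getLast (by simp)) ≤ a0)
    {e1 : ℂ} {le : List ℂ} (hE : DE S y e1) (dE : ∀ p ∈ prs (e1 :: le), DE S p.1 p.2)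
    (eO : ∀ s ∈ e1 :: le, s ∉ k ++ x :: y :: z :: m)
    (eY : ∀ s ∈ e1 :: le, Y z0 e bt < Y z0 e s ∧ Y z0 e s < Y z0 e tp)
    (eX : a1 ≤ X z0 e ((e1 :: le).getLast (by simp))) :
    Aa (x - y) (w1 - y) < Aa (x - y) (z - y) ∧ Aa (x - y) (z - y) < Aa (x - y) (e1 - y) := by
  set O := k ++ x :: y :: z :: m with hOdef
  have hO : O ≠ [] := by simp [hOdef]
  have hO2 : 2 ≤ O.length := by simp [hOdef]; omega
  have etp : O.head hO = tp := by
    rw [List.head?_eq_some_head hO] at htp; exact Option.some.inj htp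
  have ebt : O.getLast hO = bt := by
    rw [List.getLast?_eq_some_getLast hO] at hbt; exact Option.some.inj hbt
  -- sub-chains
  have p1 : ∀ p ∈ prs (k ++ [x]), DE S p.1 p.2 := fun p hp => dO p (by
    rw [hOdef, prs_append]; exact List.mem_append_left _ hp)
  have p2 : ∀ p ∈ prs (x :: y :: z :: m), DE S p.1 p.2 := fun p hp => dO p (by
    rw [hOdef, prs_append]; exact List.mem_append_right _ hp)
  have p3 : ∀ p ∈ prs (z :: m), DE S p.1 p.2 := fun p hp => p2 p (by
    rw [prs_cons, prs_cons]; exact List.mem_cons_of_mem _ (List.mem_cons_of_mem _ hp))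
  have dxy : DE S x y := p2 (x, y) (by rw [prs_cons]; exact List.mem_cons_self)
  have dyz : DE S y z := p2 (y, z) (by
    rw [prs_cons, prs_cons]; exact List.mem_cons_of_mem _ List.mem_cons_self)
  have yS : y ∈ S := (de_mem hS dyz).1
  have ok : Off y (k ++ [x]) := off_of hS p1 yS y1
  have om : Off y (z :: m) := off_of hS p3 yS y2
  have hxy : x ≠ y := (de_mem hS dxy).2.2
  have hzy : z ≠ y := (de_mem hS dyz).2.2.symm
  have strip : ∀ s : ℂ, Y z0 e bt < Y z0 e s ∧ Y z0 e s < Y z0 e tp →
      0 < ((O.head hO - s) / e).im ∧ ((O.getLast hO - s) / e).im < 0 := by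
    intro s hs
    rw [etp, ebt, im_div e tp s z0, im_div e bt s z0]
    constructor <;> linarith [hs.1, hs.2]
  set h : ℂ → ℝ := fun q => (Complex.I * ((bt - q) / e)).arg - (((tp - q) / e) / Complex.I).arg
    with hh
  have hhc : ContinuousAt h y := by
    have h1 := strip y hy
    rw [etp, ebt] at h1
    have h2 : ContinuousAt (fun q => (Complex.I * ((bt - q) / e)).arg -
        (((tp - q) / e) / Complex.I).arg) y := by
      have := (fw_cont (O := [x]) (e := e) (tp := tp) (bt := bt) (q := y) (by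
        intro p hp; simp at hp) h1.1 h1.2).2
      exact this
    exact h2
  -- an arm
  have arm : ∀ (c : ℂ) (l : List ℂ), DE S y c → (∀ p ∈ prs (c :: l), DE S p.1 p.2) →
      (∀ s ∈ c :: l, s ∉ O) → (∀ s ∈ c :: l, Y z0 e bt < Y z0 e s ∧ Y z0 e s < Y z0 e tp) →
      ∀ I : ℝ, Fw e O (O.head hO) (O.getLast hO) ((c :: l).getLast (by simp)) = I →
      (Aa (x - y) (c - y) < Aa (x - y) (z - y) ∧
        I = asum y (k ++ [x]) + asum y (z :: m) + Aa (x - y) (z - y) - h y - Real.pi) ∨
      (Aa (x - y) (z - y) < Aa (x - y) (c - y) ∧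
        I = asum y (k ++ [x]) + asum y (z :: m) + Aa (x - y) (z - y) - h y + Real.pi) := by
    intro c l hc dl hlO hlY I hI
    have hcO : c ∉ O := hlO c (by simp)
    have hcx : c ≠ x := fun h => hcO (by rw [h, hOdef]; simp)
    have hcz : c ≠ z := fun h => hcO (by rw [h, hOdef]; simp)
    have hcy : c - y ≠ 0 := sub_ne_zero.2 (de_mem hS hc).2.2.symm
    have h1 := fw_arm hS he hO hO2 dO (l := c :: l) (by simp) dl hlO (fun s hs => strip s (hlY s hs))
    rw [hI] at h1
    simp only [List.head_cons] at h1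
    refine near2 ok om hxy hzy hcy (slit_nbr hS hc dxy.symm hcx) (slit_nbr hS dyz hc hcz.symm) hhc
      fun t ht0 ht1 => ?_
    have h2 : Fw e O (O.head hO) (O.getLast hO) (y + t * (c - y)) =
        Fw e O (O.head hO) (O.getLast hO) c := by
      have hseg : ∀ q ∈ segment ℝ (y + t * (c - y)) c, ∃ t' : ℝ, 0 < t' ∧ t' ≤ 1 ∧
          q = y + t' * (c - y) := by
        rintro q ⟨s', r', hs', hr', hsr, rfl⟩
        refine ⟨s' * t + r', ?_, ?_, ?_⟩
        · rcases hs'.lt_or_eq with h3 | h3
          · have := mul_pos h3 ht0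
            linarith
          · rw [← h3]; linarith
        · nlinarith
        · simp only [Complex.real_smul]
          push_cast
          have e2 : (s' : ℂ) + r' = 1 := by exact_mod_cast hsr
          linear_combination (y) * e2
      refine fw_const he hO hO2 (convex_segment _ _).isPreconnected (fun q hq => ?_)
        (fun q hq => ?_) (left_mem_segment ℝ _ _) (right_mem_segment ℝ _ _)
      · obtain ⟨t', h3, h4, rfl⟩ := hseg q hq
        exact off_half hS dO hc hcO h3 h4
      · obtain ⟨t', h3, h4, rfl⟩ := hseg q hq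
        have h5 := (strip_conv (e := e)).segment_subset (strip y hy) (strip c (hlY c (by simp)))
        refine h5 ⟨1 - t', t', by linarith, h3.le, by ring, ?_⟩
        simp only [Complex.real_smul]
        push_cast
        ring
    rw [← h1, ← h2, etp, ebt]
    rfl
  have Iw : Fw e O (O.head hO) (O.getLast hO) ((w1 :: lw).getLast (by simp)) = -Real.pi := by
    have h1 := strip _ (wY _ (List.getLast_mem (by simp)))
    refine fw_west hO (fun a ha => ?_) h1.1 h1.2
    rw [re_div e a _ z0]
    linarith [(win a ha).1]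
  have Ie : Fw e O (O.head hO) (O.getLast hO) ((e1 :: le).getLast (by simp)) = Real.pi := by
    have h1 := strip _ (eY _ (List.getLast_mem (by simp)))
    refine fw_east hO (fun a ha => ?_) h1.1 h1.2
    rw [re_div e a _ z0]
    linarith [(win a ha).2]
  have hpi := Real.pi_pos
  rcases arm w1 lw hw dw wO wY _ Iw with ⟨c1, c2⟩ | ⟨c1, c2⟩ <;>
    rcases arm e1 le hE dE eO eY _ Ie with ⟨d1, d2⟩ | ⟨d1, d2⟩
  · linarith
  · exact ⟨c1, d1⟩
  · linarith
  · linarith

end Crest.Agent.R143.Orientx697
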