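import Crest.Agent.R143.OrientB_697
import Crest.Agent.R143.RingD_117

/-!
# Row 143 (S0194), CORE-C, R1/R2: orientation of the corridor (helper697), part C

* `gamma_left` : a closed chain `x, y, w1, ..` which does not wind around `e1` has index `-1` at the
  triangle on the left of `y → x` (directions `w1`, `e1` in this order)
* `Jf` : index of a closed chain at the triangle of a state; `jf_nx` : jump at a step
* `walk` : a walker which starts inside a closed chain with two bichromatic edges stays inside until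
  it leaves through the other bichromatic edge
* `asum_conv` : no winding around points outside the convex hull
-/

set_option autoImplicit false

noncomputable section

open scoped Classical

namespace Crest.Agent.R143.Orientx697

open Crest.Agent.R143.B0x346 Crest.Agent.R143.DelGx806 Crest.Agent.R143.DelRx806
open Crest.Agent.R143.ToolWx838 Crest.Agent.R143.Blkx838 Crest.Agent.R143.ToolW2x838
open Crest.Agent.R143.ToolW3x838 Crest.Agent.R143.Gatex838
open Crest.Agent.R143.Visx313 (off_of)
open Crest.Agent.R143.Frame5x395 (sd mem_sd th th_spec)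
open Crest.Agent.R143.Frame10x395 (th0)
open Crest.Agent.R143.JColx54 (delT_rot)
open Crest.Agent.R143.WLocx713 (nx HullC Occ twin)

variable {S : Finset ℂ}

/-! ### triangles at a vertex -/

/-- from an interior point of a triangle to its first vertex -/
theorem ino_first {a b c q : ℂ} (hp : 0 < cr (b - a) (c - a)) (hq : InO q a b c) {t : ℝ}
    (h0 : 0 < t) (h1 : t ≤ 1) : InO (a + t * (q - a)) a b c := by
  obtain ⟨q1, q2, q3⟩ := hq
  unfold Lft at q1 q2 q3
  rw [cr_sub] at q1 q2 q3 hp
  have hre : (a + (t : ℂ) * (q - a)).re = a.re + t * (q.re - a.re) := by simp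
  have him : (a + (t : ℂ) * (q - a)).im = a.im + t * (q.im - a.im) := by simp
  refine ⟨?_, ?_, ?_⟩
  · unfold Lft; rw [cr_sub, hre, him]
    have := mul_pos h0 q1
    nlinarith
  · unfold Lft; rw [cr_sub, hre, him]
    have e1 : (c.re - b.re) * (a.im + t * (q.im - a.im) - b.im) -
        (c.im - b.im) * (a.re + t * (q.re - a.re) - b.re) =
        (1 - t) * ((b.re - a.re) * (c.im - a.im) - (b.im - a.im) * (c.re - a.re)) +
          t * ((c.re - b.re) * (q.im - b.im) - (c.im - b.im) * (q.re - b.re)) := by ring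
    rw [e1]
    have := mul_pos h0 q2
    have := mul_nonneg (sub_nonneg.2 h1) hp.le
    linarith
  · unfold Lft; rw [cr_sub, hre, him]
    have := mul_pos h0 q3
    nlinarith

/-- the centroid -/
def cen (a b c : ℂ) : ℂ := (a + b + c) / 3

theorem cen_rot (a b c : ℂ) : cen b c a = cen a b c := by unfold cen; ring

theorem cen_ino {a b c : ℂ} (hp : 0 < cr (b - a) (c - a)) : InO (cen a b c) a b c := by
  rw [cr_sub] at hp
  have hre : (cen a b c).re = (a.re + b.re + c.re) / 3 := by unfold cen; simp
  have him : (cen a b c).im = (a.im + b.im + c.im) / 3 := by unfold cen; simp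
  refine ⟨?_, ?_, ?_⟩ <;> unfold Lft <;> rw [cr_sub, hre, him] <;> nlinarith

theorem pos_of {a b c : ℂ} (h : (a, b, c) ∈ delT S) : 0 < cr (b - a) (c - a) :=
  (mem_delT_iff.1 h).choose_spec.pos

/-- a point of an open triangle at `y` is not in the direction of a neighbour -/
theorem dir_open (hS : GP (S : Set ℂ)) {y b c q w : ℂ} (h : (y, b, c) ∈ delT S) (hq : InO q y b c)
    (hw : DE S y w) : ∀ r : ℝ, 0 < r → q - y ≠ r * (w - y) := by
  intro r hr he
  set t : ℝ := min 1 r⁻¹ with ht
  have t0 : 0 < t := lt_min one_pos (inv_pos.2 hr)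
  have t1 : t ≤ 1 := min_le_left _ _
  have tr : t * r ≤ 1 := by
    have : t ≤ r⁻¹ := min_le_right _ _
    calc t * r ≤ r⁻¹ * r := mul_le_mul_of_nonneg_right this hr.le
      _ = 1 := inv_mul_cancel₀ hr.ne'
  have h1 := ino_first (pos_of h) hq t0 t1
  refine edge_open hS h h1 hw ?_
  refine ⟨1 - t * r, t * r, by linarith, by positivity, by ring, ?_⟩
  simp only [Complex.real_smul]
  push_cast
  rw [he]
  ring

/-- values near `y` in an open triangle at `y` -/
theorem near_open (hS : GP (S : Set ℂ)) {x y w1 : ℂ} {m : List ℂ} (hl : Loop S (x :: y :: w1 :: m))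
    (hy : y ∉ w1 :: m) {b c q : ℂ} (h : (y, b, c) ∈ delT S) (hq : InO q y b c) :
    asum q (x :: y :: w1 :: m) = asum y (w1 :: m) + Aa (x - y) (w1 - y) - Real.pi ∨
      asum q (x :: y :: w1 :: m) = asum y (w1 :: m) + Aa (x - y) (w1 - y) + Real.pi := by
  have dxy : DE S x y := hl.del (x, y) (by rw [prs_cons]; exact List.mem_cons_self)
  have dyw : DE S y w1 := hl.del (y, w1) (by
    rw [prs_cons, prs_cons]; exact List.mem_cons_of_mem _ List.mem_cons_self)
  have dm : ∀ p ∈ prs (w1 :: m), DE S p.1 p.2 := fun p hp => hl.del p (by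
    rw [prs_cons, prs_cons]; exact List.mem_cons_of_mem _ (List.mem_cons_of_mem _ hp))
  have yS : y ∈ S := (de_mem hS dyw).1
  have hxy : x ≠ y := (de_mem hS dxy).2.2
  have hwy : w1 ≠ y := (de_mem hS dyw).2.2.symm
  have hqy : q - y ≠ 0 := by
    intro h0
    have h1 := hq.1
    unfold Lft at h1
    rw [h0] at h1
    simp [cr] at h1
  have s1 : -((q - y) / (x - y)) ∈ Complex.slitPlane := by
    refine slit_of (div_ne_zero hqy (sub_ne_zero.2 hxy)) fun r hr he => ?_
    rw [div_eq_iff (sub_ne_zero.2 hxy)] at he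
    exact dir_open hS h hq dxy.symm r hr he
  have s2 : -((w1 - y) / (q - y)) ∈ Complex.slitPlane := by
    refine slit_of (div_ne_zero (sub_ne_zero.2 hwy) hqy) fun r hr he => ?_
    rw [div_eq_iff hqy] at he
    refine dir_open hS h hq dyw r⁻¹ (inv_pos.2 hr) ?_
    rw [he]
    have hr0 : (r : ℂ) ≠ 0 := by exact_mod_cast hr.ne'
    push_cast
    field_simp
  have h1 := near2 (k := []) (m := m) (a := x) (y := y) (b := w1) (u := q - y)
    (h := fun _ => (0 : ℝ)) (I := asum q (x :: y :: w1 :: m)) (by intro p hp; simp at hp)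
    (off_of hS dm yS hy) hxy hwy hqy s1 s2 continuousAt_const (fun t h0 h1 => by
      rw [sub_zero]
      exact asum_open_open hS hl h (ino_first (pos_of h) hq h0 h1) hq)
  simp only [List.nil_append, asum_one, zero_add, sub_zero] at h1
  rcases h1 with ⟨-, h1⟩ | ⟨-, h1⟩
  · exact Or.inl h1
  · exact Or.inr h1

/-- **index on the left of `y → x`** -/
theorem gamma_left (hS : GP (S : Set ℂ)) {x y w1 e1 : ℂ} {m : List ℂ}
    (hl : Loop S (x :: y :: w1 :: m)) (hy : y ∉ w1 :: m) (hwx : w1 ≠ x) (hE : DE S y e1)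
    (heO : e1 ∉ x :: y :: w1 :: m) (h0 : asum e1 (x :: y :: w1 :: m) = 0)
    (hord : Aa (x - y) (w1 - y) < Aa (x - y) (e1 - y)) {c d : ℂ} (h : (y, x, c) ∈ delT S)
    (h' : (x, y, d) ∈ delT S) {q : ℂ} (hq : InO q y x c) :
    asum q (x :: y :: w1 :: m) = -(2 * Real.pi) := by
  have dxy : DE S x y := hl.del (x, y) (by rw [prs_cons]; exact List.mem_cons_self)
  have dyw : DE S y w1 := hl.del (y, w1) (by
    rw [prs_cons, prs_cons]; exact List.mem_cons_of_mem _ List.mem_cons_self)
  have dm : ∀ p ∈ prs (w1 :: m), DE S p.1 p.2 := fun p hp => hl.del p (by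
    rw [prs_cons, prs_cons]; exact List.mem_cons_of_mem _ (List.mem_cons_of_mem _ hp))
  have yS : y ∈ S := (de_mem hS dyw).1
  have hxy : x ≠ y := (de_mem hS dxy).2.2
  have hwy : w1 ≠ y := (de_mem hS dyw).2.2.symm
  have hey : e1 ≠ y := (de_mem hS hE).2.2.symm
  have hex : e1 ≠ x := fun h => heO (by rw [h]; simp)
  have hew : e1 ≠ w1 := fun h => heO (by rw [h]; simp)
  have hpi := Real.pi_pos
  -- the direction `e1`
  have h1 := near2 (k := []) (m := m) (a := x) (y := y) (b := w1) (u := e1 - y)
    (h := fun _ => (0 : ℝ)) (I := 0) (by intro p hp; simp at hp)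
    (off_of hS dm yS hy) hxy hwy (sub_ne_zero.2 hey) (slit_nbr hS hE dxy.symm hex)
    (slit_nbr hS dyw hE hew.symm) continuousAt_const (fun t t0 t1 => by
      rw [sub_zero, ← h0]
      show asum _ (x :: y :: w1 :: m) = _
      refine asum_seg hl.closed fun z hz => ?_
      obtain ⟨s', r', hs', hr', hsr, rfl⟩ := hz
      have e2 : s' • (y + (t : ℂ) * (e1 - y)) + r' • e1 =
          y + ((s' * t + r' : ℝ) : ℂ) * (e1 - y) := by
        simp only [Complex.real_smul]
        push_cast
        have e3 : (s' : ℂ) + r' = 1 := by exact_mod_cast hsr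
        linear_combination y * e3
      rw [e2]
      refine off_half hS hl.del hE heO ?_ ?_
      · rcases hs'.lt_or_eq with h3 | h3
        · have := mul_pos h3 t0
          linarith
        · rw [← h3]; linarith
      · nlinarith)
  simp only [List.nil_append, asum_one, zero_add, sub_zero] at h1
  have hR : asum y (w1 :: m) + Aa (x - y) (w1 - y) = -Real.pi := by
    rcases h1 with ⟨h2, -⟩ | ⟨-, h2⟩
    · linarith
    · linarith
  -- the two triangles
  have hq' : InO (cen x y d) x y d := cen_ino (pos_of h')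
  have hq2 : InO (cen x y d) y d x := ⟨hq'.2.1, hq'.2.2, hq'.1⟩
  have k1 := near_open hS hl hy h hq
  have k2 := near_open hS hl hy (rot_mem h') hq2
  have hj := Jumpx697.asum_jump hS hl h h' hq hq'
  have c1 : (prs (x :: y :: w1 :: m)).count (y, x) = 0 := by
    rw [List.count_eq_zero, prs_cons, prs_cons]
    intro hm
    rcases List.mem_cons.1 hm with hm | hm
    · exact hxy (congrArg Prod.fst hm).symm
    rcases List.mem_cons.1 hm with hm | hm
    · exact hwx (congrArg Prod.snd hm).symm
    · exact hy (mem_of_prs hm).1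
  have c2 : (prs (x :: y :: w1 :: m)).count (x, y) = 1 := by
    rw [prs_cons, prs_cons, List.count_cons_self, List.count_eq_zero.2]
    intro hm
    rcases List.mem_cons.1 hm with hm | hm
    · exact hxy (congrArg Prod.fst hm)
    · exact hy (mem_of_prs hm).2
  rw [c1, c2] at hj
  push_cast at hj
  rcases k1 with k1 | k1 <;> rcases k2 with k2 | k2 <;> linarith

/-! ### no winding around points outside the convex hull -/

theorem asum_conv {l : List ℂ} (hl : l.head? = l.getLast?) {R : Set ℂ} (hR : Convex ℝ R)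
    (h : ∀ s ∈ l, s ∈ R) {u : ℂ} (hu : u ∉ R) : asum u l = 0 := by
  set K : Set ℂ := convexHull ℝ (l.toFinset : Set ℂ) with hK
  have hKR : K ⊆ R := convexHull_min (by
    intro s hs
    exact h s (by simpa using hs)) hR
  have hKc : IsClosed K := (l.toFinset.finite_toSet.isCompact_convexHull ℝ).isClosed
  have huK : u ∉ K := fun h => hu (hKR h)
  obtain ⟨f, s, h1, h2⟩ := geometric_hahn_banach_point_closed (convex_convexHull ℝ _) hKc huK
  -- `f w = re (w * conj g)`
  set g : ℂ := ⟨f 1, -f Complex.I⟩ with hg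
  have hf : ∀ w : ℂ, f w = (w * g).re := by
    intro w
    have e1 : w = w.re • (1 : ℂ) + w.im • Complex.I := by
      simp only [Complex.real_smul]
      rw [mul_one]
      exact (Complex.re_add_im w).symm
    conv_lhs => rw [e1]
    rw [map_add, map_smul, map_smul, Complex.mul_re, hg]
    simp only [smul_eq_mul]
    ring
  by_cases hn : l = []
  · subst hn; rfl
  have hne : g ≠ 0 := by
    intro h0
    have h3 : l.head hn ∈ K := subset_convexHull ℝ _ (by simp)
    have h4 := h2 _ h3
    rw [hf, h0] at h4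
    rw [hf, h0] at h1
    simp at h4 h1
    linarith
  refine asum_half_closed (u := g⁻¹) hl fun a ha => ?_
  have h3 : a ∈ K := subset_convexHull ℝ _ (by simpa using ha)
  have h4 := h2 _ h3
  rw [div_inv_eq_mul, sub_mul, Complex.sub_re, ← hf, ← hf]
  linarith

/-! ### index at a state -/

/-- index of `l` at the triangle of the state `d` -/
def Jf (S : Finset ℂ) (l : List ℂ) (d : ℂ × ℂ) : ℝ := asum (cen d.1 d.2 (th S d)) l

theorem jf_eq (hS : GP (S : Set ℂ)) {l : List ℂ} {a b c : ℂ} (h : (a, b, c) ∈ delT S) :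
    Jf S l (a, b) = asum (cen a b c) l := by
  unfold Jf
  rw [th0 hS h]

/-- jump across an edge -/
theorem jf_cross (hS : GP (S : Set ℂ)) {l : List ℂ} (hl : Loop S l) {a b : ℂ}
    (h : (a, b) ∈ sd S) (h' : (b, a) ∈ sd S) :
    Jf S l (a, b) - Jf S l (b, a) =
      2 * Real.pi * (((prs l).count (a, b) : ℝ) - (prs l).count (b, a)) := by
  have t1 := th_spec h
  have t2 := th_spec h'
  exact Jumpx697.asum_jump hS hl t1 t2 (cen_ino (pos_of t1)) (cen_ino (pos_of t2))

/-- jump at a step -/
theorem jf_nx (hS : GP (S : Set ℂ)) {χ : ℂ → ZMod 2} (hχ : HullC S χ) {l : List ℂ}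
    (hl : Loop S l) {d : ℂ × ℂ} (hd : Occ S χ d) :
    Jf S l (nx S χ d) = Jf S l d + 2 * Real.pi *
      (((prs l).count (nx S χ d) : ℝ) - (prs l).count (nx S χ d).swap) := by
  have hd' := hd.nx hS hχ
  obtain ⟨a, b⟩ := d
  have t1 := th_spec hd.1
  have t2 := delT_rot hS t1
  have t3 := delT_rot hS t2
  have key : ∀ u v : ℂ, (v, u) ∈ sd S → (u, v) ∈ sd S → Jf S l (v, u) = Jf S l (a, b) →
      Jf S l (u, v) = Jf S l (a, b) + 2 * Real.pi *
        (((prs l).count (u, v) : ℝ) - (prs l).count (v, u)) := by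
    intro u v h1 h2 h3
    have := jf_cross hS hl h2 h1
    linarith
  unfold WLocx713.nx at hd' ⊢
  split_ifs at hd' ⊢ with hc
  · refine key _ _ (mem_sd.2 ⟨_, t2⟩) hd'.1 ?_
    rw [jf_eq hS t2, cen_rot]
    rfl
  · refine key _ _ (mem_sd.2 ⟨_, t3⟩) hd'.1 ?_
    rw [jf_eq hS t3, cen_rot, cen_rot]
    rfl

/-- a state with index `≠ 0` has its sites in a convex set which contains the chain -/
theorem jf_in (hS : GP (S : Set ℂ)) {l : List ℂ} (hl : Loop S l) {R : Set ℂ} (hR : Convex ℝ R)
    (h : ∀ s ∈ l, s ∈ R) {d : ℂ × ℂ} (hd : d ∈ sd S) (hJ : Jf S l d ≠ 0) : d.1 ∈ R ∧ d.2 ∈ R := by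
  obtain ⟨a, b⟩ := d
  have t1 := th_spec hd
  have key : ∀ u v w : ℂ, (u, v, w) ∈ delT S → Jf S l (a, b) = asum (cen u v w) l → u ∈ R := by
    intro u v w ht he
    by_contra hu
    have hul : u ∉ l := fun hm => hu (h u hm)
    apply hJ
    rw [he]
    have h1 := cen_ino (pos_of ht)
    have uS : u ∈ S := (mem_delT_iff.1 ht).choose_spec.ma
    rw [asum_seg (y := u) hl.closed fun z hz => ?_]
    · exact asum_conv hl.closed hR h hu
    · obtain ⟨s, t, hs, htt, hst, rfl⟩ := hz
      rcases hs.lt_or_eq with hs | hs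
      · have e1 : s • cen u v w + t • u = u + (s : ℂ) * (cen u v w - u) := by
          simp only [Complex.real_smul]
          have e3 : (s : ℂ) + t = 1 := by exact_mod_cast hst
          linear_combination u * e3
        rw [e1]
        exact off_open hS hl ht (ino_first (pos_of ht) h1 hs (by linarith))
      · have e1 : t = 1 := by linarith
        rw [← hs, e1]
        simpa using off_of hS hl.del uS hul
  refine ⟨key _ _ _ t1 rfl, key _ _ _ (delT_rot hS t1) ?_⟩
  rw [cen_rot]
  rfl

/-! ### the walker inside a closed chain -/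

/-- **the walker which enters a closed chain leaves it through the other bichromatic edge** -/
theorem walk (hS : GP (S : Set ℂ)) {χ : ℂ → ZMod 2} (hχ : HullC S χ) {l : List ℂ}
    (hl : Loop S l) {x y x' y' : ℂ} (hxy : χ y + χ x = 1) (hyy : y ≠ y')
    (hcol : χ y' = χ y ∧ χ x' = χ x) (h1 : (x, y) ∈ prs l)
    (hbi : ∀ p ∈ prs l, χ p.1 + χ p.2 = 1 → p = (x, y) ∨ p = (y', x'))
    (ho : Occ S χ (y, x)) (hJ : Jf S l (y, x) ≠ 0)
    (hper : ∃ N, 0 < N ∧ (nx S χ)^[N] (y, x) = (y, x))
    (hleft : ∀ n, χ ((nx S χ)^[n] (y, x)).1 = χ y) :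
    ∃ n, (nx S χ)^[n] (y, x) = (y', x') ∧
      ∀ i < n, Jf S l ((nx S χ)^[i] (y, x)) = Jf S l (y, x) := by
  have hpi := Real.pi_pos
  set D : ℕ → ℂ × ℂ := fun n => (nx S χ)^[n] (y, x) with hD
  have hDs : ∀ n, D (n + 1) = nx S χ (D n) := fun n => Function.iterate_succ_apply' _ _ _
  have hO : ∀ n, Occ S χ (D n) := fun n => ho.it hS hχ n
  -- the colours
  have hxne : χ x ≠ χ y := by
    intro h
    rw [h] at hxy
    exact WLocx713.z_ne1 _ hxy
  have c1 : ∀ n, D n ∈ prs l → D n = (y', x') := by
    intro n hn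
    rcases hbi _ hn (hO n).2 with h | h
    · exfalso
      have := hleft n
      rw [show (nx S χ)^[n] (y, x) = D n from rfl, h] at this
      exact hxne this
    · exact h
  have c2 : ∀ n, (D n).swap ∈ prs l → D n = (y, x) := by
    intro n hn
    rcases hbi _ hn (by rw [Prod.fst_swap, Prod.snd_swap, add_comm]; exact (hO n).2) with h | h
    · have := congrArg Prod.swap h
      rwa [Prod.swap_swap, Prod.swap_prod_mk] at this
    · exfalso
      have h3 := congrArg Prod.swap h
      rw [Prod.swap_swap, Prod.swap_prod_mk] at h3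
      have := hleft n
      rw [show (nx S χ)^[n] (y, x) = D n from rfl, h3] at this
      exact hxne (hcol.2.symm.trans this)
  obtain ⟨N, hN, hNp⟩ := hper
  have hex : ∃ n, 0 < n ∧ (D n = (y, x) ∨ D n = (y', x')) := ⟨N, hN, Or.inl hNp⟩
  set j := Nat.find hex with hj
  obtain ⟨j0, j1⟩ := Nat.find_spec hex
  have hmin : ∀ i, 0 < i → i < j → D i ≠ (y, x) ∧ D i ≠ (y', x') := by
    intro i hi hij
    have := Nat.find_min hex hij
    push Not at this
    exact this hi
  have hconst : ∀ i, i < j → Jf S l (D i) = Jf S l (y, x) := by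
    intro i
    induction i with
    | zero => intro _; rfl
    | succ i ih =>
      intro hi
      have h3 := jf_nx hS hχ hl (hO i)
      rw [← hDs] at h3
      obtain ⟨m1, m2⟩ := hmin (i + 1) (by omega) hi
      rw [List.count_eq_zero.2 (fun h => m2 (c1 _ h)), List.count_eq_zero.2 (fun h => m1 (c2 _ h)),
        ih (by omega)] at h3
      simpa using h3
  rcases j1 with j1 | j1
  · exfalso
    obtain ⟨i, hi⟩ : ∃ i, j = i + 1 := ⟨j - 1, by omega⟩
    have h3 := jf_nx hS hχ hl (hO i)
    rw [← hDs, ← hi, hconst i (by omega), hj, j1] at h3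
    have h4 : (prs l).count (y, x) = 0 := by
      rw [List.count_eq_zero]
      intro h
      have := c1 0 h
      exact hyy (congrArg Prod.fst this)
    have h5 : 0 < (prs l).count ((y, x) : ℂ × ℂ).swap := List.count_pos_iff.2 h1
    rw [h4] at h3
    have h6 : (0 : ℝ) < (prs l).count ((y, x) : ℂ × ℂ).swap := by exact_mod_cast h5
    push_cast at h3
    nlinarith
  · exact ⟨j, j1, hconst⟩

end Crest.Agent.R143.Orientx697
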