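import Crest.Agent.R143.Orient_881
import Crest.Agent.R143.CorrD_117

/-!
# Row 143 (S0194), R1g: orientation of the open corridor (helper881)

* `lk_of_stc` : a link of 117 inside a strip as an arm
* `orient_fa` : `FA p q ∨ FA q p` (`p` the west gate) gives `FA q p`
* **`DCorr.back`** : one straight tile with a neck ==> all arcs of the corridor are backward
  (gates numbered with increasing `X`, white above): hypothesis of `DCorr.main_back`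
-/

set_option autoImplicit false

noncomputable section

open scoped Classical

namespace Crest.Agent.R143.OrientDx881

open Crest.Agent.R143.B0x346 Crest.Agent.R143.DelGx806 Crest.Agent.R143.DelRx806
open Crest.Agent.R143.Blkx838 (DE)
open Crest.Agent.R143.Gatex838
open Crest.Agent.R143.Neckx921 Crest.Agent.R143.Orientx881
open Crest.Agent.R143.Frame10x395 Crest.Agent.R143.WLocx713 Crest.Agent.R143.Splx117
open Crest.Agent.R143.RingDx117 Crest.Agent.R143.CorrDx117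

variable {S V β : Finset ℂ} {z0 e : ℂ} {a0 a1 b0 b1 m : ℝ} {χ : ℂ → ZMod 2}

/-- a link in a strip -/
theorem lk_of_stc {A : Set ℂ} {y w : ℂ} (h : Relation.ReflTransGen (StC S χ A) y w) (hy : y ∈ A)
    (hA : ∀ s ∈ A, b0 < Y z0 e s ∧ Y z0 e s < b1) :
    Lk S {s | χ s = χ y ∧ b0 < Y z0 e s ∧ Y z0 e s < b1} y w := by
  induction h with
  | refl => exact Lk.refl ⟨rfl, hA y hy⟩
  | tail h1 h2 ih =>
    rename_i u v
    have hu := ih.1.2
    have hv : v ∈ {s | χ s = χ y ∧ b0 < Y z0 e s ∧ Y z0 e s < b1} :=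
      ⟨h2.2.1.symm.trans hu.1, hA v h2.2.2.2⟩
    exact ih.trans ⟨⟨hu, hv⟩, .single ⟨h2.1, hu, hv⟩⟩

/-- **the arc between two neighbouring gates runs towards decreasing `X`** -/
theorem orient_fa {up dn : List ℂ} {y : ℂ} (hS : GP (S : Set ℂ)) (hχ : HullC S χ)
    (h : Neck S z0 e a0 a1 b0 b1 m V β up y dn)
    (he : e ≠ 0) (hc : ∀ s ∈ V, (χ s = χ y ↔ s ∈ β)) (hy : ¬ OnHull S y) {c0 : ℝ} (hc0 : c0 ≤ a0)
    {R : Set ℂ} (hR : ∀ s ∈ R, c0 < X z0 e s ∧ b0 < Y z0 e s ∧ Y z0 e s < b1) {w w' : ℂ}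
    (hW : Lk S {s | χ s = χ y ∧ b0 < Y z0 e s ∧ Y z0 e s < b1} y w) (hwX : X z0 e w ≤ c0)
    (hE : Lk S {s | χ s = χ y ∧ b0 < Y z0 e s ∧ Y z0 e s < b1} y w') (hwX' : a1 ≤ X z0 e w')
    (hx : χ y + χ (up.getLast h.nu) = 1) {p q : D0 S} (hp : p.1 = (y, up.getLast h.nu))
    (hq : a1 ≤ X z0 e q.1.1)
    (hF : FA (cm0 hS) (xc hS hχ) (RD S R) p q ∨ FA (cm0 hS) (xc hS hχ) (RD S R) q p) :
    FA (cm0 hS) (xc hS hχ) (RD S R) q p := by
  rcases hF with hF | hF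
  · exact absurd hF (orient hS hχ h he hc hy hc0 hR hW hwX hE hwX' hx hp hq)
  · exact hF

/-- **all arcs of the corridor are backward**: neck at the gate `k`, black arms of `y k` in the strip to
`X ≤ c0` and to `a1 ≤ X`, region of the tile `k` in the strip and in `c0 < X`, gate `k + 1` in the east -/
theorem _root_.Crest.Agent.R143.CorrDx117.DCorr.back {hS : GP (S : Set ℂ)} {hχ : HullC S χ} {n : ℕ}
    {y z : ℕ → ℂ} {A B : ℕ → Set ℂ} {p : ℕ → D0 S} (D : DCorr hS hχ n y z A B p) {k : ℕ}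
    (hk : k < n) {up dn : List ℂ} (h : Neck S z0 e a0 a1 b0 b1 m V β up (y k) dn)
    (hz : up.getLast h.nu = z k) (he : e ≠ 0) (hc : ∀ s ∈ V, (χ s = χ (y k) ↔ s ∈ β)) {c0 : ℝ}
    (hc0 : c0 ≤ a0) (hR : ∀ s ∈ B k, c0 < X z0 e s ∧ b0 < Y z0 e s ∧ Y z0 e s < b1) {w w' : ℂ}
    (hW : Lk S {s | χ s = χ (y k) ∧ b0 < Y z0 e s ∧ Y z0 e s < b1} (y k) w)
    (hwX : X z0 e w ≤ c0)
    (hE : Lk S {s | χ s = χ (y k) ∧ b0 < Y z0 e s ∧ Y z0 e s < b1} (y k) w')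
    (hwX' : a1 ≤ X z0 e w') (hX : a1 ≤ X z0 e (y (k + 1))) :
    (∀ k, k < n → FA (cm0 hS) (xc hS hχ) (RD S (B k)) (p (k + 1)) (p k)) ∧
      ∀ k, k < n → ¬ FA (cm0 hS) (xc hS hχ) (RD S (B k)) (p k) (p (k + 1)) := by
  have hy : ¬ OnHull S (y k) := D.innA k hk _ (D.yS hk.le) (D.mem0 k hk)
  refine D.corr.dir_back hk ?_
  refine orient hS hχ h he hc hy hc0 hR hW hwX hE hwX' (by rw [hz]; exact D.col k hk.le)
    (by rw [hz]; exact D.st k hk.le) ?_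
  rw [D.st (k + 1) hk]
  exact hX

/-- the same with the links of the tiles `k - 1` and `k` (both straight) -/
theorem _root_.Crest.Agent.R143.CorrDx117.DCorr.back' {hS : GP (S : Set ℂ)} {hχ : HullC S χ} {n : ℕ}
    {y z : ℕ → ℂ} {A B : ℕ → Set ℂ} {p : ℕ → D0 S} (D : DCorr hS hχ n y z A B p) {k : ℕ}
    (hk : k + 1 < n) {up dn : List ℂ} (h : Neck S z0 e a0 a1 b0 b1 m V β up (y (k + 1)) dn)
    (hz : up.getLast h.nu = z (k + 1)) (he : e ≠ 0)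
    (hc : ∀ s ∈ V, (χ s = χ (y (k + 1)) ↔ s ∈ β)) {c0 : ℝ}
    (hc0 : c0 ≤ a0) (hR : ∀ s ∈ B (k + 1), c0 < X z0 e s ∧ b0 < Y z0 e s ∧ Y z0 e s < b1)
    (hA0 : ∀ s ∈ A k, b0 < Y z0 e s ∧ Y z0 e s < b1)
    (hA1 : ∀ s ∈ A (k + 1), b0 < Y z0 e s ∧ Y z0 e s < b1)
    (hX0 : X z0 e (y k) ≤ c0) (hX : a1 ≤ X z0 e (y (k + 2))) :
    (∀ k, k < n → FA (cm0 hS) (xc hS hχ) (RD S (B k)) (p (k + 1)) (p k)) ∧
      ∀ k, k < n → ¬ FA (cm0 hS) (xc hS hχ) (RD S (B k)) (p k) (p (k + 1)) := by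
  have l0 := rtg_symm (fun _ _ h => h.symm) (D.link k (by omega))
  have l1 := D.link (k + 1) hk
  exact D.back hk h hz he hc hc0 hR (lk_of_stc l0 (D.mem1 k (by omega)) hA0) hX0
    (lk_of_stc l1 (D.mem0 (k + 1) hk) hA1) hX hX

end Crest.Agent.R143.OrientDx881
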