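import Crest.Agent.R143.OrientD_881

/-!
# Row 143 (S0194), R1g: orientation in an enlarged tile region (helper881)

The region `B k` of the confinement is a little higher than the strip `b0 < Y < b1` of the necks.
* `strip` : with long black and white chains on both sides, the walk from `(y, x)` inside a region of
  `c0 < X < c1` stays in the strip
* **`orient2`** : orientation for a region `R` of `c0 < X < c1` without a condition on `Y`
* **`DCorr.back2`**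
-/

set_option autoImplicit false

noncomputable section

open scoped Classical

namespace Crest.Agent.R143.OrientDx881

open Crest.Agent.R143.B0x346 Crest.Agent.R143.DelGx806 Crest.Agent.R143.DelRx806
open Crest.Agent.R143.ToolWx838
open Crest.Agent.R143.Blkx838 (DE)
open Crest.Agent.R143.OrAx881
open Crest.Agent.R143.Gatex838
open Crest.Agent.R143.Neckx921 Crest.Agent.R143.Orientx881
open Crest.Agent.R143.Frame10x395 Crest.Agent.R143.WLocx713 Crest.Agent.R143.Splx117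
open Crest.Agent.R143.Frame5x395 (sd mem_sd th th_spec)
open Crest.Agent.R143.RingDx117 Crest.Agent.R143.CorrDx117

variable {S V β : Finset ℂ} {z0 e : ℂ} {a0 a1 b0 b1 m c0 c1 k0 k1 : ℝ} {χ : ℂ → ZMod 2}
  {up dn : List ℂ} {y : ℂ}

/-- the black and the white long chains: the white arms stay in `k0 < X < k1` and reach `X ≤ c0`,
`c1 ≤ X`; the black arms reach `X ≤ k0`, `k1 ≤ X` -/
structure Arms (S : Finset ℂ) (χ : ℂ → ZMod 2) (z0 e : ℂ) (b0 b1 c0 c1 k0 k1 : ℝ) (y x : ℂ) : Prop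
    where
  bw : ∃ w, Lk S {s | χ s = χ y ∧ b0 < Y z0 e s ∧ Y z0 e s < b1} y w ∧ X z0 e w ≤ k0
  be : ∃ w, Lk S {s | χ s = χ y ∧ b0 < Y z0 e s ∧ Y z0 e s < b1} y w ∧ k1 ≤ X z0 e w
  ww : ∃ w, Lk S {s | χ s = χ x ∧ (b0 < Y z0 e s ∧ Y z0 e s < b1) ∧ k0 < X z0 e s ∧
    X z0 e s < k1} x w ∧ X z0 e w ≤ c0
  we : ∃ w, Lk S {s | χ s = χ x ∧ (b0 < Y z0 e s ∧ Y z0 e s < b1) ∧ k0 < X z0 e s ∧
    X z0 e s < k1} x w ∧ c1 ≤ X z0 e w

/-- crossing of two links -/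
theorem cross_lk (hS : GP (S : Set ℂ)) (he : e ≠ 0) {U T : Set ℂ} {w w' v v' : ℂ} {x0 x1 y0 y1 : ℝ}
    (h1 : Lk S U w w') (h2 : Lk S T v v') (hU : ∀ s ∈ U, y0 < Y z0 e s ∧ Y z0 e s < y1)
    (hT : ∀ s ∈ T, x0 < X z0 e s ∧ X z0 e s < x1) (hw : X z0 e w ≤ x0) (hw' : x1 ≤ X z0 e w')
    (hv : Y z0 e v ≤ y0) (hv' : y1 ≤ Y z0 e v') : ∃ s, s ∈ U ∧ s ∈ T := by
  obtain ⟨P, hP, P0, P1, dP, cP⟩ := lk_to_list h1
  obtain ⟨Q, hQ, Q0, Q1, dQ, cQ⟩ := lk_to_list h2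
  obtain ⟨s, hs1, hs2⟩ := cross_e (x0 := x0) (x1 := x1) (y0 := y0) (y1 := y1) hS he hP hQ dP dQ
    (fun s hs => hU s (cP s hs)) (fun s hs => hT s (cQ s hs)) (by rw [P0]; exact hw)
    (by rw [P1]; exact hw') (by rw [Q0]; exact hv) (by rw [Q1]; exact hv')
  exact ⟨s, cP s hs1, cQ s hs2⟩

/-- the chain `dn` as a link -/
theorem dn_lk (h : Neck S z0 e a0 a1 b0 b1 m V β up y dn) {T : Set ℂ} (hT : ∀ s ∈ dn, s ∈ T)
    {u : ℂ} (hu : u ∈ dn) : Lk S T u (dn.getLast h.nd) := by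
  refine lk_list (l := dn) (fun p hp => h.adj p ?_) hT hu (List.getLast_mem _)
  rw [prs_append]
  refine List.mem_append_right _ ?_
  obtain ⟨b, d, hbd⟩ := List.exists_cons_of_ne_nil h.nd
  rw [hbd] at hp ⊢
  rw [prs_cons]
  exact List.mem_cons_of_mem _ hp

/-- the chain `up` as a link -/
theorem up_lk (h : Neck S z0 e a0 a1 b0 b1 m V β up y dn) {T : Set ℂ} (hT : ∀ s ∈ up, s ∈ T)
    {u v : ℂ} (hu : u ∈ up) (hv : v ∈ up) : Lk S T u v := by
  refine lk_list (l := up) (fun p hp => h.adj p ?_) hT hu hv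
  obtain ⟨u, a, hua⟩ : ∃ u a, up = u ++ [a] :=
    ⟨up.dropLast, up.getLast h.nu, (List.dropLast_append_getLast h.nu).symm⟩
  rw [hua] at hp ⊢
  rw [List.append_assoc, List.singleton_append, prs_append]
  exact List.mem_append_left _ hp

theorem y_dn (h : Neck S z0 e a0 a1 b0 b1 m V β up y dn) : DE S y (dn.head h.nd) := by
  have key : ∀ (b : ℂ) (d : List ℂ), dn = b :: d → DE S y b := by
    intro b d hbd
    refine h.adj (y, b) ?_
    rw [prs_append]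
    refine List.mem_append_right _ ?_
    rw [hbd, prs_cons]
    exact List.mem_cons_self
  exact key _ _ (List.cons_head_tail h.nd).symm

/-- colour of the sites of the neck -/
theorem up_col (h : Neck S z0 e a0 a1 b0 b1 m V β up y dn)
    (hc : ∀ s ∈ V, (χ s = χ y ↔ s ∈ β)) {s : ℂ} (hs : s ∈ up) : χ s ≠ χ y := fun hh =>
  (h.cu s hs).2 ((hc s (h.cu s hs).1).1 hh)

theorem dn_col (h : Neck S z0 e a0 a1 b0 b1 m V β up y dn)
    (hc : ∀ s ∈ V, (χ s = χ y ↔ s ∈ β)) {s : ℂ} (hs : s ∈ dn) (hs' : b0 < Y z0 e s) :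
    χ s ≠ χ y := fun hh => (h.cd s hs hs').2 ((hc s (h.cd s hs hs').1).1 hh)

/-- the white long chains do not meet `dn` -/
theorem ww_dn (hS : GP (S : Set ℂ)) (h : Neck S z0 e a0 a1 b0 b1 m V β up y dn) (he : e ≠ 0)
    (hc : ∀ s ∈ V, (χ s = χ y ↔ s ∈ β)) (hk0 : k0 ≤ a0) (hk1 : a1 ≤ k1)
    (hx : χ (up.getLast h.nu) ≠ χ y) (A : Arms S χ z0 e b0 b1 c0 c1 k0 k1 y (up.getLast h.nu))
    {w s : ℂ} (hw : Lk S {s | χ s = χ (up.getLast h.nu) ∧ (b0 < Y z0 e s ∧ Y z0 e s < b1) ∧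
      k0 < X z0 e s ∧ X z0 e s < k1} (up.getLast h.nu) w) (hs : s = w) : s ∉ dn := by
  subst hs
  intro hd
  obtain ⟨w1, b1', hw1⟩ := A.bw
  obtain ⟨w2, b2', hw2⟩ := A.be
  set T : Set ℂ := {s | (χ s ≠ χ y ∨ Y z0 e s ≤ b0) ∧ k0 < X z0 e s ∧ X z0 e s < k1} with hT
  have hwin := fun s hs => (h.win s hs).1
  have t1 : Lk S T s (dn.getLast h.nd) := by
    refine dn_lk h (fun s hs => ?_) hd
    have hw := hwin s (by simp [hs])
    refine ⟨?_, by linarith, by linarith⟩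
    by_cases hs' : b0 < Y z0 e s
    · exact Or.inl (dn_col h hc hs hs')
    · exact Or.inr (not_lt.1 hs')
  have t2 : Lk S T (up.getLast h.nu) s :=
    hw.mono fun s hs => ⟨Or.inl (by rw [hs.1]; exact hx), hs.2.2⟩
  have t3 : Lk S T (up.getLast h.nu) (up.head h.nu) := by
    refine up_lk h (fun s hs => ?_) (List.getLast_mem _) (List.head_mem _)
    have hw := hwin s (by simp [hs])
    exact ⟨Or.inl (up_col h hc hs), by linarith, by linarith⟩
  obtain ⟨r, r1, r2⟩ := cross_lk (y0 := b0) (y1 := b1) (x0 := k0) (x1 := k1) hS he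
    (b1'.symm.trans b2') (t1.symm.trans (t2.symm.trans t3)) (fun s hs => hs.2) (fun s hs => hs.2)
    hw1 hw2 h.bot h.top
  rcases r2.1 with r3 | r3
  · exact r3 r1.1
  · linarith [r1.2.1]

/-- every site of a link is linked -/
theorem lk_mem {A : Set ℂ} {u v : ℂ} (h : Lk S A u v) :
    Lk S (A ∩ {s | Lk S A u s}) u v := by
  obtain ⟨⟨hu, hv⟩, h⟩ := h
  have h0 : u ∈ A ∩ {s | Lk S A u s} := ⟨hu, Lk.refl hu⟩
  induction h with
  | refl => exact Lk.refl h0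
  | tail h1 h2 ih =>
    rename_i b c
    have ih' := ih h2.2.1
    have hc : c ∈ A ∩ {s | Lk S A u s} :=
      ⟨h2.2.2, Lk.trans ih'.1.2.2 ⟨⟨h2.2.1, h2.2.2⟩, .single h2⟩⟩
    exact ih'.trans ⟨⟨ih'.1.2, hc⟩, .single ⟨h2.1, ih'.1.2, hc⟩⟩

/-- **the walk stays in the strip** -/
theorem strip (hS : GP (S : Set ℂ)) (h : Neck S z0 e a0 a1 b0 b1 m V β up y dn) (he : e ≠ 0)
    (hc : ∀ s ∈ V, (χ s = χ y ↔ s ∈ β)) (hc0 : c0 ≤ a0) (hc1 : a1 ≤ c1) (hk0 : k0 ≤ c0)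
    (hk1 : c1 ≤ k1) (hx : χ y + χ (up.getLast h.nu) = 1)
    (A : Arms S χ z0 e b0 b1 c0 c1 k0 k1 y (up.getLast h.nu)) {R : Set ℂ}
    (hR : ∀ s ∈ R, c0 < X z0 e s ∧ X z0 e s < c1) {q : ℂ × ℂ}
    (hF : FAp S χ R (y, up.getLast h.nu) q) :
    FAp S χ (R ∩ {s | b0 < Y z0 e s ∧ Y z0 e s < b1}) (y, up.getLast h.nu) q := by
  obtain ⟨n, hn1, hn3⟩ := hF
  set x := up.getLast h.nu with hxdef
  have hxy : χ x ≠ χ y := by
    intro hh
    rw [hh] at hx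
    revert hx
    generalize χ y = a
    revert a; decide
  have hwin := fun s hs => (h.win s hs).1
  set st : ℕ → ℂ × ℂ := fun i => (nx S χ)^[i] (y, x) with hst
  have sts : ∀ i, st (i + 1) = nx S χ (st i) := fun i => by
    simp only [hst]; rw [Function.iterate_succ_apply']
  have stc : ∀ i, χ (st i).1 = χ y ∧ χ (st i).2 = χ x := fun i => it_col (w := (y, x)) hx i
  have stR : ∀ i ≤ n, (st i).1 ∈ R ∧ (st i).2 ∈ R := fun i hi => (hn3 i hi).2
  have tri : ∀ i ≤ n, ((st i).1, (st i).2, th S (st i)) ∈ delT S := fun i hi =>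
    th_spec (hn3 i hi).1
  -- the left and the right chain
  set TL : Set ℂ := {s | χ s = χ y ∧ c0 < X z0 e s ∧ X z0 e s < c1} with hTL
  set TR : Set ℂ := {s | χ s = χ x ∧ c0 < X z0 e s ∧ X z0 e s < c1} with hTR
  have mL : ∀ i ≤ n, (st i).1 ∈ TL := fun i hi => ⟨(stc i).1, hR _ (stR i hi).1⟩
  have mR : ∀ i ≤ n, (st i).2 ∈ TR := fun i hi => ⟨(stc i).2, hR _ (stR i hi).2⟩
  have left : ∀ i ≤ n, Lk S TL y (st i).1 := by
    intro i
    induction i with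
    | zero => exact fun _ => Lk.refl (mL 0 (Nat.zero_le _))
    | succ i ih =>
      intro hi
      refine (ih (by omega)).trans ⟨⟨mL i (by omega), mL (i + 1) hi⟩, ?_⟩
      have hs := sts i
      unfold nx at hs
      split_ifs at hs
      · have e1 : (st (i + 1)).1 = th S (st i) := by rw [hs]
        refine .single ⟨?_, mL i (by omega), mL (i + 1) hi⟩
        rw [e1]
        exact Or.inr ⟨_, Blkx838.rot_mem (Blkx838.rot_mem (tri i (by omega)))⟩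
      · have : (st (i + 1)).1 = (st i).1 := by rw [hs]
        rw [this]
  have right : ∀ i ≤ n, Lk S TR x (st i).2 := by
    intro i
    induction i with
    | zero => exact fun _ => Lk.refl (mR 0 (Nat.zero_le _))
    | succ i ih =>
      intro hi
      refine (ih (by omega)).trans ⟨⟨mR i (by omega), mR (i + 1) hi⟩, ?_⟩
      have hs := sts i
      unfold nx at hs
      split_ifs at hs
      · have : (st (i + 1)).2 = (st i).2 := by rw [hs]
        rw [this]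
      · have e1 : (st (i + 1)).2 = th S (st i) := by rw [hs]
        refine .single ⟨?_, mR i (by omega), mR (i + 1) hi⟩
        rw [e1]
        exact Or.inl ⟨_, Blkx838.rot_mem (tri i (by omega))⟩
  obtain ⟨w1, lw1, hw1⟩ := A.bw
  obtain ⟨w2, lw2, hw2⟩ := A.be
  obtain ⟨w3, lw3, hw3⟩ := A.ww
  obtain ⟨w4, lw4, hw4⟩ := A.we
  -- not below
  have low : ∀ s : ℂ, c0 < X z0 e s → X z0 e s < c1 → ∀ t, t ∈ TR → Lk S TR x t → (s = t ∨ DE S s t) →
      b0 < Y z0 e s := by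
    intro s hs0 hs1 t htR ht hst'
    by_contra hcon
    push Not at hcon
    set T : Set ℂ := {s | (χ s ≠ χ y ∨ Y z0 e s ≤ b0) ∧ c0 < X z0 e s ∧ X z0 e s < c1} with hT
    have sT : s ∈ T := ⟨Or.inr hcon, hs0, hs1⟩
    have t1 : Lk S T x t := ht.mono fun r hr => ⟨Or.inl (by rw [hr.1]; exact hxy), hr.2⟩
    have t2 : Lk S T s t := by
      rcases hst' with rfl | hd
      · exact Lk.refl sT
      · exact ⟨⟨sT, t1.1.2⟩, .single ⟨hd, sT, t1.1.2⟩⟩
    have t3 : Lk S T x (up.head h.nu) := by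
      refine up_lk h (fun s hs => ?_) (List.getLast_mem _) (List.head_mem _)
      have hw := hwin s (by simp [hs])
      exact ⟨Or.inl (up_col h hc hs), by linarith, by linarith⟩
    obtain ⟨r, r1, r2⟩ := cross_lk (y0 := b0) (y1 := b1) (x0 := c0) (x1 := c1) hS he
      (lw1.symm.trans lw2) (t2.trans (t1.symm.trans t3)) (fun s hs => hs.2) (fun s hs => hs.2)
      (by linarith) (by linarith) hcon h.top
    rcases r2.1 with r3 | r3
    · exact r3 r1.1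
    · linarith [r1.2.1]
  -- not above
  have high : ∀ s : ℂ, c0 < X z0 e s → X z0 e s < c1 → ∀ t, t ∈ TL → Lk S TL y t →
      (s = t ∨ DE S s t) → Y z0 e s < b1 := by
    intro s hs0 hs1 t htL ht hst'
    by_contra hcon
    push Not at hcon
    set T : Set ℂ := {s | (χ s = χ y ∨ b1 ≤ Y z0 e s ∨ s ∈ dn) ∧ c0 < X z0 e s ∧ X z0 e s < c1}
      with hT
    have sT : s ∈ T := ⟨Or.inr (Or.inl hcon), hs0, hs1⟩
    have t1 : Lk S T y t := ht.mono fun r hr => ⟨Or.inl hr.1, hr.2⟩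
    have t2 : Lk S T s t := by
      rcases hst' with rfl | hd
      · exact Lk.refl sT
      · exact ⟨⟨sT, t1.1.2⟩, .single ⟨hd, sT, t1.1.2⟩⟩
    have hdT : ∀ s ∈ dn, s ∈ T := fun s hs => by
      have hw := hwin s (by simp [hs])
      exact ⟨Or.inr (Or.inr hs), by linarith, by linarith⟩
    have t3 : Lk S T (dn.head h.nd) (dn.getLast h.nd) := dn_lk h hdT (List.head_mem _)
    have t4 : Lk S T y (dn.head h.nd) :=
      ⟨⟨t1.1.1, hdT _ (List.head_mem _)⟩, .single ⟨y_dn h, t1.1.1, hdT _ (List.head_mem _)⟩⟩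
    have l3 := lk_mem lw3
    have l4 := lk_mem lw4
    obtain ⟨r, r1, r2⟩ := cross_lk (y0 := b0) (y1 := b1) (x0 := c0) (x1 := c1) hS he
      (l3.symm.trans l4) ((t4.trans t3).symm.trans (t1.trans t2.symm)) (fun s hs => hs.1.2.1)
      (fun s hs => hs.2) hw3 hw4 h.bot hcon
    rcases r2.1 with r3 | r3 | r3
    · exact hxy (r1.1.1.symm.trans r3)
    · linarith [r1.1.2.1.2]
    · exact ww_dn hS h he hc (by linarith) (by linarith) hxy A r1.2 rfl r3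
  refine ⟨n, hn1, fun i hi => ?_⟩
  have e1 := hn3 i hi
  have d1 : DE S (st i).1 (st i).2 := Or.inl ⟨_, tri i hi⟩
  have hl := hR _ (stR i hi).1
  have hr := hR _ (stR i hi).2
  exact ⟨e1.1, ⟨e1.2.1, low _ hl.1 hl.2 _ (mR i hi) (right i hi) (Or.inr d1),
    high _ hl.1 hl.2 _ (mL i hi) (left i hi) (Or.inl rfl)⟩,
    e1.2.2, low _ hr.1 hr.2 _ (mR i hi) (right i hi) (Or.inl rfl),
    high _ hr.1 hr.2 _ (mL i hi) (left i hi) (Or.inr d1.symm)⟩

/-- the black arms of `Arms` -/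
theorem Arms.mono_be {x : ℂ} (A : Arms S χ z0 e b0 b1 c0 c1 k0 k1 y x) (h0 : k0 ≤ c0)
    (h1 : a1 ≤ k1) : (∃ w, Lk S {s | χ s = χ y ∧ b0 < Y z0 e s ∧ Y z0 e s < b1} y w ∧
      X z0 e w ≤ c0) ∧ ∃ w, Lk S {s | χ s = χ y ∧ b0 < Y z0 e s ∧ Y z0 e s < b1} y w ∧
      a1 ≤ X z0 e w := by
  obtain ⟨w1, l1, h2⟩ := A.bw
  obtain ⟨w2, l2, h3⟩ := A.be
  exact ⟨⟨w1, l1, h2.trans h0⟩, ⟨w2, l2, h1.trans h3⟩⟩

/-- **orientation**, region without a condition on `Y` -/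
theorem orient2 (hS : GP (S : Set ℂ)) (hχ : HullC S χ)
    (h : Neck S z0 e a0 a1 b0 b1 m V β up y dn) (he : e ≠ 0)
    (hc : ∀ s ∈ V, (χ s = χ y ↔ s ∈ β)) (hy : ¬ OnHull S y) (hc0 : c0 ≤ a0) (hc1 : a1 ≤ c1)
    (hk0 : k0 ≤ c0) (hk1 : c1 ≤ k1) (hx : χ y + χ (up.getLast h.nu) = 1)
    (A : Arms S χ z0 e b0 b1 c0 c1 k0 k1 y (up.getLast h.nu)) {R : Set ℂ}
    (hR : ∀ s ∈ R, c0 < X z0 e s ∧ X z0 e s < c1) {p q : D0 S}
    (hp : p.1 = (y, up.getLast h.nu)) (hq : a1 ≤ X z0 e q.1.1) :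
    ¬ FA (cm0 hS) (xc hS hχ) (RD S R) p q := by
  intro hF
  have hp1 : xc hS hχ p = 1 := by
    show χ p.1.1 + χ p.1.2 = 1
    rw [hp]; exact hx
  have h1 := (fa_iff hS hχ hp1).1 hF
  rw [hp] at h1
  have h2 := strip hS h he hc hc0 hc1 hk0 hk1 hx A hR h1
  obtain ⟨⟨w1, l1, h3⟩, ⟨w2, l2, h4⟩⟩ := A.mono_be (a1 := a1) hk0 (hc1.trans hk1)
  exact orient_nx hS h he hc hy hc0 (fun s hs => ⟨(hR s hs.1).1, hs.2⟩) l1 h3 l2 h4 hx hq h2

/-- **all arcs of the corridor are backward**, enlarged regions `B k` -/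
theorem _root_.Crest.Agent.R143.CorrDx117.DCorr.back2 {hS : GP (S : Set ℂ)} {hχ : HullC S χ} {n : ℕ}
    {y z : ℕ → ℂ} {A B : ℕ → Set ℂ} {p : ℕ → D0 S} (D : DCorr hS hχ n y z A B p) {k : ℕ}
    (hk : k < n) (h : NeckD S z0 e a0 a1 b0 b1 m V β (y k) (z k)) (he : e ≠ 0)
    (hc : ∀ s ∈ V, (χ s = χ (y k) ↔ s ∈ β))
    (hc0 : c0 ≤ a0) (hc1 : a1 ≤ c1) (hk0 : k0 ≤ c0) (hk1 : c1 ≤ k1)
    (Ar : Arms S χ z0 e b0 b1 c0 c1 k0 k1 (y k) (z k))
    (hR : ∀ s ∈ B k, c0 < X z0 e s ∧ X z0 e s < c1) (hX : a1 ≤ X z0 e (y (k + 1))) :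
    (∀ k, k < n → FA (cm0 hS) (xc hS hχ) (RD S (B k)) (p (k + 1)) (p k)) ∧
      ∀ k, k < n → ¬ FA (cm0 hS) (xc hS hχ) (RD S (B k)) (p k) (p (k + 1)) := by
  obtain ⟨up, dn, h, hz⟩ := h
  have hy : ¬ OnHull S (y k) := D.innA k hk _ (D.yS hk.le) (D.mem0 k hk)
  refine D.corr.dir_back hk ?_
  refine orient2 hS hχ h he hc hy hc0 hc1 hk0 hk1 (by rw [hz]; exact D.col k hk.le)
    (by rw [hz]; exact Ar) hR (by rw [hz]; exact D.st k hk.le) ?_
  rw [D.st (k + 1) hk]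
  exact hX

end Crest.Agent.R143.OrientDx881
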