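import Crest.Agent.R143.Spl2_117

/-!
# Row 143 (S0194), part B without E3: splitting of a block, file 3: order of the gates (helper117)

* `FA M x R a b` : the walk from `a` arrives in `b` inside the set `R` of states
* `Ring M x n p R` : `n ≥ 3` states `p k` in cyclic order, `R k` contains one of the two arcs between
  `p k` and `p (k + 1)` and no other `p j`
* `Ring.fwd` : if all arcs are forward, the loop passes `p 0, p 1, .., p n = p 0` in this order in one
  period
* `ZZ` : charge of the block path of the arc between two states (in the direction in which it exists)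
* `ring_main` : **the block of the ring and its charge** `∑ ZZ k`
-/

set_option autoImplicit false

noncomputable section

open scoped Classical

namespace Crest.Agent.R143.Splx117

open Crest.Agent.R143.Frame1x395 Crest.Agent.R143.Frame2x395 Crest.Agent.R143.Frame3x395
  Crest.Agent.R143.Frame4x395 Crest.Agent.R143.Frame8x395 Crest.Agent.R143.Frame9x395
  Crest.Agent.R143.Frame11x395

variable {D C : Type} {M : CMap D C} {x : D → ZMod 2} {N : ℕ} {c : C}

/-- the walk from `a` arrives in `b` inside `R` -/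
def FA (M : CMap D C) (x : D → ZMod 2) (R : Set D) (a b : D) : Prop :=
  ∃ m, (stp M x)^[m] a = b ∧ ∀ i ≤ m, (stp M x)^[i] a ∈ R

/-- cyclic sequence of states -/
structure Ring (M : CMap D C) (x : D → ZMod 2) (n : ℕ) (p : ℕ → D) (R : ℕ → Set D) : Prop where
  even : IsC M ∅ x
  n3 : 3 ≤ n
  perp : ∀ k, p (k + n) = p k
  perR : ∀ k, R (k + n) = R k
  occ : ∀ k, x (p k) = 1
  far : ∀ k j, 2 ≤ j → j < n → p (k + j) ∉ R k
  arc : ∀ k, FA M x (R k) (p k) (p (k + 1)) ∨ FA M x (R k) (p (k + 1)) (p k)

variable {n : ℕ} {p : ℕ → D} {R : ℕ → Set D}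

theorem FA.left {R : Set D} {a b : D} (h : FA M x R a b) : a ∈ R := by
  obtain ⟨m, -, h⟩ := h
  exact h 0 (Nat.zero_le _)

theorem FA.right {R : Set D} {a b : D} (h : FA M x R a b) : b ∈ R := by
  obtain ⟨m, h1, h⟩ := h
  rw [← h1]
  exact h m le_rfl

theorem Ring.mem0 (A : Ring M x n p R) (k : ℕ) : p k ∈ R k := by
  rcases A.arc k with h | h
  · exact h.left
  · exact h.right

theorem Ring.mem1 (A : Ring M x n p R) (k : ℕ) : p (k + 1) ∈ R k := by
  rcases A.arc k with h | h
  · exact h.right
  · exact h.left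

theorem Ring.notmem (A : Ring M x n p R) (k : ℕ) : p k ∉ R (k + 1) := by
  have h3 := A.n3
  have := A.far (k + 1) (n - 1) (by omega) (by omega)
  rwa [show k + 1 + (n - 1) = k + n by omega, A.perp] at this

/-- no turn at `p (k + 1)`, arriving -/
theorem Ring.no_turn1 (A : Ring M x n p R) (k : ℕ) (h1 : FA M x (R k) (p k) (p (k + 1)))
    (h2 : FA M x (R (k + 1)) (p (k + 1 + 1)) (p (k + 1))) : False := by
  obtain ⟨m, a1, a2⟩ := h1
  obtain ⟨m', b1, b2⟩ := h2
  have h3 := A.n3
  have e1 := A.notmem k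
  have e2 : p (k + 1 + 1) ∉ R k := A.far k 2 le_rfl (by omega)
  rcases lt_or_ge m m' with hl | hl
  · have e : p k = (stp M x)^[m' - m] (p (k + 1 + 1)) := by
      apply it_inj A.even (A.occ _) (occ_it A.even (A.occ _) _) m
      rw [← Function.iterate_add_apply, show m + (m' - m) = m' by omega, a1, b1]
    exact e1 (e ▸ b2 (m' - m) (by omega))
  · have e : (stp M x)^[m - m'] (p k) = p (k + 1 + 1) := by
      apply it_inj A.even (occ_it A.even (A.occ _) _) (A.occ _) m'
      rw [← Function.iterate_add_apply, show m' + (m - m') = m by omega, a1, b1]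
    exact e2 (e ▸ a2 (m - m') (by omega))

/-- no turn at `p (k + 1)`, leaving -/
theorem Ring.no_turn2 (A : Ring M x n p R) (k : ℕ) (h1 : FA M x (R k) (p (k + 1)) (p k))
    (h2 : FA M x (R (k + 1)) (p (k + 1)) (p (k + 1 + 1))) : False := by
  obtain ⟨m, a1, a2⟩ := h1
  obtain ⟨m', b1, b2⟩ := h2
  have h3 := A.n3
  have e1 := A.notmem k
  have e2 : p (k + 1 + 1) ∉ R k := A.far k 2 le_rfl (by omega)
  rcases le_or_gt m m' with hl | hl
  · exact e1 (a1 ▸ b2 m hl)
  · exact e2 (b1 ▸ a2 m' hl.le)

/-- all arcs have the same direction -/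
theorem Ring.dir (A : Ring M x n p R) : (∀ k, FA M x (R k) (p k) (p (k + 1))) ∨
    ((∀ k, FA M x (R k) (p (k + 1)) (p k)) ∧ ∀ k, ¬ FA M x (R k) (p k) (p (k + 1))) := by
  have nx : ∀ k, FA M x (R k) (p k) (p (k + 1)) → FA M x (R (k + 1)) (p (k + 1)) (p (k + 1 + 1)) := by
    intro k h
    rcases A.arc (k + 1) with h1 | h1
    · exact h1
    · exact (A.no_turn1 k h h1).elim
  by_cases h0 : FA M x (R 0) (p 0) (p (0 + 1))
  · left
    intro k
    induction k with
    | zero => exact h0
    | succ k ih => exact nx k ih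
  · right
    have hno : ∀ k, ¬ FA M x (R k) (p k) (p (k + 1)) := by
      intro k hk
      apply h0
      have h1 : ∀ j, FA M x (R (k + j)) (p (k + j)) (p (k + j + 1)) := by
        intro j
        induction j with
        | zero => exact hk
        | succ j ih => exact nx _ ih
      have per : ∀ j, p (j * n) = p 0 ∧ p (j * n + 1) = p (0 + 1) ∧ R (j * n) = R 0 := by
        intro j
        induction j with
        | zero => rw [Nat.zero_mul]; exact ⟨rfl, rfl, rfl⟩
        | succ j ih =>
          rw [Nat.succ_mul]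
          refine ⟨by rw [A.perp, ih.1], ?_, by rw [A.perR, ih.2.2]⟩
          rw [show j * n + n + 1 = j * n + 1 + n by omega, A.perp, ih.2.1]
      have h2 := h1 (k * n - k)
      have hn := A.n3
      have h3 : k ≤ k * n := Nat.le_mul_of_pos_right _ (by omega)
      rw [show k + (k * n - k) = k * n by omega, (per k).1, (per k).2.1, (per k).2.2] at h2
      exact h2
    refine ⟨fun k => ?_, hno⟩
    rcases A.arc k with h | h
    · exact absurd h (hno k)
    · exact h

/-- first arrival time -/
def ft (M : CMap D C) (x : D → ZMod 2) (a b : D) : ℕ :=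
  if h : ∃ m, (stp M x)^[m] a = b then Nat.find h else 0

theorem ft_spec {a b : D} (h : ∃ m, (stp M x)^[m] a = b) : (stp M x)^[ft M x a b] a = b := by
  unfold ft
  rw [dif_pos h]
  exact Nat.find_spec h

theorem ft_min {a b : D} {m : ℕ} (h : (stp M x)^[m] a = b) : ft M x a b ≤ m := by
  unfold ft
  rw [dif_pos ⟨m, h⟩]
  exact Nat.find_min' _ h

/-- **all arcs forward** -/
theorem Ring.fwd [Finite D] (A : Ring M x n p R) (hf : ∀ k, FA M x (R k) (p k) (p (k + 1))) :
    ∃ T : ℕ → ℕ, Lp M x (p 0) (T n) ∧ T 0 = 0 ∧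
      (∀ k, T (k + 1) = T k + ft M x (p k) (p (k + 1))) ∧
      (∀ k, T k < T (k + 1)) ∧ (∀ k, (stp M x)^[T k] (p 0) = p k) ∧
      ∀ k, ∀ i, T k ≤ i → i ≤ T (k + 1) → (stp M x)^[i] (p 0) ∈ R k := by
  have hn := A.n3
  have hex : ∀ k, ∃ m, (stp M x)^[m] (p k) = p (k + 1) := fun k => by
    obtain ⟨m, h, -⟩ := hf k
    exact ⟨m, h⟩
  set f : ℕ → ℕ := fun k => ft M x (p k) (p (k + 1)) with hfdef
  have f1 : ∀ k, (stp M x)^[f k] (p k) = p (k + 1) := fun k => ft_spec (hex k)
  have f2 : ∀ k, ∀ i ≤ f k, (stp M x)^[i] (p k) ∈ R k := by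
    intro k i hi
    obtain ⟨m, h1, h2⟩ := hf k
    exact h2 i (hi.trans (ft_min h1))
  have f3 : ∀ k, 0 < f k := by
    intro k
    rcases Nat.eq_zero_or_pos (f k) with h | h
    · exfalso
      have h1 := f1 k
      rw [h] at h1
      have h2 : p k = p (k + 1) := h1
      have h3 := A.notmem k
      rw [h2] at h3
      exact h3 (A.mem0 _)
    · exact h
  set T : ℕ → ℕ := fun k => ∑ i ∈ Finset.range k, f i with hT
  have Ts : ∀ k, T (k + 1) = T k + f k := fun k => Finset.sum_range_succ _ _
  have T0 : T 0 = 0 := Finset.sum_range_zero _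
  have Tp : ∀ k, (stp M x)^[T k] (p 0) = p k := by
    intro k
    induction k with
    | zero => rw [T0]; rfl
    | succ k ih =>
      rw [Ts, Nat.add_comm, Function.iterate_add_apply, ih, f1]
  have Tlt : ∀ k, T k < T (k + 1) := fun k => by
    rw [Ts]
    have := f3 k
    omega
  have TR : ∀ k, ∀ i, T k ≤ i → i ≤ T (k + 1) → (stp M x)^[i] (p 0) ∈ R k := by
    intro k i h1 h2
    rw [Ts] at h2
    have h3 := f2 k (i - T k) (by omega)
    rw [← Tp k, ← Function.iterate_add_apply, show i - T k + T k = i by omega] at h3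
    exact h3
  refine ⟨T, ?_, T0, Ts, Tlt, Tp, TR⟩
  obtain ⟨N, L⟩ := lp_exists A.even (A.occ 0)
  have hNT : N = T n := by
    have hmono : ∀ k l, k ≤ l → T k ≤ T l := by
      intro k l hkl
      exact mono_of (a := 0) (b := l) (fun k _ _ => (Tlt k).le) (Nat.zero_le _) hkl le_rfl
    have hle : N ≤ T n := by
      by_contra hc
      push Not at hc
      have h1 := Tp n
      have h2 := A.perp 0
      rw [zero_add] at h2
      rw [h2] at h1
      have h4 : 0 < T n := by
        have h5 := hmono 1 n (by omega)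
        have h6 := Tlt 0
        rw [T0, zero_add] at h6
        omega
      exact L.ne h4 (by omega) h1.symm
    by_contra hne
    have hlt : N < T n := lt_of_le_of_ne hle hne
    obtain ⟨k, -, hk, h1, h2⟩ := arc_of (T := T) (a := 0) (b := n) (u := N) (by omega)
      (by rw [T0]; exact Nat.zero_le _) hlt.le
    have hmem := TR k N h1 h2
    rw [L.per] at hmem
    -- `p 0 ∈ R k`
    have hk' : k = 0 ∨ k = n - 1 := by
      by_contra hc
      push Not at hc
      have := A.far k (n - k) (by omega) (by omega)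
      rw [show k + (n - k) = 0 + n by omega, A.perp] at this
      exact this hmem
    rcases hk' with rfl | rfl
    · rw [zero_add] at h2
      have h5 : (stp M x)^[T 1 - N] (p 0) = p 1 := by
        have h6 := Tp 1
        rw [show T 1 = (T 1 - N) + N by omega, Function.iterate_add_apply, L.per] at h6
        exact h6
      have h7 : f 0 ≤ T 1 - N := ft_min h5
      have h8 := Ts 0
      rw [T0, zero_add, zero_add] at h8
      have := L.pos
      have := f3 0
      omega
    · have h5 : (stp M x)^[N - T (n - 1)] (p (n - 1)) = p (n - 1 + 1) := by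
        rw [← Tp (n - 1), ← Function.iterate_add_apply, show N - T (n - 1) + T (n - 1) = N by omega,
          L.per, show n - 1 + 1 = 0 + n by omega, A.perp]
      have h7 : f (n - 1) ≤ N - T (n - 1) := ft_min h5
      have h8 := Ts (n - 1)
      rw [show n - 1 + 1 = n by omega] at h8
      omega
  rw [← hNT]
  exact L

/-- the block path of a shifted walk -/
theorem ink_shift {q : D} {t a b i : ℕ} :
    InK M x ((stp M x)^[t] q) a b i ↔ InK M x q (a + t) (b + t) (i + t) := by
  have e1 : ∀ j, lc M x ((stp M x)^[t] q) j = lc M x q (j + t) := fun j => by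
    unfold lc
    rw [← Function.iterate_add_apply]
  have e2 : ∀ j, gp M x ((stp M x)^[t] q) j = gp M x q (j + t) := fun j => by
    unfold gp
    rw [← Function.iterate_add_apply]
  constructor
  · intro h
    have h1 := h.lo
    have h2 := h.hi
    refine ⟨by omega, by omega, by rw [← e2]; exact h.gap, fun j l a1 a2 a3 a4 => ?_⟩
    have := h.sep (j - t) (l - t) (by omega) (by omega) (by omega) (by omega)
    rwa [e1, e1, show j - t + t = j by omega, show l - t + t = l by omega] at this
  · intro h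
    have h1 := h.lo
    have h2 := h.hi
    refine ⟨by omega, by omega, by rw [e2]; exact h.gap, fun j l a1 a2 a3 a4 => ?_⟩
    rw [e1, e1]
    exact h.sep (j + t) (l + t) (by omega) (by omega) (by omega) (by omega)

theorem ks_shift {A : Type} [AddCommMonoid A] {q : D} {w : D → A} {t a b : ℕ} :
    KS M x ((stp M x)^[t] q) w a b = KS M x q w (a + t) (b + t) := by
  unfold KS
  refine Finset.sum_bij' (fun i _ => i + t) (fun i _ => i - t) ?_ ?_ ?_ ?_ ?_
  · intro i hi
    rw [Finset.mem_filter, Finset.mem_Ico] at hi ⊢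
    exact ⟨⟨by omega, by omega⟩, ink_shift.1 hi.2⟩
  · intro i hi
    rw [Finset.mem_filter, Finset.mem_Ico] at hi ⊢
    refine ⟨⟨by omega, by omega⟩, ink_shift.2 ?_⟩
    rw [show i - t + t = i by omega]
    exact hi.2
  · intro i hi
    simp
  · intro i hi
    rw [Finset.mem_filter, Finset.mem_Ico] at hi
    show i - t + t = i
    omega
  · intro i hi
    unfold gp
    rw [← Function.iterate_add_apply]

/-- charge of the block path between two states, in the direction in which the arc exists -/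
def ZZ {A : Type} [AddCommMonoid A] (M : CMap D C) (x : D → ZMod 2) (w : D → A) (R : Set D)
    (a b : D) : A :=
  if FA M x R a b then KS M x a w 0 (ft M x a b)
  else if FA M x R b a then KS M x b w 0 (ft M x b a) else 0

/-- links between the left cells of consecutive states: no cell except a common end cell is needed
by two links -/
def Links (M : CMap D C) (x : D → ZMod 2) (n : ℕ) (p : ℕ → D) : Prop :=
  ∀ k k' c, k < k' → k' < n → (k' = k + 1 ∧ c = M.cell (p k')) ∨
    (k = 0 ∧ k' + 1 = n ∧ c = M.cell (p 0)) ∨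
    ConA M x c (M.cell (p k)) (M.cell (p (k + 1))) ∨
    ConA M x c (M.cell (p k')) (M.cell (p (k' + 1)))

/-- **the block of a ring, all arcs forward** -/
theorem Ring.main_fwd [Fintype D] (A : Ring M x n p R)
    (hf : ∀ k, FA M x (R k) (p k) (p (k + 1))) (G : ∀ k, ∀ d ∈ R k, Gen M (M.cell d))
    (hl : Links M x n p) (hne : M.cell (p 0) ≠ M.cell (p (0 + 1))) :
    ∃ β ∈ blks M x, (∀ k, ∃ i, (stp M x)^[i] (p 0) = p k) ∧
      (∀ i, ∃ k, (stp M x)^[i] (p 0) ∈ R k) ∧ (∃ i, gp M x (p 0) i ∈ β) ∧
      ∀ {A : Type} [AddCommMonoid A] (w : D → A), ∑ t ∈ β, w t =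
        ∑ k ∈ Finset.range n, KS M x (p k) w 0 (ft M x (p k) (p (k + 1))) := by
  have hn := A.n3
  obtain ⟨T, L, T0, Ts, Tlt, Tp, TR⟩ := A.fwd hf
  have lcT : ∀ k, lc M x (p 0) (T k) = M.cell (p k) := fun k => by
    unfold lc
    rw [Tp]
  have hG : ∀ i, Gen M (lc M x (p 0) i) := by
    intro i
    have h1 : lc M x (p 0) i = lc M x (p 0) (i % T n) := by
      unfold lc
      rw [L.mod]
    rw [h1]
    obtain ⟨k, -, -, h2, h3⟩ := arc_of (T := T) (a := 0) (b := n) (u := i % T n) (by omega)
      (by rw [T0]; exact Nat.zero_le _) (Nat.mod_lt _ L.pos).le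
    exact G k _ (TR k _ h2 h3)
  have hcut : CutC M x (p 0) T n := by
    refine cut_of_links L hG le_rfl (fun k _ => (Tlt k).le) ?_
    intro k k' c h1 h2
    have := hl k k' c h1 h2
    have l0 : lc M x (p 0) 0 = M.cell (p 0) := rfl
    rw [lcT, lcT, lcT, lcT, l0]
    exact this
  have y01 : lc M x (p 0) (T 0) ≠ lc M x (p 0) (T (0 + 1)) := by
    rw [lcT, lcT]
    exact hne
  have hmono : ∀ k l, k ≤ l → T k ≤ T l := by
    intro k l hkl
    exact mono_of (a := 0) (b := l) (fun k _ _ => (Tlt k).le) (Nat.zero_le _) hkl le_rfl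
  have hT1 : T (0 + 1) < T 0 + T n := by
    have h1 : T 1 < T 2 := Tlt 1
    have h2 := hmono 2 n (by omega)
    rw [zero_add, T0]
    omega
  obtain ⟨i0, hi0⟩ := ink_exists L (Tlt 0).le hT1 y01
  refine ⟨blk M x (gp M x (p 0) i0), Finset.mem_image_of_mem _ (mem_gaps.2 (L.gap hi0.gap)),
    fun k => ⟨T k, Tp k⟩, fun i => ?_, ⟨i0, self_mem (L.gap hi0.gap)⟩, fun w => ?_⟩
  · obtain ⟨k, -, -, h2, h3⟩ := arc_of (T := T) (a := 0) (b := n) (u := i % T n) (by omega)
      (by rw [T0]; exact Nat.zero_le _) (Nat.mod_lt _ L.pos).le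
    refine ⟨k, ?_⟩
    rw [L.mod]
    exact TR k _ h2 h3
  rw [ring_sum L (by omega) T0 rfl (fun k _ => (Tlt k).le) hcut (show 0 < n by omega) hi0 w]
  refine Finset.sum_congr rfl fun k _ => ?_
  have h1 := ks_shift (M := M) (x := x) (q := p 0) (w := w) (t := T k) (a := 0)
    (b := ft M x (p k) (p (k + 1)))
  rw [Tp] at h1
  rw [h1, Ts, zero_add, Nat.add_comm (T k)]

/-! ### the other direction -/

theorem per_mul' {X : Type} {f : ℕ → X} (hf : ∀ k, f (k + n) = f k) (k j : ℕ) :
    f (k + j * n) = f k := by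
  induction j with
  | zero => rw [Nat.zero_mul, Nat.add_zero]
  | succ j ih => rw [Nat.succ_mul, ← Nat.add_assoc, hf, ih]

theorem rev_idx {X : Type} {f : ℕ → X} (hf : ∀ k, f (k + n) = f k) {k : ℕ} (hk : k ≤ n) :
    f (k * (n - 1)) = f (n - k) := by
  rcases Nat.eq_zero_or_pos k with rfl | h
  · rw [Nat.zero_mul, Nat.sub_zero]
    have := hf 0
    rw [zero_add] at this
    exact this.symm
  · have h2 : k ≤ k * n := Nat.le_mul_of_pos_right _ (by omega)
    have h3 : (k - 1) * n + n = k * n := by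
      rw [← Nat.succ_mul]
      congr 1
      omega
    rw [Nat.mul_sub, Nat.mul_one, show k * n - k = (n - k) + (k - 1) * n by omega, per_mul' hf]

theorem Ring.rev (A : Ring M x n p R) (hb : ∀ k, FA M x (R k) (p (k + 1)) (p k)) :
    Ring M x n (fun k => p (k * (n - 1))) (fun k => R ((k + 1) * (n - 1))) ∧
      ∀ k, FA M x (R ((k + 1) * (n - 1))) (p (k * (n - 1))) (p ((k + 1) * (n - 1))) := by
  have hn := A.n3
  have e1 : ∀ k, (k + 1) * (n - 1) + 1 = k * (n - 1) + n := by
    intro k
    rw [Nat.succ_mul]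
    omega
  have hf : ∀ k, FA M x (R ((k + 1) * (n - 1))) (p (k * (n - 1))) (p ((k + 1) * (n - 1))) := by
    intro k
    have h1 := hb ((k + 1) * (n - 1))
    rw [e1, A.perp] at h1
    exact h1
  have e2 : ∀ k, (k + n) * (n - 1) = k * (n - 1) + (n - 1) * n := by
    intro k
    rw [Nat.add_mul, Nat.mul_comm n]
  refine ⟨⟨A.even, hn, fun k => ?_, fun k => ?_, fun k => A.occ _, fun k j h1 h2 hmem => ?_,
    fun k => Or.inl (hf k)⟩, hf⟩
  · show p ((k + n) * (n - 1)) = p (k * (n - 1))
    rw [e2, per_mul' A.perp]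
  · show R ((k + n + 1) * (n - 1)) = R ((k + 1) * (n - 1))
    rw [show k + n + 1 = (k + 1) + n by omega, e2, per_mul' A.perR]
  · change p ((k + j) * (n - 1)) ∈ R ((k + 1) * (n - 1)) at hmem
    refine A.far ((k + 1) * (n - 1)) (n - (j - 1)) (by omega) (by omega) ?_
    have h3 : (k + j) * (n - 1) = (k + 1) * (n - 1) + (j - 1) * (n - 1) := by
      rw [← Nat.add_mul]
      congr 1
      omega
    have h4 : (j - 1) * (n - 1) = (n - (j - 1)) + (j - 2) * n := by
      have h5 : j - 1 ≤ (j - 1) * n := Nat.le_mul_of_pos_right _ (by omega)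
      have h6 : (j - 2) * n + n = (j - 1) * n := by
        rw [← Nat.succ_mul]
        congr 1
        omega
      rw [Nat.mul_sub, Nat.mul_one]
      omega
    rw [h3, h4, ← Nat.add_assoc, per_mul' A.perp] at hmem
    exact hmem

/-- **the block of the ring** -/
theorem ring_main [Fintype D] (A : Ring M x n p R) (G : ∀ k, ∀ d ∈ R k, Gen M (M.cell d))
    (hl : Links M x n p) (hne : ∀ k, M.cell (p k) ≠ M.cell (p (k + 1))) :
    ∃ β ∈ blks M x, (∀ k, ∃ i, (stp M x)^[i] (p 0) = p k) ∧
      (∀ i, ∃ k, (stp M x)^[i] (p 0) ∈ R k) ∧ (∃ i, gp M x (p 0) i ∈ β) ∧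
      ∀ {A : Type} [AddCommMonoid A] (w : D → A), ∑ t ∈ β, w t =
        ∑ k ∈ Finset.range n, ZZ M x w (R k) (p k) (p (k + 1)) := by
  have hn := A.n3
  rcases A.dir with hf | ⟨hb, hno⟩
  · obtain ⟨β, h1, h2, h3, h4, h5⟩ := A.main_fwd hf G hl (hne 0)
    refine ⟨β, h1, h2, h3, h4, fun w => ?_⟩
    rw [h5 w]
    refine Finset.sum_congr rfl fun k _ => ?_
    unfold ZZ
    rw [if_pos (hf k)]
  · obtain ⟨A', hf'⟩ := A.rev hb
    have id1 : ∀ k, k ≤ n → p (k * (n - 1)) = p (n - k) := fun k hk => rev_idx A.perp hk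
    have p0 : p (0 * (n - 1)) = p 0 := by rw [Nat.zero_mul]
    have pn : p n = p 0 := by
      have := A.perp 0
      rwa [zero_add] at this
    obtain ⟨β, h1, h2, h3, h4, h5⟩ := A'.main_fwd hf' (fun k d hd => G _ d hd) (by
      intro k k' c a1 a2
      show (k' = k + 1 ∧ c = M.cell (p (k' * (n - 1)))) ∨
        (k = 0 ∧ k' + 1 = n ∧ c = M.cell (p (0 * (n - 1)))) ∨
        ConA M x c (M.cell (p (k * (n - 1)))) (M.cell (p ((k + 1) * (n - 1)))) ∨
        ConA M x c (M.cell (p (k' * (n - 1)))) (M.cell (p ((k' + 1) * (n - 1))))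
      rw [id1 k (by omega), id1 k' (by omega), id1 (k + 1) (by omega), id1 (k' + 1) (by omega), p0]
      have key := hl (n - 1 - k') (n - 1 - k) c (by omega) (by omega)
      rw [show n - 1 - k' = n - (k' + 1) by omega, show n - (k' + 1) + 1 = n - k' by omega,
        show n - 1 - k = n - (k + 1) by omega, show n - (k + 1) + 1 = n - k by omega] at key
      rcases key with ⟨b1, b2⟩ | ⟨b1, b2, b3⟩ | b | b
      · left
        refine ⟨by omega, ?_⟩
        rw [b2, show n - (k + 1) = n - k' by omega]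
      · right; left
        exact ⟨by omega, by omega, b3⟩
      · right; right; right
        exact b.symm
      · right; right; left
        exact b.symm) (by
      show M.cell (p (0 * (n - 1))) ≠ M.cell (p ((0 + 1) * (n - 1)))
      rw [p0, id1 (0 + 1) (by omega)]
      have := hne (n - (0 + 1))
      rw [show n - (0 + 1) + 1 = n by omega, pn] at this
      exact this.symm)
    have h2' : ∀ k, ∃ i, (stp M x)^[i] (p (0 * (n - 1))) = p (k * (n - 1)) := h2
    have h3' : ∀ i, ∃ k, (stp M x)^[i] (p (0 * (n - 1))) ∈ R ((k + 1) * (n - 1)) := h3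
    have h4' : ∃ i, gp M x (p (0 * (n - 1))) i ∈ β := h4
    rw [p0] at h2' h3' h4'
    refine ⟨β, h1, fun k => ?_, fun i => ?_, h4', fun w => ?_⟩
    · obtain ⟨i, hi⟩ := h2' (n - k % n)
      refine ⟨i, ?_⟩
      have hk := Nat.mod_lt k (show 0 < n by omega)
      rw [hi, id1 _ (by omega), show n - (n - k % n) = k % n by omega]
      conv_rhs => rw [← Nat.mod_add_div k n, Nat.mul_comm n, per_mul' A.perp]
    · obtain ⟨k, hk⟩ := h3' i
      exact ⟨_, hk⟩
    · rw [h5 w, ← Finset.sum_range_reflect]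
      refine Finset.sum_congr rfl fun k hk => ?_
      rw [Finset.mem_range] at hk
      unfold ZZ
      rw [if_neg (hno k), if_pos (hb k), id1 (n - 1 - k) (by omega), id1 (n - 1 - k + 1) (by omega),
        show n - (n - 1 - k) = k + 1 by omega, show n - (n - 1 - k + 1) = k by omega]

end Crest.Agent.R143.Splx117
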