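import Crest.Agent.R143.WLoc4_713
import Crest.Agent.R143.FinM2_609

/-!
# Row 143 (S0194), CORE-C block V, leaf V3 (helper713): gate darts

* `piso_restrict` : an isomorphism of configurations restricts to the configurations in `U a`
  (family `U` closed under intersections; `UC U0` : the closure of a finite family)
* `GInv U R G` : the property `G X (x, y)` of a dart is transported; `GInv.restrict`, `GInv.least`,
  `GInv.sinv`, `GInv.tinv`
* `zK f W Q Q' G` : the stopped segment sum from the least gate dart of `X ∩ ovr Q` to the least gate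
  dart of `X ∩ ovr Q'`; `zK_fme` : measurable; `zK_cut` : local; `zK_eq` : it is `Zst`
-/

set_option autoImplicit false
set_option linter.all false

noncomputable section

open scoped Classical

namespace Crest.Agent.R143.WLocx713

open Set MeasureTheory
open Crest.Agent.R143.B0x346 Crest.Agent.R143.DelGx806 Crest.Agent.R143.DelRx806
  Crest.Agent.R143.JColx54
open Crest.Agent.R143.Frame10x395 Crest.Agent.R143.Locx922
open Crest.Agent.R143.Frame5x395 (sd mem_sd th th_spec)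
open Crest.Agent.R143.PP0x831 Crest.Agent.R143.Poisx304 Crest.Agent.R143.Janx304
open Crest.Agent.R143.Prodx609 Crest.Agent.R143.FinMx609 Crest.Agent.R143.FinM2x609

/-! ### families closed under intersections -/

/-- finite intersections of the family `U0` -/
def UC {ι : Type*} (U0 : ι → Set ℂ) (s : Finset ι) : Set ℂ := ⋂ a ∈ s, U0 a

theorem UC_single {ι : Type*} (U0 : ι → Set ℂ) (a : ι) : UC U0 {a} = U0 a := by simp [UC]

theorem UC_meas {ι : Type*} {U0 : ι → Set ℂ} (h : ∀ a, MeasurableSet (U0 a)) (s : Finset ι) :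
    MeasurableSet (UC U0 s) := Finset.measurableSet_biInter s fun a _ => h a

/-- closed under intersections -/
def ICl {ι : Type*} (U : ι → Set ℂ) : Prop := ∀ a b, ∃ c, U c = U a ∩ U b

theorem UC_cl {ι : Type*} (U0 : ι → Set ℂ) : ICl (UC U0) := by
  intro s t
  refine ⟨s ∪ t, ?_⟩
  ext v
  simp only [UC, mem_iInter, mem_inter_iff, Finset.mem_union]
  constructor
  · intro h
    exact ⟨fun a ha => h a (Or.inl ha), fun a ha => h a (Or.inr ha)⟩
  · rintro ⟨h1, h2⟩ a (ha | ha)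
    · exact h1 a ha
    · exact h2 a ha

section

variable {ι κ : Type*} [Finite ι] [Finite κ] {U : ι → Set ℂ} {R : κ → ℂ × ℂ × ℂ → Prop}
  {X X' : Set (ℂ × Bool)} {e : ℂ → ℂ}

/-- **restriction of an isomorphism** -/
theorem piso_restrict (hcl : ICl U) (he : PIso U R X X' e) (a : ι) :
    PIso U R (X ∩ ovr (U a)) (X' ∩ ovr (U a)) e := by
  have h1 : ps (X ∩ ovr (U a)) = ps X ∩ U a := ps_inter
  have h2 : ps (X' ∩ ovr (U a)) = ps X' ∩ U a := ps_inter
  refine ⟨⟨?_, ?_, ?_⟩, ?_, ?_, ?_, ?_, ?_⟩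
  · intro x hx
    rw [h1] at hx
    rw [h2]
    exact ⟨he.bij.mapsTo hx.1, (he.loc x hx.1 a).1 hx.2⟩
  · rw [h1]
    exact he.bij.injOn.mono inter_subset_left
  · intro y hy
    rw [h2] at hy
    obtain ⟨x, hx, rfl⟩ := he.bij.surjOn hy.1
    exact ⟨x, by rw [h1]; exact ⟨hx, (he.loc x hx a).2 hy.2⟩, rfl⟩
  · intro x hx b
    rw [h1] at hx
    constructor
    · rintro ⟨h3, h4⟩
      exact ⟨(he.col x hx.1 b).1 h3, (he.loc x hx.1 a).1 h4⟩
    · rintro ⟨h3, h4⟩
      exact ⟨(he.col x hx.1 b).2 h3, (he.loc x hx.1 a).2 h4⟩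
  · intro x hx b
    rw [h1] at hx
    exact he.loc x hx.1 b
  · intro x hx y hy w hw
    rw [h1] at hx hy hw
    rw [h1, h2]
    exact he.delU x hx.1 y hy.1 w hw.1 a
  · intro x hx y hy w hw b
    rw [h1] at hx hy hw
    rw [h1, h2]
    obtain ⟨c, hc⟩ := hcl a b
    rw [inter_assoc, inter_assoc, ← hc]
    exact he.delU x hx.1 y hy.1 w hw.1 c
  · intro x hx y hy w hw b
    rw [h1] at hx hy hw
    exact he.rel x hx.1 y hy.1 w hw.1 b

end

/-! ### properties of darts -/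

/-- a property of darts which is transported -/
structure GInv {ι κ : Type*} (U : ι → Set ℂ) (R : κ → ℂ × ℂ × ℂ → Prop)
    (G : Set (ℂ × Bool) → ℂ × ℂ → Prop) : Prop where
  mem : ∀ X p, G X p → p.1 ∈ ps X ∧ p.2 ∈ ps X
  tr : ∀ X X' : Set (ℂ × Bool), X.Finite → X'.Finite → ∀ e, PIso U R X X' e →
    ∀ p : ℂ × ℂ, G X p → G X' (mp e p)

section

variable {ι κ : Type*} [Finite ι] [Finite κ] {U : ι → Set ℂ} {R : κ → ℂ × ℂ × ℂ → Prop}
  {G : Set (ℂ × Bool) → ℂ × ℂ → Prop}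

theorem GInv.iff (h : GInv U R G) {X X' : Set (ℂ × Bool)} (hX : X.Finite) (hX' : X'.Finite)
    {e : ℂ → ℂ} (he : PIso U R X X' e) {p : ℂ × ℂ} (h1 : p.1 ∈ ps X) (h2 : p.2 ∈ ps X) :
    G X p ↔ G X' (mp e p) := by
  refine ⟨h.tr X X' hX hX' e he p, fun h3 => ?_⟩
  have h4 := h.tr X' X hX' hX _ he.symm _ h3
  have e1 : mp (Function.invFunOn e (ps X)) (mp e p) = p :=
    Prod.ext (he.bij.invOn_invFunOn.1 h1) (he.bij.invOn_invFunOn.1 h2)
  rwa [e1] at h4

theorem GInv.sinv (h : GInv U R G) : SInv U R G := ⟨h.mem, h.tr⟩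

theorem GInv.tinv (h : GInv U R G) : TInv U R fun X => {p | G X p} :=
  fun _ _ hX hX' _ he _ h1 h2 => h.iff hX hX' he h1 h2

theorem GInv.restrict (hcl : ICl U) (h : GInv U R G) (a : ι) :
    GInv U R fun X => G (X ∩ ovr (U a)) := by
  refine ⟨fun X p hp => ?_, fun X X' hX hX' e he p hp => ?_⟩
  · have h1 := h.mem _ _ hp
    rw [ps_inter] at h1
    exact ⟨h1.1.1, h1.2.1⟩
  · exact h.tr _ _ (hX.subset inter_subset_left) (hX'.subset inter_subset_left) e
      (piso_restrict hcl he a) p hp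

theorem GInv.least (h : GInv U (RL R) G) : GInv U (RL R) fun X => Least (G X) := by
  refine ⟨fun X p hp => h.mem X p hp.1, fun X X' hX hX' e he p hp => ?_⟩
  exact least_iso (G := G) h.mem he
    (fun x hx y hy => h.iff hX hX' he (p := (x, y)) hx hy) hp

theorem GInv.and {G' : Set (ℂ × Bool) → ℂ × ℂ → Prop} (h : GInv U R G) (h' : GInv U R G') :
    GInv U R fun X p => G X p ∧ G' X p :=
  ⟨fun X p hp => h.mem X p hp.1, fun X X' hX hX' e he p hp =>
    ⟨h.tr X X' hX hX' e he p hp.1, h'.tr X X' hX hX' e he p hp.2⟩⟩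

end

/-! ### the segment sum between two gates -/

/-- the stopped segment sum from the least gate dart of `Q` to the least gate dart of `Q'` -/
def zK (f : ℂ × ℂ × ℂ → ℂ) (W Q Q' : Set ℂ) (G G' : Set (ℂ × Bool) → ℂ × ℂ → Prop)
    (X : Set (ℂ × Bool)) : ℂ :=
  zS f W (fun X => Least (G (X ∩ ovr Q))) (fun X => {q | Least (G' (X ∩ ovr Q')) q}) X

/-- **measurability**: `U0` is any finite family of Borel sets which contains `W`, `Q`, `Q'` and all
the sets used by the gate predicates -/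
theorem zK_fme {ι κ : Type*} [Finite ι] [Finite κ] {U0 : ι → Set ℂ} {R : κ → ℂ × ℂ × ℂ → Prop}
    (hU : ∀ a, MeasurableSet (U0 a)) (hR : ∀ a, MeasurableSet {t | R a t})
    {G G' : Set (ℂ × Bool) → ℂ × ℂ → Prop} (hG : GInv (UC U0) (RL R) G)
    (hG' : GInv (UC U0) (RL R) G') (w q q' : ι) {f : ℂ × ℂ × ℂ → ℂ} (hf : Measurable f) :
    FMe (zK f (U0 w) (U0 q) (U0 q') G G') := by
  have h1 := (hG.restrict (UC_cl U0) {q}).least
  have h2 := (hG'.restrict (UC_cl U0) {q'}).least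
  have h3 := zS_fme (UC_meas hU) (meas_RL hR) (a := ({w} : Finset ι)) h1.sinv h2.tinv hf
  simp only [UC_single] at h3
  exact h3

/-- **locality** -/
theorem zK_cut {W Q Q' : Set ℂ} {G G' : Set (ℂ × Bool) → ℂ × ℂ → Prop} {X : Set (ℂ × Bool)}
    {d : ℝ} (hX : X.Finite) (hS : GP (ps X)) (hχ : HullC (sX X) (cX X)) (hd : 0 < d)
    (hH : Hol (ps X) W d) {R : Set ℂ} (hR : ∀ w ∈ W, ∀ s, ‖s - w‖ < 2 * d → s ∈ R)
    (hQ : Q ⊆ R) (hQ' : Q' ⊆ R)
    (ho : ∀ p, Least (G (X ∩ ovr Q)) p → Occ (sX X) (cX X) p) (f : ℂ × ℂ × ℂ → ℂ) :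
    zK f W Q Q' G G' (X ∩ ovr R) = zK f W Q Q' G G' X := by
  have e : ∀ {A : Set ℂ}, A ⊆ R → X ∩ ovr R ∩ ovr A = X ∩ ovr A := by
    intro A hA
    rw [inter_assoc]
    congr 1
    ext v
    exact ⟨fun h => h.2, fun h => ⟨hA h, h⟩⟩
  unfold zK
  refine zS_cut hX hS hχ hd hH hR ?_ ?_ ho f
  · intro p
    rw [e hQ]
  · show {q | Least (G' (X ∩ ovr R ∩ ovr Q')) q} = _
    rw [e hQ']

/-- **value** -/
theorem zK_eq {W Q Q' : Set ℂ} {G G' : Set (ℂ × Bool) → ℂ × ℂ → Prop} {X : Set (ℂ × Bool)}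
    (hX : X.Finite) (hS : GP (ps X)) (hχ : HullC (sX X) (cX X)) {p q : ℂ × ℂ}
    (hp : Least (G (X ∩ ovr Q)) p) (hq : Least (G' (X ∩ ovr Q')) q) (ho : Occ (sX X) (cX X) p)
    (f : ℂ × ℂ × ℂ → ℂ) :
    zK f W Q Q' G G' X = Zst (sX X) (cX X) (fun a b c => f (a, b, c)) W {q} p := by
  have e : {q' | Least (G' (X ∩ ovr Q')) q'} = {q} := by
    ext q'
    exact ⟨fun h => h.uniq hq, fun h => by rw [mem_singleton_iff.1 h]; exact hq⟩
  unfold zK
  rw [zS_eq hX hS hχ hp (fun r hr => Least.uniq hr hp) ho]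
  show Zst _ _ _ W {q' | Least (G' (X ∩ ovr Q')) q'} p = _
  rw [e]

end Crest.Agent.R143.WLocx713
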