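import Crest.Agent.R143.WLoc5_713
import Crest.Agent.R143.WLoc6_713
import Crest.Agent.R143.Spl3_117

/-!
# Row 143 (S0194), CORE-C block V (helper713): 117's `ZZ` as a local measurable functional

* `FAp S χ W p q` : the planar walk from `p` arrives in `q`, both sites of all states in `W`
* `fa_iff` : 117's `FA` on `cm0`
* `CB S χ W p q t` : the triangle `t` is a counted gap of the arc `p → q` (first arrival)
* `zzp` : charge of the block path between `p` and `q` in the direction in which it exists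
* `zz_eq` : `ZZ (cm0 hS) x w R p q = zzp S χ F W p q`
* `zzp_loc` : locality
* `zB f W Q Q' G G' X` : the functional of the configuration; `zB_fme`, `zB_cut`, `zB_eq`
-/

set_option autoImplicit false
set_option linter.all false

noncomputable section

open scoped Classical

namespace Crest.Agent.R143.WLocx713

open Set MeasureTheory
open Crest.Agent.R143.B0x346 Crest.Agent.R143.DelGx806 Crest.Agent.R143.DelRx806
  Crest.Agent.R143.JColx54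
open Crest.Agent.R143.Frame1x395 Crest.Agent.R143.Frame3x395 Crest.Agent.R143.Frame8x395
  Crest.Agent.R143.Frame10x395 Crest.Agent.R143.Locx922
open Crest.Agent.R143.Frame5x395 (sd mem_sd th th_spec)
open Crest.Agent.R143.Splx117
open Crest.Agent.R143.PP0x831 Crest.Agent.R143.Poisx304 Crest.Agent.R143.Janx304
open Crest.Agent.R143.Prodx609 Crest.Agent.R143.FinMx609 Crest.Agent.R143.FinM2x609

variable {S S' : Finset ℂ} {W : Set ℂ} {d : ℝ} {χ χ' : ℂ → ZMod 2}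

/-- the state `e` is live and has its two sites in `W` -/
def InW (S : Finset ℂ) (W : Set ℂ) (e : ℂ × ℂ) : Prop := e ∈ sd S ∧ e.1 ∈ W ∧ e.2 ∈ W

/-- the walk from `p` arrives in `q` inside `W` -/
def FAp (S : Finset ℂ) (χ : ℂ → ZMod 2) (W : Set ℂ) (p q : ℂ × ℂ) : Prop :=
  ∃ m, (nx S χ)^[m] p = q ∧ ∀ i ≤ m, InW S W ((nx S χ)^[i] p)

/-- first arrival in `q` at the time `m` inside `W` -/
def ArrB (S : Finset ℂ) (χ : ℂ → ZMod 2) (W : Set ℂ) (p q : ℂ × ℂ) (m : ℕ) : Prop :=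
  (nx S χ)^[m] p = q ∧ (∀ i < m, (nx S χ)^[i] p ≠ q) ∧ ∀ i ≤ m, InW S W ((nx S χ)^[i] p)

theorem fap_iff {p q : ℂ × ℂ} : FAp S χ W p q ↔ ∃ m, ArrB S χ W p q m := by
  constructor
  · rintro ⟨m, h1, h2⟩
    have ex : ∃ m, (nx S χ)^[m] p = q := ⟨m, h1⟩
    refine ⟨Nat.find ex, Nat.find_spec ex, fun i hi h => Nat.find_min ex hi h, fun i hi => ?_⟩
    exact h2 i (hi.trans (Nat.find_min' ex h1))
  · rintro ⟨m, h1, -, h2⟩
    exact ⟨m, h1, h2⟩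

theorem ArrB.arr {p q : ℂ × ℂ} {m : ℕ} (h : ArrB S χ W p q m) : Arr S χ W {q} p m :=
  ⟨h.1, fun i hi => ⟨h.2.1 i hi, (h.2.2 i hi.le).2.1⟩⟩

/-- counted gap of the arc `p → q` -/
def CB (S : Finset ℂ) (χ : ℂ → ZMod 2) (W : Set ℂ) (p q : ℂ × ℂ) (t : ℂ × ℂ × ℂ) : Prop :=
  ∃ m, ArrB S χ W p q m ∧ ∃ i < m, (nx S χ)^[i] p = (t.1, t.2.1) ∧ t.2.2 = th S (t.1, t.2.1) ∧
    lg S χ (t.1, t.2.1) ∧ Np S χ p m i

theorem CB.fap {p q : ℂ × ℂ} {t : ℂ × ℂ × ℂ} (h : CB S χ W p q t) : FAp S χ W p q := by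
  obtain ⟨m, h1, -⟩ := h
  exact fap_iff.2 ⟨m, h1⟩

theorem CB.mem {p q : ℂ × ℂ} {t : ℂ × ℂ × ℂ} (h : CB S χ W p q t) : t ∈ delT S := by
  obtain ⟨n, hn, i, hi, h1, h2, -⟩ := h
  have h3 := (hn.2.2 i hi.le).1
  rw [h1] at h3
  have h4 := th_spec h3
  rw [← h2] at h4
  exact h4

/-- counted gap between `p` and `q`, in the direction in which the arc exists -/
def CZ (S : Finset ℂ) (χ : ℂ → ZMod 2) (W : Set ℂ) (p q : ℂ × ℂ) (t : ℂ × ℂ × ℂ) : Prop :=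
  CB S χ W p q t ∨ (¬ FAp S χ W p q ∧ CB S χ W q p t)

/-- charge of the block path between `p` and `q` -/
def zzp (S : Finset ℂ) (χ : ℂ → ZMod 2) (f : ℂ × ℂ × ℂ → ℂ) (W : Set ℂ) (p q : ℂ × ℂ) : ℂ :=
  ∑ t ∈ delT S, if CZ S χ W p q t then f t else 0

/-! ### the bridge -/

theorem cnt_univ {p q : ℂ × ℂ} {m : ℕ} (h : ArrB S χ W p q m) (t : ℂ × ℂ × ℂ) :
    Cnt S χ univ {q} p t ↔ CB S χ W p q t := by
  have h0 : Arr S χ univ {q} p m := ⟨h.1, fun i hi => ⟨h.2.1 i hi, mem_univ _⟩⟩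
  constructor
  · rintro ⟨n, hn, h1⟩
    have e := arr_uniq hn h0
    subst e
    exact ⟨n, h, h1⟩
  · rintro ⟨n, hn, h1⟩
    exact ⟨n, ⟨hn.1, fun i hi => ⟨hn.2.1 i hi, mem_univ _⟩⟩, h1⟩

/-- the segment sum of a first arrival as a sum over triangles -/
theorem zw_sum (hS : GP (S : Set ℂ)) (hχ : HullC S χ) {p q : ℂ × ℂ} (hp : Occ S χ p) {m : ℕ}
    (h : ArrB S χ W p q m) (f : ℂ × ℂ × ℂ → ℂ) :
    Zw S χ (fun a b c => f (a, b, c)) p m = ∑ t ∈ delT S, if CB S χ W p q t then f t else 0 := by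
  have h0 : Arr S χ univ {q} p m := ⟨h.1, fun i hi => ⟨h.2.1 i hi, mem_univ _⟩⟩
  have h1 : Zw S χ (fun a b c => f (a, b, c)) p m =
      Zst S χ (fun a b c => f (a, b, c)) univ {q} p := by
    unfold Zst
    rw [fst_eq _ h0]
  rw [h1, zst_sum hS hχ _ hp]
  refine Finset.sum_congr rfl fun t _ => ?_
  have h2 := cnt_univ h t
  by_cases hc : CB S χ W p q t
  · rw [if_pos (h2.2 hc), if_pos hc]
  · rw [if_neg fun hh => hc (h2.1 hh), if_neg hc]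

/-- the darts with both sites in `W` -/
def RW (S : Finset ℂ) (W : Set ℂ) : Set (D0 S) := {e | e.1.1 ∈ W ∧ e.1.2 ∈ W}

theorem fa_iff (hS : GP (S : Set ℂ)) (hχ : HullC S χ) {p q : D0 S} (hp : xc hS hχ p = 1) :
    FA (cm0 hS) (xc hS hχ) (RW S W) p q ↔ FAp S χ W p.1 q.1 := by
  have hst := it_eq hS hχ hp
  constructor
  · rintro ⟨m, h1, h2⟩
    refine ⟨m, by rw [← hst, h1], fun i hi => ?_⟩
    rw [← hst]
    exact ⟨Subtype.prop _, (h2 i hi).1, (h2 i hi).2⟩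
  · rintro ⟨m, h1, h2⟩
    refine ⟨m, Subtype.ext (by rw [hst, h1]), fun i hi => ?_⟩
    have h3 := h2 i hi
    rw [← hst] at h3
    exact ⟨h3.2.1, h3.2.2⟩

theorem arrB_ft (hS : GP (S : Set ℂ)) (hχ : HullC S χ) {p q : D0 S} (hp : xc hS hχ p = 1)
    (h : FA (cm0 hS) (xc hS hχ) (RW S W) p q) :
    ArrB S χ W p.1 q.1 (ft (cm0 hS) (xc hS hχ) p q) := by
  have hst := it_eq hS hχ hp
  obtain ⟨m, h1, h2⟩ := h
  have ex : ∃ m, (stp (cm0 hS) (xc hS hχ))^[m] p = q := ⟨m, h1⟩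
  have h3 := ft_spec ex
  refine ⟨by rw [← hst, h3], fun i hi hc => ?_, fun i hi => ?_⟩
  · rw [← hst] at hc
    have h4 := ft_min (Subtype.ext hc : (stp (cm0 hS) (xc hS hχ))^[i] p = q)
    omega
  · have h4 := ft_min h1
    rw [← hst]
    exact ⟨Subtype.prop _, (h2 i (by omega)).1, (h2 i (by omega)).2⟩

/-- 117's forward charge -/
theorem ks_sumB (hS : GP (S : Set ℂ)) (hχ : HullC S χ) {p q : D0 S} (hp : xc hS hχ p = 1)
    (hW : ∀ v ∈ W, v ∈ S → ¬ OnHull S v) {f : ℂ × ℂ × ℂ → ℂ} {w : D0 S → ℂ}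
    (hw : ∀ e : D0 S, w e = f (e.1.2, th S e.1, e.1.1))
    (h : FA (cm0 hS) (xc hS hχ) (RW S W) p q) :
    KS (cm0 hS) (xc hS hχ) p w 0 (ft (cm0 hS) (xc hS hχ) p q) =
      ∑ t ∈ delT S, if CB S χ W p.1 q.1 t then f t else 0 := by
  have hB := arrB_ft hS hχ hp h
  have hst := it_eq hS hχ hp
  rw [ks_zw hS hχ hp (a := 0) (b := ft (cm0 hS) (xc hS hχ) p q)
    (F := fun a b c => f (a, b, c)) ?_ hw]
  · rw [Nat.sub_zero]
    exact zw_sum hS hχ (occ_of hS hχ hp) hB f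
  · intro i _ hi
    have h1 := hB.2.2 i hi
    rw [← hst] at h1
    refine hW _ h1.2.1 ?_
    obtain ⟨c, hc⟩ := mem_sd.1 h1.1
    exact (mem_delT.1 hc).1

/-- **117's `ZZ` is the planar functional** -/
theorem zz_eq (hS : GP (S : Set ℂ)) (hχ : HullC S χ) {p q : D0 S} (hp : xc hS hχ p = 1)
    (hq : xc hS hχ q = 1) (hW : ∀ v ∈ W, v ∈ S → ¬ OnHull S v) {f : ℂ × ℂ × ℂ → ℂ}
    {w : D0 S → ℂ} (hw : ∀ e : D0 S, w e = f (e.1.2, th S e.1, e.1.1)) :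
    ZZ (cm0 hS) (xc hS hχ) w (RW S W) p q = zzp S χ f W p.1 q.1 := by
  unfold ZZ zzp
  have e1 := fa_iff (W := W) hS hχ (q := q) hp
  have e2 := fa_iff (W := W) hS hχ (q := p) hq
  by_cases h1 : FA (cm0 hS) (xc hS hχ) (RW S W) p q
  · rw [if_pos h1, ks_sumB hS hχ hp hW hw h1]
    refine Finset.sum_congr rfl fun t _ => ?_
    have h2 : CZ S χ W p.1 q.1 t ↔ CB S χ W p.1 q.1 t := by
      unfold CZ
      have := e1.1 h1
      tauto
    by_cases hc : CB S χ W p.1 q.1 t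
    · rw [if_pos hc, if_pos (h2.2 hc)]
    · rw [if_neg hc, if_neg fun hh => hc (h2.1 hh)]
  · have h1' : ¬ FAp S χ W p.1 q.1 := fun h => h1 (e1.2 h)
    have h2 : ∀ t, CZ S χ W p.1 q.1 t ↔ CB S χ W q.1 p.1 t := by
      intro t
      unfold CZ
      have := fun h : CB S χ W p.1 q.1 t => h1' h.fap
      tauto
    rw [if_neg h1]
    by_cases h3 : FA (cm0 hS) (xc hS hχ) (RW S W) q p
    · rw [if_pos h3, ks_sumB hS hχ hq hW hw h3]
      refine Finset.sum_congr rfl fun t _ => ?_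
      by_cases hc : CB S χ W q.1 p.1 t
      · rw [if_pos hc, if_pos ((h2 t).2 hc)]
      · rw [if_neg hc, if_neg fun hh => hc ((h2 t).1 hh)]
    · rw [if_neg h3]
      have h3' : ¬ FAp S χ W q.1 p.1 := fun h => h3 (e2.2 h)
      symm
      refine Finset.sum_eq_zero fun t _ => if_neg fun hh => h3' ((h2 t).1 hh).fap

/-! ### locality -/

theorem arrB_loc (hS : GP (S : Set ℂ)) (hS' : GP (S' : Set ℂ)) (hχ : HullC S χ) (hd : 0 < d)
    (hH : Hol (S : Set ℂ) W d) (hA : Agr (S : Set ℂ) (S' : Set ℂ) W (2 * d))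
    (hc : CAgr S χ χ' W (2 * d)) {p q : ℂ × ℂ} (hp : Occ S χ p) (m : ℕ) :
    ArrB S' χ' W p q m ↔ ArrB S χ W p q m := by
  constructor
  · intro h
    have h1 := (arr_loc hS hS' hχ hd hH hA hc hp m).1 h.arr
    have hW : ∀ i < m, ((nx S χ)^[i] p).1 ∈ W := fun i hi => (h1.2 i hi).2
    have h2 := it_loc hS hS' hχ hd hH hA hc hp hW
    refine ⟨by rw [← h2 m le_rfl]; exact h.1, fun i hi => ?_, fun i hi => ?_⟩
    · rw [← h2 i hi.le]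
      exact h.2.1 i hi
    · have h3 := h.2.2 i hi
      rw [h2 i hi] at h3
      exact ⟨(hp.it hS hχ i).1, h3.2⟩
  · intro h
    have hW : ∀ i < m, ((nx S χ)^[i] p).1 ∈ W := fun i hi => (h.2.2 i hi.le).2.1
    have h2 := it_loc hS hS' hχ hd hH hA hc hp hW
    refine ⟨by rw [h2 m le_rfl]; exact h.1, fun i hi => ?_, fun i hi => ?_⟩
    · rw [h2 i hi.le]
      exact h.2.1 i hi
    · rw [h2 i hi]
      have h3 := h.2.2 i hi
      exact ⟨(th_loc hS' hd hH hA h3.1 (Or.inl h3.2.1)).1, h3.2⟩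

theorem fap_loc (hS : GP (S : Set ℂ)) (hS' : GP (S' : Set ℂ)) (hχ : HullC S χ) (hd : 0 < d)
    (hH : Hol (S : Set ℂ) W d) (hA : Agr (S : Set ℂ) (S' : Set ℂ) W (2 * d))
    (hc : CAgr S χ χ' W (2 * d)) {p q : ℂ × ℂ} (hp : Occ S χ p) :
    FAp S' χ' W p q ↔ FAp S χ W p q := by
  rw [fap_iff, fap_iff]
  exact exists_congr fun m => arrB_loc hS hS' hχ hd hH hA hc hp m

theorem cb_loc (hS : GP (S : Set ℂ)) (hS' : GP (S' : Set ℂ)) (hχ : HullC S χ) (hd : 0 < d)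
    (hH : Hol (S : Set ℂ) W d) (hA : Agr (S : Set ℂ) (S' : Set ℂ) W (2 * d))
    (hc : CAgr S χ χ' W (2 * d)) {p q : ℂ × ℂ} (hp : Occ S χ p) (t : ℂ × ℂ × ℂ) :
    CB S' χ' W p q t ↔ CB S χ W p q t := by
  unfold CB
  refine exists_congr fun n => ?_
  rw [arrB_loc hS hS' hχ hd hH hA hc hp n]
  refine and_congr_right fun hn => exists_congr fun i => and_congr_right fun hi => ?_
  have hW : ∀ i < n, ((nx S χ)^[i] p).1 ∈ W := fun i hi => (hn.2.2 i hi.le).2.1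
  have h1 := it_loc hS hS' hχ hd hH hA hc hp hW i hi.le
  obtain ⟨-, h2, h3⟩ := nx_loc hS' hd hH hA hc (hp.it hS hχ i).1 (hW i hi)
  rw [h1, np_loc hS hS' hχ hd hH hA hc hp hW hi]
  constructor
  · rintro ⟨e1, e2, e3, e4⟩
    rw [e1] at h2 h3
    exact ⟨e1, by rw [e2, h3], h2.1 e3, e4⟩
  · rintro ⟨e1, e2, e3, e4⟩
    rw [e1] at h2 h3
    exact ⟨e1, by rw [e2, h3], h2.2 e3, e4⟩

theorem cz_loc (hS : GP (S : Set ℂ)) (hS' : GP (S' : Set ℂ)) (hχ : HullC S χ) (hd : 0 < d)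
    (hH : Hol (S : Set ℂ) W d) (hA : Agr (S : Set ℂ) (S' : Set ℂ) W (2 * d))
    (hc : CAgr S χ χ' W (2 * d)) {p q : ℂ × ℂ} (hp : Occ S χ p) (hq : Occ S χ q)
    (t : ℂ × ℂ × ℂ) : CZ S' χ' W p q t ↔ CZ S χ W p q t := by
  unfold CZ
  rw [cb_loc hS hS' hχ hd hH hA hc hp t, cb_loc hS hS' hχ hd hH hA hc hq t,
    fap_loc hS hS' hχ hd hH hA hc hp]

/-- **locality of the charge** -/
theorem zzp_loc (hS : GP (S : Set ℂ)) (hS' : GP (S' : Set ℂ)) (hχ : HullC S χ) (hd : 0 < d)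
    (hH : Hol (S : Set ℂ) W d) (hA : Agr (S : Set ℂ) (S' : Set ℂ) W (2 * d))
    (hc : CAgr S χ χ' W (2 * d)) {p q : ℂ × ℂ} (hp : Occ S χ p) (hq : Occ S χ q)
    (f : ℂ × ℂ × ℂ → ℂ) : zzp S' χ' f W p q = zzp S χ f W p q := by
  unfold zzp
  rw [← Finset.sum_filter, ← Finset.sum_filter]
  refine Finset.sum_congr ?_ fun _ _ => rfl
  ext t
  rw [Finset.mem_filter, Finset.mem_filter, cz_loc hS hS' hχ hd hH hA hc hp hq t]
  constructor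
  · rintro ⟨-, h⟩
    exact ⟨by rcases h with h | ⟨-, h⟩ <;> exact h.mem, h⟩
  · rintro ⟨-, h⟩
    have h' := (cz_loc hS hS' hχ hd hH hA hc hp hq t).2 h
    exact ⟨by rcases h' with h' | ⟨-, h'⟩ <;> exact h'.mem, h⟩

/-! ### transport and measurability -/

section transport

variable {ι κ : Type*} [Finite ι] [Finite κ] {U : ι → Set ℂ} {R : κ → ℂ × ℂ × ℂ → Prop}
  {X X' : Set (ℂ × Bool)} {e : ℂ → ℂ}

theorem iso_inw (hX : X.Finite) (hX' : X'.Finite) (he : PIso U R X X' e) (h : U3 (sX X))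
    {a : ι} {p : ℂ × ℂ} (hp : InW (sX X) (U a) p) : InW (sX X') (U a) (mp e p) := by
  obtain ⟨h1, h2⟩ := sd_ps hX hp.1
  exact ⟨(iso_th hX hX' he h hp.1).1, (he.loc _ h1 a).1 hp.2.1, (he.loc _ h2 a).1 hp.2.2⟩

theorem iso_arrB (hX : X.Finite) (hX' : X'.Finite) (he : PIso U R X X' e) (h : U3 (sX X))
    {a : ι} {p q : ℂ × ℂ} (h1 : p.1 ∈ ps X) (h2 : p.2 ∈ ps X)
    {m : ℕ} (hm : ArrB (sX X) (cX X) (U a) p q m) :
    ArrB (sX X') (cX X') (U a) (mp e p) (mp e q) m := by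
  have h3 := iso_it hX hX' he h h1 h2 (n := m) (fun i hi => (hm.2.2 i hi.le).1)
  refine ⟨?_, fun i hi => ?_, fun i hi => ?_⟩
  · rw [(h3 m le_rfl).1, hm.1]
  · rw [(h3 i hi.le).1]
    intro hc
    obtain ⟨h4, h5⟩ := (h3 i hi.le).2
    have h6 := (h3 m le_rfl).2
    rw [hm.1] at h6
    exact hm.2.1 i hi (Prod.ext (he.bij.injOn h4 h6.1 (congrArg Prod.fst hc))
      (he.bij.injOn h5 h6.2 (congrArg Prod.snd hc)))
  · rw [(h3 i hi).1]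
    exact iso_inw hX hX' he h (hm.2.2 i hi)

theorem iso_fap (hX : X.Finite) (hX' : X'.Finite) (he : PIso U R X X' e) (h : U3 (sX X))
    {a : ι} {p q : ℂ × ℂ} (h1 : p.1 ∈ ps X) (h2 : p.2 ∈ ps X)
    (hf : FAp (sX X) (cX X) (U a) p q) : FAp (sX X') (cX X') (U a) (mp e p) (mp e q) := by
  obtain ⟨m, hm⟩ := fap_iff.1 hf
  exact fap_iff.2 ⟨m, iso_arrB hX hX' he h h1 h2 hm⟩

theorem inv_mp (he : PIso U R X X' e) {p : ℂ × ℂ} (h1 : p.1 ∈ ps X) (h2 : p.2 ∈ ps X) :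
    mp (Function.invFunOn e (ps X)) (mp e p) = p :=
  Prod.ext (he.bij.invOn_invFunOn.1 h1) (he.bij.invOn_invFunOn.1 h2)

theorem mp_mem (he : PIso U R X X' e) {p : ℂ × ℂ} (h1 : p.1 ∈ ps X) (h2 : p.2 ∈ ps X) :
    (mp e p).1 ∈ ps X' ∧ (mp e p).2 ∈ ps X' := ⟨he.bij.mapsTo h1, he.bij.mapsTo h2⟩

theorem iso_fap_iff (hX : X.Finite) (hX' : X'.Finite) (he : PIso U R X X' e) (h : U3 (sX X))
    {a : ι} {p q : ℂ × ℂ} (h1 : p.1 ∈ ps X) (h2 : p.2 ∈ ps X) (h3 : q.1 ∈ ps X)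
    (h4 : q.2 ∈ ps X) :
    FAp (sX X) (cX X) (U a) p q ↔ FAp (sX X') (cX X') (U a) (mp e p) (mp e q) := by
  refine ⟨iso_fap hX hX' he h h1 h2, fun hf => ?_⟩
  obtain ⟨m1, m2⟩ := mp_mem he h1 h2
  have h5 := iso_fap hX' hX he.symm (iso_u3 hX hX' he h) m1 m2 hf
  rwa [inv_mp he h1 h2, inv_mp he h3 h4] at h5

theorem iso_cb (hX : X.Finite) (hX' : X'.Finite) (he : PIso U R X X' e) (h : U3 (sX X))
    {a : ι} {p q : ℂ × ℂ} (h1 : p.1 ∈ ps X) (h2 : p.2 ∈ ps X) {t : ℂ × ℂ × ℂ}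
    (ht : CB (sX X) (cX X) (U a) p q t) :
    CB (sX X') (cX X') (U a) (mp e p) (mp e q) (e t.1, e t.2.1, e t.2.2) := by
  obtain ⟨n, hn, i, hi, e1, e2, e3, e4⟩ := ht
  have hsd : ∀ i < n, (nx (sX X) (cX X))^[i] p ∈ sd (sX X) := fun i hi => (hn.2.2 i hi.le).1
  have h3 := iso_it hX hX' he h h1 h2 hsd
  have h4 : (t.1, t.2.1) ∈ sd (sX X) := e1 ▸ hsd i hi
  obtain ⟨-, h5, -⟩ := iso_th hX hX' he h h4
  refine ⟨n, iso_arrB hX hX' he h h1 h2 hn, i, hi, ?_, ?_, ?_, iso_np hX hX' he h h1 h2 hsd hi e4⟩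
  · rw [(h3 i hi.le).1, e1]
    rfl
  · show e t.2.2 = th (sX X') (mp e (t.1, t.2.1))
    rw [h5, e2]
  · exact (iso_lg hX hX' he h h4).2 e3

theorem iso_cz (hX : X.Finite) (hX' : X'.Finite) (he : PIso U R X X' e) (h : U3 (sX X))
    {a : ι} {p q : ℂ × ℂ} (h1 : p.1 ∈ ps X) (h2 : p.2 ∈ ps X) (h3 : q.1 ∈ ps X)
    (h4 : q.2 ∈ ps X) {t : ℂ × ℂ × ℂ} (ht : CZ (sX X) (cX X) (U a) p q t) :
    CZ (sX X') (cX X') (U a) (mp e p) (mp e q) (e t.1, e t.2.1, e t.2.2) := by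
  rcases ht with ht | ⟨h5, ht⟩
  · exact Or.inl (iso_cb hX hX' he h h1 h2 ht)
  · exact Or.inr ⟨fun hf => h5 ((iso_fap_iff hX hX' he h h1 h2 h3 h4).2 hf),
      iso_cb hX hX' he h h3 h4 ht⟩

end transport

/-- counted gaps between the least gate dart of `X ∩ ovr Q` and the least gate dart of `X ∩ ovr Q'` -/
def pB (W Q Q' : Set ℂ) (G G' : Set (ℂ × Bool) → ℂ × ℂ → Prop) (X : Set (ℂ × Bool))
    (t : ℂ × ℂ × ℂ) : Prop :=
  X.Finite ∧ U3 (sX X) ∧ ∃ p q, Least (G (X ∩ ovr Q)) p ∧ Least (G' (X ∩ ovr Q')) q ∧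
    CZ (sX X) (cX X) W p q t

/-- **the charge of the block path between two gates** -/
def zB (f : ℂ × ℂ × ℂ → ℂ) (W Q Q' : Set ℂ) (G G' : Set (ℂ × Bool) → ℂ × ℂ → Prop)
    (X : Set (ℂ × Bool)) : ℂ :=
  ∑ᶠ (t : ℂ × ℂ × ℂ) (_ : pB W Q Q' G G' X t), f t

theorem CZ.mem {p q : ℂ × ℂ} {t : ℂ × ℂ × ℂ} (h : CZ S χ W p q t) : t ∈ delT S := by
  rcases h with h | ⟨-, h⟩ <;> exact h.mem

/-- **measurability** -/
theorem zB_fme {ι κ : Type*} [Finite ι] [Finite κ] {U0 : ι → Set ℂ} {R : κ → ℂ × ℂ × ℂ → Prop}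
    (hU : ∀ a, MeasurableSet (U0 a)) (hR : ∀ a, MeasurableSet {t | R a t})
    {G G' : Set (ℂ × Bool) → ℂ × ℂ → Prop} (hG : GInv (UC U0) (RL R) G)
    (hG' : GInv (UC U0) (RL R) G') (w q q' : ι) {f : ℂ × ℂ × ℂ → ℂ} (hf : Measurable f) :
    FMe (zB f (U0 w) (U0 q) (U0 q') G G') := by
  have h1 := (hG.restrict (UC_cl U0) {q}).least
  have h2 := (hG'.restrict (UC_cl U0) {q'}).least
  simp only [UC_single] at h1 h2
  refine fme_sum (UC_meas hU) (meas_RL hR) (P := pB (U0 w) (U0 q) (U0 q') G G') ?_ ?_ hf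
  · rintro X t ⟨hX, -, p, q, -, -, h⟩
    exact ps_of_del hX h.mem
  · rintro X X' hX hX' e he x hx y hy v hv ⟨-, h3, p, r, hp, hr, h⟩
    refine ⟨hX', iso_u3 hX hX' he h3, mp e p, mp e r, h1.tr X X' hX hX' e he p hp,
      h2.tr X X' hX hX' e he r hr, ?_⟩
    rw [← UC_single U0 w] at h ⊢
    exact iso_cz hX hX' he h3 (h1.mem X p hp).1 (h1.mem X p hp).2 (h2.mem X r hr).1
      (h2.mem X r hr).2 h

/-- **locality** -/
theorem zB_cut {W Q Q' : Set ℂ} {G G' : Set (ℂ × Bool) → ℂ × ℂ → Prop} {X : Set (ℂ × Bool)}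
    (hX : X.Finite) (hS : GP (ps X)) (hχ : HullC (sX X) (cX X)) (hd : 0 < d)
    (hH : Hol (ps X) W d) {R : Set ℂ} (hR : ∀ w ∈ W, ∀ s, ‖s - w‖ < 2 * d → s ∈ R)
    (hQ : Q ⊆ R) (hQ' : Q' ⊆ R)
    (ho : ∀ p, Least (G (X ∩ ovr Q)) p → Occ (sX X) (cX X) p)
    (ho' : ∀ p, Least (G' (X ∩ ovr Q')) p → Occ (sX X) (cX X) p) (f : ℂ × ℂ × ℂ → ℂ) :
    zB f W Q Q' G G' (X ∩ ovr R) = zB f W Q Q' G G' X := by
  have e : ∀ {A : Set ℂ}, A ⊆ R → X ∩ ovr R ∩ ovr A = X ∩ ovr A := by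
    intro A hA
    rw [inter_assoc]
    congr 1
    ext v
    exact ⟨fun h => h.2, fun h => ⟨hA h, h⟩⟩
  have hS' : GP (sX X : Set ℂ) := by rw [coe_sX hX]; exact hS
  have hY : (X ∩ ovr R).Finite := hX.subset inter_subset_left
  have hc : (sX (X ∩ ovr R) : Set ℂ) = ps X ∩ R := by rw [coe_sX hY, ps_inter]
  have hSY : GP (sX (X ∩ ovr R) : Set ℂ) := by
    rw [hc]
    exact Locx922.GP.mono hS inter_subset_left
  have hH' : Hol (sX X : Set ℂ) W d := by rw [coe_sX hX]; exact hH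
  have hA : Agr (sX X : Set ℂ) (sX (X ∩ ovr R) : Set ℂ) W (2 * d) := by
    intro w hw s hs
    rw [hc, coe_sX hX]
    exact ⟨fun h => ⟨h, hR w hw s hs⟩, fun h => h.1⟩
  have hC : CAgr (sX X) (cX X) (cX (X ∩ ovr R)) W (2 * d) := by
    intro w hw v _ hvw
    rw [cX_inter (hR w hw v hvw)]
  unfold zB
  refine finsum_congr fun t => finsum_congr_Prop ?_ fun _ => rfl
  unfold pB
  rw [e hQ, e hQ']
  apply propext
  constructor
  · rintro ⟨-, -, p, q, hp, hq, h⟩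
    exact ⟨hX, u3_of_gp hS', p, q, hp, hq,
      (cz_loc hS' hSY hχ hd hH' hA hC (ho p hp) (ho' q hq) t).1 h⟩
  · rintro ⟨-, -, p, q, hp, hq, h⟩
    exact ⟨hY, u3_of_gp hSY, p, q, hp, hq,
      (cz_loc hS' hSY hχ hd hH' hA hC (ho p hp) (ho' q hq) t).2 h⟩

/-- **value** -/
theorem zB_eq {W Q Q' : Set ℂ} {G G' : Set (ℂ × Bool) → ℂ × ℂ → Prop} {X : Set (ℂ × Bool)}
    (hX : X.Finite) (hS : GP (ps X)) {p q : ℂ × ℂ}
    (hp : Least (G (X ∩ ovr Q)) p) (hq : Least (G' (X ∩ ovr Q')) q) (f : ℂ × ℂ × ℂ → ℂ) :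
    zB f W Q Q' G G' X = zzp (sX X) (cX X) f W p q := by
  have hS' : GP (sX X : Set ℂ) := by rw [coe_sX hX]; exact hS
  unfold zB zzp
  rw [← Finset.sum_filter, ← finsum_mem_coe_finset]
  refine finsum_congr fun t => finsum_congr_Prop ?_ fun _ => rfl
  rw [Finset.mem_coe, Finset.mem_filter]
  apply propext
  constructor
  · rintro ⟨-, -, p', q', hp', hq', h⟩
    rw [hp'.uniq hp, hq'.uniq hq] at h
    exact ⟨h.mem, h⟩
  · rintro ⟨-, h⟩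
    exact ⟨hX, u3_of_gp hS', p, q, hp, hq, h⟩

/-- **117's `ZZ` is `zB`** -/
theorem zz_zB {W Q Q' : Set ℂ} {G G' : Set (ℂ × Bool) → ℂ × ℂ → Prop} {X : Set (ℂ × Bool)}
    (hX : X.Finite) (hS : GP (sX X : Set ℂ)) (hχ : HullC (sX X) (cX X))
    {p q : D0 (sX X)} (hp : xc hS hχ p = 1) (hq : xc hS hχ q = 1)
    (hp' : Least (G (X ∩ ovr Q)) p.1) (hq' : Least (G' (X ∩ ovr Q')) q.1)
    (hW : ∀ v ∈ W, v ∈ sX X → ¬ OnHull (sX X) v) {f : ℂ × ℂ × ℂ → ℂ}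
    {w : D0 (sX X) → ℂ} (hw : ∀ e : D0 (sX X), w e = f (e.1.2, th (sX X) e.1, e.1.1)) :
    ZZ (cm0 hS) (xc hS hχ) w (RW (sX X) W) p q = zB f W Q Q' G G' X := by
  rw [zz_eq hS hχ hp hq hW hw]
  rw [zB_eq hX (by rw [← coe_sX hX]; exact hS) hp' hq' f]

end Crest.Agent.R143.WLocx713
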