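import Crest.Agent.R143.OrA_881
import Crest.Agent.R143.Neck1_921
import Crest.Agent.R143.WLoc7_713
import Crest.Agent.R143.RingD_117

/-!
# Row 143 (S0194), R1g: ORIENTATION at one wall (helper881)

Neck `up, y, dn` in the window `a0 < X < a1` between the levels `b0`, `b1`, `x` = last site of `up`
(white, above `y`), black arms from `y` to `X ≤ c0` and to `a1 ≤ X` inside the strip, `R` a region of the
strip with `c0 < X` : **the walk from the state `(y, x)` does not arrive inside `R` in a state with its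
left site in `a1 ≤ X`** (the loop with black on the left passes the gate towards decreasing `X`).

* `wall_Wl`, `wall_east`, `wall_west` : closed vertical polygon, index `0` in the east, `2 π` in the west
* `side` : the face to the left of `y → x` is in the west
* `orient_nx`, **`orient`** (117's `FA`)
-/

set_option autoImplicit false

noncomputable section

open scoped Classical

namespace Crest.Agent.R143.Orientx881

open Crest.Agent.R143.B0x346 Crest.Agent.R143.DelGx806 Crest.Agent.R143.DelRx806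
open Crest.Agent.R143.ToolWx838 Crest.Agent.R143.Blkx838 Crest.Agent.R143.ToolW2x838
open Crest.Agent.R143.ToolW3x838 Crest.Agent.R143.Circ4x838
open Crest.Agent.R143.Gatex838
open Crest.Agent.R143.Neckx921 Crest.Agent.R143.OrAx881 Crest.Agent.R143.Sidex40
open Crest.Agent.R143.Frame10x395 Crest.Agent.R143.WLocx713 Crest.Agent.R143.Splx117
open Crest.Agent.R143.Frame5x395 (sd mem_sd th th_spec)

variable {S V β : Finset ℂ} {z0 e : ℂ} {a0 a1 b0 b1 m κ : ℝ} {χ : ℂ → ZMod 2}

/-! ### coordinates -/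

theorem X_comb (z0 e : ℂ) {u v : ℂ} {s t : ℝ} (h : s + t = 1) :
    X z0 e (s • u + t • v) = s * X z0 e u + t * X z0 e v := by
  unfold X
  have h' : (s : ℂ) + (t : ℂ) = 1 := by exact_mod_cast h
  have : (s • u + t • v - z0) / e = (s : ℂ) * ((u - z0) / e) + (t : ℂ) * ((v - z0) / e) := by
    rw [Complex.real_smul, Complex.real_smul]
    linear_combination (z0 / e) * h'
  rw [this, Complex.add_re, Complex.re_ofReal_mul, Complex.re_ofReal_mul]

theorem Y_comb (z0 e : ℂ) {u v : ℂ} {s t : ℝ} (h : s + t = 1) :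
    Y z0 e (s • u + t • v) = s * Y z0 e u + t * Y z0 e v := by
  unfold Y
  have h' : (s : ℂ) + (t : ℂ) = 1 := by exact_mod_cast h
  have : (s • u + t • v - z0) / e = (s : ℂ) * ((u - z0) / e) + (t : ℂ) * ((v - z0) / e) := by
    rw [Complex.real_smul, Complex.real_smul]
    linear_combination (z0 / e) * h'
  rw [this, Complex.add_im, Complex.im_ofReal_mul, Complex.im_ofReal_mul]

/-- half strip -/
def Kr (z0 e : ℂ) (κ b0 b1 : ℝ) : Set ℂ := {z | κ < X z0 e z ∧ b0 < Y z0 e z ∧ Y z0 e z < b1}

theorem Kr_convex (z0 e : ℂ) (κ b0 b1 : ℝ) : Convex ℝ (Kr z0 e κ b0 b1) := by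
  intro u hu v hv s t hs ht hst
  obtain ⟨u1, u2, u3⟩ := hu
  obtain ⟨v1, v2, v3⟩ := hv
  have hx := X_comb z0 e (u := u) (v := v) hst
  have hy := Y_comb z0 e (u := u) (v := v) hst
  have hs' : s = 1 - t := by linarith
  refine ⟨?_, ?_, ?_⟩
  · rw [hx]; subst hs'
    rcases ht.lt_or_eq with h | h
    · nlinarith
    · rw [← h]; linarith
  · rw [hy]; subst hs'
    rcases ht.lt_or_eq with h | h
    · nlinarith
    · rw [← h]; linarith
  · rw [hy]; subst hs'
    rcases ht.lt_or_eq with h | h
    · nlinarith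
    · rw [← h]; linarith

theorem Kr_open (z0 e : ℂ) (κ b0 b1 : ℝ) : IsOpen (Kr z0 e κ b0 b1) := by
  have hX : Continuous fun z => X z0 e z := by unfold X; fun_prop
  have hY : Continuous fun z => Y z0 e z := by unfold Y; fun_prop
  exact (isOpen_lt continuous_const hX).inter
    ((isOpen_lt continuous_const hY).inter (isOpen_lt hY continuous_const))

/-- the point with the coordinates `p`, `q` -/
def crn (z0 e : ℂ) (p q : ℝ) : ℂ := z0 + e * ⟨p, q⟩

theorem crn_X (he : e ≠ 0) (p q : ℝ) : X z0 e (crn z0 e p q) = p := by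
  unfold X crn
  rw [add_sub_cancel_left, mul_div_cancel_left₀ _ he]

theorem crn_Y (he : e ≠ 0) (p q : ℝ) : Y z0 e (crn z0 e p q) = q := by
  unfold Y crn
  rw [add_sub_cancel_left, mul_div_cancel_left₀ _ he]

theorem ang_map (he : e ≠ 0) (z0 x a b : ℂ) :
    ang ((x - z0) / e) ((a - z0) / e) ((b - z0) / e) = ang x a b := by
  unfold ang
  congr 1
  have h1 : (b - z0) / e - (x - z0) / e = (b - x) / e := by ring
  have h2 : (a - z0) / e - (x - z0) / e = (a - x) / e := by ring
  rw [h1, h2, div_div_div_cancel_right₀ he]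

theorem asum_map (he : e ≠ 0) (z0 x : ℂ) (l : List ℂ) :
    asum ((x - z0) / e) (l.map fun s => (s - z0) / e) = asum x l := by
  induction l with
  | nil => rfl
  | cons a l ih =>
    cases l with
    | nil => rfl
    | cons b l =>
      rw [List.map_cons] at ih
      rw [List.map_cons, List.map_cons, asum_cons, asum_cons, ang_map he, ih]

theorem glue_e {z s1 s2 s3 s4 : ℂ} (he : e ≠ 0) {mT mL mB mR : List ℂ}
    (hT1 : mT.head? = some s1) (hT2 : mT.getLast? = some s2) (hL1 : mL.head? = some s2)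
    (hL2 : mL.getLast? = some s3) (hB1 : mB.head? = some s3) (hB2 : mB.getLast? = some s4)
    (hR1 : mR.head? = some s4) (hR2 : mR.getLast? = some s1)
    (hT : ∀ s ∈ mT, Y z0 e z < Y z0 e s) (hL : ∀ s ∈ mL, X z0 e s < X z0 e z)
    (hB : ∀ s ∈ mB, Y z0 e s < Y z0 e z) (hR : ∀ s ∈ mR, X z0 e z < X z0 e s) :
    asum z mT + asum z mL + asum z mB + asum z mR = 2 * Real.pi := by
  set f : ℂ → ℂ := fun s => (s - z0) / e with hf
  have hh : ∀ {m : List ℂ} {a : ℂ}, m.head? = some a → (m.map f).head? = some (f a) := by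
    intro m a h
    rw [List.head?_map, h]; rfl
  have hl : ∀ {m : List ℂ} {a : ℂ}, m.getLast? = some a → (m.map f).getLast? = some (f a) := by
    intro m a h
    rw [List.getLast?_map, h]; rfl
  have key := asum_glue (z := f z) (hh hT1) (hl hT2) (hh hL1) (hl hL2) (hh hB1) (hl hB2) (hh hR1)
    (hl hR2)
    (by
      intro s hs
      rw [List.mem_map] at hs
      obtain ⟨b, hb, rfl⟩ := hs
      exact hT b hb)
    (by
      intro s hs
      rw [List.mem_map] at hs
      obtain ⟨b, hb, rfl⟩ := hs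
      exact hL b hb)
    (by
      intro s hs
      rw [List.mem_map] at hs
      obtain ⟨b, hb, rfl⟩ := hs
      exact hB b hb)
    (by
      intro s hs
      rw [List.mem_map] at hs
      obtain ⟨b, hb, rfl⟩ := hs
      exact hR b hb)
  rw [asum_map he z0 z mT, asum_map he z0 z mL, asum_map he z0 z mB, asum_map he z0 z mR] at key
  exact key

/-! ### lists -/

/-- a site which is passed once -/
theorem once {l1 l2 : List ℂ} {d1 y x : ℂ} (h1 : y ∉ l1 ++ [d1]) (h2 : y ∉ x :: l2) :
    (∀ u, (y, u) ∈ prs (l1 ++ d1 :: y :: x :: l2) → u = x) ∧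
      (∀ u, (u, y) ∈ prs (l1 ++ d1 :: y :: x :: l2) → u = d1) ∧
      (prs (l1 ++ d1 :: y :: x :: l2)).count (d1, y) = 1 := by
  have e : prs (l1 ++ d1 :: y :: x :: l2) =
      prs (l1 ++ [d1]) ++ (d1, y) :: (y, x) :: prs (x :: l2) := by
    rw [prs_append, prs_cons, prs_cons]
  have n1 : d1 ≠ y := by
    rintro rfl
    exact h1 (by simp)
  have n2 : x ≠ y := by
    rintro rfl
    exact h2 (by simp)
  refine ⟨fun u hu => ?_, fun u hu => ?_, ?_⟩
  · rw [e, List.mem_append, List.mem_cons, List.mem_cons] at hu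
    rcases hu with hu | hu | hu | hu
    · exact absurd (mem_of_prs hu).1 h1
    · exact absurd (congrArg Prod.fst hu).symm n1
    · exact congrArg Prod.snd hu
    · exact absurd (mem_of_prs hu).1 h2
  · rw [e, List.mem_append, List.mem_cons, List.mem_cons] at hu
    rcases hu with hu | hu | hu | hu
    · exact absurd (mem_of_prs hu).2 h1
    · exact congrArg Prod.fst hu
    · exact absurd (congrArg Prod.snd hu).symm n2
    · exact absurd (mem_of_prs hu).2 h2
  · rw [e, List.count_append, List.count_cons_self, List.count_cons_of_ne]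
    · rw [List.count_eq_zero.2 fun hu => h1 (mem_of_prs hu).2,
        List.count_eq_zero.2 fun hu => h2 (mem_of_prs hu).2]
    · intro hu
      exact n1 (congrArg Prod.fst hu).symm

/-- the part of a chain after the last passage of `y` -/
theorem last_part {P : List ℂ} {y : ℂ} (hP : P ≠ []) (h0 : y ∈ P) (h1 : P.getLast hP ≠ y) :
    ∃ A q, P = A ++ y :: q ∧ y ∉ q ∧ q ≠ [] := by
  obtain ⟨as, bs, h2, h3⟩ := List.eq_append_cons_of_mem (List.mem_reverse.2 h0)
  have h4 : P = bs.reverse ++ y :: as.reverse := by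
    have := congrArg List.reverse h2
    rw [List.reverse_reverse] at this
    rw [this]; simp
  refine ⟨bs.reverse, as.reverse, h4, by simpa using h3, ?_⟩
  intro hn
  apply h1
  subst h4
  simp [hn]

/-- a link as a list -/
theorem lk_to_list {A : Set ℂ} {u v : ℂ} (h : Lk S A u v) :
    ∃ l : List ℂ, ∃ hl : l ≠ [], l.head hl = u ∧ l.getLast hl = v ∧ (∀ p ∈ prs l, DE S p.1 p.2) ∧
      ∀ s ∈ l, s ∈ A := by
  obtain ⟨⟨hu, hv⟩, h⟩ := h
  induction h using Relation.ReflTransGen.head_induction_on with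
  | refl => exact ⟨[v], by simp, rfl, rfl, by simp, by simpa using hv⟩
  | head h1 h2 ih =>
    rename_i a c
    obtain ⟨l, hl, h3, h4, h5, h6⟩ := ih h1.2.2
    obtain ⟨c', l', rfl⟩ := List.exists_cons_of_ne_nil hl
    rw [List.head_cons] at h3
    subst h3
    refine ⟨a :: c' :: l', by simp, rfl, by rw [List.getLast_cons hl]; exact h4, ?_, ?_⟩
    · intro p hp
      rw [prs_cons] at hp
      rcases List.mem_cons.1 hp with rfl | hp
      · exact h1.1
      · exact h5 p hp
    · intro s hs
      rcases List.mem_cons.1 hs with rfl | hs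
      · exact hu
      · exact h6 s hs

/-! ### the wall -/

/-- the closed vertical polygon, upwards, closed in the west -/
def wall (z0 e : ℂ) (κ b0 b1 : ℝ) (up : List ℂ) (y : ℂ) (dn : List ℂ) (nd : dn ≠ []) : List ℂ :=
  (up ++ y :: dn).reverse ++ [crn z0 e κ b1, crn z0 e κ b0, dn.getLast nd]

variable {up dn : List ℂ} {y : ℂ}

theorem rev_head (h : Neck S z0 e a0 a1 b0 b1 m V β up y dn) :
    (up ++ y :: dn).reverse.head? = some (dn.getLast h.nd) := by
  rw [List.head?_reverse, List.getLast?_append_cons, List.getLast?_cons]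
  rw [List.getLast?_eq_some_getLast h.nd]; rfl

theorem rev_last (h : Neck S z0 e a0 a1 b0 b1 m V β up y dn) :
    (up ++ y :: dn).reverse.getLast? = some (up.head h.nu) := by
  rw [List.getLast?_reverse, List.head?_append_of_ne_nil _ h.nu, List.head?_eq_some_head h.nu]

/-- the polygon as a closed chain -/
theorem wall_Wl (h : Neck S z0 e a0 a1 b0 b1 m V β up y dn) (he : e ≠ 0) :
    Wl S (Kr z0 e κ b0 b1) (wall z0 e κ b0 b1 up y dn h.nd) := by
  constructor
  · unfold wall
    rw [List.head?_append_of_ne_nil _ (by simp), rev_head h,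
      List.getLast?_append_of_ne_nil _ (by simp)]
    rfl
  · intro p hp
    unfold wall at hp
    set r := (up ++ y :: dn).reverse with hr
    have hrn : r ≠ [] := by rw [hr]; simp
    have hlast : r.getLast hrn = up.head h.nu := by
      have := rev_last h
      rw [← hr, List.getLast?_eq_some_getLast hrn] at this
      exact Option.some.inj this
    have e1 : r = r.dropLast ++ [up.head h.nu] := by
      rw [← hlast, List.dropLast_append_getLast hrn]
    have e2 : prs (r ++ [crn z0 e κ b1, crn z0 e κ b0, dn.getLast h.nd]) = prs r ++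
        [(up.head h.nu, crn z0 e κ b1), (crn z0 e κ b1, crn z0 e κ b0),
          (crn z0 e κ b0, dn.getLast h.nd)] := by
      rw [e1, List.append_assoc, List.singleton_append, prs_append]
      simp
    rw [e2, List.mem_append] at hp
    rcases hp with hp | hp
    · left
      rw [hr, prs_reverse, List.mem_reverse, List.mem_map] at hp
      obtain ⟨q, hq, rfl⟩ := hp
      exact (h.adj q hq).symm
    · right
      intro z hz hseg
      obtain ⟨z1, z2, z3⟩ := hz
      simp only [List.mem_cons, List.not_mem_nil, or_false] at hp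
      rcases hp with rfl | rfl | rfl
      · obtain ⟨s, t, hs, ht, hst, rfl⟩ := hseg
        rw [Y_comb z0 e hst] at z3
        simp only [crn_Y he] at z3
        have := h.top
        have hs' : s = 1 - t := by linarith
        subst hs'
        nlinarith
      · obtain ⟨s, t, hs, ht, hst, rfl⟩ := hseg
        rw [X_comb z0 e hst] at z1
        simp only [crn_X he] at z1
        have hs' : s = 1 - t := by linarith
        subst hs'
        linarith
      · obtain ⟨s, t, hs, ht, hst, rfl⟩ := hseg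
        rw [Y_comb z0 e hst] at z2
        simp only [crn_Y he] at z2
        have := h.bot
        have hs' : s = 1 - t := by linarith
        subst hs'
        nlinarith

theorem wall_mem {nd : dn ≠ []} {s : ℂ} (hs : s ∈ wall z0 e κ b0 b1 up y dn nd) :
    s ∈ up ++ y :: dn ∨ s = crn z0 e κ b1 ∨ s = crn z0 e κ b0 := by
  unfold wall at hs
  rw [List.mem_append, List.mem_reverse] at hs
  rcases hs with hs | hs
  · exact Or.inl hs
  · simp only [List.mem_cons, List.not_mem_nil, or_false] at hs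
    rcases hs with rfl | rfl | rfl
    · exact Or.inr (Or.inl rfl)
    · exact Or.inr (Or.inr rfl)
    · left
      have := List.getLast_mem nd
      simp [this]

/-- no index in the east -/
theorem wall_east (h : Neck S z0 e a0 a1 b0 b1 m V β up y dn) (he : e ≠ 0) (hκ : κ < a0) {z : ℂ}
    (hz : a1 ≤ X z0 e z) : asum z (wall z0 e κ b0 b1 up y dn h.nd) = 0 := by
  have h01 : a0 < a1 := by
    have := (h.win y (by simp)).1
    linarith
  refine asum_half_closed (u := -e) (wall_Wl (κ := κ) h he).cl fun a ha => ?_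
  have e1 : ((a - z) / (-e)).re = X z0 e z - X z0 e a := by
    unfold X
    have : (a - z) / (-e) = (z - z0) / e - (a - z0) / e := by
      rw [div_neg]; ring
    rw [this, Complex.sub_re]
  rw [e1]
  rcases wall_mem ha with hs | rfl | rfl
  · have := (h.win a hs).1
    linarith
  · rw [crn_X he]; linarith
  · rw [crn_X he]; linarith

/-- index one in the west -/
theorem wall_west (h : Neck S z0 e a0 a1 b0 b1 m V β up y dn) (he : e ≠ 0) {z : ℂ}
    (hz : z ∈ Kr z0 e κ b0 b1) (hz0 : X z0 e z ≤ a0) :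
    asum z (wall z0 e κ b0 b1 up y dn h.nd) = 2 * Real.pi := by
  obtain ⟨z1, z2, z3⟩ := hz
  set r := (up ++ y :: dn).reverse with hr
  have hrn : r ≠ [] := by rw [hr]; simp
  have hrl := rev_last h
  have hrh := rev_head h
  rw [← hr] at hrl hrh
  have hlast : r.getLast hrn = up.head h.nu := by
    rw [List.getLast?_eq_some_getLast hrn] at hrl
    exact Option.some.inj hrl
  have e1 : r = r.dropLast ++ [up.head h.nu] := by
    rw [← hlast, List.dropLast_append_getLast hrn]
  have key := glue_e (z0 := z0) (z := z) he (s1 := up.head h.nu) (s2 := crn z0 e κ b1)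
    (s3 := crn z0 e κ b0) (s4 := dn.getLast h.nd) (mT := [up.head h.nu, crn z0 e κ b1])
    (mL := [crn z0 e κ b1, crn z0 e κ b0]) (mB := [crn z0 e κ b0, dn.getLast h.nd]) (mR := r)
    rfl rfl rfl rfl rfl rfl hrh hrl
    (by
      intro s hs
      simp only [List.mem_cons, List.not_mem_nil, or_false] at hs
      rcases hs with rfl | rfl
      · have := h.top; linarith
      · rw [crn_Y he]; exact z3)
    (by
      intro s hs
      simp only [List.mem_cons, List.not_mem_nil, or_false] at hs
      rcases hs with rfl | rfl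
      · rw [crn_X he]; exact z1
      · rw [crn_X he]; exact z1)
    (by
      intro s hs
      simp only [List.mem_cons, List.not_mem_nil, or_false] at hs
      rcases hs with rfl | rfl
      · rw [crn_Y he]; exact z2
      · have := h.bot; linarith)
    (by
      intro s hs
      rw [hr, List.mem_reverse] at hs
      have := (h.win s hs).1
      linarith)
  unfold wall
  rw [← hr]
  have e2 : asum z (r ++ [crn z0 e κ b1, crn z0 e κ b0, dn.getLast h.nd]) =
      asum z r + (asum z [up.head h.nu, crn z0 e κ b1] + asum z [crn z0 e κ b1, crn z0 e κ b0] +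
        asum z [crn z0 e κ b0, dn.getLast h.nd]) := by
    conv_lhs => rw [e1, List.append_assoc, List.singleton_append, asum_append]
    rw [← e1]
    simp only [asum_cons, asum_one]
    ring
  rw [e2]
  linarith

/-- colours of the sites of the wall: in the strip only `y` has its colour -/
theorem wall_col (h : Neck S z0 e a0 a1 b0 b1 m V β up y dn) (he : e ≠ 0)
    (hc : ∀ s ∈ V, (χ s = χ y ↔ s ∈ β)) {s : ℂ} (hs : s ∈ wall z0 e κ b0 b1 up y dn h.nd)
    (hK : s ∈ Kr z0 e κ b0 b1) (hs' : χ s = χ y) : s = y := by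
  obtain ⟨z1, z2, z3⟩ := hK
  rcases wall_mem hs with hs | rfl | rfl
  · rw [List.mem_append, List.mem_cons] at hs
    rcases hs with hs | hs | hs
    · exact absurd ((hc s (h.cu s hs).1).1 hs') (h.cu s hs).2
    · exact hs
    · exact absurd ((hc s (h.cd s hs z2).1).1 hs') (h.cd s hs z2).2
  · rw [crn_Y he] at z3; exact absurd z3 (lt_irrefl _)
  · rw [crn_X he] at z1; exact absurd z1 (lt_irrefl _)

/-- the form of the wall around `y` -/
theorem wall_form (h : Neck S z0 e a0 a1 b0 b1 m V β up y dn) (he : e ≠ 0)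
    (hc : ∀ s ∈ V, (χ s = χ y ↔ s ∈ β)) :
    ∃ l1 l2, wall z0 e κ b0 b1 up y dn h.nd = l1 ++ dn.head h.nd :: y :: up.getLast h.nu :: l2 ∧
      y ∉ l1 ++ [dn.head h.nd] ∧ y ∉ up.getLast h.nu :: l2 := by
  have hup : y ∉ up := fun hm => (h.cu y hm).2 ((hc y (h.cu y hm).1).1 rfl)
  have hdn : y ∉ dn := fun hm => (h.cd y hm h.yb.1).2 ((hc y (h.cd y hm h.yb.1).1).1 rfl)
  have hC : y ≠ crn z0 e κ b1 := by
    intro hh
    have := h.yb.2
    rw [hh, crn_Y he] at this
    exact lt_irrefl _ this
  have hB : y ≠ crn z0 e κ b0 := by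
    intro hh
    have := h.yb.1
    rw [hh, crn_Y he] at this
    exact lt_irrefl _ this
  have hbt : y ≠ dn.getLast h.nd := fun hh => hdn (by
    have := List.getLast_mem h.nd
    rwa [← hh] at this)
  have e1 : up = up.dropLast ++ [up.getLast h.nu] := (List.dropLast_append_getLast h.nu).symm
  have e2 : dn = dn.head h.nd :: dn.tail := (List.cons_head_tail h.nd).symm
  refine ⟨dn.tail.reverse, up.dropLast.reverse ++ [crn z0 e κ b1, crn z0 e κ b0,
    dn.getLast h.nd], ?_, ?_, ?_⟩
  · unfold wall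
    have e4 : ∀ (a b : ℂ) (u d : List ℂ), up = u ++ [a] → dn = b :: d →
        (up ++ y :: dn).reverse = d.reverse ++ b :: y :: a :: u.reverse := by
      rintro a b u d rfl rfl
      simp
    rw [e4 _ _ _ _ e1 e2]
    simp
  · intro hm
    apply hdn
    simp only [List.mem_append, List.mem_reverse, List.mem_singleton] at hm
    rcases hm with hm | hm
    · exact List.mem_of_mem_tail hm
    · rw [hm]; exact List.head_mem h.nd
  · intro hm
    simp only [List.mem_cons, List.mem_append, List.mem_reverse, List.not_mem_nil, or_false] at hm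
    rcases hm with hm | hm | hm | hm | hm
    · exact hup (by rw [hm]; exact List.getLast_mem h.nu)
    · exact hup (List.dropLast_subset _ hm)
    · exact hC hm
    · exact hB hm
    · exact hbt hm

/-- one step of an arm and the index at its end -/
theorem arm_end (hS : GP (S : Set ℂ)) (h : Neck S z0 e a0 a1 b0 b1 m V β up y dn) (he : e ≠ 0)
    (hc : ∀ s ∈ V, (χ s = χ y ↔ s ∈ β)) (hy : ∀ a, ¬ hullE S a y) {P : List ℂ} (hP : P ≠ [])
    (hd : ∀ p ∈ prs P, DE S p.1 p.2) (h0 : P.head hP = y) (h1 : P.getLast hP ≠ y)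
    (hcol : ∀ s ∈ P, χ s = χ y) (hK : ∀ s ∈ P, s ∈ Kr z0 e κ b0 b1) :
    ∃ p1 b, (y, p1, b) ∈ delT S ∧ p1 ∈ Kr z0 e κ b0 b1 ∧
      p1 ∉ wall z0 e κ b0 b1 up y dn h.nd ∧
      asum p1 (wall z0 e κ b0 b1 up y dn h.nd) =
        asum (P.getLast hP) (wall z0 e κ b0 b1 up y dn h.nd) := by
  obtain ⟨A, q, hAq, hyq, hq⟩ := last_part hP (h0 ▸ List.head_mem hP) h1
  have hsub : ∀ s ∈ q, s ∈ P := fun s hs => by rw [hAq]; simp [hs]
  have hprs : prs P = prs (A ++ [y]) ++ prs (y :: q) := by rw [hAq, prs_append]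
  obtain ⟨p1, q', rfl⟩ := List.exists_cons_of_ne_nil hq
  have hoff : ∀ s ∈ p1 :: q', s ∉ wall z0 e κ b0 b1 up y dn h.nd := by
    intro s hs hw
    have := wall_col h he hc hw (hK s (hsub s hs)) (hcol s (hsub s hs))
    exact hyq (this ▸ hs)
  have hD : DE S y p1 := hd (y, p1) (by rw [hprs, prs_cons]; simp)
  have htri : ∃ b, (y, p1, b) ∈ delT S := by
    rcases hD with hD | ⟨b, hD⟩
    · exact hD
    · by_contra hn
      push Not at hn
      exact hy p1 ⟨⟨b, hD⟩, hn⟩
  obtain ⟨b, hb⟩ := htri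
  refine ⟨p1, b, hb, hK p1 (hsub p1 (by simp)), hoff p1 (by simp), ?_⟩
  have hw := (wall_Wl (κ := κ) h he).walk hS (Kr_convex _ _ _ _ _) (q := p1 :: q') (by simp)
    (fun p hp => hd p (by
      rw [hprs, prs_cons]
      exact List.mem_append_right _ (List.mem_cons_of_mem _ hp)))
    (fun s hs => hK s (hsub s hs)) hoff
  rw [List.head_cons] at hw
  rw [hw]
  congr 1
  subst hAq
  simp

/-- **the face to the left of `y → x` is in the west** -/
theorem side (hS : GP (S : Set ℂ)) (h : Neck S z0 e a0 a1 b0 b1 m V β up y dn) (he : e ≠ 0)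
    (hκ : κ < a0) (hc : ∀ s ∈ V, (χ s = χ y ↔ s ∈ β)) (hy : ∀ a, ¬ hullE S a y)
    {P : List ℂ} (hP : P ≠ []) (hd : ∀ p ∈ prs P, DE S p.1 p.2) (h0 : P.head hP = y)
    (h1 : X z0 e (P.getLast hP) ≤ a0) (hcol : ∀ s ∈ P, χ s = χ y)
    (hK : ∀ s ∈ P, s ∈ Kr z0 e κ b0 b1)
    {Q : List ℂ} (hQ : Q ≠ []) (hd' : ∀ p ∈ prs Q, DE S p.1 p.2) (h0' : Q.head hQ = y)
    (h1' : a1 ≤ X z0 e (Q.getLast hQ)) (hcol' : ∀ s ∈ Q, χ s = χ y)
    (hK' : ∀ s ∈ Q, s ∈ Kr z0 e κ b0 b1) {c z : ℂ} (hx : (y, up.getLast h.nu, c) ∈ delT S)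
    (hz : InO z y (up.getLast h.nu) c) (kz : z ∈ Kr z0 e κ b0 b1) :
    asum z (wall z0 e κ b0 b1 up y dn h.nd) = 2 * Real.pi := by
  have hyw := (h.win y (by simp)).1
  have ky : y ∈ Kr z0 e κ b0 b1 := ⟨by linarith, h.yb⟩
  have hW := wall_Wl (κ := κ) h he
  obtain ⟨l1, l2, hf, hf1, hf2⟩ := wall_form (χ := χ) (κ := κ) h he hc
  obtain ⟨o1, o2, o3⟩ := once hf1 hf2
  rw [← hf] at o1 o2 o3
  have key : ∀ {a b p : ℂ}, (y, a, b) ∈ delT S → a ∈ Kr z0 e κ b0 b1 →
      a ∉ wall z0 e κ b0 b1 up y dn h.nd →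
      asum a (wall z0 e κ b0 b1 up y dn h.nd) = asum z (wall z0 e κ b0 b1 up y dn h.nd) ∨
      asum a (wall z0 e κ b0 b1 up y dn h.nd) =
        asum z (wall z0 e κ b0 b1 up y dn h.nd) - 2 * Real.pi := by
    intro a b p ha ka hna
    obtain ⟨t, ht0, ht1, htK, -⟩ := small_t (Kr_open z0 e κ b0 b1) ky S
    have m1 := mem_delT.1 ha
    have kz1 : pz y t a b ∈ Kr z0 e κ b0 b1 := htK a m1.2.1 b m1.2.2.1
    have i1 := pz_in ha ht0 ht1
    have e1 : asum (pz y t a b) (wall z0 e κ b0 b1 up y dn h.nd) =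
        asum a (wall z0 e κ b0 b1 up y dn h.nd) := by
      have i2 : InO (pz y t a b) a b y := ⟨i1.2.1, i1.2.2, i1.1⟩
      exact hW.vtx hS (Kr_convex _ _ _ _ _) (rot_mem ha) i2 kz1 ka hna
    rw [← e1]
    exact hW.fan hS (Kr_convex _ _ _ _ _) (Kr_open _ _ _ _ _) ky hy hx o1 o2 o3 ha hz kz i1 kz1
  obtain ⟨p1, b, t1, k1, n1, e1⟩ := arm_end (κ := κ) hS h he hc hy hP hd h0
    (fun hh => by rw [hh] at h1; linarith) hcol hK
  obtain ⟨p2, b', t2, k2, n2, e2⟩ := arm_end (κ := κ) hS h he hc hy hQ hd' h0'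
    (fun hh => by rw [hh] at h1'; linarith) hcol' hK'
  rw [wall_west h he (hK _ (List.getLast_mem hP)) h1] at e1
  rw [wall_east h he hκ h1'] at e2
  have r1 := key (p := p1) t1 k1 n1
  have r2 := key (p := p2) t2 k2 n2
  rw [e1] at r1
  rw [e2] at r2
  have hpi := Real.pi_pos
  rcases r1 with r1 | r1
  · exact r1.symm
  · rcases r2 with r2 | r2
    · linarith
    · linarith

/-! ### the walk -/

theorem zm {a b c : ZMod 2} (h : a + b = 1) (h' : b + c = 1) : c = a := by
  revert a b c; decide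

theorem zm' {a b c : ZMod 2} (h : a + b = 1) (h' : b + c ≠ 1) : c = b := by
  revert a b c; decide

/-- the colours of the two sites of the state do not change -/
theorem nx_col {w : ℂ × ℂ} (h : χ w.1 + χ w.2 = 1) :
    χ (nx S χ w).1 = χ w.1 ∧ χ (nx S χ w).2 = χ w.2 := by
  unfold nx
  split_ifs with h1
  · exact ⟨zm h h1, rfl⟩
  · exact ⟨rfl, zm' h h1⟩

theorem it_col {w : ℂ × ℂ} (h : χ w.1 + χ w.2 = 1) (n : ℕ) :
    χ ((nx S χ)^[n] w).1 = χ w.1 ∧ χ ((nx S χ)^[n] w).2 = χ w.2 := by
  induction n with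
  | zero => exact ⟨rfl, rfl⟩
  | succ n ih =>
    rw [Function.iterate_succ_apply']
    have h1 := nx_col (S := S) (χ := χ) (w := (nx S χ)^[n] w) (by rw [ih.1, ih.2]; exact h)
    exact ⟨h1.1.trans ih.1, h1.2.trans ih.2⟩

/-- the third site of the face of `w` is a site of the next state -/
theorem th_next {R : Set ℂ} {w : ℂ × ℂ} (h : (nx S χ w).1 ∈ R) (h' : (nx S χ w).2 ∈ R) :
    th S w ∈ R := by
  unfold nx at h h'
  split_ifs at h h'
  · exact h
  · exact h'

/-- the face of `w`, seen from the edge of the next state -/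
theorem back_face {w : ℂ × ℂ} (hw : w ∈ sd S) :
    ∃ d, ((nx S χ w).2, (nx S χ w).1, d) ∈ delT S ∧
      cen ((nx S χ w).2, (nx S χ w).1, d) = cen (w.1, w.2, th S w) := by
  have h := th_spec hw
  unfold nx
  split_ifs
  · refine ⟨w.1, rot_mem h, ?_⟩
    exact cen_rot _ _ _
  · refine ⟨w.2, rot_mem (rot_mem h), ?_⟩
    rw [← cen_rot w.1 w.2 (th S w), ← cen_rot w.2 (th S w) w.1]

theorem cen_K {K : Set ℂ} (hK : Convex ℝ K) {a b c : ℂ} (ha : a ∈ K) (hb : b ∈ K) (hc : c ∈ K) :
    cen (a, b, c) ∈ K := by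
  have h1 : (1 / 2 : ℝ) • a + (1 / 2 : ℝ) • b ∈ K := hK ha hb (by norm_num) (by norm_num) (by norm_num)
  have h2 : (2 / 3 : ℝ) • ((1 / 2 : ℝ) • a + (1 / 2 : ℝ) • b) + (1 / 3 : ℝ) • c ∈ K :=
    hK h1 hc (by norm_num) (by norm_num) (by norm_num)
  have e : cen (a, b, c) = (2 / 3 : ℝ) • ((1 / 2 : ℝ) • a + (1 / 2 : ℝ) • b) + (1 / 3 : ℝ) • c := by
    unfold cen
    simp only [Complex.real_smul]
    push_cast
    ring
  rw [e]; exact h2

/-- **orientation, planar walk** -/
theorem orient_nx (hS : GP (S : Set ℂ)) (h : Neck S z0 e a0 a1 b0 b1 m V β up y dn) (he : e ≠ 0)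
    (hc : ∀ s ∈ V, (χ s = χ y ↔ s ∈ β)) (hy : ¬ OnHull S y) {c0 : ℝ} (hc0 : c0 ≤ a0) {R : Set ℂ}
    (hR : ∀ s ∈ R, c0 < X z0 e s ∧ b0 < Y z0 e s ∧ Y z0 e s < b1) {w w' : ℂ}
    (hW : Lk S {s | χ s = χ y ∧ b0 < Y z0 e s ∧ Y z0 e s < b1} y w) (hwX : X z0 e w ≤ c0)
    (hE : Lk S {s | χ s = χ y ∧ b0 < Y z0 e s ∧ Y z0 e s < b1} y w') (hwX' : a1 ≤ X z0 e w')
    (hx : χ y + χ (up.getLast h.nu) = 1) {q : ℂ × ℂ} (hq : a1 ≤ X z0 e q.1) :
    ¬ FAp S χ R (y, up.getLast h.nu) q := by
  intro hF
  obtain ⟨n, hn1, hn2, hn3⟩ := fap_iff.1 hF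
  set x := up.getLast h.nu with hxdef
  have hyh : ∀ a, ¬ hullE S a y := fun a ha => hy ⟨a, ha⟩
  have hyw := (h.win y (by simp)).1
  obtain ⟨P, hP, P0, P1, dP, cP⟩ := lk_to_list hW
  obtain ⟨Q, hQ, Q0, Q1, dQ, cQ⟩ := lk_to_list hE
  obtain ⟨κ, hκ0, hκ⟩ : ∃ κ : ℝ, κ < c0 ∧ ∀ s ∈ P ++ Q, κ < X z0 e s := by
    obtain ⟨M, hM⟩ := ((P ++ Q).toFinset.image fun s => -X z0 e s).exists_le
    refine ⟨min (c0 - 1) (-M - 1), by linarith [min_le_left (c0 - 1) (-M - 1)], fun s hs => ?_⟩
    have := hM (-X z0 e s) (Finset.mem_image_of_mem _ (List.mem_toFinset.2 hs))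
    linarith [min_le_right (c0 - 1) (-M - 1)]
  set K := Kr z0 e κ b0 b1 with hKdef
  have hKc : Convex ℝ K := Kr_convex _ _ _ _ _
  set L := wall z0 e κ b0 b1 up y dn h.nd with hL
  have hWl : Wl S K L := wall_Wl h he
  have hRK : ∀ s ∈ R, s ∈ K := fun s hs => ⟨by linarith [(hR s hs).1], (hR s hs).2⟩
  obtain ⟨l1, l2, hf, hf1, hf2⟩ := wall_form (χ := χ) (κ := κ) h he hc
  obtain ⟨o1, o2, -⟩ := once hf1 hf2
  rw [← hf, ← hL] at o1 o2
  set d1 := dn.head h.nd with hd1
  -- states
  set st : ℕ → ℂ × ℂ := fun i => (nx S χ)^[i] (y, x) with hst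
  have st0 : st 0 = (y, x) := rfl
  have sts : ∀ i, st (i + 1) = nx S χ (st i) := fun i => by
    simp only [hst]; rw [Function.iterate_succ_apply']
  have stc : ∀ i, χ (st i).1 = χ y ∧ χ (st i).2 = χ x := fun i => it_col (w := (y, x)) hx i
  have hxy : χ x ≠ χ y := by
    intro hh
    rw [hh] at hx
    revert hx
    generalize χ y = a
    revert a; decide
  have stR : ∀ i ≤ n, (st i).1 ∈ R ∧ (st i).2 ∈ R := fun i hi => (hn3 i hi).2
  have stD : ∀ i ≤ n, st i ∈ sd S := fun i hi => (hn3 i hi).1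
  have hnpos : 0 < n := by
    rcases Nat.eq_zero_or_pos n with h0 | h0
    · exfalso
      rw [h0] at hn1
      have : q = (y, x) := hn1.symm
      rw [this] at hq
      have := hyw.2
      simp only at hq
      linarith
    · exact h0
  have thR : ∀ i < n, th S (st i) ∈ R := fun i hi => by
    have := stR (i + 1) (by omega)
    rw [sts] at this
    exact th_next this.1 this.2
  set I : ℕ → ℝ := fun i => asum (cen ((st i).1, (st i).2, th S (st i))) L with hI
  have cK : ∀ i < n, cen ((st i).1, (st i).2, th S (st i)) ∈ K := fun i hi =>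
    cen_K hKc (hRK _ (stR i hi.le).1) (hRK _ (stR i hi.le).2) (hRK _ (thR i hi))
  have tri : ∀ i ≤ n, ((st i).1, (st i).2, th S (st i)) ∈ delT S := fun i hi => th_spec (stD i hi)
  -- the index at the start
  have I0 : I 0 = 2 * Real.pi := by
    have t0 := tri 0 (Nat.zero_le _)
    have k0 := cK 0 hnpos
    exact side (χ := χ) hS h he (by linarith) hc hyh hP dP P0 (by rw [P1]; linarith)
      (fun s hs => (cP s hs).1) (fun s hs => ⟨hκ s (by simp [hs]), (cP s hs).2⟩) hQ dQ Q0
      (by rw [Q1]; exact hwX') (fun s hs => (cQ s hs).1)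
      (fun s hs => ⟨hκ s (by simp [hs]), (cQ s hs).2⟩) t0 (cen_in t0) k0
  -- a vertex of a visited face
  have vt : ∀ i < n, ∀ a ∈ R, (a = (st i).1 ∨ a = (st i).2 ∨ a = th S (st i)) → a ∉ L →
      I i = asum a L := by
    intro i hi a ha hv hna
    have t0 := tri i hi.le
    have k0 := cK i hi
    rcases hv with rfl | rfl | rfl
    · exact hWl.vtx hS hKc t0 (cen_in t0) k0 (hRK _ ha) hna
    · have c0 := cen_in t0
      exact hWl.vtx hS hKc (rot_mem t0) ⟨c0.2.1, c0.2.2, c0.1⟩ k0 (hRK _ ha) hna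
    · have c0 := cen_in t0
      exact hWl.vtx hS hKc (rot_mem (rot_mem t0)) ⟨c0.2.2, c0.1, c0.2.1⟩ k0 (hRK _ ha) hna
  -- one step
  have step : ∀ i, i + 1 < n → st (i + 1) ≠ (y, d1) → I (i + 1) = I i := by
    intro i hi hne
    obtain ⟨d, hd, hcen⟩ := back_face (χ := χ) (stD i (by omega))
    rw [← sts] at hd hcen
    have t1 := tri (i + 1) hi.le
    set a := (st (i + 1)).1 with ha
    set b := (st (i + 1)).2 with hb
    have hmid : ((1 / 2 : ℝ) : ℂ) * a + ((1 / 2 : ℝ) : ℂ) * b ∈ K := by
      have := hKc (hRK _ (stR (i + 1) hi.le).1) (hRK _ (stR (i + 1) hi.le).2)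
        (a := (1 / 2 : ℝ)) (b := (1 / 2 : ℝ)) (by norm_num) (by norm_num) (by norm_num)
      simpa only [Complex.real_smul] using this
    have j := hWl.jump hS hKc t1 hd (cen_in t1) (cen_in hd) (cK (i + 1) hi)
      (by rw [hcen]; exact cK i (by omega)) hmid (s := 1 / 2) (t := 1 / 2) (by norm_num)
      (by norm_num) (by norm_num) rfl
    rw [hcen] at j
    have hay : a ∈ L → a = y := fun hm =>
      wall_col h he hc hm (hRK _ (stR (i + 1) hi.le).1) (stc (i + 1)).1
    have n1 : (prs L).count (a, b) = 0 := by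
      rw [List.count_eq_zero]
      intro hm
      have e1 := hay (mem_of_prs hm).1
      rw [e1] at hm
      have e2 := o1 b hm
      have e3 : st (i + 1) = (y, x) := Prod.ext e1 e2
      -- first arrival
      have e4 : (nx S χ)^[n - (i + 1)] (y, x) = q := by
        rw [← e3]
        show (nx S χ)^[n - (i + 1)] ((nx S χ)^[i + 1] (y, x)) = q
        rw [← Function.iterate_add_apply, show n - (i + 1) + (i + 1) = n by omega]
        exact hn1
      exact hn2 (n - (i + 1)) (by omega) e4
    have n2 : (prs L).count (b, a) = 0 := by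
      rw [List.count_eq_zero]
      intro hm
      have e1 := hay (mem_of_prs hm).2
      rw [e1] at hm
      exact hne (Prod.ext e1 (o2 b hm))
    rw [n1, n2] at j
    simp only [hI]
    simp only [Nat.cast_zero, sub_zero, mul_zero] at j
    linarith
  by_cases hj : ∃ j, 0 < j ∧ j < n ∧ st j = (y, d1)
  · -- second passage of the wall
    set j := Nat.find hj with hjdef
    obtain ⟨j1, j2, j3⟩ := Nat.find_spec hj
    rw [← hjdef] at j1 j2 j3
    have jmin : ∀ i, 0 < i → i < j → st i ≠ (y, d1) := fun i hi hij he' =>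
      Nat.find_min hj hij ⟨hi, by omega, he'⟩
    have Ij : ∀ i, i < j → I i = 2 * Real.pi := by
      intro i
      induction i with
      | zero => exact fun _ => I0
      | succ i ih =>
        intro hij
        rw [step i (by omega) (jmin (i + 1) (by omega) hij)]
        exact ih (by omega)
    have hwin : ∀ s, s ∈ L → s ∈ K → X z0 e s < a1 := by
      intro s hs hk
      rcases wall_mem hs with hs | rfl | rfl
      · exact (h.win s hs).1.2
      · have := hk.2.2
        rw [crn_Y he] at this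
        exact absurd this (lt_irrefl _)
      · have := hk.1
        rw [crn_X he] at this
        exact absurd this (lt_irrefl _)
    have hva : ∀ i ≤ j, X z0 e (st i).2 < a1 := by
      intro i hi
      rcases Nat.lt_or_ge i j with hij | hij
      · by_contra hcon
        push Not at hcon
        have hR2 := (stR i (by omega)).2
        have hn : (st i).2 ∉ L := fun hm => by
          have := hwin _ hm (hRK _ hR2)
          linarith
        have e1 := vt i (by omega) _ hR2 (Or.inr (Or.inl rfl)) hn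
        rw [Ij i hij, wall_east h he (by linarith) hcon] at e1
        have := Real.pi_pos
        linarith
      · have : i = j := by omega
        rw [this, j3]
        exact (h.win d1 (by
          have := List.head_mem h.nd
          simp [hd1, this])).1.2
    set T : Set ℂ := {s | (χ s ≠ χ y ∨ Y z0 e s ≤ b0) ∧ c0 < X z0 e s ∧ X z0 e s < a1} with hT
    have vT : ∀ i ≤ j, (st i).2 ∈ T := fun i hi =>
      ⟨Or.inl (by rw [(stc i).2]; exact hxy), (hR _ (stR i (by omega)).2).1, hva i hi⟩
    have right : ∀ i ≤ j, Lk S T x (st i).2 := by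
      intro i
      induction i with
      | zero => exact fun _ => Lk.refl (vT 0 (Nat.zero_le _))
      | succ i ih =>
        intro hi
        refine (ih (by omega)).trans ⟨⟨vT i (by omega), vT (i + 1) hi⟩, ?_⟩
        have hs := sts i
        unfold nx at hs
        split_ifs at hs
        · have : (st (i + 1)).2 = (st i).2 := by rw [hs]
          rw [this]
        · have e1 : (st (i + 1)).2 = th S (st i) := by rw [hs]
          refine .single ⟨?_, vT i (by omega), vT (i + 1) hi⟩
          rw [e1]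
          exact Or.inl ⟨_, rot_mem (tri i (by omega))⟩
    have hxd : Lk S T x d1 := by
      have := right j le_rfl
      rwa [j3] at this
    have hdn : Lk S T (dn.getLast h.nd) d1 := by
      refine lk_list (l := dn) (fun p hp => h.adj p ?_) (fun s hs => ?_) (List.getLast_mem _)
        (List.head_mem _)
      · rw [prs_append]
        refine List.mem_append_right _ ?_
        obtain ⟨b, d, hbd⟩ := List.exists_cons_of_ne_nil h.nd
        rw [hbd] at hp ⊢
        rw [prs_cons]
        exact List.mem_cons_of_mem _ hp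
      · have hw := (h.win s (by simp [hs])).1
        refine ⟨?_, by linarith, hw.2⟩
        by_cases hs' : b0 < Y z0 e s
        · left
          intro hcol
          exact (h.cd s hs hs').2 ((hc s (h.cd s hs hs').1).1 hcol)
        · right
          linarith
    have hup : Lk S T x (up.head h.nu) := by
      refine lk_list (l := up) (fun p hp => h.adj p ?_) (fun s hs => ?_) (List.getLast_mem _)
        (List.head_mem _)
      · obtain ⟨u, a, hua⟩ : ∃ u a, up = u ++ [a] :=
          ⟨up.dropLast, up.getLast h.nu, (List.dropLast_append_getLast h.nu).symm⟩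
        rw [hua] at hp ⊢
        rw [List.append_assoc, List.singleton_append, prs_append]
        exact List.mem_append_left _ hp
      · have hw := (h.win s (by simp [hs])).1
        refine ⟨Or.inl fun hcol => ?_, by linarith, hw.2⟩
        exact (h.cu s hs).2 ((hc s (h.cu s hs).1).1 hcol)
    obtain ⟨Qv, hQv, Qv0, Qv1, dQv, cQv⟩ := lk_to_list (hdn.trans (hxd.symm.trans hup))
    obtain ⟨Ph, hPh, Ph0, Ph1, dPh, cPh⟩ := lk_to_list (hW.symm.trans hE)
    obtain ⟨s, hs1, hs2⟩ := cross_e (x0 := c0) (x1 := a1) (y0 := b0) (y1 := b1) hS he hPh hQv dPh dQv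
      (fun s hs => (cPh s hs).2) (fun s hs => (cQv s hs).2) (by rw [Ph0]; exact hwX)
      (by rw [Ph1]; exact hwX') (by rw [Qv0]; exact h.bot) (by rw [Qv1]; exact h.top)
    have u1 := cPh s hs1
    have u2 := cQv s hs2
    rcases u2.1 with u3 | u3
    · exact u3 u1.1
    · linarith [u1.2.1]
  · push Not at hj
    have Ij : ∀ i, i < n → I i = 2 * Real.pi := by
      intro i
      induction i with
      | zero => exact fun _ => I0
      | succ i ih =>
        intro hin
        rw [step i hin (hj (i + 1) (by omega) hin)]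
        exact ih (by omega)
    obtain ⟨k, rfl⟩ : ∃ k, n = k + 1 := ⟨n - 1, by omega⟩
    have hqR := (stR (k + 1) le_rfl).1
    have hqe : (st (k + 1)).1 = q.1 := by
      have : st (k + 1) = q := hn1
      rw [this]
    have hqL : (st (k + 1)).1 ∉ L := fun hm => by
      have := wall_col h he hc hm (hRK _ hqR) (stc _).1
      rw [← hqe, this] at hq
      linarith [hyw.2]
    have hv : (st (k + 1)).1 = (st k).1 ∨ (st (k + 1)).1 = (st k).2 ∨
        (st (k + 1)).1 = th S (st k) := by
      rw [sts]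
      unfold nx
      split_ifs
      · right; right; rfl
      · left; rfl
    have e1 := vt k (by omega) _ hqR hv hqL
    rw [Ij k (by omega), wall_east h he (by linarith) (by rw [hqe]; exact hq)] at e1
    have := Real.pi_pos
    linarith

/-- **orientation**, 117's form -/
theorem orient (hS : GP (S : Set ℂ)) (hχ : HullC S χ) (h : Neck S z0 e a0 a1 b0 b1 m V β up y dn)
    (he : e ≠ 0) (hc : ∀ s ∈ V, (χ s = χ y ↔ s ∈ β)) (hy : ¬ OnHull S y) {c0 : ℝ} (hc0 : c0 ≤ a0)
    {R : Set ℂ} (hR : ∀ s ∈ R, c0 < X z0 e s ∧ b0 < Y z0 e s ∧ Y z0 e s < b1) {w w' : ℂ}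
    (hW : Lk S {s | χ s = χ y ∧ b0 < Y z0 e s ∧ Y z0 e s < b1} y w) (hwX : X z0 e w ≤ c0)
    (hE : Lk S {s | χ s = χ y ∧ b0 < Y z0 e s ∧ Y z0 e s < b1} y w') (hwX' : a1 ≤ X z0 e w')
    (hx : χ y + χ (up.getLast h.nu) = 1) {p q : D0 S} (hp : p.1 = (y, up.getLast h.nu))
    (hq : a1 ≤ X z0 e q.1.1) : ¬ FA (cm0 hS) (xc hS hχ) (RingDx117.RD S R) p q := by
  intro hF
  have hp1 : xc hS hχ p = 1 := by
    show χ p.1.1 + χ p.1.2 = 1
    rw [hp]; exact hx
  have := (fa_iff hS hχ hp1).1 hF
  rw [hp] at this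
  exact orient_nx hS h he hc hy hc0 hR hW hwX hE hwX' hx hq this

end Crest.Agent.R143.Orientx881
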