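import Crest.Agent.R143.RelM_126
import Crest.Agent.R143.RingWD_445

/-!
# Row 143 (S0194), block H, box [E2] / P2: the weights off a window on the two nets (helper445)

* `gI P Hs b I₁ J₁` : the weight of one net off the gates `I₁` and the tiles `J₁`, local on `rI`;
  `Cl I₁ J₁` : a gate of `I₁` is only seen by tiles of `J₁`; `ex_gI` : its mean
* `gOff`, `rOff` : the product for the two nets; `wt_le` : the weight of the ring is at most `gOff`;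
  **`ex_gOff`** : the mean of `gOff` is at most a constant times the mean of the weight
* **`winM`** : 126's `WinM`; `winM'` : the same for a smaller weight
* **`p2_maj`** : 126's `majE2` with all numbers: `∫ R ≤ CP √(2/n) E g`
-/

set_option autoImplicit false

noncomputable section

open scoped Classical

namespace Crest.Agent.R143.P2Wx445

open MeasureTheory Set Filter Topology
open Crest.ProbabilityR.Voronoi
open Crest.Agent.R143.PP0x831 Crest.Agent.R143.Poisx304 Crest.Agent.R143.Janx304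
open Crest.Agent.R143.IndLocx279 Crest.Agent.R143.PWx978 Crest.Agent.R143.Tplx978
open Crest.Agent.R143.TileRx228 Crest.Agent.R143.PthFx765 Crest.Agent.R143.CorNx765
open Crest.Agent.R143.TplIx204 Crest.Agent.R143.RngNx765
open Crest.Agent.R143.Dblx609 Crest.Agent.R143.Dbl2x609 Crest.Agent.R143.HGluex136
  Crest.Agent.R143.Asm3x414 Crest.Agent.R143.Asm4x414 Crest.Agent.R143.JColx54
open Crest.Agent.R143.WgtHx445 Crest.Agent.R143.RingWDx445 Crest.Agent.R143.RelMx126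
open Crest.Agent.R143.TilePx176
open Crest.Agent.R143.SumScx302 (sq)
open Crest.Agent.R143.Frame10x395 (OnHull)
open scoped ENNReal

variable {M M' : ℕ} {W W' : ℤ → ℤ × ℤ} {A B h ε : ℝ} {T : Tpl ε (Tn × Bool)}

/-! ### one net -/

section one

variable (P : FPath M W) (Hs : Std T A B h Prod.fst) (b : Bool) [Fintype (ZMod M)]

/-- the gates and tiles off `I₁`, `J₁` -/
def gI (I₁ J₁ : Finset (ZMod M)) : Cf → ℝ≥0∞ :=
  (rpth P Hs b).net.gw (Finset.univ \ I₁) (Finset.univ \ J₁)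

/-- their region -/
def rI (I₁ J₁ : Finset (ZMod M)) : Set ℂ :=
  (rpth P Hs b).net.reg (Finset.univ \ I₁) (Finset.univ \ J₁)

/-- a gate of `I₁` is only seen by tiles of `J₁` -/
def Cl (I₁ J₁ : Finset (ZMod M)) : Prop := ∀ k, k ∉ J₁ → k ∉ I₁ ∧ k + 1 ∉ I₁

variable {I₁ J₁ : Finset (ZMod M)}

theorem Cl.N (H : Cl I₁ J₁) : ∀ k ∈ Finset.univ \ J₁,
    (rpth P Hs b).net.N k ⊆ Finset.univ \ I₁ := by
  intro k hk
  have h1 := H k (Finset.mem_sdiff.1 hk).2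
  have h2 : (rpth P Hs b).net.N k = {k, k + 1} := rfl
  rw [h2]
  intro i hi
  rw [Finset.mem_insert, Finset.mem_singleton] at hi
  refine Finset.mem_sdiff.2 ⟨Finset.mem_univ _, ?_⟩
  rcases hi with rfl | rfl
  · exact h1.1
  · exact h1.2

theorem Cl.src (H : Cl I₁ J₁) : ∀ k ∈ Finset.univ \ J₁,
    (rpth P Hs b).src k ∈ Finset.univ \ I₁ ∧ (rpth P Hs b).tgt k ∈ Finset.univ \ I₁ := by
  intro k hk
  have h1 := H k (Finset.mem_sdiff.1 hk).2
  exact ⟨Finset.mem_sdiff.2 ⟨Finset.mem_univ _, h1.1⟩, Finset.mem_sdiff.2 ⟨Finset.mem_univ _, h1.2⟩⟩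

theorem Cl.local (H : Cl I₁ J₁) : LocalOn (rI P Hs b I₁ J₁) (gI P Hs b I₁ J₁) :=
  Net.gw_local _ (H.N P Hs b)

theorem gI_fm : FM (gI P Hs b I₁ J₁) := Net.gw_meas _ _ _

theorem rI_meas : MeasurableSet (rI P Hs b I₁ J₁) := Net.reg_meas _ _ _

theorem rI_sub : rI P Hs b I₁ J₁ ⊆ Rall A B h W := by
  rw [← rreg P Hs b]
  exact Net.reg_mono _ (Finset.subset_univ _) (Finset.subset_univ _)

/-- **the weight is at most the weight off `I₁`, `J₁`** -/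
theorem le_gI {X : Cf} (hX : X.Finite) : gO P Hs b X ≤ gI P Hs b I₁ J₁ X := by
  refine (gw_off_fin _ (Finset.subset_univ I₁) (Finset.subset_univ J₁) (hNr P Hs b) hX).trans ?_
  calc _ ≤ (rpth P Hs b).net.gw (Finset.univ \ I₁) (Finset.univ \ J₁) X * 1 := by
        gcongr
        exact win_le_one _ _
    _ = _ := mul_one _

theorem Cl.le_one (H : Cl I₁ J₁) {X : Cf} (hX : X.Finite) : gI P Hs b I₁ J₁ X ≤ 1 :=
  (Net.gw_le_fin _ (H.N P Hs b) hX).trans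
    (Finset.prod_le_one' fun k _ => (rpth P Hs b).net.a1 k X)

/-- **the mean off `I₁`, `J₁`** -/
theorem ex_gI (H : Cl I₁ J₁) {cc ca : ℝ≥0∞} (h1 : cc ≤ T.c)
    (h2 : ca ≤ ∫⁻ ω, T.A (cfg ε ω) ∂sampleLaw) :
    cc ^ J₁.card * ca ^ I₁.card * Ex ε (gI P Hs b I₁ J₁) ≤ Ex ε (gO P Hs b) := by
  have e1 := Win.piece_mass (P := rpth P Hs b) (I := Finset.univ) (J := Finset.univ)
    fun _ _ => ⟨Finset.mem_univ _, Finset.mem_univ _⟩
  have e2 := Win.piece_mass (P := rpth P Hs b) (H.src P Hs b)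
  have c1 : (Finset.univ : Finset (ZMod M)).card = (Finset.univ \ J₁).card + J₁.card :=
    (Finset.card_sdiff_add_card_eq_card (Finset.subset_univ _)).symm
  have c2 : (Finset.univ : Finset (ZMod M)).card = (Finset.univ \ I₁).card + I₁.card :=
    (Finset.card_sdiff_add_card_eq_card (Finset.subset_univ _)).symm
  change cc ^ J₁.card * ca ^ I₁.card *
      (∫⁻ ω, (rpth P Hs b).net.gw (Finset.univ \ I₁) (Finset.univ \ J₁) (cfg ε ω) ∂sampleLaw) ≤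
    ∫⁻ ω, (rpth P Hs b).net.gw Finset.univ Finset.univ (cfg ε ω) ∂sampleLaw
  rw [e1, e2]
  calc cc ^ J₁.card * ca ^ I₁.card * (T.c ^ (Finset.univ \ J₁).card *
        (∫⁻ ω, T.A (cfg ε ω) ∂sampleLaw) ^ (Finset.univ \ I₁).card)
      ≤ T.c ^ J₁.card * (∫⁻ ω, T.A (cfg ε ω) ∂sampleLaw) ^ I₁.card *
        (T.c ^ (Finset.univ \ J₁).card *
        (∫⁻ ω, T.A (cfg ε ω) ∂sampleLaw) ^ (Finset.univ \ I₁).card) := by gcongr
    _ = T.c ^ ((Finset.univ \ J₁).card + J₁.card) *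
        (∫⁻ ω, T.A (cfg ε ω) ∂sampleLaw) ^ ((Finset.univ \ I₁).card + I₁.card) := by
        rw [pow_add, pow_add]; ring
    _ = _ := by rw [← c1, ← c2]

end one

/-! ### the two nets -/

section two

variable (P : FPath M W) (P' : FPath M' W') (Hs : Std T A B h Prod.fst)
  [Fintype (ZMod M)] [Fintype (ZMod M')]

/-- **the weight off the window** -/
def gOff (I₁ J₁ : Finset (ZMod M)) (I₂ J₂ : Finset (ZMod M')) (X : Cf) : ℝ≥0∞ :=
  gI P Hs true I₁ J₁ X * gI P' Hs false I₂ J₂ X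

/-- its region -/
def rOff (I₁ J₁ : Finset (ZMod M)) (I₂ J₂ : Finset (ZMod M')) : Set ℂ :=
  rI P Hs true I₁ J₁ ∪ rI P' Hs false I₂ J₂

variable {I₁ J₁ : Finset (ZMod M)} {I₂ J₂ : Finset (ZMod M')}

theorem gOff_local (H₁ : Cl I₁ J₁) (H₂ : Cl I₂ J₂) :
    LocalOn (rOff P P' Hs I₁ J₁ I₂ J₂) (gOff P P' Hs I₁ J₁ I₂ J₂) :=
  LocalOn.mul (LocalOn.mono subset_union_left (H₁.local P Hs true))
    (LocalOn.mono subset_union_right (H₂.local P' Hs false))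

theorem gOff_fm : FM (gOff P P' Hs I₁ J₁ I₂ J₂) := fm_mul (gI_fm _ _ _) (gI_fm _ _ _)

theorem rOff_meas : MeasurableSet (rOff P P' Hs I₁ J₁ I₂ J₂) :=
  (rI_meas _ _ _).union (rI_meas _ _ _)

theorem rOff_sub : rOff P P' Hs I₁ J₁ I₂ J₂ ⊆ Rall A B h W ∪ Rall A B h W' :=
  union_subset_union (rI_sub _ _ _) (rI_sub _ _ _)

theorem gOff_le_one (H₁ : Cl I₁ J₁) (H₂ : Cl I₂ J₂) {X : Cf} (hX : X.Finite) :
    gOff P P' Hs I₁ J₁ I₂ J₂ X ≤ 1 := by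
  calc _ ≤ 1 * 1 := mul_le_mul' (H₁.le_one P Hs true hX) (H₂.le_one P' Hs false hX)
    _ = 1 := one_mul _

/-- the weight off the window depends on the colours of the inner sites only -/
theorem gOff_inn (H₁ : Cl I₁ J₁) (H₂ : Cl I₂ J₂) {S : Finset ℂ}
    (hU : ∀ v ∈ S, v ∈ rOff P P' Hs I₁ J₁ I₂ J₂ → ¬ OnHull S v) :
    Engx490.Inn S (gOff P P' Hs I₁ J₁ I₂ J₂) :=
  inn_of_local (U := rOff P P' Hs I₁ J₁ I₂ J₂) (fun X => gOff_local P P' Hs H₁ H₂ X) hU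

variable {Bb Ui Uo : Set ℂ} {F e : Cf → ℝ≥0∞} {K : ℝ≥0∞}

/-- **the weight of the ring is at most the weight off the window** -/
theorem wt_le (H : WD ε Bb Ui Uo (gO P Hs true) (gO P' Hs false) F e K) {X : Cf} (hX : X.Finite) :
    wt Bb (gO P Hs true) (gO P' Hs false) F e X ≤ gOff P P' Hs I₁ J₁ I₂ J₂ X :=
  (H.w_le hX).trans (mul_le_mul' (le_gI P Hs true hX) (le_gI P' Hs false hX))

/-- the constant of the weights off a window, `i` gates and `j` tiles dropped -/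
def cW (cc ca : ℝ) (i j : ℕ) : ℝ := (cc ^ j * ca ^ i)⁻¹

/-- **the mean of the weight off the window relative to the weight of the ring** -/
theorem ex_gOff (H : WD ε Bb Ui Uo (gO P Hs true) (gO P' Hs false) F e K)
    (hd : Disjoint (Rall A B h W) (Rall A B h W')) (hr : Rall A B h W ⊆ Bb)
    (hr' : Rall A B h W' ⊆ Bb) (H₁ : Cl I₁ J₁) (H₂ : Cl I₂ J₂) {cc ca : ℝ} (hcc : 0 < cc)
    (hca : 0 < ca) (hcc1 : cc ≤ 1) (hca1 : ca ≤ 1) (h1 : ENNReal.ofReal cc ≤ T.c)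
    (h2 : ENNReal.ofReal ca ≤ ∫⁻ ω, T.A (cfg ε ω) ∂sampleLaw) {i j : ℕ}
    (hi : I₁.card + I₂.card ≤ i) (hj : J₁.card + J₂.card ≤ j) :
    Ex ε (gOff P P' Hs I₁ J₁ I₂ J₂) ≤ ENNReal.ofReal (cW cc ca i j) * (2 * K *
      Mg ε Bb (wt Bb (gO P Hs true) (gO P' Hs false) F e)) := by
  have m1 := Mg_mul (ε := ε) (B := Bb) T.eps H.Bb (rI_meas P Hs true (I₁ := I₁) (J₁ := J₁))
    (rI_meas P' Hs false (I₁ := I₂) (J₁ := J₂)) ((rI_sub P Hs true).trans hr)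
    ((rI_sub P' Hs false).trans hr') (hd.mono (rI_sub _ _ _) (rI_sub _ _ _))
    (H₁.local P Hs true) (H₂.local P' Hs false) (gI_fm P Hs true) (gI_fm P' Hs false)
  have m2 : Ex ε (gOff P P' Hs I₁ J₁ I₂ J₂) =
      Ex ε (gI P Hs true I₁ J₁) * Ex ε (gI P' Hs false I₂ J₂) := by
    rw [← m1]
    refine (Mg_eq ?_).symm
    refine LocalOn.mul (LocalOn.mono ((rI_sub P Hs true).trans hr) (H₁.local P Hs true))
      (LocalOn.mono ((rI_sub P' Hs false).trans hr') (H₂.local P' Hs false))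
  have e1 := ex_gI P Hs true H₁ h1 h2
  have e2 := ex_gI P' Hs false H₂ h1 h2
  have e3 := (mul_le_mul' e1 e2).trans H.mass_le
  have hq : ENNReal.ofReal (cc ^ j * ca ^ i) ≤
      (ENNReal.ofReal cc ^ J₁.card * ENNReal.ofReal ca ^ I₁.card) *
        (ENNReal.ofReal cc ^ J₂.card * ENNReal.ofReal ca ^ I₂.card) := by
    rw [← ENNReal.ofReal_pow hcc.le, ← ENNReal.ofReal_pow hcc.le, ← ENNReal.ofReal_pow hca.le,
      ← ENNReal.ofReal_pow hca.le, ← ENNReal.ofReal_mul (by positivity),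
      ← ENNReal.ofReal_mul (by positivity), ← ENNReal.ofReal_mul (by positivity)]
    refine ENNReal.ofReal_le_ofReal ?_
    calc cc ^ j * ca ^ i ≤ cc ^ (J₁.card + J₂.card) * ca ^ (I₁.card + I₂.card) := by
          gcongr ?_ * ?_
          · exact pow_le_pow_of_le_one hcc.le hcc1 hj
          · exact pow_le_pow_of_le_one hca.le hca1 hi
      _ = _ := by rw [pow_add, pow_add]; ring
  set q := ENNReal.ofReal (cc ^ j * ca ^ i) with hqd
  have q0 : q ≠ 0 := (ENNReal.ofReal_pos.2 (by positivity)).ne'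
  have qt : q ≠ ∞ := ENNReal.ofReal_ne_top
  have e4 : q * Ex ε (gOff P P' Hs I₁ J₁ I₂ J₂) ≤ 2 * K *
      Mg ε Bb (wt Bb (gO P Hs true) (gO P' Hs false) F e) := by
    rw [m2]
    refine le_trans ?_ e3
    calc q * (Ex ε (gI P Hs true I₁ J₁) * Ex ε (gI P' Hs false I₂ J₂)) ≤ _ :=
          mul_le_mul_left hq _
      _ = _ := by ring
  have e5 : ENNReal.ofReal (cW cc ca i j) = q⁻¹ := by
    unfold cW
    rw [hqd, ENNReal.ofReal_inv_of_pos (by positivity)]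
  rw [e5]
  calc Ex ε (gOff P P' Hs I₁ J₁ I₂ J₂) = q⁻¹ * (q * Ex ε (gOff P P' Hs I₁ J₁ I₂ J₂)) := by
        rw [← mul_assoc, ENNReal.inv_mul_cancel q0 qt, one_mul]
    _ ≤ _ := mul_le_mul_right e4 _

/-- **126's `WinM`** for a weight which is at most the weight off the window -/
theorem winM' (H : WD ε Bb Ui Uo (gO P Hs true) (gO P' Hs false) F e K)
    (hd : Disjoint (Rall A B h W) (Rall A B h W')) (hr : Rall A B h W ⊆ Bb)
    (hr' : Rall A B h W' ⊆ Bb) (H₁ : Cl I₁ J₁) (H₂ : Cl I₂ J₂) {cc ca : ℝ} (hcc : 0 < cc)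
    (hca : 0 < ca) (hcc1 : cc ≤ 1) (hca1 : ca ≤ 1) (h1 : ENNReal.ofReal cc ≤ T.c)
    (h2 : ENNReal.ofReal ca ≤ ∫⁻ ω, T.A (cfg ε ω) ∂sampleLaw) {i j : ℕ}
    (hi : I₁.card + I₂.card ≤ i) (hj : J₁.card + J₂.card ≤ j)
    {s d : ℝ} {z : ℂ} {D V U : Set ℂ} {go : Cf → ℝ≥0∞} (Dm : MeasurableSet D)
    (Vm : MeasurableSet V) (VB : V ⊆ Bb) (Vs : V ⊆ sq z s)
    (DV : ∀ o ∈ D, Metric.closedBall o d ⊆ V) (Um : MeasurableSet U) (UB : U ⊆ Bb)
    (dis : Disjoint U V) (loc : LocalOn U go) (fm : FM go)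
    (hle : ∀ X : Cf, X.Finite → go X ≤ gOff P P' Hs I₁ J₁ I₂ J₂ X) :
    WinM ε Bb s d (ENNReal.ofReal (cW cc ca i j) * (2 * K *
      Mg ε Bb (wt Bb (gO P Hs true) (gO P' Hs false) F e))) z D V U go where
  Dm := Dm
  Wm := Vm
  WB := VB
  Ws := Vs
  DW := DV
  Um := Um
  UB := UB
  dis := dis
  loc := loc
  fm := fm
  mass := by
    refine le_trans (lintegral_mono fun ω => ?_)
      (ex_gOff P P' Hs H hd hr hr' H₁ H₂ hcc hca hcc1 hca1 h1 h2 hi hj)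
    change go (cfg ε ω) ≤ gOff P P' Hs I₁ J₁ I₂ J₂ (cfg ε ω)
    have l1 : LocalOn Bb go := LocalOn.mono UB loc
    have l2 : LocalOn Bb (gOff P P' Hs I₁ J₁ I₂ J₂) := LocalOn.mono
      ((rOff_sub P P' Hs).trans (union_subset hr hr')) (gOff_local P P' Hs H₁ H₂)
    rw [l1 (cfg ε ω), l2 (cfg ε ω)]
    exact hle _ (H.fin ω)

/-- **126's `WinM`** for the weight off the window -/
theorem winM (H : WD ε Bb Ui Uo (gO P Hs true) (gO P' Hs false) F e K)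
    (hd : Disjoint (Rall A B h W) (Rall A B h W')) (hr : Rall A B h W ⊆ Bb)
    (hr' : Rall A B h W' ⊆ Bb) (H₁ : Cl I₁ J₁) (H₂ : Cl I₂ J₂) {cc ca : ℝ} (hcc : 0 < cc)
    (hca : 0 < ca) (hcc1 : cc ≤ 1) (hca1 : ca ≤ 1) (h1 : ENNReal.ofReal cc ≤ T.c)
    (h2 : ENNReal.ofReal ca ≤ ∫⁻ ω, T.A (cfg ε ω) ∂sampleLaw) {i j : ℕ}
    (hi : I₁.card + I₂.card ≤ i) (hj : J₁.card + J₂.card ≤ j)
    {s d : ℝ} {z : ℂ} {D V : Set ℂ} (Dm : MeasurableSet D)
    (Vm : MeasurableSet V) (VB : V ⊆ Bb) (Vs : V ⊆ sq z s)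
    (DV : ∀ o ∈ D, Metric.closedBall o d ⊆ V)
    (d1 : Disjoint (rI P Hs true I₁ J₁) V) (d2 : Disjoint (rI P' Hs false I₂ J₂) V) :
    WinM ε Bb s d (ENNReal.ofReal (cW cc ca i j) * (2 * K *
      Mg ε Bb (wt Bb (gO P Hs true) (gO P' Hs false) F e))) z D V
      (rOff P P' Hs I₁ J₁ I₂ J₂) (gOff P P' Hs I₁ J₁ I₂ J₂) :=
  winM' P P' Hs H hd hr hr' H₁ H₂ hcc hca hcc1 hca1 h1 h2 hi hj Dm Vm VB Vs DV
    (rOff_meas P P' Hs) ((rOff_sub P P' Hs).trans (union_subset hr hr'))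
    (disjoint_union_left.2 ⟨d1, d2⟩) (gOff_local P P' Hs H₁ H₂) (gOff_fm P P' Hs)
    fun _ _ => le_rfl

end two

/-! ### the numbers -/

/-- the constant of `p2_maj` -/
def cP (Cm Kr cc ca c c0 : ℝ) (m i j : ℕ) : ℝ :=
  24 * (Kr * m * (cW cc ca i j) * c⁻¹ * (Cm * c0 ^ 2))

theorem sq_inv {n : ℕ} (hn : 1 ≤ n) : (1 : ℝ) / n ≤ √(2 / n) := by
  have h : (1 : ℝ) ≤ n := by exact_mod_cast hn
  refine Real.le_sqrt_of_sq_le ?_
  rw [div_pow, one_pow, div_le_div_iff₀ (by positivity) (by positivity)]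
  nlinarith

theorem num_p2 {Cm Kr cc ca c c0 s Q : ℝ} {m i j n L : ℕ} (hCm : 0 ≤ Cm) (hK : 0 ≤ Kr)
    (hcc : 0 < cc) (hca : 0 < ca) (hc : 0 < c) (hn : 1 ≤ n) (hL : L ≤ m * (4 * (n + 2)))
    (hs0 : 0 ≤ s) (hs : s ≤ c0 / n) (hQ : Q = cW cc ca i j * (2 * c⁻¹)) :
    Kr * (L * (Q * (Cm * s ^ 2))) ≤ cP Cm Kr cc ca c c0 m i j * √(2 / n) := by
  have h1 : (1 : ℝ) ≤ n := by exact_mod_cast hn
  have hw : 0 ≤ cW cc ca i j := by unfold cW; positivity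
  have h2 : (L : ℝ) ≤ m * (12 * n) := by
    have : (L : ℝ) ≤ m * (4 * (n + 2)) := by exact_mod_cast hL
    refine this.trans (mul_le_mul_of_nonneg_left ?_ (Nat.cast_nonneg _))
    linarith
  have h3 : s ^ 2 ≤ c0 ^ 2 / n ^ 2 := by
    rw [← div_pow]
    gcongr
  calc Kr * (L * (Q * (Cm * s ^ 2)))
      ≤ Kr * (m * (12 * n) * (cW cc ca i j * (2 * c⁻¹) * (Cm * (c0 ^ 2 / n ^ 2)))) := by
        rw [hQ]
        gcongr
    _ = cP Cm Kr cc ca c c0 m i j * (1 / n) := by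
        unfold cP
        field_simp
        ring
    _ ≤ _ := by
        have : 0 ≤ cP Cm Kr cc ca c c0 m i j := by unfold cP; positivity
        gcongr
        exact sq_inv hn

/-- **P2: the majorant with all numbers** -/
theorem p2_maj : ∃ Cm : ℝ, 0 ≤ Cm ∧ ∀ {ε s d : ℝ} {B : Set ℂ}, 0 < ε → ε ≤ s →
    MeasurableSet B → Bornology.IsBounded B → ∀ {Λ : Type} (L : Finset Λ) (z : Λ → ℂ)
      (D V U : Λ → Set ℂ) (go : Λ → Cf → ℝ≥0∞) {cc ca c c0 Kr : ℝ} {m i j n : ℕ} (mg : ℝ≥0∞),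
    0 < cc → 0 < ca → 0 < c → 0 ≤ Kr → 1 ≤ n → L.card ≤ m * (4 * (n + 2)) → s ≤ c0 / n →
    (∀ l ∈ L, WinM ε B s d (ENNReal.ofReal (cW cc ca i j) * (2 * (ENNReal.ofReal c)⁻¹ * mg))
      (z l) (D l) (V l) (U l) (go l)) →
    ∀ (g : Set (ℂ × Bool) → ℝ≥0∞) (Ψ : Finset ℂ → Finset ℂ → ℝ≥0∞),
    (∀ᵐ ω ∂sampleLaw, ∑ β ∈ (Ap ε B ω).powerset, g (paint (Ap ε B ω) β) * Ψ (Ap ε B ω) β ≤
      ENNReal.ofReal Kr * ∑ β ∈ (Ap ε B ω).powerset, ∑ l ∈ L,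
        go l (paint (Ap ε B ω) β) * Hd (D l) d (paint (Ap ε B ω) β)) →
    ∃ R : Sample → ℝ≥0∞, MajQ ε B g Ψ R ∧
      ∫⁻ ω, R ω ∂sampleLaw ≤ ENNReal.ofReal (cP Cm Kr cc ca c c0 m i j * √(2 / n)) * mg := by
  obtain ⟨C, hC, h⟩ := majE2
  refine ⟨C.toReal, ENNReal.toReal_nonneg, ?_⟩
  intro ε s d B hε hs hBm hBb Λ L z D V U go cc ca c c0 Kr m i j n mg hcc hca hc hK hn hL hsn H g
    Ψ hq
  obtain ⟨R, h1, h2⟩ := h hε hs hBm hBb L z D V U go _ H g Ψ (ENNReal.ofReal Kr) hq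
  refine ⟨R, h1, h2.trans ?_⟩
  have hw : 0 ≤ cW cc ca i j := by unfold cW; positivity
  have e1 : ENNReal.ofReal Kr * (L.card * (ENNReal.ofReal (cW cc ca i j) *
      (2 * (ENNReal.ofReal c)⁻¹ * mg) * (C * ENNReal.ofReal (s ^ 2)))) =
      ENNReal.ofReal (Kr * (L.card * (cW cc ca i j * (2 * c⁻¹) * (C.toReal * s ^ 2)))) * mg := by
    rw [ENNReal.ofReal_mul hK, ENNReal.ofReal_mul (Nat.cast_nonneg _),
      ENNReal.ofReal_mul (by positivity), ENNReal.ofReal_mul hw,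
      ENNReal.ofReal_mul ENNReal.toReal_nonneg, ENNReal.ofReal_toReal hC,
      ENNReal.ofReal_natCast, ENNReal.ofReal_mul (by norm_num), ENNReal.ofReal_inv_of_pos hc,
      show ENNReal.ofReal 2 = 2 by norm_num]
    ring
  rw [e1]
  refine mul_le_mul_left (ENNReal.ofReal_le_ofReal ?_) _
  exact num_p2 ENNReal.toReal_nonneg hK hcc hca hc hn hL (hε.le.trans hs) hsn rfl

end Crest.Agent.R143.P2Wx445
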