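import Crest.Agent.R143.SepNc_763
import Crest.Agent.R143.R5q_166

/-!
# Row 143 (S0194), RIG (helper763): (PF), the later right cells next to the exterior

778's form of `no_touch`.  No geometry: everything on a closed map `M : CMap D C`.

* `pf` : loop of `cfg M μ` with period `N`, left cells black, `E` a connected set off the states
  `0 .. t` of the loop, `X` a connected set of white cells off `E` with the right cells of the times
  `0` and `n`, the right cell of a time `m ≤ n` is next to `E` and off `X` : for `n < t < N`, if the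
  right cell of the time `t` is next to `E`, it is in `X`
* `Ex.left_out`, `ex_right_out` : for `μ = σ` on the revealed set: the left cells of the loop of `μ`
  are not in `W`, its right cells are not in `Ext`
* **`ex_pf`** : `pf` for 166's `Ex` with the white giant of `Ext_358`, `E = Ext`, every `μ = σ` on the
  revealed set
-/

set_option autoImplicit false

noncomputable section

open scoped Classical

namespace Crest.Agent.R143.PFx763

open Crest.Agent.R143.Frame1x395 Crest.Agent.R143.Frame2x395 Crest.Agent.R143.Frame3x395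
  Crest.Agent.R143.Frame4x395 Crest.Agent.R143.Frame8x395 Crest.Agent.R143.Frame9x395
  Crest.Agent.R143.NonXx592 Crest.Agent.R143.Coarsex166 Crest.Agent.R143.CFramex358
  Crest.Agent.R143.Gntx535 Crest.Agent.R143.R5bx166 Crest.Agent.R143.R5qx166
  Crest.Agent.R143.Extx358 Crest.Agent.R143.SepNcx763
open Splx117 (Lp)

variable {D C : Type} {M : CMap D C} [Fintype D] {σ μ : C → ZMod 2} {p : D} {N n m t r : ℕ}
  {E X H R : Set C}

/-- **(PF)** -/
theorem pf (L : Lp M (cfg M μ) p N) (h1 : μ (M.cell p) = 1) (hE : CCon M E)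
    (hEl : ∀ c ∈ E, c ∉ wl M (cfg M μ) p t)
    (hX : CCon M X) (hXw : ∀ c ∈ X, μ c = 0) (hEX : ∀ c ∈ E, c ∉ X)
    (h0 : Rc M p ∈ X) (hn : Rc M (P M (cfg M μ) p n) ∈ X) (hm : m ≤ n)
    (hmX : Rc M (P M (cfg M μ) p m) ∉ X) (hl : ∃ e ∈ E, Ad M e (Rc M (P M (cfg M μ) p m)))
    (hnt : n < t) (htN : t < N) (hlt : ∃ e ∈ E, Ad M e (Rc M (P M (cfg M μ) p t))) :
    Rc M (P M (cfg M μ) p t) ∈ X := by
  by_contra htX
  have hp := L.occ
  have hl0 : ∀ c ∈ wl M (cfg M μ) p t, μ c = 1 := fun c hc => by rw [wl_col hp hc, h1]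
  have hr0 : ∀ c ∈ wr M (cfg M μ) p t, μ c = 0 := fun c hc => by
    rw [wr_col hp hc, h1]
    decide
  -- the colouring
  set W : Set C := E ∪ X ∪ {c | c ∈ wr M (cfg M μ) p t} with hW
  set χ : C → ZMod 2 := fun c => if c ∈ W then 0 else 1 with hχ
  have χ0 : ∀ c, c ∈ W → χ c = 0 := fun c hc => if_pos hc
  have χ1 : ∀ c, c ∉ W → χ c = 1 := fun c hc => if_neg hc
  have hlW : ∀ c ∈ wl M (cfg M μ) p t, c ∉ W := by
    rintro c hc ((h | h) | h)
    · exact hEl c h hc
    · have := hl0 c hc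
      rw [hXw c h] at this
      exact absurd this (by decide)
    · have := hl0 c hc
      rw [hr0 c h] at this
      exact absurd this (by decide)
  have hag : ∀ c ∈ wl M (cfg M μ) p t ∪ wr M (cfg M μ) p t, χ c = μ c := by
    intro c hc
    rcases Finset.mem_union.1 hc with h | h
    · rw [hl0 c h, χ1 c (hlW c h)]
    · rw [hr0 c h, χ0 c (Or.inr h)]
  obtain ⟨gp, gP⟩ := walk_agree hp hag
  have hWy : ∀ d ∈ M.live, M.cell d ∈ W → M.cell (M.rho d) ∈ W → cfg M χ d = 0 := by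
    intro d _ g1 g2
    show χ (M.cell d) + χ (M.cell (M.rho d)) = 0
    rw [χ0 _ g1, χ0 _ g2]
    decide
  have hwm : Rc M (P M (cfg M μ) p m) ∈ W := Or.inr (mem_wr.2 ⟨m, by omega, rfl⟩)
  have hwt : Rc M (P M (cfg M μ) p t) ∈ W := Or.inr (mem_wr.2 ⟨t, le_rfl, rfl⟩)
  obtain ⟨e₀, he₀, d₀, hd₀, f1, f2⟩ := hl
  obtain ⟨e₁, he₁, d₁, hd₁, f3, f4⟩ := hlt
  -- `Y`
  set Y : Set C := E ∪ {Rc M (P M (cfg M μ) p m), Rc M (P M (cfg M μ) p t)} with hYd
  have hYW : ∀ c ∈ Y, c ∈ W := by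
    rintro c (h | h | h)
    · exact Or.inl (Or.inl h)
    · rw [h]; exact hwm
    · rw [Set.mem_singleton_iff.1 h]; exact hwt
  have hY : CCon M Y := by
    have key : ∀ c ∈ Y, Relation.EqvGen (Nb M Y) e₀ c := by
      rintro c (h | h | h)
      · exact nb_mono Set.subset_union_left (hE e₀ he₀ c h)
      · subst h
        exact Relation.EqvGen.rel _ _ ⟨Or.inl he₀, Or.inr (Or.inl rfl), d₀, hd₀, f1, f2⟩
      · rw [Set.mem_singleton_iff] at h
        subst h
        exact (nb_mono Set.subset_union_left (hE e₀ he₀ e₁ he₁)).trans _ _ _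
          (Relation.EqvGen.rel _ _ ⟨Or.inl he₁, Or.inr (Or.inr rfl), d₁, hd₁, f3, f4⟩)
    exact fun c hc c' hc' => ((key c hc).symm _ _).trans _ _ _ (key c' hc')
  have hdis : Disjoint X Y := by
    rw [Set.disjoint_left]
    rintro c hc (h | h | h)
    · exact hEX c h hc
    · exact hmX (h ▸ hc)
    · exact htX (Set.mem_singleton_iff.1 h ▸ hc)
  have hm0 : 0 < m := by
    rcases Nat.eq_zero_or_pos m with h | h
    · rw [h] at hmX
      exact absurd h0 hmX
    · exact h
  have hmn : m < n := by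
    rcases Nat.lt_or_ge m n with h | h
    · exact h
    · have : m = n := le_antisymm hm h
      rw [this] at hmX
      exact absurd hn hmX
  refine right_cross (cfg_isC χ) gp hX hY hdis
    (fun d hd g1 g2 => hWy d hd (Or.inl (Or.inr g1)) (Or.inl (Or.inr g2)))
    (fun d hd g1 g2 => hWy d hd (hYW _ g1) (hYW _ g2)) hm0 hmn hnt (fun i j _ hij hj => ?_)
    h0 ?_ ?_ ?_
  · rw [gP i (by omega), gP j hj]
    exact L.inj i j hij (by omega)
  · rw [gP m (by omega)]
    exact Or.inr (Or.inl rfl)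
  · rw [gP n hnt.le]
    exact hn
  · rw [gP t le_rfl]
    exact Or.inr (Or.inr rfl)

/-! ### the loop of `μ` and the white giant -/

/-- the left cells of the loop of `μ` are not in `W` -/
theorem left_out {W : Set C} (Y : Ex M σ p N n r W)
    (ha : ∀ c ∈ EE M (cfg M σ) p n W, μ c = σ c) (u : ℕ) :
    M.cell (P M (cfg M μ) p u) ∉ W := Y.rch (Y.gsP ha u).m

/-- the exterior -/
abbrev Xt (M : CMap D C) (H R : Set C) (p : D) (n : ℕ) (σ : C → ZMod 2) : Set C :=
  {c | Ext M H (Zc (wl M (cfg M σ) p n) (wr M (cfg M σ) p n) R σ) c}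

/-- the right cells of the loop of `μ` are not in the exterior -/
theorem right_out (Y : Ex M σ p N n r (Extx358.Ww M H R p n σ))
    (ha : ∀ c ∈ EE M (cfg M σ) p n (Extx358.Ww M H R p n σ), μ c = σ c) (u : ℕ) :
    Rc M (P M (cfg M μ) p u) ∉ Xt M H R p n σ := by
  intro h
  have g := (Y.gsP ha u).occ
  have hd : P M (cfg M μ) p u ∈ M.live := (cfg_isC (M := M) μ).lv g
  have had : Ad M (Rc M (P M (cfg M μ) p u)) (M.cell (P M (cfg M μ) p u)) :=
    Ad.symm ⟨_, hd, rfl, rfl⟩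
  refine left_out Y ha u ?_
  rcases ext_ad h had with h1 | h1
  · exact ext_mem h1
  · exact bd_mem h1

/-- **(PF) in the language of `Ex` and `Ext`** -/
theorem ex_pf (Y : Ex M σ p N n r (Extx358.Ww M H R p n σ))
    (ha : ∀ c ∈ EE M (cfg M σ) p n (Extx358.Ww M H R p n σ), μ c = σ c)
    (hE : CCon M (Xt M H R p n σ)) (hX : CCon M X) (hXw : ∀ c ∈ X, μ c = 0)
    (hEX : ∀ c ∈ Xt M H R p n σ, c ∉ X)
    (h0 : Rc M p ∈ X) (hn : Rc M (P M (cfg M σ) p n) ∈ X) (hm : m ≤ n)
    (hmX : Rc M (P M (cfg M σ) p m) ∉ X)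
    (hl : ∃ e ∈ Xt M H R p n σ, Ad M e (Rc M (P M (cfg M σ) p m)))
    (hnt : n < t) (ht : t < per M (cfg M μ) p)
    (hlt : ∃ e ∈ Xt M H R p n σ, Ad M e (Rc M (P M (cfg M μ) p t))) :
    Rc M (P M (cfg M μ) p t) ∈ X := by
  have L := (Y.arc ha).1
  refine pf L (Y.gs ha).l hE (fun c hc h => ?_) hX hXw hEX h0 ?_ hm ?_ ?_ hnt ht hlt
  · obtain ⟨u, -, rfl⟩ := mem_wl.1 h
    exact left_out Y ha u (ext_mem hc)
  · rw [Y.walk ha le_rfl]; exact hn
  · rw [Y.walk ha hm]; exact hmX
  · rw [Y.walk ha hm]; exact hl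

end Crest.Agent.R143.PFx763
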