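import Crest.Agent.R143.SubD_117
import Crest.Agent.R143.EvG_168
import Crest.Agent.R143.PL_535

/-!
# Row 143 (S0194), RIG box Q2: the pieces of the strand, in the fields of `PLx535.Wn` (helper117)

* `Pcs M x q m T₂ qq` : the pieces `qq k = (first state, length)` are sub-arcs of the arc `[0, m]` of
  `q`, every other state of the arc is in `T₂`
* `Pcs.Ac_sub`, `Pcs.ac_cov` : cells of the pieces, cells of the arc
* **`Pcs.lo`** : the pieces are on the loop of the root gap (field `lo` of `Wn`)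
* `pcs_two`, `pcs_right`, `pcs_left` : the pieces of the strand of a corridor around a window, with
  `EvP` (field `ev`)
-/

set_option autoImplicit false
set_option linter.unusedSectionVars false

noncomputable section

open scoped Classical

namespace Crest.Agent.R143.SubEx117

open Crest.Agent.R143.B0x346 Crest.Agent.R143.DelGx806 Crest.Agent.R143.DelRx806
  Crest.Agent.R143.JColx54
open Crest.Agent.R143.Frame1x395 Crest.Agent.R143.Frame2x395 Crest.Agent.R143.Frame3x395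
  Crest.Agent.R143.Frame4x395 Crest.Agent.R143.Frame8x395 Crest.Agent.R143.Frame9x395
  Crest.Agent.R143.Frame10x395 Crest.Agent.R143.Frame11x395
open Crest.Agent.R143.NonXx592 (Rc P P_succ)
open Crest.Agent.R143.Gntx535 (wl wr mem_wl mem_wr)
open Crest.Agent.R143.Splx117 (Lp lc gp InK)
open Crest.Agent.R143.WLocx713 Crest.Agent.R143.RingDx117 Crest.Agent.R143.CorrDx117
  Crest.Agent.R143.StrBx117 Crest.Agent.R143.SubDx117
open Crest.Agent.R143.K33x137 Crest.Agent.R143.Uniqx323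
open Crest.Agent.R143.FinCx811 (Cs rc0 cs rcol)
open Crest.Agent.R143.R5qx166 (Ex EE)
open Crest.Agent.R143.PLx535 (EvP Ac mem_Ac Po)
open Crest.Agent.R143.OutSx358 (ac)
open Crest.Agent.R143.EvGx168 (SD)

section cm

variable {D C : Type} [Fintype D] [Fintype C] {M : CMap D C} {x : D → ZMod 2} {q : D} {m : ℕ}
  {T₂ : Set D} {κ : Type} [Fintype κ] {qq : κ → D × ℕ}

/-- the pieces are sub-arcs of the arc `[0, m]` of `q`, the rest is in `T₂` -/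
structure Pcs (M : CMap D C) (x : D → ZMod 2) (q : D) (m : ℕ) (T₂ : Set D) (qq : κ → D × ℕ) :
    Prop where
  sub : ∀ k, ∃ j, j + (qq k).2 ≤ m ∧ P M x q j = (qq k).1
  cov : ∀ i ≤ m, (∃ k, ∃ j ≤ (qq k).2, P M x (qq k).1 j = P M x q i) ∨ P M x q i ∈ T₂

theorem P_it (a b : ℕ) : P M x (P M x q b) a = P M x q (a + b) := by
  show (stp M x)^[a] ((stp M x)^[b] q) = (stp M x)^[a + b] q
  rw [← Function.iterate_add_apply]

theorem Pcs.wl_sub (H : Pcs M x q m T₂ qq) (k : κ) : wl M x (qq k).1 (qq k).2 ⊆ wl M x q m := by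
  intro c hc
  obtain ⟨j, hj, rfl⟩ := mem_wl.1 hc
  obtain ⟨i, hi, e⟩ := H.sub k
  rw [← e, P_it]
  exact mem_wl.2 ⟨j + i, by omega, rfl⟩

theorem Pcs.wr_sub (H : Pcs M x q m T₂ qq) (k : κ) : wr M x (qq k).1 (qq k).2 ⊆ wr M x q m := by
  intro c hc
  obtain ⟨j, hj, rfl⟩ := mem_wr.1 hc
  obtain ⟨i, hi, e⟩ := H.sub k
  rw [← e, P_it]
  exact mem_wr.2 ⟨j + i, by omega, rfl⟩

theorem Pcs.wl_cov (H : Pcs M x q m T₂ qq) {c : C} (hc : c ∈ wl M x q m) :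
    (∃ k, c ∈ wl M x (qq k).1 (qq k).2) ∨ ∃ d ∈ T₂, c = M.cell d := by
  obtain ⟨i, hi, rfl⟩ := mem_wl.1 hc
  rcases H.cov i hi with ⟨k, j, hj, e⟩ | h
  · exact Or.inl ⟨k, mem_wl.2 ⟨j, hj, by rw [e]⟩⟩
  · exact Or.inr ⟨_, h, rfl⟩

theorem Pcs.wr_cov (H : Pcs M x q m T₂ qq) {c : C} (hc : c ∈ wr M x q m) :
    (∃ k, c ∈ wr M x (qq k).1 (qq k).2) ∨ ∃ d ∈ T₂, c = Rc M d := by
  obtain ⟨i, hi, rfl⟩ := mem_wr.1 hc
  rcases H.cov i hi with ⟨k, j, hj, e⟩ | h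
  · exact Or.inl ⟨k, mem_wr.2 ⟨j, hj, by rw [e]⟩⟩
  · exact Or.inr ⟨_, h, rfl⟩

variable {σ : C → ZMod 2}

theorem mem_ac {c : C} : c ∈ ac M q m σ ↔ c ∈ wl M (cfg M σ) q m ∨ c ∈ wr M (cfg M σ) q m := by
  unfold OutSx358.ac
  rw [Finset.mem_union]

theorem mem_Sc {p : D} {n : ℕ} {c : C} : c ∈ Uniqx323.Sc M σ p n ↔
    c ∈ wl M (cfg M σ) p n ∨ c ∈ wr M (cfg M σ) p n := by
  unfold Uniqx323.Sc
  rw [Finset.mem_union]

/-- the cells of the pieces are cells of the arc -/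
theorem Pcs.Ac_sub (H : Pcs M (cfg M σ) q m T₂ qq) {c : C} (hc : c ∈ Ac M qq σ) :
    c ∈ ac M q m σ := by
  obtain ⟨k, hk⟩ := mem_Ac.1 hc
  rcases mem_Sc.1 hk with h | h
  · exact mem_ac.2 (Or.inl (H.wl_sub k h))
  · exact mem_ac.2 (Or.inr (H.wr_sub k h))

/-- the cells of the arc are cells of the pieces or of states of `T₂` -/
theorem Pcs.ac_cov (H : Pcs M (cfg M σ) q m T₂ qq) {c : C} (hc : c ∈ ac M q m σ) :
    c ∈ Ac M qq σ ∨ ∃ d ∈ T₂, c = M.cell d ∨ c = Rc M d := by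
  rcases mem_ac.1 hc with h | h
  · rcases H.wl_cov h with ⟨k, h1⟩ | ⟨d, h1, h2⟩
    · exact Or.inl (mem_Ac.2 ⟨k, mem_Sc.2 (Or.inl h1)⟩)
    · exact Or.inr ⟨d, h1, Or.inl h2⟩
  · rcases H.wr_cov h with ⟨k, h1⟩ | ⟨d, h1, h2⟩
    · exact Or.inl (mem_Ac.2 ⟨k, mem_Sc.2 (Or.inr h1)⟩)
    · exact Or.inr ⟨d, h1, Or.inr h2⟩

/-- **the loop of the root gap passes every state of the arc** (any colouring `μ` which agrees on
the explored cells) -/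
theorem lo_of {μ : C → ZMod 2} {N n r : ℕ} {W : Set C} (X : Ex M σ q N n r W)
    (hE : ∀ c ∈ EE M (cfg M σ) q n W, μ c = σ c) {j : ℕ} (hj : j ≤ n) :
    ∃ b, P M (cfg M μ) (out M (gp M (cfg M σ) q r)) b = P M (cfg M σ) q j := by
  obtain ⟨L, A⟩ := X.arc hE
  have e1 : out M (gp M (cfg M σ) q r) = P M (cfg M μ) q (r + 1) :=
    NonXx592.out_eq A.L.c A.gp A.rg
  have h1 := A.rn
  have h2 := A.nN
  refine ⟨j + R5qx166.per M (cfg M μ) q - (r + 1), ?_⟩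
  rw [e1, P_it, show j + R5qx166.per M (cfg M μ) q - (r + 1) + (r + 1) =
    j + R5qx166.per M (cfg M μ) q by omega, ← X.walk hE hj]
  exact L.add j

/-- **field `lo` of `Wn`** -/
theorem Pcs.lo {μ : C → ZMod 2} {N r : ℕ} {W : Set C} (H : Pcs M (cfg M σ) q m T₂ qq)
    (X : Ex M σ q N m r W) (hE : ∀ c ∈ EE M (cfg M σ) q m W, μ c = σ c) (k : κ) :
    ∃ b, P M (cfg M μ) (out M (gp M (cfg M σ) q r)) b = (qq k).1 := by
  obtain ⟨j, hj, e⟩ := H.sub k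
  obtain ⟨b, hb⟩ := lo_of X hE (j := j) (by omega)
  exact ⟨b, hb.trans e⟩

theorem Pcs.mono {x : D → ZMod 2} {T₃ : Set D} (H : Pcs M x q m T₂ qq) (h : T₂ ⊆ T₃) :
    Pcs M x q m T₃ qq :=
  ⟨H.sub, fun i hi => (H.cov i hi).imp id fun h1 => h h1⟩

end cm

/-! ### the pieces of the strand of a corridor -/

section dc

variable {S : Finset ℂ} {χ : ℂ → ZMod 2} {hS : GP (S : Set ℂ)} {hχ : HullC S χ} {n N : ℕ}
  {y z : ℕ → ℂ} {A B : ℕ → Set ℂ} {p : ℕ → D0 S} {q : D0 S} {T : ℕ → ℕ} {T₁ : Set ℂ}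

/-- the zone of one piece: region `U`, entrance cells in tile `BE`, exit cells in tile `BW`, a column
at a gate `g`, `g₀ < g < g₁` -/
structure SideH (hS : GP (S : Set ℂ)) (hχ : HullC S χ) (y : ℕ → ℂ) (p : ℕ → D0 S)
    (Z : Zn (rc0 hS)) (U BE BW : Set ℂ) (g₀ g₁ : ℕ) : Prop where
  R : EvGx117.Rd (rc0 hS) Z.R = RD S U
  E : ∀ d ∈ RD S BE, ∀ c, (c = (rc0 hS).cell d ∨ c = Rc (rc0 hS) d) → c ∉ Z.R → c ∈ Z.E
  W : ∀ d ∈ RD S BW, ∀ c, (c = (rc0 hS).cell d ∨ c = Rc (rc0 hS) d) → c ∉ Z.R → c ∈ Z.W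
  col : ∃ g, g₀ < g ∧ g < g₁ ∧ χ (y g) = 1 ∧ ∃ t ∈ Z.T,
    Lk (rc0 hS) ({c | c ∈ Z.K ∧ rcol hS χ hχ c = 0} ∪ Z.T) (Rc (rc0 hS) (p g)) t

theorem hstr_of (H : SD hS hχ n (RD S (UB B 1 (n - 1))) p B q N T) : HStr hS hχ n B p q N T :=
  RcTx422.str_restr.1 H

/-- **only the piece in the tiles `≥ b'`** (windows near the gate `0`) -/
theorem pcs_right (R : DCorr hS hχ n y z A B p)
    (H : SD hS hχ n (RD S (UB B 1 (n - 1))) p B q N T)
    (dis : ∀ j k, j + 2 ≤ k → k < n → Disjoint (B j) (B k)) {b' : ℕ} (hb0 : 0 < b')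
    (hb : b' + 3 ≤ n) (hT : ∀ k, b' < k → k < n → Disjoint (B k) T₁)
    (hy : y b' ∈ T₁ ∨ z b' ∈ T₁) {Z : Unit → Zn (rc0 hS)}
    (SR : SideH hS hχ y p (Z ()) (UB B b' (n - 1) \ T₁) (B (n - 1)) (B b') b' n) :
    ∃ qq : Unit → D0 S × ℕ, EvP Z qq (rcol hS χ hχ) ∧
      Pcs (rc0 hS) (cfg (rc0 hS) (rcol hS χ hχ)) q (T n) (RD S (UB B 0 (b' + 1))) qq := by
  have H' := hstr_of H
  obtain ⟨e, e1, e2, -, HH⟩ := first_dc R H' dis hb0 hb hT hy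
  obtain ⟨g, g0, g1, g2, g3⟩ := SR.col
  have h1 := strd_first R hb HH SR.R g0 g1 g2 SR.E SR.W g3
  have hle : T (n - b') ≤ T n := H'.T_le (by omega) le_rfl
  refine ⟨fun _ => (q, e), fun _ => h1, ⟨fun _ => ⟨0, by show 0 + e ≤ T n; omega, rfl⟩,
    fun i hi => ?_⟩⟩
  rcases Nat.lt_or_ge e i with h | h
  · obtain ⟨k, k1, k2⟩ := rest_first H' (by omega) e1 h hi
    exact Or.inr (RD_mono (sub_UB (Nat.zero_le k) (by omega)) k2)
  · exact Or.inl ⟨(), i, h, rfl⟩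

/-- **only the piece in the tiles `< a'`** (windows near the gate `n`) -/
theorem pcs_left (R : DCorr hS hχ n y z A B p)
    (H : SD hS hχ n (RD S (UB B 1 (n - 1))) p B q N T)
    (dis : ∀ j k, j + 2 ≤ k → k < n → Disjoint (B j) (B k)) {a' : ℕ} (ha0 : 3 ≤ a')
    (ha : a' < n) (hT : ∀ k, k + 1 < a' → Disjoint (B k) T₁)
    (hy : y a' ∈ T₁ ∨ z a' ∈ T₁) {Z : Unit → Zn (rc0 hS)}
    (SL : SideH hS hχ y p (Z ()) (UB B 1 a' \ T₁) (B (a' - 1)) (B 0) 0 a') :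
    ∃ qq : Unit → D0 S × ℕ, EvP Z qq (rcol hS χ hχ) ∧
      Pcs (rc0 hS) (cfg (rc0 hS) (rcol hS χ hχ)) q (T n) (RD S (UB B (a' - 1) n)) qq := by
  have H' := hstr_of H
  obtain ⟨s, s1, s2, -, HH⟩ := second_dc R H' dis ha0 ha hT hy
  obtain ⟨g, g0, g1, g2, g3⟩ := SL.col
  have h1 := strd_second R ha0 ha.le HH SL.R g0 g1 g2 SL.E SL.W g3
  have hle : T (n - a' + 1) ≤ T n := H'.T_le (by omega) le_rfl
  refine ⟨fun _ => ((stp (cm0 hS) (xc hS hχ))^[s] q, T n - s), fun _ => h1,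
    ⟨fun _ => ⟨s, by show s + (T n - s) ≤ T n; omega, rfl⟩, fun i hi => ?_⟩⟩
  rcases Nat.lt_or_ge i s with h | h
  · obtain ⟨k, k1, k2, k3⟩ := rest_second H' (by omega) ha.le s2 h
    exact Or.inr (RD_mono (sub_UB k1 k2) k3)
  · refine Or.inl ⟨(), i - s, by show i - s ≤ T n - s; omega, ?_⟩
    show P (rc0 hS) (cfg (rc0 hS) (rcol hS χ hχ))
      (P (rc0 hS) (cfg (rc0 hS) (rcol hS χ hχ)) q s) (i - s) = _
    rw [P_it, show i - s + s = i by omega]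

/-- **the two pieces**: `false` = tiles `≥ b'`, `true` = tiles `< a'` -/
theorem pcs_two (R : DCorr hS hχ n y z A B p)
    (H : SD hS hχ n (RD S (UB B 1 (n - 1))) p B q N T)
    (dis : ∀ j k, j + 2 ≤ k → k < n → Disjoint (B j) (B k)) {a' b' : ℕ} (ha0 : 3 ≤ a')
    (hab : a' ≤ b') (hb : b' + 3 ≤ n) (hTL : ∀ k, k + 1 < a' → Disjoint (B k) T₁)
    (hTR : ∀ k, b' < k → k < n → Disjoint (B k) T₁)
    (hyL : y a' ∈ T₁ ∨ z a' ∈ T₁) (hyR : y b' ∈ T₁ ∨ z b' ∈ T₁) {Z : Bool → Zn (rc0 hS)}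
    (SR : SideH hS hχ y p (Z false) (UB B b' (n - 1) \ T₁) (B (n - 1)) (B b') b' n)
    (SL : SideH hS hχ y p (Z true) (UB B 1 a' \ T₁) (B (a' - 1)) (B 0) 0 a') :
    ∃ qq : Bool → D0 S × ℕ, EvP Z qq (rcol hS χ hχ) ∧
      Pcs (rc0 hS) (cfg (rc0 hS) (rcol hS χ hχ)) q (T n) (RD S (UB B (a' - 1) (b' + 1))) qq := by
  have H' := hstr_of H
  obtain ⟨e, e1, e2, -, H1⟩ := first_dc R H' dis (by omega) hb hTR hyR
  obtain ⟨s, s1, s2, -, H2⟩ := second_dc R H' dis ha0 (by omega) hTL hyL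
  obtain ⟨g, g0, g1, g2, g3⟩ := SR.col
  obtain ⟨f, f0, f1, f2, f3⟩ := SL.col
  have h1 := strd_first R hb H1 SR.R g0 g1 g2 SR.E SR.W g3
  have h2 := strd_second R ha0 (by omega) H2 SL.R f0 f1 f2 SL.E SL.W f3
  have hle : T (n - b') ≤ T n := H'.T_le (by omega) le_rfl
  have hle' : T (n - a' + 1) ≤ T n := H'.T_le (by omega) le_rfl
  refine ⟨fun b => cond b ((stp (cm0 hS) (xc hS hχ))^[s] q, T n - s) (q, e), ?_, ⟨?_, ?_⟩⟩
  · rintro (_ | _)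
    · exact h1
    · exact h2
  · rintro (_ | _)
    · exact ⟨0, by show 0 + e ≤ T n; omega, rfl⟩
    · exact ⟨s, by show s + (T n - s) ≤ T n; omega, rfl⟩
  · intro i hi
    rcases Nat.lt_or_ge e i with h | h
    · rcases Nat.lt_or_ge i s with h' | h'
      · obtain ⟨k, k1, k2, k3⟩ := rest_mid H' (by omega) hab (by omega) e1 s2 h h'
        exact Or.inr (RD_mono (sub_UB k1 (by omega)) k3)
      · refine Or.inl ⟨true, i - s, by show i - s ≤ T n - s; omega, ?_⟩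
        show P (rc0 hS) (cfg (rc0 hS) (rcol hS χ hχ))
          (P (rc0 hS) (cfg (rc0 hS) (rcol hS χ hχ)) q s) (i - s) = _
        rw [P_it, show i - s + s = i by omega]
    · exact Or.inl ⟨false, i, h, rfl⟩

end dc

end Crest.Agent.R143.SubEx117
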