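import Crest.Agent.R143.PLT_535
import Crest.Agent.R143.SubE_117
import Crest.Agent.R143.SysC_166

/-!
# Row 143 (S0194), RIG box Q2: the instance of the window inequality for corridors (helper228)

* `wd_sys` : 535's `wr_sys` for 166's charge `Wd` (358's system)
* `C1` : the data of one colouring `σ` of the cells: `DCorr`, strand `SD`, event `EvA` (168)
* `LX` : LOCX for one colouring and all pieces (fields `lx`, `lb` of `Sb`)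
* `sb_two`, `sb_right`, `sb_left` : 535's `Sb` around the window
* **`pli_two`**, **`pli_right`**, **`pli_left`** : the inequality for `Wd`
-/

set_option autoImplicit false
set_option linter.unusedSectionVars false

noncomputable section

open scoped Classical

namespace Crest.Agent.R143.PLIx228

open Crest.Agent.R143.B0x346 Crest.Agent.R143.DelGx806 Crest.Agent.R143.DelRx806
  Crest.Agent.R143.JColx54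
open Crest.Agent.R143.Frame1x395 Crest.Agent.R143.Frame2x395 Crest.Agent.R143.Frame3x395
  Crest.Agent.R143.Frame4x395 Crest.Agent.R143.Frame8x395 Crest.Agent.R143.Frame9x395
  Crest.Agent.R143.Frame10x395 Crest.Agent.R143.Frame11x395
open Crest.Agent.R143.NonXx592 (Rc P P_succ)
open Crest.Agent.R143.Splx117 Crest.Agent.R143.WLocx713
open Crest.Agent.R143.Resax778 Crest.Agent.R143.PLx535 Crest.Agent.R143.PLSx535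
  Crest.Agent.R143.PLTx535
open Crest.Agent.R143.RingDx117 Crest.Agent.R143.CorrDx117 Crest.Agent.R143.StrBx117
  Crest.Agent.R143.SubDx117 Crest.Agent.R143.SubEx117
open Crest.Agent.R143.K33x137 Crest.Agent.R143.Uniqx323
open Crest.Agent.R143.FinCx811 (Cs rc0 cs rcol)
open Extx358 (Ext Ad Bd)
open OutSx358 (Sys OO gA gR ac zc oc wg rt gr)
open Sptx169 (rst)
open QuSx166 (Wr)
open SysCx166 (Wd Vb Vg)
open SysAx168 (EvA)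
open EvGx168 (SD)

/-! ### 166's charge -/

section sys

variable {D C ι κ : Type} [Fintype D] [Fintype C] [Fintype κ] {M : CMap D C} {H R T : Set C}
  {Z : κ → Uniqx323.Zn M} {L : Finset C} {Q : Set D}
  {pa : ι → (C → ZMod 2) → D} {na : ι → (C → ZMod 2) → ℕ} {Ev : ι → (C → ZMod 2) → Prop}

/-- `Wd` is `Wr` -/
theorem wd_wr (S : Sys M H R Q pa na Ev) {i : ι} {σ : C → ZMod 2} (h : Ev i σ) (k : ZMod 3)
    (d₀ : D) (z : D → ℂ) (Fr : ℕ → Set D) (l : ℕ) {nn : ℕ} {Tm : ℕ → ℕ} (h0 : Tm 0 = 0)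
    (hn : Tm nn = na i σ) (τ : C → ZMod 2) :
    Wd M H R Q pa na Ev k d₀ z Fr l σ τ = Wr M σ (mix (OO M H R pa na Ev) σ τ) (pa i σ) (na i σ)
      (rt M Q pa na i σ) Tm nn z Fr l := by
  obtain ⟨h1, -⟩ := S.hE (τ := τ) h
  rw [(S.ex h).wr_eq (hπ := QuFx778.clsCon ((S.ex h).gi (i := k)))
    (QuFx778.cq ((S.ex h).gi (i := k))) h0 hn h1 z l]
  unfold SysCx166.Wd
  rw [S.vg (k := k) (d₀ := d₀) h]
  unfold SysCx166.Vb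
  rw [S.gR_eq d₀ h]

/-- **second moment of 166's charge of one region** -/
theorem wd_sys (S : Sys M H R Q pa na Ev) (F : Fix M H R T Z) {w : ℂ} (w3 : w ^ 3 = 1)
    (w1 : w ≠ 1) (wc : (starRingEnd ℂ) w = w ^ 2) {G : (C → ZMod 2) → Prop}
    {g' : (C → ZMod 2) → ℝ} (hg0 : ∀ σ, 0 ≤ g' σ)
    (hgL : ∀ σ τ, (∀ s ∈ L, τ s = σ s) → g' τ = g' σ) {z : D → ℂ} {Fr : ℕ → Set D} {l : ℕ}
    (ha : Spin M w (rst z (Fr l)))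
    (sup : ∀ h, rst z (Fr l) h ≠ 0 → ∀ k, ¬ (M.cell h ∈ (Z k).R ∧ M.cell (M.rho h) ∈ (Z k).R ∧
      M.cell (M.rho (M.rho h)) ∈ (Z k).R)) (k : ZMod 3) (d₀ : D)
    (hW : ∀ σ, G σ → g' σ ≠ 0 → ∃ i, Ev i σ ∧ ∃ q : κ → D × ℕ,
      Sb M H R T Z L (pa i σ) (na i σ) σ q) :
    ∑ σ : C → ZMod 2, ∑ τ : C → ZMod 2, (if G σ then
        g' σ * ‖Wd M H R Q pa na Ev k d₀ z Fr l σ τ‖ ^ 2 else 0) ≤
      (2 * ((2 : ℝ) ^ (2 * Fintype.card κ + 1) / 4) + 32) * Fintype.card (C → ZMod 2) *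
        ∑ σ, g' σ * ∑ k, ‖rst z (Fr l) k‖ ^ 2 := by
  refine wr_sys S F w3 w1 wc hg0 hgL ha sup d₀ fun σ h1 h2 => ?_
  obtain ⟨i, h3, h4⟩ := hW σ h1 h2
  refine ⟨i, h3, h4, 1, fun j => j * na i σ, Nat.zero_mul _, Nat.one_mul _, fun τ => ?_⟩
  exact wd_wr S h3 k d₀ z Fr l (Tm := fun j => j * na i σ) (Nat.zero_mul _) (Nat.one_mul _) τ

end sys

/-! ### one colouring -/

section one

variable {S : Finset ℂ} {χ : ℂ → ZMod 2} {hS : GP (S : Set ℂ)} {hχ : HullC S χ} {n N : ℕ}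
  {y z : ℕ → ℂ} {A B : ℕ → Set ℂ} {p : ℕ → D0 S} {q : D0 S} {T : ℕ → ℕ} {T₁ : Set ℂ}
  {H Rw Tw : Set (Cs hS)} {Q : Set (D0 S)} {Z₀ : Zn (rc0 hS)} {σ : Cs hS → ZMod 2}
  {L : Finset (Cs hS)} {κ : Type} [Fintype κ] {Zk : κ → Zn (rc0 hS)}

/-- **the corridor of one colouring `σ`**: `χ` = colours of the sites, `q`, `T n` = first state and
length of the strand -/
structure C1 (hS : GP (S : Set ℂ)) (H Rw : Set (Cs hS)) (Q : Set (D0 S)) (Z₀ : Zn (rc0 hS))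
    (n : ℕ) (B : ℕ → Set ℂ) (σ : Cs hS → ZMod 2) (χ : ℂ → ZMod 2) (hχ : HullC S χ)
    (y z : ℕ → ℂ) (A : ℕ → Set ℂ) (p : ℕ → D0 S) (q : D0 S) (N : ℕ) (T : ℕ → ℕ) : Prop where
  col : rcol hS χ hχ = σ
  R : DCorr hS hχ n y z A B p
  sd : SD hS hχ n (RD S (UB B 1 (n - 1))) p B q N T
  ev : EvA (rc0 hS) H Rw Q Z₀ (q, T n) σ

/-- **LOCX** for the strand `0 .. m` of `q` and all its pieces -/
def LX (hS : GP (S : Set ℂ)) (H Rw Tw : Set (Cs hS)) (T₂ : Set (D0 S)) {κ : Type} [Fintype κ]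
    (Zk : κ → Zn (rc0 hS)) (L : Finset (Cs hS)) (σ : Cs hS → ZMod 2) (q : D0 S) (m : ℕ) : Prop :=
  ∀ qq : κ → D0 S × ℕ, EvP Zk qq σ → Pcs (rc0 hS) (cfg (rc0 hS) σ) q m T₂ qq →
    (∀ c ∈ L, Ext (rc0 hS) H (zc (rc0 hS) Rw q m σ) c →
      Ext (rc0 hS) H (Zt Rw Tw (Ac (rc0 hS) qq σ) σ) c) ∧
    ∀ c ∈ L, c ∈ Bd (rc0 hS) H (zc (rc0 hS) Rw q m σ) →
      c ∈ Ac (rc0 hS) qq σ ∨ ∃ e, Ext (rc0 hS) H (Zt Rw Tw (Ac (rc0 hS) qq σ) σ) e ∧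
        Ad (rc0 hS) e c

/-- **`Sb` from the pieces and LOCX** -/
theorem sb_of {m : ℕ} {T₂ : Set (D0 S)} {qq : κ → D0 S × ℕ} (ev : EvP Zk qq σ)
    (P₂ : Pcs (rc0 hS) (cfg (rc0 hS) σ) q m T₂ qq)
    (hT2 : ∀ d ∈ T₂, (rc0 hS).cell d ∈ Tw ∧ Rc (rc0 hS) d ∈ Tw) (LT : ∀ c ∈ L, c ∉ Tw)
    (lx : LX hS H Rw Tw T₂ Zk L σ q m) :
    Sb (rc0 hS) H Rw Tw Zk L q m σ qq := by
  obtain ⟨h1, h2⟩ := lx qq ev P₂
  refine ⟨ev, fun k => ?_, fun c hc => ?_, LT, h1, h2⟩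
  · obtain ⟨j, hj, e⟩ := P₂.sub k
    exact ⟨j, hj, e⟩
  · rcases P₂.ac_cov hc with h | ⟨d, hd, e⟩
    · exact Or.inl h
    · refine Or.inr ?_
      rcases e with rfl | rfl
      · exact (hT2 d hd).1
      · exact (hT2 d hd).2

variable {a' b' : ℕ}

/-- **two sides**: `false` = tiles `≥ b'`, `true` = tiles `< a'` -/
theorem sb_two {Z : Bool → Zn (rc0 hS)} (C : C1 hS H Rw Q Z₀ n B σ χ hχ y z A p q N T)
    (dis : ∀ j k, j + 2 ≤ k → k < n → Disjoint (B j) (B k)) (ha0 : 3 ≤ a') (hab : a' ≤ b')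
    (hb : b' + 3 ≤ n) (hTL : ∀ k, k + 1 < a' → Disjoint (B k) T₁)
    (hTR : ∀ k, b' < k → k < n → Disjoint (B k) T₁) (hyL : y a' ∈ T₁ ∨ z a' ∈ T₁)
    (hyR : y b' ∈ T₁ ∨ z b' ∈ T₁)
    (SR : SideH hS hχ y p (Z false) (UB B b' (n - 1) \ T₁) (B (n - 1)) (B b') b' n)
    (SL : SideH hS hχ y p (Z true) (UB B 1 a' \ T₁) (B (a' - 1)) (B 0) 0 a')
    (hT2 : ∀ d ∈ RD S (UB B (a' - 1) (b' + 1)), (rc0 hS).cell d ∈ Tw ∧ Rc (rc0 hS) d ∈ Tw)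
    (LT : ∀ c ∈ L, c ∉ Tw)
    (lx : LX hS H Rw Tw (RD S (UB B (a' - 1) (b' + 1))) Z L σ q (T n)) :
    ∃ qq : Bool → D0 S × ℕ, Sb (rc0 hS) H Rw Tw Z L q (T n) σ qq := by
  obtain ⟨qq, h1, h2⟩ := pcs_two C.R C.sd dis ha0 hab hb hTL hTR hyL hyR SR SL
  rw [C.col] at h1 h2
  exact ⟨qq, sb_of h1 h2 hT2 LT lx⟩

/-- **one side**, windows near the gate `0` -/
theorem sb_right {Z : Unit → Zn (rc0 hS)} (C : C1 hS H Rw Q Z₀ n B σ χ hχ y z A p q N T)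
    (dis : ∀ j k, j + 2 ≤ k → k < n → Disjoint (B j) (B k)) (hb0 : 0 < b') (hb : b' + 3 ≤ n)
    (hTR : ∀ k, b' < k → k < n → Disjoint (B k) T₁) (hyR : y b' ∈ T₁ ∨ z b' ∈ T₁)
    (SR : SideH hS hχ y p (Z ()) (UB B b' (n - 1) \ T₁) (B (n - 1)) (B b') b' n)
    (hT2 : ∀ d ∈ RD S (UB B 0 (b' + 1)), (rc0 hS).cell d ∈ Tw ∧ Rc (rc0 hS) d ∈ Tw)
    (LT : ∀ c ∈ L, c ∉ Tw)
    (lx : LX hS H Rw Tw (RD S (UB B 0 (b' + 1))) Z L σ q (T n)) :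
    ∃ qq : Unit → D0 S × ℕ, Sb (rc0 hS) H Rw Tw Z L q (T n) σ qq := by
  obtain ⟨qq, h1, h2⟩ := pcs_right C.R C.sd dis hb0 hb hTR hyR SR
  rw [C.col] at h1 h2
  exact ⟨qq, sb_of h1 h2 hT2 LT lx⟩

/-- **one side**, windows near the gate `n` -/
theorem sb_left {Z : Unit → Zn (rc0 hS)} (C : C1 hS H Rw Q Z₀ n B σ χ hχ y z A p q N T)
    (dis : ∀ j k, j + 2 ≤ k → k < n → Disjoint (B j) (B k)) (ha0 : 3 ≤ a') (ha : a' < n)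
    (hTL : ∀ k, k + 1 < a' → Disjoint (B k) T₁) (hyL : y a' ∈ T₁ ∨ z a' ∈ T₁)
    (SL : SideH hS hχ y p (Z ()) (UB B 1 a' \ T₁) (B (a' - 1)) (B 0) 0 a')
    (hT2 : ∀ d ∈ RD S (UB B (a' - 1) n), (rc0 hS).cell d ∈ Tw ∧ Rc (rc0 hS) d ∈ Tw)
    (LT : ∀ c ∈ L, c ∉ Tw)
    (lx : LX hS H Rw Tw (RD S (UB B (a' - 1) n)) Z L σ q (T n)) :
    ∃ qq : Unit → D0 S × ℕ, Sb (rc0 hS) H Rw Tw Z L q (T n) σ qq := by
  obtain ⟨qq, h1, h2⟩ := pcs_left C.R C.sd dis ha0 ha hTL hyL SL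
  rw [C.col] at h1 h2
  exact ⟨qq, sb_of h1 h2 hT2 LT lx⟩

/-- the cells of the states of a region -/
theorem rd_RC {U : Set ℂ} (hin : ∀ v ∈ S, v ∈ U → ¬ OnHull S v) {d : D0 S} (hd : d ∈ RD S U) :
    (rc0 hS).cell d ∈ RcTx422.RC hS U ∧ Rc (rc0 hS) d ∈ RcTx422.RC hS U := by
  have h := (Set.ext_iff.1 (RcTx422.rs2_rc hin (hS := hS)) d).2 hd
  exact h

end one

/-! ### the inequality -/

section fin

variable {S : Finset ℂ} {hS : GP (S : Set ℂ)} {n : ℕ} {B : ℕ → Set ℂ} {T₁ : Set ℂ}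
  {H Rw Tw : Set (Cs hS)} {Q : Set (D0 S)} {Z₀ : Zn (rc0 hS)} {L : Finset (Cs hS)} {a' b' : ℕ}

/-- 168's system -/
abbrev SA (hS : GP (S : Set ℂ)) (H Rw : Set (Cs hS)) (Q : Set (D0 S)) (Z₀ : Zn (rc0 hS)) : Prop :=
  Sys (rc0 hS) H Rw Q (fun (i : D0 S × ℕ) _ => i.1) (fun i _ => i.2) (EvA (rc0 hS) H Rw Q Z₀)

/-- 166's charge for 168's system -/
abbrev WdA (hS : GP (S : Set ℂ)) (H Rw : Set (Cs hS)) (Q : Set (D0 S)) (Z₀ : Zn (rc0 hS))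
    (k : ZMod 3) (d₀ : D0 S) (w : D0 S → ℂ) (Fr : ℕ → Set (D0 S)) (l : ℕ)
    (σ τ : Cs hS → ZMod 2) : ℂ :=
  Wd (rc0 hS) H Rw Q (fun (i : D0 S × ℕ) _ => i.1) (fun i _ => i.2) (EvA (rc0 hS) H Rw Q Z₀) k d₀
    w Fr l σ τ

/-- the corridor of `σ` with the two zones around the window `a' ≤ k < b'`, and LOCX -/
def CTwo (H Rw Tw : Set (Cs hS)) (Q : Set (D0 S)) (Z₀ : Zn (rc0 hS)) (n : ℕ) (B : ℕ → Set ℂ)
    (T₁ : Set ℂ) (a' b' : ℕ) (Z : Bool → Zn (rc0 hS)) (L : Finset (Cs hS))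
    (σ : Cs hS → ZMod 2) : Prop :=
  ∃ (χ : ℂ → ZMod 2) (hχ : HullC S χ) (y z : ℕ → ℂ) (A : ℕ → Set ℂ) (p : ℕ → D0 S) (q : D0 S)
    (N : ℕ) (T : ℕ → ℕ), C1 hS H Rw Q Z₀ n B σ χ hχ y z A p q N T ∧
    (y a' ∈ T₁ ∨ z a' ∈ T₁) ∧ (y b' ∈ T₁ ∨ z b' ∈ T₁) ∧
    SideH hS hχ y p (Z false) (UB B b' (n - 1) \ T₁) (B (n - 1)) (B b') b' n ∧
    SideH hS hχ y p (Z true) (UB B 1 a' \ T₁) (B (a' - 1)) (B 0) 0 a' ∧
    LX hS H Rw Tw (RD S (UB B (a' - 1) (b' + 1))) Z L σ q (T n)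

/-- one side, windows near the gate `0` -/
def CRgt (H Rw Tw : Set (Cs hS)) (Q : Set (D0 S)) (Z₀ : Zn (rc0 hS)) (n : ℕ) (B : ℕ → Set ℂ)
    (T₁ : Set ℂ) (b' : ℕ) (Z : Unit → Zn (rc0 hS)) (L : Finset (Cs hS))
    (σ : Cs hS → ZMod 2) : Prop :=
  ∃ (χ : ℂ → ZMod 2) (hχ : HullC S χ) (y z : ℕ → ℂ) (A : ℕ → Set ℂ) (p : ℕ → D0 S) (q : D0 S)
    (N : ℕ) (T : ℕ → ℕ), C1 hS H Rw Q Z₀ n B σ χ hχ y z A p q N T ∧
    (y b' ∈ T₁ ∨ z b' ∈ T₁) ∧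
    SideH hS hχ y p (Z ()) (UB B b' (n - 1) \ T₁) (B (n - 1)) (B b') b' n ∧
    LX hS H Rw Tw (RD S (UB B 0 (b' + 1))) Z L σ q (T n)

/-- one side, windows near the gate `n` -/
def CLft (H Rw Tw : Set (Cs hS)) (Q : Set (D0 S)) (Z₀ : Zn (rc0 hS)) (n : ℕ) (B : ℕ → Set ℂ)
    (T₁ : Set ℂ) (a' : ℕ) (Z : Unit → Zn (rc0 hS)) (L : Finset (Cs hS))
    (σ : Cs hS → ZMod 2) : Prop :=
  ∃ (χ : ℂ → ZMod 2) (hχ : HullC S χ) (y z : ℕ → ℂ) (A : ℕ → Set ℂ) (p : ℕ → D0 S) (q : D0 S)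
    (N : ℕ) (T : ℕ → ℕ), C1 hS H Rw Q Z₀ n B σ χ hχ y z A p q N T ∧
    (y a' ∈ T₁ ∨ z a' ∈ T₁) ∧
    SideH hS hχ y p (Z ()) (UB B 1 a' \ T₁) (B (a' - 1)) (B 0) 0 a' ∧
    LX hS H Rw Tw (RD S (UB B (a' - 1) n)) Z L σ q (T n)

/-- the region of the window does not carry the pieces: support of the field -/
def Spt (z : D0 S → ℂ) (F : Set (D0 S)) {κ : Type} (Z : κ → Zn (rc0 hS)) : Prop :=
  ∀ h, rst z F h ≠ 0 → ∀ k, ¬ ((rc0 hS).cell h ∈ (Z k).R ∧ (rc0 hS).cell ((rc0 hS).rho h) ∈ (Z k).R ∧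
    (rc0 hS).cell ((rc0 hS).rho ((rc0 hS).rho h)) ∈ (Z k).R)

variable {w : ℂ} {G : (Cs hS → ZMod 2) → Prop} {g' : (Cs hS → ZMod 2) → ℝ} {z : D0 S → ℂ}
  {Fr : ℕ → Set (D0 S)} {l : ℕ}

/-- **THE WINDOW INEQUALITY, TWO SIDES** -/
theorem pli_two {Z : Bool → Zn (rc0 hS)} (Y : SA hS H Rw Q Z₀) (F : Fix (rc0 hS) H Rw Tw Z)
    (w3 : w ^ 3 = 1) (w1 : w ≠ 1) (wc : (starRingEnd ℂ) w = w ^ 2) (hg0 : ∀ σ, 0 ≤ g' σ)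
    (hgL : ∀ σ τ, (∀ s ∈ L, τ s = σ s) → g' τ = g' σ) (ha : Spin (rc0 hS) w (rst z (Fr l)))
    (sup : Spt z (Fr l) Z) (k : ZMod 3) (d₀ : D0 S)
    (dis : ∀ j k, j + 2 ≤ k → k < n → Disjoint (B j) (B k)) (ha0 : 3 ≤ a') (hab : a' ≤ b')
    (hb : b' + 3 ≤ n) (hTL : ∀ k, k + 1 < a' → Disjoint (B k) T₁)
    (hTR : ∀ k, b' < k → k < n → Disjoint (B k) T₁)
    (hin : ∀ v ∈ S, v ∈ UB B (a' - 1) (b' + 1) → ¬ OnHull S v)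
    (hTw : RcTx422.RC hS (UB B (a' - 1) (b' + 1)) ⊆ Tw) (LT : ∀ c ∈ L, c ∉ Tw)
    (hC : ∀ σ, G σ → g' σ ≠ 0 → CTwo H Rw Tw Q Z₀ n B T₁ a' b' Z L σ) :
    ∑ σ : Cs hS → ZMod 2, ∑ τ : Cs hS → ZMod 2, (if G σ then
        g' σ * ‖WdA hS H Rw Q Z₀ k d₀ z Fr l σ τ‖ ^ 2 else 0) ≤
      48 * Fintype.card (Cs hS → ZMod 2) * ∑ σ, g' σ * ∑ k, ‖rst z (Fr l) k‖ ^ 2 := by
  have h := wd_sys (G := G) Y F w3 w1 wc hg0 hgL ha sup k d₀ fun σ h1 h2 => by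
    obtain ⟨χ, hχ, y, z, A, p, q, N, T, C, c1, c2, c3, c4, c5⟩ := hC σ h1 h2
    exact ⟨(q, T n), C.ev, sb_two C dis ha0 hab hb hTL hTR c1 c2 c3 c4
      (fun d hd => ⟨hTw (rd_RC hin hd).1, hTw (rd_RC hin hd).2⟩) LT c5⟩
  refine h.trans (le_of_eq ?_)
  rw [Fintype.card_bool]
  norm_num

/-- **THE WINDOW INEQUALITY, ONE SIDE**, windows near the gate `0` -/
theorem pli_right {Z : Unit → Zn (rc0 hS)} (Y : SA hS H Rw Q Z₀) (F : Fix (rc0 hS) H Rw Tw Z)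
    (w3 : w ^ 3 = 1) (w1 : w ≠ 1) (wc : (starRingEnd ℂ) w = w ^ 2) (hg0 : ∀ σ, 0 ≤ g' σ)
    (hgL : ∀ σ τ, (∀ s ∈ L, τ s = σ s) → g' τ = g' σ) (ha : Spin (rc0 hS) w (rst z (Fr l)))
    (sup : Spt z (Fr l) Z) (k : ZMod 3) (d₀ : D0 S)
    (dis : ∀ j k, j + 2 ≤ k → k < n → Disjoint (B j) (B k)) (hb0 : 0 < b') (hb : b' + 3 ≤ n)
    (hTR : ∀ k, b' < k → k < n → Disjoint (B k) T₁)
    (hin : ∀ v ∈ S, v ∈ UB B 0 (b' + 1) → ¬ OnHull S v)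
    (hTw : RcTx422.RC hS (UB B 0 (b' + 1)) ⊆ Tw) (LT : ∀ c ∈ L, c ∉ Tw)
    (hC : ∀ σ, G σ → g' σ ≠ 0 → CRgt H Rw Tw Q Z₀ n B T₁ b' Z L σ) :
    ∑ σ : Cs hS → ZMod 2, ∑ τ : Cs hS → ZMod 2, (if G σ then
        g' σ * ‖WdA hS H Rw Q Z₀ k d₀ z Fr l σ τ‖ ^ 2 else 0) ≤
      48 * Fintype.card (Cs hS → ZMod 2) * ∑ σ, g' σ * ∑ k, ‖rst z (Fr l) k‖ ^ 2 := by
  have h := wd_sys (G := G) Y F w3 w1 wc hg0 hgL ha sup k d₀ fun σ h1 h2 => by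
    obtain ⟨χ, hχ, y, z, A, p, q, N, T, C, c1, c2, c3⟩ := hC σ h1 h2
    exact ⟨(q, T n), C.ev, sb_right C dis hb0 hb hTR c1 c2
      (fun d hd => ⟨hTw (rd_RC hin hd).1, hTw (rd_RC hin hd).2⟩) LT c3⟩
  refine h.trans ?_
  rw [Fintype.card_unit]
  have h0 : 0 ≤ ∑ σ, g' σ * ∑ k, ‖rst z (Fr l) k‖ ^ 2 := Finset.sum_nonneg fun σ _ =>
    mul_nonneg (hg0 σ) (Finset.sum_nonneg fun _ _ => by positivity)
  have h1 : (0 : ℝ) ≤ Fintype.card (Cs hS → ZMod 2) := Nat.cast_nonneg _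
  refine mul_le_mul_of_nonneg_right ?_ h0
  refine mul_le_mul_of_nonneg_right ?_ h1
  norm_num

/-- **THE WINDOW INEQUALITY, ONE SIDE**, windows near the gate `n` -/
theorem pli_left {Z : Unit → Zn (rc0 hS)} (Y : SA hS H Rw Q Z₀) (F : Fix (rc0 hS) H Rw Tw Z)
    (w3 : w ^ 3 = 1) (w1 : w ≠ 1) (wc : (starRingEnd ℂ) w = w ^ 2) (hg0 : ∀ σ, 0 ≤ g' σ)
    (hgL : ∀ σ τ, (∀ s ∈ L, τ s = σ s) → g' τ = g' σ) (ha : Spin (rc0 hS) w (rst z (Fr l)))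
    (sup : Spt z (Fr l) Z) (k : ZMod 3) (d₀ : D0 S)
    (dis : ∀ j k, j + 2 ≤ k → k < n → Disjoint (B j) (B k)) (ha0 : 3 ≤ a') (hab : a' < n)
    (hTL : ∀ k, k + 1 < a' → Disjoint (B k) T₁)
    (hin : ∀ v ∈ S, v ∈ UB B (a' - 1) n → ¬ OnHull S v)
    (hTw : RcTx422.RC hS (UB B (a' - 1) n) ⊆ Tw) (LT : ∀ c ∈ L, c ∉ Tw)
    (hC : ∀ σ, G σ → g' σ ≠ 0 → CLft H Rw Tw Q Z₀ n B T₁ a' Z L σ) :
    ∑ σ : Cs hS → ZMod 2, ∑ τ : Cs hS → ZMod 2, (if G σ then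
        g' σ * ‖WdA hS H Rw Q Z₀ k d₀ z Fr l σ τ‖ ^ 2 else 0) ≤
      48 * Fintype.card (Cs hS → ZMod 2) * ∑ σ, g' σ * ∑ k, ‖rst z (Fr l) k‖ ^ 2 := by
  have h := wd_sys (G := G) Y F w3 w1 wc hg0 hgL ha sup k d₀ fun σ h1 h2 => by
    obtain ⟨χ, hχ, y, z, A, p, q, N, T, C, c1, c2, c3⟩ := hC σ h1 h2
    exact ⟨(q, T n), C.ev, sb_left C dis ha0 hab hTL c1 c2
      (fun d hd => ⟨hTw (rd_RC hin hd).1, hTw (rd_RC hin hd).2⟩) LT c3⟩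
  refine h.trans ?_
  rw [Fintype.card_unit]
  have h0 : 0 ≤ ∑ σ, g' σ * ∑ k, ‖rst z (Fr l) k‖ ^ 2 := Finset.sum_nonneg fun σ _ =>
    mul_nonneg (hg0 σ) (Finset.sum_nonneg fun _ _ => by positivity)
  have h1 : (0 : ℝ) ≤ Fintype.card (Cs hS → ZMod 2) := Nat.cast_nonneg _
  refine mul_le_mul_of_nonneg_right ?_ h0
  refine mul_le_mul_of_nonneg_right ?_ h1
  norm_num

end fin

end Crest.Agent.R143.PLIx228
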