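import Crest.Agent.R143.PLM_228
import Crest.Agent.R143.LocZ_776
import Crest.Agent.R143.LSd_416
import Crest.Agent.R143.EnC_927
import Crest.Agent.R143.SepS_697

/-!
# Row 143 (S0194), RIG box Q2: the curtain on 609's objects (helper228)

* `lxw_S` : 776's `lxw_X` on a fixed set of sites, environment `CorEnv`, layout `LayU`, strand `SDS`
* **`cur_I`** : `CurI` at every environment (any `R = RC hS Rws`, any zones)
-/

set_option autoImplicit false
set_option linter.unusedSectionVars false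
set_option linter.style.haveILetI false

noncomputable section

open scoped Classical

namespace Crest.Agent.R143.PLNx228

open Crest.ProbabilityR.Voronoi
open Crest.Agent.R143.B0x346 Crest.Agent.R143.DelGx806 Crest.Agent.R143.DelRx806
open Crest.Agent.R143.FinCx811 Crest.Agent.R143.Resax778 Crest.Agent.R143.SmallAx304
open Crest.Agent.R143.Frame1x395 Crest.Agent.R143.Frame2x395
open Crest.Agent.R143.Frame8x395 hiding cfg
open Crest.Agent.R143.Frame10x395
open Crest.Agent.R143.PP0x831 Crest.Agent.R143.PWx978 Crest.Agent.R143.Tplx978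
open Crest.Agent.R143.WLocx713 Crest.Agent.R143.RingDx117
open Crest.Agent.R143.PolyUx346 (Poly)
open Crest.Agent.R143.CorEx133
open Crest.Agent.R143.RcTx422 (Hc RC Hc_eq)
open Crest.Agent.R143.RigPx854 (ly ly_spec mN mN_hN mN_10 hN hN_pos nT)
open Crest.Agent.R143.RigZdx609 Crest.Agent.R143.LayUx416 Crest.Agent.R143.Layx416
open Crest.Agent.R143.TileRx228
open Crest.Agent.R143.CorHx713 (CorH xx yy)
open Crest.Agent.R143.CorrIx831 (Ft tlt Rws SDS Col col_eq col_Xc)
open Crest.Agent.R143.ColXx829 (Xc)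
open Crest.Agent.R143.Uniqx323 (Zn)
open Crest.Agent.R143.ZnQx323 (T₁)
open Crest.Agent.R143.WndGx416 (wa wb WdA wab_lay)
open Crest.Agent.R143.QuenIx597
open Crest.Agent.R143.HqPx304
open Crest.Agent.R143.PLJx228 Crest.Agent.R143.PLKx228 Crest.Agent.R143.PLLx228

section one

variable {S : Finset ℂ} {hS : GP (S : Set ℂ)} {u : Poly} {m M : ℕ} {p' W : ℤ → ℤ × ℤ}
  {A e : ℤ → ℤ} {ε d K1 c2 ρ0 η : ℝ} {ω : Sample} {X : Set (ℂ × Bool)} {U : Set ℂ} {i : ZMod 3}
  {s : Cs hS → ZMod 2} {p : ℕ → D0 S} {q : D0 S} {N : ℕ} {T : ℕ → ℕ}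

/-- **776's `lxw_X` on a fixed set of sites** -/
theorem lxw_S (C : CorEnv u ε d K1 c2 ρ0 ω) (eS : S = SU u ε ω) (L : LayU u m M p' W A e)
    (hh : (m : ℝ) * (100 * η) = u.s) (hd : 100 * d ≤ η)
    (H : CorH X U M W η d (al A e i) (nn A e i)) (h3 : 3 ≤ S.card) (Cx : Col hS X s)
    (hp : ∀ k : ℕ, (p k).1 = (yy η W X (al A e i + k), xx η W X (al A e i + k)))
    (hT : SDS hS s η W (al A e i) (nn A e i) p q N T)
    {l a b : ℤ} (l0 : 0 ≤ l) (hl : l < nn A e i)
    (w : WdA A W (al A e i) (nn A e i) M l a b) {Lf : Finset (Cs hS)}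
    (hL : ∀ c ∈ Lf, ∃ v ∈ S, c.1 = Quot.mk (hullE S) v ∧ ∃ j : ℤ, al A e i + b + 5 ≤ j ∧
      j ≤ al A e i + a - 5 + M ∧ v ∈ RR (12 * η) (52 * η) (100 * η) W j) :
    LXW hS (RC hS (Rws η W (al A e i) (nn A e i) M))
      (RC hS (T₁ η W (al A e i + a) (al A e i + b + 1))) Lf s q (T (nn A e i)) := by
  have e0 := H.e0
  obtain rfl : sX X = S := Cx.e
  obtain rfl := col_eq H.hull h3 Cx
  have hpe : p = H.p := by
    funext k
    exact Subtype.ext (hp k)
  subst hpe
  obtain ⟨k1, G⟩ := SepUx697.geoU L hh H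
  obtain ⟨w0, -, g1, g2⟩ := EnCx927.w0_S C L hh hd eS
  refine LocZx776.lxw_X (H := H) (SepSx697.sth_of_sd hT) (EnCx927.en_S C L hh hd eS) G
    (SepUx697.backU L H).1 ?_ (fun g => ?_) g1 g2 l0 hl w hL
  · unfold RegSx523.K0
    rw [show (100 : ℝ) * η - (9 * η + η) = 90 * η by ring, hh]
    exact le_rfl
  · have := RegSx523.K0_bot L hh (A := 9 * η + η) (by linarith) (by linarith) g
    rwa [show -(9 * η + η) = -(10 * η) by ring] at this

end one

variable {N : ℕ} {ε : ℝ} {u : Poly} {w : ZMod 3} {Z : TData} {hN : u.n + 4 ≤ N} {hε : 0 < ε}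
  {ω : Sample} {hS : GP (SU u ε ω : Set ℂ)} {h3 : 3 ≤ (SU u ε ω).card} {h₀ : Cs hS}
  {R : Set (Cs hS)} {Zz : Zn (rc0 hS)} {K1 c2 ρ0 : ℝ}

/-- **the curtain on 609's objects** -/
theorem cur_I (C : CorEnv u ε √ε K1 c2 ρ0 ω) (hd : 100 * √ε ≤ et N) (hm : 40 ≤ mN u N)
    (hR : R = RC hS (Rws (et N) (ly u N).W (oT u w N) (nT u w N) (ly u N).M)) :
    CurI w Z hN hε hS h3 R Zz := by
  have L := ly_spec hN
  have hh := mh hN
  have num := Z.num N ε
  have hm' : (40 : ℤ) ≤ (mN u N : ℕ) := by exact_mod_cast hm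
  intro s hs p q k T O j hj
  have w0 := wab_lay L.lay hm' w (l := (j : ℤ)) (by omega) (by exact_mod_cast hj)
  have wr := w0.room
  rw [hR]
  refine lxw_S C rfl L hh hd O.H h3 (col_Xc hS h3 s) O.hp O.sd (by omega) (by exact_mod_cast hj)
    w0 fun c hc => ?_
  obtain ⟨v, h1, h2, h4, ⟨x, h5, h6, h7⟩, -⟩ := LSdx416.lc_cor O.H ColXx829.sX_Xc (fp hN) (Z.std N hε)
    num.A' num.B' num.h w (uM hN) (uM hN) (p := oT u w N +
      wa (ly u N).A (ly u N).W (oT u w N) (nT u w N) (ly u N).M j - 5) (q := oT u w N +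
      wb (ly u N).A (ly u N).W (oT u w N) (nT u w N) (ly u N).M j + 5) (by
        show al (ly u N).A (ly u N).e w +
          wb (ly u N).A (ly u N).W (al (ly u N).A (ly u N).e w) (nn (ly u N).A (ly u N).e w)
            (ly u N).M j + 5 + 2 ≤ al (ly u N).A (ly u N).e w +
          wa (ly u N).A (ly u N).W (al (ly u N).A (ly u N).e w) (nn (ly u N).A (ly u N).e w)
            (ly u N).M j - 5 + (ly u N).M
        omega) hc
  refine ⟨v, h1, h2, x, ?_, ?_, h7⟩
  · refine le_trans ?_ h5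
    show al (ly u N).A (ly u N).e w +
      wb (ly u N).A (ly u N).W (al (ly u N).A (ly u N).e w) (nn (ly u N).A (ly u N).e w)
        (ly u N).M j + 5 ≤ al (ly u N).A (ly u N).e w +
      wb (ly u N).A (ly u N).W (al (ly u N).A (ly u N).e w) (nn (ly u N).A (ly u N).e w)
        (ly u N).M j + 5 + 1
    omega
  · refine h6.trans ?_
    show al (ly u N).A (ly u N).e w +
      wa (ly u N).A (ly u N).W (al (ly u N).A (ly u N).e w) (nn (ly u N).A (ly u N).e w)
        (ly u N).M j - 5 - 1 + (ly u N).M ≤ al (ly u N).A (ly u N).e w +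
      wa (ly u N).A (ly u N).W (al (ly u N).A (ly u N).e w) (nn (ly u N).A (ly u N).e w)
        (ly u N).M j - 5 + (ly u N).M
    omega

end Crest.Agent.R143.PLNx228
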