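import Crest.Agent.R143.PLN_228
import Crest.Agent.R143.OpK_894

/-!
# Row 143 (S0194): the curtain and the row (helper228)

* **`curZ : CurZ`** (894's last hypothesis); **`leaf : Leaf894`**
-/

set_option autoImplicit false

noncomputable section

open scoped Classical

namespace Crest.Agent.R143.POx228

open MeasureTheory Set Filter Topology
open Crest.ProbabilityR.Voronoi
open Crest.Agent.R143.Finx894
open Crest.Agent.R143.RigZx609 (Ev)
open Crest.Agent.R143.OpKx894

/-- **the curtain** -/
theorem curZ : CurZ := by
  intro u w
  unfold Ev
  exact Eventually.of_forall fun N => Eventually.of_forall fun ε hn he =>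
    Eventually.of_forall fun ω C hd hm _ hS h3 h₀ _ =>
      PLNx228.cur_I C hd hm (BrZx609.Rc_RC hn C)

/-- **the row** -/
theorem leaf : Leaf894 := leaf_cur curZ

end Crest.Agent.R143.POx228
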