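import Crest.Agent.R143.PLT_535
import Crest.Agent.R143.SubE_117

/-!
# Row 143 (S0194), RIG box Q2: the data of a window from the pieces of the strand (helper535)

* `Sb.pcs` : `PLSx535.Sb` from 117's `Pcs` (pieces, the other states in `T₂`), cells of `T₂` in `T`,
  and the fields `lx`, `lb` (776)
* `Sb.pcs'` : the same from 434's `top`, `mid`
-/

set_option autoImplicit false
set_option linter.unusedSectionVars false

noncomputable section

open scoped Classical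

namespace Crest.Agent.R143.PLPx535

open Crest.Agent.R143.Frame1x395 Crest.Agent.R143.Frame2x395 Crest.Agent.R143.Frame3x395
  Crest.Agent.R143.Frame4x395 Crest.Agent.R143.Frame8x395 Crest.Agent.R143.NonXx592
  Crest.Agent.R143.Gntx535 Crest.Agent.R143.Resax778 Crest.Agent.R143.PLx535
  Crest.Agent.R143.PLSx535 Crest.Agent.R143.PLTx535
open Extx358 (Ext Ad Bd)
open OutSx358 (Sys OO gA gR ac zc oc wg rt)
open SubEx117 (Pcs)

variable {D C : Type} [Fintype D] [Fintype C] {M : CMap D C} {H R T : Set C}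
  {κ : Type} [Fintype κ] {Z : κ → Uniqx323.Zn M} {L : Finset C} {p : D} {n : ℕ}
  {σ : C → ZMod 2} {q : κ → D × ℕ} {T₂ : Set D}

/-- the other cells of the strand are in the window -/
theorem rest_of (B : Pcs M (cfg M σ) p n T₂ q)
    (hT : ∀ d ∈ T₂, M.cell d ∈ T ∧ Rc M d ∈ T) :
    ∀ c ∈ ac M p n σ, c ∈ Ac M q σ ∨ c ∈ T := by
  intro c hc
  rcases B.ac_cov hc with h | ⟨d, h1, rfl | rfl⟩
  · exact Or.inl h
  · exact Or.inr (hT d h1).1
  · exact Or.inr (hT d h1).2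

/-- **the data of a window from the pieces** -/
theorem Sb.pcs (ev : EvP Z q σ) (B : Pcs M (cfg M σ) p n T₂ q)
    (hT : ∀ d ∈ T₂, M.cell d ∈ T ∧ Rc M d ∈ T) (LT : ∀ c ∈ L, c ∉ T)
    (lx : ∀ c ∈ L, Ext M H (zc M R p n σ) c → Ext M H (Zt R T (Ac M q σ) σ) c)
    (lb : ∀ c ∈ L, c ∈ Bd M H (zc M R p n σ) →
      c ∈ Ac M q σ ∨ ∃ e, Ext M H (Zt R T (Ac M q σ) σ) e ∧ Ad M e c) :
    Sb M H R T Z L p n σ q :=
  ⟨ev, fun k => by
    obtain ⟨j, h1, h2⟩ := B.sub k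
    exact ⟨j, h1, h2⟩, rest_of B hT, LT, lx, lb⟩

/-- the blocking cells off the window are blocking cells -/
theorem zp_zc (B : Pcs M (cfg M σ) p n T₂ q) : Zp M R q σ ⊆ zc M R p n σ := by
  rintro c (h | h)
  · exact mem_zc.2 (Or.inl (B.Ac_sub (Finset.mem_coe.1 h)))
  · exact mem_zc.2 (Or.inr h)

/-- the blocking cells are blocking cells off the window, or in the window -/
theorem zc_zp (B : Pcs M (cfg M σ) p n T₂ q) (hT : ∀ d ∈ T₂, M.cell d ∈ T ∧ Rc M d ∈ T) :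
    ∀ c ∈ zc M R p n σ, c ∈ Zp M R q σ ∨ c ∈ T := by
  intro c hc
  rcases mem_zc.1 hc with h | h
  · rcases rest_of B hT c h with h1 | h1
    · exact Or.inl (Or.inl (Finset.mem_coe.2 h1))
    · exact Or.inr h1
  · exact Or.inl (Or.inr h)

/-- **the data of a window from the pieces and from LOCX** (434) -/
theorem Sb.pcs' {Cor L1 : Set C} (ev : EvP Z q σ) (B : Pcs M (cfg M σ) p n T₂ q)
    (hT : ∀ d ∈ T₂, M.cell d ∈ T ∧ Rc M d ∈ T) (hTC : T ⊆ Cor)
    (top : ∀ c, Ext M H (zc M R p n σ) c → c ∉ Cor → Ext M H (Zp M R q σ ∪ T) c)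
    (mid : ∀ t ∈ T, t ∈ LocXx434.NN M H (zc M R p n σ) (Zp M R q σ) T Cor → ∀ c,
      Relation.ReflTransGen (LocXx434.Ch M H (zc M R p n σ) (Zp M R q σ) T Cor) t c → c ∉ L1)
    (LT : ∀ c ∈ L, c ∉ T) (hL : ∀ c ∈ L, c ∈ L1) (hL' : ∀ c ∈ L, ∀ e, Ad M e c → e ∈ L1) :
    Sb M H R T Z L p n σ q :=
  Sb.of ev (fun k => by
    obtain ⟨j, h1, h2⟩ := B.sub k
    exact ⟨j, h1, h2⟩) (rest_of B hT) hTC top mid LT hL hL'

end Crest.Agent.R143.PLPx535
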