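import Crest.Agent.R143.PW_978

/-!
# R143 (helper978): product weights, transfer along isometries (note 3261 (c): ONE number m)

`mv g S` moves the coloured configuration `S` by `g`.

* `Rs_mv` : `Rs ε C F (mv g S) = Rs ε (g ⁻¹' C) (F ∘ mv g) S`
* `lint_iso` : `F' ∘ mv g = F` (finite configurations) gives equal integrals
* `Cong M M' g I₀ J₀ fI fJ` : the gates `I₀` and tubes `J₀` of `M` are moved by `g` to the gates
  `fI '' I₀` and tubes `fJ '' J₀` of `M'`; `Cong.gw`, `Cong.lint`, `Cong.mean`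
* `same_mean` : `E[g] E[g' V'] = u E[g'] E[g V]` when `V' ∘ mv g = u V`

-/

set_option autoImplicit false

noncomputable section

namespace Crest.Agent.R143.PWx978

open MeasureTheory Set ProbabilityTheory
open Crest.ProbabilityR.Voronoi
open Crest.Agent.R143.PP0x831 Crest.Agent.R143.Poisx304 Crest.Agent.R143.Janx304
open Crest.Agent.R143.IndLocx279
open scoped ENNReal Nat

variable {ε : ℝ} {B B' C C' : Set ℂ} {F G H : Cf → ℝ≥0∞}

/-- the configuration moved by `g` -/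
def mv (g : ℂ ≃ᵐ ℂ) (S : Cf) : Cf := (fun p : ℂ × Bool => (g p.1, p.2)) '' S

lemma mv_union (g : ℂ ≃ᵐ ℂ) (S T : Cf) : mv g (S ∪ T) = mv g S ∪ mv g T := image_union _ _ _

lemma mv_finite (g : ℂ ≃ᵐ ℂ) {S : Cf} (h : S.Finite) : (mv g S).Finite := h.image _

lemma mv_inter (g : ℂ ≃ᵐ ℂ) (S : Cf) (D : Set ℂ) : mv g S ∩ ovr D = mv g (S ∩ ovr (g ⁻¹' D)) := by
  ext e
  simp only [mv, ovr, mem_inter_iff, mem_image, mem_ofPred_eq, mem_preimage]
  constructor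
  · rintro ⟨⟨p, hp, rfl⟩, he⟩
    exact ⟨p, ⟨hp, he⟩, rfl⟩
  · rintro ⟨p, ⟨hp, he⟩, rfl⟩
    exact ⟨⟨p, hp, rfl⟩, he⟩

lemma mv_range (g : ℂ ≃ᵐ ℂ) (n : ℕ) (z : Fin n → ℂ × Bool) :
    mv g (range z) = range fun i => (g (z i).1, (z i).2) := by
  unfold mv
  rw [← range_comp]
  rfl

lemma meas_mv (g : ℂ ≃ᵐ ℂ) : Measurable fun p : ℂ × Bool => (g p.1, p.2) :=
  (g.measurable.comp measurable_fst).prodMk measurable_snd

lemma fm_mv {X : Type*} [MeasurableSpace X] {F : Cf → X} (g : ℂ ≃ᵐ ℂ) (hF : FinMeas F) :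
    FinMeas fun S => F (mv g S) := by
  intro n
  simp only [mv_range]
  exact (hF n).comp (measurable_pi_iff.2 fun i => (meas_mv g).comp (measurable_pi_apply i))

lemma local_mv {X : Type*} {F : Cf → X} (g : ℂ ≃ᵐ ℂ) (hF : LocalOn B F) :
    LocalOn (g ⁻¹' B) fun S => F (mv g S) := by
  intro S
  have h := hF (mv g S)
  have h' := hF (mv g (S ∩ ovr (g ⁻¹' B)))
  change F (mv g S) = F (mv g (S ∩ ovr (g ⁻¹' B)))
  rw [h, h']
  congr 1
  change mv g S ∩ ovr B = mv g (S ∩ ovr (g ⁻¹' B)) ∩ ovr B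
  rw [mv_inter, mv_inter, inter_assoc, inter_self]

lemma mu_mp (g : ℂ ≃ᵐ ℂ) (hg : MeasurePreserving g volume volume) (hC : MeasurableSet C)
    (hCb : Bornology.IsBounded C) (hCb' : Bornology.IsBounded (g ⁻¹' C)) :
    MeasurePreserving (fun p : ℂ × Bool => (g p.1, p.2)) (mu ε (g ⁻¹' C)) (mu ε C) := by
  have hfin : IsFiniteMeasure ((volume : Measure ℂ).restrict C) :=
    ⟨by rw [Measure.restrict_apply_univ]; exact hCb.measure_lt_top⟩
  have hfin' : IsFiniteMeasure ((volume : Measure ℂ).restrict (g ⁻¹' C)) :=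
    ⟨by rw [Measure.restrict_apply_univ]; exact hCb'.measure_lt_top⟩
  have h := hg.restrict_preimage hC
  have h2 : MeasurePreserving g ((ENNReal.ofReal (ε ^ 2))⁻¹ • (volume : Measure ℂ).restrict (g ⁻¹' C))
      ((ENNReal.ofReal (ε ^ 2))⁻¹ • (volume : Measure ℂ).restrict C) :=
    ⟨g.measurable, by rw [Measure.map_smul, h.map_eq]⟩
  exact h2.prod (MeasurePreserving.id coin)

lemma J_mv (hε : 0 < ε) (g : ℂ ≃ᵐ ℂ) (hg : MeasurePreserving g volume volume)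
    (hC : MeasurableSet C) (hCb : Bornology.IsBounded C) (hCb' : Bornology.IsBounded (g ⁻¹' C))
    (hG : FM G) : J (mu ε (g ⁻¹' C)) (fun T => G (mv g T)) = J (mu ε C) G := by
  have := finite_mu' hε hCb
  have := finite_mu' hε hCb'
  have h1 : (mu ε (g ⁻¹' C)) univ = (mu ε C) univ := by
    rw [← (mu_mp g hg hC hCb hCb').measure_preimage MeasurableSet.univ.nullMeasurableSet,
      preimage_univ]
  unfold J Q P
  rw [h1]
  congr 1
  refine tsum_congr fun n => ?_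
  congr 1
  have hpi : MeasurePreserving (fun (z : Fin n → ℂ × Bool) (i : Fin n) => (g (z i).1, (z i).2))
      (Measure.pi fun _ : Fin n => mu ε (g ⁻¹' C)) (Measure.pi fun _ : Fin n => mu ε C) :=
    measurePreserving_pi _ _ fun _ => mu_mp g hg hC hCb hCb'
  rw [← hpi.lintegral_comp (hG n)]
  simp only [mv_range]

lemma Rs_mv (hε : 0 < ε) (g : ℂ ≃ᵐ ℂ) (hg : MeasurePreserving g volume volume)
    (hC : MeasurableSet C) (hCb : Bornology.IsBounded C) (hCb' : Bornology.IsBounded (g ⁻¹' C))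
    (hF : FinMeas F) {S : Cf} (hS : S.Finite) :
    Rs ε C F (mv g S) = Rs ε (g ⁻¹' C) (fun S => F (mv g S)) S := by
  unfold Rs
  have h1 : FM fun T => F (mv g S ∩ ovr Cᶜ ∪ T) :=
    fm_union_fin hF ((mv_finite g hS).subset inter_subset_left)
  rw [← J_mv hε g hg hC hCb hCb' h1]
  congr 1
  funext T
  change F (mv g S ∩ ovr Cᶜ ∪ mv g T) = F (mv g (S ∩ ovr (⇑g ⁻¹' C)ᶜ ∪ T))
  rw [mv_union, mv_inter, preimage_compl]

/-- equal integrals of functions which correspond under `g` at finite configurations -/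
theorem lint_iso (hε : 0 < ε) (g : ℂ ≃ᵐ ℂ) (hg : MeasurePreserving g volume volume)
    (hB : MeasurableSet B) (hb : Bornology.IsBounded B) (hb' : Bornology.IsBounded (g ⁻¹' B))
    (hF : LocalOn B F) (hFm : FinMeas F) (hG : LocalOn (g ⁻¹' B) G) (hGm : FinMeas G)
    (h : ∀ S : Cf, S.Finite → F (mv g S) = G S) :
    ∫⁻ ω, F (cfg ε ω) ∂sampleLaw = ∫⁻ ω, G (cfg ε ω) ∂sampleLaw := by
  rw [← iso ε hε B hB hb g hg hb' F hF hFm]
  exact lint_congr (F := fun S => F (mv g S)) hε (g.measurable hB) hb' (local_mv g hF) hG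
    (fm_mv g hFm) hGm fun S hS _ => h S hS

/-! ## congruent pieces of two nets -/

/-- the gates `I₀` and the tubes `J₀` of `M` are moved by `g` to gates and tubes of `M'` -/
structure Cong {ι κ ι' κ' : Type*} (M : Net ε ι κ) (M' : Net ε ι' κ') (g : ℂ ≃ᵐ ℂ)
    (I₀ : Finset ι) (J₀ : Finset κ) (fI : ι → ι') (fJ : κ → κ') : Prop where
  mp : MeasurePreserving g volume volume
  bdd : ∀ D : Set ℂ, Bornology.IsBounded D → Bornology.IsBounded (g ⁻¹' D)
  injI : Set.InjOn fI I₀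
  injJ : Set.InjOn fJ J₀
  N : ∀ k ∈ J₀, M.N k ⊆ I₀
  N' : ∀ k ∈ J₀, ∀ i' ∈ M'.N (fJ k), ∃ i ∈ I₀, fI i = i'
  Bg : ∀ i ∈ I₀, g ⁻¹' M'.B (fI i) = M.B i
  Cg : ∀ k ∈ J₀, g ⁻¹' M'.C (fJ k) = M.C k
  a : ∀ i ∈ I₀, ∀ S : Cf, S.Finite → M'.a (fI i) (mv g S) = M.a i S
  e : ∀ k ∈ J₀, ∀ S : Cf, S.Finite → M'.e (fJ k) (mv g S) = M.e k S
  c : M'.c = M.c

namespace Cong

variable {ι κ ι' κ' : Type*} {M : Net ε ι κ} {M' : Net ε ι' κ'} {g : ℂ ≃ᵐ ℂ}
  {I₀ : Finset ι} {J₀ : Finset κ} {fI : ι → ι'} {fJ : κ → κ'}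

lemma reg [DecidableEq ι'] [DecidableEq κ'] (h : Cong M M' g I₀ J₀ fI fJ) :
    g ⁻¹' M'.reg (I₀.image fI) (J₀.image fJ) = M.reg I₀ J₀ := by
  unfold Net.reg
  rw [preimage_union, Finset.set_biUnion_finset_image, Finset.set_biUnion_finset_image,
    preimage_iUnion₂, preimage_iUnion₂]
  congr 1
  · exact iUnion₂_congr fun i hi => h.Bg i hi
  · exact iUnion₂_congr fun k hk => h.Cg k hk

lemma hN' [DecidableEq ι'] [DecidableEq κ'] (h : Cong M M' g I₀ J₀ fI fJ) :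
    ∀ k' ∈ J₀.image fJ, M'.N k' ⊆ I₀.image fI := by
  intro k' hk' i' hi'
  obtain ⟨k, hk, rfl⟩ := Finset.mem_image.1 hk'
  obtain ⟨i, hi, rfl⟩ := h.N' k hk i' hi'
  exact Finset.mem_image_of_mem fI hi

/-- `Rs` of functions equal at finite configurations -/
lemma Rs_congr {C : Set ℂ} {F G : Cf → ℝ≥0∞} (hF : FinMeas F) (hG : FinMeas G)
    (h : ∀ S : Cf, S.Finite → F S = G S) {S : Cf} (hS : S.Finite) : Rs ε C F S = Rs ε C G S := by
  rw [Rs_eq hF hS, Rs_eq hG hS]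
  exact lintegral_congr fun y => h _ ((hS.subset inter_subset_left).union (finite_st y))

lemma fac (h : Cong M M' g I₀ J₀ fI fJ) {k : κ} (hk : k ∈ J₀) {S : Cf} (hS : S.Finite) :
    M'.fac (fJ k) (mv g S) = M.fac k S := by
  unfold Net.fac
  rw [h.e k hk S hS, h.c, Rs_mv M.eps g h.mp (M'.Cm _) (M'.Cb _) (h.bdd _ (M'.Cb _)) (M'.em _) hS,
    h.Cg k hk, Rs_congr (fm_mv g (M'.em _)) (M.em k) (fun S hS => h.e k hk S hS) hS]

/-- the weights correspond -/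
lemma gw [DecidableEq ι'] [DecidableEq κ'] (h : Cong M M' g I₀ J₀ fI fJ) {S : Cf}
    (hS : S.Finite) : M'.gw (I₀.image fI) (J₀.image fJ) (mv g S) = M.gw I₀ J₀ S := by
  unfold Net.gw
  rw [Finset.prod_image (by exact h.injI), Finset.prod_image (by exact h.injJ)]
  congr 1
  · exact Finset.prod_congr rfl fun i hi => h.a i hi S hS
  · exact Finset.prod_congr rfl fun k hk => h.fac hk hS

/-- `E[g₀' F'] = E[g₀ F]` -/
theorem lint [DecidableEq ι'] [DecidableEq κ'] (h : Cong M M' g I₀ J₀ fI fJ)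
    {F' : Cf → ℝ≥0∞} (hF' : LocalOn (M'.reg (I₀.image fI) (J₀.image fJ)) F') (hFm' : FinMeas F')
    (hF : LocalOn (M.reg I₀ J₀) F) (hFm : FinMeas F)
    (hFF : ∀ S : Cf, S.Finite → F' (mv g S) = F S) :
    ∫⁻ ω, M'.gw (I₀.image fI) (J₀.image fJ) (cfg ε ω) * F' (cfg ε ω) ∂sampleLaw =
      ∫⁻ ω, M.gw I₀ J₀ (cfg ε ω) * F (cfg ε ω) ∂sampleLaw := by
  have hr := h.reg
  refine lint_iso (B := M'.reg (I₀.image fI) (J₀.image fJ))
    (F := fun S => M'.gw (I₀.image fI) (J₀.image fJ) S * F' S)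
    (G := fun S => M.gw I₀ J₀ S * F S) M.eps g h.mp (M'.reg_meas _ _) (M'.reg_bdd _ _)
    (h.bdd _ (M'.reg_bdd _ _)) (LocalOn.mul (M'.gw_local h.hN') hF')
    (fm_mul (M'.gw_meas _ _) hFm') ?_ (fm_mul (M.gw_meas _ _) hFm) ?_
  · rw [hr]
    exact LocalOn.mul (M.gw_local h.N) hF
  · intro S hS
    rw [h.gw hS, hFF S hS]

theorem mass [DecidableEq ι'] [DecidableEq κ'] (h : Cong M M' g I₀ J₀ fI fJ) :
    ∫⁻ ω, M'.gw (I₀.image fI) (J₀.image fJ) (cfg ε ω) ∂sampleLaw =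
      ∫⁻ ω, M.gw I₀ J₀ (cfg ε ω) ∂sampleLaw := by
  have h1 := h.lint (F := fun _ => 1) (F' := fun _ => 1) (fun _ => rfl) (fun n => measurable_const)
    (fun _ => rfl) (fun n => measurable_const) (fun _ _ => rfl)
  simpa using h1

end Cong

/-- the law of a local function under the weight -/
lemma map_wd {ι κ : Type*} (M : Net ε ι κ) {I : Finset ι} {J : Finset κ}
    {X : Type*} [MeasurableSpace X] {f : Cf → X} (hf : Measurable fun ω => f (cfg ε ω))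
    {s : Set X} (hs : MeasurableSet s) :
    (sampleLaw.withDensity fun ω => M.gw I J (cfg ε ω)).map (fun ω => f (cfg ε ω)) s =
      ∫⁻ ω, M.gw I J (cfg ε ω) * s.indicator (fun _ => (1 : ℝ≥0∞)) (f (cfg ε ω)) ∂sampleLaw := by
  rw [Measure.map_apply hf hs, withDensity_apply _ (hf hs), ← lintegral_indicator (hf hs)]
  refine lintegral_congr fun ω => ?_
  classical
  by_cases h : f (cfg ε ω) ∈ s
  · simp [h]
  · simp [h]

/-- the weighted mean as the mean of the law -/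
lemma integral_wd {ι κ : Type*} (M : Net ε ι κ) {I : Finset ι} {J : Finset κ}
    (hN : ∀ k ∈ J, M.N k ⊆ I) {X Y : Type*} [MeasurableSpace Y] [NormedAddCommGroup X]
    [NormedSpace ℝ X] [MeasurableSpace X] [BorelSpace X] [SecondCountableTopology X] {f : Cf → Y}
    (hf : Measurable fun ω => f (cfg ε ω)) {ph : Y → X} (hph : Measurable ph) :
    ∫ ω, (M.gw I J (cfg ε ω)).toReal • ph (f (cfg ε ω)) ∂sampleLaw =
      ∫ x, ph x ∂((sampleLaw.withDensity fun ω => M.gw I J (cfg ε ω)).map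
        (fun ω => f (cfg ε ω))) := by
  have hg : Measurable fun ω => M.gw I J (cfg ε ω) :=
    meas_fun M.eps (M.reg_meas I J) (M.reg_bdd I J) (M.gw_local hN) (M.gw_meas I J)
  rw [integral_map hf.aemeasurable hph.aestronglyMeasurable,
    integral_withDensity_eq_integral_toReal_smul hg]
  refine Filter.Eventually.of_forall fun ω => ?_
  exact lt_of_le_of_lt (M.gw_le_one hN ω) ENNReal.one_lt_top

namespace Cong

variable {ι κ ι' κ' : Type*} {M : Net ε ι κ} {M' : Net ε ι' κ'} {g : ℂ ≃ᵐ ℂ}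
  {I₀ : Finset ι} {J₀ : Finset κ} {fI : ι → ι'} {fJ : κ → κ'}

/-- the weighted mean of a function transported by `g`: `V' (mv g S) = ph (V S)` -/
theorem mean [DecidableEq ι'] [DecidableEq κ'] (h : Cong M M' g I₀ J₀ fI fJ) {X Y : Type*}
    [MeasurableSpace Y] [NormedAddCommGroup X] [NormedSpace ℝ X] [MeasurableSpace X] [BorelSpace X]
    [SecondCountableTopology X] {V' : Cf → X} {V : Cf → Y} {ph : Y → X} (hph : Measurable ph)
    (hV' : LocalOn (M'.reg (I₀.image fI) (J₀.image fJ)) V') (hVm' : FinMeas V')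
    (hV : LocalOn (M.reg I₀ J₀) V) (hVm : FinMeas V)
    (hVV : ∀ S : Cf, S.Finite → V' (mv g S) = ph (V S)) :
    ∫ ω, (M'.gw (I₀.image fI) (J₀.image fJ) (cfg ε ω)).toReal • V' (cfg ε ω) ∂sampleLaw =
      ∫ ω, (M.gw I₀ J₀ (cfg ε ω)).toReal • ph (V (cfg ε ω)) ∂sampleLaw := by
  have h1 : Measurable fun ω => V' (cfg ε ω) :=
    meas_fun M'.eps (M'.reg_meas _ _) (M'.reg_bdd _ _) hV' hVm'
  have h2 : Measurable fun ω => ph (V (cfg ε ω)) :=
    hph.comp (meas_fun M.eps (M.reg_meas _ _) (M.reg_bdd _ _) hV hVm)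
  have e1 := integral_wd M' (I := I₀.image fI) (J := J₀.image fJ) h.hN' (ph := fun x : X => x) h1
    measurable_id
  have e2 := integral_wd M (I := I₀) (J := J₀) h.N (f := fun S => ph (V S)) (ph := fun x : X => x) h2
    measurable_id
  rw [e1, e2]
  congr 1
  ext s hs
  rw [map_wd M' h1 hs, map_wd M (f := fun S => ph (V S)) h2 hs]
  exact h.lint (F' := fun S => s.indicator (fun _ => (1 : ℝ≥0∞)) (V' S))
    (F := fun S => s.indicator (fun _ => (1 : ℝ≥0∞)) (ph (V S))) (LocalOn.comp hV' _)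
    (fun n => (measurable_const.indicator hs).comp (hVm' n))
    (LocalOn.comp hV fun y => s.indicator (fun _ => (1 : ℝ≥0∞)) (ph y))
    (fun n => (measurable_const.indicator hs).comp (hph.comp (hVm n)))
    (fun S hS => by rw [hVV S hS])

end Cong

/-- **ONE NUMBER**: if the pieces `(I₀, J₀)` of the chain `(I, J)` of `M` and the piece of the chain
`(I', J')` of `M'` correspond under `g`, and `V' ∘ mv g = u V`, then
`E[g] E[g' V'] = u E[g'] E[g V]` -/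
theorem same_mean {ι κ ι' κ' : Type*} [DecidableEq ι'] [DecidableEq κ'] {M : Net ε ι κ}
    {M' : Net ε ι' κ'} {g : ℂ ≃ᵐ ℂ} {I I₀ : Finset ι} {J J₀ : Finset κ} {I' : Finset ι'}
    {J' : Finset κ'} {fI : ι → ι'} {fJ : κ → κ'} (h : Cong M M' g I₀ J₀ fI fJ)
    (hI : I₀ ⊆ I) (hJ : J₀ ⊆ J) (hN : ∀ k ∈ J, M.N k ⊆ I)
    (hI' : I₀.image fI ⊆ I') (hJ' : J₀.image fJ ⊆ J') (hN' : ∀ k ∈ J', M'.N k ⊆ I')
    (h0 : ∫⁻ ω, M.gw I₀ J₀ (cfg ε ω) ∂sampleLaw ≠ 0)
    {V V' : Cf → ℂ} {u : ℂ}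
    (hV' : LocalOn (M'.reg (I₀.image fI) (J₀.image fJ)) V') (hVm' : FinMeas V')
    (hV : LocalOn (M.reg I₀ J₀) V) (hVm : FinMeas V)
    (hVV : ∀ S : Cf, S.Finite → V' (mv g S) = u * V S) :
    (∫⁻ ω, M.gw I J (cfg ε ω) ∂sampleLaw).toReal *
        ∫ ω, (M'.gw I' J' (cfg ε ω)).toReal • V' (cfg ε ω) ∂sampleLaw =
      u * ((∫⁻ ω, M'.gw I' J' (cfg ε ω) ∂sampleLaw).toReal *
        ∫ ω, (M.gw I J (cfg ε ω)).toReal • V (cfg ε ω) ∂sampleLaw) := by
  have : IsProbabilityMeasure sampleLaw := by unfold sampleLaw; infer_instance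
  have e1 := M.mean hI hJ hN h.N hV hVm
  have e2 := M'.mean hI' hJ' hN' h.hN' hV' hVm'
  have e3 := h.mean (V' := V') (V := V) (ph := fun z : ℂ => u * z) (measurable_const_mul u) hV' hVm'
    hV hVm hVV
  have e4 := h.mass
  rw [e3, e4] at e2
  simp only [Complex.real_smul] at e1 e2 ⊢
  have hfin : ∫⁻ ω, M.gw I₀ J₀ (cfg ε ω) ∂sampleLaw ≠ ∞ := by
    refine ne_top_of_le_ne_top ENNReal.one_ne_top ?_
    calc ∫⁻ ω, M.gw I₀ J₀ (cfg ε ω) ∂sampleLaw ≤ ∫⁻ _, 1 ∂sampleLaw :=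
          lintegral_mono fun ω => M.gw_le_one h.N ω
      _ = 1 := by simp
  have hp : ((∫⁻ ω, M.gw I₀ J₀ (cfg ε ω) ∂sampleLaw).toReal : ℂ) ≠ 0 := by
    exact_mod_cast (ENNReal.toReal_pos h0 hfin).ne'
  have e5 : ∫ ω, ((M.gw I₀ J₀ (cfg ε ω)).toReal : ℂ) * (u * V (cfg ε ω)) ∂sampleLaw =
      u * ∫ ω, ((M.gw I₀ J₀ (cfg ε ω)).toReal : ℂ) * V (cfg ε ω) ∂sampleLaw := by
    rw [← integral_const_mul]
    congr 1
    funext ω
    ring
  rw [e5] at e2
  refine mul_left_cancel₀ hp ?_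
  linear_combination ((∫⁻ ω, M.gw I J (cfg ε ω) ∂sampleLaw).toReal : ℂ) * e2 -
    (u * ((∫⁻ ω, M'.gw I' J' (cfg ε ω) ∂sampleLaw).toReal : ℂ)) * e1

end Crest.Agent.R143.PWx978
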