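import Crest.Agent.R143.Coarse_166
import Crest.Agent.R143.Giant_46
import Crest.Agent.R143.Resa_778

/-!
# Row 143: merging explored pieces, partial tubes (helper778; notes 3146, 3363, 3285 (4'), 3339 (A))

* `OutP M x p n k` : the gap `k` is not passed in the piece `P p 0, ..., P p n` of the loop;
* `Harm M π x p₀ Q c'` : the class `c'` is harmless for the loop of `p₀` and the gaps `Q`: it is a
  single cell, or it is not visited by the loop (left cells), or all its visited cells are visited in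
  ONE piece of the loop and the gaps of `Q` are outside this piece;
* `rel_pieces` : **MERGE LEMMA**: then related in `M` ⟹ related in the coarse map (166);
* `blk_pieces` : a block sum of `M` (field zero on the explored gaps) is bounded by the block sums
  of the coarse map;
* `Gts`, `Gts.sum`, `Gts.frame` : colourings with prescribed colours on the explored cells `E` =
  colourings of the coarse map with prescribed colours of the giants; conditional frame;
* `part` : **PARTIAL TUBES**: bound relative to the weight of the other tubes and gates.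
-/

set_option autoImplicit false
set_option linter.unusedSectionVars false

noncomputable section

open scoped Classical

namespace Crest.Agent.R143.Partx778

open Crest.Agent.R143.Frame1x395 Crest.Agent.R143.Frame2x395 Crest.Agent.R143.Frame3x395
  Crest.Agent.R143.Frame4x395 Crest.Agent.R143.Frame8x395 Crest.Agent.R143.NonXx592
  Crest.Agent.R143.Coarsex166 Crest.Agent.R143.Giantx46 Crest.Agent.R143.Resax778

section rel

variable {D C C' : Type} {M : CMap D C} {x : D → ZMod 2} {π : C → C'} {hπ : ClsCon M π}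

/-- the gap `k` is not passed in the piece `P p 0, ..., P p n` -/
def OutP (M : CMap D C) (x : D → ZMod 2) (p : D) (n : ℕ) (k : D) : Prop :=
  ∀ i < n, P M x p i ≠ M.rho k

/-- the class `c'` is harmless for the loop of `p₀` and the gaps in `Q` -/
def Harm (M : CMap D C) (π : C → C') (x : D → ZMod 2) (p₀ : D) (Q : D → Prop) (c' : C') : Prop :=
  (∀ c₁ c₂, π c₁ = c' → π c₂ = c' → c₁ = c₂) ∨ (∀ i, π (M.cell (P M x p₀ i)) ≠ c') ∨
  ∃ p n, (∃ a, P M x p₀ a = p) ∧ (∀ k, Q k → OutP M x p n k) ∧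
    ∀ i, π (M.cell (P M x p₀ i)) = c' → ∃ j ≤ n, M.cell (P M x p j) = M.cell (P M x p₀ i)

theorem per_mod {p : D} {N : ℕ} (hN : P M x p N = p) (n : ℕ) :
    P M x p (n % N) = P M x p n := by
  have key : ∀ k m, P M x p (m + k * N) = P M x p m := by
    intro k
    induction k with
    | zero => intro m; rw [Nat.zero_mul, Nat.add_zero]
    | succ k ih =>
      intro m
      rw [Nat.succ_mul, ← Nat.add_assoc, P_per hN, ih]
  have h := key (n / N) (n % N)
  rw [Nat.mul_comm, Nat.mod_add_div] at h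
  exact h.symm

/-- **MERGE LEMMA** -/
theorem rel_pieces [Finite D] (hx : IsC (coarse M π hπ) ∅ x) {Q : D → Prop} {p₀ g h : D}
    (hp₀ : x p₀ = 1) (hg : Gp M x g) (hh : Gp M x h) (qg : Q g) (qh : Q h)
    (hp : ∃ a, P M x p₀ a = M.rho g) (H : ∀ c', Harm M π x p₀ Q c') (R : Rel M x g h) :
    Rel (coarse M π hπ) x g h := by
  have hxM : IsC M ∅ x := IsC.of_coarse hx
  by_cases hgh : g = h
  · subst hgh; exact fun _ => Or.inl rfl
  obtain ⟨N, N0, per, inj, last⟩ := exists_period hxM hg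
  -- the time of `h`
  obtain ⟨b', hb'⟩ : ∃ n, P M x (out M g) n = M.rho h := by
    rcases R (M.cell g) with e | ⟨n, e, -⟩ | ⟨n, e, -⟩
    · exact absurd e hgh
    · exact ⟨n, e⟩
    · exact come_back hxM hh hg e
  set b := b' % N with hb
  have hbN : b < N := Nat.mod_lt _ N0
  have hhb : M.rho h = P M x (out M g) b := by rw [hb, per_mod per, hb']
  have hb1 : b + 1 < N := by
    rcases Nat.lt_or_ge (b + 1) N with h1 | h1
    · exact h1
    · have e : b = N - 1 := by omega
      rw [e, ← last] at hhb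
      exact absurd (rho_inj M hhb).symm hgh
  have h2 := (rel_loop hxM hg per inj last hb1 hh hhb).1 R
  refine (rel_loop hx (M := coarse M π hπ) hg per inj last hb1 hh hhb).2 ?_
  intro u hu v hv1 hv2 e
  have e' : π (M.cell (P M x (out M g) u)) = π (M.cell (P M x (out M g) v)) := e
  -- the loop of `p₀`
  obtain ⟨a, ha⟩ := hp
  have hout : out M g = P M x p₀ (a + 1) := out_eq hxM hg ha.symm
  have tr : ∀ n, P M x (out M g) n = P M x p₀ (n + (a + 1)) := by
    intro n; rw [P_add, ← hout]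
  rcases H (π (M.cell (P M x (out M g) v))) with H1 | H1 | ⟨p, n, ⟨c, hc⟩, Hq, Hv⟩
  · exact h2 u hu v hv1 hv2 (H1 _ _ e' rfl)
  · exact H1 (v + (a + 1)) (by rw [← tr])
  · -- the piece starts at the time `t`
    obtain ⟨N', hN'0, hN'⟩ := periodic hxM hp₀
    have key : ∀ k, P M x p₀ (c + k * N') = p := by
      intro k
      have h3 := per_mod (M := M) (x := x) hN' (c + k * N')
      rw [Nat.add_mul_mod_self_right, per_mod hN', hc] at h3
      exact h3.symm
    have ht' : ∃ t', P M x (out M g) t' = p := by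
      refine ⟨c + (a + 1) * N' - (a + 1), ?_⟩
      rw [tr, Nat.sub_add_cancel, key]
      calc a + 1 ≤ (a + 1) * N' := Nat.le_mul_of_pos_right _ hN'0
        _ ≤ c + (a + 1) * N' := Nat.le_add_left _ _
    obtain ⟨t', ht'⟩ := ht'
    set t := t' % N with ht
    have htN : t < N := Nat.mod_lt _ N0
    have htp : P M x (out M g) t = p := by rw [ht, per_mod per, ht']
    have piece : ∀ i, P M x p i = P M x (out M g) (i + t) := by
      intro i; rw [P_add, htp]
    have c1 : t + n ≤ N - 1 := by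
      by_contra hc1
      have h3 := Hq g qg (N - 1 - t) (by omega)
      rw [piece, show N - 1 - t + t = N - 1 by omega, ← last] at h3
      exact h3 rfl
    have c2 : b < t ∨ t + n ≤ b := by
      by_contra hc2
      push Not at hc2
      have h3 := Hq h qh (b - t) (by omega)
      rw [piece, show b - t + t = b by omega, ← hhb] at h3
      exact h3 rfl
    rcases c2 with c2 | c2
    · obtain ⟨j, hj, hj'⟩ := Hv (u + (a + 1)) (by rw [← tr]; exact e')
      rw [piece, ← tr] at hj'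
      exact h2 u hu (j + t) (by omega) (by omega) hj'.symm
    · obtain ⟨j, hj, hj'⟩ := Hv (v + (a + 1)) (by rw [← tr])
      rw [piece, ← tr] at hj'
      exact h2 (j + t) (by omega) v hv1 hv2 hj'

/-- **block sums** -/
theorem blk_pieces [Fintype D] (hx : IsC (coarse M π hπ) ∅ x) {g : D} (hg : Gp M x g)
    {Q : D → Prop} {a : D → ℂ} (hQ : ∀ k ∈ blk M x g, ¬ Q k → a k = 0)
    (H : ∀ c', Harm M π x (out M g) Q c') :
    ‖∑ k ∈ blk M x g, a k‖ ^ 2 ≤ ∑ β ∈ blks (coarse M π hπ) x, ‖∑ k ∈ β, a k‖ ^ 2 := by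
  have hxM : IsC M ∅ x := IsC.of_coarse hx
  have nn : ∀ β ∈ blks (coarse M π hπ) x, (0 : ℝ) ≤ ‖∑ k ∈ β, a k‖ ^ 2 := fun β _ => by positivity
  by_cases ex : ∃ k₀ ∈ blk M x g, Q k₀
  · obtain ⟨k₀, hk, qk⟩ := ex
    obtain ⟨gk, rk⟩ := mem_blk.1 hk
    have e0 : blk M x k₀ = blk M x g := blk_eq hxM hg hk
    have loop : ∀ {k : D}, k ∈ blk M x g → ∃ n, P M x (out M g) n = M.rho k := by
      intro k hk'
      obtain ⟨g1, r1⟩ := mem_blk.1 hk'
      rcases r1 (M.cell g) with e | ⟨n, e, -⟩ | ⟨n, e, -⟩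
      · subst e
        obtain ⟨N, N0, per, -, last⟩ := exists_period hxM hg
        exact ⟨N - 1, last.symm⟩
      · exact ⟨n, e⟩
      · exact come_back hxM g1 hg e
    have e1 : ∑ k ∈ blk M x g, a k = ∑ k ∈ blk (coarse M π hπ) x k₀, a k := by
      symm
      refine Finset.sum_subset ?_ ?_
      · rw [← e0]; exact blk_coarse_sub
      · intro k hk1 hk2
        by_contra hne
        have qk' : Q k := by
          by_contra hq
          exact hne (hQ k hk1 hq)
        have hk1' : k ∈ blk M x k₀ := by rwa [e0]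
        obtain ⟨g1, r1⟩ := mem_blk.1 hk1'
        exact hk2 (mem_blk.2 ⟨g1, rel_pieces hx (hg.out hxM) gk g1 qk qk' (loop hk) H r1⟩)
    rw [e1]
    exact Finset.single_le_sum nn (Finset.mem_image_of_mem _ (mem_gaps.2 gk))
  · push Not at ex
    rw [Finset.sum_eq_zero fun k hk => hQ k hk (ex k hk), norm_zero]
    calc (0 : ℝ) ^ 2 = 0 := by norm_num
      _ ≤ _ := Finset.sum_nonneg nn

end rel

/-! ### colourings with prescribed colours on the explored cells -/

section gts

variable {D C C' : Type} [Fintype D] [Fintype C] [Fintype C'] {M : CMap D C} {π : C → C'}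
  {hπ : ClsCon M π}

/-- the giants `A` of the explored cells `E`, with the colours `χ₀` on `E`, `v` on `A` -/
structure Gts (π : C → C') (E : Finset C) (χ₀ : C → ZMod 2) (A : Finset C') (v : C' → ZMod 2) :
    Prop where
  surj : Function.Surjective π
  inj : ∀ c c', c ∉ E → π c = π c' → c = c'
  mem : ∀ c ∈ E, π c ∈ A
  ex : ∀ a ∈ A, ∃ c ∈ E, π c = a
  col : ∀ c ∈ E, χ₀ c = v (π c)

variable {E : Finset C} {χ₀ : C → ZMod 2} {A : Finset C'} {v : C' → ZMod 2}

theorem Gts.sum (H : Gts π E χ₀ A v) {X : Type} [AddCommMonoid X] (F : (C → ZMod 2) → X) :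
    ∑ χ ∈ pre E χ₀, F χ = ∑ χ ∈ pre A v, F (fun c => χ (π c)) := by
  symm
  refine Finset.sum_bij (fun χ _ => fun c => χ (π c)) ?_ ?_ ?_ (fun _ _ => rfl)
  · intro χ hχ
    have h := (Finset.mem_filter.1 hχ).2
    exact Finset.mem_filter.2 ⟨Finset.mem_univ _, fun c hc => by
      show χ (π c) = χ₀ c
      rw [h _ (H.mem c hc), H.col c hc]⟩
  · intro χ _ χ' _ e
    funext c'
    obtain ⟨c, rfl⟩ := H.surj c'
    exact congrFun e c
  · intro χ hχ
    have h := (Finset.mem_filter.1 hχ).2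
    have key : ∀ c c', π c = π c' → χ c = χ c' := by
      intro c c' e
      by_cases h1 : c ∈ E
      · by_cases h2 : c' ∈ E
        · rw [h c h1, h c' h2, H.col c h1, H.col c' h2, e]
        · rw [H.inj c' c h2 e.symm]
      · rw [H.inj c c' h1 e]
    have e1 : ∀ c, χ ((H.surj (π c)).choose) = χ c := fun c => key _ _ (H.surj (π c)).choose_spec
    refine ⟨fun c' => χ ((H.surj c').choose), ?_, funext fun c => e1 c⟩
    refine Finset.mem_filter.2 ⟨Finset.mem_univ _, fun a ha => ?_⟩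
    obtain ⟨c, hc, rfl⟩ := H.ex a ha
    exact (e1 c).trans ((h c hc).trans (H.col c hc))

theorem Gts.card (H : Gts π E χ₀ A v) : (pre A v).card = (pre E χ₀).card := by
  have h := H.sum (X := ℕ) fun _ => 1
  simpa using h.symm

theorem sum_glue {X : Type} [AddCommMonoid X] (E : Finset C) (χ₀ : C → ZMod 2)
    (F : (C → ZMod 2) → X) : ∑ τ, F (glue E χ₀ τ) = (2 ^ E.card) • ∑ χ ∈ pre E χ₀, F χ := by
  rw [← Finset.sum_fiberwise_of_maps_to (s := (Finset.univ : Finset (C → ZMod 2)))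
    (t := pre E χ₀) (g := glue E χ₀)
    (fun τ _ => Finset.mem_filter.2 ⟨Finset.mem_univ _, fun c hc => glue_on hc⟩), Finset.smul_sum]
  refine Finset.sum_congr rfl fun χ hχ => ?_
  have h := (Finset.mem_filter.1 hχ).2
  rw [Finset.sum_congr rfl (g := fun _ => F χ) fun τ hτ => by
    rw [(Finset.mem_filter.1 hτ).2], Finset.sum_const]
  congr 1
  -- the configurations which coincide with `χ` off `E`
  have e : (Finset.univ.filter fun τ => glue E χ₀ τ = χ) = pre (Finset.univ \ E) χ := by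
    ext τ
    unfold pre
    rw [Finset.mem_filter, Finset.mem_filter]
    refine and_congr_right fun _ => ?_
    constructor
    · intro h1 c hc
      have h2 := congrFun h1 c
      rwa [glue_off (Finset.mem_sdiff.1 hc).2] at h2
    · intro h1
      funext c
      by_cases hc : c ∈ E
      · rw [glue_on hc, h c hc]
      · rw [glue_off hc, h1 c (Finset.mem_sdiff.2 ⟨Finset.mem_univ _, hc⟩)]
  rw [e]
  have h1 := card_pre (Finset.univ \ E) χ
  have h2 : (Finset.univ \ E).card + E.card = Fintype.card C := by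
    rw [← Finset.card_univ, Finset.card_sdiff_add_card_eq_card (Finset.subset_univ E)]
  have h3 : Fintype.card (C → ZMod 2) = 2 ^ (Finset.univ \ E).card * 2 ^ E.card := by
    rw [← pow_add, h2, Fintype.card_fun, ZMod.card]
  rw [h3] at h1
  exact Nat.eq_of_mul_eq_mul_left (pow_pos (by norm_num) _) h1

/-- **conditional frame of the explored net** -/
theorem Gts.frame (H : Gts π E χ₀ A v) {w : ℂ} (w3 : w ^ 3 = 1) (w1 : w ≠ 1)
    (wc : (starRingEnd ℂ) w = w ^ 2) {a : D → ℂ} (ha : Spin M w a) :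
    ∑ τ, ∑ β ∈ blks (coarse M π hπ) (cfg M (glue E χ₀ τ)), ‖∑ g ∈ β, a g‖ ^ 2 ≤
      (2 : ℝ) ^ A.card / 4 * Fintype.card (C → ZMod 2) * ∑ g, ‖a g‖ ^ 2 := by
  rw [sum_glue E χ₀ fun χ => ∑ β ∈ blks (coarse M π hπ) (cfg M χ), ‖∑ g ∈ β, a g‖ ^ 2]
  rw [H.sum fun χ => ∑ β ∈ blks (coarse M π hπ) (cfg M χ), ‖∑ g ∈ β, a g‖ ^ 2]
  have ha' : Spin (coarse M π hπ) w a := ha
  have h1 := giants_sub (M := coarse M π hπ) w3 w1 wc ha' A v (S := pre A v) subset_rfl
  rw [nsmul_eq_mul]
  push_cast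
  calc (2 : ℝ) ^ E.card * ∑ χ ∈ pre A v, ∑ β ∈ blks (coarse M π hπ) (cfg M fun c => χ (π c)),
        ‖∑ g ∈ β, a g‖ ^ 2
      ≤ (2 : ℝ) ^ E.card * ((2 : ℝ) ^ A.card / 4 * (pre A v).card * ∑ g, ‖a g‖ ^ 2) :=
        mul_le_mul_of_nonneg_left h1 (by positivity)
    _ = (2 : ℝ) ^ A.card / 4 * ((2 : ℝ) ^ E.card * (pre E χ₀).card) * ∑ g, ‖a g‖ ^ 2 := by
        rw [H.card]; ring
    _ = _ := by
        congr 2
        have h2 := card_pre E χ₀
        rw [← h2]
        push_cast
        ring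

end gts

/-! ### partial tubes -/

section part

variable {D C : Type} [Fintype D] [Fintype C] {M : CMap D C}

/-- **PARTIAL TUBES.** `O` = cells revealed by the exploration; `T` = cells of the tube; `r σ` = what
is seen off `T`; `K (r σ)` = cells revealed off `T` on the event `G`; `g (r σ)` = weight of the other
tubes and gates; `mix O σ τ` = `σ` on the revealed cells, fresh elsewhere. -/
theorem part {w : ℂ} (w3 : w ^ 3 = 1) (w1 : w ≠ 1) (wc : (starRingEnd ℂ) w = w ^ 2)
    {O : (C → ZMod 2) → Finset C} (hO : StopSet O) {T : Finset C} {R : Type}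
    {r : (C → ZMod 2) → R} (hr : ∀ σ τ, (∀ s, s ∉ T → τ s = σ s) → r τ = r σ)
    {K : R → Finset C} (hKT : ∀ σ, Disjoint (K (r σ)) T)
    {G : (C → ZMod 2) → Prop} (hG : ∀ σ, G σ → O σ \ T = K (r σ))
    {g : R → ℝ} (hg0 : ∀ σ, 0 ≤ g (r σ))
    {C' : R → Type} [∀ q, Fintype (C' q)] {π : ∀ q, C → C' q} {hπ : ∀ q, ClsCon M (π q)}
    {A : ∀ q, Finset (C' q)} {v : ∀ q, C' q → ZMod 2} {m : ℕ} (hA : ∀ q, (A q).card ≤ m)
    (HG : ∀ σ, g (r σ) ≠ 0 → Gts (π (r σ)) (K (r σ)) σ (A (r σ)) (v (r σ)))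
    {a : R → D → ℂ} (ha : ∀ q, Spin M w (a q))
    {X : (C → ZMod 2) → (C → ZMod 2) → ℝ}
    (hX : ∀ σ τ, G σ → g (r σ) ≠ 0 → X σ τ ≤
      ∑ β ∈ blks (coarse M (π (r σ)) (hπ (r σ))) (cfg M (mix O σ τ)), ‖∑ k ∈ β, a (r σ) k‖ ^ 2) :
    ∑ σ, ∑ τ, (if G σ then g (r σ) * X σ τ else 0) ≤
      (2 : ℝ) ^ m / 4 * Fintype.card (C → ZMod 2) * ∑ σ, g (r σ) * ∑ k, ‖a (r σ) k‖ ^ 2 := by
  have h1 : ∑ σ, ∑ τ, (if G σ then g (r σ) * X σ τ else 0) ≤
      ∑ σ, ∑ τ, (if G σ then g (r σ) *
        ∑ β ∈ blks (coarse M (π (r σ)) (hπ (r σ))) (cfg M (mix O σ τ)),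
          ‖∑ k ∈ β, a (r σ) k‖ ^ 2 else 0) := by
    refine Finset.sum_le_sum fun σ _ => Finset.sum_le_sum fun τ _ => ?_
    by_cases h : G σ
    · rw [if_pos h, if_pos h]
      by_cases h' : g (r σ) = 0
      · rw [h', zero_mul, zero_mul]
      · exact mul_le_mul_of_nonneg_left (hX σ τ h h') (hg0 σ)
    · rw [if_neg h, if_neg h]
  have h2 := dens (S := C) (B := ZMod 2) hO (T := T) (K := fun σ => K (r σ)) hKT
    (fun σ τ h => by show K (r τ) = K (r σ); rw [hr σ τ h]) (G := G) hG (g := fun σ => g (r σ))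
    (fun σ τ h => by show g (r τ) = g (r σ); rw [hr σ τ h]) hg0
    (F := fun σ μ => ∑ β ∈ blks (coarse M (π (r σ)) (hπ (r σ))) (cfg M μ),
      ‖∑ k ∈ β, a (r σ) k‖ ^ 2)
    (fun σ μ => Finset.sum_nonneg fun β _ => by positivity)
    (fun σ τ μ h => by
      show ∑ β ∈ blks (coarse M (π (r τ)) (hπ (r τ))) (cfg M μ), ‖∑ k ∈ β, a (r τ) k‖ ^ 2 =
        ∑ β ∈ blks (coarse M (π (r σ)) (hπ (r σ))) (cfg M μ), ‖∑ k ∈ β, a (r σ) k‖ ^ 2
      rw [hr σ τ h])
  refine (h1.trans h2).trans ?_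
  rw [Finset.mul_sum]
  refine Finset.sum_le_sum fun σ _ => ?_
  rw [← Finset.mul_sum]
  by_cases h' : g (r σ) = 0
  · rw [h', zero_mul, zero_mul, mul_zero]
  have h3 := (HG σ h').frame (M := M) (hπ := hπ (r σ)) w3 w1 wc (ha (r σ))
  calc g (r σ) * ∑ τ, ∑ β ∈ blks (coarse M (π (r σ)) (hπ (r σ))) (cfg M (glue (K (r σ)) σ τ)),
        ‖∑ k ∈ β, a (r σ) k‖ ^ 2
      ≤ g (r σ) * ((2 : ℝ) ^ (A (r σ)).card / 4 * Fintype.card (C → ZMod 2) *
        ∑ k, ‖a (r σ) k‖ ^ 2) := mul_le_mul_of_nonneg_left h3 (hg0 σ)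
    _ ≤ g (r σ) * ((2 : ℝ) ^ m / 4 * Fintype.card (C → ZMod 2) *
        ∑ k, ‖a (r σ) k‖ ^ 2) := by
        refine mul_le_mul_of_nonneg_left ?_ (hg0 σ)
        have h5 : (2 : ℝ) ^ (A (r σ)).card ≤ 2 ^ m := pow_le_pow_right₀ (by norm_num) (hA _)
        gcongr
    _ = _ := by ring

end part

end Crest.Agent.R143.Partx778
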