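import Crest.Agent.R143.PatF_253
import Crest.Agent.R143.KapB_690

/-!
# Row 143 (S0194), block H, H5, box (F) of note 4110 (helper253): `Rv` for the decided weight

The weight of H5 is `w = avJ Jf g₀ = E[g₀ | outside]` (690's `KapB`, 440's `cw`), `g₀` the product
weight of the ring, circuits and arms.

* `hd_dec` : the local energy is a function of the sites
* `mq_avJ_hd` : `mq (avJ Jf g₀ · Hd) = mq (g₀ · Hd)`
* `frq_avJ` : `FrQ` for `w = avJ Jf g₀` from the stopping set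
* **`rv_gen`** : any weight `w` with `mq (w Hd) ≤ mq (g₀ Hd)` : `Rv := K mq (g₀ Hd)`, the three facts
* `en_dom` : `g₀ ≤ M.gw I J` on the painted configurations: `∫⁻ mq (g₀ Hd) ≤ (n C₀ s² / m0) mass`
* **`rv_avJ`** : all together: `w = avJ Jf g₀`, `g₀ ≤ M.gw I J`, `∫⁻ Rv ≤ K (n C₀ s² / m0) mass M I J`
-/

set_option autoImplicit false
set_option linter.unusedSectionVars false

noncomputable section

open scoped Classical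

namespace Crest.Agent.R143.PatF2x253

open MeasureTheory
open Crest.ProbabilityR.Voronoi
open Crest.Agent.R143.Dblx609 Crest.Agent.R143.Dbl2x609 Crest.Agent.R143.HGluex136
open Crest.Agent.R143.Harx315 Crest.Agent.R143.PWx978
  Crest.Agent.R143.Hqx304 Crest.Agent.R143.FrEnx253 Crest.Agent.R143.TilePx176
open Crest.Agent.R143.PatFx253 Crest.Agent.R143.KapBx690
open scoped ENNReal

variable {ε : ℝ} {B : Set ℂ} {ω : Sample} {w g₀ : Set (ℂ × Bool) → ℝ≥0∞}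
    {P : Set (ℂ × Bool) → Prop} {Φ : Set (ℂ × Bool) → ℝ≥0∞} {K : ℝ≥0∞} {D₀ : Set ℂ} {d : ℝ}

/-- the energy does not depend on the colours -/
theorem hd_dec (A b b' : Finset ℂ) : Hd D₀ d (paint A b') = Hd D₀ d (paint A b) :=
  TileRx176.Hd_paint D₀ d A b' b

theorem mq_avJ_hd {Jf : Finset ℂ → Finset ℂ → Finset ℂ}
    (hJ : IsStop (Ap ε B ω) (Jf (Ap ε B ω))) (g₀ : Set (ℂ × Bool) → ℝ≥0∞) :
    mq ε B (fun X => avJ Jf g₀ X * Hd D₀ d X) ω = mq ε B (fun X => g₀ X * Hd D₀ d X) ω :=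
  mq_avJ_mul hJ g₀ (Hd D₀ d) fun b _ b' _ _ => hd_dec _ b b'

/-- `FrQ` for the conditional mean of the weight -/
theorem frq_avJ {A : Finset ℂ} {Jf : Finset ℂ → Finset ℂ → Finset ℂ} (hJ : IsStop A (Jf A))
    (hP : ∀ β, β ⊆ A → ∀ β', β' ⊆ A → β' ∩ Jf A β = β ∩ Jf A β →
      (P (paint A β') ↔ P (paint A β)))
    (h : ∀ β, β ⊆ A → avJ Jf g₀ (paint A β) ≠ 0 → P (paint A β) →
      av A (Jf A β) (fun b => Φ (paint A b)) β ≤ K * Hd D₀ d (paint A β)) :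
    FrQ A (avJ Jf g₀) P Φ (Hd D₀ d) K := by
  refine ⟨Jf A, hJ, fun β hβ β' hβ' e => ⟨?_, hP β hβ β' hβ' e⟩, h⟩
  rw [avJ_paint Jf g₀ hβ, avJ_paint Jf g₀ hβ']
  exact av_dec hJ _ hβ hβ' e

/-- **any weight** -/
theorem rv_gen (hε : 0 < ε) (hBm : MeasurableSet B) (hB : Bornology.IsBounded B)
    (hD : MeasurableSet D₀) (hg : Poisx304.FM g₀)
    (hw : ∀ᵐ ω ∂sampleLaw, mq ε B (fun X => w X * Hd D₀ d X) ω ≤
      mq ε B (fun X => g₀ X * Hd D₀ d X) ω)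
    (hQ : ∀ᵐ ω ∂sampleLaw, FrQ (Ap ε B ω) w P Φ (Hd D₀ d) K) :
    AEMeasurable (Rvf K ε B g₀ D₀ d) sampleLaw ∧
    (∀ᵐ ω ∂sampleLaw, mq ε B (fun X => w X * (if P X then Φ X else 0)) ω ≤
      Rvf K ε B g₀ D₀ d ω) ∧
    ∫⁻ ω, Rvf K ε B g₀ D₀ d ω ∂sampleLaw =
      K * ∫⁻ ω, mq ε B (fun X => g₀ X * Hd D₀ d X) ω ∂sampleLaw := by
  have hFM : Poisx304.FM fun X : Set (ℂ × Bool) => g₀ X * Hd D₀ d X :=
    fun k => (hg k).mul (Hd_meas hD d k)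
  have hm := mq_meas hε hBm hB hFM
  refine ⟨hm.const_mul K, ?_, lintegral_const_mul'' _ hm⟩
  filter_upwards [hw, hQ] with ω h1 h2
  refine (mq_fr h2).trans ?_
  unfold Rvf
  gcongr

/-- **the energy under a weight which is at most the product weight** -/
theorem en_dom : ∃ C₀ : ℝ, 0 ≤ C₀ ∧ ∀ {ε d s : ℝ} {ι κ : Type} [DecidableEq ι] [DecidableEq κ]
    {M : Net ε ι κ} {I : Finset ι} {J : Finset κ} {n : ℕ} {I₁ : ℕ → Finset ι}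
    {J₁ : ℕ → Finset κ} {D : ℕ → Set ℂ} {B : Set ℂ} {m0 : ℝ≥0∞},
    Wnd M I J n I₁ J₁ D d s B m0 → ∀ (D₀ : Set ℂ), MeasurableSet D₀ →
    D₀ ⊆ (⋃ l ∈ Finset.range n, D l) → ∀ g₀ : Set (ℂ × Bool) → ℝ≥0∞,
    (∀ᵐ ω ∂sampleLaw, ∀ β ∈ (Ap ε B ω).powerset,
      g₀ (paint (Ap ε B ω) β) ≤ M.gw I J (paint (Ap ε B ω) β)) →
    ∫⁻ ω, mq ε B (fun X => g₀ X * Hd D₀ d X) ω ∂sampleLaw ≤
      ENNReal.ofReal (n * (C₀ * s ^ 2 / m0.toReal)) * RingLx239.mass M I J := by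
  obtain ⟨C₀, hC₀, ht⟩ := en_cover
  refine ⟨C₀, hC₀, ?_⟩
  intro ε d s ι κ _ _ M I J n I₁ J₁ D B m0 h D₀ hDm hD g₀ hg
  have hFM : Poisx304.FM fun X : Set (ℂ × Bool) => M.gw I J X * Hd D₀ d X :=
    fun k => (M.gw_meas _ _ k).mul (Hd_meas hDm d k)
  have h1 : ∫⁻ ω, mq ε B (fun X => g₀ X * Hd D₀ d X) ω ∂sampleLaw ≤
      ∫⁻ ω, mq ε B (fun X => M.gw I J X * Hd D₀ d X) ω ∂sampleLaw := by
    refine lintegral_mono_ae ?_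
    filter_upwards [hg] with ω hω
    refine mq_mono fun β hβ => ?_
    gcongr
    exact hω β hβ
  refine h1.trans ?_
  rw [lint_eq_mq M.eps h.Bm h.Bb hFM]
  have h0 : ∀ o ∈ D₀, Metric.closedBall o d ⊆ B := by
    intro o ho
    obtain ⟨l, hl', ho'⟩ := Set.mem_iUnion₂.1 (hD ho)
    obtain ⟨z, W, w1, w2, w3, w4, w5⟩ := h.W l (Finset.mem_range.1 hl')
    exact (w4 o ho').trans w2
  have g0 : PP0x831.LocalOn B (M.gw I J) :=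
    IndLocx279.LocalOn.mono h.reg (M.gw_local h.hN)
  have e1 : ∀ ω, M.gw I J (PP0x831.cfg ε ω ∩ ovM Bool B) = M.gw I J (PP0x831.cfg ε ω) :=
    fun ω => (g0 (PP0x831.cfg ε ω)).symm
  have e2 : ∀ ω, Hd D₀ d (PP0x831.cfg ε ω ∩ ovM Bool B) = Hd D₀ d (PP0x831.cfg ε ω) :=
    fun ω => (Hd_local h0 (PP0x831.cfg ε ω)).symm
  simp_rw [e1, e2]
  exact ht h D₀ hD

/-- **the fields `Rv` for `w = avJ Jf g₀`** -/
theorem rv_avJ : ∃ C₀ : ℝ, 0 ≤ C₀ ∧ ∀ {ε d s : ℝ} {ι κ : Type} [DecidableEq ι] [DecidableEq κ]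
    {M : Net ε ι κ} {I : Finset ι} {J : Finset κ} {n : ℕ} {I₁ : ℕ → Finset ι}
    {J₁ : ℕ → Finset κ} {D : ℕ → Set ℂ} {B : Set ℂ} {m0 : ℝ≥0∞},
    Wnd M I J n I₁ J₁ D d s B m0 → ∀ (D₀ : Set ℂ), MeasurableSet D₀ →
    D₀ ⊆ (⋃ l ∈ Finset.range n, D l) → ∀ g₀ : Set (ℂ × Bool) → ℝ≥0∞, Poisx304.FM g₀ →
    (∀ᵐ ω ∂sampleLaw, ∀ β ∈ (Ap ε B ω).powerset,
      g₀ (paint (Ap ε B ω) β) ≤ M.gw I J (paint (Ap ε B ω) β)) →
    ∀ Jf : Finset ℂ → Finset ℂ → Finset ℂ,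
    (∀ᵐ ω ∂sampleLaw, IsStop (Ap ε B ω) (Jf (Ap ε B ω))) →
    ∀ (K : ℝ≥0∞) (P : Set (ℂ × Bool) → Prop) (Φ : Set (ℂ × Bool) → ℝ≥0∞),
    (∀ᵐ ω ∂sampleLaw, FrQ (Ap ε B ω) (avJ Jf g₀) P Φ (Hd D₀ d) K) →
    AEMeasurable (Rvf K ε B g₀ D₀ d) sampleLaw ∧
    (∀ᵐ ω ∂sampleLaw, mq ε B (fun X => avJ Jf g₀ X * (if P X then Φ X else 0)) ω ≤
      Rvf K ε B g₀ D₀ d ω) ∧
    ∫⁻ ω, Rvf K ε B g₀ D₀ d ω ∂sampleLaw ≤
      K * (ENNReal.ofReal (n * (C₀ * s ^ 2 / m0.toReal)) * RingLx239.mass M I J) := by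
  obtain ⟨C₀, hC₀, ht⟩ := en_dom
  refine ⟨C₀, hC₀, ?_⟩
  intro ε d s ι κ _ _ M I J n I₁ J₁ D B m0 h D₀ hDm hD g₀ hg hgw Jf hJ K P Φ hQ
  obtain ⟨h1, h2, h3⟩ := rv_gen (w := avJ Jf g₀) M.eps h.Bm h.Bb hDm hg (d := d) (by
    filter_upwards [hJ] with ω hω
    exact (mq_avJ_hd hω g₀).le) hQ
  refine ⟨h1, h2, ?_⟩
  rw [h3]
  gcongr
  exact ht h D₀ hDm hD g₀ hgw

end Crest.Agent.R143.PatF2x253
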