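import Crest.Agent.R143.PatF2_253
import Crest.Agent.R143.KapF_440

/-!
# Row 143 (S0194), block H, H5, box (F) of note 4110 (helper253): `Rv` of 440's `PatG`

Weight `w = cw Jf g₀` (`CondW_440`), mass `G` (`Wt`).
* `mq_cw_hd`, `frq_cw` : as for `avJ`
* **`rv_cw`** : the three `Rv` fields of `KapFx440.PatG` : `∫⁻ Rv ≤ C G` from `mass M I J ≤ c G` and
  `K (n C₀ s² / m0) c ≤ C`
* **`rv_pat`** : the same with `Φ X = ‖V X‖²`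
-/

set_option autoImplicit false
set_option linter.unusedSectionVars false

noncomputable section

open scoped Classical

namespace Crest.Agent.R143.PatF3x253

open MeasureTheory
open Crest.ProbabilityR.Voronoi
open Crest.Agent.R143.Dblx609 Crest.Agent.R143.Dbl2x609 Crest.Agent.R143.HGluex136
open Crest.Agent.R143.Harx315 Crest.Agent.R143.PWx978 Crest.Agent.R143.Histx389
  Crest.Agent.R143.Hqx304 Crest.Agent.R143.FrEnx253 Crest.Agent.R143.TilePx176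
open Crest.Agent.R143.PatFx253 Crest.Agent.R143.PatF2x253 Crest.Agent.R143.CondWx440
open scoped ENNReal

variable {ε : ℝ} {B : Set ℂ} {ω : Sample} {w g₀ : Set (ℂ × Bool) → ℝ≥0∞}
    {P : Set (ℂ × Bool) → Prop} {Φ : Set (ℂ × Bool) → ℝ≥0∞} {K : ℝ≥0∞} {D₀ : Set ℂ} {d : ℝ}

theorem mq_cw_hd {Jf : Finset ℂ → Finset ℂ → Finset ℂ}
    (hJ : IsStop (Ap ε B ω) (Jf (Ap ε B ω))) (g₀ : Set (ℂ × Bool) → ℝ≥0∞) :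
    mq ε B (fun X => cw Jf g₀ X * Hd D₀ d X) ω = mq ε B (fun X => g₀ X * Hd D₀ d X) ω :=
  mq_cw_dec hJ fun b b' _ _ _ => hd_dec _ b' b

/-- `FrQ` for 440's conditional weight -/
theorem frq_cw {A : Finset ℂ} {Jf : Finset ℂ → Finset ℂ → Finset ℂ} (hJ : IsStop A (Jf A))
    (hP : ∀ β, β ⊆ A → ∀ β', β' ⊆ A → β' ∩ Jf A β = β ∩ Jf A β →
      (P (paint A β') ↔ P (paint A β)))
    (h : ∀ β, β ⊆ A → cw Jf g₀ (paint A β) ≠ 0 → P (paint A β) →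
      av A (Jf A β) (fun b => Φ (paint A b)) β ≤ K * Hd D₀ d (paint A β)) :
    FrQ A (cw Jf g₀) P Φ (Hd D₀ d) K :=
  ⟨Jf A, hJ, fun β hβ β' hβ' e => ⟨cw_dec' hJ hβ hβ' e, hP β hβ β' hβ' e⟩, h⟩

/-- **the fields `Rv` of `PatG`**, any functional `Φ` -/
theorem rv_cw : ∃ C₀ : ℝ, 0 ≤ C₀ ∧ ∀ {ε d s : ℝ} {ι κ : Type} [DecidableEq ι] [DecidableEq κ]
    {M : Net ε ι κ} {I : Finset ι} {J : Finset κ} {n : ℕ} {I₁ : ℕ → Finset ι}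
    {J₁ : ℕ → Finset κ} {D : ℕ → Set ℂ} {B : Set ℂ} {m0 : ℝ≥0∞},
    Wnd M I J n I₁ J₁ D d s B m0 → ∀ (D₀ : Set ℂ), MeasurableSet D₀ →
    D₀ ⊆ (⋃ l ∈ Finset.range n, D l) → ∀ g₀ : Set (ℂ × Bool) → ℝ≥0∞, Poisx304.FM g₀ →
    (∀ᵐ ω ∂sampleLaw, ∀ β ∈ (Ap ε B ω).powerset,
      g₀ (paint (Ap ε B ω) β) ≤ M.gw I J (paint (Ap ε B ω) β)) →
    ∀ Jf : Finset ℂ → Finset ℂ → Finset ℂ,
    (∀ᵐ ω ∂sampleLaw, IsStop (Ap ε B ω) (Jf (Ap ε B ω))) →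
    ∀ (K C c G : ℝ≥0∞) (P : Set (ℂ × Bool) → Prop) (Φ : Set (ℂ × Bool) → ℝ≥0∞),
    (∀ᵐ ω ∂sampleLaw, FrQ (Ap ε B ω) (cw Jf g₀) P Φ (Hd D₀ d) K) →
    RingLx239.mass M I J ≤ c * G →
    K * (ENNReal.ofReal (n * (C₀ * s ^ 2 / m0.toReal)) * c) ≤ C →
    AEMeasurable (Rvf K ε B g₀ D₀ d) sampleLaw ∧
    (∀ᵐ ω ∂sampleLaw, mq ε B (fun X => cw Jf g₀ X * (if P X then Φ X else 0)) ω ≤
      Rvf K ε B g₀ D₀ d ω) ∧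
    ∫⁻ ω, Rvf K ε B g₀ D₀ d ω ∂sampleLaw ≤ C * G := by
  obtain ⟨C₀, hC₀, ht⟩ := en_dom
  refine ⟨C₀, hC₀, ?_⟩
  intro ε d s ι κ _ _ M I J n I₁ J₁ D B m0 h D₀ hDm hD g₀ hg hgw Jf hJ K C c G P Φ hQ hm hC
  obtain ⟨h1, h2, h3⟩ := rv_gen (w := cw Jf g₀) M.eps h.Bm h.Bb hDm hg (d := d) (by
    filter_upwards [hJ] with ω hω
    exact (mq_cw_hd hω g₀).le) hQ
  refine ⟨h1, h2, ?_⟩
  rw [h3]
  calc K * ∫⁻ ω, mq ε B (fun X => g₀ X * Hd D₀ d X) ω ∂sampleLaw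
      ≤ K * (ENNReal.ofReal (n * (C₀ * s ^ 2 / m0.toReal)) * (c * G)) := by
        gcongr
        exact (ht h D₀ hDm hD g₀ hgw).trans (by gcongr)
    _ = K * (ENNReal.ofReal (n * (C₀ * s ^ 2 / m0.toReal)) * c) * G := by ring
    _ ≤ C * G := by gcongr

/-- the same with `Φ = ‖V‖²` (the literal fields) -/
theorem rv_pat : ∃ C₀ : ℝ, 0 ≤ C₀ ∧ ∀ {ε d s : ℝ} {ι κ : Type} [DecidableEq ι] [DecidableEq κ]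
    {M : Net ε ι κ} {I : Finset ι} {J : Finset κ} {n : ℕ} {I₁ : ℕ → Finset ι}
    {J₁ : ℕ → Finset κ} {D : ℕ → Set ℂ} {B : Set ℂ} {m0 : ℝ≥0∞},
    Wnd M I J n I₁ J₁ D d s B m0 → ∀ (D₀ : Set ℂ), MeasurableSet D₀ →
    D₀ ⊆ (⋃ l ∈ Finset.range n, D l) → ∀ g₀ : Set (ℂ × Bool) → ℝ≥0∞, Poisx304.FM g₀ →
    (∀ᵐ ω ∂sampleLaw, ∀ β ∈ (Ap ε B ω).powerset,
      g₀ (paint (Ap ε B ω) β) ≤ M.gw I J (paint (Ap ε B ω) β)) →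
    ∀ Jf : Finset ℂ → Finset ℂ → Finset ℂ,
    (∀ᵐ ω ∂sampleLaw, IsStop (Ap ε B ω) (Jf (Ap ε B ω))) →
    ∀ (K C c G : ℝ≥0∞) (P : Set (ℂ × Bool) → Prop) (V : Set (ℂ × Bool) → ℂ),
    (∀ᵐ ω ∂sampleLaw, ∀ β, β ⊆ Ap ε B ω → ∀ β', β' ⊆ Ap ε B ω →
      β' ∩ Jf (Ap ε B ω) β = β ∩ Jf (Ap ε B ω) β →
      (P (paint (Ap ε B ω) β') ↔ P (paint (Ap ε B ω) β))) →
    (∀ᵐ ω ∂sampleLaw, ∀ β, β ⊆ Ap ε B ω → cw Jf g₀ (paint (Ap ε B ω) β) ≠ 0 →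
      P (paint (Ap ε B ω) β) →
      av (Ap ε B ω) (Jf (Ap ε B ω) β)
        (fun b => ENNReal.ofReal ‖V (paint (Ap ε B ω) b)‖ ^ 2) β ≤
          K * Hd D₀ d (paint (Ap ε B ω) β)) →
    RingLx239.mass M I J ≤ c * G →
    K * (ENNReal.ofReal (n * (C₀ * s ^ 2 / m0.toReal)) * c) ≤ C →
    ∃ Rv : Sample → ℝ≥0∞, AEMeasurable Rv sampleLaw ∧
    (∀ᵐ ω ∂sampleLaw, mq ε B (fun X => cw Jf g₀ X *
      (if P X then ENNReal.ofReal ‖V X‖ ^ 2 else 0)) ω ≤ Rv ω) ∧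
    ∫⁻ ω, Rv ω ∂sampleLaw ≤ C * G := by
  obtain ⟨C₀, hC₀, ht⟩ := rv_cw
  refine ⟨C₀, hC₀, ?_⟩
  intro ε d s ι κ _ _ M I J n I₁ J₁ D B m0 h D₀ hDm hD g₀ hg hgw Jf hJ K C c G P V hP hV hm hC
  have hQ : ∀ᵐ ω ∂sampleLaw, FrQ (Ap ε B ω) (cw Jf g₀) P
      (fun X => ENNReal.ofReal ‖V X‖ ^ 2) (Hd D₀ d) K := by
    filter_upwards [hJ, hP, hV] with ω h1 h2 h3
    exact frq_cw h1 h2 h3
  exact ⟨_, ht h D₀ hDm hD g₀ hg hgw Jf hJ K C c G P _ hQ hm hC⟩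

end Crest.Agent.R143.PatF3x253
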