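import Crest.Agent.R143.FrSt_253
import Crest.Agent.R143.FrEn_253
import Crest.Agent.R143.StQ_828
import Crest.Agent.R143.Eng_490
import Crest.Agent.R143.KapE_440

/-!
# Row 143 (S0194), block H, H5, box (F) of note 4110 (helper253): the fields `Rv` of 440's `PatE`

* `nn_eq` : `conj (RE S h) = Engx490.nn S h`; `vs_norm` : `‖Vs χ‖ = ‖Vg (Engx490.nn S) χ‖`
* `vs_frame` : mean over the free sites of `‖Vs‖²` is at most `18 Hd D d`, if all the faces of the
  root chord have their centre in `D` and radius at most `d`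
* `vs_part` : the same for the part of the chord in a rotation invariant set of darts (a region): at
  most `18 Hd D' d`
* `av_sites`, **`chord_av`**, `part_av` : mean over the fresh coins of the stopping set of the outside
* `FrQ`, `mq_fr` : quenched input, `mq (g 1_P Φ) ≤ K mq (g H)`
* **`rv_fields`** : `Rvf K .. = K mq (g Hd)` has the three properties of `Rv` in `PatE`, `g = M.gw I J`
-/

set_option autoImplicit false
set_option linter.unusedSectionVars false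

noncomputable section

open scoped Classical ComplexConjugate

namespace Crest.Agent.R143.PatFx253

open Crest.Agent.R143.B0x346 Crest.Agent.R143.DelGx806 Crest.Agent.R143.DelRx806
  Crest.Agent.R143.JColx54 Crest.Agent.R143.RE0x723
open Crest.Agent.R143.NetUx346 (ff mem_ff)
open Crest.Agent.R143.Frame1x395 Crest.Agent.R143.Frame2x395 Crest.Agent.R143.Frame3x395
  Crest.Agent.R143.Frame4x395 Crest.Agent.R143.Frame8x395 Crest.Agent.R143.Frame9x395
  Crest.Agent.R143.Frame10x395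
  Crest.Agent.R143.NonXx592 Crest.Agent.R143.Coarsex166 Crest.Agent.R143.Coarse2x166
  Crest.Agent.R143.C2Sx395 Crest.Agent.R143.C2SBx395 Crest.Agent.R143.C2SCx395
  Crest.Agent.R143.C2SDx395 Crest.Agent.R143.K33x137
open Crest.Agent.R143.FinCx811 (Cs rc0 cell_mem)
open Crest.Agent.R143.Frame5x395 (sd mem_sd th th_spec)
open Crest.Agent.R143.StQx828 Crest.Agent.R143.FrStx253
open Crest.Agent.R143.DefsNx346 (RE)
open Crest.Agent.R143.Engx490 (fc nn_spin cen_rho rad_rho energy spin_rc0)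
open Crest.Agent.R143.FinMx609 (cen3 rad3)
open Crest.Agent.R143.TilePx176 (Hd)
open scoped ENNReal

section gen

variable {D C C' : Type} [Fintype D] {M : CMap D C} {π : C → C'} {hπ : ClsCon M π}

/-- the part of the root chord in `F` -/
def VgR (M : CMap D C) (π : C → C') (hπ : ClsCon M π) (g : D) (F : D → Prop) (a : D → ℂ)
    (χ : C → ZMod 2) : ℂ :=
  ∑ h ∈ ((blk (coarse M π hπ) (cfg M χ) g).erase g).filter F, a h

/-- all the faces of the root chord are in `F` -/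
def InF (M : CMap D C) (π : C → C') (hπ : ClsCon M π) (g : D) (F : D → Prop)
    (χ : C → ZMod 2) : Prop := ∀ h ∈ blk (coarse M π hπ) (cfg M χ) g, h ≠ g → F h

theorem vgR_all {g : D} {F : D → Prop} {χ : C → ZMod 2} (h : InF M π hπ g F χ) (a : D → ℂ) :
    VgR M π hπ g F a χ = Vg M π hπ g a χ := by
  unfold VgR Vg
  rw [Finset.filter_true_of_mem]
  intro x hx
  obtain ⟨h1, h2⟩ := Finset.mem_erase.1 hx
  exact h x h2 h1

theorem root_frameV [Fintype C] [Fintype C'] {A : ZMod 3 → Set C} {i : ZMod 3} {g : D}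
    {χ₀ : C → ZMod 2} (R : Root M A i g) (Q : Cq π A) (G : Gi M A) (hc : Rc A i χ₀) {w : ℂ}
    (w3 : w ^ 3 = 1) (w1 : w ≠ 1) (wc : (starRingEnd ℂ) w = w ^ 2) {a : D → ℂ}
    (ha : Spin M w a) {F : D → Prop} (hF : ∀ d, F (M.rho d) ↔ F d) :
    (∑ χ : C → ZMod 2, if Pin A χ₀ χ then ‖VgR M π hπ g F a χ‖ ^ 2 else 0) ≤
      2 * (N0 A : ℝ) * ∑ k ∈ Finset.univ.filter F, ‖a k‖ ^ 2 :=
  root_frameR R Q G hc w3 w1 wc ha hF

end gen

section site

variable {S : Finset ℂ} {hS : GP (S : Set ℂ)} {A : ZMod 3 → Set (Cs hS)} {j k : ZMod 3}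
  {g : D0 S} {χ₀ : Cs hS → ZMod 2} {Z : ZMod 3 → ℂ}
  {C' : Type} [Fintype C'] {π : Cs hS → C'} {hπ : ClsCon (rc0 hS) π}

theorem om_conj' : (starRingEnd ℂ) om = om ^ 2 := Frame7x395.om_conj

theorem nn_eq (h : D0 S) : conj (RE S h.1) = Engx490.nn S h := by
  have h3 := DefsNx346.om3
  unfold RE Engx490.nn Mass1x302.Nn
  simp only [map_add, map_mul, map_pow, om_conj']
  linear_combination (om * conj h.1.2) * h3

/-- the root chord of the small field -/
theorem vs_norm (χ : Cs hS → ZMod 2) :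
    ‖Vs hS π hπ g χ‖ = ‖Vg (rc0 hS) π hπ g (Engx490.nn S) χ‖ := by
  have h1 : conj (Vs hS π hπ g χ) = Vg (rc0 hS) π hπ g (Engx490.nn S) χ := by
    unfold Vs rsum Vg
    rw [map_sum]
    exact Finset.sum_congr rfl fun h _ => nn_eq h
  rw [← h1, RCLike.norm_conj]

/-- the faces with centre in `D` and radius at most `d` -/
def Fa (S : Finset ℂ) (D : Set ℂ) (d : ℝ) (h : D0 S) : Prop :=
  cen3 (fc S h) ∈ D ∧ rad3 (fc S h) ≤ d

theorem fa_rho (hS : GP (S : Set ℂ)) (D : Set ℂ) (d : ℝ) (h : D0 S) :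
    Fa S D d ((rc0 hS).rho h) ↔ Fa S D d h := by
  unfold Fa
  have h1 : cen3 (fc S ((rc0 hS).rho h)) = cen3 (fc S h) := cen_rho hS h
  have h2 : rad3 (fc S ((rc0 hS).rho h)) = rad3 (fc S h) := rad_rho hS h
  rw [h1, h2]

/-- the energy of these faces -/
theorem fa_energy {D : Set ℂ} {d : ℝ} {X : Set (ℂ × Bool)}
    (hX : Crest.Agent.R143.FinMx609.ps X = (S : Set ℂ)) :
    ENNReal.ofReal (∑ h ∈ Finset.univ.filter (Fa S D d), ‖Engx490.nn S h‖ ^ 2) ≤ 9 * Hd D d X := by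
  have h1 := energy (A := D) (d := d) hX (a := fun h => if Fa S D d h then Engx490.nn S h else 0)
    (fun h => by
      split_ifs
      · exact le_rfl
      · rw [norm_zero]; exact norm_nonneg _)
    (fun h hh => by
      by_contra hc
      exact hh (if_neg hc))
  refine le_trans (le_of_eq ?_) h1
  congr 1
  rw [Finset.sum_filter]
  refine Finset.sum_congr rfl fun h _ => ?_
  split_ifs
  · rfl
  · rw [norm_zero]; norm_num

/-- **the part of the root chord in a region**: mean over the free sites -/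
theorem vs_part (P : Pt hS k j A g χ₀ Z) (Q : Cq π A) {D : Set ℂ} {d : ℝ} {X : Set (ℂ × Bool)}
    (hX : Crest.Agent.R143.FinMx609.ps X = (S : Set ℂ)) :
    ∑ T ∈ (ff S (st A)).powerset, ENNReal.ofReal
      (‖VgR (rc0 hS) π hπ g (Fa S D d) (Engx490.nn S) (gx A χ₀ (T : Set ℂ))‖ ^ 2) ≤
      18 * 2 ^ (ff S (st A)).card * Hd D d X := by
  have h1 := root_frameV (hπ := hπ) P.root Q P.gi P.rc DefsNx346.om3 DefsNx346.om_ne om_conj'
    (a := Engx490.nn S) (spin_rc0 hS (nn_spin hS)) (F := Fa S D d) (fa_rho hS D d)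
  rw [sum_gx P.hl (card3 hS g), n0_ff P.hl (card3 hS g)] at h1
  rw [← ENNReal.ofReal_sum_of_nonneg fun _ _ => by positivity]
  refine (ENNReal.ofReal_le_ofReal h1).trans ?_
  push_cast
  rw [ENNReal.ofReal_mul (by positivity), ENNReal.ofReal_mul (by norm_num),
    ENNReal.ofReal_pow (by norm_num), ENNReal.ofReal_ofNat]
  calc 2 * 2 ^ (ff S (st A)).card *
        ENNReal.ofReal (∑ h ∈ Finset.univ.filter (Fa S D d), ‖Engx490.nn S h‖ ^ 2)
      ≤ 2 * 2 ^ (ff S (st A)).card * (9 * Hd D d X) := by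
        gcongr
        exact fa_energy hX
    _ = _ := by ring

/-- **the root chord**: mean over the free sites -/
theorem vs_frame (P : Pt hS k j A g χ₀ Z) (Q : Cq π A) {D : Set ℂ} {d : ℝ} {X : Set (ℂ × Bool)}
    (hX : Crest.Agent.R143.FinMx609.ps X = (S : Set ℂ))
    (hF : ∀ χ, Pin A χ₀ χ → InF (rc0 hS) π hπ g (Fa S D d) χ) :
    ∑ T ∈ (ff S (st A)).powerset, ENNReal.ofReal (‖Vs hS π hπ g (gx A χ₀ (T : Set ℂ))‖ ^ 2) ≤
      18 * 2 ^ (ff S (st A)).card * Hd D d X := by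
  refine le_trans (le_of_eq ?_) (vs_part (hπ := hπ) (D := D) (d := d) P Q hX)
  refine Finset.sum_congr rfl fun T _ => ?_
  rw [vs_norm, vgR_all (hF _ (gx_pin _))]

end site

/-! ### the fresh coins of the outside -/

section coins

open Crest.Agent.R143.HGluex136 Crest.Agent.R143.Harx315 Crest.Agent.R143.Histx389

/-- mean over the fresh coins of a function of the free sites -/
theorem av_sites {S R W β : Finset ℂ} (hW : W ⊆ S \ R) {Φ φ : Finset ℂ → ℝ≥0∞}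
    (h : ∀ b', b' ⊆ S \ R → Φ (b' ∪ (β ∩ R)) = φ (b' ∩ W)) {K : ℝ≥0∞}
    (hφ : ∑ T ∈ W.powerset, φ T ≤ K * 2 ^ W.card) : av S R Φ β ≤ K := by
  unfold av
  rw [Finset.sum_congr rfl fun b' hb' => h b' (Finset.mem_powerset.1 hb'),
    Freshx829.sum_inter (S \ R) W hW φ, nsmul_eq_mul]
  push_cast
  have hc : (S \ R).card = ((S \ R).card - W.card) + W.card :=
    (Nat.sub_add_cancel (Finset.card_le_card hW)).symm
  calc ((2 : ℝ≥0∞) ^ (S \ R).card)⁻¹ * (2 ^ ((S \ R).card - W.card) * ∑ T ∈ W.powerset, φ T)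
      ≤ ((2 : ℝ≥0∞) ^ (S \ R).card)⁻¹ * (2 ^ ((S \ R).card - W.card) * (K * 2 ^ W.card)) := by
        gcongr
    _ = ((2 : ℝ≥0∞) ^ (S \ R).card)⁻¹ * (2 ^ (((S \ R).card - W.card) + W.card)) * K := by
        rw [pow_add]; ring
    _ = K := by
        rw [← hc, ENNReal.inv_mul_cancel (by positivity) (by finiteness), one_mul]

/-- **a quenched bound of the mean over the fresh coins gives the bound of the sum** -/
theorem stop_le {α : Type*} {V : Finset α} {Jf : Finset α → Finset α} (hJ : IsStop V Jf)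
    {g : Finset α → ℝ≥0∞} {P : Finset α → Prop} {Φ H : Finset α → ℝ≥0∞} {K : ℝ≥0∞}
    (hd : ∀ b, b ⊆ V → ∀ b', b' ⊆ V → b' ∩ Jf b = b ∩ Jf b → g b' = g b ∧ (P b' ↔ P b))
    (h : ∀ b, b ⊆ V → g b ≠ 0 → P b → av V (Jf b) Φ b ≤ K * H b) :
    ∑ b ∈ V.powerset, g b * (if P b then Φ b else 0) ≤ K * ∑ b ∈ V.powerset, g b * H b := by
  rw [← sum_av hJ fun b => g b * (if P b then Φ b else 0), Finset.mul_sum]
  refine Finset.sum_le_sum fun b hb => ?_
  rw [Finset.mem_powerset] at hb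
  have key : av V (Jf b) (fun b => g b * (if P b then Φ b else 0)) b =
      g b * (if P b then av V (Jf b) Φ b else 0) := by
    unfold av
    have h1 : ∀ b' ∈ (V \ Jf b).powerset, g (b' ∪ (b ∩ Jf b)) * (if P (b' ∪ (b ∩ Jf b)) then
        Φ (b' ∪ (b ∩ Jf b)) else 0) = g b * (if P b then Φ (b' ∪ (b ∩ Jf b)) else 0) := by
      intro b' hb'
      rw [Finset.mem_powerset] at hb'
      have h2 : b' ∪ (b ∩ Jf b) ⊆ V := Finset.union_subset (hb'.trans Finset.sdiff_subset)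
        (Finset.inter_subset_left.trans hb)
      obtain ⟨h3, h4⟩ := hd b hb _ h2 (KapEx440.out_inter hb')
      rw [h3]
      congr 1
      exact if_congr h4 rfl rfl
    rw [Finset.sum_congr rfl h1, ← Finset.mul_sum, mul_left_comm]
    congr 1
    by_cases hP : P b
    · simp only [if_pos hP]
    · simp only [if_neg hP, Finset.sum_const_zero, mul_zero]
  rw [key]
  by_cases h0 : g b = 0
  · rw [h0, zero_mul]; exact zero_le
  by_cases hP : P b
  · rw [if_pos hP]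
    calc g b * av V (Jf b) Φ b ≤ g b * (K * H b) := by
          gcongr
          exact h b hb h0 hP
      _ = K * (g b * H b) := by ring
  · rw [if_neg hP, mul_zero]; exact zero_le

end coins

section chord

open Crest.Agent.R143.HGluex136 Crest.Agent.R143.Dblx609 Crest.Agent.R143.Dbl2x609

variable {S : Finset ℂ} {hS : GP (S : Set ℂ)} {A : ZMod 3 → Set (Cs hS)} {j k : ZMod 3}
  {g : D0 S} {χ₀ : Cs hS → ZMod 2} {Z : ZMod 3 → ℂ}
  {C' : Type} [Fintype C'] {π : Cs hS → C'} {hπ : ClsCon (rc0 hS) π}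

/-- **the last clause of `FrQ` for the root chord** (`V = conj Vs`, `K = 18`) -/
theorem chord_av (P : Pt hS k j A g χ₀ Z) (Q : Cq π A) {D : Set ℂ} {d : ℝ}
    (hF : ∀ χ, Pin A χ₀ χ → InF (rc0 hS) π hπ g (Fa S D d) χ) {R β : Finset ℂ}
    (hW : ff S (st A) ⊆ S \ R) {V : Set (ℂ × Bool) → ℂ}
    (hV : ∀ b', b' ⊆ S \ R → V (paint S (b' ∪ (β ∩ R))) =
      conj (Vs hS π hπ g (gx A χ₀ ((b' ∩ ff S (st A) : Finset ℂ) : Set ℂ)))) :
    av S R (fun b => ENNReal.ofReal ‖V (paint S b)‖ ^ 2) β ≤ 18 * Hd D d (paint S β) := by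
  refine av_sites hW (φ := fun T => ENNReal.ofReal
    (‖Vs hS π hπ g (gx A χ₀ (T : Set ℂ))‖ ^ 2)) (fun b' hb' => ?_) ?_
  · rw [hV b' hb', RCLike.norm_conj, ENNReal.ofReal_pow (norm_nonneg _)]
  · refine (vs_frame (hπ := hπ) P Q (TileRx176.ps_paint S β) hF).trans (le_of_eq ?_)
    ring

/-- the same for the part of the root chord in the region `D`: no hypothesis on the faces -/
theorem part_av (P : Pt hS k j A g χ₀ Z) (Q : Cq π A) {D : Set ℂ} {d : ℝ} {R β : Finset ℂ}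
    (hW : ff S (st A) ⊆ S \ R) {V : Set (ℂ × Bool) → ℂ}
    (hV : ∀ b', b' ⊆ S \ R → ‖V (paint S (b' ∪ (β ∩ R)))‖ =
      ‖VgR (rc0 hS) π hπ g (Fa S D d) (Engx490.nn S)
        (gx A χ₀ ((b' ∩ ff S (st A) : Finset ℂ) : Set ℂ))‖) :
    av S R (fun b => ENNReal.ofReal ‖V (paint S b)‖ ^ 2) β ≤ 18 * Hd D d (paint S β) := by
  refine av_sites hW (φ := fun T => ENNReal.ofReal
    (‖VgR (rc0 hS) π hπ g (Fa S D d) (Engx490.nn S) (gx A χ₀ (T : Set ℂ))‖ ^ 2))
    (fun b' hb' => ?_) ?_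
  · rw [hV b' hb', ENNReal.ofReal_pow (norm_nonneg _)]
  · refine (vs_part (hπ := hπ) P Q (TileRx176.ps_paint S β)).trans (le_of_eq ?_)
    ring

end chord

/-! ### functionals of the configuration -/

section fun'

open MeasureTheory
open Crest.ProbabilityR.Voronoi
open Crest.Agent.R143.Dblx609 Crest.Agent.R143.Dbl2x609 Crest.Agent.R143.HGluex136
open Crest.Agent.R143.Harx315 Crest.Agent.R143.Histx389 Crest.Agent.R143.PWx978
  Crest.Agent.R143.Hqx304 Crest.Agent.R143.FrEnx253 Crest.Agent.R143.TilePx176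

/-- the weight `g` and the event `P` are decided by a stopping set; the mean of `Φ` over the fresh
coins is at most `K H` -/
def FrQ (A : Finset ℂ) (g : Set (ℂ × Bool) → ℝ≥0∞) (P : Set (ℂ × Bool) → Prop)
    (Φ H : Set (ℂ × Bool) → ℝ≥0∞) (K : ℝ≥0∞) : Prop :=
  ∃ Jf : Finset ℂ → Finset ℂ, IsStop A Jf ∧
    (∀ β, β ⊆ A → ∀ β', β' ⊆ A → β' ∩ Jf β = β ∩ Jf β →
      g (paint A β') = g (paint A β) ∧ (P (paint A β') ↔ P (paint A β))) ∧
    ∀ β, β ⊆ A → g (paint A β) ≠ 0 → P (paint A β) →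
      av A (Jf β) (fun b => Φ (paint A b)) β ≤ K * H (paint A β)

theorem mq_fr {ε : ℝ} {B : Set ℂ} {ω : Sample} {g : Set (ℂ × Bool) → ℝ≥0∞}
    {P : Set (ℂ × Bool) → Prop} {Φ H : Set (ℂ × Bool) → ℝ≥0∞} {K : ℝ≥0∞}
    (h : FrQ (Ap ε B ω) g P Φ H K) :
    mq ε B (fun X => g X * (if P X then Φ X else 0)) ω ≤ K * mq ε B (fun X => g X * H X) ω := by
  obtain ⟨Jf, hJ, hd, hm⟩ := h
  unfold mq
  rw [mul_left_comm]
  gcongr
  exact stop_le (g := fun b => g (paint (Ap ε B ω) b)) (P := fun b => P (paint (Ap ε B ω) b))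
    (Φ := fun b => Φ (paint (Ap ε B ω) b)) (H := fun b => H (paint (Ap ε B ω) b)) hJ hd hm

/-- **the majorant** `Rv` -/
def Rvf (K : ℝ≥0∞) (ε : ℝ) (B : Set ℂ) (g : Set (ℂ × Bool) → ℝ≥0∞) (D : Set ℂ) (d : ℝ)
    (ω : Sample) : ℝ≥0∞ := K * mq ε B (fun X => g X * Hd D d X) ω

/-- **THE FIELDS `Rv` OF `PatE`**, `g = M.gw I J` -/
theorem rv_fields : ∃ C₀ : ℝ, 0 ≤ C₀ ∧ ∀ {ε d s : ℝ} {ι κ : Type} [DecidableEq ι] [DecidableEq κ]
    {M : Net ε ι κ} {I : Finset ι} {J : Finset κ} {n : ℕ} {I₁ : ℕ → Finset ι}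
    {J₁ : ℕ → Finset κ} {D : ℕ → Set ℂ} {B : Set ℂ} {m0 : ℝ≥0∞},
    Wnd M I J n I₁ J₁ D d s B m0 → ∀ (D₀ : Set ℂ), MeasurableSet D₀ →
    D₀ ⊆ (⋃ l ∈ Finset.range n, D l) → ∀ (K : ℝ≥0∞) (P : Set (ℂ × Bool) → Prop)
      (V : Set (ℂ × Bool) → ℂ),
    (∀ᵐ ω ∂sampleLaw, FrQ (Ap ε B ω) (M.gw I J) P (fun X => ENNReal.ofReal ‖V X‖ ^ 2)
      (Hd D₀ d) K) →
    AEMeasurable (Rvf K ε B (M.gw I J) D₀ d) sampleLaw ∧
    (∀ᵐ ω ∂sampleLaw, mq ε B (fun X => M.gw I J X *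
      (if P X then ENNReal.ofReal ‖V X‖ ^ 2 else 0)) ω ≤ Rvf K ε B (M.gw I J) D₀ d ω) ∧
    ∫⁻ ω, Rvf K ε B (M.gw I J) D₀ d ω ∂sampleLaw ≤
      (K * ENNReal.ofReal (n * (C₀ * s ^ 2 / m0.toReal))) *
        ∫⁻ ω, M.gw I J (PP0x831.cfg ε ω ∩ ovM Bool B) ∂sampleLaw := by
  obtain ⟨C₀, hC₀, ht⟩ := en_cover
  refine ⟨C₀, hC₀, ?_⟩
  intro ε d s ι κ _ _ M I J n I₁ J₁ D B m0 h D₀ hDm hD K P V hQ
  have hFM : Poisx304.FM fun X : Set (ℂ × Bool) => M.gw I J X * Hd D₀ d X :=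
    fun k => (M.gw_meas _ _ k).mul (Hd_meas hDm d k)
  have hm := mq_meas M.eps h.Bm h.Bb hFM
  refine ⟨hm.const_mul K, ?_, ?_⟩
  · filter_upwards [hQ] with ω hω
    exact mq_fr hω
  · unfold Rvf
    rw [lintegral_const_mul'' _ hm, lint_eq_mq M.eps h.Bm h.Bb hFM, mul_assoc]
    gcongr
    have h0 : ∀ o ∈ D₀, Metric.closedBall o d ⊆ B := by
      intro o ho
      obtain ⟨l, hl', ho'⟩ := Set.mem_iUnion₂.1 (hD ho)
      obtain ⟨z, W, w1, w2, w3, w4, w5⟩ := h.W l (Finset.mem_range.1 hl')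
      exact (w4 o ho').trans w2
    have g0 : PP0x831.LocalOn B (M.gw I J) :=
      IndLocx279.LocalOn.mono h.reg (M.gw_local h.hN)
    have e1 : ∀ ω, M.gw I J (PP0x831.cfg ε ω ∩ ovM Bool B) = M.gw I J (PP0x831.cfg ε ω) :=
      fun ω => (g0 (PP0x831.cfg ε ω)).symm
    have e2 : ∀ ω, Hd D₀ d (PP0x831.cfg ε ω ∩ ovM Bool B) = Hd D₀ d (PP0x831.cfg ε ω) :=
      fun ω => (Hd_local h0 (PP0x831.cfg ε ω)).symm
    simp_rw [e1, e2]
    exact ht h D₀ hD

end fun'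

end Crest.Agent.R143.PatFx253
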