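import Crest.Agent.R143.PatG_122
import Crest.Agent.R143.S1_828
import Crest.Agent.R143.FarEk_88

/-!
# Row 143 (S0194), block H, H5, box (F) of note 4110: the root chords of 828's `Dta` (helper122)

* `ctr_ap` : a centre of the pattern `k` is a centre of the pattern `l`
* **`inF_dta`** : `InF` for the three root chords of `Dta` from the faces with a free site
* `free_far` : the free sites are inside the square `{sp zB < h}` (88's `sp`, `far_pth`), if the sites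
  of the left cells are in `{sp zB < h - r}`, a hull cell of a far site is outside
* **`inF_pos`** : `InF` from `Hol` and the positions
-/

set_option autoImplicit false
set_option linter.unusedSectionVars false

noncomputable section

open scoped Classical ComplexConjugate

namespace Crest.Agent.R143.PatHx122

open Crest.Agent.R143.B0x346 Crest.Agent.R143.DelGx806 Crest.Agent.R143.DelRx806
open Crest.Agent.R143.Frame1x395 Crest.Agent.R143.Frame2x395 Crest.Agent.R143.Frame3x395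
  Crest.Agent.R143.Frame4x395 Crest.Agent.R143.Frame8x395 Crest.Agent.R143.Frame9x395
  Crest.Agent.R143.Frame10x395
  Crest.Agent.R143.NonXx592 Crest.Agent.R143.Coarsex166 Crest.Agent.R143.Coarse2x166
  Crest.Agent.R143.C2Sx395 Crest.Agent.R143.C2SBx395 Crest.Agent.R143.C2SCx395
  Crest.Agent.R143.C2SDx395 Crest.Agent.R143.K33x137
open Crest.Agent.R143.FinCx811 (Cs rc0 cell_mem)
open Crest.Agent.R143.Frame5x395 (sd mem_sd th th_spec)
open Crest.Agent.R143.StQx828 Crest.Agent.R143.PatFx253 Crest.Agent.R143.PatGx122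
  Crest.Agent.R143.Patx828 Crest.Agent.R143.S1x828
open Crest.Agent.R143.K33x877 (fr CtrX)
open Crest.Agent.R143.NetUx346 (ff mem_ff)
open Crest.Agent.R143.JColx54 (Adj)
open Crest.Agent.R143.RE0x723 (Pth Pth.ind Pth.snd)
open Crest.Agent.R143.Locx922 (Hol)
open Crest.Agent.R143.FarEkx88 (sp far_pth)

variable {S : Finset ℂ} {hS : GP (S : Set ℂ)}

section ring

variable {σ : Cs hS → ZMod 2} {p : D0 S} {N : ℕ} {r : ZMod 3 → ℕ} {k l : ZMod 3} {X : Set ℂ}

/-- a centre consists of free sites -/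
theorem ctr_fr {A : ZMod 3 → Set ℂ} (h : CtrX S A X) : X ⊆ fr S A := by
  obtain ⟨h1, h2, h3⟩ := h
  obtain ⟨x, hx, y, -, hxy⟩ := h3 0
  intro v hv
  refine ⟨?_, fun i hi => Set.disjoint_left.1 (h1 i) hv hi⟩
  exact Pth.ind (P := fun v => v ∈ S) (h2 x hx v hv) hxy.mem.1 fun a b _ _ hab _ => hab.mem.2

/-- **the centre does not depend on the pattern** -/
theorem ctr_ap (h3 : 3 ≤ S.card) (Y : Patx828.Rg3 (rc0 hS) σ p N r)
    (h : CtrX S (sP hS σ p N r k) X) : CtrX S (sP hS σ p N r l) X := by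
  have hf := ctr_fr h
  obtain ⟨-, h2, h4⟩ := h
  refine ⟨fun i => ?_, h2, fun i => ?_⟩
  · refine Set.disjoint_left.2 fun v hv hi => ?_
    have h5 := hf hv
    rw [fr_ap h3 Y k l] at h5
    exact h5.2 i hi
  · obtain ⟨x, hx, y, hy, hxy⟩ := h4 i
    exact ⟨x, hx, y, (lab_ap Y k l x (hf hx) y hxy i).1 hy, hxy⟩

/-- **the free sites are inside the square** -/
theorem free_far {zB : ℂ} {h q : ℝ} (h3 : 3 ≤ S.card) (hq : 0 ≤ q)
    (hole : ∀ z : ℂ, sp zB z = h → ∃ t ∈ S, ‖t - z‖ < q)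
    (hL : ∀ u : ℕ, ∀ v ∈ S, (Flipx166.lc (rc0 hS) (cfg (rc0 hS) σ) p u).1 = Quot.mk (hullE S) v →
      sp zB v < h - q)
    {u : ℂ} (hu : u ∈ S) (hu' : h ≤ sp zB u)
    (hW : ∀ c : Cs hS, c.1 = Quot.mk (hullE S) u → c ∈ Wc (rc0 hS) (cfg (rc0 hS) σ) p)
    {v : ℂ} (hv : v ∈ fr S (sP hS σ p N r k)) : sp zB v < h := by
  by_contra hc
  push Not at hc
  have hp := far_pth hS h3 hq hole hu hv.1 hu' hc
  have key : ∀ c : Cs hS, c.1 = Quot.mk (hullE S) v → c ∈ Wc (rc0 hS) (cfg (rc0 hS) σ) p := by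
    refine Pth.ind (P := fun v => ∀ c : Cs hS, c.1 = Quot.mk (hullE S) v →
      c ∈ Wc (rc0 hS) (cfg (rc0 hS) σ) p) hp hW ?_
    intro a b ha hb hab ih c hcb
    obtain ⟨ca, hca⟩ := cell_ex (hS := hS) hab
    refine wc_nb (ih ca hca) ?_ (ed_of_adj hab hca hcb)
    rintro ⟨t, ht⟩
    have h5 := hL t b hb.1 (by rw [ht]; exact hcb)
    exact absurd hb.2 (not_le.2 h5)
  obtain ⟨c, hcv⟩ : ∃ c : Cs hS, c.1 = Quot.mk (hullE S) v :=
    ⟨⟨_, cell_mem hS h3 hv.1⟩, rfl⟩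
  have hf := (mem_fr_sP hv.1 hcv).1 hv
  exact (free_ap.1 hf).2 (key c hcv)

end ring

section dta

variable {dt : Finset ℂ → Dt S} {E : Finset ℂ → Prop} {β : Finset ℂ} {k : ZMod 3} {D : Set ℂ}
  {d : ℝ}

/-- **`InF` for the root chord of the pattern `k`** of 828's `Dta` -/
theorem inF_dta (H : Dta hS dt E) (hβ : β ⊆ S) (hE : E β) (k : ZMod 3)
    (h1 : ∀ h : D0 S, h.1.1 ∈ dF hS dt β → Fa S D d h) (G : C2SBx395.Gi (rc0 hS) (dA hS dt β k)) :
    ∀ χ, Pin (dA hS dt β k) (x0 (dA hS dt β k) k) χ →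
      InF (rc0 hS) (pr (dA hS dt β k)) (pr_con G) (dg hS dt β k) (Fa S D d) χ := by
  have P := H.pt hβ hE k
  have h3 := card3 hS (dg hS dt β k)
  obtain ⟨X, hX⟩ := H.ctr β hβ hE
  have hX' : CtrX S (st (dA hS dt β k)) X := ctr_ap h3 (H.ring β hβ hE) (k := 0) (l := k) hX
  refine inF_ctr P (pr_cq G) hX' fun h hh => h1 h ?_
  rw [← H.free_same hβ hE k]
  exact mem_ff.2 hh

/-- **`InF` from the density and the positions** : the free sites are in `{sp zB < h}` -/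
theorem inF_pos (H : Dta hS dt E) (hβ : β ⊆ S) (hE : E β) (k : ZMod 3) {zB : ℂ} {h q : ℝ}
    (hq : 0 ≤ q) (hole : ∀ z : ℂ, sp zB z = h → ∃ t ∈ S, ‖t - z‖ < q)
    (hL : ∀ u : ℕ, ∀ v ∈ S, (Flipx166.lc (rc0 hS) (cfg (rc0 hS) (Freshx829.scol hS (β : Set ℂ)))
      (dt β).p u).1 = Quot.mk (hullE S) v → sp zB v < h - q)
    (hu : ∃ u, OnHull S u ∧ u ∈ S ∧ h ≤ sp zB u) (hd : 0 < d)
    (hH : Hol (S : Set ℂ) {v | sp zB v < h} d)
    (hD : ∀ v, sp zB v < h → ∀ o, ‖v - o‖ < d → o ∈ D)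
    (G : C2SBx395.Gi (rc0 hS) (dA hS dt β k)) :
    (∀ v ∈ dF hS dt β, sp zB v < h) ∧
    ∀ χ, Pin (dA hS dt β k) (x0 (dA hS dt β k) k) χ →
      InF (rc0 hS) (pr (dA hS dt β k)) (pr_con G) (dg hS dt β k) (Fa S D d) χ := by
  have h3 := card3 hS (dg hS dt β k)
  obtain ⟨u, hu1, hu2, hu3⟩ := hu
  have key : ∀ v ∈ dF hS dt β, sp zB v < h := fun v hv =>
    free_far (N := (dt β).N) (r := (dt β).r) (k := 0) h3 hq hole hL hu2 hu3
      (fun c hc => H.hull β hβ hE c u hu1 hc) (mem_ff.1 hv)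
  exact ⟨key, inF_dta H hβ hE k (fun f hf => fa_hol hd hH hD f (key _ hf)) G⟩

end dta

end Crest.Agent.R143.PatHx122
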