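import Crest.Agent.R143.PlS_88
import Crest.Agent.R143.GeoR_136

/-!
# Row 143 (S0194), block H: the numbers of the square ring, window index `j → ∞` (helper88)

`nj m1 j = hb j * m1 - 2` (503's subsequence)
* `hh_small` : `hh (nj m1 j) → 0`; `hj_ge` : `hh n * j → 1 / (2 m1)`
* **`Num`** : all numeric conditions at one `j`; **`num_ex`** : the parameters exist, `Num` for
  large `j`
* `freq_j` : from large `j` to frequently `n`
-/

set_option autoImplicit false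

noncomputable section

open scoped Classical

namespace Crest.Agent.R143.PlPx88

open Filter Topology
open Crest.Agent.R143.RingUx197 Crest.Agent.R143.PlSx88
open Crest.Agent.R143.WinRx503 (hb)
open Crest.Agent.R143.Stripx707 (Par)

/-- the size of the ring -/
def nj (m1 j : ℕ) : ℕ := hb j * m1 - 2

theorem nj_add {m1 : ℕ} (hm : 1 ≤ m1) (j : ℕ) : nj m1 j + 2 = hb j * m1 := by
  have h1 : 10 ≤ hb j := by unfold hb; omega
  have h2 : 10 ≤ hb j * m1 := by nlinarith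
  unfold nj
  omega

theorem nj_ge {m1 : ℕ} (hm : 1 ≤ m1) (j : ℕ) : j ≤ nj m1 j := by
  have h1 := nj_add hm j
  have h2 : hb j * 1 ≤ hb j * m1 := Nat.mul_le_mul_left _ hm
  have h3 : hb j = 2 * j + 10 := rfl
  omega

theorem nj_top {m1 : ℕ} (hm : 1 ≤ m1) : Tendsto (nj m1) atTop atTop :=
  tendsto_atTop_mono (nj_ge hm) tendsto_id

/-- **frequently in `n` from large `j`** -/
theorem freq_j {m1 : ℕ} (hm : 1 ≤ m1) {P : ℕ → Prop} (h : ∀ᶠ j : ℕ in atTop, P (nj m1 j)) :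
    ∃ᶠ n : ℕ in atTop, P n := (nj_top hm).frequently h.frequently

/-- **the tile size tends to `0`** -/
theorem hh_small {m1 : ℕ} (hm : 1 ≤ m1) {θ : ℝ} (hθ : 0 < θ) :
    ∀ᶠ j : ℕ in atTop, hh (nj m1 j) ≤ θ := by
  have h1 : ∀ᶠ n : ℕ in atTop, hh n ≤ θ := by
    filter_upwards [eventually_ge_atTop (⌈1 / θ⌉₊ + 1)] with n hn
    have n0 : 0 < n := by omega
    have h2 : 1 / θ ≤ n := (Nat.le_ceil _).trans (by exact_mod_cast (show ⌈1 / θ⌉₊ ≤ n by omega))
    have n0' : (0 : ℝ) < n := by exact_mod_cast n0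
    rw [hh_eq n0, div_le_iff₀ n0']
    rw [div_le_iff₀ hθ] at h2
    linarith
  exact (nj_top hm).eventually h1

/-- **the half window** -/
theorem hj_ge {m1 : ℕ} (hm : 1 ≤ m1) : ∀ᶠ j : ℕ in atTop, 1 / (4 * (m1 : ℝ)) ≤ hh (nj m1 j) * j := by
  filter_upwards [eventually_ge_atTop 5] with j hj
  have h1 := nj_add hm j
  have h2 := nj_ge hm j
  have n0 : 0 < nj m1 j := by omega
  have n0' : (0 : ℝ) < nj m1 j := by exact_mod_cast n0
  have m0' : (0 : ℝ) < m1 := by exact_mod_cast hm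
  have e1 : ((nj m1 j : ℕ) : ℝ) + 2 = (2 * j + 10) * m1 := by
    have : ((nj m1 j + 2 : ℕ) : ℝ) = ((hb j * m1 : ℕ) : ℝ) := by rw [h1]
    have h3 : ((hb j : ℕ) : ℝ) = 2 * j + 10 := by unfold hb; push_cast; ring
    rw [Nat.cast_mul, h3] at this
    push_cast at this
    exact this
  have hj' : (5 : ℝ) ≤ j := by exact_mod_cast hj
  rw [hh_eq n0, div_mul_eq_mul_div, one_mul, div_le_div_iff₀ (by positivity) n0']
  nlinarith

/-- **the numeric conditions at one `j`**, `n = nj m1 j`, half side `1/2 + h`, outer level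
`1/2 + 17 h` -/
structure Num (d0 R : ℝ) (m1 : ℕ) (l t0 r1 τ E : ℝ) (j : ℕ) : Prop where
  n24 : 24 ≤ nj m1 j
  hn : nj m1 j + 2 = hb j * m1
  m1p : 1 ≤ m1
  ok1 : 2 ≤ m1 * R
  ok2 : 2 * R + 13 < nj m1 j * R
  par : Par (1 / 2 + hh (nj m1 j)) (d0 / 2) l t0 (16 * hh (nj m1 j)) r1 τ E
  lj : l ≤ hh (nj m1 j) * j
  ht : 4 * hh (nj m1 j) ≤ t0
  hd : 4 * hh (nj m1 j) ≤ d0

theorem Num.xs {d0 R : ℝ} {m1 : ℕ} {l t0 r1 τ E : ℝ} {j : ℕ} (H : Num d0 R m1 l t0 r1 τ E j)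
    (κ : ℂ) (Z : Finset ℂ) (ρ : ℝ) : (XS (nj m1 j) j m1 κ Z ρ).Ok 0 1 (2 * R) :=
  xs_ok (by have := H.n24; omega) H.hn H.ok1 H.ok2

/-- **the parameters exist** -/
theorem num_ex {d0 R : ℝ} (hd0 : 0 < d0) (hd1 : d0 ≤ 1 / 4) (hR : 0 < R) :
    ∃ (m1 : ℕ) (l t0 r1 τ E : ℝ), 1 ≤ m1 ∧ 0 < l ∧ 0 < t0 ∧ 0 < r1 ∧ 0 < τ ∧ 0 < E ∧
      l ≤ 1 ∧ t0 ≤ d0 / 4 ∧ r1 ≤ d0 / 8 ∧ 2 * l ≤ R ∧
      ∀ᶠ j : ℕ in atTop, Num d0 R m1 l t0 r1 τ E j := by
  set m1 : ℕ := ⌈2 / R⌉₊ + 1 with hm1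
  have m1p : 1 ≤ m1 := by omega
  have m1r : 2 / R ≤ m1 := (Nat.le_ceil _).trans (by exact_mod_cast Nat.le_succ _)
  have m1' : (1 : ℝ) ≤ m1 := by exact_mod_cast m1p
  have m1R : 2 ≤ m1 * R := by rwa [div_le_iff₀ hR] at m1r
  set l : ℝ := 1 / (4 * (m1 : ℝ)) with hl
  have l0 : 0 < l := by positivity
  have l1 : l ≤ 1 / 4 := by
    rw [hl]
    gcongr
    linarith
  have lR : 2 * l ≤ R := by
    have e : l * (4 * m1) = 1 := by rw [hl]; field_simp
    nlinarith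
  set t0 : ℝ := d0 * l / 24 with ht0
  set τ : ℝ := d0 * l / 96 with hτ
  have e1 : 0 < d0 * l := by positivity
  refine ⟨m1, l, t0, d0 / 8, τ, l / 2, m1p, l0, by positivity, by positivity, by positivity,
    by positivity, by linarith, by nlinarith, le_rfl, lR, ?_⟩
  filter_upwards [hh_small m1p (θ := d0 * l / 1536) (by positivity), hj_ge m1p,
    (nj_top m1p).eventually (eventually_ge_atTop (24 + ⌈(2 * R + 13) / R⌉₊ + 1))] with j h1 h2 h3
  have n0 : 0 < nj m1 j := by omega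
  have hp := hh_pos n0
  have h4 : (2 * R + 13) / R < nj m1 j := by
    refine (Nat.le_ceil _).trans_lt ?_
    exact_mod_cast (show ⌈(2 * R + 13) / R⌉₊ < nj m1 j by omega)
  have hdl : d0 * l ≤ d0 / 4 := by nlinarith
  have hdl2 : d0 * l ≤ l := by nlinarith
  refine ⟨by omega, nj_add m1p j, m1p, m1R, by rwa [div_lt_iff₀ hR] at h4, ?_, h2, ?_, ?_⟩
  · constructor
    · linarith
    · linarith
    · linarith
    · positivity
    · positivity
    · linarith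
    · rw [ht0, hτ]; linarith
    · rw [hτ]; linarith
    · rw [ht0, hτ]; linarith
    · rw [ht0]; linarith
    · rw [hτ]
      have : (16 * hh (nj m1 j) + d0 * l / 96) * (3 * (1 / 2 + hh (nj m1 j))) ≤
          (d0 * l / 48) * 3 := by
        gcongr
        · linarith
        · linarith
      nlinarith
    · rw [ht0, hτ]
      have : (d0 * l / 24 + d0 * l / 96) * (3 * (1 / 2 + hh (nj m1 j))) ≤
          (d0 * l / 24 + d0 * l / 96) * 3 := by
        gcongr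
        linarith
      nlinarith
    · rw [hτ]; linarith
  · rw [ht0]; linarith
  · linarith

end Crest.Agent.R143.PlPx88
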