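import Crest.Agent.R143.PlS_88
import Crest.Agent.R143.LawR_239

/-!
# Row 143 (S0194), block H (helper239): fields `rq`, `law`, `reg` of 263's `FarD` for the family

`XS n j m1 κ Z r1` : 88's `Pl` of the family; `κ = kap D Hs true (et n / 2)`.
* `bt_near` : the enlarged tile is in the disc of radius `61 η` about its centre; `reg_near`
* `BO_paint` : the bound of the ring law at `Xc hS h3 (chiS hS h3 β)` and at `paint A β`
* **`ring_xs`** : ring configuration ⇒ gate times `T` with `RLW`, positions, confinement, and `rq`,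
  `law`, `reg` on `XS`
* **`farD_of`** : `FarD` from them and `Wn`, `Le`, giant, cores
-/

set_option autoImplicit false
set_option linter.all false

noncomputable section

open scoped Classical

namespace Crest.Agent.R143.PlRx239

open MeasureTheory Set
open Crest.ProbabilityR.Voronoi
open Crest.Agent.R143.B0x346 Crest.Agent.R143.DelGx806 Crest.Agent.R143.DelRx806
  Crest.Agent.R143.JColx54 Crest.Agent.R143.Locx922 Crest.Agent.R143.SumScx302
  Crest.Agent.R143.HBudx136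
open Crest.Agent.R143.Frame1x395 Crest.Agent.R143.Frame2x395 Crest.Agent.R143.Frame3x395
  Crest.Agent.R143.Frame4x395 Crest.Agent.R143.Frame8x395 Crest.Agent.R143.Frame9x395
  Crest.Agent.R143.Frame10x395 Crest.Agent.R143.Frame11x395
open Crest.Agent.R143.PP0x831 Crest.Agent.R143.Poisx304 Crest.Agent.R143.FinMx609
open Crest.Agent.R143.IndLocx279 Crest.Agent.R143.PWx978 Crest.Agent.R143.Tplx978
open Crest.Agent.R143.RingDx117 (RD)
open Crest.Agent.R143.TileRx228 Crest.Agent.R143.PthFx765 Crest.Agent.R143.TplIx204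
open Crest.Agent.R143.PathDx503 Crest.Agent.R143.PathGx503 Crest.Agent.R143.RingPx503
  Crest.Agent.R143.RingIx503
open Crest.Agent.R143.CorHx713 (yy xx)
open Crest.Agent.R143.CorVx169 (IsS)
open Crest.Agent.R143.RingTx263 Crest.Agent.R143.PotPx263 Crest.Agent.R143.Winx355
  Crest.Agent.R143.RWrx355 Crest.Agent.R143.RcTx263
open Crest.Agent.R143.RingXx713.RngH (BT QO)
open Crest.Agent.R143.RingXx713 (RngH)
open Crest.Agent.R143.RngNx765 Crest.Agent.R143.CorNx765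
open Crest.Agent.R143.FinCx811 Crest.Agent.R143.ColXx829 Crest.Agent.R143.SmallAx304
open Crest.Agent.R143.Engx490 (nn)
open Crest.Agent.R143.Dbl2x609 (Ap coe_Ap paint)
open Crest.Agent.R143.RcTx422 (scol scol_hull)
open Crest.Agent.R143.GiantEx197 (Eg Lf)
open Crest.Agent.R143.StrHx795 (Df)
open Crest.Agent.R143.RevCx389 (Rg)
open Crest.Agent.R143.RevEx389 (Le)
open Crest.Agent.R143.LawRx239 Crest.Agent.R143.VgLx239
open Crest.Agent.R143.RingUx197 Crest.Agent.R143.FarGx263 Crest.Agent.R143.PlSx88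
open scoped ENNReal ComplexConjugate

/-! ### positions -/

section pos

variable {M : ℕ} {W : ℤ → ℤ × ℤ} {η : ℝ}

/-- the enlarged tile is near its centre -/
theorem bt_near (P : FPath M W) (h0 : 0 < η) {a : ℤ} {v : ℂ} (hv : v ∈ BT η W a) :
    ‖v - cen (100 * η) W a‖ ≤ 61 * η := by
  have key : ∀ u : ℂ, D4 u → v ∈ Arm (19 / 2 * η) (103 / 2 * η) (cen (100 * η) W a) u →
      ‖v - cen (100 * η) W a‖ ≤ 61 * η := by
    rintro u hu ⟨⟨h1, h2⟩, h3⟩
    have h4 := RegBx523.norm_le_XY (c := cen (100 * η) W a) (s := v) hu.norm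
    have h5 : |Gatex838.X (cen (100 * η) W a) u v| ≤ 103 / 2 * η := by
      rw [abs_le]
      constructor <;> linarith
    linarith [h3.le]
  rcases hv with hv | hv
  · exact key _ (arm_l P a) hv
  · exact key _ (arm_r P a) hv

/-- darts whose cell is the cell of a site of the tile -/
theorem reg_near {A : Finset ℂ} {hS : GP (A : Set ℂ)} (P : FPath M W) (h0 : 0 < η) {a : ℤ}
    (hin : ∀ v ∈ A, v ∈ BT η W a → ¬ OnHull A v) {d : D0 A}
    (hd : (rc0 hS).cell d ∈ clR hS (BT η W a)) : ‖d.1.1 - cen (100 * η) W a‖ ≤ 61 * η := by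
  obtain ⟨v, hv, hvB, e⟩ := hd
  have e2 : (Quot.mk (hullE A) v : Quot (hullE A)) = Quot.mk _ d.1.1 := e
  have e3 := quot_inner hS (hin v hv hvB) e2
  rw [e3]
  exact bt_near P h0 hvB

end pos

/-! ### the bound of the ring law -/

section bo

variable {A β : Finset ℂ} {hS : GP (A : Set ℂ)} {h3 : 3 ≤ A.card} {U : Set ℂ} {M : ℕ}
  {W : ℤ → ℤ × ℤ} {η d : ℝ} {ε : ℝ} {T₀ : Tpl ε (Tn × Bool)} {D : DT} [Fintype (ZMod M)]

theorem hol_S (R : RngH (Xc hS h3 (chiS hS h3 β)) U M W η d) : Hol (A : Set ℂ) U d := by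
  have h := R.hol
  rwa [ps_Xc] at h

/-- the sites of the enlarged tiles are inner -/
theorem bt_inn (R : RngH (Xc hS h3 (chiS hS h3 β)) U M W η d) (a : ℤ) :
    ∀ v ∈ A, v ∈ BT η W a → ¬ OnHull A v :=
  fun v _ hv ⟨x, h⟩ => (Locx922.not_hull R.d0 (hol_S R)
    (fat_sub R.path R.e0 R.fat (by linarith [R.e0]) (by linarith [R.e0]) a hv) x).2 h

/-- **the bound at the coloured cells and at the painted sites** -/
theorem BO_paint (R : RngH (Xc hS h3 (chiS hS h3 β)) U M W η d) (s : IsS D η)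
    (Hs : Std T₀ D.A' D.B' D.h Prod.fst) {b : Bool} {o : ℤ} {t : ℕ} {C : ℝ}
    (L : LawH R.path Hs b (η / 2) o t C) :
    BO R.path Hs b (η / 2) (o - M) t C (Xc hS h3 (chiS hS h3 β)) =
      BO R.path Hs b (η / 2) (o - M) t C (paint A β) := by
  have h1 := (ring_law R.path Hs b (η / 2) L.hA0 (o - M) L.ht L.htM L.hM L.C0 L.hC).2.2.2.2
  refine chi_loc h1 fun v hv hv' => ?_
  rw [s.A', s.B', s.h] at hv'
  exact rall_inn R.path R.e0 R.fat R.d0 (hol_S R) v hv hv'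

end bo

/-! ### the fields -/

section fields

variable {n j m1 : ℕ} {A β : Finset ℂ} {hS : GP (A : Set ℂ)} {h3 : 3 ≤ A.card} {U : Set ℂ}
  {d : ℝ}

/-- the tiles (cells) in the direction of the walk -/
def RegS (n j : ℕ) (hS : GP (A : Set ℂ)) (k : ℕ) : Set (Cs hS) :=
  clR hS (BT (et n) (Wi n) (og j - 1 - k))

/-- the gate darts -/
def pR (R : RngH (Xc hS h3 (chiS hS h3 β)) U (4 * (n + 2)) (Wi n) (et n) d) (a : ℤ) : D0 A :=
  pz (scol_hull (chiS hS h3 β)) (clo_X R) a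

/-- **gate times of the ring and the fields `rq`, `law`, `reg`** -/
theorem ring_xs (R : RngH (Xc hS h3 (chiS hS h3 β)) U (4 * (n + 2)) (Wi n) (et n) d)
    {ε : ℝ} {T₀ : Tpl ε (Tn × Bool)} {D : DT} [Fintype (ZMod (4 * (n + 2)))] (s : IsS D (et n))
    (Hs : Std T₀ D.A' D.B' D.h Prod.fst) {t : ℕ} {C : ℝ}
    (L : LawH R.path Hs true (et n / 2) (og j) t C) (Z : Finset ℂ) (r1 : ℝ) :
    ∃ T : ℕ → ℕ,
      RLW (rc0 hS) (chiS hS h3 β) (pR R (og j)) (T (4 * (n + 2))) (4 * (n + 2)) T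
        (RegS n j hS) ∧
      (∀ k : ℕ, NonXx592.P (rc0 hS) (cfg (rc0 hS) (chiS hS h3 β)) (pR R (og j)) (T k) =
        pR R (og j - k)) ∧
      (∀ k i : ℕ, T k ≤ i → i ≤ T (k + 1) →
        NonXx592.P (rc0 hS) (cfg (rc0 hS) (chiS hS h3 β)) (pR R (og j)) i ∈
          RD A (BT (et n) (Wi n) (og j - 1 - k))) ∧
      RQ (rc0 hS) (cfg (rc0 hS) (chiS hS h3 β)) (pR R (og j)) (T (4 * (n + 2)))
        (XS n j m1 (kap D Hs true (et n / 2)) Z r1).n T
        (FR A (XS n j m1 (kap D Hs true (et n / 2)) Z r1).Q) ∧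
      (∀ i l, i ≤ l → l ≤ (XS n j m1 (kap D Hs true (et n / 2)) Z r1).n →
        ‖∑ k ∈ Finset.Ico i l, Vg (rc0 hS) (cfg (rc0 hS) (chiS hS h3 β)) (pR R (og j)) T
            (XS n j m1 (kap D Hs true (et n / 2)) Z r1).n (nn A)
            (FR A (XS n j m1 (kap D Hs true (et n / 2)) Z r1).Q) k -
          (XS n j m1 (kap D Hs true (et n / 2)) Z r1).κ *
            ((XS n j m1 (kap D Hs true (et n / 2)) Z r1).w l -
              (XS n j m1 (kap D Hs true (et n / 2)) Z r1).w i)‖ ^ 2 ≤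
          BO R.path Hs true (et n / 2) (og j - (4 * (n + 2) : ℕ)) t C (paint A β)) ∧
      ∀ k, ∀ e : D0 A, (rc0 hS).cell e ∈ RegS n j hS k →
        ‖e.1.1 - (XS n j m1 (kap D Hs true (et n / 2)) Z r1).Wc k‖ ≤
          (XS n j m1 (kap D Hs true (et n / 2)) Z r1).r0 := by
  obtain ⟨p, T, hp, hper, h1, h2, h4, h5, h6⟩ := ring_all R (og j)
  have e : p = pR R := funext fun a => Subtype.ext (hp a)
  subst e
  refine ⟨T, h2, h4, h5, h1, fun i l hil hl => ?_, fun k e he => ?_⟩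
  · rw [← BO_paint R s Hs L]
    have h7 := h6 s Hs L i l hil hl
    rw [s.h] at h7
    exact h7
  · have h7 := reg_near R.path R.e0 (bt_inn R _) he
    refine h7.trans ?_
    show 61 * et n ≤ 100 * et n
    linarith [R.e0]

variable {Gf : Rg (D0 A) (Cs hS)} {G : ℕ → Rg (D0 A) (Cs hS)} {E : Set (Quot (hullE A))}

/-- **`FarD` of the family** from 355's / 503's ring data for the gate times of `ring_xs` -/
theorem farD_of {d0 : ℝ} (R : RngH (Xc hS h3 (chiS hS h3 β)) U (4 * (n + 2)) (Wi n) (et n) d)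
    {ε : ℝ} {T₀ : Tpl ε (Tn × Bool)} {D : DT} [Fintype (ZMod (4 * (n + 2)))] (s : IsS D (et n))
    (Hs : Std T₀ D.A' D.B' D.h Prod.fst) {t : ℕ} {C : ℝ}
    (L : LawH R.path Hs true (et n / 2) (og j) t C) {Z : Finset ℂ} {r1 : ℝ}
    (hW : ∀ T : ℕ → ℕ, RLW (rc0 hS) (chiS hS h3 β) (pR R (og j)) (T (4 * (n + 2)))
        (4 * (n + 2)) T (RegS n j hS) →
      (∀ k : ℕ, NonXx592.P (rc0 hS) (cfg (rc0 hS) (chiS hS h3 β)) (pR R (og j)) (T k) =
        pR R (og j - k)) →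
      (∀ k i : ℕ, T k ≤ i → i ≤ T (k + 1) →
        NonXx592.P (rc0 hS) (cfg (rc0 hS) (chiS hS h3 β)) (pR R (og j)) i ∈
          RD A (BT (et n) (Wi n) (og j - 1 - k))) →
      ∃ B' : ℕ → Set (Cs hS), Wn (rc0 hS) Gf G Gf.h0 (chiS hS h3 β) (pR R (og j))
          (T (4 * (n + 2))) (4 * (n + 2)) T (RegS n j hS) (WinRx503.hb j) (2 * j + 1) (4 * m1)
          B' ∧
        E = Eg (cm0 hS) Gf.h0.1 (Lf (cm0 hS) (cfg (rc0 hS) (chiS hS h3 β)) (pR R (og j))
          (T (4 * (n + 2)))))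
    (le : ∀ i, i < 4 * m1 → Le (G i) Gf)
    (core : ∀ g ∈ Df A (Sb 0 1 d0), (rc0 hS).cell g ∈ cor hS h3 Z id (fun _ => r1)) :
    ∃ (P₀ : D0 A) (N : ℕ) (T : ℕ → ℕ) (Reg B' : ℕ → Set (Cs hS)),
      FarD (XS n j m1 (kap D Hs true (et n / 2)) Z r1) 0 1 d0 hS h3 Gf G E
        (BO R.path Hs true (et n / 2) (og j - (4 * (n + 2) : ℕ)) t C (paint A β)) β P₀ N T Reg
        B' := by
  obtain ⟨T, h1, h2, h4, h5, h6, h7⟩ := ring_xs (m1 := m1) R s Hs L Z r1
  obtain ⟨B', W, hE⟩ := hW T h1 h2 h4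
  exact ⟨pR R (og j), T (4 * (n + 2)), T, RegS n j hS, B', W, le, hE, h5, h6, h7, core⟩

end fields

end Crest.Agent.R143.PlRx239
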