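import Crest.Agent.R143.WinR_503

/-!
# Row 143 (S0194), block H: fields `off`, `ra`, `rb` of 355's `SiteR` on the square (helper503)

`K = hb j * m1`, tile `k` = tile `2 j + 5 - k` of `sqs K j0`, window `i` = tiles `hb j * i + t`,
`t < 2 j + 1`; regions `rgi` (707's `rg`).
* `off_w` : the tiles off the window miss its sector
* **`rad_w`** : the radial chains of all windows
-/

set_option autoImplicit false

noncomputable section

open scoped Classical

namespace Crest.Agent.R143.PlugWx503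

open Crest.Agent.R143.B0x346 Crest.Agent.R143.DelGx806 Crest.Agent.R143.DelRx806
open Crest.Agent.R143.ToolWx838 Crest.Agent.R143.CircPx838
open Crest.Agent.R143.Gatex838 (X Y)
open Crest.Agent.R143.Frame1x395 Crest.Agent.R143.Frame10x395
open Crest.Agent.R143.TileRx228 Crest.Agent.R143.SqPx503
open Crest.Agent.R143.Stripx707 (Dir Sec)
open Crest.Agent.R143.RegGx707 Crest.Agent.R143.RadGx707 Crest.Agent.R143.WinRx503
open Crest.Agent.R143.Meetx707 (Pl)
open Crest.Agent.R143.RingWx389 (Rad)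

variable {K j m1 : ℕ} {h A' B' : ℝ} {j0 : ℤ}

/-- **the tiles off the window miss its sector** -/
theorem off_w (hK : K = hb j * m1) (m1p : 1 ≤ m1) (hh : 0 < h) (hA : A' ≤ B') (hB : B' < h)
    {l t0 : ℝ} (hl : l ≤ h * j) (ht : B' ≤ h * K / 2 - t0) {i k : ℕ} (hi : i < 4 * m1)
    (hk : k < 4 * K - (2 * j + 1)) {s : ℂ}
    (hs : s ∈ RR A' B' h (sqs K j0) (2 * j + 5 - ((hb j * i + (2 * j + 1) + k : ℕ) : ℤ))) :
    ¬ Sec (du (wp K j i)) (zq h K j0) (h * K / 2) t0 (cw0 h K j0 j i) l s := by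
  have hK1 := K_pos hK m1p
  exact off_win (J := j + 5) (j := j) (sqr_sqW (K := K) (by omega) hh j0) (dir_du _) hh hA hB
    (by omega) (by omega) (stretch hK m1p hi) hl ht (fun t ht' => no_win hK m1p hk ht') hs

variable {S : Finset ℂ} {C : Type} {M : CMap (D0 S) C} {σ : ℂ → C} {hS : GP (S : Set ℂ)} {h0 : C}
  {A1 A2 D1 E1 E2 et l t0 : ℝ}

/-- **the radial chains of all windows** -/
theorem rad_w (H : Pl hS M σ) (h3 : 3 ≤ S.card) (e0 : D0 S) (hh0 : ∀ s, OnHull S s → σ s = h0)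
    (hl0 : ∀ s ∈ S, OnHull S s → A2 ≤ sup (s - zq h K j0)) (hK : K = hb j * m1) (m1p : 1 ≤ m1)
    (hh : 0 < h) (hA : A' ≤ B') (hAB : A' + B' < h) (het0 : 0 < et) (het : et ≤ A')
    (hl : l ≤ h * j)
    (hq : ∀ (u : ℂ) (ca : ℝ), Dir u → |ca| ≤ h * K / 2 →
      (radq u (zq h K j0) ca (h * K / 2) (h * K / 2 - E1) (h * K / 2 + E2) et).Ev S S)
    (e1 : h * K / 2 - E1 ≤ D1) (e2 : A2 ≤ h * K / 2 + E2) (e3 : D1 < A2)
    (e4 : h * K / 2 - 3 * h + et ≤ D1) (e5 : et ≤ 2 * (h * K / 2 - E1)) (e6 : h * K / 2 + A' ≤ A2)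
    {Reg : ℕ → Set C}
    (hR : ∀ k, ∀ c ∈ Reg k, ∃ s ∈ S, s ∈ RR A' B' h (sqs K j0) (2 * j + 5 - (k : ℤ)) ∧ σ s = c) :
    ∃ La Lb : ℕ → ℕ → D0 S, ∀ i, i < 4 * m1 →
      Rad M (rgi S σ h0 h K j0 A1 A2 D1 t0 l j i La Lb)
        (fun k => Reg (hb j * i + (2 * j + 1) + k)) (4 * K) (fun k => k < 3) (La i) ∧
      Rad M (rgi S σ h0 h K j0 A1 A2 D1 t0 l j i La Lb)
        (fun k => Reg (hb j * i + (2 * j + 1) + k)) (4 * K)
        (fun k => 4 * K - (2 * j + 1) ≤ k + 3 ∧ k < 4 * K - (2 * j + 1)) (Lb i) := by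
  have hK1 := K_pos hK m1p
  have Q := sqr_sqW (K := K) (by omega) hh j0
  have key : ∀ i, i < 4 * m1 → (∃ Lc : ℕ → D0 S,
      Rad M (rg S σ h0 (zq h K j0) A1 A2 D1 (Sec (du (wp K j i)) (zq h K j0) (h * K / 2) t0
        (cw0 h K j0 j i) l) (fun _ => e0) (fun _ => e0))
        (fun k => Reg (hb j * i + (2 * j + 1) + k)) (4 * K) (fun k => k < 3) Lc) ∧
      ∃ Lc : ℕ → D0 S,
      Rad M (rg S σ h0 (zq h K j0) A1 A2 D1 (Sec (du (wp K j i)) (zq h K j0) (h * K / 2) t0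
        (cw0 h K j0 j i) l) (fun _ => e0) (fun _ => e0))
        (fun k => Reg (hb j * i + (2 * j + 1) + k)) (4 * K)
        (fun k => 4 * K - (2 * j + 1) ≤ k + 3 ∧ k < 4 * K - (2 * j + 1)) Lc := by
    intro i hi
    have hbd : ∀ t : ℤ, |t| ≤ ((j + 5 : ℕ) : ℤ) →
        |Y (zq h K j0) (du (wp K j i)) (cen h (sqs K j0) (ac j i + t))| ≤ h * K / 2 := by
      intro t _
      have h1 := Q.bd (ac j i + t)
      rw [(dir_du (wp K j i)).sup] at h1
      exact (le_max_right _ _).trans h1.le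
    constructor
    · refine ra_rg (j := j) (J := j + 5) (i0 := -(j + 2)) H h3 hh0 hl0 Q (dir_du _) hh hA hAB het0
        het ?_ (by omega) (stretch hK m1p hi) hl (hq _ _ (dir_du _) (hbd _ ?_)) e1 e2 e3 e4 e5 e6
        (tl := fun k => 2 * j + 5 - ((hb j * i + (2 * j + 1) + k : ℕ) : ℤ)) ?_ ?_
      · rw [abs_neg, abs_of_nonneg (by positivity)]
      · rw [abs_neg, abs_of_nonneg (by positivity)]
        push_cast
        omega
      · exact fun k _ c hc => hR _ c hc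
      · exact fun k hk e => no_ra hK m1p hk e
    · refine ra_rg (j := j) (J := j + 5) (i0 := j + 2) H h3 hh0 hl0 Q (dir_du _) hh hA hAB het0
        het ?_ (by omega) (stretch hK m1p hi) hl (hq _ _ (dir_du _) (hbd _ ?_)) e1 e2 e3 e4 e5 e6
        (tl := fun k => 2 * j + 5 - ((hb j * i + (2 * j + 1) + k : ℕ) : ℤ)) ?_ ?_
      · rw [abs_of_nonneg (by positivity)]
      · rw [abs_of_nonneg (by positivity)]
        push_cast
        omega
      · exact fun k _ c hc => hR _ c hc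
      · exact fun k hk e => no_rb hK m1p hk e
  have hex : ∀ i, ∃ La Lb : ℕ → D0 S, i < 4 * m1 →
      Rad M (rg S σ h0 (zq h K j0) A1 A2 D1 (Sec (du (wp K j i)) (zq h K j0) (h * K / 2) t0
        (cw0 h K j0 j i) l) (fun _ => e0) (fun _ => e0))
        (fun k => Reg (hb j * i + (2 * j + 1) + k)) (4 * K) (fun k => k < 3) La ∧
      Rad M (rg S σ h0 (zq h K j0) A1 A2 D1 (Sec (du (wp K j i)) (zq h K j0) (h * K / 2) t0
        (cw0 h K j0 j i) l) (fun _ => e0) (fun _ => e0))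
        (fun k => Reg (hb j * i + (2 * j + 1) + k)) (4 * K)
        (fun k => 4 * K - (2 * j + 1) ≤ k + 3 ∧ k < 4 * K - (2 * j + 1)) Lb := by
    intro i
    by_cases hi : i < 4 * m1
    · obtain ⟨⟨La, h1⟩, Lb, h2⟩ := key i hi
      exact ⟨La, Lb, fun _ => ⟨h1, h2⟩⟩
    · exact ⟨fun _ => e0, fun _ => e0, fun h => absurd h hi⟩
  choose La Lb hL using hex
  exact ⟨La, Lb, fun i hi => ⟨⟨(hL i hi).1.l0, (hL i hi).1.fin⟩, ⟨(hL i hi).2.l0, (hL i hi).2.fin⟩⟩⟩

end Crest.Agent.R143.PlugWx503
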