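import Crest.Agent.R143.PoS_983
import Crest.Agent.R143.CorE_133

/-!
# Row 143 (S0194), RIG box Q2: static half for the corridor net of a polygon (helper983)

`C : CorEnv u ε d ..` (133), `L : LayU u m M p W Ac e` (416), `Hs : Std T (12 η) (52 η) (100 η)`,
sites `SU u ε ω`.

* `reg_UU` : the regions of the net are in `UU u`; `inn_net` : no hull site; `edge_net` : short edges
* **`hgL_cor`**, **`LT_cor`**, **`nb_cor`** : `hgL`, `LT`, neighbours of `L` for the window `p .. q`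
* `Far2 M a b` : the tile `b` is not `a - 1, a, a + 1` modulo `M`; `dsj_sq` : such tiles are off the
  `ρ`-neighbourhood of the square of `a`, `A + ρ ≤ h / 2`
* **`sup_cor`** : the hypothesis `sup` of `win_sys`
-/

set_option autoImplicit false
set_option linter.unusedSectionVars false

noncomputable section

open scoped Classical

namespace Crest.Agent.R143.PoTx983

open Set
open Crest.ProbabilityR.Voronoi
open Crest.Agent.R143.B0x346 Crest.Agent.R143.DelGx806 Crest.Agent.R143.FinCx811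
open Crest.Agent.R143.Frame1x395 Crest.Agent.R143.Frame8x395 Crest.Agent.R143.Frame10x395
open Crest.Agent.R143.PP0x831 Crest.Agent.R143.PWx978 Crest.Agent.R143.ColXx829
open Crest.Agent.R143.RcTx422
open Crest.Agent.R143.Extx358 (Ad Ext)
open Crest.Agent.R143.Blkx838 (DE)
open Crest.Agent.R143.TileRx228 Crest.Agent.R143.PthFx765 Crest.Agent.R143.HqPx304
  Crest.Agent.R143.CorNx765 Crest.Agent.R143.Tplx978 Crest.Agent.R143.WndIx416
open Crest.Agent.R143.PolyUx346 Crest.Agent.R143.Layx416 Crest.Agent.R143.LayUx416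
open Crest.Agent.R143.CorEx133 Crest.Agent.R143.PoSx983
open Crest.Agent.R143.Sptx169 (rst)
open Crest.Agent.R143.Sptx832 (FQ)
open Crest.Agent.R143.Locx922 (Hol)

variable {u : Poly} {m M : ℕ} {p W : ℤ → ℤ × ℤ} {Ac e : ℤ → ℤ} {η ε d K1 c2 ρ0 : ℝ} {ω : Sample}
  {T : Tpl ε (Tn × Bool)}

section net

variable [DecidableEq (ZMod M)]

/-- the regions of the corridor net are in `UU u` -/
theorem reg_UU (L : LayU u m M p W Ac e) (hh : (m : ℝ) * (100 * η) = u.s)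
    (Hs : Std T (12 * η) (52 * η) (100 * η) Prod.fst) (i : ZMod 3) (I J : Finset (ZMod M)) :
    (cpth L.lay.fp Hs Ac e i).net.reg I J ⊆ UU u := by
  have h0 := L.h_pos hh
  intro s hs
  obtain ⟨a, ha⟩ := reg_RR L.lay.fp Hs i I J hs
  exact RR_sub L hh (by linarith) (by linarith) (by linarith) (by linarith) a ha

/-- the tile regions are in `UU u` -/
theorem Wd_UU (L : LayU u m M p W Ac e) (hh : (m : ℝ) * (100 * η) = u.s) (a b : ℤ) :
    Wd (12 * η) (52 * η) (100 * η) W a b ⊆ UU u := by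
  have h0 := L.h_pos hh
  rintro s ⟨k, -, -, hs⟩
  exact RR_sub L hh (by linarith) (by linarith) (by linarith) (by linarith) k hs

theorem inn_net (C : CorEnv u ε d K1 c2 ρ0 ω) (L : LayU u m M p W Ac e)
    (hh : (m : ℝ) * (100 * η) = u.s) (Hs : Std T (12 * η) (52 * η) (100 * η) Prod.fst) (i : ZMod 3)
    (I J : Finset (ZMod M)) : ∀ v ∈ SU u ε ω, v ∈ (cpth L.lay.fp Hs Ac e i).net.reg I J →
      ¬ OnHull (SU u ε ω) v := fun _ _ hv => C.inn (reg_UU L hh Hs i I J hv)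

theorem edge_net (C : CorEnv u ε d K1 c2 ρ0 ω) (L : LayU u m M p W Ac e)
    (hh : (m : ℝ) * (100 * η) = u.s) (Hs : Std T (12 * η) (52 * η) (100 * η) Prod.fst) (i : ZMod 3)
    (I J : Finset (ZMod M)) : ∀ u' v, v ∈ SU u ε ω → v ∈ (cpth L.lay.fp Hs Ac e i).net.reg I J →
      DE (SU u ε ω) u' v → ‖u' - v‖ < 2 * d := fun _ _ _ hv h =>
  WLocx713.de_near C.d0 C.hol (reg_UU L hh Hs i I J hv) h.symm

variable [Fintype (ZMod M)] {h3 : 3 ≤ (SU u ε ω).card}

/-- the set `L` of the window `a .. b` (absolute tiles), all gates and tubes -/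
abbrev LL (C : CorEnv u ε d K1 c2 ρ0 ω) (L : LayU u m M p W Ac e)
    (Hs : Std T (12 * η) (52 * η) (100 * η) Prod.fst) (i : ZMod 3) (a b : ℤ) :
    Finset (Cs C.gpS) := Ln C.gpS L.lay.fp Hs Ac e i Finset.univ Finset.univ a b

/-- **`hgL`** -/
theorem hgL_cor (C : CorEnv u ε d K1 c2 ρ0 ω) (L : LayU u m M p W Ac e)
    (hh : (m : ℝ) * (100 * η) = u.s) (Hs : Std T (12 * η) (52 * η) (100 * η) Prod.fst) (i : ZMod 3)
    (a b : ℤ) (σ τ : Cs C.gpS → ZMod 2) (hc : ∀ c ∈ LL C L Hs i a b, τ c = σ c) :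
    ((cpth L.lay.fp Hs Ac e i).net.gw (Finset.univ \ Iw M a b) (Finset.univ \ Jw M a b)
        (Xc C.gpS h3 τ)).toReal =
      ((cpth L.lay.fp Hs Ac e i).net.gw (Finset.univ \ Iw M a b) (Finset.univ \ Jw M a b)
        (Xc C.gpS h3 σ)).toReal :=
  hgL_net L.lay.fp Hs i (fun _ _ => ⟨Finset.mem_univ _, Finset.mem_univ _⟩) a b
    (inn_net C L hh Hs i _ _) σ τ hc

/-- **field `LT`** -/
theorem LT_cor (C : CorEnv u ε d K1 c2 ρ0 ω) (L : LayU u m M p W Ac e)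
    (hh : (m : ℝ) * (100 * η) = u.s) (Hs : Std T (12 * η) (52 * η) (100 * η) Prod.fst) (i : ZMod 3)
    (a b : ℤ) {Tw : Set (Cs C.gpS)}
    (hT : Tw ⊆ RC C.gpS (Wd (12 * η) (52 * η) (100 * η) W a b)) :
    ∀ c ∈ LL C L Hs i a b, c ∉ Tw :=
  LT_net L.lay.fp Hs i _ _ a b (by have := L.h_pos hh; linarith) hT

/-- **`L` and its neighbours are off the tiles `a < k < b`** -/
theorem nb_cor (C : CorEnv u ε d K1 c2 ρ0 ω) (L : LayU u m M p W Ac e)
    (hh : (m : ℝ) * (100 * η) = u.s) (Hs : Std T (12 * η) (52 * η) (100 * η) Prod.fst) (i : ZMod 3)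
    (a b : ℤ) (hd : 2 * d ≤ 36 * η) {c : Cs C.gpS} (hc : c ∈ LL C L Hs i a b) :
    c ∉ RC C.gpS (Wd (12 * η) (52 * η) (100 * η) W a b) ∧
      ∀ b', Ad (rc0 C.gpS) b' c → b' ∉ RC C.gpS (Wd (12 * η) (52 * η) (100 * η) W a b) :=
  nb_net L.lay.fp Hs i _ _ a b (ρ := 36 * η) (by have := L.h_pos hh; linarith) (by linarith)
    (fun u' v hv hvR h => (edge_net C L hh Hs i _ _ u' v hv hvR h).trans_le hd) hc

end net

/-! ### the support of the field -/

/-- the tile `b` is not adjacent to `a` and not `a` -/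
def Far2 (M : ℕ) (a b : ℤ) : Prop :=
  ¬ (M : ℤ) ∣ b - a ∧ ¬ (M : ℤ) ∣ b - (a + 1) ∧ ¬ (M : ℤ) ∣ b - (a - 1)

theorem far2_of {a b : ℤ} (h1 : 2 ≤ |b - a|) (h2 : |b - a| + 2 ≤ M) : Far2 M a b := by
  have key : ∀ c : ℤ, 0 < |c| → |c| < M → ¬ (M : ℤ) ∣ c := by
    intro c h3 h4 h5
    have h6 := Int.le_of_dvd h3 ((dvd_abs _ _).2 h5)
    omega
  rcases abs_cases (b - a) with ⟨h, h'⟩ | ⟨h, h'⟩ <;> rw [h] at h1 h2
  · refine ⟨key _ ?_ ?_, key _ ?_ ?_, key _ ?_ ?_⟩ <;>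
      rw [abs_of_pos (by omega)] <;> omega
  · refine ⟨key _ ?_ ?_, key _ ?_ ?_, key _ ?_ ?_⟩ <;>
      rw [abs_of_neg (by omega)] <;> omega

/-- **tiles which are not adjacent are off the neighbourhood of the square** -/
theorem dsj_sq {n : ℕ} {m : ℤ} (H : Lay n M m p W Ac e) {A B h ρ : ℝ} (hA : A + ρ ≤ h / 2)
    (hB0 : 0 ≤ B) (hB : B ≤ h) {a : ℤ} {G : Set ℂ}
    (hG : ∀ s ∈ G, ∃ b, Far2 M a b ∧ s ∈ RR A B h W b) :
    Disjoint G (Metric.thickening ρ (Sqr h W a)) := by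
  rw [Set.disjoint_left]
  intro s hs ht
  obtain ⟨b, ⟨h0, h1, h2⟩, hb⟩ := hG s hs
  obtain ⟨t, ht, hst⟩ := Metric.mem_thickening_iff.1 ht
  have := sq_far H hA hB0 hB h0 h1 h2 ht hb
  rw [dist_eq_norm, norm_sub_rev] at hst
  linarith

/-- squares are in `UU u` -/
theorem Sqr_UU (L : LayU u m M p W Ac e) (hh : (m : ℝ) * (100 * η) = u.s) {ρ : ℝ}
    (hρ : ρ ≤ 50 * η) {a : ℤ} {s : ℂ} (hs : s ∈ Metric.thickening ρ (Sqr (100 * η) W a)) :
    s ∈ UU u := by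
  have h1 := Sqr_P L hh (by linarith) hs
  have h2 := h_le L hh
  obtain ⟨y, hy, he⟩ := (MeasPx609.isCompact_P u).exists_infDist_eq_dist (MeasPx609.P_nonempty u) s
  rw [he, dist_eq_norm] at h1
  have h3 := P_norm u hy
  have h4 := norm_add_le (s - y) y
  rw [sub_add_cancel] at h4
  rw [mem_UU]
  linarith

/-- **the hypothesis `sup` of `win_sys`** for a region `Q l` in the square of the tile `a` and sides
made of cells of tiles which are not adjacent to `a` -/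
theorem sup_cor (C : CorEnv u ε d K1 c2 ρ0 ω) (L : LayU u m M p W Ac e)
    (hh : (m : ℝ) * (100 * η) = u.s) {nn' l : ℕ} {Q : ℕ → Set ℂ} {a : ℤ}
    (hQ : Q l ⊆ Sqr (100 * η) W a) (hd : d ≤ 36 * η) {w : D0 (SU u ε ω) → ℂ} {κ : Type}
    {Z : κ → Uniqx323.Zn (rc0 C.gpS)} {G : κ → Set ℂ} (hZ : ∀ k, (Z k).R ⊆ RC C.gpS (G k))
    (hG : ∀ k, ∀ s ∈ G k, ∃ b, Far2 M a b ∧ s ∈ RR (12 * η) (52 * η) (100 * η) W b)
    (h : D0 (SU u ε ω)) (h0 : rst w (FQ (SU u ε ω) nn' Q l) h ≠ 0) (k : κ) :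
    ¬ ((rc0 C.gpS).cell h ∈ (Z k).R ∧ (rc0 C.gpS).cell ((rc0 C.gpS).rho h) ∈ (Z k).R ∧
      (rc0 C.gpS).cell ((rc0 C.gpS).rho ((rc0 C.gpS).rho h)) ∈ (Z k).R) := by
  have e0 := L.h_pos hh
  have hth : ∀ z ∈ Q l, ∀ v, ‖v - z‖ < d → v ∈ Metric.thickening (36 * η) (Sqr (100 * η) W a) := by
    intro z hz v hv
    refine Metric.mem_thickening_iff.2 ⟨z, hQ hz, ?_⟩
    rw [dist_eq_norm]
    exact hv.trans_le hd
  have hU : ∀ z ∈ Q l, z ∈ UU u := fun z hz => Sqr_UU L hh (ρ := 36 * η) (by linarith)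
    (hth z hz z (by rw [sub_self, norm_zero]; exact C.d0))
  have key := sup_rc (hS := C.gpS) (B := G k) (m := nn') (w := w) C.d0
    (C.hol.mono hU) (fun z hz v hv => C.inn (Sqr_UU L hh (ρ := 36 * η) (by linarith)
      (hth z hz v hv)))
    ((dsj_sq L.lay (ρ := 36 * η) (by linarith) (by linarith) (by linarith) (hG k)).mono_right
      (fun v hv => by
        obtain ⟨z, hz, hvz⟩ := Metric.mem_thickening_iff.1 hv
        rw [dist_eq_norm] at hvz
        exact hth z hz v hvz)) (hZ k) h h0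
  exact fun hc => key.1 hc.1

end Crest.Agent.R143.PoTx983
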