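import Crest.Agent.R143.PoT_983
import Crest.Agent.R143.DryQ_829
import Crest.Agent.R143.SubH_117
import Crest.Agent.R143.SpR2_169

/-!
# Row 143 (S0194), RIG box Q2: static half in the form of 829's `TileD` (helper983)

`DryQx829.Lc hS h3 U` = the cells of the sites of `U`.

* `Lc_eq` : equal to `PoSx983.Lc hS U` if `U` has no hull sites
* `UB_Wd` : unions of the enlarged tiles `Bk η W o k` (117) are in `Wd (12 η) (52 η) (100 η) W p q`
* **`LT_D`** : field `LT` of `Sb` for `TileD`; `LT_UB` : `T` = cells of the tiles `a' ≤ k < b'`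
* **`nb_D`** : `L` and its neighbours are off the tiles `p < k < q`; `nb_UB`
* **`sup_QX`** : the second field of `TileD` for 169's regions `QX` and sides made of the tiles `b`,
  `1 ≤ b`, `b + 1 < n`, `b + 2 ≤ l` or `l + 2 ≤ b`; `sup_UB` : for 117's unions
-/

set_option autoImplicit false
set_option linter.unusedSectionVars false

noncomputable section

open scoped Classical

namespace Crest.Agent.R143.PoUx983

open Set
open Crest.ProbabilityR.Voronoi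
open Crest.Agent.R143.B0x346 Crest.Agent.R143.DelGx806 Crest.Agent.R143.FinCx811
open Crest.Agent.R143.Frame1x395 Crest.Agent.R143.Frame8x395 Crest.Agent.R143.Frame10x395
open Crest.Agent.R143.PP0x831 Crest.Agent.R143.PWx978 Crest.Agent.R143.ColXx829
open Crest.Agent.R143.RcTx422
open Crest.Agent.R143.Extx358 (Ad Ext)
open Crest.Agent.R143.Blkx838 (DE)
open Crest.Agent.R143.TileRx228 Crest.Agent.R143.PthFx765 Crest.Agent.R143.HqPx304
  Crest.Agent.R143.CorNx765 Crest.Agent.R143.Tplx978 Crest.Agent.R143.WndIx416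
open Crest.Agent.R143.PolyUx346 Crest.Agent.R143.Layx416 Crest.Agent.R143.LayUx416
open Crest.Agent.R143.CorEx133 Crest.Agent.R143.PoSx983 Crest.Agent.R143.PoTx983
open Crest.Agent.R143.Sptx169 (rst)
open Crest.Agent.R143.Sptx832 (FQ)
open Crest.Agent.R143.Locx922 (Hol)
open Crest.Agent.R143.SubHx117 (Bk clS)
open Crest.Agent.R143.SubDx117 (UB)
open Crest.Agent.R143.SpRx169

/-! ### the cells of a region -/

section lc

variable {S : Finset ℂ} {hS : GP (S : Set ℂ)} {h3 : 3 ≤ S.card} {U : Set ℂ}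

theorem Lc_eq (hin : ∀ v ∈ S, v ∈ U → ¬ OnHull S v) : DryQx829.Lc hS h3 U = PoSx983.Lc hS U := by
  ext c
  rw [DryQx829.mem_Lc, PoSx983.mem_Lc]
  constructor
  · rintro ⟨v, hv, hU, rfl⟩
    exact ⟨v, hv, hU, hin v hv hU, rfl⟩
  · rintro ⟨v, hv, hU, -, e⟩
    exact ⟨v, hv, hU, Subtype.ext e.symm⟩

end lc

/-! ### windows -/

section wnd

variable {W : ℤ → ℤ × ℤ} {η : ℝ} {o p q : ℤ}

theorem Bk_Wd (h0 : 0 < η) {k : ℕ} (h1 : p < o + k) (h2 : o + k < q) :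
    Bk η W o k ⊆ Wd (12 * η) (52 * η) (100 * η) W p q :=
  RR_Wd (by linarith) (by linarith) h1 h2

/-- unions of enlarged tiles -/
theorem UB_Wd (h0 : 0 < η) {a b : ℕ} (h1 : ∀ k : ℕ, a ≤ k → k < b → p < o + k ∧ o + k < q) :
    UB (Bk η W o) a b ⊆ Wd (12 * η) (52 * η) (100 * η) W p q := by
  rintro s ⟨k, g1, g2, h⟩
  exact Bk_Wd h0 (h1 k g1 g2).1 (h1 k g1 g2).2 h

end wnd

/-! ### the corridor net of a polygon -/

variable {u : Poly} {m M : ℕ} {p W : ℤ → ℤ × ℤ} {Ac e : ℤ → ℤ} {η ε d K1 c2 ρ0 : ℝ} {ω : Sample}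
  {T : Tpl ε (Tn × Bool)}

section net

variable [DecidableEq (ZMod M)] [Fintype (ZMod M)] {h3 : 3 ≤ (SU u ε ω).card}

/-- the region of the weight off the window `a .. b` (absolute tiles) -/
abbrev RO (L : LayU u m M p W Ac e) (Hs : Std T (12 * η) (52 * η) (100 * η) Prod.fst) (i : ZMod 3)
    (a b : ℤ) : Set ℂ :=
  (cpth L.lay.fp Hs Ac e i).net.reg (Finset.univ \ Iw M a b) (Finset.univ \ Jw M a b)

theorem LD_eq (C : CorEnv u ε d K1 c2 ρ0 ω) (L : LayU u m M p W Ac e)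
    (hh : (m : ℝ) * (100 * η) = u.s) (Hs : Std T (12 * η) (52 * η) (100 * η) Prod.fst) (i : ZMod 3)
    (a b : ℤ) : DryQx829.Lc C.gpS h3 (RO L Hs i a b) = LL C L Hs i a b :=
  Lc_eq (inn_net C L hh Hs i _ _)

/-- **field `LT` for `TileD`** -/
theorem LT_D (C : CorEnv u ε d K1 c2 ρ0 ω) (L : LayU u m M p W Ac e)
    (hh : (m : ℝ) * (100 * η) = u.s) (Hs : Std T (12 * η) (52 * η) (100 * η) Prod.fst) (i : ZMod 3)
    (a b : ℤ) {Tw : Set (Cs C.gpS)}
    (hT : Tw ⊆ RC C.gpS (Wd (12 * η) (52 * η) (100 * η) W a b)) :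
    ∀ c ∈ DryQx829.Lc C.gpS h3 (RO L Hs i a b), c ∉ Tw := by
  rw [LD_eq C L hh]
  exact LT_cor C L hh Hs i a b hT

/-- `T` = the cells of a region inside the tiles `a < k < b` -/
theorem LT_reg (C : CorEnv u ε d K1 c2 ρ0 ω) (L : LayU u m M p W Ac e)
    (hh : (m : ℝ) * (100 * η) = u.s) (Hs : Std T (12 * η) (52 * η) (100 * η) Prod.fst) (i : ZMod 3)
    (a b : ℤ) {V : Set ℂ} (hV : V ⊆ Wd (12 * η) (52 * η) (100 * η) W a b) :
    ∀ c ∈ DryQx829.Lc C.gpS h3 (RO L Hs i a b), c ∉ clS C.gpS V := by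
  refine LT_D C L hh Hs i a b ?_
  rw [SubHx117.clS_eq fun v _ hv => C.inn (Wd_UU L hh a b (hV hv))]
  exact RC_mono hV

/-- `T` = the cells of the enlarged tiles `a' ≤ k < b'` -/
theorem LT_UB (C : CorEnv u ε d K1 c2 ρ0 ω) (L : LayU u m M p W Ac e)
    (hh : (m : ℝ) * (100 * η) = u.s) (Hs : Std T (12 * η) (52 * η) (100 * η) Prod.fst) (i : ZMod 3)
    {a b o : ℤ} {a' b' : ℕ} (h1 : a < o + a') (h2 : o + b' ≤ b) :
    ∀ c ∈ DryQx829.Lc C.gpS h3 (RO L Hs i a b), c ∉ clS C.gpS (UB (Bk η W o) a' b') :=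
  LT_reg C L hh Hs i a b (UB_Wd (by have := L.h_pos hh; linarith)
    fun k g1 g2 => ⟨by omega, by omega⟩)

/-- **`L` and its neighbours are off the tiles `a < k < b`** -/
theorem nb_D (C : CorEnv u ε d K1 c2 ρ0 ω) (L : LayU u m M p W Ac e)
    (hh : (m : ℝ) * (100 * η) = u.s) (Hs : Std T (12 * η) (52 * η) (100 * η) Prod.fst) (i : ZMod 3)
    (a b : ℤ) (hd : 2 * d ≤ 36 * η) {c : Cs C.gpS}
    (hc : c ∈ DryQx829.Lc C.gpS h3 (RO L Hs i a b)) :
    c ∉ RC C.gpS (Wd (12 * η) (52 * η) (100 * η) W a b) ∧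
      ∀ b', Ad (rc0 C.gpS) b' c → b' ∉ RC C.gpS (Wd (12 * η) (52 * η) (100 * η) W a b) := by
  rw [LD_eq C L hh] at hc
  exact nb_cor C L hh Hs i a b hd hc

/-- the same on sites: a site of a neighbour of a cell of `L` is off the tiles -/
theorem nb_site (C : CorEnv u ε d K1 c2 ρ0 ω) (L : LayU u m M p W Ac e)
    (hh : (m : ℝ) * (100 * η) = u.s) (Hs : Std T (12 * η) (52 * η) (100 * η) Prod.fst) (i : ZMod 3)
    (a b : ℤ) (hd : 2 * d ≤ 36 * η) {c : Cs C.gpS}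
    (hc : c ∈ DryQx829.Lc C.gpS h3 (RO L Hs i a b)) {e' : Cs C.gpS}
    (he : e' = c ∨ Ad (rc0 C.gpS) e' c) {s : ℂ} (hs : s ∈ SU u ε ω)
    (es : e'.1 = Quot.mk (hullE (SU u ε ω)) s) :
    s ∉ Wd (12 * η) (52 * η) (100 * η) W a b := by
  intro hw
  have h1 : e' ∈ RC C.gpS (Wd (12 * η) (52 * η) (100 * η) W a b) :=
    ⟨s, hs, hw, C.inn (Wd_UU L hh a b hw), es⟩
  obtain ⟨h2, h4⟩ := nb_D C L hh Hs i a b hd hc
  rcases he with rfl | he
  · exact h2 h1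
  · exact h4 _ he h1

end net

/-! ### the support of the field -/

section sup

variable {o : ℤ} {n l : ℕ}

/-- **the hypothesis `sup`** for the region `QX` (169) of the tile `l`, sides made of the tiles `b`
with `1 ≤ b`, `b + 1 < n`, not `l - 1, l, l + 1` -/
theorem sup_QX (C : CorEnv u ε d K1 c2 ρ0 ω) (L : LayU u m M p W Ac e)
    (hh : (m : ℝ) * (100 * η) = u.s) (hn : n + 3 ≤ M) (hl : l < n) {n' l' : ℕ} {Q : ℕ → Set ℂ}
    (hQ : Q l' = QX (100 * η) W o n l) (hd : d ≤ 36 * η) {w : D0 (SU u ε ω) → ℂ} {κ : Type}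
    {Z : κ → Uniqx323.Zn (rc0 C.gpS)} {G : κ → Set ℂ} (hZ : ∀ k, (Z k).R ⊆ RC C.gpS (G k))
    (hG : ∀ k, ∀ s ∈ G k, ∃ b : ℕ, 1 ≤ b ∧ b + 1 < n ∧ (b + 2 ≤ l ∨ l + 2 ≤ b) ∧
      s ∈ RR (12 * η) (52 * η) (100 * η) W (o + b))
    (h : D0 (SU u ε ω)) (h0 : rst w (FQ (SU u ε ω) n' Q l') h ≠ 0) (k : κ) :
    ¬ ((rc0 C.gpS).cell h ∈ (Z k).R ∧ (rc0 C.gpS).cell ((rc0 C.gpS).rho h) ∈ (Z k).R ∧
      (rc0 C.gpS).cell ((rc0 C.gpS).rho ((rc0 C.gpS).rho h)) ∈ (Z k).R) := by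
  have e0 := L.h_pos hh
  -- the centre is in the square of a tile `i`
  have sq : ∀ z ∈ Q l', ∃ i : ℤ, z ∈ Sqr (100 * η) W (o + i) ∧
      (i = l ∨ (i = -1 ∧ l = 0) ∨ (i = n ∧ l + 1 = n)) := by
    intro z hz
    rw [hQ] at hz
    obtain ⟨i, h1, h2⟩ := qx_mem hz
    exact ⟨i, Rg_Sqr L.lay.fp _ _ h1, h2⟩
  have hth : ∀ i : ℤ, ∀ z ∈ Sqr (100 * η) W (o + i), ∀ v, ‖v - z‖ < d →
      v ∈ Metric.thickening (36 * η) (Sqr (100 * η) W (o + i)) := by
    intro i z hz v hv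
    refine Metric.mem_thickening_iff.2 ⟨z, hz, ?_⟩
    rw [dist_eq_norm]
    exact hv.trans_le hd
  have hoff : ∀ z ∈ Q l', ∀ v, ‖v - z‖ < d → v ∈ UU u := by
    intro z hz v hv
    obtain ⟨i, h1, -⟩ := sq z hz
    exact Sqr_UU L hh (ρ := 36 * η) (by linarith) (hth i z h1 v hv)
  have hU : ∀ z ∈ Q l', z ∈ UU u := fun z hz => hoff z hz z (by
    rw [sub_self, norm_zero]; exact C.d0)
  have hB : Disjoint (G k) (Metric.thickening d (Q l')) := by
    rw [Set.disjoint_left]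
    intro s hs ht
    obtain ⟨z, hz, hsz⟩ := Metric.mem_thickening_iff.1 ht
    rw [dist_eq_norm] at hsz
    obtain ⟨i, h1, h2⟩ := sq z hz
    obtain ⟨b, b1, b2, b3, b4⟩ := hG k s hs
    have hf : Far2 M (o + i) (o + b) := by
      refine far2_of ?_ ?_
      · rw [show o + (b : ℤ) - (o + i) = b - i by ring, le_abs]
        rcases h2 with rfl | ⟨rfl, h2⟩ | ⟨rfl, h2⟩
        · rcases b3 with b3 | b3
          · exact Or.inr (by omega)
          · exact Or.inl (by omega)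
        · exact Or.inl (by omega)
        · exact Or.inr (by omega)
      · rw [show o + (b : ℤ) - (o + i) = b - i by ring]
        have : |(b : ℤ) - i| ≤ n := by
          rw [abs_le]
          rcases h2 with rfl | ⟨rfl, h2⟩ | ⟨rfl, h2⟩ <;> constructor <;> omega
        have h5 : (n : ℤ) + 3 ≤ M := by exact_mod_cast hn
        omega
    exact Set.disjoint_left.1 (dsj_sq L.lay (ρ := 36 * η) (A := 12 * η) (B := 52 * η)
      (h := 100 * η) (a := o + i) (G := {s}) (by linarith) (by linarith) (by linarith)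
      (fun t ht => ⟨o + b, hf, by rw [mem_singleton_iff.1 ht]; exact b4⟩)) (mem_singleton s)
      (hth i z h1 s hsz)
  have key := sup_rc (hS := C.gpS) (B := G k) (m := n') (l := l') (Q := Q) (w := w) C.d0
    (C.hol.mono hU) (fun z hz v hv => C.inn (hoff z hz v hv)) hB (hZ k) h h0
  exact fun hc => key.1 hc.1

/-- **the hypothesis `sup`** for 117's unions: every side is in the tiles `b' ≤ k < n - 1` or in the
tiles `1 ≤ k < a'`, `a' + 1 ≤ l`, `l + 2 ≤ b'` -/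
theorem sup_UB (C : CorEnv u ε d K1 c2 ρ0 ω) (L : LayU u m M p W Ac e)
    (hh : (m : ℝ) * (100 * η) = u.s) (hn : n + 3 ≤ M) (hl : l < n) {n' l' : ℕ} {Q : ℕ → Set ℂ}
    (hQ : Q l' = QX (100 * η) W o n l) (hd : d ≤ 36 * η) {w : D0 (SU u ε ω) → ℂ} {κ : Type}
    {Z : κ → Uniqx323.Zn (rc0 C.gpS)}
    (hZ : ∀ k, (∃ b', l + 2 ≤ b' ∧ (Z k).R ⊆ RC C.gpS (UB (Bk η W o) b' (n - 1))) ∨
      ∃ a', a' + 1 ≤ l ∧ (Z k).R ⊆ RC C.gpS (UB (Bk η W o) 1 a'))
    (h : D0 (SU u ε ω)) (h0 : rst w (FQ (SU u ε ω) n' Q l') h ≠ 0) (k : κ) :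
    ¬ ((rc0 C.gpS).cell h ∈ (Z k).R ∧ (rc0 C.gpS).cell ((rc0 C.gpS).rho h) ∈ (Z k).R ∧
      (rc0 C.gpS).cell ((rc0 C.gpS).rho ((rc0 C.gpS).rho h)) ∈ (Z k).R) := by
  have e0 := L.h_pos hh
  refine sup_QX C L hh hn hl hQ hd (Z := Z)
    (G := fun _ => {s | ∃ b : ℕ, 1 ≤ b ∧ b + 1 < n ∧ (b + 2 ≤ l ∨ l + 2 ≤ b) ∧
      s ∈ RR (12 * η) (52 * η) (100 * η) W (o + b)}) (fun k => ?_) (fun _ s hs => hs) h h0 k
  rcases hZ k with ⟨b', h1, h2⟩ | ⟨a', h1, h2⟩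
  · refine h2.trans (RC_mono ?_)
    rintro s ⟨j, g1, g2, h4⟩
    exact ⟨j, by omega, by omega, Or.inr (by omega),
      RR_mono (by linarith) (by linarith) _ _ _ h4⟩
  · refine h2.trans (RC_mono ?_)
    rintro s ⟨j, g1, g2, h4⟩
    exact ⟨j, by omega, by omega, Or.inl (by omega),
      RR_mono (by linarith) (by linarith) _ _ _ h4⟩

end sup

end Crest.Agent.R143.PoUx983
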