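import Crest.Agent.R143.PP1_831

set_option autoImplicit false

noncomputable section

namespace Crest.Agent.R143.PoisM4x501

open MeasureTheory Set ProbabilityTheory
open Crest.ProbabilityR.Voronoi
open scoped ENNReal NNReal

abbrev Cell := ℤ × ℤ

/-- cells at sup distance at most `m` of `k` -/
def nbr (k : Cell) (m : ℕ) : Finset Cell :=
  Finset.Icc (k.1 - m) (k.1 + m) ×ˢ Finset.Icc (k.2 - m) (k.2 + m)

lemma mem_nbr {k k' : Cell} {m : ℕ} :
    k' ∈ nbr k m ↔ (k.1 - m ≤ k'.1 ∧ k'.1 ≤ k.1 + m) ∧ (k.2 - m ≤ k'.2 ∧ k'.2 ≤ k.2 + m) := by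
  simp [nbr]

lemma nbr_mono {k : Cell} {m n : ℕ} (h : m ≤ n) : nbr k m ⊆ nbr k n := by
  intro x hx
  rw [mem_nbr] at hx ⊢
  have : (m : ℤ) ≤ n := by exact_mod_cast h
  omega

lemma card_nbr (k : Cell) (m : ℕ) : (nbr k m).card = (2 * m + 1) ^ 2 := by
  simp only [nbr, Finset.card_product, Int.card_Icc, sq]
  congr 1 <;> omega

/-- the box of radius `m` round `k` is empty -/
def Emp (N : Cell → ℕ) (k : Cell) (m : ℕ) : Prop := ∀ k' ∈ nbr k m, N k' = 0

open Classical in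
/-- truncated distance to the nearest occupied cell -/
def eT (M : ℕ) (N : Cell → ℕ) (k : Cell) : ℕ := ((Finset.range M).filter (Emp N k)).card

lemma Emp.anti {N : Cell → ℕ} {k : Cell} {m n : ℕ} (h : Emp N k n) (hmn : m ≤ n) : Emp N k m :=
  fun k' hk' => h k' (nbr_mono hmn hk')

lemma eT_le (M : ℕ) (N : Cell → ℕ) (k : Cell) : eT M N k ≤ M := by
  classical
  unfold eT
  exact (Finset.card_filter_le _ _).trans (by simp)

/-- if `eT ≥ m+1` the box of radius `m` is empty -/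
lemma Emp_of_lt {M : ℕ} {N : Cell → ℕ} {k : Cell} {m : ℕ} (h : m < eT M N k) : Emp N k m := by
  classical
  by_contra hne
  have : (Finset.range M).filter (Emp N k) ⊆ Finset.range m := by
    intro j hj
    rw [Finset.mem_filter] at hj
    rw [Finset.mem_range]
    by_contra hjm
    exact hne (hj.2.anti (by omega))
  have h2 := Finset.card_le_card this
  rw [Finset.card_range] at h2
  unfold eT at h
  omega

/-- if `eT < M` the box of radius `eT` is occupied -/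
lemma exists_occ {M : ℕ} {N : Cell → ℕ} {k : Cell} (h : eT M N k < M) :
    ∃ k' ∈ nbr k (eT M N k), 0 < N k' := by
  classical
  by_contra hne
  push Not at hne
  have hE : Emp N k (eT M N k) := fun k' hk' => by have := hne k' hk'; omega
  have : Finset.range (eT M N k + 1) ⊆ (Finset.range M).filter (Emp N k) := by
    intro j hj
    rw [Finset.mem_range] at hj
    rw [Finset.mem_filter, Finset.mem_range]
    exact ⟨by omega, hE.anti (by omega)⟩
  have h2 := Finset.card_le_card this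
  rw [Finset.card_range] at h2
  unfold eT at h2
  omega

/-- the truncated weight of a cell -/
def Y (M B : ℕ) (N : Cell → ℕ) (k : Cell) : ℕ :=
  (eT M N k + 1) ^ 2 * (∑ k' ∈ nbr k (6 * eT M N k + 7), min (N k') B) ^ 3

/-- bound of the truncated weight -/
def TT (M B : ℕ) : ℕ := (M + 1) ^ 2 * ((12 * M + 15) ^ 2 * B) ^ 3

lemma Y_le (M B : ℕ) (N : Cell → ℕ) (k : Cell) : Y M B N k ≤ TT M B := by
  unfold Y TT
  have he := eT_le M N k
  refine Nat.mul_le_mul (Nat.pow_le_pow_left (by omega) 2) (Nat.pow_le_pow_left ?_ 3)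
  calc ∑ k' ∈ nbr k (6 * eT M N k + 7), min (N k') B
      ≤ ∑ k' ∈ nbr k (6 * eT M N k + 7), B := Finset.sum_le_sum fun _ _ => min_le_right _ _
    _ = (2 * (6 * eT M N k + 7) + 1) ^ 2 * B := by rw [Finset.sum_const, card_nbr, smul_eq_mul]
    _ ≤ (12 * M + 15) ^ 2 * B := Nat.mul_le_mul_right _ (Nat.pow_le_pow_left (by omega) 2)

/-- `Y` depends on the cells within `6M+7` only -/
lemma eT_congr {M : ℕ} {N N' : Cell → ℕ} {k : Cell} (h : ∀ k' ∈ nbr k (6 * M + 7), N k' = N' k') :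
    eT M N k = eT M N' k := by
  classical
  unfold eT
  congr 1
  apply Finset.filter_congr
  intro m hm
  rw [Finset.mem_range] at hm
  constructor
  · intro hE k' hk'
    rw [← h k' (nbr_mono (by omega) hk')]
    exact hE k' hk'
  · intro hE k' hk'
    rw [h k' (nbr_mono (by omega) hk')]
    exact hE k' hk'

lemma Y_congr {M B : ℕ} {N N' : Cell → ℕ} {k : Cell} (h : ∀ k' ∈ nbr k (6 * M + 7), N k' = N' k') :
    Y M B N k = Y M B N' k := by
  unfold Y
  rw [eT_congr h]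
  congr 2
  apply Finset.sum_congr rfl
  intro k' hk'
  have he := eT_le M N' k
  rw [h k' (nbr_mono (by omega) hk')]

/-- pointwise bound of `Y` by a sum over levels -/
lemma Y_le_sum (M B : ℕ) (N : Cell → ℕ) (k : Cell) :
    (Y M B N k : ℝ≥0∞) ≤ ∑ m ∈ Finset.range (M + 1), (((m + 1) ^ 2 * (12 * m + 15) ^ 4 : ℕ) : ℝ≥0∞) *
      ∑ k' ∈ nbr k (6 * m + 7),
        (if ∀ i < m, N (k.1 + (i : ℤ), k.2) = 0 then (1 : ℝ≥0∞) else 0) * (N k' : ℝ≥0∞) ^ 3 := by
  have hmem : eT M N k ∈ Finset.range (M + 1) := by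
    rw [Finset.mem_range]; have := eT_le M N k; omega
  refine le_trans ?_ (Finset.single_le_sum (f := fun m =>
      (((m + 1) ^ 2 * (12 * m + 15) ^ 4 : ℕ) : ℝ≥0∞) * ∑ k' ∈ nbr k (6 * m + 7),
        (if ∀ i < m, N (k.1 + (i : ℤ), k.2) = 0 then (1 : ℝ≥0∞) else 0) * (N k' : ℝ≥0∞) ^ 3)
      (fun _ _ => bot_le) hmem)
  have hrow : ∀ i < eT M N k, N (k.1 + (i : ℤ), k.2) = 0 := by
    intro i hi
    apply Emp_of_lt hi
    rw [mem_nbr]
    constructor <;> constructor <;> simp only [] <;> omega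
  simp only [if_pos hrow, one_mul]
  have key : (∑ k' ∈ nbr k (6 * eT M N k + 7), min (N k') B) ^ 3 ≤
      (12 * eT M N k + 15) ^ 4 * ∑ k' ∈ nbr k (6 * eT M N k + 7), N k' ^ 3 := by
    have h1 : (∑ k' ∈ nbr k (6 * eT M N k + 7), min (N k') B) ^ 3 ≤
        (∑ k' ∈ nbr k (6 * eT M N k + 7), N k') ^ 3 :=
      Nat.pow_le_pow_left (Finset.sum_le_sum fun _ _ => min_le_left _ _) 3
    refine h1.trans ?_
    have h2 := pow_sum_div_card_le_sum_pow (s := nbr k (6 * eT M N k + 7))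
      (f := fun k' => (N k' : ℝ)) (fun _ _ => by positivity) 2
    have hc : (0 : ℝ) < ((nbr k (6 * eT M N k + 7)).card : ℝ) ^ 2 := by
      rw [card_nbr]; positivity
    rw [div_le_iff₀ hc, card_nbr] at h2
    have h3 : ((∑ k' ∈ nbr k (6 * eT M N k + 7), N k' : ℕ) : ℝ) ^ 3 ≤
        (((12 * eT M N k + 15) ^ 4 * ∑ k' ∈ nbr k (6 * eT M N k + 7), N k' ^ 3 : ℕ) : ℝ) := by
      push_cast
      push_cast at h2
      refine h2.trans (le_of_eq ?_)
      ring
    exact_mod_cast h3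
  have key2 : Y M B N k ≤ (eT M N k + 1) ^ 2 * (12 * eT M N k + 15) ^ 4 *
      ∑ k' ∈ nbr k (6 * eT M N k + 7), N k' ^ 3 := by
    unfold Y
    rw [mul_assoc]
    exact Nat.mul_le_mul_left _ key
  calc (Y M B N k : ℝ≥0∞) ≤ (((eT M N k + 1) ^ 2 * (12 * eT M N k + 15) ^ 4 *
      ∑ k' ∈ nbr k (6 * eT M N k + 7), N k' ^ 3 : ℕ) : ℝ≥0∞) := by exact_mod_cast key2
    _ = _ := by push_cast; rfl


/-! ### the law of the counts -/

/-- the law of the counts -/
def mu : Measure (Cell → ℕ) := Measure.infinitePi fun _ : Cell => poissonMeasure 1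

instance : IsProbabilityMeasure mu := by unfold mu; infer_instance

/-- exponential moment -/
def K1 : ℝ≥0∞ := ENNReal.ofReal (Real.exp (Real.exp 1 - 1))

lemma K1_ne_top : K1 ≠ ⊤ := ENNReal.ofReal_ne_top

lemma lintegral_exp_poisson :
    ∫⁻ n : ℕ, ENNReal.ofReal (Real.exp n) ∂(poissonMeasure 1) = K1 := by
  have hs : HasSum (fun n : ℕ => Real.exp (-1) * (Real.exp 1 ^ n / (n.factorial : ℝ)))
      (Real.exp (Real.exp 1 - 1)) := by
    have h := (NormedSpace.expSeries_div_hasSum_exp (Real.exp 1)).mul_left (Real.exp (-1))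
    rw [← Real.exp_eq_exp_ℝ, ← Real.exp_add] at h
    rw [show Real.exp 1 - 1 = -1 + Real.exp 1 by ring]
    exact h
  rw [poissonMeasure, lintegral_sum_measure, K1, ← hs.tsum_eq,
    ENNReal.ofReal_tsum_of_nonneg (fun n => by positivity) hs.summable]
  refine tsum_congr fun n => ?_
  rw [lintegral_smul_measure, lintegral_dirac' _ (by fun_prop), smul_eq_mul,
    ← ENNReal.ofReal_mul (by positivity)]
  congr 1
  have : Real.exp (n : ℝ) = Real.exp 1 ^ n := by
    rw [← Real.exp_nat_mul, mul_one]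
  rw [this]
  simp
  ring

lemma meas_of (k : Cell) (g : ℕ → ℝ≥0∞) : Measurable fun N : Cell → ℕ => g (N k) :=
  (Measurable.of_discrete (f := g)).comp (measurable_pi_apply k)

lemma lintegral_exp (k : Cell) : ∫⁻ N, ENNReal.ofReal (Real.exp (N k)) ∂mu = K1 := by
  rw [← lintegral_exp_poisson, ← Measure.infinitePi_map_eval (fun _ : Cell => poissonMeasure 1) k,
    lintegral_map (by fun_prop) (by fun_prop)]
  rfl

lemma mu_row (k : Cell) (m : ℕ) :
    mu {N | ∀ i < m, N (k.1 + (i : ℤ), k.2) = 0} = ENNReal.ofReal (Real.exp (-(m : ℝ))) := by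
  classical
  let s : Finset Cell := (Finset.range m).image fun i : ℕ => (k.1 + (i : ℤ), k.2)
  have hs : {N : Cell → ℕ | ∀ i < m, N (k.1 + (i : ℤ), k.2) = 0} =
      Set.pi s (fun _ => ({0} : Set ℕ)) := by
    ext N
    simp [s, Set.mem_pi]
  have hinj : Function.Injective fun i : ℕ => ((k.1 + (i : ℤ), k.2) : Cell) := by
    intro i j hij
    simp only [Prod.mk.injEq, add_right_inj, Nat.cast_inj, and_true] at hij
    exact hij
  rw [hs, mu, Measure.infinitePi_pi _ (fun _ _ => MeasurableSet.singleton _), Finset.prod_const,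
    Finset.card_image_of_injective _ hinj, Finset.card_range, poissonMeasure_singleton,
    ← ENNReal.ofReal_pow (by positivity)]
  congr 1
  simp [← Real.exp_nat_mul]

lemma mu_count (k : Cell) (b : ℕ) :
    mu {N | b ≤ N k} ≤ K1 * ENNReal.ofReal (Real.exp (-(b : ℝ))) := by
  have h := mul_meas_ge_le_lintegral₀ (μ := mu) (f := fun N => ENNReal.ofReal (Real.exp (N k)))
    (meas_of k fun n => ENNReal.ofReal (Real.exp n)).aemeasurable (ENNReal.ofReal (Real.exp b))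
  rw [lintegral_exp] at h
  have hset : {N : Cell → ℕ | ENNReal.ofReal (Real.exp b) ≤ ENNReal.ofReal (Real.exp (N k))} =
      {N | b ≤ N k} := by
    ext N
    change ENNReal.ofReal (Real.exp b) ≤ ENNReal.ofReal (Real.exp (N k)) ↔ b ≤ N k
    rw [ENNReal.ofReal_le_ofReal_iff (by positivity), Real.exp_le_exp, Nat.cast_le]
  rw [hset] at h
  have hpos : ENNReal.ofReal (Real.exp (b : ℝ)) ≠ 0 := by
    simp [Real.exp_pos]
  rw [Real.exp_neg, ENNReal.ofReal_inv_of_pos (Real.exp_pos _), ← div_eq_mul_inv,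
    ENNReal.le_div_iff_mul_le (Or.inl hpos) (Or.inl ENNReal.ofReal_ne_top), mul_comm]
  exact h

lemma meas_row (k : Cell) (m : ℕ) :
    MeasurableSet {N : Cell → ℕ | ∀ i < m, N (k.1 + (i : ℤ), k.2) = 0} := by
  have : {N : Cell → ℕ | ∀ i < m, N (k.1 + (i : ℤ), k.2) = 0} =
      ⋂ i : ℕ, ⋂ _ : i < m, (fun N : Cell → ℕ => N (k.1 + (i : ℤ), k.2)) ⁻¹' {0} := by
    ext N
    simp
  rw [this]
  refine MeasurableSet.iInter fun i => MeasurableSet.iInter fun _ => ?_
  exact (measurable_pi_apply _) (MeasurableSet.singleton 0)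

/-- `E[1_{row empty} N^3] ≤ (1 + 720 K1) e^{-m/2}` -/
lemma lintegral_row_mul (k k' : Cell) (m : ℕ) :
    ∫⁻ N, (if ∀ i < m, N (k.1 + (i : ℤ), k.2) = 0 then (1 : ℝ≥0∞) else 0) *
      (N k' : ℝ≥0∞) ^ 3 ∂mu ≤ (1 + 720 * K1) * ENNReal.ofReal (Real.exp (-(m : ℝ) / 2)) := by
  have hpt : ∀ N : Cell → ℕ,
      (if ∀ i < m, N (k.1 + (i : ℤ), k.2) = 0 then (1 : ℝ≥0∞) else 0) * (N k' : ℝ≥0∞) ^ 3 ≤
      ENNReal.ofReal (Real.exp ((m : ℝ) / 2)) *
        ({N : Cell → ℕ | ∀ i < m, N (k.1 + (i : ℤ), k.2) = 0}.indicator 1 N) +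
      ENNReal.ofReal (720 * Real.exp (-(m : ℝ) / 2)) * ENNReal.ofReal (Real.exp (N k')) := by
    intro N
    by_cases h : ∀ i < m, N (k.1 + (i : ℤ), k.2) = 0
    · have hmem : N ∈ {N : Cell → ℕ | ∀ i < m, N (k.1 + (i : ℤ), k.2) = 0} := h
      rw [if_pos h, one_mul, Set.indicator_of_mem hmem]
      simp only [Pi.one_apply, mul_one]
      rw [← ENNReal.ofReal_mul (by positivity), ← ENNReal.ofReal_add (by positivity) (by positivity),
        ← ENNReal.ofReal_natCast, ← ENNReal.ofReal_pow (by positivity)]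
      apply ENNReal.ofReal_le_ofReal
      set a := Real.exp ((m : ℝ) / 2) with ha
      have ha0 : 0 < a := Real.exp_pos _
      have ha1 : Real.exp (-(m : ℝ) / 2) = a⁻¹ := by
        rw [ha, ← Real.exp_neg]; congr 1; ring
      rw [ha1]
      set x : ℝ := (N k' : ℝ) with hx
      have hx0 : 0 ≤ x := by positivity
      have hq : x ^ 6 / 720 ≤ Real.exp x := by
        have := Real.pow_div_factorial_le_exp x hx0 6
        norm_num [Nat.factorial] at this
        linarith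
      set y := x ^ 3 with hy
      have hy0 : 0 ≤ y := by positivity
      have hy2 : y ^ 2 ≤ 720 * Real.exp x := by
        have : y ^ 2 = x ^ 6 := by rw [hy]; ring
        rw [this]; linarith
      have h1 : y ≤ a + a⁻¹ * y ^ 2 := by
        have h2 : 0 ≤ (y - a) ^ 2 := sq_nonneg _
        have h3 : 0 < a⁻¹ := by positivity
        have h4 : a⁻¹ * a = 1 := by field_simp
        nlinarith [mul_nonneg h3.le h2, h4, mul_nonneg h3.le (mul_nonneg ha0.le hy0)]
      calc y ≤ a + a⁻¹ * y ^ 2 := h1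
        _ ≤ a + a⁻¹ * (720 * Real.exp x) := by gcongr
        _ = a + 720 * a⁻¹ * Real.exp x := by ring
    · rw [if_neg h, zero_mul]
      exact bot_le
  have hmeas := meas_row k m
  have hme : Measurable fun N : Cell → ℕ => ENNReal.ofReal (720 * Real.exp (-(m : ℝ) / 2)) *
      ENNReal.ofReal (Real.exp (N k')) :=
    meas_of k' fun n => ENNReal.ofReal (720 * Real.exp (-(m : ℝ) / 2)) *
      ENNReal.ofReal (Real.exp n)
  calc _ ≤ ∫⁻ N, (ENNReal.ofReal (Real.exp ((m : ℝ) / 2)) *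
        ({N : Cell → ℕ | ∀ i < m, N (k.1 + (i : ℤ), k.2) = 0}.indicator 1 N) +
      ENNReal.ofReal (720 * Real.exp (-(m : ℝ) / 2)) * ENNReal.ofReal (Real.exp (N k'))) ∂mu :=
        lintegral_mono hpt
    _ = ENNReal.ofReal (Real.exp ((m : ℝ) / 2)) * ENNReal.ofReal (Real.exp (-(m : ℝ))) +
        ENNReal.ofReal (720 * Real.exp (-(m : ℝ) / 2)) * K1 := by
        rw [lintegral_add_right _ hme, lintegral_const_mul' _ _ ENNReal.ofReal_ne_top,
          lintegral_const_mul' _ _ ENNReal.ofReal_ne_top, lintegral_exp,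
          lintegral_indicator_one hmeas, mu_row]
    _ = (1 + 720 * K1) * ENNReal.ofReal (Real.exp (-(m : ℝ) / 2)) := by
        rw [← ENNReal.ofReal_mul (by positivity), ← Real.exp_add, add_mul, one_mul,
          ENNReal.ofReal_mul (by norm_num), ENNReal.ofReal_ofNat]
        congr 1
        · congr 2
          ring
        · ring

/-- the universal bound of the mean weight -/
def mu0 : ℝ≥0∞ := ∑' m : ℕ, (((m + 1) ^ 2 * (12 * m + 15) ^ 6 : ℕ) : ℝ≥0∞) *
  ((1 + 720 * K1) * ENNReal.ofReal (Real.exp (-(m : ℝ) / 2)))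

lemma mu0_ne_top : mu0 ≠ ⊤ := by
  have hr : ‖Real.exp (-(1 / 2 : ℝ))‖ < 1 := by
    rw [Real.norm_eq_abs, abs_of_pos (Real.exp_pos _), Real.exp_lt_one_iff]
    norm_num
  have hr0 : 0 < Real.exp (-(1 / 2 : ℝ)) := Real.exp_pos _
  have h8 : Summable fun m : ℕ => ((m : ℝ) + 1) ^ 8 * Real.exp (-(1 / 2 : ℝ)) ^ m := by
    have h0 : Summable fun m : ℕ => (m : ℝ) ^ 8 * Real.exp (-(1 / 2 : ℝ)) ^ m :=
      summable_pow_mul_geometric_of_norm_lt_one 8 hr
    have h := (summable_nat_add_iff (f := fun m : ℕ =>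
      (m : ℝ) ^ 8 * Real.exp (-(1 / 2 : ℝ)) ^ m) 1).2 h0
    have h' := h.mul_right (Real.exp (-(1 / 2 : ℝ)))⁻¹
    refine h'.congr fun m => ?_
    push_cast
    field_simp
    ring
  have hle : ∀ m : ℕ, (((m + 1) ^ 2 * (12 * m + 15) ^ 6 : ℕ) : ℝ≥0∞) *
      ((1 + 720 * K1) * ENNReal.ofReal (Real.exp (-(m : ℝ) / 2))) ≤
      (1 + 720 * K1) * ENNReal.ofReal ((15 ^ 6 : ℝ) *
        (((m : ℝ) + 1) ^ 8 * Real.exp (-(1 / 2 : ℝ)) ^ m)) := by
    intro m
    have h1 : (((m + 1) ^ 2 * (12 * m + 15) ^ 6 : ℕ) : ℝ) ≤ 15 ^ 6 * ((m : ℝ) + 1) ^ 8 := by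
      push_cast
      have h2 : (12 * (m : ℝ) + 15) ^ 6 ≤ (15 * ((m : ℝ) + 1)) ^ 6 := by
        gcongr
        have : (0 : ℝ) ≤ m := by positivity
        linarith
      calc ((m : ℝ) + 1) ^ 2 * (12 * (m : ℝ) + 15) ^ 6
          ≤ ((m : ℝ) + 1) ^ 2 * (15 * ((m : ℝ) + 1)) ^ 6 := by gcongr
        _ = 15 ^ 6 * ((m : ℝ) + 1) ^ 8 := by ring
    rw [← ENNReal.ofReal_natCast]
    calc ENNReal.ofReal (((m + 1) ^ 2 * (12 * m + 15) ^ 6 : ℕ) : ℝ) *
      ((1 + 720 * K1) * ENNReal.ofReal (Real.exp (-(m : ℝ) / 2)))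
        = (1 + 720 * K1) * (ENNReal.ofReal (((m + 1) ^ 2 * (12 * m + 15) ^ 6 : ℕ) : ℝ) *
          ENNReal.ofReal (Real.exp (-(m : ℝ) / 2))) := by ring
      _ = (1 + 720 * K1) * ENNReal.ofReal ((((m + 1) ^ 2 * (12 * m + 15) ^ 6 : ℕ) : ℝ) *
          Real.exp (-(m : ℝ) / 2)) := by rw [← ENNReal.ofReal_mul (by positivity)]
      _ ≤ _ := by
        refine mul_le_mul' le_rfl (ENNReal.ofReal_le_ofReal ?_)
        rw [← Real.exp_nat_mul, show (m : ℝ) * -(1 / 2) = -(m : ℝ) / 2 by ring, ← mul_assoc]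
        exact mul_le_mul_of_nonneg_right h1 (Real.exp_pos _).le
  refine ne_top_of_le_ne_top ?_ (ENNReal.tsum_le_tsum hle)
  rw [ENNReal.tsum_mul_left]
  refine ENNReal.mul_ne_top ?_ ?_
  · exact ENNReal.add_ne_top.2 ⟨ENNReal.one_ne_top, ENNReal.mul_ne_top (by simp) K1_ne_top⟩
  · rw [← ENNReal.ofReal_tsum_of_nonneg (fun m => by positivity) (h8.mul_left _)]
    exact ENNReal.ofReal_ne_top

lemma lintegral_Y_le (M B : ℕ) (k : Cell) : ∫⁻ N, (Y M B N k : ℝ≥0∞) ∂mu ≤ mu0 := by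
  have hm : ∀ (m : ℕ) (k' : Cell), Measurable fun N : Cell → ℕ =>
      (if ∀ i < m, N (k.1 + (i : ℤ), k.2) = 0 then (1 : ℝ≥0∞) else 0) * (N k' : ℝ≥0∞) ^ 3 := by
    intro m k'
    have h3 : Measurable fun N : Cell → ℕ => (N k' : ℝ≥0∞) ^ 3 :=
      meas_of k' (fun n => (n : ℝ≥0∞) ^ 3)
    exact (Measurable.ite (meas_row k m) measurable_const measurable_const).mul h3
  calc ∫⁻ N, (Y M B N k : ℝ≥0∞) ∂mu
      ≤ ∫⁻ N, ∑ m ∈ Finset.range (M + 1), (((m + 1) ^ 2 * (12 * m + 15) ^ 4 : ℕ) : ℝ≥0∞) *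
      ∑ k' ∈ nbr k (6 * m + 7),
        (if ∀ i < m, N (k.1 + (i : ℤ), k.2) = 0 then (1 : ℝ≥0∞) else 0) *
          (N k' : ℝ≥0∞) ^ 3 ∂mu := lintegral_mono fun N => Y_le_sum M B N k
    _ = ∑ m ∈ Finset.range (M + 1), (((m + 1) ^ 2 * (12 * m + 15) ^ 4 : ℕ) : ℝ≥0∞) *
        ∑ k' ∈ nbr k (6 * m + 7),
        ∫⁻ N, (if ∀ i < m, N (k.1 + (i : ℤ), k.2) = 0 then (1 : ℝ≥0∞) else 0) *
          (N k' : ℝ≥0∞) ^ 3 ∂mu := by
        rw [lintegral_finsetSum _ (fun m _ =>
          (Finset.measurable_sum _ fun k' _ => hm m k').const_mul _)]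
        refine Finset.sum_congr rfl fun m _ => ?_
        rw [lintegral_const_mul _ (Finset.measurable_sum _ fun k' _ => hm m k'),
          lintegral_finsetSum _ (fun k' _ => hm m k')]
    _ ≤ ∑ m ∈ Finset.range (M + 1), (((m + 1) ^ 2 * (12 * m + 15) ^ 4 : ℕ) : ℝ≥0∞) *
        ∑ k' ∈ nbr k (6 * m + 7),
        ((1 + 720 * K1) * ENNReal.ofReal (Real.exp (-(m : ℝ) / 2))) := by
        gcongr with m _ k' _
        exact lintegral_row_mul k k' m
    _ = ∑ m ∈ Finset.range (M + 1), (((m + 1) ^ 2 * (12 * m + 15) ^ 6 : ℕ) : ℝ≥0∞) *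
        ((1 + 720 * K1) * ENNReal.ofReal (Real.exp (-(m : ℝ) / 2))) := by
        refine Finset.sum_congr rfl fun m _ => ?_
        rw [Finset.sum_const, card_nbr, nsmul_eq_mul, ← mul_assoc]
        congr 1
        push_cast
        ring
    _ ≤ mu0 := ENNReal.sum_le_tsum _

/-! ### independence -/

lemma loc_eq (s : Finset Cell) (F : (Cell → ℕ) → ℝ≥0∞)
    (hF : ∀ N N' : Cell → ℕ, (∀ k ∈ s, N k = N' k) → F N = F N') :
    ∃ G : (s → ℕ) → ℝ≥0∞, F = fun N => G (fun i => N i) := by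
  classical
  refine ⟨fun g => F (fun k => if h : k ∈ s then g ⟨k, h⟩ else 0), ?_⟩
  funext N
  apply hF
  intro k hk
  simp [hk]

lemma meas_loc (s : Finset Cell) (F : (Cell → ℕ) → ℝ≥0∞)
    (hF : ∀ N N' : Cell → ℕ, (∀ k ∈ s, N k = N' k) → F N = F N') : Measurable F := by
  obtain ⟨G, hG⟩ := loc_eq s F hF
  rw [hG]
  exact (Measurable.of_discrete (f := G)).comp
    (measurable_pi_lambda _ fun i => measurable_pi_apply _)

lemma lintegral_mul_loc (s t : Finset Cell) (hst : Disjoint s t) (F G : (Cell → ℕ) → ℝ≥0∞)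
    (hF : ∀ N N' : Cell → ℕ, (∀ k ∈ s, N k = N' k) → F N = F N')
    (hG : ∀ N N' : Cell → ℕ, (∀ k ∈ t, N k = N' k) → G N = G N') :
    ∫⁻ N, F N * G N ∂mu = (∫⁻ N, F N ∂mu) * ∫⁻ N, G N ∂mu := by
  have hi : iIndepFun (fun (k : Cell) (N : Cell → ℕ) => N k) mu :=
    iIndepFun_infinitePi (P := fun _ : Cell => poissonMeasure 1) (X := fun _ x => x)
      (fun _ => measurable_id)
  have hi2 := hi.indepFun_finset s t hst (fun k => measurable_pi_apply k)
  obtain ⟨F', hF'⟩ := loc_eq s F hF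
  obtain ⟨G', hG'⟩ := loc_eq t G hG
  have hi3 := hi2.comp (φ := F') (ψ := G') (Measurable.of_discrete) (Measurable.of_discrete)
  have h := lintegral_mul_eq_lintegral_mul_lintegral_of_indepFun (meas_loc s F hF)
    (meas_loc t G hG) (by rw [hF', hG']; exact hi3)
  exact h

lemma lintegral_prod_loc (r : ℕ) (F : Cell → (Cell → ℕ) → ℝ≥0∞)
    (hF : ∀ k, ∀ N N' : Cell → ℕ, (∀ k' ∈ nbr k r, N k' = N' k') → F k N = F k N')
    (I : Finset Cell)
    (hI : ∀ k ∈ I, ∀ l ∈ I, k ≠ l → Disjoint (nbr k r) (nbr l r)) :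
    ∫⁻ N, ∏ k ∈ I, F k N ∂mu = ∏ k ∈ I, ∫⁻ N, F k N ∂mu := by
  classical
  induction I using Finset.induction_on with
  | empty => simp
  | insert k I hk ih =>
    have ih' := ih fun a ha b hb hab =>
      hI a (Finset.mem_insert_of_mem ha) b (Finset.mem_insert_of_mem hb) hab
    simp only [Finset.prod_insert hk]
    rw [← ih']
    refine lintegral_mul_loc (nbr k r) (I.biUnion fun l => nbr l r) ?_ _ _ (hF k) ?_
    · rw [Finset.disjoint_biUnion_right]
      intro l hl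
      exact hI k (Finset.mem_insert_self _ _) l (Finset.mem_insert_of_mem hl)
        (fun h => hk (h ▸ hl))
    · intro N N' h
      refine Finset.prod_congr rfl fun l hl => hF l N N' fun k' hk' => h k' ?_
      exact Finset.mem_biUnion.2 ⟨l, hl, hk'⟩

/-! ### exponential moments -/

/-- real version of `mu0` -/
def m0 : ℝ := mu0.toReal

lemma m0_nonneg : 0 ≤ m0 := ENNReal.toReal_nonneg

lemma laplace_one (M B : ℕ) (k : Cell) (u : ℝ) (hu : 0 ≤ u) (huT : u * TT M B ≤ 1) :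
    ∫⁻ N, ENNReal.ofReal (Real.exp (u * Y M B N k)) ∂mu ≤ ENNReal.ofReal (Real.exp (2 * u * m0)) := by
  have hpt : ∀ N : Cell → ℕ, ENNReal.ofReal (Real.exp (u * Y M B N k)) ≤
      1 + ENNReal.ofReal (2 * u) * (Y M B N k : ℝ≥0∞) := by
    intro N
    have hY : (Y M B N k : ℝ) ≤ TT M B := by exact_mod_cast Y_le M B N k
    have hx0 : 0 ≤ u * (Y M B N k : ℝ) := by positivity
    have hx1 : u * (Y M B N k : ℝ) ≤ 1 := (mul_le_mul_of_nonneg_left hY hu).trans huT
    have he := Real.abs_exp_sub_one_sub_id_le (x := u * (Y M B N k : ℝ))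
      (by rw [abs_of_nonneg hx0]; exact hx1)
    have he2 : Real.exp (u * Y M B N k) ≤ 1 + 2 * u * (Y M B N k : ℝ) := by
      have := (abs_le.1 he).2
      nlinarith
    calc ENNReal.ofReal (Real.exp (u * Y M B N k)) ≤ ENNReal.ofReal (1 + 2 * u * (Y M B N k : ℝ)) :=
          ENNReal.ofReal_le_ofReal he2
      _ = 1 + ENNReal.ofReal (2 * u) * (Y M B N k : ℝ≥0∞) := by
          rw [ENNReal.ofReal_add (by norm_num) (by positivity), ENNReal.ofReal_one,
            ENNReal.ofReal_mul (by positivity), ENNReal.ofReal_natCast]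
  have hmY : Measurable fun N : Cell → ℕ => (Y M B N k : ℝ≥0∞) :=
    meas_loc (nbr k (6 * M + 7)) _ fun N N' h => by rw [Y_congr h]
  calc _ ≤ ∫⁻ N, (1 + ENNReal.ofReal (2 * u) * (Y M B N k : ℝ≥0∞)) ∂mu := lintegral_mono hpt
    _ = 1 + ENNReal.ofReal (2 * u) * ∫⁻ N, (Y M B N k : ℝ≥0∞) ∂mu := by
        rw [lintegral_add_left measurable_const, lintegral_const_mul _ hmY]
        simp
    _ ≤ 1 + ENNReal.ofReal (2 * u) * mu0 := by gcongr; exact lintegral_Y_le M B k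
    _ = ENNReal.ofReal (1 + 2 * u * m0) := by
        rw [ENNReal.ofReal_add (by norm_num) (by have := m0_nonneg; positivity),
          ENNReal.ofReal_mul (p := 2 * u) (by positivity), m0, ENNReal.ofReal_toReal mu0_ne_top,
          ENNReal.ofReal_one]
    _ ≤ ENNReal.ofReal (Real.exp (2 * u * m0)) := by
        apply ENNReal.ofReal_le_ofReal
        have := Real.add_one_le_exp (2 * u * m0)
        linarith

/-- residue classes -/
def cls (q : ℕ) (k : Cell) : Cell := (k.1 % q, k.2 % q)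

lemma cls_disj {r : ℕ} {k l : Cell} (h : cls (2 * r + 1) k = cls (2 * r + 1) l) (hkl : k ≠ l) :
    Disjoint (nbr k r) (nbr l r) := by
  rw [Finset.disjoint_left]
  intro x hx hx'
  rw [mem_nbr] at hx hx'
  simp only [cls, Prod.mk.injEq] at h
  apply hkl
  obtain ⟨h1, h2⟩ := h
  have e1 : k.1 = l.1 := by
    have hd : ((2 * r + 1 : ℕ) : ℤ) ∣ k.1 - l.1 := Int.ModEq.dvd (by exact h1.symm)
    have hb : |k.1 - l.1| < ((2 * r + 1 : ℕ) : ℤ) := by
      rw [abs_lt]
      constructor <;> push_cast <;> omega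
    have := Int.eq_zero_of_abs_lt_dvd hd hb
    omega
  have e2 : k.2 = l.2 := by
    have hd : ((2 * r + 1 : ℕ) : ℤ) ∣ k.2 - l.2 := Int.ModEq.dvd (by exact h2.symm)
    have hb : |k.2 - l.2| < ((2 * r + 1 : ℕ) : ℤ) := by
      rw [abs_lt]
      constructor <;> push_cast <;> omega
    have := Int.eq_zero_of_abs_lt_dvd hd hb
    omega
  exact Prod.ext e1 e2

lemma laplace_class (M B : ℕ) (I : Finset Cell)
    (hI : ∀ k ∈ I, ∀ l ∈ I, k ≠ l → Disjoint (nbr k (6 * M + 7)) (nbr l (6 * M + 7)))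
    (u : ℝ) (hu : 0 ≤ u) (huT : u * TT M B ≤ 1) :
    ∫⁻ N, ∏ k ∈ I, ENNReal.ofReal (Real.exp (u * Y M B N k)) ∂mu ≤
      ENNReal.ofReal (Real.exp (2 * u * m0 * I.card)) := by
  rw [lintegral_prod_loc (6 * M + 7) (fun k N => ENNReal.ofReal (Real.exp (u * Y M B N k)))
    (fun k N N' h => by rw [Y_congr h]) I hI]
  calc ∏ k ∈ I, ∫⁻ N, ENNReal.ofReal (Real.exp (u * Y M B N k)) ∂mu
      ≤ ∏ k ∈ I, ENNReal.ofReal (Real.exp (2 * u * m0)) :=
        Finset.prod_le_prod' fun k _ => laplace_one M B k u hu huT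
    _ = ENNReal.ofReal (Real.exp (2 * u * m0 * I.card)) := by
        rw [Finset.prod_const, ← ENNReal.ofReal_pow (Real.exp_pos _).le, ← Real.exp_nat_mul]
        congr 2
        ring

lemma laplace_box (M B : ℕ) (Bx : Finset Cell) (u : ℝ) (hu : 0 ≤ u) (huT : u * TT M B ≤ 1) :
    ∫⁻ N, ENNReal.ofReal (Real.exp (u / (12 * M + 15) ^ 2 * ∑ k ∈ Bx, (Y M B N k : ℝ))) ∂mu ≤
      ENNReal.ofReal (Real.exp (u / (12 * M + 15) ^ 2 * (2 * m0 * Bx.card))) := by
  classical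
  set q : ℕ := 2 * (6 * M + 7) + 1 with hq
  have hqr : ((12 * M + 15 : ℝ)) = (q : ℝ) := by rw [hq]; push_cast; ring
  rw [hqr]
  have hq0 : (0 : ℝ) < q := by rw [hq]; positivity
  let J : Finset Cell := Finset.Ico 0 (q : ℤ) ×ˢ Finset.Ico 0 (q : ℤ)
  have hJ : J.card = q ^ 2 := by
    simp [J, sq]
  have hmap : ∀ k ∈ Bx, cls q k ∈ J := by
    intro k _
    have hq' : (0 : ℤ) < q := by exact_mod_cast hq0
    simp only [J, cls, Finset.mem_product, Finset.mem_Ico]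
    exact ⟨⟨Int.emod_nonneg _ hq'.ne', Int.emod_lt_of_pos _ hq'⟩,
      ⟨Int.emod_nonneg _ hq'.ne', Int.emod_lt_of_pos _ hq'⟩⟩
  let I : Cell → Finset Cell := fun j => Bx.filter fun k => cls q k = j
  have hpt : ∀ N : Cell → ℕ, ENNReal.ofReal (Real.exp (u / q ^ 2 * ∑ k ∈ Bx, (Y M B N k : ℝ))) =
      ∏ j ∈ J, (∏ k ∈ I j, ENNReal.ofReal (Real.exp (u * Y M B N k))) ^ (1 / (q : ℝ) ^ 2) := by
    intro N
    have h1 : ∑ k ∈ Bx, (Y M B N k : ℝ) = ∑ j ∈ J, ∑ k ∈ I j, (Y M B N k : ℝ) :=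
      (Finset.sum_fiberwise_of_maps_to hmap _).symm
    rw [h1, Finset.mul_sum, Real.exp_sum, ENNReal.ofReal_prod_of_nonneg
      (fun _ _ => (Real.exp_pos _).le)]
    refine Finset.prod_congr rfl fun j _ => ?_
    rw [← ENNReal.ofReal_prod_of_nonneg (fun _ _ => (Real.exp_pos _).le), ← Real.exp_sum,
      ENNReal.ofReal_rpow_of_pos (Real.exp_pos _), ← Real.exp_mul, ← Finset.mul_sum]
    congr 2
    ring
  have hmeas : ∀ j ∈ J, AEMeasurable
      (fun N : Cell → ℕ => ∏ k ∈ I j, ENNReal.ofReal (Real.exp (u * Y M B N k))) mu := by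
    intro j _
    refine (Finset.measurable_prod _ fun k _ => ?_).aemeasurable
    exact meas_loc (nbr k (6 * M + 7)) _ fun N N' h => by rw [Y_congr h]
  simp_rw [hpt]
  refine (ENNReal.lintegral_prod_norm_pow_le J hmeas (p := fun _ => 1 / (q : ℝ) ^ 2) ?_
    (fun _ _ => by positivity)).trans ?_
  · rw [Finset.sum_const, hJ, nsmul_eq_mul]
    push_cast
    field_simp
  · calc ∏ j ∈ J, (∫⁻ N, ∏ k ∈ I j, ENNReal.ofReal (Real.exp (u * Y M B N k)) ∂mu) ^
          (1 / (q : ℝ) ^ 2)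
        ≤ ∏ j ∈ J, ENNReal.ofReal (Real.exp (u / q ^ 2 * (2 * m0 * (I j).card))) := by
          refine Finset.prod_le_prod' fun j _ => ?_
          have h := laplace_class M B (I j) (by
            intro k hk l hl hkl
            simp only [I, Finset.mem_filter] at hk hl
            exact cls_disj (hk.2.trans hl.2.symm) hkl) u hu huT
          refine (ENNReal.rpow_le_rpow h (by positivity)).trans (le_of_eq ?_)
          rw [ENNReal.ofReal_rpow_of_pos (Real.exp_pos _), ← Real.exp_mul]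
          congr 2
          ring
      _ = ENNReal.ofReal (Real.exp (u / q ^ 2 * (2 * m0 * Bx.card))) := by
          rw [← ENNReal.ofReal_prod_of_nonneg (fun _ _ => (Real.exp_pos _).le), ← Real.exp_sum,
            ← Finset.mul_sum, ← Finset.mul_sum]
          have : ∑ j ∈ J, ((I j).card : ℝ) = Bx.card := by
            rw [← Nat.cast_sum, Finset.card_eq_sum_card_fiberwise hmap]
          rw [this]

/-- Chernoff bound -/
lemma tail (M B : ℕ) (Bx : Finset Cell) (l : ℝ) :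
    mu {N | l * Bx.card ≤ ∑ k ∈ Bx, (Y M B N k : ℝ)} ≤
      ENNReal.ofReal (Real.exp (-((l - 2 * m0) * Bx.card / ((12 * M + 15) ^ 2 * TT M B)))) := by
  set T : ℝ := (TT M B : ℝ) with hT
  have hT0 : 0 ≤ T := by positivity
  have hu : 0 ≤ T⁻¹ := by positivity
  have huT : T⁻¹ * T ≤ 1 := inv_mul_le_one
  set s : ℝ := T⁻¹ / (12 * M + 15) ^ 2 with hs
  have hs0 : 0 ≤ s := by positivity
  have hL := laplace_box M B Bx T⁻¹ hu huT
  rw [← hs] at hL
  have hmeas : AEMeasurable (fun N : Cell → ℕ =>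
      ENNReal.ofReal (Real.exp (s * ∑ k ∈ Bx, (Y M B N k : ℝ)))) mu := by
    classical
    refine (meas_loc (Bx.biUnion fun k => nbr k (6 * M + 7)) _ fun N N' h => ?_).aemeasurable
    congr 3
    refine Finset.sum_congr rfl fun k hk => ?_
    rw [Y_congr fun k' hk' => h k' (Finset.mem_biUnion.2 ⟨k, hk, hk'⟩)]
  have hMk := mul_meas_ge_le_lintegral₀ hmeas (ENNReal.ofReal (Real.exp (s * (l * Bx.card))))
  have hsub : {N : Cell → ℕ | l * Bx.card ≤ ∑ k ∈ Bx, (Y M B N k : ℝ)} ⊆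
      {N | ENNReal.ofReal (Real.exp (s * (l * Bx.card))) ≤
        ENNReal.ofReal (Real.exp (s * ∑ k ∈ Bx, (Y M B N k : ℝ)))} := by
    intro N hN
    have hN' : l * Bx.card ≤ ∑ k ∈ Bx, (Y M B N k : ℝ) := hN
    exact ENNReal.ofReal_le_ofReal (Real.exp_le_exp.2 (mul_le_mul_of_nonneg_left hN' hs0))
  have hpos : ENNReal.ofReal (Real.exp (s * (l * Bx.card))) ≠ 0 := by simp [Real.exp_pos]
  have h1 : mu {N | l * Bx.card ≤ ∑ k ∈ Bx, (Y M B N k : ℝ)} ≤
      ENNReal.ofReal (Real.exp (s * (2 * m0 * Bx.card))) /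
        ENNReal.ofReal (Real.exp (s * (l * Bx.card))) := by
    rw [ENNReal.le_div_iff_mul_le (Or.inl hpos) (Or.inl ENNReal.ofReal_ne_top), mul_comm]
    exact ((mul_le_mul' le_rfl (measure_mono hsub)).trans hMk).trans hL
  refine h1.trans (le_of_eq ?_)
  rw [← ENNReal.ofReal_div_of_pos (Real.exp_pos _), ← Real.exp_sub]
  congr 2
  rw [hs]
  rw [div_eq_mul_inv, div_eq_mul_inv, mul_inv]
  ring

end Crest.Agent.R143.PoisM4x501
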