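import Crest.Agent.R143.PoisM4G_501

set_option autoImplicit false

noncomputable section

namespace Crest.Agent.R143.PoisM4x501

open MeasureTheory Set ProbabilityTheory Filter Topology
open Crest.ProbabilityR.Voronoi
open Crest.Agent.R143.B0x346 Crest.Agent.R143.PP1x831
open scoped ENNReal NNReal

/-! ### the union bound -/

/-- the bad event on the counts -/
def Bad (M B L n1 : ℕ) : Set (Cell → ℕ) :=
  ({N | ∃ k ∈ nbr 0 L, M ≤ eT M N k} ∪ {N | ∃ k ∈ nbr 0 L, B ≤ N k}) ∪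
  {N | ∃ c ∈ nbr 0 L, ∃ n ∈ Finset.Icc n1 L,
    (2 * m0 + 1) * (nbr c n).card ≤ ∑ k ∈ nbr c n, (Y M B N k : ℝ)}

lemma mu_Bad (M B L n1 : ℕ) : mu (Bad M B L n1) ≤ ENNReal.ofReal
    ((2 * L + 1) ^ 2 * Real.exp (-(M : ℝ)) +
      (2 * L + 1) ^ 2 * (Real.exp (Real.exp 1 - 1) * Real.exp (-(B : ℝ))) +
      (2 * L + 1) ^ 3 * Real.exp (-((2 * n1 + 1) ^ 2 / ((12 * M + 15) ^ 2 * TT M B)))) := by
  have hcard : ((nbr 0 L).card : ℝ≥0∞) = ENNReal.ofReal ((2 * L + 1) ^ 2) := by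
    rw [card_nbr, ← ENNReal.ofReal_natCast]; push_cast; rfl
  have h1 : mu {N | ∃ k ∈ nbr 0 L, M ≤ eT M N k} ≤
      ENNReal.ofReal ((2 * L + 1) ^ 2 * Real.exp (-(M : ℝ))) := by
    have hsub : {N : Cell → ℕ | ∃ k ∈ nbr 0 L, M ≤ eT M N k} ⊆
        ⋃ k ∈ nbr 0 L, {N | ∀ i < M, N (k.1 + (i : ℤ), k.2) = 0} := by
      rintro N ⟨k, hk, hN⟩
      refine mem_iUnion₂.2 ⟨k, hk, fun i hi => ?_⟩
      apply Emp_of_lt (lt_of_lt_of_le hi hN)
      rw [mem_nbr]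
      constructor <;> constructor <;> simp only [] <;> omega
    calc _ ≤ mu (⋃ k ∈ nbr 0 L, {N | ∀ i < M, N (k.1 + (i : ℤ), k.2) = 0}) := measure_mono hsub
      _ ≤ ∑ k ∈ nbr 0 L, mu {N | ∀ i < M, N (k.1 + (i : ℤ), k.2) = 0} :=
          measure_biUnion_finset_le _ _
      _ = ENNReal.ofReal ((2 * L + 1) ^ 2 * Real.exp (-(M : ℝ))) := by
          simp_rw [mu_row]
          rw [Finset.sum_const, nsmul_eq_mul, hcard, ← ENNReal.ofReal_mul (by positivity)]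
  have h2 : mu {N | ∃ k ∈ nbr 0 L, B ≤ N k} ≤
      ENNReal.ofReal ((2 * L + 1) ^ 2 * (Real.exp (Real.exp 1 - 1) * Real.exp (-(B : ℝ)))) := by
    have hsub : {N : Cell → ℕ | ∃ k ∈ nbr 0 L, B ≤ N k} ⊆ ⋃ k ∈ nbr 0 L, {N | B ≤ N k} := by
      rintro N ⟨k, hk, hN⟩
      exact mem_iUnion₂.2 ⟨k, hk, hN⟩
    calc _ ≤ mu (⋃ k ∈ nbr 0 L, {N | B ≤ N k}) := measure_mono hsub
      _ ≤ ∑ k ∈ nbr 0 L, mu {N | B ≤ N k} := measure_biUnion_finset_le _ _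
      _ ≤ ∑ k ∈ nbr 0 L, K1 * ENNReal.ofReal (Real.exp (-(B : ℝ))) :=
          Finset.sum_le_sum fun k _ => mu_count k B
      _ = _ := by
          rw [Finset.sum_const, nsmul_eq_mul, hcard, K1, ← ENNReal.ofReal_mul (by positivity),
            ← ENNReal.ofReal_mul (by positivity)]
  have h3 : mu {N | ∃ c ∈ nbr 0 L, ∃ n ∈ Finset.Icc n1 L,
      (2 * m0 + 1) * (nbr c n).card ≤ ∑ k ∈ nbr c n, (Y M B N k : ℝ)} ≤
      ENNReal.ofReal ((2 * L + 1) ^ 3 *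
        Real.exp (-((2 * n1 + 1) ^ 2 / ((12 * M + 15) ^ 2 * TT M B)))) := by
    have hsub : {N : Cell → ℕ | ∃ c ∈ nbr 0 L, ∃ n ∈ Finset.Icc n1 L,
        (2 * m0 + 1) * (nbr c n).card ≤ ∑ k ∈ nbr c n, (Y M B N k : ℝ)} ⊆
        ⋃ c ∈ nbr 0 L, ⋃ n ∈ Finset.Icc n1 L,
          {N | (2 * m0 + 1) * (nbr c n).card ≤ ∑ k ∈ nbr c n, (Y M B N k : ℝ)} := by
      rintro N ⟨k, hk, n, hn, hN⟩
      exact mem_iUnion₂.2 ⟨k, hk, mem_iUnion₂.2 ⟨n, hn, hN⟩⟩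
    have hone : ∀ c : Cell, ∀ n ∈ Finset.Icc n1 L,
        mu {N | (2 * m0 + 1) * (nbr c n).card ≤ ∑ k ∈ nbr c n, (Y M B N k : ℝ)} ≤
        ENNReal.ofReal (Real.exp (-((2 * n1 + 1) ^ 2 / ((12 * M + 15) ^ 2 * TT M B)))) := by
      intro c n hn
      refine (tail M B (nbr c n) (2 * m0 + 1)).trans ?_
      apply ENNReal.ofReal_le_ofReal
      apply Real.exp_le_exp.2
      apply neg_le_neg
      rw [card_nbr, show (2 * m0 + 1 - 2 * m0 : ℝ) = 1 by ring, one_mul]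
      have hn1 : (n1 : ℝ) ≤ n := by exact_mod_cast (Finset.mem_Icc.1 hn).1
      push_cast
      gcongr
    calc _ ≤ mu (⋃ c ∈ nbr 0 L, ⋃ n ∈ Finset.Icc n1 L,
          {N | (2 * m0 + 1) * (nbr c n).card ≤ ∑ k ∈ nbr c n, (Y M B N k : ℝ)}) :=
          measure_mono hsub
      _ ≤ ∑ c ∈ nbr 0 L, mu (⋃ n ∈ Finset.Icc n1 L,
          {N | (2 * m0 + 1) * (nbr c n).card ≤ ∑ k ∈ nbr c n, (Y M B N k : ℝ)}) :=
          measure_biUnion_finset_le _ _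
      _ ≤ ∑ c ∈ nbr 0 L, ∑ n ∈ Finset.Icc n1 L,
          mu {N | (2 * m0 + 1) * (nbr c n).card ≤ ∑ k ∈ nbr c n, (Y M B N k : ℝ)} :=
          Finset.sum_le_sum fun c _ => measure_biUnion_finset_le _ _
      _ ≤ ∑ c ∈ nbr 0 L, ∑ n ∈ Finset.Icc n1 L,
          ENNReal.ofReal (Real.exp (-((2 * n1 + 1) ^ 2 / ((12 * M + 15) ^ 2 * TT M B)))) :=
          Finset.sum_le_sum fun c _ => Finset.sum_le_sum fun n hn => hone c n hn
      _ = ((2 * L + 1) ^ 2 * (L + 1 - n1) : ℕ) *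
          ENNReal.ofReal (Real.exp (-((2 * n1 + 1) ^ 2 / ((12 * M + 15) ^ 2 * TT M B)))) := by
          rw [Finset.sum_const, Finset.sum_const, nsmul_eq_mul, nsmul_eq_mul, card_nbr,
            Nat.card_Icc, ← mul_assoc, ← Nat.cast_mul]
      _ ≤ ((2 * L + 1) ^ 3 : ℕ) *
          ENNReal.ofReal (Real.exp (-((2 * n1 + 1) ^ 2 / ((12 * M + 15) ^ 2 * TT M B)))) := by
          gcongr
          calc (2 * L + 1) ^ 2 * (L + 1 - n1) ≤ (2 * L + 1) ^ 2 * (2 * L + 1) :=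
                Nat.mul_le_mul_left _ (by omega)
            _ = (2 * L + 1) ^ 3 := by ring
      _ = _ := by
          rw [← ENNReal.ofReal_natCast, ← ENNReal.ofReal_mul (by positivity)]
          push_cast
          rfl
  unfold Bad
  rw [ENNReal.ofReal_add (by positivity) (by positivity),
    ENNReal.ofReal_add (by positivity) (by positivity)]
  exact (measure_union_le _ _).trans (add_le_add ((measure_union_le _ _).trans
    (add_le_add h1 h2)) h3)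

lemma sampleLaw_fst (s : Set (Cell → ℕ)) : sampleLaw {ω : Sample | ω.1 ∈ s} = mu s := by
  have : {ω : Sample | ω.1 ∈ s} = s ×ˢ (univ : Set (ℤ × ℤ → ℕ → Fin 3 → unitInterval)) := by
    ext ω
    simp
  rw [this, sampleLaw, Measure.prod_prod, measure_univ, mul_one]
  rfl

/-- outside the bad event the sum of the squared diameters is small -/
lemma good_sum {ε : ℝ} {ω : Sample} {M B L n1 : ℕ} (hε : 0 < ε) (hN : ω.1 ∉ Bad M B L n1)
    {z : ℂ} {ρ : ℝ} (hρ : (8 * M + 2 : ℝ) * ε ≤ ρ) (hn1 : (n1 : ℝ) * ε ≤ ρ + ε)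
    (hL : ‖z‖ / ε + ρ / ε + 14 * M + 10 ≤ L) :
    diamSum (points ε ω) (Metric.ball z ρ) ≤ ENNReal.ofReal (400 * (2 * m0 + 1) * ρ ^ 2) := by
  have hρ0 : 0 < ρ := lt_of_lt_of_le (by positivity) hρ
  have hM : ∀ k ∈ nbr 0 L, eT M ω.1 k < M := by
    intro k hk
    by_contra hc
    exact hN (Or.inl (Or.inl ⟨k, hk, not_lt.1 hc⟩))
  have hB : ∀ k ∈ nbr 0 L, ω.1 k ≤ B := by
    intro k hk
    by_contra hc
    exact hN (Or.inl (Or.inr ⟨k, hk, (not_le.1 hc).le⟩))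
  set n : ℕ := ⌈ρ / ε⌉₊ + 8 * M + 1 with hn
  have hc1 : ρ / ε ≤ ⌈ρ / ε⌉₊ := Nat.le_ceil _
  have hc2 : (⌈ρ / ε⌉₊ : ℝ) < ρ / ε + 1 := Nat.ceil_lt_add_one (by positivity)
  have hn' : (n : ℝ) = ⌈ρ / ε⌉₊ + 8 * M + 1 := by rw [hn]; push_cast; ring
  have hM0 : (0 : ℝ) ≤ M := by positivity
  have hz0 : 0 ≤ ‖z‖ / ε := by positivity
  have hLn : ‖z‖ / ε + 1 + n + 6 * M + 7 ≤ L := by rw [hn']; linarith
  refine (geo (B := B) hε hM hB (n := n) (by rw [hn']; linarith) hLn).trans ?_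
  apply ENNReal.ofReal_le_ofReal
  -- the center and the radius are in the range
  have hcz : cellOf ε z ∈ nbr 0 L := by
    rw [← cellOf_zero ε]
    refine cellOf_near (d := ‖z‖) hε (by rw [sub_zero]) ?_
    have : (0 : ℝ) ≤ n := by positivity
    linarith
  have hnL : n ∈ Finset.Icc n1 L := by
    rw [Finset.mem_Icc]
    constructor
    · have h1 : (n1 : ℝ) ≤ ρ / ε + 1 := by
        rw [← sub_le_iff_le_add, le_div_iff₀ hε]
        linarith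
      have h2 : (n1 : ℝ) ≤ n := by rw [hn']; linarith
      exact_mod_cast h2
    · have h2 : (n : ℝ) ≤ L := by linarith
      exact_mod_cast h2
  have hS : ∑ k ∈ nbr (cellOf ε z) n, (Y M B ω.1 k : ℝ) ≤ (2 * m0 + 1) * (2 * n + 1) ^ 2 := by
    by_contra hc
    push Not at hc
    refine hN (Or.inr ⟨cellOf ε z, hcz, n, hnL, ?_⟩)
    rw [card_nbr]
    push_cast
    exact hc.le
  have hm := m0_nonneg
  have hnρ : (2 * n + 1 : ℝ) * ε ≤ 5 * ρ := by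
    have h1 : (n : ℝ) * ε ≤ 2 * ρ := by
      have h2 : (n : ℝ) ≤ ρ / ε + (8 * M + 2) := by rw [hn']; linarith
      calc (n : ℝ) * ε ≤ (ρ / ε + (8 * M + 2)) * ε := by gcongr
        _ = ρ + (8 * M + 2) * ε := by rw [add_mul, div_mul_cancel₀ _ hε.ne']
        _ ≤ 2 * ρ := by linarith
    have h2 : ε ≤ ρ := by nlinarith
    linarith
  calc 16 * ε ^ 2 * ∑ k ∈ nbr (cellOf ε z) n, (Y M B ω.1 k : ℝ)
      ≤ 16 * ε ^ 2 * ((2 * m0 + 1) * (2 * n + 1) ^ 2) := by gcongr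
    _ = 16 * (2 * m0 + 1) * ((2 * n + 1) * ε) ^ 2 := by ring
    _ ≤ 16 * (2 * m0 + 1) * (5 * ρ) ^ 2 := by gcongr
    _ = 400 * (2 * m0 + 1) * ρ ^ 2 := by ring

end Crest.Agent.R143.PoisM4x501
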