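import Mathlib
import Crest.Agent.R143.ES_831

/-!
# R143 (helper304, block M, leaf M2): the exponential formula for finite random sets

* `FM G` : `G` of `n` points is measurable
* `J μ G = e^(-|μ|) ∑ 1/n! ∫ G(range z) dμ^n`
* `J_add` : superposition `J (μ + ν) G = J μ (S ↦ J ν (T ↦ G (S ∪ T)))`
* `FRS` : finite random sets, closed under union, `FM` functionals of them are measurable
* `blocks` : independent blocks
-/

set_option autoImplicit false
set_option linter.unusedSectionVars false

noncomputable section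

namespace Crest.Agent.R143.Poisx304

open MeasureTheory Set
open scoped ENNReal Nat

variable {E : Type*} [MeasurableSpace E]

/-- `G` of `n` points is a measurable function of the points -/
def FM (G : Set E → ℝ≥0∞) : Prop := ∀ n : ℕ, Measurable fun z : Fin n → E => G (range z)

/-- integral over `n` points -/
def P (μ : Measure E) (n : ℕ) (G : Set E → ℝ≥0∞) : ℝ≥0∞ :=
  ∫⁻ z, G (range z) ∂(Measure.pi fun _ : Fin n => μ)

def Q (μ : Measure E) (n : ℕ) (G : Set E → ℝ≥0∞) : ℝ≥0∞ := (n ! : ℝ≥0∞)⁻¹ * P μ n G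

def J (μ : Measure E) (G : Set E → ℝ≥0∞) : ℝ≥0∞ :=
  ENNReal.ofReal (Real.exp (-(μ univ).toReal)) * ∑' n : ℕ, Q μ n G

lemma range_app {k m : ℕ} (x : Fin k → E) (y : Fin m → E) :
    range (Fin.append x y) = range x ∪ range y := by
  ext e
  simp only [mem_range, mem_union]
  constructor
  · rintro ⟨i, hi⟩
    induction i using Fin.addCases with
    | left i => left; exact ⟨i, by simpa using hi⟩
    | right i => right; exact ⟨i, by simpa using hi⟩
  · rintro (⟨i, hi⟩ | ⟨i, hi⟩)
    · exact ⟨Fin.castAdd m i, by simpa using hi⟩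
    · exact ⟨Fin.natAdd k i, by simpa using hi⟩

lemma measurable_app {k m : ℕ} :
    Measurable fun p : (Fin k → E) × (Fin m → E) => (Fin.append p.1 p.2 : Fin (k + m) → E) := by
  rw [measurable_pi_iff]
  intro i
  induction i using Fin.addCases with
  | left i => simp only [Fin.append_left]; fun_prop
  | right i => simp only [Fin.append_right]; fun_prop

lemma measurable_cons {m : ℕ} :
    Measurable fun p : E × (Fin m → E) => (Fin.cons p.1 p.2 : Fin (m + 1) → E) := by
  rw [measurable_pi_iff]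
  intro i
  induction i using Fin.cases with
  | zero => simp only [Fin.cons_zero]; fun_prop
  | succ i => simp only [Fin.cons_succ]; fun_prop

variable {G : Set E → ℝ≥0∞}

lemma FM.insert_meas (hG : FM G) (m : ℕ) :
    Measurable fun p : E × (Fin m → E) => G (insert p.1 (range p.2)) := by
  have := (hG (m + 1)).comp (measurable_cons (E := E) (m := m))
  simpa only [Function.comp_def, Fin.range_cons] using this

lemma FM.union_meas (hG : FM G) (k m : ℕ) :
    Measurable fun p : (Fin k → E) × (Fin m → E) => G (range p.1 ∪ range p.2) := by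
  have := (hG (k + m)).comp (measurable_app (E := E) (k := k) (m := m))
  simpa only [Function.comp_def, range_app] using this

lemma FM.triple_meas (hG : FM G) (k m : ℕ) :
    Measurable fun p : (E × (Fin k → E)) × (Fin m → E) =>
      G (insert p.1.1 (range p.1.2 ∪ range p.2)) := by
  have h := (hG.insert_meas (k + m)).comp
    ((measurable_fst.comp (measurable_fst (α := E × (Fin k → E)) (β := Fin m → E))).prodMk
      ((measurable_app (E := E) (k := k) (m := m)).comp
        ((measurable_snd.comp measurable_fst).prodMk measurable_snd)))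
  simpa only [Function.comp_def, range_app] using h

lemma FM.insert (hG : FM G) (a : E) : FM fun S => G (insert a S) := fun n =>
  (hG.insert_meas n).comp (measurable_const.prodMk measurable_id)

lemma FM.union_range (hG : FM G) {k : ℕ} (x : Fin k → E) : FM fun S => G (range x ∪ S) := fun n =>
  (hG.union_meas k n).comp (measurable_const.prodMk measurable_id)

lemma FM.const_mul (hG : FM G) (c : ℝ≥0∞) : FM fun S => c * G S := fun n =>
  (hG n).const_mul c

lemma P_meas {X : Type*} [MeasurableSpace X] {μ : Measure E} [SigmaFinite μ] {n : ℕ}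
    {H : X → Set E → ℝ≥0∞} (h : Measurable fun p : X × (Fin n → E) => H p.1 (range p.2)) :
    Measurable fun x => P μ n (H x) := by
  unfold P
  exact h.lintegral_prod_right'

lemma Q_meas {X : Type*} [MeasurableSpace X] {μ : Measure E} [SigmaFinite μ] {n : ℕ}
    {H : X → Set E → ℝ≥0∞} (h : Measurable fun p : X × (Fin n → E) => H p.1 (range p.2)) :
    Measurable fun x => Q μ n (H x) := by
  unfold Q
  exact (P_meas h).const_mul _

lemma J_meas {X : Type*} [MeasurableSpace X] {μ : Measure E} [SigmaFinite μ]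
    {H : X → Set E → ℝ≥0∞}
    (h : ∀ n : ℕ, Measurable fun p : X × (Fin n → E) => H p.1 (range p.2)) :
    Measurable fun x => J μ (H x) := by
  unfold J
  exact (Measurable.tsum fun n => Q_meas (h n)).const_mul _

lemma FM.J {ν : Measure E} [SigmaFinite ν] (hG : FM G) : FM fun S => J ν fun T => G (S ∪ T) :=
  fun k => J_meas fun m => hG.union_meas k m

lemma P_zero (μ : Measure E) [SigmaFinite μ] (G : Set E → ℝ≥0∞) : P μ 0 G = G ∅ := by
  unfold P
  have : ∀ z : Fin 0 → E, G (range z) = G ∅ := fun z => by rw [range_eq_empty]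
  simp only [this, lintegral_const, Measure.pi_univ, Finset.univ_eq_empty, Finset.prod_empty,
    mul_one]

lemma symm_app {n : ℕ} (q : E × (Fin n → E)) :
    (MeasurableEquiv.piFinSuccAbove (fun _ : Fin (n + 1) => E) 0).symm q = Fin.cons q.1 q.2 := by
  simp [MeasurableEquiv.piFinSuccAbove, Fin.insertNthEquiv, Fin.insertNth_zero']

lemma P_succ (μ : Measure E) [SigmaFinite μ] (n : ℕ) (hG : FM G) :
    P μ (n + 1) G = ∫⁻ a, P μ n (fun S => G (insert a S)) ∂μ := by
  have h := (measurePreserving_piFinSuccAbove (fun _ : Fin (n + 1) => μ) 0).symm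
  unfold P
  rw [← h.lintegral_comp (hG (n + 1)), lintegral_prod]
  · refine lintegral_congr fun a => lintegral_congr fun z => ?_
    rw [symm_app]
    simp only [Fin.range_cons]
  · have := hG.insert_meas n
    refine Measurable.aemeasurable ?_
    convert this using 2 with p
    rw [← Fin.range_cons, symm_app]

lemma fact_aux (n : ℕ) : ((n + 1 : ℕ) : ℝ≥0∞) * (((n + 1) ! : ℕ) : ℝ≥0∞)⁻¹ = ((n ! : ℕ) : ℝ≥0∞)⁻¹ := by
  rw [Nat.factorial_succ, Nat.cast_mul, ENNReal.mul_inv (by left; simp) (by left; simp),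
    ← mul_assoc, ENNReal.mul_inv_cancel (by simp) (by simp), one_mul]

lemma Q_zero (μ : Measure E) [SigmaFinite μ] (G : Set E → ℝ≥0∞) : Q μ 0 G = G ∅ := by
  simp [Q, P_zero]

lemma Q_succ (μ : Measure E) [SigmaFinite μ] (n : ℕ) (hG : FM G) :
    ((n + 1 : ℕ) : ℝ≥0∞) * Q μ (n + 1) G = ∫⁻ a, Q μ n (fun S => G (insert a S)) ∂μ := by
  unfold Q
  rw [← mul_assoc, fact_aux, P_succ μ n hG, lintegral_const_mul]
  exact P_meas (hG.insert_meas n)

lemma Q_swap (μ ν : Measure E) [SigmaFinite μ] [SigmaFinite ν] (k m : ℕ) (hG : FM G) :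
    ∫⁻ a, Q μ k (fun S => Q ν m fun T => G (insert a (S ∪ T))) ∂ν =
      ((m + 1 : ℕ) : ℝ≥0∞) * Q μ k (fun S => Q ν (m + 1) fun T => G (S ∪ T)) := by
  have h3 : Measurable fun p : E × (Fin k → E) =>
      Q ν m fun T => G (insert p.1 (range p.2 ∪ T)) :=
    Q_meas (X := E × (Fin k → E)) (H := fun p T => G (insert p.1 (range p.2 ∪ T)))
      (hG.triple_meas k m)
  have h1 : ∀ a, Q μ k (fun S => Q ν m fun T => G (insert a (S ∪ T))) =
      (k ! : ℝ≥0∞)⁻¹ * ∫⁻ x, Q ν m (fun T => G (insert a (range x ∪ T)))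
        ∂(Measure.pi fun _ : Fin k => μ) := fun a => rfl
  simp only [h1]
  rw [lintegral_const_mul _ h3.lintegral_prod_right', lintegral_lintegral_swap h3.aemeasurable]
  have h2 : ∀ x : Fin k → E, ∫⁻ a, Q ν m (fun T => G (insert a (range x ∪ T))) ∂ν =
      ((m + 1 : ℕ) : ℝ≥0∞) * Q ν (m + 1) (fun T => G (range x ∪ T)) := by
    intro x
    rw [Q_succ ν m (hG.union_range x)]
    simp only [union_insert]
  simp only [h2]
  rw [lintegral_const_mul]
  · rw [mul_left_comm]
    rfl
  · exact Q_meas (X := Fin k → E) (H := fun x T => G (range x ∪ T)) (hG.union_meas k (m + 1))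

lemma FM.Q {ν : Measure E} [SigmaFinite ν] (hG : FM G) (m : ℕ) :
    FM fun S => Q ν m fun T => G (S ∪ T) :=
  fun k => Q_meas (X := Fin k → E) (H := fun x T => G (range x ∪ T)) (hG.union_meas k m)

lemma Q_add (μ ν : Measure E) [SigmaFinite μ] [SigmaFinite ν] (n : ℕ) :
    ∀ G : Set E → ℝ≥0∞, FM G → Q (μ + ν) n G =
      ∑ p ∈ Finset.HasAntidiagonal.antidiagonal n, Q μ p.1 (fun S => Q ν p.2 fun T => G (S ∪ T)) := by
  induction n with
  | zero => intro G _; simp [Q_zero]
  | succ n ih =>
    intro G hG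
    have hne : ((n + 1 : ℕ) : ℝ≥0∞) ≠ 0 := by simp
    have hnt : ((n + 1 : ℕ) : ℝ≥0∞) ≠ ∞ := by simp
    rw [← ENNReal.mul_right_inj hne hnt, Q_succ _ _ hG, lintegral_add_measure]
    have hIH : ∀ a, Q (μ + ν) n (fun S => G (insert a S)) =
        ∑ p ∈ Finset.HasAntidiagonal.antidiagonal n, Q μ p.1 (fun S => Q ν p.2 fun T => G (insert a (S ∪ T))) :=
      fun a => ih _ (hG.insert a)
    simp only [hIH]
    have hm : ∀ p : ℕ × ℕ, Measurable fun a : E =>
        Q μ p.1 (fun S => Q ν p.2 fun T => G (insert a (S ∪ T))) := fun p =>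
      Q_meas (X := E) (H := fun a S => Q ν p.2 fun T => G (insert a (S ∪ T)))
        (Q_meas (X := E × (Fin p.1 → E)) (H := fun q T => G (insert q.1 (range q.2 ∪ T)))
          (hG.triple_meas p.1 p.2))
    rw [lintegral_finsetSum _ fun p _ => hm p, lintegral_finsetSum _ fun p _ => hm p]
    have h1 : ∀ p : ℕ × ℕ, ∫⁻ a, Q μ p.1 (fun S => Q ν p.2 fun T => G (insert a (S ∪ T))) ∂μ =
        ((p.1 + 1 : ℕ) : ℝ≥0∞) * Q μ (p.1 + 1) (fun S => Q ν p.2 fun T => G (S ∪ T)) := by
      intro p
      rw [Q_succ μ p.1 (hG.Q p.2)]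
      simp only [insert_union]
    have h2 : ∀ p : ℕ × ℕ, ∫⁻ a, Q μ p.1 (fun S => Q ν p.2 fun T => G (insert a (S ∪ T))) ∂ν =
        ((p.2 + 1 : ℕ) : ℝ≥0∞) * Q μ p.1 (fun S => Q ν (p.2 + 1) fun T => G (S ∪ T)) := fun p =>
      Q_swap μ ν p.1 p.2 hG
    simp only [h1, h2]
    set c : ℕ → ℕ → ℝ≥0∞ := fun k m => Q μ k (fun S => Q ν m fun T => G (S ∪ T)) with hc
    have e1 : ∑ p ∈ Finset.HasAntidiagonal.antidiagonal (n + 1), ((p.1 : ℕ) : ℝ≥0∞) * c p.1 p.2 =
        ∑ p ∈ Finset.HasAntidiagonal.antidiagonal n, ((p.1 + 1 : ℕ) : ℝ≥0∞) * c (p.1 + 1) p.2 := by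
      rw [Finset.Nat.sum_antidiagonal_succ]
      simp
    have e2 : ∑ p ∈ Finset.HasAntidiagonal.antidiagonal (n + 1), ((p.2 : ℕ) : ℝ≥0∞) * c p.1 p.2 =
        ∑ p ∈ Finset.HasAntidiagonal.antidiagonal n, ((p.2 + 1 : ℕ) : ℝ≥0∞) * c p.1 (p.2 + 1) := by
      rw [Finset.Nat.sum_antidiagonal_succ']
      simp
    have e3 : ((n + 1 : ℕ) : ℝ≥0∞) * ∑ p ∈ Finset.HasAntidiagonal.antidiagonal (n + 1), c p.1 p.2 =
        ∑ p ∈ Finset.HasAntidiagonal.antidiagonal (n + 1), ((p.1 : ℕ) : ℝ≥0∞) * c p.1 p.2 +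
          ∑ p ∈ Finset.HasAntidiagonal.antidiagonal (n + 1), ((p.2 : ℕ) : ℝ≥0∞) * c p.1 p.2 := by
      rw [Finset.mul_sum, ← Finset.sum_add_distrib]
      refine Finset.sum_congr rfl fun p hp => ?_
      rw [← add_mul, ← Nat.cast_add, Finset.HasAntidiagonal.mem_antidiagonal.1 hp]
    rw [e3, e1, e2]

lemma tsum_anti (f : ℕ → ℕ → ℝ≥0∞) :
    ∑' n, ∑ p ∈ Finset.HasAntidiagonal.antidiagonal n, f p.1 p.2 = ∑' k, ∑' m, f k m := by
  rw [← ENNReal.tsum_prod (f := f),
    ← Finset.HasAntidiagonal.sigmaAntidiagonalEquivProd.tsum_eq (fun p : ℕ × ℕ => f p.1 p.2), ENNReal.tsum_sigma']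
  refine tsum_congr fun n => ?_
  rw [tsum_fintype]
  simp only [Finset.HasAntidiagonal.sigmaAntidiagonalEquivProd_apply]
  rw [Finset.sum_coe_sort (Finset.HasAntidiagonal.antidiagonal n) (fun p : ℕ × ℕ => f p.1 p.2)]

theorem J_add (μ ν : Measure E) [IsFiniteMeasure μ] [IsFiniteMeasure ν] (hG : FM G) :
    J (μ + ν) G = J μ (fun S => J ν fun T => G (S ∪ T)) := by
  unfold J
  simp only [Q_add μ ν _ G hG]
  rw [tsum_anti (fun k m => Q μ k fun S => Q ν m fun T => G (S ∪ T))]
  have h1 : ∀ k, Q μ k (fun S => ENNReal.ofReal (Real.exp (-(ν univ).toReal)) *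
      ∑' m, Q ν m fun T => G (S ∪ T)) = ENNReal.ofReal (Real.exp (-(ν univ).toReal)) *
        ∑' m, Q μ k fun S => Q ν m fun T => G (S ∪ T) := by
    intro k
    unfold Q P
    rw [lintegral_const_mul, lintegral_tsum]
    · rw [mul_left_comm, ENNReal.tsum_mul_left]
    · intro m
      exact ((hG.Q (ν := ν) m) k).aemeasurable
    · exact Measurable.tsum fun m => (hG.Q (ν := ν) m) k
  simp only [h1]
  rw [ENNReal.tsum_mul_left, ← mul_assoc, ← ENNReal.ofReal_mul (Real.exp_pos _).le, ← Real.exp_add]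
  congr 3
  rw [Measure.add_apply, ENNReal.toReal_add (measure_ne_top μ _) (measure_ne_top ν _)]
  ring

/-! ## finite random sets -/

section frs

variable {X Y : Type*} [MeasurableSpace X] [MeasurableSpace Y]

/-- a finite random set -/
def FRS (S : X → Set E) : Prop :=
  ∃ (n : X → ℕ) (y : ℕ → X → E), Measurable n ∧ (∀ j, Measurable (y j)) ∧
    ∀ x, S x = (fun j => y j x) '' {j | j < n x}

lemma image_lt (n : ℕ) (y : ℕ → E) : y '' {j | j < n} = range fun i : Fin n => y i := by
  ext e
  simp only [mem_image, mem_ofPred_eq, mem_range]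
  constructor
  · rintro ⟨j, hj, rfl⟩; exact ⟨⟨j, hj⟩, rfl⟩
  · rintro ⟨i, rfl⟩; exact ⟨i, i.2, rfl⟩

lemma FRS.range {S : X → Set E} (hS : FRS S) (x : X) :
    ∃ (k : ℕ) (w : Fin k → E), S x = range w := by
  obtain ⟨n, y, -, -, h⟩ := hS
  exact ⟨n x, fun i => y i x, by rw [h, image_lt]⟩

theorem FRS.meas {S : X → Set E} (hS : FRS S) (hG : FM G) : Measurable fun x => G (S x) := by
  obtain ⟨n, y, hn, hy, h⟩ := hS
  have H : Measurable fun q : ℕ × X => G ((fun j => y j q.2) '' {j | j < q.1}) := by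
    refine measurable_from_prod_countable_right fun m => ?_
    simp only [image_lt]
    exact (hG m).comp (measurable_pi_iff.2 fun i => hy i)
  simp only [h]
  exact H.comp (hn.prodMk measurable_id)

lemma FRS.comp {S : X → Set E} (hS : FRS S) {f : Y → X} (hf : Measurable f) :
    FRS fun z => S (f z) := by
  obtain ⟨n, y, hn, hy, h⟩ := hS
  exact ⟨fun z => n (f z), fun j z => y j (f z), hn.comp hf, fun j => (hy j).comp hf,
    fun z => h (f z)⟩

lemma FRS.empty [Nonempty E] : FRS fun _ : X => (∅ : Set E) :=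
  ⟨fun _ => 0, fun _ _ => Classical.arbitrary E, measurable_const, fun _ => measurable_const,
    fun x => by simp⟩

lemma FRS.union {S T : X → Set E} (hS : FRS S) (hT : FRS T) : FRS fun x => S x ∪ T x := by
  classical
  obtain ⟨n, y, hn, hy, h⟩ := hS
  obtain ⟨n', y', hn', hy', h'⟩ := hT
  have H : Measurable fun q : ℕ × X => y' q.1 q.2 :=
    measurable_from_prod_countable_right fun m => hy' m
  refine ⟨fun x => n x + n' x, fun j x => if j < n x then y j x else y' (j - n x) x,
    hn.add hn', fun j => ?_, fun x => ?_⟩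
  · refine Measurable.ite ?_ (hy j) ?_
    · exact measurableSet_lt measurable_const hn
    · exact H.comp (((measurable_of_countable fun m : ℕ => j - m).comp hn).prodMk measurable_id)
  · show S x ∪ T x = (fun j => if j < n x then y j x else y' (j - n x) x) '' {j | j < n x + n' x}
    rw [h, h']
    ext e
    simp only [mem_union, mem_image, mem_ofPred_eq]
    constructor
    · rintro (⟨j, hj, rfl⟩ | ⟨j, hj, rfl⟩)
      · exact ⟨j, by omega, by rw [if_pos hj]⟩
      · refine ⟨n x + j, by omega, ?_⟩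
        rw [if_neg (by omega), Nat.add_sub_cancel_left]
    · rintro ⟨j, hj, rfl⟩
      by_cases hjn : j < n x
      · left; exact ⟨j, hjn, by rw [if_pos hjn]⟩
      · right; exact ⟨j - n x, by omega, by rw [if_neg hjn]⟩

lemma FRS.biUnion [Nonempty E] {ι : Type*} (s : Finset ι) (S : ι → X → Set E)
    (h : ∀ k, FRS (S k)) : FRS fun x => ⋃ k ∈ s, S k x := by
  classical
  induction s using Finset.induction_on with
  | empty => simpa using FRS.empty (E := E) (X := X)
  | insert k s hk ih => simpa only [Finset.set_biUnion_insert] using (h k).union ih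

end frs

/-! ## independent blocks -/

lemma J_zero (G : Set E → ℝ≥0∞) : J 0 G = G ∅ := by
  unfold J
  rw [tsum_eq_single 0]
  · simp [Q_zero]
  · intro n hn
    unfold Q P
    obtain ⟨m, rfl⟩ := Nat.exists_eq_succ_of_ne_zero hn
    have : (Measure.pi fun _ : Fin (m + 1) => (0 : Measure E)) = 0 := by
      rw [← Measure.measure_univ_eq_zero, Measure.pi_univ]
      simp
    rw [this]
    simp

theorem blocks [Nonempty E] {ι : Type*} {X : Type*} [MeasurableSpace X] (π : Measure X)
    [IsProbabilityMeasure π] (blk : ι → X → Set E) (hb : ∀ k, FRS (blk k))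
    (μ : ι → Measure E) [∀ k, IsFiniteMeasure (μ k)]
    (h : ∀ k, ∀ G : Set E → ℝ≥0∞, FM G → ∫⁻ x, G (blk k x) ∂π = J (μ k) G) (s : Finset ι) :
    ∀ G : Set E → ℝ≥0∞, FM G →
      ∫⁻ x, G (⋃ k ∈ s, blk k (x k)) ∂(Measure.infinitePi fun _ : ι => π) =
        J (∑ k ∈ s, μ k) G := by
  classical
  induction s using Finset.induction_on with
  | empty => intro G _; simp [J_zero]
  | insert k s hk ih =>
    intro G hG
    have hfrs : FRS fun x : ι → X => ⋃ j ∈ insert k s, blk j (x j) :=
      FRS.biUnion _ (fun j (x : ι → X) => blk j (x j))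
        fun j => (hb j).comp (measurable_pi_apply j)
    have hmp := ESx831.mp_update (fun _ : ι => π) k
    rw [← hmp.lintegral_comp (hfrs.meas hG)]
    refine (lintegral_prod_symm' _ ((hfrs.meas hG).comp hmp.measurable)).trans ?_
    have h1 : ∀ (a : X) (x : ι → X), (⋃ j ∈ insert k s, blk j (Function.update x k a j)) =
        blk k a ∪ ⋃ j ∈ s, blk j (x j) := by
      intro a x
      rw [Finset.set_biUnion_insert, Function.update_self]
      congr 1
      refine iUnion₂_congr fun j hj => ?_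
      rw [Function.update_of_ne (by rintro rfl; exact hk hj)]
    simp only [Function.comp_apply, h1]
    have h2 : ∀ a : X, ∫⁻ x, G (blk k a ∪ ⋃ j ∈ s, blk j (x j)) ∂(Measure.infinitePi fun _ : ι => π) =
        J (∑ k ∈ s, μ k) fun T => G (blk k a ∪ T) := by
      intro a
      obtain ⟨m, w, hw⟩ := (hb k).range a
      rw [hw]
      exact ih (fun T => G (range w ∪ T)) (hG.union_range w)
    simp only [h2]
    rw [h k (fun S => J (∑ k ∈ s, μ k) fun T => G (S ∪ T)) hG.J, Finset.sum_insert hk,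
      J_add _ _ hG]

lemma fin_mp (ν : Measure E) [IsProbabilityMeasure ν] (n : ℕ) :
    MeasurePreserving (fun (x : ℕ → E) (i : Fin n) => x i) (Measure.infinitePi fun _ : ℕ => ν)
      (Measure.pi fun _ : Fin n => ν) := by
  refine ⟨measurable_pi_iff.2 fun i => measurable_pi_apply _, ?_⟩
  symm
  apply Measure.pi_eq
  intro s hs
  rw [Measure.map_apply (f := fun (x : ℕ → E) (i : Fin n) => x i)
    (measurable_pi_iff.2 fun i => measurable_pi_apply _) (MeasurableSet.univ_pi hs)]
  classical
  have : (fun (x : ℕ → E) (i : Fin n) => x i) ⁻¹' (Set.pi univ s) =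
      Set.pi ((Finset.range n : Finset ℕ) : Set ℕ)
        (fun j => if h : j < n then s ⟨j, h⟩ else univ) := by
    ext x
    simp only [mem_preimage, Set.mem_pi, mem_univ, true_implies, Finset.coe_range, mem_Iio]
    constructor
    · intro h j hj
      rw [dif_pos hj]
      exact h ⟨j, hj⟩
    · intro h i
      have := h i i.2
      rwa [dif_pos i.2] at this
  rw [this, Measure.infinitePi_pi, Finset.prod_range]
  · refine Finset.prod_congr rfl fun i _ => ?_
    rw [dif_pos i.2]
  · intro j _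
    split_ifs
    · exact hs _
    · exact MeasurableSet.univ

/-- a block with a Poisson(1) number of independent points -/
theorem poisson_block {Y : Type*} [MeasurableSpace Y] (ρ : Measure Y) [IsProbabilityMeasure ρ]
    (f : Y → E) (hf : Measurable f) (hG : FM G) :
    ∫⁻ x : ℕ × (ℕ → Y), G ((fun j => f (x.2 j)) '' {j | j < x.1})
        ∂((ProbabilityTheory.poissonMeasure 1).prod (Measure.infinitePi fun _ : ℕ => ρ)) =
      J (ρ.map f) G := by
  have : IsProbabilityMeasure (ρ.map f) := Measure.isProbabilityMeasure_map hf.aemeasurable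
  have hfrs : FRS fun x : ℕ × (ℕ → Y) => (fun j => f (x.2 j)) '' {j | j < x.1} :=
    ⟨fun x => x.1, fun j x => f (x.2 j), measurable_fst,
      fun j => hf.comp ((measurable_pi_apply j).comp measurable_snd), fun x => rfl⟩
  rw [lintegral_prod _ (hfrs.meas hG).aemeasurable]
  have h1 : ∀ n : ℕ, ∫⁻ u : ℕ → Y, G ((fun j => f (u j)) '' {j | j < n})
      ∂(Measure.infinitePi fun _ : ℕ => ρ) = P (ρ.map f) n G := by
    intro n
    simp only [image_lt]
    have hmp : MeasurePreserving (fun (u : ℕ → Y) (j : ℕ) => f (u j))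
        (Measure.infinitePi fun _ : ℕ => ρ) (Measure.infinitePi fun _ : ℕ => ρ.map f) :=
      ⟨measurable_pi_iff.2 fun j => hf.comp (measurable_pi_apply j),
        Measure.infinitePi_map_pi (fun _ : ℕ => ρ) fun _ => hf⟩
    exact ((fin_mp (ρ.map f) n).comp hmp).lintegral_comp (hG n)
  simp only [h1]
  rw [lintegral_countable']
  unfold J Q
  rw [← ENNReal.tsum_mul_left]
  refine tsum_congr fun n => ?_
  rw [ProbabilityTheory.poissonMeasure_singleton, measure_univ]
  simp only [NNReal.coe_one, one_pow, mul_one, ENNReal.toReal_one]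
  rw [ENNReal.ofReal_div_of_pos (by positivity), ENNReal.ofReal_natCast, div_eq_mul_inv, mul_comm,
    mul_assoc]

end Crest.Agent.R143.Poisx304
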