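import Crest.Agent.R143.Poly_416

/-!
# Row 143 (S0194), BLOCK D: the outer polygon of a Jordan domain, geometry (helper416)

* `St` : the boundary edges at one scale; `St.sprop` : separation property of their parameters
* `target` : boundary edges near a given parameter
* `poly` : `Tenx416.POLY`
-/

set_option autoImplicit false

noncomputable section

namespace Crest.Agent.R143.Polyx416

open Set Topology Filter Metric
open Crest Crest.ProbabilityR Crest.ProbabilityR.Percolation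
open Crest.Agent.R158.Jt785 Crest.Agent.R158.Sp896 Crest.Agent.R158
open Crest.Agent.R143.Cfgx416 Crest.Agent.R143.Tenx416

/-- the boundary edges at one scale -/
structure St (γ : ℝ → ℂ) (Ψ : ℝ → ℝ → ℂ) (D : Set ℂ) (κ δ s : ℝ) (L : ℕ) (v : ℕ → V) : Prop where
  P : Pol γ Ψ D
  Dc : IsCompact (closure D)
  κ0 : 0 < κ
  κ1 : κ ≤ 1 / 200
  s0 : 0 < s
  s1 : s ≤ 1
  sδ : 4 * s < δ
  inv : ∀ r ∈ Icc (0:ℝ) 1, ∀ r' ∈ Icc (0:ℝ) 1, ∀ t ∈ Icc (0:ℝ) 1, ∀ t' ∈ Icc (0:ℝ) 1,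
    ‖Ψ r t - Ψ r' t'‖ < δ → |r - r'| < κ ∧ (r < κ ∨ Pol.near κ t t')
  deep : ∀ r ∈ Icc (0:ℝ) (1 - κ), ∀ t ∈ Icc (0:ℝ) 1, ∀ z : ℂ, ‖z - Ψ r t‖ < δ → z ∈ closure D
  cyc : Cyc (Out (cells s (closure D)))ᶜ L v

theorem rad_sub {γ : ℝ → ℂ} {Ψ : ℝ → ℝ → ℂ} {D : Set ℂ} (P : Pol γ Ψ D) {r1 r2 : ℝ} (h1 : 0 ≤ r1)
    (h2 : r2 ≤ 1) (t : ℝ) : rad Ψ r1 r2 t ⊆ closure D := by
  rintro z ⟨r, hr, rfl⟩
  exact P.mem r ⟨h1.trans hr.1, hr.2.trans h2⟩ t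

theorem preconn_closure {γ : ℝ → ℂ} {Ψ : ℝ → ℝ → ℂ} {D : Set ℂ} (P : Pol γ Ψ D) :
    IsPreconnected (closure D) := by
  refine isPreconnected_of_forall (Ψ 0 0) fun z hz => ?_
  obtain ⟨r, hr, t, ht, rfl⟩ := P.surj z hz
  exact ⟨rad Ψ 0 r t, rad_sub P le_rfl hr.2 t, ⟨0, ⟨le_rfl, hr.1⟩, P.zero t⟩,
    ⟨r, ⟨hr.1, le_rfl⟩, rfl⟩, rad_preconn P le_rfl hr.2 t⟩

namespace St

variable {γ : ℝ → ℂ} {Ψ : ℝ → ℝ → ℂ} {D : Set ℂ} {κ δ s : ℝ} {L : ℕ} {v : ℕ → V}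

theorem fin0 (S : St γ Ψ D κ δ s L v) : (cells s (closure D)).Finite :=
  cells_finite S.s0 S.Dc.isBounded

theorem con0 (S : St γ Ψ D κ δ s L v) : ∀ q ∈ cells s (closure D), ∀ q' ∈ cells s (closure D),
    Con (cells s (closure D)) q q' :=
  cells_con S.s0 (preconn_closure S.P) S.Dc.isBounded

theorem rt_out (S : St γ Ψ D κ δ s L v) (m : ℕ) : Stg.rt v m ∈ Out (cells s (closure D)) := by
  have := S.cyc.right m
  rwa [notMem_compl_iff] at this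

theorem lf_mem (S : St γ Ψ D κ δ s L v) (m : ℕ) : Stg.lf v m ∈ cells s (closure D) :=
  mem_of_adj (adj_lc_rc (S.cyc.step m)) (S.cyc.left m) (S.rt_out m)

theorem rt_notMem (S : St γ Ψ D κ δ s L v) (m : ℕ) : Stg.rt v m ∉ cells s (closure D) :=
  (S.rt_out m).1

/-- polar coordinates of a point of `closure D` in the left cell -/
theorem exists_rt (S : St γ Ψ D κ δ s L v) (m : ℕ) : ∃ r t : ℝ, r ∈ Icc (0:ℝ) 1 ∧ t ∈ Icc (0:ℝ) 1 ∧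
    Ψ r t ∈ sq s (Stg.lf v m) ∧ 1 - κ < r := by
  obtain ⟨z, hz, hzD⟩ := S.lf_mem m
  obtain ⟨r, hr, t, ht, rfl⟩ := S.P.surj z hzD
  refine ⟨r, t, hr, ht, hz, ?_⟩
  by_contra hcon
  push Not at hcon
  obtain ⟨y, hy⟩ := sq_nonempty S.s0 (Stg.rt v m)
  have h1 := adj_dist S.s0 (adj_lc_rc (S.cyc.step m)) hz hy
  apply S.rt_notMem m
  refine ⟨y, hy, S.deep r ⟨hr.1, hcon⟩ t ht y ?_⟩
  rw [norm_sub_rev]
  exact h1.trans_lt S.sδ

/-- choice of the polar coordinates -/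
noncomputable def rr (S : St γ Ψ D κ δ s L v) (m : ℕ) : ℝ := (S.exists_rt m).choose

/-- choice of the parameter of an edge -/
noncomputable def tp (S : St γ Ψ D κ δ s L v) (m : ℕ) : ℝ := (S.exists_rt m).choose_spec.choose

theorem rr_tp (S : St γ Ψ D κ δ s L v) (m : ℕ) : S.rr m ∈ Icc (0:ℝ) 1 ∧ S.tp m ∈ Icc (0:ℝ) 1 ∧
    Ψ (S.rr m) (S.tp m) ∈ sq s (Stg.lf v m) ∧ 1 - κ < S.rr m :=
  (S.exists_rt m).choose_spec.choose_spec

/-- a point at a parameter avoiding `p` is not close to the radius at `p` -/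
theorem not_close (S : St γ Ψ D κ δ s L v) {r r' θ p : ℝ} (hr : r ∈ Icc (1/2:ℝ) 1)
    (hr' : r' ∈ Icc (0:ℝ) 1) (hp : p ∈ Icc (0:ℝ) 1) (ha : Avd κ p θ) : 2 * s < ‖Ψ r θ - Ψ r' p‖ := by
  by_contra hcon
  push Not at hcon
  have hκ1 := S.κ1
  have hs0 := S.s0
  have hsδ := S.sδ
  have hf : Int.fract θ ∈ Icc (0:ℝ) 1 := ⟨Int.fract_nonneg θ, (Int.fract_lt_one θ).le⟩
  rw [← per_fract S.P r θ] at hcon
  obtain ⟨-, h3⟩ := S.inv r ⟨by linarith [hr.1], hr.2⟩ r' hr' (Int.fract θ) hf p hp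
    (by linarith)
  rcases h3 with h3 | h3 | h3 | h3
  · linarith [hr.1]
  · have h4 := ha ⌊θ⌋
    have h5 : θ - p - ⌊θ⌋ = Int.fract θ - p := by rw [Int.fract]; ring
    rw [h5] at h4
    linarith
  · have h4 := ha (⌊θ⌋ + 1)
    have h5 : θ - p - ((⌊θ⌋ + 1 : ℤ) : ℝ) = Int.fract θ - p - 1 := by rw [Int.fract]; push_cast; ring
    rw [h5] at h4
    linarith
  · have h4 := ha (⌊θ⌋ - 1)
    have h5 : θ - p - ((⌊θ⌋ - 1 : ℤ) : ℝ) = Int.fract θ - p + 1 := by rw [Int.fract]; push_cast; ring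
    rw [h5] at h4
    linarith

/-- the separation property of the parameters of the boundary edges -/
theorem sprop (S : St γ Ψ D κ δ s L v) : SProp κ L S.tp := by
  intro i j k k' hij hj hk hk' n hx
  have hκ1 := S.κ1
  have hκ0 := S.κ0
  obtain ⟨ri, ti, zi, -⟩ := S.rr_tp i
  obtain ⟨rj, tj, zj, -⟩ := S.rr_tp j
  obtain ⟨rk, tk, zk, lk⟩ := S.rr_tp k
  obtain ⟨rk', tk', zk', lk'⟩ := S.rr_tp k'
  set Ki : Set ℂ := rad Ψ 0 (S.rr i) (S.tp i) with hKi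
  set Kj : Set ℂ := rad Ψ 0 (S.rr j) (S.tp j) with hKj
  have hKi0 : Ψ 0 0 ∈ Ki := ⟨0, ⟨le_rfl, ri.1⟩, S.P.zero _⟩
  have hKj0 : Ψ 0 0 ∈ Kj := ⟨0, ⟨le_rfl, rj.1⟩, S.P.zero _⟩
  have hlam1 : IsPreconnected (Ki ∪ Kj) :=
    (rad_preconn S.P le_rfl ri.2 _).union _ hKi0 hKj0 (rad_preconn S.P le_rfl rj.2 _)
  have hlam2 : Bornology.IsBounded (Ki ∪ Kj) :=
    ((rad_compact S.P le_rfl ri.2 _).union (rad_compact S.P le_rfl rj.2 _)).isBounded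
  have hlam3 : Ki ∪ Kj ⊆ closure D :=
    union_subset (rad_sub S.P le_rfl ri.2 _) (rad_sub S.P le_rfl rj.2 _)
  have hF0 : cells s (closure D) ⊆ (Out (cells s (closure D)))ᶜ := subset_out_compl
  -- the connecting set
  set K : Set ℂ := rad Ψ (1/2) (S.rr k) (S.tp k) ∪ circ Ψ (1/2) (S.tp k) (S.tp k' + n) ∪
    rad Ψ (1/2) (S.rr k') (S.tp k') with hK
  have hhalf : (1/2:ℝ) ∈ Icc (0:ℝ) 1 := by constructor <;> norm_num
  have m1 : Ψ (1/2) (S.tp k) ∈ rad Ψ (1/2) (S.rr k) (S.tp k) := ⟨1/2, ⟨le_rfl, by linarith⟩, rfl⟩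
  have m2 : Ψ (1/2) (S.tp k) ∈ circ Ψ (1/2) (S.tp k) (S.tp k' + n) := ⟨S.tp k, left_mem_uIcc, rfl⟩
  have m3 : Ψ (1/2) (S.tp k') ∈ circ Ψ (1/2) (S.tp k) (S.tp k' + n) :=
    ⟨S.tp k' + n, right_mem_uIcc, S.P.per_int _ _ _⟩
  have m4 : Ψ (1/2) (S.tp k') ∈ rad Ψ (1/2) (S.rr k') (S.tp k') := ⟨1/2, ⟨le_rfl, by linarith⟩, rfl⟩
  have hK1 : IsPreconnected K :=
    (((rad_preconn S.P hhalf.1 rk.2 _).union _ m1 m2 (circ_preconn S.P hhalf _ _)).union _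
      (Or.inr m3) m4 (rad_preconn S.P hhalf.1 rk'.2 _))
  have hK2 : Bornology.IsBounded K :=
    (((rad_compact S.P hhalf.1 rk.2 _).union (circ_compact S.P hhalf _ _)).union
      (rad_compact S.P hhalf.1 rk'.2 _)).isBounded
  have hK3 : ∀ z ∈ K, ∃ r ∈ Icc (1/2:ℝ) 1, ∃ θ ∈ uIcc (S.tp k) (S.tp k' + n), Ψ r θ = z := by
    rintro z ((⟨r, hr, rfl⟩ | ⟨θ, hθ, rfl⟩) | ⟨r, hr, rfl⟩)
    · exact ⟨r, ⟨hr.1, hr.2.trans rk.2⟩, S.tp k, left_mem_uIcc, rfl⟩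
    · exact ⟨1/2, ⟨le_rfl, by norm_num⟩, θ, hθ, rfl⟩
    · exact ⟨r, ⟨hr.1, hr.2.trans rk'.2⟩, S.tp k' + n, right_mem_uIcc, S.P.per_int _ _ _⟩
  have hK4 : K ⊆ closure D := by
    refine union_subset (union_subset (rad_sub S.P hhalf.1 rk.2 _) ?_)
      (rad_sub S.P hhalf.1 rk'.2 _)
    rintro z ⟨θ, -, rfl⟩
    exact S.P.mem _ hhalf θ
  have hK5 : cells s K ⊆ (cells s (Ki ∪ Kj))ᶜ := by
    rintro q ⟨x, hx1, hx2⟩ ⟨y, hy1, hy2⟩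
    obtain ⟨r, hr, θ, hθ, rfl⟩ := hK3 x hx2
    have hd := sq_dist hx1 hy1
    obtain ⟨a1, a2⟩ := hx θ hθ
    rcases hy2 with ⟨r', hr', rfl⟩ | ⟨r', hr', rfl⟩
    · exact absurd hd (not_le.2 (S.not_close hr ⟨hr'.1, hr'.2.trans ri.2⟩ ti a1))
    · exact absurd hd (not_le.2 (S.not_close hr ⟨hr'.1, hr'.2.trans rj.2⟩ tj a2))
  have hK6 : cells s K ⊆ (Out (cells s (closure D)))ᶜ \ cells s (Ki ∪ Kj) := fun q hq =>
    ⟨hF0 (cells_mono hK4 hq), hK5 hq⟩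
  have e1 : Stg.lf v k ∈ cells s K := ⟨_, zk, Or.inl (Or.inl ⟨S.rr k, ⟨by linarith, le_rfl⟩, rfl⟩)⟩
  have e2 : Stg.lf v k' ∈ cells s K := ⟨_, zk', Or.inr ⟨S.rr k', ⟨by linarith, le_rfl⟩, rfl⟩⟩
  refine SpD331.sep896 (lam := cells s (Ki ∪ Kj)) S.cyc ?_ hij hj ?_ ?_ ?_ ?_ hk hk'
    (hK5 e1) (hK5 e2) ?_
  · intro q hq q' hq'
    rw [notMem_compl_iff] at hq hq'
    rw [compl_compl]
    exact out_con S.fin0 q hq q' hq'
  · exact (cells_mono hlam3).trans hF0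
  · exact cells_con S.s0 hlam1 hlam2
  · exact ⟨_, zi, Or.inl ⟨S.rr i, ⟨ri.1, le_rfl⟩, rfl⟩⟩
  · exact ⟨_, zj, Or.inr ⟨S.rr j, ⟨rj.1, le_rfl⟩, rfl⟩⟩
  · exact (cells_con S.s0 hK1 hK2 _ e1 _ e2).mono hK6

end St

/-- the cell `q` only contains points of `closure D` (near the boundary) whose parameter is near `x`
modulo 1 -/
def CAt (Ψ : ℝ → ℝ → ℂ) (κ s : ℝ) (q : V) (x : ℝ) : Prop :=
  ∀ r ∈ Icc (0:ℝ) 1, ∀ t ∈ Icc (0:ℝ) 1, Ψ r t ∈ sq s q → 1 - κ < r → ∃ n : ℤ, |t + n - x| < κ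

/-- existence of boundary edges near a given parameter -/
theorem target {γ : ℝ → ℂ} {Ψ : ℝ → ℝ → ℂ} {κ δ s : ℝ} {L : ℕ} {v : ℕ → V}
    (S : St γ Ψ (jordanInterior γ) κ δ s L v)
    {x : ℝ} {p : ℂ} (hp : ‖p - γ (Int.fract x)‖ < δ / 2)
    (hpo : ∀ q : V, p ∈ sq s q → q ∈ Out (cells s (closure (jordanInterior γ)))) :
    ∃ m < L, CAt Ψ κ s (Stg.lf v m) x := by
  set t : ℝ := Int.fract x with ht
  have htI : t ∈ Icc (0:ℝ) 1 := ⟨Int.fract_nonneg x, (Int.fract_lt_one x).le⟩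
  have hκ0 := S.κ0
  have hκ1 := S.κ1
  have hsδ := S.sδ
  have hs0 := S.s0
  have hseg : IsPreconnected (segment ℝ (γ t) p) := (convex_segment _ _).isPreconnected
  have hsc : IsCompact (segment ℝ (γ t) p) := by
    rw [segment_eq_image_lineMap]
    exact isCompact_Icc.image AffineMap.lineMap_continuous
  have h0 : (0:ℝ) ≤ 1 - κ := by linarith
  set K : Set ℂ := rad Ψ (1 - κ) 1 t ∪ segment ℝ (γ t) p with hK
  have m1 : γ t ∈ rad Ψ (1 - κ) 1 t := ⟨1, ⟨by linarith, le_rfl⟩, S.P.one t htI⟩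
  have hK1 : IsPreconnected K := (rad_preconn S.P h0 le_rfl t).union _ m1 (left_mem_segment ℝ _ _) hseg
  have hK2 : Bornology.IsBounded K := ((rad_compact S.P h0 le_rfl t).union hsc).isBounded
  have m2 : Ψ (1 - κ) t ∈ K := Or.inl ⟨1 - κ, ⟨le_rfl, by linarith⟩, rfl⟩
  have m3 : p ∈ K := Or.inr (right_mem_segment ℝ _ _)
  have m4 : Ψ (1 - κ) t ∈ closure (jordanInterior γ) := S.P.mem _ ⟨h0, by linarith⟩ t
  have hcon := cells_con hs0 hK1 hK2 _ (cellOf_mem hs0 m2) _ (cellOf_mem hs0 m3)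
  obtain ⟨a, b, hab, haK, hbK, ha, hb⟩ := Con.cross
    (S := (Out (cells s (closure (jordanInterior γ))))ᶜ) hcon
    (cellOf_mem hs0 m2) (subset_out_compl (cellOf_mem hs0 m4))
    (by rw [notMem_compl_iff]; exact hpo _ (mem_cellOf hs0 p))
  obtain ⟨a', b', hxy, rfl, rfl⟩ := exists_dart hab
  obtain ⟨m, hm, rfl, rfl⟩ := S.cyc.all a' b' hxy ha hb
  refine ⟨m, hm, fun r hr t' ht' hz hr2 => ?_⟩
  obtain ⟨z, hz1, hz2⟩ := haK
  have hd := sq_dist hz hz1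
  have hn : Pol.near κ t' t := by
    have key : ∀ r0 ∈ Icc (0:ℝ) 1, ‖Ψ r t' - Ψ r0 t‖ < δ → Pol.near κ t' t := by
      intro r0 hr0 hlt
      obtain ⟨-, h2⟩ := S.inv r hr r0 hr0 t' ht' t htI hlt
      rcases h2 with h2 | h2
      · exfalso; linarith
      · exact h2
    rcases hz2 with ⟨r0, hr0, rfl⟩ | hz2
    · exact key r0 ⟨by linarith [hr0.1], hr0.2⟩ (by linarith)
    · have h7 : ‖z - γ t‖ ≤ ‖p - γ t‖ := by
        obtain ⟨τ, hτ, rfl⟩ : ∃ τ ∈ Icc (0:ℝ) 1, AffineMap.lineMap (γ t) p τ = z := by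
          rw [segment_eq_image_lineMap] at hz2
          exact hz2
        have e : AffineMap.lineMap (γ t) p τ - γ t = τ • (p - γ t) := by
          rw [AffineMap.lineMap_apply]
          simp
        rw [e, norm_smul, Real.norm_eq_abs, abs_of_nonneg hτ.1]
        exact mul_le_of_le_one_left (norm_nonneg _) hτ.2
      apply key 1 ⟨zero_le_one, le_rfl⟩
      rw [S.P.one t htI]
      have e : Ψ r t' - γ t = (Ψ r t' - z) + (z - γ t) := by ring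
      rw [e]
      exact (norm_add_le _ _).trans_lt (by linarith)
  have hx : x = t + ⌊x⌋ := by rw [ht, Int.fract]; ring
  rcases hn with hn | hn | hn
  · refine ⟨⌊x⌋, ?_⟩
    have e : t' + (⌊x⌋ : ℝ) - x = t' - t := by linarith
    rw [e]
    exact hn
  · refine ⟨⌊x⌋ - 1, ?_⟩
    have e : t' + ((⌊x⌋ - 1 : ℤ) : ℝ) - x = t' - t - 1 := by
      push_cast; linarith
    rw [e]
    exact hn
  · refine ⟨⌊x⌋ + 1, ?_⟩
    have e : t' + ((⌊x⌋ + 1 : ℤ) : ℝ) - x = t' - t + 1 := by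
      push_cast; linarith
    rw [e]
    exact hn

/-! ### the theorem -/

/-- the arc between the parameters `a j` and `a (j + 1)` -/
def arcZ (g : ℝ → ℂ) (a : ℤ → ℝ) (j : ℤ) : Set ℂ := gp g '' Icc (a j) (a (j + 1))

theorem gp_int (g : ℝ → ℂ) (t : ℝ) (n : ℤ) : gp g (t + n) = gp g t := by
  unfold gp; rw [Int.fract_add_intCast]

theorem arcZ_sub {g : ℝ → ℂ} {a : ℤ → ℝ} (hper : ∀ k, a (k + 4) = a k + 1) (j : ℤ) :
    arcZ g a (j - 4) = arcZ g a j := by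
  have h1 := hper (j - 4)
  have h2 := hper (j + 1 - 4)
  rw [show j - 4 + 4 = j by ring] at h1
  rw [show j + 1 - 4 + 4 = j + 1 by ring] at h2
  unfold arcZ
  rw [show j - 4 + 1 = j + 1 - 4 by ring]
  ext z
  constructor
  · rintro ⟨t, ht, rfl⟩
    refine ⟨t + (1 : ℤ), ⟨?_, ?_⟩, gp_int g t 1⟩ <;> push_cast <;> linarith [ht.1, ht.2]
  · rintro ⟨t, ht, rfl⟩
    refine ⟨t + (-1 : ℤ), ⟨?_, ?_⟩, gp_int g t (-1)⟩ <;> push_cast <;> linarith [ht.1, ht.2]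

/-- the side from the parameter intervals -/
theorem near_side {γ : ℝ → ℂ} {Ψ : ℝ → ℝ → ℂ} {D : Set ℂ} {κ δ s e : ℝ} {L : ℕ} {v : ℕ → V}
    (S : St γ Ψ D κ δ s L v) {η1 : ℝ} (hκη : 5 * κ ≤ η1) (hse : 16 * s < e)
    (hunif : ∀ r ∈ Icc (0:ℝ) 1, ∀ r' ∈ Icc (0:ℝ) 1, ∀ t ∈ Icc (-1:ℝ) 2, ∀ t' ∈ Icc (-1:ℝ) 2,
      |r - r'| < η1 → |t - t'| < η1 → ‖Ψ r t - Ψ r' t'‖ < e / 8) {α β : ℝ} (hαβ : α ≤ β) {m : ℕ}
    (h : ∃ n : ℤ, α - 2 * κ ≤ S.tp m + n ∧ S.tp m + n ≤ β + 2 * κ) :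
    ∀ z ∈ ed s (v m) (v (m + 1)), Nr e (gp γ '' Icc α β) z := by
  intro z hz
  obtain ⟨n, h1, h2⟩ := h
  obtain ⟨a1, a2, a3, a4⟩ := S.rr_tp m
  have hκ0 := S.κ0
  have hκ1 := S.κ1
  have hs := S.s0
  obtain ⟨τ, hτ, hτ2⟩ : ∃ τ ∈ Icc α β, |S.tp m + n - τ| ≤ 2 * κ := by
    rcases le_total (S.tp m + n) α with h3 | h3
    · exact ⟨α, ⟨le_rfl, hαβ⟩, by rw [abs_le]; constructor <;> linarith⟩
    rcases le_total (S.tp m + n) β with h4 | h4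
    · exact ⟨S.tp m + n, ⟨h3, h4⟩, by rw [sub_self, abs_zero]; linarith⟩
    · exact ⟨β, ⟨hαβ, le_rfl⟩, by rw [abs_le]; constructor <;> linarith⟩
  have hp : Ψ 1 (τ + ((-n : ℤ) : ℝ)) = gp γ τ := by
    rw [S.P.per_int, ← per_fract S.P 1 τ]
    exact S.P.one _ ⟨Int.fract_nonneg τ, (Int.fract_lt_one τ).le⟩
  rw [abs_le] at hτ2
  have e2 := hunif (S.rr m) a1 1 ⟨zero_le_one, le_rfl⟩ (S.tp m)
    ⟨by linarith [a2.1], by linarith [a2.2]⟩ (τ + ((-n : ℤ) : ℝ))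
    ⟨by push_cast; linarith [a2.1, hτ2.2], by push_cast; linarith [a2.2, hτ2.1]⟩
    (by rw [abs_lt]; constructor <;> linarith [a1.2])
    (by rw [abs_lt]; push_cast; constructor <;> linarith [hτ2.1, hτ2.2])
  rw [hp] at e2
  have e1 := sq_dist (ed_sub_lc hs (S.cyc.step m) hz) a3
  refine ⟨gp γ τ, mem_image_of_mem _ hτ, ?_⟩
  have e3 : z - gp γ τ = (z - Ψ (S.rr m) (S.tp m)) + (Ψ (S.rr m) (S.tp m) - gp γ τ) := by ring
  rw [e3]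
  refine (norm_add_le _ _).trans_lt ?_
  linarith

theorem sprop_neg {η : ℝ} {L : ℕ} {t : ℕ → ℝ} (hS : SProp η L t) : SProp η L fun k => -t k := by
  have key : ∀ p x : ℝ, Avd η (-p) x → Avd η p (-x) := by
    intro p x h n
    have := h (-n)
    rw [show x - -p - ((-n : ℤ) : ℝ) = -(-x - p - n) by push_cast; ring, abs_neg] at this
    exact this
  intro i j k k' hij hj hk hk' n hx
  refine hS i j k k' hij hj hk hk' (-n) fun x hx' => ?_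
  have h1 : -x ∈ uIcc (-t k) (-t k' + n) := by
    rw [show -t k' + (n : ℝ) = -(t k' + ((-n : ℤ) : ℝ)) by push_cast; ring]
    rw [mem_uIcc] at hx' ⊢
    rcases hx' with h | h
    · right; constructor <;> linarith [h.1, h.2]
    · left; constructor <;> linarith [h.1, h.2]
  obtain ⟨h2, h3⟩ := hx (-x) h1
  have h4 := key _ _ h2
  have h5 := key _ _ h3
  rw [neg_neg] at h4 h5
  exact ⟨h4, h5⟩

end Crest.Agent.R143.Polyx416
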