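import Crest.Agent.R143.Poly2_416

/-!
# Row 143 (S0194), BLOCK D: the leaf `POLY` (helper416)

* `poly` : `Tenx416.POLY`
-/

set_option autoImplicit false

noncomputable section

namespace Crest.Agent.R143.Polyx416

open Set Topology Filter Metric
open Crest Crest.ProbabilityR Crest.ProbabilityR.Percolation
open Crest.Agent.R158.Jt785 Crest.Agent.R158.Sp896 Crest.Agent.R158
open Crest.Agent.R143.Cfgx416 Crest.Agent.R143.Tenx416

/-- marks -/
def mk (b c d : ℕ) : ℕ → ℕ := fun i => if i = 0 then 0 else if i = 1 then b else if i = 2 then c else d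

theorem sides_of {s e : ℝ} {L b c d : ℕ} {v : ℕ → V} (hper : ∀ i, v (i + L) = v i)
    {AA : ZMod 4 → Set ℂ}
    (h0 : ∀ k, k ≤ b → ∀ z ∈ ed s (v k) (v (k + 1)), Nr e (AA 0) z)
    (h1 : ∀ k, b ≤ k → k ≤ c → ∀ z ∈ ed s (v k) (v (k + 1)), Nr e (AA 1) z)
    (h2 : ∀ k, c ≤ k → k ≤ d → ∀ z ∈ ed s (v k) (v (k + 1)), Nr e (AA 2) z)
    (h3 : ∀ k, d ≤ k → k < L → ∀ z ∈ ed s (v k) (v (k + 1)), Nr e (AA 3) z)
    (h3' : ∀ z ∈ ed s (v 0) (v (0 + 1)), Nr e (AA 3) z) :
    ∀ i k, OnS L (mk b c d) i k → ∀ z ∈ ed s (v k) (v (k + 1)), Nr e (AA i) z := by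
  intro i k ⟨hk1, hk2⟩
  have c4 : ∀ i : ZMod 4, i = 0 ∨ i = 1 ∨ i = 2 ∨ i = 3 := by decide
  have v0 : (0 : ZMod 4).val = 0 := rfl
  have v1 : (1 : ZMod 4).val = 1 := rfl
  have v2 : (2 : ZMod 4).val = 2 := rfl
  have v3 : (3 : ZMod 4).val = 3 := rfl
  rcases c4 i with rfl | rfl | rfl | rfl
  · rw [nx, if_neg (by decide), v0] at hk2
    exact h0 k hk2
  · rw [v1] at hk1
    rw [nx, if_neg (by decide), v1] at hk2
    exact h1 k hk1 hk2
  · rw [v2] at hk1
    rw [nx, if_neg (by decide), v2] at hk2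
    exact h2 k hk1 hk2
  · rw [v3] at hk1
    rw [nx, if_pos rfl] at hk2
    have hk3 : k ≤ L := by simpa [mk] using hk2
    rcases eq_or_lt_of_le hk3 with rfl | hk4
    · have e1 : v k = v 0 := by have := hper 0; rwa [zero_add] at this
      have e2 : v (k + 1) = v (0 + 1) := by
        have := hper 1
        rw [show 1 + k = k + 1 by omega] at this
        exact this
      rw [e1, e2]
      exact h3'
    · exact h3 k hk1 hk4

theorem At.neg {η : ℝ} {t : ℕ → ℝ} {p : ℕ} {x : ℝ} (h : At η t p x) :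
    At η (fun k => -t k) p (-x) := by
  obtain ⟨n, hn⟩ := h
  refine ⟨-n, ?_⟩
  rw [show -t p + ((-n : ℤ) : ℝ) - -x = -(t p + n - x) by push_cast; ring, abs_neg]
  exact hn

theorem In.neg {η : ℝ} {t : ℕ → ℝ} {k : ℕ} {α β : ℝ} (h : In η (fun k => -t k) k (-β) (-α)) :
    In η t k α β := by
  obtain ⟨n, h1, h2⟩ := h
  simp only at h1 h2
  exact ⟨-n, by push_cast; linarith, by push_cast; linarith⟩

/-- **POLY** -/
theorem poly : POLY := by
  intro g f h a ha hper e he
  obtain ⟨Ψ, P⟩ := exists_pol h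
  obtain ⟨R, hR0, hR, hRe⟩ := exists_R h
  set D := jordanInterior g with hD
  have hDc : IsCompact (closure D) := h.isCompact
  have a01 : a 0 < a 1 := ha (by norm_num)
  have a12 : a 1 < a 2 := ha (by norm_num)
  have a23 : a 2 < a 3 := ha (by norm_num)
  have a34 : a 3 < a 4 := ha (by norm_num)
  have a40 : a 4 = a 0 + 1 := by have := hper 0; rwa [zero_add] at this
  have am1 : a (-1) = a 3 - 1 := by
    have := hper (-1)
    rw [show (-1 : ℤ) + 4 = 3 by norm_num] at this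
    linarith
  have am2 : a (-2) = a 2 - 1 := by
    have := hper (-2)
    rw [show (-2 : ℤ) + 4 = 2 by norm_num] at this
    linarith
  obtain ⟨η1, hη1, hunif⟩ := P.unif (by linarith : (0:ℝ) < e / 8)
  obtain ⟨κ, hκ0, hκ1, hκη, g0, g1, g2, g3⟩ : ∃ κ : ℝ, 0 < κ ∧ κ ≤ 1 / 200 ∧ 5 * κ ≤ η1 ∧
      a 0 + 8 * κ ≤ a 1 ∧ a 1 + 8 * κ ≤ a 2 ∧ a 2 + 8 * κ ≤ a 3 ∧ a 3 + 8 * κ ≤ a 0 + 1 := by
    obtain ⟨κ, hκ, hk1⟩ : ∃ κ > 0, κ ≤ 1 / 200 ∧ 5 * κ ≤ η1 := ⟨min (1 / 200) (η1 / 5),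
      lt_min (by norm_num) (by linarith), min_le_left _ _, by
        have := min_le_right (1 / 200) (η1 / 5); linarith⟩
    obtain ⟨w, hw, w1, w2, w3, w4⟩ : ∃ w > 0, w ≤ a 1 - a 0 ∧ w ≤ a 2 - a 1 ∧ w ≤ a 3 - a 2 ∧
        w ≤ a 4 - a 3 :=
      ⟨min (min (a 1 - a 0) (a 2 - a 1)) (min (a 3 - a 2) (a 4 - a 3)),
        lt_min (lt_min (by linarith) (by linarith)) (lt_min (by linarith) (by linarith)),
        (min_le_left _ _).trans (min_le_left _ _), (min_le_left _ _).trans (min_le_right _ _),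
        (min_le_right _ _).trans (min_le_left _ _), (min_le_right _ _).trans (min_le_right _ _)⟩
    refine ⟨min κ (w / 8), lt_min hκ (by linarith), (min_le_left _ _).trans hk1.1, ?_, ?_, ?_, ?_,
      ?_⟩
    · have := min_le_left κ (w / 8); linarith
    all_goals
      have := min_le_right κ (w / 8)
      linarith
  obtain ⟨δ1, hδ1, hinv⟩ := P.inv_unif hκ0
  obtain ⟨δ2, hδ2, hdeep⟩ := P.deep (by linarith : 1 - κ < 1) one_pos le_rfl
  obtain ⟨δ, hδ, hδ1', hδ2'⟩ : ∃ δ : ℝ, 0 < δ ∧ δ ≤ δ1 ∧ δ ≤ δ2 :=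
    ⟨min δ1 δ2, lt_min hδ1 hδ2, min_le_left _ _, min_le_right _ _⟩
  have hpt : ∀ x : ℝ, ∃ p ∈ ext g, ‖p - g (Int.fract x)‖ < δ / 2 := fun x =>
    near_ext h ⟨Int.fract_nonneg x, (Int.fract_lt_one x).le⟩ (half_pos hδ)
  choose pp hpp1 hpp2 using hpt
  have kX : ∀ z ∈ ext g, Kp (closure D) R z := by
    intro z hz
    have hf : ((R + 3 : ℝ) : ℂ) ∈ ext g := by
      apply hRe
      rw [Complex.norm_real, Real.norm_eq_abs, abs_of_nonneg (by linarith)]
      linarith
    obtain ⟨K, h1, h2, h3, h4, h5⟩ := ext_path h hz hf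
    exact ⟨K, h1, h2, h3, h4, (ext_disj h).mono_left h5⟩
  -- compact set of points whose cells must be outer
  set X1 : Set ℂ := closedBall 0 (2 * R + 6) ∩ {z | ∀ y ∈ closure D, e ≤ ‖z - y‖} with hX1
  have cX1 : IsCompact X1 := by
    refine (isCompact_closedBall (0:ℂ) (2 * R + 6)).inter_right ?_
    have : {z : ℂ | ∀ y ∈ closure D, e ≤ ‖z - y‖} = ⋂ y ∈ closure D, {z : ℂ | e ≤ ‖z - y‖} := by
      ext z; simp only [mem_setOf_eq, mem_iInter]
    rw [this]
    exact isClosed_biInter fun y _ => isClosed_le continuous_const (by fun_prop)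
  have kX1 : ∀ z ∈ X1, Kp (closure D) R z := by
    rintro z ⟨-, hz2⟩
    rcases ext_or h z with h1 | h1
    · exact kX z h1
    · have := hz2 z h1
      rw [sub_self, norm_zero] at this
      linarith
  set X : Set ℂ := X1 ∪ {pp (a 0), pp (a 1), pp (a 2), pp (a 3)} with hX
  have cX : IsCompact X :=
    cX1.union (by simp : ({pp (a 0), pp (a 1), pp (a 2), pp (a 3)} : Set ℂ).Finite).isCompact
  have kXX : ∀ z ∈ X, Kp (closure D) R z := by
    rintro z (hz | hz)
    · exact kX1 z hz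
    · simp only [mem_insert_iff, mem_singleton_iff] at hz
      rcases hz with rfl | rfl | rfl | rfl
      · exact kX _ (hpp1 _)
      · exact kX _ (hpp1 _)
      · exact kX _ (hpp1 _)
      · exact kX _ (hpp1 _)
  obtain ⟨s1, hs1, hout⟩ := unif_out hDc hR cX kXX
  obtain ⟨s, hs, hss1, hse, hsδ, hsone⟩ : ∃ s : ℝ, 0 < s ∧ s < s1 ∧ 16 * s < e ∧
      4 * s < δ ∧ s ≤ 1 := by
    refine ⟨min (min s1 (e / 16)) (min (δ / 4) 1) / 2, ?_, ?_, ?_, ?_, ?_⟩
    · have : 0 < min (min s1 (e / 16)) (min (δ / 4) 1) :=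
        lt_min (lt_min hs1 (by linarith)) (lt_min (by linarith) one_pos)
      linarith
    all_goals
      have h2 : min (min s1 (e / 16)) (min (δ / 4) 1) ≤ s1 :=
        (min_le_left _ _).trans (min_le_left _ _)
      have h3 : min (min s1 (e / 16)) (min (δ / 4) 1) ≤ e / 16 :=
        (min_le_left _ _).trans (min_le_right _ _)
      have h4 : min (min s1 (e / 16)) (min (δ / 4) 1) ≤ δ / 4 :=
        (min_le_right _ _).trans (min_le_left _ _)
      have h5 : min (min s1 (e / 16)) (min (δ / 4) 1) ≤ 1 :=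
        (min_le_right _ _).trans (min_le_right _ _)
      linarith
  have houtX : ∀ w ∈ X, ∀ q : V, w ∈ sq s q → q ∈ Out (cells s (closure D)) :=
    hout s hs hss1 hsone
  set F0 : Set V := cells s (closure D) with hF0
  have fF0 : F0.Finite := cells_finite hs hDc.isBounded
  have cF0 : ∀ q ∈ F0, ∀ q' ∈ F0, Con F0 q q' := cells_con hs (preconn_closure P) hDc.isBounded
  set F : Set V := (Out F0)ᶜ with hF
  have fF : F.Finite := out_compl_finite fF0
  have hsubF : F0 ⊆ F := subset_out_compl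
  have nF : F.Nonempty :=
    ⟨_, hsubF (cellOf_mem hs (P.mem 0 ⟨le_rfl, zero_le_one⟩ 0))⟩
  have conF : ∀ q ∈ F, ∀ q' ∈ F, Con F q q' := compl_con fF0 cF0
  have conF' : ∀ q ∉ F, ∀ q' ∉ F, Con Fᶜ q q' := by
    intro q hq q' hq'
    rw [hF, notMem_compl_iff] at hq hq'
    rw [hF, compl_compl]
    exact out_con fF0 q hq q' hq'
  obtain ⟨L, v0, cyc0⟩ := SpD331.exists_cyc896 fF nF conF conF'
  have mkS : ∀ v, Cyc F L v → St g Ψ D κ δ s L v := fun v hv =>
    { P := P, Dc := hDc, κ0 := hκ0, κ1 := hκ1, s0 := hs, s1 := hsone, sδ := hsδ,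
      inv := fun r hr r' hr' t ht t' ht' hlt => hinv r hr r' hr' t ht t' ht' (hlt.trans_le hδ1')
      deep := fun r hr t ht z hz => by
        obtain ⟨r', hr', t', ht', rfl⟩ := hdeep r hr t ht z (hz.trans_le hδ2')
        exact P.mem r' ⟨hr'.1, hr'.2.le⟩ t'
      cyc := hv }
  have px : ∀ i : ℤ, i = 0 ∨ i = 1 ∨ i = 2 ∨ i = 3 → pp (a i) ∈ X := by
    rintro i (rfl | rfl | rfl | rfl) <;> exact Or.inr (by simp)
  have htar : ∀ v, Cyc F L v → ∀ i : ℤ, (i = 0 ∨ i = 1 ∨ i = 2 ∨ i = 3) →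
      ∃ m < L, CAt Ψ κ s (Stg.lf v m) (a i) := fun v hv i hi =>
    target (mkS v hv) (hpp2 (a i)) (houtX _ (px i hi))
  have at_of : ∀ v (hv : Cyc F L v) m x, CAt Ψ κ s (Stg.lf v m) x → At κ (mkS v hv).tp m x := by
    intro v hv m x hc
    obtain ⟨h1, h2, h3, h4⟩ := (mkS v hv).rr_tp m
    exact hc _ h1 _ h2 h3 h4
  -- common fields
  have hcover : ∀ q, (sq s q ∩ closure D).Nonempty → q ∈ F := fun q hq => hsubF hq
  have houter : ∀ q ∈ F, ∀ z ∈ sq s q, Nr e (closure D) z := by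
    intro q hq z hz
    by_contra hcon
    apply hq
    by_cases hn : 2 * R + 6 < ‖z‖
    · exact norm_out hs hsone hR hz hn
    · refine houtX z (Or.inl ⟨mem_closedBall_zero_iff.2 (not_lt.1 hn), ?_⟩) q hz
      intro y hy
      by_contra hlt
      push Not at hlt
      exact hcon ⟨y, hy, hlt⟩
  have hlcD : ∀ v, Cyc F L v → ∀ k, (sq s (lc (v k) (v (k + 1))) ∩ closure D).Nonempty :=
    fun v hv k => (mkS v hv).lf_mem k
  -- rotation
  obtain ⟨m0, hm0, hm0'⟩ := htar v0 cyc0 0 (Or.inl rfl)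
  set v1 : ℕ → V := fun m => v0 (m + m0) with hv1
  have cyc1 : Cyc F L v1 := cyc0.rot m0
  obtain ⟨b, hbL, hb⟩ := htar v1 cyc1 1 (by norm_num)
  obtain ⟨c, hcL, hc⟩ := htar v1 cyc1 2 (by norm_num)
  obtain ⟨d, hdL, hd⟩ := htar v1 cyc1 3 (by norm_num)
  have h0 : CAt Ψ κ s (Stg.lf v1 0) (a 0) := by
    have : Stg.lf v1 0 = Stg.lf v0 m0 := by
      show lc (v0 (0 + m0)) (v0 (0 + 1 + m0)) = lc (v0 m0) (v0 (m0 + 1))
      rw [show 0 + m0 = m0 by omega, show 0 + 1 + m0 = m0 + 1 by omega]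
    rw [this]; exact hm0'
  have S1 := mkS v1 cyc1
  have t0 := at_of v1 cyc1 0 _ h0
  have tb := at_of v1 cyc1 b _ hb
  have tc := at_of v1 cyc1 c _ hc
  have td := at_of v1 cyc1 d _ hd
  -- arcs
  set AA : ZMod 4 → Set ℂ := fun i => gp g '' Icc (a (i.val : ℤ)) (a ((i.val : ℤ) + 1)) with hAA
  have w0 : (((0 : ZMod 4).val : ℕ) : ℤ) = 0 := rfl
  have w1 : (((1 : ZMod 4).val : ℕ) : ℤ) = 1 := rfl
  have w2 : (((2 : ZMod 4).val : ℕ) : ℤ) = 2 := rfl
  have w3 : (((3 : ZMod 4).val : ℕ) : ℤ) = 3 := rfl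
  have A0 : AA 0 = gp g '' Icc (a 0) (a 1) := by simp only [hAA, w0]; norm_num
  have A1 : AA 1 = gp g '' Icc (a 1) (a 2) := by simp only [hAA, w1]; norm_num
  have A2 : AA 2 = gp g '' Icc (a 2) (a 3) := by simp only [hAA, w2]; norm_num
  have A3 : AA 3 = gp g '' Icc (a 3) (a 4) := by simp only [hAA, w3]; norm_num
  rcases order4 hκ0 S1.sprop g0 g1 g2 g3 t0 tb tc td hbL hcL hdL with ⟨o1, o2, o3⟩ | ⟨o1, o2, o3⟩
  · obtain ⟨r0, r1, r2, r3, r4⟩ := runs4 hκ0 S1.sprop g0 g1 g2 g3 t0 tb tc td o1 o2 o3 hdL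
    refine ⟨false, s, F, L, v1, mk b c d, hs, by linarith, fF, conF, conF', cyc1, ?_, ?_, ?_, ?_, ?_,
      hcover, houter, hlcD v1 cyc1⟩
    · show 0 < b; exact o1
    · show b < c; exact o2
    · show c < d; exact o3
    · show d < L; exact hdL
    · show ∀ i k, OnS L (mk b c d) i k → ∀ z ∈ ed s (v1 k) (v1 (k + 1)), Nr e (AA i) z
      refine sides_of cyc1.per ?_ ?_ ?_ ?_ ?_
      · intro k hk; rw [A0]
        exact near_side S1 hκη hse hunif a01.le (r0 k hk)
      · intro k hk hk'; rw [A1]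
        exact near_side S1 hκη hse hunif a12.le (r1 k hk hk')
      · intro k hk hk'; rw [A2]
        exact near_side S1 hκη hse hunif a23.le (r2 k hk hk')
      · intro k hk hk'; rw [A3, a40]
        exact near_side S1 hκη hse hunif (by linarith) (r3 k hk hk')
      · rw [A3, a40]
        exact near_side S1 hκη hse hunif (by linarith) r4
  · set v2 : ℕ → V := fun m => v1 (m + c) with hv2
    have cyc2 : Cyc F L v2 := cyc1.rot c
    have S2 := mkS v2 cyc2
    have hlf : ∀ k, Stg.lf v2 k = Stg.lf v1 (k + c) := by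
      intro k
      show lc (v1 (k + c)) (v1 (k + 1 + c)) = lc (v1 (k + c)) (v1 (k + c + 1))
      rw [show k + 1 + c = k + c + 1 by omega]
    have hlp : ∀ k, Stg.lf v1 (k + L) = Stg.lf v1 k := by
      intro k
      show lc (v1 (k + L)) (v1 (k + L + 1)) = lc (v1 k) (v1 (k + 1))
      rw [cyc1.per, show k + L + 1 = k + 1 + L by omega, cyc1.per]
    have u0 : At κ S2.tp 0 (a 2) := at_of v2 cyc2 0 _ (by rw [hlf, zero_add]; exact hc)
    have u1 : At κ S2.tp (b - c) (a 1) := at_of v2 cyc2 _ _ (by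
      rw [hlf, show b - c + c = b by omega]; exact hb)
    have u2 : At κ S2.tp (L - c) (a 0) := at_of v2 cyc2 _ _ (by
      rw [hlf, show L - c + c = 0 + L by omega, hlp]; exact h0)
    have u3 : At κ S2.tp (L + d - c) (a 3) := at_of v2 cyc2 _ _ (by
      rw [hlf, show L + d - c + c = d + L by omega, hlp]; exact hd)
    have u3' : At κ (fun k => -S2.tp k) (L + d - c) (1 - a 3) := by
      have := u3.neg.shift
      rwa [show -a 3 + 1 = 1 - a 3 by ring] at this
    obtain ⟨r0, r1, r2, r3, r4⟩ := runs4 hκ0 (sprop_neg S2.sprop) (a0 := -a 2) (a1 := -a 1)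
      (a2 := -a 0) (a3 := 1 - a 3) (by linarith) (by linarith) (by linarith) (by linarith)
      u0.neg u1.neg u2.neg u3' (by omega) (by omega) (by omega) (by omega)
    refine ⟨true, s, F, L, v2, mk (b - c) (L - c) (L + d - c), hs, by linarith, fF, conF, conF',
      cyc2, ?_, ?_, ?_, ?_, ?_, hcover, houter, hlcD v2 cyc2⟩
    · show 0 < b - c; omega
    · show b - c < L - c; omega
    · show L - c < L + d - c; omega
    · show L + d - c < L; omega
    · have e0 : rvA true AA 0 = gp g '' Icc (a 1) (a 2) := by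
        rw [← A1]; rfl
      have e1 : rvA true AA 1 = gp g '' Icc (a 0) (a 1) := by
        rw [← A0]; rfl
      have z3 : gp g '' Icc (a 3 - 1) (a 0) = gp g '' Icc (a 3) (a 4) := by
        have := arcZ_sub (g := g) hper 3
        unfold arcZ at this
        norm_num at this
        rw [am1] at this
        exact this
      have z2 : gp g '' Icc (a 2 - 1) (a 3 - 1) = gp g '' Icc (a 2) (a 3) := by
        have := arcZ_sub (g := g) hper 2
        unfold arcZ at this
        norm_num at this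
        rw [am1, am2] at this
        exact this
      have e2 : rvA true AA 2 = gp g '' Icc (a 3 - 1) (a 0) := by
        rw [z3, ← A3]; rfl
      have e3 : rvA true AA 3 = gp g '' Icc (a 2 - 1) (a 3 - 1) := by
        rw [z2, ← A2]; rfl
      show ∀ i k, OnS L (mk (b - c) (L - c) (L + d - c)) i k →
        ∀ z ∈ ed s (v2 k) (v2 (k + 1)), Nr e (rvA true AA i) z
      refine sides_of cyc2.per ?_ ?_ ?_ ?_ ?_
      · intro k hk; rw [e0]
        exact near_side S2 hκη hse hunif a12.le (In.neg (r0 k hk))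
      · intro k hk hk'; rw [e1]
        exact near_side S2 hκη hse hunif a01.le (In.neg (r1 k hk hk'))
      · intro k hk hk'; rw [e2]
        refine near_side S2 hκη hse hunif (by linarith) (In.neg ?_)
        rw [show -(a 3 - 1) = 1 - a 3 by ring]
        exact r2 k hk hk'
      · intro k hk hk'; rw [e3]
        refine near_side S2 hκη hse hunif (by linarith) (In.neg ?_)
        rw [show -(a 3 - 1) = 1 - a 3 by ring, show -(a 2 - 1) = -a 2 + 1 by ring]
        exact r3 k hk hk'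
      · rw [e3]
        refine near_side S2 hκη hse hunif (by linarith) (In.neg ?_)
        rw [show -(a 3 - 1) = 1 - a 3 by ring, show -(a 2 - 1) = -a 2 + 1 by ring]
        exact r4

end Crest.Agent.R143.Polyx416
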