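import Crest.Agent.R143.Alg4_133
import Crest.Agent.R143.AsmO_758

/-!
# Row 143 (S0194), CORE-C, box R9, last layer (helper854): quantifiers and dichotomy, output `POLY`

`T, T' : U → ℝ → Sample → ℂ` totals of the polygons (small and big field), `D` mean displacements of
the root blocks of the three types, `κ` the constant of the corridor (may depend on the mesh `ε`, on
the width of the corridor, on the finite set of polygons and on the precision).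

* `RIGP T D` : in probability; `poly_of_p : RIGP T D → (Rl a.s.) → POLY T T'`
* `RIGL T D` : in `L¹` on a good event; `rigp_of_l`
* `RIGS T D` : `L¹` on a good event, with the width `s` of the corridor; `rigl_of_s`
* `l1_of_weights` : `|∫ f X| ≤ e` for all weights `|f| ≤ 1` (308) gives `∫ |X| ≤ e`
* `RIGF T D` : with weights; `rigs_of_f`
* `poly_smul`, `poly_near`, `poly_map` : change of normalisation, of the sequence, of the index set
-/

set_option autoImplicit false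

noncomputable section

open scoped Classical

namespace Crest.Agent.R143.PolyQx854

open Complex Set Filter Topology MeasureTheory
open scoped ENNReal
open Crest.ProbabilityR.Voronoi
open Crest.Agent.R143.B0x346 Crest.Agent.R143.PP1x831
open Crest.Agent.R143.DefsNx346 (hi)
open Crest.Agent.R143.Alg4x133 (Rl alt norm_hi)
open Crest.Agent.R143.AsmNx758 (POLY)

variable {U U' V V' : Type}

/-! ### the algebra for one environment -/

/-- one of the two alternatives, with the same `κ` for all nets -/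
theorem alt_cases (κ : ℂ) : Real.sqrt 3 / 2 ≤ ‖2 * hi - κ‖ ∨ Real.sqrt 3 / 2 ≤ ‖κ‖ := by
  by_contra h
  push Not at h
  have h1 := norm_add_le (2 * hi - κ) κ
  rw [sub_add_cancel, norm_hi] at h1
  linarith [h.1, h.2]

theorem sqrt3_pos : (0 : ℝ) < Real.sqrt 3 := Real.sqrt_pos.2 (by norm_num)

theorem alt_a {a b κ : ℂ} {D : ZMod 3 → ℂ} {η : ℝ} (hD : Rl a b D)
    (h : ∀ k : ZMod 3, ‖omz k ^ 2 * a - κ * D k‖ ≤ η) (hκ : Real.sqrt 3 / 2 ≤ ‖2 * hi - κ‖) :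
    ‖a‖ ≤ 2 * η := by
  have h1 := (alt hD h).1
  rw [norm_mul] at h1
  have hs := sqrt3_pos
  have h2 : Real.sqrt 3 / 2 * ‖a‖ ≤ Real.sqrt 3 * η :=
    (mul_le_mul_of_nonneg_right hκ (norm_nonneg _)).trans h1
  by_contra hcon
  push Not at hcon
  nlinarith

theorem alt_b {a b κ : ℂ} {D : ZMod 3 → ℂ} {η : ℝ} (hD : Rl a b D)
    (h : ∀ k : ZMod 3, ‖omz k ^ 2 * a - κ * D k‖ ≤ η) (hκ : Real.sqrt 3 / 2 ≤ ‖κ‖) :
    ‖b‖ ≤ 2 * η := by
  have h1 := (alt hD h).2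
  rw [norm_mul] at h1
  have hs := sqrt3_pos
  have h2 : Real.sqrt 3 / 2 * ‖b‖ ≤ Real.sqrt 3 * η :=
    (mul_le_mul_of_nonneg_right hκ (norm_nonneg _)).trans h1
  by_contra hcon
  push Not at hcon
  nlinarith

/-! ### in probability -/

/-- **RIG in probability**: same `κ` for the polygons of a finite set -/
def RIGP (T : U → ℝ → Sample → ℂ) (D : U → ℝ → Sample → ZMod 3 → ℂ) : Prop :=
  ∀ F : Finset U, ∀ η > 0, ∀ᶠ ε : ℝ in 𝓝[>] 0, ∃ κ : ℂ, ∀ u ∈ F, ∀ k : ZMod 3,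
    sampleLaw {ω | η < ‖omz k ^ 2 * T u ε ω - κ * D u ε ω k‖} ≤ ENNReal.ofReal η

/-- the exact relation holds with probability tending to one -/
def RLP (T T' : U → ℝ → Sample → ℂ) (D : U → ℝ → Sample → ZMod 3 → ℂ) : Prop :=
  ∀ u : U, ∀ η > 0, ∀ᶠ ε : ℝ in 𝓝[>] 0,
    sampleLaw {ω | ¬ Rl (T u ε ω) (T' u ε ω) (D u ε ω)} ≤ ENNReal.ofReal η

theorem z3 (k : ZMod 3) : k = 0 ∨ k = 1 ∨ k = 2 := by
  revert k; decide

theorem bad_le {P : Measure Sample} {A B0 B1 B2 R : Set Sample} {η : ℝ} (hη : 0 ≤ η)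
    (hA : A ⊆ (B0 ∪ B1) ∪ (B2 ∪ R)) (h0 : P B0 ≤ ENNReal.ofReal (η / 4))
    (h1 : P B1 ≤ ENNReal.ofReal (η / 4)) (h2 : P B2 ≤ ENNReal.ofReal (η / 4))
    (hR : P R ≤ ENNReal.ofReal (η / 4)) : P A ≤ ENNReal.ofReal η := by
  have e : η = (η / 4 + η / 4) + (η / 4 + η / 4) := by ring
  calc P A ≤ P ((B0 ∪ B1) ∪ (B2 ∪ R)) := measure_mono hA
    _ ≤ (P B0 + P B1) + (P B2 + P R) :=
        (measure_union_le _ _).trans (add_le_add (measure_union_le _ _) (measure_union_le _ _))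
    _ ≤ (ENNReal.ofReal (η / 4) + ENNReal.ofReal (η / 4)) +
          (ENNReal.ofReal (η / 4) + ENNReal.ofReal (η / 4)) :=
        add_le_add (add_le_add h0 h1) (add_le_add h2 hR)
    _ = ENNReal.ofReal η := by
        rw [← ENNReal.ofReal_add (by positivity) (by positivity),
          ← ENNReal.ofReal_add (by positivity) (by positivity), ← e]

/-- **POLY from RIG in probability** -/
theorem poly_of_p {T T' : U → ℝ → Sample → ℂ} {D : U → ℝ → Sample → ZMod 3 → ℂ}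
    (h : RIGP T D) (hR : RLP T T' D) : POLY T T' := by
  intro u u' η hη
  have hη4 : 0 < η / 4 := by linarith
  filter_upwards [h {u, u'} (η / 4) hη4, hR u (η / 4) hη4, hR u' (η / 4) hη4] with ε h1 h2 h3
  obtain ⟨κ, hκ⟩ := h1
  have key : ∀ v ∈ ({u, u'} : Finset U), ∀ X : Sample → ℂ, (∀ ω, Rl (T v ε ω) (T' v ε ω) (D v ε ω) →
      (∀ k : ZMod 3, ‖omz k ^ 2 * T v ε ω - κ * D v ε ω k‖ ≤ η / 4) → ‖X ω‖ ≤ 2 * (η / 4)) →
      sampleLaw {ω | ¬ Rl (T v ε ω) (T' v ε ω) (D v ε ω)} ≤ ENNReal.ofReal (η / 4) →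
      sampleLaw {ω | η < ‖X ω‖} ≤ ENNReal.ofReal η := by
    intro v hv X hX hRv
    refine bad_le hη.le ?_ (hκ v hv 0) (hκ v hv 1) (hκ v hv 2) hRv
    intro ω hω
    by_contra hcon
    simp only [mem_union, not_or, mem_ofPred_eq, not_lt, not_not] at hcon hω
    obtain ⟨⟨c0, c1⟩, c2, c3⟩ := hcon
    have h4 := hX ω c3 fun k => by
      rcases z3 k with rfl | rfl | rfl
      · exact c0
      · exact c1
      · exact c2
    linarith
  rcases alt_cases κ with hc | hc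
  · left
    exact key u (by simp) (fun ω => T u ε ω) (fun ω h5 h6 => alt_a h5 h6 hc) h2
  · right
    exact key u' (by simp) (fun ω => T' u' ε ω) (fun ω h5 h6 => alt_b h5 h6 hc) h3

/-! ### changes of the sequence -/

theorem poly_near {T T1 : U → ℝ → Sample → ℂ} {T' T1' : U' → ℝ → Sample → ℂ}
    (h : POLY T T') (h1 : ∀ u, ∀ η > 0, ∀ᶠ ε : ℝ in 𝓝[>] 0,
      sampleLaw {ω | η < ‖T1 u ε ω - T u ε ω‖} ≤ ENNReal.ofReal η)
    (h2 : ∀ u, ∀ η > 0, ∀ᶠ ε : ℝ in 𝓝[>] 0,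
      sampleLaw {ω | η < ‖T1' u ε ω - T' u ε ω‖} ≤ ENNReal.ofReal η) : POLY T1 T1' := by
  intro u u' η hη
  have hη2 : 0 < η / 2 := by linarith
  filter_upwards [h u u' (η / 2) hη2, h1 u (η / 2) hη2, h2 u' (η / 2) hη2] with ε a1 a2 a3
  have key : ∀ X Y : Sample → ℂ, sampleLaw {ω | η / 2 < ‖X ω‖} ≤ ENNReal.ofReal (η / 2) →
      sampleLaw {ω | η / 2 < ‖Y ω - X ω‖} ≤ ENNReal.ofReal (η / 2) →
      sampleLaw {ω | η < ‖Y ω‖} ≤ ENNReal.ofReal η := by
    intro X Y hX hY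
    have hsub : {ω | η < ‖Y ω‖} ⊆ {ω | η / 2 < ‖X ω‖} ∪ {ω | η / 2 < ‖Y ω - X ω‖} := by
      intro ω hω
      by_contra hcon
      simp only [mem_union, not_or, mem_ofPred_eq, not_lt] at hcon hω
      have := norm_add_le (Y ω - X ω) (X ω)
      rw [sub_add_cancel] at this
      linarith [hcon.1, hcon.2]
    calc sampleLaw {ω | η < ‖Y ω‖} ≤ _ := measure_mono hsub
      _ ≤ _ := measure_union_le _ _
      _ ≤ ENNReal.ofReal (η / 2) + ENNReal.ofReal (η / 2) := add_le_add hX hY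
      _ = ENNReal.ofReal η := by
          rw [← ENNReal.ofReal_add (by positivity) (by positivity), add_halves]
  rcases a1 with a1 | a1
  · exact Or.inl (key _ _ a1 a2)
  · exact Or.inr (key _ _ a1 a3)

/-- change of normalisation -/
theorem poly_smul {T : U → ℝ → Sample → ℂ} {T' : U' → ℝ → Sample → ℂ} (h : POLY T T')
    (c c' : ℂ) : POLY (fun u ε ω => c * T u ε ω) (fun u ε ω => c' * T' u ε ω) := by
  intro u u' η hη
  set A : ℝ := 1 + ‖c‖ + ‖c'‖ with hA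
  have hA1 : 1 ≤ A := by have := norm_nonneg c; have := norm_nonneg c'; linarith
  have hA0 : 0 < A := by linarith
  have hle : η / A ≤ η := div_le_self hη.le hA1
  have key : ∀ (q : ℂ) (X : Sample → ℂ), ‖q‖ ≤ A →
      sampleLaw {ω | η / A < ‖X ω‖} ≤ ENNReal.ofReal (η / A) →
      sampleLaw {ω | η < ‖q * X ω‖} ≤ ENNReal.ofReal η := by
    intro q X hq hX
    refine (measure_mono fun ω hω => ?_).trans (hX.trans (ENNReal.ofReal_le_ofReal hle))
    simp only [mem_ofPred_eq] at hω ⊢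
    rw [norm_mul] at hω
    rw [div_lt_iff₀ hA0]
    have := mul_le_mul_of_nonneg_right hq (norm_nonneg (X ω))
    linarith
  filter_upwards [h u u' (η / A) (by positivity)] with ε h1
  rcases h1 with h1 | h1
  · exact Or.inl (key c _ (by have := norm_nonneg c'; linarith) h1)
  · exact Or.inr (key c' _ (by have := norm_nonneg c; linarith) h1)

/-- change of the index sets -/
theorem poly_map {T : U → ℝ → Sample → ℂ} {T' : U' → ℝ → Sample → ℂ} (h : POLY T T')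
    (f : V → U) (f' : V' → U') : POLY (fun v => T (f v)) (fun v => T' (f' v)) :=
  fun v v' η hη => h (f v) (f' v') η hη

/-! ### in `L¹` -/

/-- **RIG in `L¹` on a good event** -/
def RIGL (T : U → ℝ → Sample → ℂ) (D : U → ℝ → Sample → ZMod 3 → ℂ) : Prop :=
  ∀ F : Finset U, ∀ η > 0, ∀ᶠ ε : ℝ in 𝓝[>] 0, ∃ (κ : ℂ) (G : Set Sample),
    MeasurableSet G ∧ sampleLaw Gᶜ ≤ ENNReal.ofReal η ∧ ∀ u ∈ F, ∀ k : ZMod 3,
      AEMeasurable (fun ω => omz k ^ 2 * T u ε ω - κ * D u ε ω k) (sampleLaw.restrict G) ∧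
      ∫⁻ ω in G, ‖omz k ^ 2 * T u ε ω - κ * D u ε ω k‖ₑ ∂sampleLaw ≤ ENNReal.ofReal η

theorem markov {G : Set Sample} (hG : MeasurableSet G) {X : Sample → ℂ}
    (hX : AEMeasurable X (sampleLaw.restrict G)) {η θ : ℝ} (hη : 0 < η) (hθ0 : 0 ≤ θ)
    (h1 : sampleLaw Gᶜ ≤ ENNReal.ofReal θ)
    (h2 : ∫⁻ ω in G, ‖X ω‖ₑ ∂sampleLaw ≤ ENNReal.ofReal θ) (hθ : θ + θ / η ≤ η) :
    sampleLaw {ω | η < ‖X ω‖} ≤ ENNReal.ofReal η := by
  have h3 := mul_meas_ge_le_lintegral₀ hX.enorm (ENNReal.ofReal η)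
  have h4 : sampleLaw.restrict G {ω | ENNReal.ofReal η ≤ ‖X ω‖ₑ} ≤ ENNReal.ofReal (θ / η) := by
    rw [ENNReal.ofReal_div_of_pos hη, ENNReal.le_div_iff_mul_le
      (Or.inl (ENNReal.ofReal_pos.2 hη).ne') (Or.inl ENNReal.ofReal_ne_top), mul_comm]
    exact h3.trans h2
  have h5 : {ω | η < ‖X ω‖} ⊆ Gᶜ ∪ ({ω | ENNReal.ofReal η ≤ ‖X ω‖ₑ} ∩ G) := by
    intro ω hω
    by_cases hg : ω ∈ G
    · refine Or.inr ⟨?_, hg⟩
      simp only [mem_ofPred_eq] at hω ⊢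
      rw [← ofReal_norm]
      exact ENNReal.ofReal_le_ofReal hω.le
    · exact Or.inl hg
  calc sampleLaw {ω | η < ‖X ω‖} ≤ _ := measure_mono h5
    _ ≤ sampleLaw Gᶜ + sampleLaw ({ω | ENNReal.ofReal η ≤ ‖X ω‖ₑ} ∩ G) := measure_union_le _ _
    _ ≤ ENNReal.ofReal θ + ENNReal.ofReal (θ / η) := by
        refine add_le_add h1 ?_
        rw [← Measure.restrict_apply' hG]
        exact h4
    _ = ENNReal.ofReal (θ + θ / η) := (ENNReal.ofReal_add hθ0 (by positivity)).symm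
    _ ≤ ENNReal.ofReal η := ENNReal.ofReal_le_ofReal hθ

theorem rigp_of_l {T : U → ℝ → Sample → ℂ} {D : U → ℝ → Sample → ZMod 3 → ℂ}
    (h : RIGL T D) : RIGP T D := by
  intro F η hη
  set θ : ℝ := min (η / 2) (η ^ 2 / 2) with hθ
  have hθ0 : 0 < θ := lt_min (by positivity) (by positivity)
  have hθ1 : θ + θ / η ≤ η := by
    have h1 : θ ≤ η / 2 := min_le_left _ _
    have h2 : θ / η ≤ η / 2 := by
      rw [div_le_iff₀ hη]
      have : θ ≤ η ^ 2 / 2 := min_le_right _ _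
      nlinarith
    linarith
  filter_upwards [h F θ hθ0] with ε h1
  obtain ⟨κ, G, hG, hG1, h2⟩ := h1
  refine ⟨κ, fun u hu k => ?_⟩
  obtain ⟨h3, h4⟩ := h2 u hu k
  exact markov hG h3 hη hθ0.le hG1 h4 hθ1

/-- **RIG at fixed width `s` of the corridor**: the errors which vanish with the mesh and the errors
`err s` which vanish with the width; `κ` may depend on everything except the polygon of `F` -/
def RIGS (T : U → ℝ → Sample → ℂ) (D : U → ℝ → Sample → ZMod 3 → ℂ) : Prop :=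
  ∀ F : Finset U, ∃ err : ℝ → ℝ, Tendsto err (𝓝[>] 0) (𝓝 0) ∧ ∀ᶠ s : ℝ in 𝓝[>] 0, ∀ η > 0,
    ∀ᶠ ε : ℝ in 𝓝[>] 0, ∃ (κ : ℂ) (G : Set Sample),
      MeasurableSet G ∧ sampleLaw Gᶜ ≤ ENNReal.ofReal (err s + η) ∧ ∀ u ∈ F, ∀ k : ZMod 3,
        AEMeasurable (fun ω => omz k ^ 2 * T u ε ω - κ * D u ε ω k) (sampleLaw.restrict G) ∧
        ∫⁻ ω in G, ‖omz k ^ 2 * T u ε ω - κ * D u ε ω k‖ₑ ∂sampleLaw ≤ ENNReal.ofReal (err s + η)

theorem rigl_of_s {T : U → ℝ → Sample → ℂ} {D : U → ℝ → Sample → ZMod 3 → ℂ}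
    (h : RIGS T D) : RIGL T D := by
  intro F η hη
  obtain ⟨err, h1, h2⟩ := h F
  have h3 : ∀ᶠ s : ℝ in 𝓝[>] 0, err s < η / 2 := h1.eventually (gt_mem_nhds (by linarith))
  obtain ⟨s, hs1, hs2⟩ := (h2.and h3).exists
  filter_upwards [hs1 (η / 2) (by linarith)] with ε h4
  obtain ⟨κ, G, hG, hG1, h5⟩ := h4
  have hle : ENNReal.ofReal (err s + η / 2) ≤ ENNReal.ofReal η :=
    ENNReal.ofReal_le_ofReal (by linarith)
  exact ⟨κ, G, hG, hG1.trans hle, fun u hu k => ⟨(h5 u hu k).1, (h5 u hu k).2.trans hle⟩⟩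

/-! ### weights -/

/-- the weight `conj X / |X|` -/
def sgn (X : Sample → ℂ) (ω : Sample) : ℂ := (starRingEnd ℂ) (X ω) / (‖X ω‖ : ℂ)

theorem sgn_le (X : Sample → ℂ) (ω : Sample) : ‖sgn X ω‖ ≤ 1 := by
  unfold sgn
  rw [norm_div, Complex.norm_conj, Complex.norm_real, Real.norm_of_nonneg (norm_nonneg _)]
  exact div_self_le_one _

theorem sgn_mul (X : Sample → ℂ) (ω : Sample) : sgn X ω * X ω = (‖X ω‖ : ℂ) := by
  unfold sgn
  rcases eq_or_ne (X ω) 0 with h | h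
  · rw [h]
    simp
  · have h1 : (‖X ω‖ : ℂ) ≠ 0 := by exact_mod_cast (norm_pos_iff.2 h).ne'
    rw [div_mul_eq_mul_div, div_eq_iff h1, mul_comm, Complex.mul_conj, Complex.normSq_eq_norm_sq]
    push_cast
    ring

/-- **308**: testing with the weight `sgn X` gives the `L¹` norm -/
theorem l1_of_weights {G : Set Sample} {X : Sample → ℂ} {e : ℝ}
    (hX : Integrable X (sampleLaw.restrict G))
    (h : ‖∫ ω in G, sgn X ω * X ω ∂sampleLaw‖ ≤ e) :
    ∫⁻ ω in G, ‖X ω‖ₑ ∂sampleLaw ≤ ENNReal.ofReal e := by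
  simp_rw [sgn_mul] at h
  rw [integral_complex_ofReal, Complex.norm_real, Real.norm_of_nonneg
    (integral_nonneg fun _ => norm_nonneg _)] at h
  rw [← ofReal_integral_norm_eq_lintegral_enorm hX]
  exact ENNReal.ofReal_le_ofReal h

/-- **RIG with weights, at fixed width** -/
def RIGF (T : U → ℝ → Sample → ℂ) (D : U → ℝ → Sample → ZMod 3 → ℂ) : Prop :=
  ∀ F : Finset U, ∃ err : ℝ → ℝ, Tendsto err (𝓝[>] 0) (𝓝 0) ∧ ∀ᶠ s : ℝ in 𝓝[>] 0, ∀ η > 0,
    ∀ᶠ ε : ℝ in 𝓝[>] 0, ∃ (κ : ℂ) (G : Set Sample),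
      MeasurableSet G ∧ sampleLaw Gᶜ ≤ ENNReal.ofReal (err s + η) ∧ ∀ u ∈ F, ∀ k : ZMod 3,
        Integrable (fun ω => omz k ^ 2 * T u ε ω - κ * D u ε ω k) (sampleLaw.restrict G) ∧
        ‖∫ ω in G, sgn (fun ω => omz k ^ 2 * T u ε ω - κ * D u ε ω k) ω *
          (omz k ^ 2 * T u ε ω - κ * D u ε ω k) ∂sampleLaw‖ ≤ err s + η

theorem rigs_of_f {T : U → ℝ → Sample → ℂ} {D : U → ℝ → Sample → ZMod 3 → ℂ}
    (h : RIGF T D) : RIGS T D := by
  intro F
  obtain ⟨err, h1, h2⟩ := h F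
  refine ⟨err, h1, ?_⟩
  filter_upwards [h2] with s h3 η hη
  filter_upwards [h3 η hη] with ε h4
  obtain ⟨κ, G, hG, hG1, h5⟩ := h4
  refine ⟨κ, G, hG, hG1, fun u hu k => ?_⟩
  obtain ⟨h6, h7⟩ := h5 u hu k
  exact ⟨h6.aestronglyMeasurable.aemeasurable, l1_of_weights h6 h7⟩

theorem poly_of_l {T T' : U → ℝ → Sample → ℂ} {D : U → ℝ → Sample → ZMod 3 → ℂ}
    (h : RIGL T D) (hR : RLP T T' D) : POLY T T' := poly_of_p (rigp_of_l h) hR

theorem poly_of_s {T T' : U → ℝ → Sample → ℂ} {D : U → ℝ → Sample → ZMod 3 → ℂ}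
    (h : RIGS T D) (hR : RLP T T' D) : POLY T T' := poly_of_l (rigl_of_s h) hR

theorem poly_of_f {T T' : U → ℝ → Sample → ℂ} {D : U → ℝ → Sample → ZMod 3 → ℂ}
    (h : RIGF T D) (hR : RLP T T' D) : POLY T T' := poly_of_s (rigs_of_f h) hR

end Crest.Agent.R143.PolyQx854
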