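import Crest.Agent.R143.PolyQ_854
import Crest.Agent.R143.PolyA_970

/-!
# Row 143 (S0194), CORE-C, box R9 (helper854): from 970's corridor data `Cor` to `POLY`

* `Cdat P t κ f T D e` : some corridor data `Cor` (970) for the net with total `T`, mean displacement
  `D`, phase `t`, weight `f`, with the sum of the six errors `≤ e`
* `Crr Ps κ m T D e` : on a bigger probability space (two colourings, coins ..) with projection `π` to
  `Sample`: `Cdat` for every `m`-measurable weight `f`, `‖f‖ ≤ 1`; `Crr.l1` : `∫ ‖t T + κ D‖ ≤ e`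
* `CORH T D` : for every finite set of polygons and every precision `η`, eventually in the mesh there is
  ONE `κ` which serves all polygons of the set and the three types
* `poly_of_cor` : `CORH T D → RLP T T' D → POLY T T'`
* `poly_of_corI` : the same with totals cut off outside of good sets of environments
-/

set_option autoImplicit false

noncomputable section

open scoped Classical

namespace Crest.Agent.R143.PolyRx854

open Complex Set Filter Topology MeasureTheory
open scoped ENNReal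
open Crest.ProbabilityR.Voronoi
open Crest.Agent.R143.B0x346 Crest.Agent.R143.PP1x831
open Crest.Agent.R143.DefsNx346 (hi)
open Crest.Agent.R143.Alg4x133 (Rl norm_omz)
open Crest.Agent.R143.AsmNx758 (POLY)
open Crest.Agent.R143.PolyAx970 (Cor l1_dual)
open Crest.Agent.R143.PolyQx854

/-! ### one net, one type, one mesh -/

section one

variable {Ω : Type} [MeasurableSpace Ω]

/-- corridor data with total error `≤ e` -/
def Cdat (P : Measure Ω) (t κ : ℂ) (f T D : Ω → ℂ) (e : ℝ) : Prop :=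
  ∃ (ν : Measure Ω) (ι : Type) (I J : Finset ι) (G : ℝ) (Vβ Vγ VK TK R : Ω → ℂ) (V : ι → Ω → ℂ)
    (one : ι → Ω → ℝ) (z : ι → ℂ) (a1 a2 a3 a4 a5 a6 : ℝ),
    Cor P ν I J t κ G f Vβ Vγ VK TK T D R V one z a1 a2 a3 a4 a5 a6 ∧
      a1 + a2 + a3 + a4 + a5 + a6 ≤ e

theorem Cdat.le {P : Measure Ω} {t κ : ℂ} {f T D : Ω → ℂ} {e : ℝ} (h : Cdat P t κ f T D e) :
    ‖t * ∫ ω, f ω * T ω ∂P + κ * ∫ ω, f ω * D ω ∂P‖ ≤ e := by
  obtain ⟨ν, ι, I, J, G, Vβ, Vγ, VK, TK, R, V, one, z, a1, a2, a3, a4, a5, a6, h1, h2⟩ := h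
  exact h1.concl.trans h2

end one

/-- the σ-algebra of `Sample` -/
@[reducible] def amb : MeasurableSpace Sample := inferInstance

/-- integrable for `sampleLaw` -/
def IntS (T : Sample → ℂ) : Prop := Integrable T sampleLaw

/-- projection to `Sample` -/
def Prj {Ω : Type} [MeasurableSpace Ω] (P : Measure Ω) (π : Ω → Sample) : Prop :=
  MeasurePreserving π P sampleLaw

theorem Prj.int {Ω : Type} [MeasurableSpace Ω] {P : Measure Ω} {π : Ω → Sample} (h : Prj P π)
    {F : Sample → ℂ} (hF : IntS F) : ∫ w, F (π w) ∂P = ∫ ω, F ω ∂sampleLaw := by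
  have h' : MeasurePreserving π P sampleLaw := h
  have hF' : Integrable F sampleLaw := hF
  rw [← h'.map_eq, integral_map h'.measurable.aemeasurable]
  rw [h'.map_eq]
  exact hF'.aestronglyMeasurable

/-- corridor data on a bigger space `Ω` with projection to `Sample`, for all weights which are
functions of the points inside (`m` = σ-algebra of the points inside, on `Sample`) -/
structure Crr (t κ : ℂ) (m : MeasurableSpace Sample) (T D : Sample → ℂ) (e : ℝ) : Prop where
  mT : Measurable[m] T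
  mD : Measurable[m] D
  le : m ≤ amb
  iT : IntS T
  iD : IntS D
  ex : ∀ f : Sample → ℂ, Measurable[m] f → (∀ ω, ‖f ω‖ ≤ 1) →
    ∃ (Ω : Type) (_ : MeasurableSpace Ω) (P : Measure Ω) (π : Ω → Sample),
      Prj P π ∧ Cdat P t κ (fun w => f (π w)) (fun w => T (π w)) (fun w => D (π w)) e

theorem Crr.l1 {t κ : ℂ} {m : MeasurableSpace Sample} {T D : Sample → ℂ} {e : ℝ}
    (h : Crr t κ m T D e) : ∫ ω, ‖t * T ω + κ * D ω‖ ∂sampleLaw ≤ e := by
  refine l1_dual (m := m) ((h.mT.const_mul t).add (h.mD.const_mul κ)) fun f hf hf1 => ?_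
  have hf' : @Measurable _ _ amb _ f := hf.mono h.le le_rfl
  obtain ⟨Ω, mΩ, P, π, hπ, hC⟩ := h.ex f hf hf1
  have h1 := hC.le
  have iT : Integrable (fun ω => f ω * T ω) sampleLaw := PolyAx970.int_fm hf' hf1 h.iT
  have iD : Integrable (fun ω => f ω * D ω) sampleLaw := PolyAx970.int_fm hf' hf1 h.iD
  have e1 : ∫ w, f (π w) * T (π w) ∂P = ∫ ω, f ω * T ω ∂sampleLaw :=
    Prj.int (F := fun ω => f ω * T ω) hπ iT
  have e2 : ∫ w, f (π w) * D (π w) ∂P = ∫ ω, f ω * D ω ∂sampleLaw :=
    Prj.int (F := fun ω => f ω * D ω) hπ iD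
  rw [e1, e2] at h1
  change ‖∫ ω, f ω * (t * T ω + κ * D ω) ∂sampleLaw‖ ≤ e
  have e3 : ∫ ω, f ω * (t * T ω + κ * D ω) ∂sampleLaw =
      t * ∫ ω, f ω * T ω ∂sampleLaw + κ * ∫ ω, f ω * D ω ∂sampleLaw := by
    rw [← integral_const_mul, ← integral_const_mul,
      ← integral_add (iT.const_mul t) (iD.const_mul κ)]
    refine integral_congr_ae (ae_of_all _ fun ω => ?_)
    simp only
    ring
  rw [e3]
  exact h1

/-! ### quantifiers -/

variable {U U' : Type}

/-- **corridor hypothesis**: for every finite set of polygons and every precision, eventually in the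
mesh there is ONE `κ` for all polygons of the set and the three types. (The width `s` of the corridor
is chosen inside: `∀ η, ∃ s, ∀ᶠ ε, ∃ κ = κ (ε, s)`.) -/
def CORH (m : U → ℝ → MeasurableSpace Sample) (T : U → ℝ → Sample → ℂ)
    (D : U → ℝ → Sample → ZMod 3 → ℂ) : Prop :=
  ∀ F : Finset U, ∀ η > 0, ∀ᶠ ε : ℝ in 𝓝[>] 0, ∃ κ : ℂ, ∀ u ∈ F, ∀ k : ZMod 3,
    Crr (omz k ^ 2) κ (m u ε) (T u ε) (fun ω => D u ε ω k) η

theorem rigl_of_cor {m : U → ℝ → MeasurableSpace Sample} {T : U → ℝ → Sample → ℂ}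
    {D : U → ℝ → Sample → ZMod 3 → ℂ} (h : CORH m T D) : RIGL T D := by
  intro F η hη
  filter_upwards [h F η hη] with ε h1
  obtain ⟨κ, hκ⟩ := h1
  refine ⟨-κ, univ, MeasurableSet.univ, by simp, fun u hu k => ?_⟩
  have h2 := hκ u hu k
  have h3 := h2.l1
  have hint : Integrable (fun ω => omz k ^ 2 * T u ε ω - -κ * D u ε ω k) sampleLaw :=
    (h2.iT.const_mul _).sub (h2.iD.const_mul _)
  rw [Measure.restrict_univ]
  refine ⟨hint.aestronglyMeasurable.aemeasurable, ?_⟩
  rw [← ofReal_integral_norm_eq_lintegral_enorm hint]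
  refine ENNReal.ofReal_le_ofReal (le_trans (le_of_eq ?_) h3)
  refine integral_congr_ae (ae_of_all _ fun ω => ?_)
  simp only
  congr 1
  ring

/-- **POLY from the corridor data** -/
theorem poly_of_cor {m : U → ℝ → MeasurableSpace Sample} {T T' : U → ℝ → Sample → ℂ}
    {D : U → ℝ → Sample → ZMod 3 → ℂ} (h : CORH m T D) (hR : RLP T T' D) : POLY T T' :=
  poly_of_l (rigl_of_cor h) hR

/-! ### cut off at good environments -/

/-- cut off -/
def ctf (G : Set Sample) (X : Sample → ℂ) (ω : Sample) : ℂ := if ω ∈ G then X ω else 0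

theorem ctf_near {T : U → ℝ → Sample → ℂ} {G : U → ℝ → Set Sample}
    (hG : ∀ u, ∀ η > 0, ∀ᶠ ε : ℝ in 𝓝[>] 0, sampleLaw (G u ε)ᶜ ≤ ENNReal.ofReal η) (u : U) :
    ∀ η > 0, ∀ᶠ ε : ℝ in 𝓝[>] 0,
      sampleLaw {ω | η < ‖T u ε ω - ctf (G u ε) (T u ε) ω‖} ≤ ENNReal.ofReal η := by
  intro η hη
  filter_upwards [hG u η hη] with ε h1
  refine (measure_mono fun ω hω => ?_).trans h1
  by_contra hcon
  have h2 : ω ∈ G u ε := by simpa using hcon
  simp only [mem_ofPred_eq] at hω
  unfold ctf at hω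
  rw [if_pos h2, sub_self, norm_zero] at hω
  linarith

/-- **POLY from the corridor data of the totals cut off outside of good sets**; on the good sets the
exact relation holds -/
theorem poly_of_corI {m : U → ℝ → MeasurableSpace Sample} {T T' : U → ℝ → Sample → ℂ}
    {D : U → ℝ → Sample → ZMod 3 → ℂ} {G : U → ℝ → Set Sample}
    (hG : ∀ u, ∀ η > 0, ∀ᶠ ε : ℝ in 𝓝[>] 0, sampleLaw (G u ε)ᶜ ≤ ENNReal.ofReal η)
    (hR : ∀ u, ∀ᶠ ε : ℝ in 𝓝[>] 0, ∀ ω ∈ G u ε, Rl (T u ε ω) (T' u ε ω) (D u ε ω))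
    (h : CORH m (fun u ε => ctf (G u ε) (T u ε))
      (fun u ε ω k => ctf (G u ε) (fun ω => D u ε ω k) ω)) : POLY T T' := by
  have h1 : POLY (fun u ε => ctf (G u ε) (T u ε)) (fun u ε => ctf (G u ε) (T' u ε)) := by
    refine poly_of_cor h fun u η hη => ?_
    filter_upwards [hR u] with ε hε
    have h2 : {ω | ¬ Rl (ctf (G u ε) (T u ε) ω) (ctf (G u ε) (T' u ε) ω)
        (fun k => ctf (G u ε) (fun ω => D u ε ω k) ω)} = ∅ := by
      rw [Set.eq_empty_iff_forall_notMem]
      intro ω hω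
      refine hω fun k => ?_
      unfold ctf
      split_ifs with hg
      · exact hε ω hg k
      · simp
    change sampleLaw {ω | ¬ Rl (ctf (G u ε) (T u ε) ω) (ctf (G u ε) (T' u ε) ω)
        (fun k => ctf (G u ε) (fun ω => D u ε ω k) ω)} ≤ _
    rw [h2]
    simp
  exact poly_near h1 (fun u => ctf_near hG u) (fun u => ctf_near hG u)

end Crest.Agent.R143.PolyRx854
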