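import Crest.Agent.R143.Ten_416

/-!
# Row 143 (S0194), BLOCK D: the outer polygon of a Jordan domain, four marked edges (helper416)

Adaptation of helper896's sandwich polygons (R158, `Sp1` .. `Sp7`): the star-shaped set `Sig` is
replaced by the closed domain, the four arcs are arbitrary.

* `St` : the boundary edges at one scale; `St.sprop` : separation property of their parameters
* `target` : boundary edges near a given parameter
* `order4`, `runs4` : cyclic order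
* `poly` : `Tenx416.POLY`
-/

set_option autoImplicit false

noncomputable section

namespace Crest.Agent.R143.Polyx416

open Set Topology Filter Metric
open Crest Crest.ProbabilityR Crest.ProbabilityR.Percolation
open Crest.Agent.R158.Jt785 Crest.Agent.R158.Sp896 Crest.Agent.R158
open Crest.Agent.R143.Cfgx416 Crest.Agent.R143.Tenx416

/-! ### combinatorics of the parameters -/

theorem use {η : ℝ} {L : ℕ} {t : ℕ → ℝ} (hS : SProp η L t) {i j k k' : ℕ} (hij : i < j) (hj : j < L)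
    (hk : k < L) (hk' : k' < L) {n n' m1 m2 : ℤ} {lo hi : ℝ} (h1 : lo ≤ t k + n) (h2 : t k + n ≤ hi)
    (h3 : lo ≤ t k' + n') (h4 : t k' + n' ≤ hi) (a1 : t i + m1 + η ≤ lo) (a2 : hi ≤ t i + m1 + 1 - η)
    (b1 : t j + m2 + η ≤ lo) (b2 : hi ≤ t j + m2 + 1 - η) :
    (i < k ∧ k < j) ↔ (i < k' ∧ k' < j) := by
  refine s_use hS hij hj hk hk' (n' - n) (m1 - n) (m2 - n) (lo - n) (hi - n) ?_ ?_ ?_ ?_ ?_ ?_ ?_ ?_
    <;> push_cast <;> linarith

/-- the edge `p` is near the parameter `x` -/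
def At (η : ℝ) (t : ℕ → ℝ) (p : ℕ) (x : ℝ) : Prop := ∃ n : ℤ, |t p + n - x| < η

theorem At.shift {η : ℝ} {t : ℕ → ℝ} {p : ℕ} {x : ℝ} (h : At η t p x) : At η t p (x + 1) := by
  obtain ⟨n, hn⟩ := h
  refine ⟨n + 1, ?_⟩
  push_cast
  rwa [show t p + ((n : ℝ) + 1) - (x + 1) = t p + n - x by ring]

theorem At.ne {η : ℝ} {t : ℕ → ℝ} {p q : ℕ} {x y : ℝ} (hη : 0 < η) (hp : At η t p x)
    (hq : At η t q y) (h1 : x + 8 * η ≤ y) (h2 : y ≤ x + 1 - 8 * η) : p ≠ q := by
  rintro rfl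
  obtain ⟨n, hn⟩ := hp
  obtain ⟨n', hn'⟩ := hq
  rw [abs_lt] at hn hn'
  have h3 : (0 : ℝ) < ((n' - n : ℤ) : ℝ) := by push_cast; linarith
  have h4 : ((n' - n : ℤ) : ℝ) < 1 := by push_cast; linarith
  have h5 : 0 < n' - n := by exact_mod_cast h3
  have h6 : n' - n < 1 := by exact_mod_cast h4
  omega

/-- two edges in the same gap are on the same side -/
theorem side {η α β : ℝ} {L : ℕ} {t : ℕ → ℝ} (hS : SProp η L t) {p q k k' : ℕ}
    (hαβ : α < β) (hp : At η t p α) (hq : At η t q β) (hpL : p < L) (hqL : q < L)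
    (hk : k < L) (hk' : k' < L) {n n' : ℤ} (h1 : β + 2 * η ≤ t k + n)
    (h2 : t k + n ≤ α + 1 - 2 * η) (h3 : β + 2 * η ≤ t k' + n') (h4 : t k' + n' ≤ α + 1 - 2 * η) :
    (p < q → ((p < k ∧ k < q) ↔ (p < k' ∧ k' < q))) ∧
    (q < p → ((q < k ∧ k < p) ↔ (q < k' ∧ k' < p))) := by
  obtain ⟨m1, hm1⟩ := hp
  obtain ⟨m2, hm2⟩ := hq
  rw [abs_lt] at hm1 hm2
  exact ⟨fun h => use hS h hqL hk hk' h1 h2 h3 h4 (m1 := m1) (m2 := m2) (by linarith) (by linarith)
      (by linarith) (by linarith),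
    fun h => use hS h hpL hk hk' h1 h2 h3 h4 (m1 := m2) (m2 := m1) (by linarith) (by linarith)
      (by linarith) (by linarith)⟩

/-- parameters of the edges of a side -/
def In (η : ℝ) (t : ℕ → ℝ) (k : ℕ) (α β : ℝ) : Prop :=
  ∃ n : ℤ, α - 2 * η ≤ t k + n ∧ t k + n ≤ β + 2 * η

theorem in_of {η α β x : ℝ} {L : ℕ} {t : ℕ → ℝ} (hS : SProp η L t) {p q k w : ℕ}
    (hαβ : α < β) (hp : At η t p α) (hq : At η t q β) (hpL : p < L) (hqL : q < L)
    (hk : k < L) (hw : w < L) (hwx : At η t w x) (hx1 : β + 8 * η ≤ x) (hx2 : x ≤ α + 1 - 8 * η)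
    (hη : 0 < η)
    (hn : (p < q ∧ ¬ ((p < k ∧ k < q) ↔ (p < w ∧ w < q))) ∨
      (q < p ∧ ¬ ((q < k ∧ k < p) ↔ (q < w ∧ w < p)))) : In η t k α β := by
  set n : ℤ := -⌊t k - (α - 2 * η)⌋ with hndef
  have h1 : α - 2 * η ≤ t k + n := by
    have := Int.floor_le (t k - (α - 2 * η))
    rw [hndef]; push_cast; linarith
  have h2 : t k + n < α - 2 * η + 1 := by
    have := Int.lt_floor_add_one (t k - (α - 2 * η))
    rw [hndef]; push_cast; linarith
  refine ⟨n, h1, ?_⟩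
  by_contra hcon
  push Not at hcon
  obtain ⟨n', hn'⟩ := hwx
  rw [abs_lt] at hn'
  obtain ⟨h3, h4⟩ := side hS hαβ hp hq hpL hqL hk hw (n := n) (n' := n') hcon.le (by linarith)
    (by linarith) (by linarith)
  rcases hn with ⟨h5, h6⟩ | ⟨h5, h6⟩
  · exact h6 (h3 h5)
  · exact h6 (h4 h5)

theorem At.in1 {η : ℝ} {t : ℕ → ℝ} {p : ℕ} {α β : ℝ} (hη : 0 < η) (h : At η t p α)
    (hαβ : α < β) : In η t p α β := by
  obtain ⟨n, hn⟩ := h
  rw [abs_lt] at hn
  exact ⟨n, by linarith, by linarith⟩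

theorem At.in2 {η : ℝ} {t : ℕ → ℝ} {p : ℕ} {α β : ℝ} (hη : 0 < η) (h : At η t p β)
    (hαβ : α < β) : In η t p α β := by
  obtain ⟨n, hn⟩ := h
  rw [abs_lt] at hn
  exact ⟨n, by linarith, by linarith⟩

theorem side_at {η α β x y : ℝ} {L : ℕ} {t : ℕ → ℝ} (hη : 0 < η) (hS : SProp η L t)
    {p q k k' : ℕ} (hαβ : α < β) (hp : At η t p α) (hq : At η t q β) (hpL : p < L) (hqL : q < L)
    (hk : k < L) (hk' : k' < L) (hx : At η t k x) (hy : At η t k' y) (h1 : β + 8 * η ≤ x)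
    (h2 : x ≤ α + 1 - 8 * η) (h3 : β + 8 * η ≤ y) (h4 : y ≤ α + 1 - 8 * η) :
    (p < q → ((p < k ∧ k < q) ↔ (p < k' ∧ k' < q))) ∧
    (q < p → ((q < k ∧ k < p) ↔ (q < k' ∧ k' < p))) := by
  obtain ⟨n, hn⟩ := hx
  obtain ⟨n', hn'⟩ := hy
  rw [abs_lt] at hn hn'
  exact side hS hαβ hp hq hpL hqL hk hk' (n := n) (n' := n') (by linarith) (by linarith)
    (by linarith) (by linarith)

/-- the two cyclic orders -/
theorem order4 {η : ℝ} {L b c d : ℕ} {t : ℕ → ℝ} {a0 a1 a2 a3 : ℝ} (hη : 0 < η)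
    (hS : SProp η L t) (g0 : a0 + 8 * η ≤ a1) (g1 : a1 + 8 * η ≤ a2) (g2 : a2 + 8 * η ≤ a3)
    (g3 : a3 + 8 * η ≤ a0 + 1)
    (h0 : At η t 0 a0) (hb : At η t b a1) (hc : At η t c a2) (hd : At η t d a3)
    (hbL : b < L) (hcL : c < L) (hdL : d < L) :
    (0 < b ∧ b < c ∧ c < d) ∨ (0 < d ∧ d < c ∧ c < b) := by
  have h0L : 0 < L := by omega
  have e0b : 0 ≠ b := h0.ne hη hb g0 (by linarith)
  have e0c : 0 ≠ c := h0.ne hη hc (by linarith) (by linarith)
  have e0d : 0 ≠ d := h0.ne hη hd (by linarith) (by linarith)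
  have ebc : b ≠ c := hb.ne hη hc g1 (by linarith)
  have ebd : b ≠ d := hb.ne hη hd (by linarith) (by linarith)
  have ecd : c ≠ d := hc.ne hη hd g2 (by linarith)
  obtain ⟨k1, -⟩ := side_at hη hS (by linarith) h0 hb h0L hbL hcL hdL hc hd g1 (by linarith)
    (by linarith) (by linarith)
  obtain ⟨k2, k2'⟩ := side_at hη hS (by linarith) hb hc hbL hcL hdL h0L hd h0.shift g2 (by linarith)
    (by linarith) (by linarith)
  obtain ⟨k3, k3'⟩ := side_at hη hS (by linarith) hc hd hcL hdL hbL h0L hb.shift h0.shift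
    (by linarith) (by linarith) (by linarith) (by linarith)
  have j1 := k1 (by omega)
  clear k1 hS h0 hb hc hd g0 g1 g2 g3
  rcases lt_or_gt_of_ne ebc with h | h
  · have j2 := k2 h
    rcases lt_or_gt_of_ne ecd with h' | h'
    · exact Or.inl ⟨by omega, h, h'⟩
    · exfalso
      have j3 := k3' h'
      omega
  · have j2 := k2' h
    rcases lt_or_gt_of_ne ecd with h' | h'
    · exfalso
      have j3 := k3 h'
      omega
    · exact Or.inr ⟨by omega, h', h⟩

/-- the edges between the marks -/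
theorem runs4 {η : ℝ} {L b c d : ℕ} {t : ℕ → ℝ} {a0 a1 a2 a3 : ℝ} (hη : 0 < η)
    (hS : SProp η L t) (g0 : a0 + 8 * η ≤ a1) (g1 : a1 + 8 * η ≤ a2) (g2 : a2 + 8 * η ≤ a3)
    (g3 : a3 + 8 * η ≤ a0 + 1)
    (h0 : At η t 0 a0) (hb : At η t b a1) (hc : At η t c a2) (hd : At η t d a3)
    (h0b : 0 < b) (hbc : b < c) (hcd : c < d) (hdL : d < L) :
    (∀ k, k ≤ b → In η t k a0 a1) ∧ (∀ k, b ≤ k → k ≤ c → In η t k a1 a2) ∧
    (∀ k, c ≤ k → k ≤ d → In η t k a2 a3) ∧
    (∀ k, d ≤ k → k < L → In η t k a3 (a0 + 1)) ∧ In η t 0 a3 (a0 + 1) := by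
  have h0L : 0 < L := by omega
  refine ⟨fun k hk => ?_, fun k hk hk' => ?_, fun k hk hk' => ?_, fun k hk hk' => ?_,
    h0.shift.in2 hη (by linarith)⟩
  · rcases Nat.eq_zero_or_pos k with rfl | hk0
    · exact h0.in1 hη (by linarith)
    rcases eq_or_lt_of_le hk with rfl | hk1
    · exact hb.in2 hη (by linarith)
    exact in_of hS (by linarith) h0 hb h0L (by omega) (by omega) (by omega : c < L) hc g1
      (by linarith) hη (Or.inl ⟨h0b, by omega⟩)
  · rcases eq_or_lt_of_le hk with rfl | hk0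
    · exact hb.in1 hη (by linarith)
    rcases eq_or_lt_of_le hk' with rfl | hk1
    · exact hc.in2 hη (by linarith)
    exact in_of hS (by linarith) hb hc (by omega) (by omega) (by omega) hdL hd g2
      (by linarith) hη (Or.inl ⟨hbc, by omega⟩)
  · rcases eq_or_lt_of_le hk with rfl | hk0
    · exact hc.in1 hη (by linarith)
    rcases eq_or_lt_of_le hk' with rfl | hk1
    · exact hd.in2 hη (by linarith)
    exact in_of hS (by linarith) hc hd (by omega) (by omega) (by omega) h0L h0.shift g3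
      (by linarith) hη (Or.inl ⟨hcd, by omega⟩)
  · rcases eq_or_lt_of_le hk with rfl | hk0
    · exact hd.in1 hη (by linarith)
    exact in_of hS (by linarith) hd h0.shift (by omega) (by omega) (by omega) (by omega : b < L)
      hb.shift (by linarith) (by linarith) hη (Or.inr ⟨by omega, by omega⟩)

end Crest.Agent.R143.Polyx416
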