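import Crest.Agent.R143.NetV_346
import Crest.Agent.R143.Ten_416
import Crest.Agent.R143.DicC_831
import Crest.Agent.R158.SpD_331

/-!
# Row 143 (S0194): FROZEN PART 3 : the index type of CONT and POLY (helper478, for 346, 385, 755)

Lattice objects of R158 (`Sp896`): cells = lower left corners `q : V = ℤ × ℤ`, `Cyc F N v` = the
boundary of `F` as one simple closed walk, `F` on its left (counterclockwise).

* `Bd F e` : boundary dart `e = (a, b)` (`F` on the left, complement on the right)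
* `Mk F l N v a0 a1 a2` : `Cyc F N v`, label `0` on `[a0, a1)`, `1` on `[a1, a2)`, `2` on
  `[a2, a0 + N)`
* **`U`** : `n` (unit `s = 2^(-n)`), `F` (finite set of squares, `F` and its complement edge
  connected), `l` (labels of the boundary darts, `0` elsewhere), `mks : ∃ N v a0 a1 a2, Mk ..`
* `u.P = Pg s F` (`Tenx416.Pg`), `u.E i` = union of the closed boundary edges with label `i`,
  **`u.L x`** = label of the nearest boundary edge (ties: least label)
* `u.R` : `P ⊆ closedBall 0 (R - 4)`; `u.sts ε ω` : sites in `closedBall 0 R`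
* **`u.T ε ω = TU (u.sts ε ω) u.P √ε u.L id`**, `u.T'` the same with conj (hole radius `√ε`, it is
  eventually `≥ rad C ε` for every `C`: `rad_le`)
* `exists_u` : a `U` from `F`, `Cyc F N v` and three intervals; `fin_u` : finitely many `u` with
  given `n` and `F ⊆ B`
* `L_le`, `L_eq`, `L_of_near`, `L_meas`
-/

set_option autoImplicit false

noncomputable section

open scoped Classical

namespace Crest.Agent.R143.Polyx478

open Set Filter Topology Metric
open Crest.Agent.R158.Sp896 hiding rad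
open Crest.Agent.R143.Tenx416 (Pg)
open Crest.Agent.R143.NetVx346
open Crest.Agent.R143.PP1x831 (rad)
open Crest.ProbabilityR.Voronoi

/-- boundary dart -/
def Bd (F : Set V) (e : V × V) : Prop := Adj e.1 e.2 ∧ lc e.1 e.2 ∈ F ∧ rc e.1 e.2 ∉ F

/-- three label intervals, counterclockwise -/
structure Mk (F : Set V) (l : V × V → ZMod 3) (N : ℕ) (v : ℕ → V) (a0 a1 a2 : ℕ) : Prop where
  cyc : Cyc F N v
  h01 : a0 < a1
  h12 : a1 < a2
  h20 : a2 < a0 + N
  l0 : ∀ k, a0 ≤ k → k < a1 → l (v k, v (k + 1)) = 0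
  l1 : ∀ k, a1 ≤ k → k < a2 → l (v k, v (k + 1)) = 1
  l2 : ∀ k, a2 ≤ k → k < a0 + N → l (v k, v (k + 1)) = 2

/-- **the index type of CONT and POLY**: labelled lattice polygons of unit `2^(-n)` -/
structure U where
  /-- unit `2^(-n)` -/
  n : ℕ
  /-- squares -/
  F : Finset V
  /-- labels of the boundary darts -/
  l : V × V → ZMod 3
  con : ∀ q ∈ (F : Set V), ∀ q' ∈ (F : Set V), Con (F : Set V) q q'
  con' : ∀ q ∉ (F : Set V), ∀ q' ∉ (F : Set V), Con (F : Set V)ᶜ q q'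
  nf : ∀ e, ¬ Bd (F : Set V) e → l e = 0
  mks : ∃ N v a0 a1 a2, Mk (F : Set V) l N v a0 a1 a2

namespace U

variable (u : U)

/-- the unit -/
def s : ℝ := (1 / 2) ^ u.n

/-- the region -/
def P : Set ℂ := Pg u.s (u.F : Set V)

/-- the boundary edges with label `i` -/
def E (i : ZMod 3) : Set ℂ := ⋃ e ∈ {e : V × V | Bd (u.F : Set V) e ∧ u.l e = i}, ed u.s e.1 e.2

/-- **label of the nearest boundary edge** (ties: least label) -/
def L (x : ℂ) : ZMod 3 :=
  if infDist x (u.E 0) ≤ infDist x (u.E 1) ∧ infDist x (u.E 0) ≤ infDist x (u.E 2) then 0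
  else if infDist x (u.E 1) ≤ infDist x (u.E 2) then 1 else 2

/-- radius of a disc around `0` -/
def R : ℝ := 4 + ∑ q ∈ u.F, u.s * (|(q.1 : ℝ)| + |(q.2 : ℝ)| + 2)

/-- the sites in the disc -/
def sts (ε : ℝ) (ω : Sample) : Finset ℂ :=
  if h : (points ε ω ∩ closedBall 0 u.R).Finite then h.toFinset else ∅

/-- **the total of the labelled polygon** -/
def T (ε : ℝ) (ω : Sample) : ℂ := TU (u.sts ε ω) u.P (√ε) u.L id

/-- **the conjugate total** -/
def T' (ε : ℝ) (ω : Sample) : ℂ := TU (u.sts ε ω) u.P (√ε) u.L (starRingEnd ℂ)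

/-! ### first properties -/

theorem s_pos : 0 < u.s := by unfold s; positivity

theorem s_le : u.s ≤ 1 := by
  unfold s
  exact pow_le_one₀ (by norm_num) (by norm_num)

theorem F_ne : (u.F : Set V).Nonempty := by
  obtain ⟨N, v, a0, a1, a2, h⟩ := u.mks
  exact ⟨_, h.cyc.left 0⟩

/-- the boundary darts are the steps of the walk -/
theorem bd_iff {F : Set V} {N : ℕ} {v : ℕ → V} (h : Cyc F N v) (e : V × V) :
    Bd F e ↔ ∃ k < N, e = (v k, v (k + 1)) := by
  constructor
  · rintro ⟨h1, h2, h3⟩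
    obtain ⟨k, hk, e1, e2⟩ := h.all _ _ h1 h2 h3
    exact ⟨k, hk, by rw [e1, e2]⟩
  · rintro ⟨k, -, rfl⟩
    exact ⟨h.step k, h.left k, h.right k⟩

theorem bd_step {F : Set V} {N : ℕ} {v : ℕ → V} (h : Cyc F N v) (k : ℕ) :
    Bd F (v k, v (k + 1)) := ⟨h.step k, h.left k, h.right k⟩

theorem bd_fin {F : Set V} {N : ℕ} {v : ℕ → V} (h : Cyc F N v) : {e | Bd F e}.Finite := by
  refine ((Finset.range N).finite_toSet.image fun k => (v k, v (k + 1))).subset ?_
  intro e he
  obtain ⟨k, hk, rfl⟩ := (bd_iff h e).1 he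
  exact ⟨k, by simpa using hk, rfl⟩

theorem E_fin (i : ZMod 3) : {e : V × V | Bd (u.F : Set V) e ∧ u.l e = i}.Finite := by
  obtain ⟨N, v, a0, a1, a2, h⟩ := u.mks
  exact (bd_fin h.cyc).subset fun e he => he.1

theorem isCompact_ed (s : ℝ) (a b : V) : IsCompact (ed s a b) := by
  unfold ed
  rw [segment_eq_image_lineMap]
  exact isCompact_Icc.image AffineMap.lineMap_continuous

theorem E_compact (i : ZMod 3) : IsCompact (u.E i) :=
  (u.E_fin i).isCompact_biUnion fun _ _ => isCompact_ed _ _ _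

theorem mem_E {i : ZMod 3} {z : ℂ} : z ∈ u.E i ↔
    ∃ e : V × V, (Bd (u.F : Set V) e ∧ u.l e = i) ∧ z ∈ ed u.s e.1 e.2 := by
  unfold E
  simp only [mem_iUnion, mem_ofPred_eq, exists_prop]

theorem E_of_step {N : ℕ} {v : ℕ → V} (h : Cyc (u.F : Set V) N v) (k : ℕ) :
    ed u.s (v k) (v (k + 1)) ⊆ u.E (u.l (v k, v (k + 1))) := fun _ hz =>
  (mem_E u).2 ⟨(v k, v (k + 1)), ⟨bd_step h k, rfl⟩, hz⟩

theorem E_ne (i : ZMod 3) : (u.E i).Nonempty := by
  obtain ⟨N, v, a0, a1, a2, h⟩ := u.mks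
  have h1 : ∀ k, u.l (v k, v (k + 1)) = i → (u.E i).Nonempty := by
    intro k hk
    refine ⟨pt u.s (v k), ?_⟩
    rw [← hk]
    exact u.E_of_step h.cyc k (left_mem_segment ℝ _ _)
  fin_cases i
  · exact h1 a0 (h.l0 a0 le_rfl h.h01)
  · exact h1 a1 (h.l1 a1 le_rfl h.h12)
  · exact h1 a2 (h.l2 a2 le_rfl h.h20)

/-- every boundary edge has a label -/
theorem ed_sub {e : V × V} (h : Bd (u.F : Set V) e) : ed u.s e.1 e.2 ⊆ u.E (u.l e) := fun _ hz =>
  (mem_E u).2 ⟨e, ⟨h, rfl⟩, hz⟩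

/-- the edges of label `i` in an enumeration with marks -/
theorem E_eq {N : ℕ} {v : ℕ → V} {a0 a1 a2 : ℕ} (h : Mk (u.F : Set V) u.l N v a0 a1 a2) :
    u.E 0 = (⋃ k ∈ Ico a0 a1, ed u.s (v k) (v (k + 1))) ∧
    u.E 1 = (⋃ k ∈ Ico a1 a2, ed u.s (v k) (v (k + 1))) ∧
    u.E 2 = ⋃ k ∈ Ico a2 (a0 + N), ed u.s (v k) (v (k + 1)) := by
  have hper : ∀ k m, v (k + N * m) = v k := by
    intro k m
    induction m with
    | zero => rfl
    | succ m ih => rw [Nat.mul_succ, ← add_assoc, h.cyc.per, ih]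
  have hN : 0 < N := by have := h.cyc.four_le; omega
  have hall : ∀ e, Bd (u.F : Set V) e → ∃ k, a0 ≤ k ∧ k < a0 + N ∧ e = (v k, v (k + 1)) := by
    intro e he
    obtain ⟨k, hk, rfl⟩ := (bd_iff h.cyc e).1 he
    -- the representative of `k` in `[a0, a0 + N)`
    obtain ⟨m, m', e1, h1, h2⟩ : ∃ m m' : ℕ, k + N * m = (k + N * m') + N * (m - m') ∧
        a0 ≤ k + N * m' ∧ k + N * m' < a0 + N := by
      have hex : ∃ m', a0 ≤ k + N * m' := ⟨a0, by nlinarith⟩
      refine ⟨Nat.find hex, Nat.find hex, by simp, Nat.find_spec hex, ?_⟩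
      rcases Nat.eq_zero_or_pos (Nat.find hex) with h0 | h0
      · rw [h0]; omega
      · have := Nat.find_min hex (Nat.sub_lt h0 one_pos)
        obtain ⟨j, hj⟩ : ∃ j, Nat.find hex = j + 1 := ⟨Nat.find hex - 1, by omega⟩
        rw [hj] at this ⊢
        rw [Nat.add_sub_cancel] at this
        rw [Nat.mul_succ]
        omega
    refine ⟨k + N * m', h1, h2, ?_⟩
    rw [hper, show k + N * m' + 1 = (k + 1) + N * m' by ring, hper]
  have hlab : ∀ k, a0 ≤ k → k < a0 + N → (u.l (v k, v (k + 1)) = 0 ↔ k < a1) ∧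
      (u.l (v k, v (k + 1)) = 1 ↔ a1 ≤ k ∧ k < a2) ∧ (u.l (v k, v (k + 1)) = 2 ↔ a2 ≤ k) := by
    intro k h1 h2
    have h3 := h.h01
    have h4 := h.h12
    rcases lt_or_ge k a1 with h5 | h5
    · rw [h.l0 k h1 h5]
      refine ⟨by simp [h5], ?_, ?_⟩
      · constructor
        · intro h6; exact absurd h6 (by decide)
        · intro h6; omega
      · constructor
        · intro h6; exact absurd h6 (by decide)
        · intro h6; omega
    rcases lt_or_ge k a2 with h6 | h6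
    · rw [h.l1 k h5 h6]
      refine ⟨?_, by simp [h5, h6], ?_⟩
      · constructor
        · intro h6; exact absurd h6 (by decide)
        · intro h6; omega
      · constructor
        · intro h6; exact absurd h6 (by decide)
        · intro h6; omega
    · rw [h.l2 k h6 h2]
      refine ⟨?_, ?_, by simp [h6]⟩
      · constructor
        · intro h6; exact absurd h6 (by decide)
        · intro h6; omega
      · constructor
        · intro h6; exact absurd h6 (by decide)
        · intro h6; omega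
  have h3 := h.h01
  have h4 := h.h12
  have h5 := h.h20
  refine ⟨?_, ?_, ?_⟩
  · ext z
    rw [mem_E]
    simp only [mem_iUnion, mem_Ico, exists_prop]
    constructor
    · rintro ⟨e, ⟨he, hl⟩, hz⟩
      obtain ⟨k, h1, h2, rfl⟩ := hall e he
      exact ⟨k, ⟨h1, (hlab k h1 h2).1.1 hl⟩, hz⟩
    · rintro ⟨k, ⟨h1, h2⟩, hz⟩
      exact ⟨_, ⟨bd_step h.cyc k, h.l0 k h1 h2⟩, hz⟩
  · ext z
    rw [mem_E]
    simp only [mem_iUnion, mem_Ico, exists_prop]
    constructor
    · rintro ⟨e, ⟨he, hl⟩, hz⟩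
      obtain ⟨k, h1, h2, rfl⟩ := hall e he
      exact ⟨k, (hlab k h1 h2).2.1.1 hl, hz⟩
    · rintro ⟨k, ⟨h1, h2⟩, hz⟩
      exact ⟨_, ⟨bd_step h.cyc k, h.l1 k h1 h2⟩, hz⟩
  · ext z
    rw [mem_E]
    simp only [mem_iUnion, mem_Ico, exists_prop]
    constructor
    · rintro ⟨e, ⟨he, hl⟩, hz⟩
      obtain ⟨k, h1, h2, rfl⟩ := hall e he
      exact ⟨k, ⟨(hlab k h1 h2).2.2.1 hl, h2⟩, hz⟩
    · rintro ⟨k, ⟨h1, h2⟩, hz⟩
      exact ⟨_, ⟨bd_step h.cyc k, h.l2 k h1 h2⟩, hz⟩

/-! ### the label of the nearest edge -/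

/-- `L x` is the label of a nearest edge -/
theorem L_le (x : ℂ) (j : ZMod 3) : infDist x (u.E (u.L x)) ≤ infDist x (u.E j) := by
  unfold L
  split_ifs with h1 h2
  · fin_cases j
    · exact le_rfl
    · exact h1.1
    · exact h1.2
  · rw [not_and_or, not_le, not_le] at h1
    fin_cases j
    · show infDist x (u.E 1) ≤ infDist x (u.E 0)
      rcases h1 with h1 | h1
      · exact h1.le
      · exact h2.trans h1.le
    · exact le_rfl
    · exact h2
  · rw [not_and_or, not_le, not_le] at h1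
    rw [not_le] at h2
    fin_cases j
    · show infDist x (u.E 2) ≤ infDist x (u.E 0)
      rcases h1 with h1 | h1
      · exact h2.le.trans h1.le
      · exact h1.le
    · exact h2.le
    · exact le_rfl

/-- the label is `i` if the nearest edges all have label `i` -/
theorem L_eq {x : ℂ} {i : ZMod 3} (h : ∀ j, j ≠ i → infDist x (u.E i) < infDist x (u.E j)) :
    u.L x = i := by
  by_contra hne
  exact absurd (u.L_le x i) (not_le.2 (h _ hne))

/-- a point near an edge of label `i` and farther from all the edges with another label -/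
theorem L_of_near {x w : ℂ} {i : ZMod 3} (hw : w ∈ u.E i)
    (h : ∀ j, j ≠ i → ∀ w' ∈ u.E j, ‖x - w‖ < ‖x - w'‖) : u.L x = i := by
  refine u.L_eq fun j hj => ?_
  obtain ⟨w', hw', e⟩ := (u.E_compact j).exists_infDist_eq_dist (u.E_ne j) x
  rw [e, dist_eq_norm]
  refine (infDist_le_dist_of_mem hw).trans_lt ?_
  rw [dist_eq_norm]
  exact h j hj w' hw'

/-- some point of an edge with the label `L x` is nearest to `x` -/
theorem L_ex (x : ℂ) : ∃ w ∈ u.E (u.L x), ∀ j, ∀ w' ∈ u.E j, ‖x - w‖ ≤ ‖x - w'‖ := by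
  obtain ⟨w, hw, e⟩ := (u.E_compact (u.L x)).exists_infDist_eq_dist (u.E_ne _) x
  refine ⟨w, hw, fun j w' hw' => ?_⟩
  rw [← dist_eq_norm, ← dist_eq_norm, ← e]
  exact (u.L_le x j).trans (infDist_le_dist_of_mem hw')

theorem L_meas : Measurable u.L := by
  unfold L
  have h : ∀ i, Measurable fun x => infDist x (u.E i) := fun i =>
    (continuous_infDist_pt (u.E i)).measurable
  refine Measurable.ite ?_ measurable_const (Measurable.ite ?_ measurable_const measurable_const)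
  · exact (measurableSet_le (h 0) (h 1)).inter (measurableSet_le (h 0) (h 2))
  · exact measurableSet_le (h 1) (h 2)

/-! ### the region -/

theorem isCompact_sq (s : ℝ) (q : V) : IsCompact (sq s q) := by
  have h1 : sq s q = (Icc (s * q.1) (s * (q.1 + 1)) ×ℂ Icc (s * q.2) (s * (q.2 + 1))) := by
    ext z
    rw [Complex.mem_reProdIm, mem_Icc, mem_Icc]
    constructor
    · rintro ⟨a1, a2, a3, a4⟩
      exact ⟨⟨a1, a2⟩, a3, a4⟩
    · rintro ⟨⟨a1, a2⟩, a3, a4⟩
      exact ⟨a1, a2, a3, a4⟩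
  rw [h1]
  exact isCompact_Icc.reProdIm isCompact_Icc

theorem P_compact : IsCompact u.P := by
  unfold P Pg
  exact u.F.finite_toSet.isCompact_biUnion fun _ _ => isCompact_sq _ _

theorem mem_P {z : ℂ} : z ∈ u.P ↔ ∃ q ∈ u.F, z ∈ sq u.s q := by
  unfold P Pg
  simp only [mem_iUnion, Finset.mem_coe, exists_prop]

theorem sq_norm {s : ℝ} (hs : 0 ≤ s) {q : V} {z : ℂ} (hz : z ∈ sq s q) :
    ‖z‖ ≤ s * (|(q.1 : ℝ)| + |(q.2 : ℝ)| + 2) := by
  obtain ⟨h1, h2, h3, h4⟩ := hz
  refine (Complex.norm_le_abs_re_add_abs_im z).trans ?_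
  have key : ∀ (x y : ℝ), s * y ≤ x → x ≤ s * (y + 1) → |x| ≤ s * (|y| + 1) := by
    intro x y a1 a2
    rw [abs_le]
    have b1 := neg_abs_le y
    have b2 := le_abs_self y
    constructor
    · nlinarith
    · nlinarith
  have a1 := key _ _ h1 h2
  have a2 := key _ _ h3 h4
  linarith

theorem P_sub : u.P ⊆ closedBall 0 (u.R - 4) := by
  intro z hz
  obtain ⟨q, hq, hz⟩ := u.mem_P.1 hz
  rw [mem_closedBall_zero_iff]
  have h1 := sq_norm u.s_pos.le hz
  have hs := u.s_pos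
  have h2 : u.s * (|(q.1 : ℝ)| + |(q.2 : ℝ)| + 2) ≤
      ∑ q ∈ u.F, u.s * (|(q.1 : ℝ)| + |(q.2 : ℝ)| + 2) :=
    Finset.single_le_sum (f := fun q : V => u.s * (|(q.1 : ℝ)| + |(q.2 : ℝ)| + 2))
      (fun q _ => by positivity) hq
  unfold R
  linarith

theorem R_pos : 4 ≤ u.R := by
  unfold R
  have hs := u.s_pos
  have : 0 ≤ ∑ q ∈ u.F, u.s * (|(q.1 : ℝ)| + |(q.2 : ℝ)| + 2) :=
    Finset.sum_nonneg fun q _ => by positivity
  linarith

/-! ### bounds -/

theorem mem_sts {ε : ℝ} {ω : Sample} {x : ℂ} (h : x ∈ u.sts ε ω) :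
    x ∈ points ε ω ∧ ‖x‖ ≤ u.R := by
  unfold sts at h
  split_ifs at h with hf
  · rw [Set.Finite.mem_toFinset] at h
    exact ⟨h.1, mem_closedBall_zero_iff.1 h.2⟩
  · simp at h

theorem sts_iff {ε : ℝ} {ω : Sample} (hf : (points ε ω ∩ closedBall 0 u.R).Finite) {x : ℂ} :
    x ∈ u.sts ε ω ↔ x ∈ points ε ω ∧ ‖x‖ ≤ u.R := by
  unfold sts
  rw [dif_pos hf, Set.Finite.mem_toFinset, mem_inter_iff, mem_closedBall_zero_iff]

/-- `‖T‖ ≤ 9 R` -/
theorem norm_T (ε : ℝ) (ω : Sample) : ‖u.T ε ω‖ ≤ 9 * u.R :=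
  norm_TU (by linarith [u.R_pos]) fun _ hv => (u.mem_sts hv).2

theorem norm_T' (ε : ℝ) (ω : Sample) : ‖u.T' ε ω‖ ≤ 9 * u.R :=
  norm_TU (by linarith [u.R_pos]) fun v hv => by
    rw [Complex.norm_conj]
    exact (u.mem_sts hv).2

end U

/-- the hole radius `√ε` is eventually larger than every `rad C ε` -/
theorem rad_le (C : ℝ) : ∀ᶠ ε : ℝ in 𝓝[>] 0, rad C ε ≤ √ε := by
  have h1 := (DicCx831.log_small 1).const_mul (C ^ 2)
  rw [mul_zero] at h1
  filter_upwards [h1.eventually (gt_mem_nhds (show (0 : ℝ) < 1 by norm_num)), DicCx831.ev_unit]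
    with ε h2 h3
  rw [Real.rpow_one] at h2
  have h4 : 0 ≤ Real.log (1 / ε) := Real.log_nonneg (by rw [le_div_iff₀ h3.1]; linarith)
  refine Real.le_sqrt_of_sq_le ?_
  unfold rad
  have h5 : (C * ε * √(Real.log (1 / ε))) ^ 2 = ε * (C ^ 2 * (ε * Real.log (1 / ε))) := by
    rw [mul_pow, Real.sq_sqrt h4]
    ring
  rw [h5]
  nlinarith [h3.1]

theorem sqrt_small : Tendsto (fun ε : ℝ => √ε) (𝓝[>] 0) (𝓝 0) := by
  have h := (Real.continuous_sqrt.tendsto 0).mono_left (nhdsWithin_le_nhds (s := Ioi 0))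
  rwa [Real.sqrt_zero] at h

/-! ### existence and finiteness -/

/-- **a `U` from a labelled lattice polygon** -/
theorem exists_u (n : ℕ) {F : Set V} (hF : F.Finite) (con : ∀ q ∈ F, ∀ q' ∈ F, Con F q q')
    (con' : ∀ q ∉ F, ∀ q' ∉ F, Con Fᶜ q q') {N : ℕ} {v : ℕ → V} (hc : Cyc F N v)
    {a0 a1 a2 : ℕ} (h01 : a0 < a1) (h12 : a1 < a2) (h20 : a2 < a0 + N) :
    ∃ u : U, u.n = n ∧ (u.F : Set V) = F ∧ Mk (u.F : Set V) u.l N v a0 a1 a2 := by
  -- representative in `[a0, a0 + N)` of a boundary dart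
  set l : V × V → ZMod 3 := fun e =>
    if ∃ k, a1 ≤ k ∧ k < a2 ∧ e = (v k, v (k + 1)) then 1
    else if ∃ k, a2 ≤ k ∧ k < a0 + N ∧ e = (v k, v (k + 1)) then 2 else 0 with hl
  have hN : 0 < N := by have := hc.four_le; omega
  have hper : ∀ k m, v (k + N * m) = v k := by
    intro k m
    induction m with
    | zero => rfl
    | succ m ih => rw [Nat.mul_succ, ← add_assoc, hc.per, ih]
  have hmod : ∀ k, v (k % N) = v k := fun k => by
    conv_rhs => rw [← Nat.mod_add_div k N]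
    rw [hper]
  have hinj : ∀ j k, v j = v k → j % N = k % N := by
    intro j k h
    refine hc.inj _ (Nat.mod_lt _ hN) _ (Nat.mod_lt _ hN) ?_
    rw [hmod, hmod, h]
  have hinj2 : ∀ j k, a0 ≤ j → j < a0 + N → a0 ≤ k → k < a0 + N → v j = v k → j = k := by
    intro j k h1 h2 h3 h4 h
    have h5 := hinj j k h
    have h6 : (j : ℤ) % N = (k : ℤ) % N := by exact_mod_cast h5
    have h7 : (N : ℤ) ∣ j - k := Int.ModEq.dvd (Int.ModEq.symm h6)
    obtain ⟨c, hcc⟩ := h7
    have hc0 : c = 0 := by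
      by_contra hne
      rcases lt_or_gt_of_ne hne with h8 | h8
      · nlinarith
      · nlinarith
    rw [hc0] at hcc
    omega
  have hM : Mk F l N v a0 a1 a2 := by
    refine ⟨hc, h01, h12, h20, fun k h1 h2 => ?_, fun k h1 h2 => ?_, fun k h1 h2 => ?_⟩
    · rw [hl]
      simp only
      rw [if_neg, if_neg]
      · rintro ⟨j, h3, h4, h5⟩
        have := hinj2 k j h1 (by omega) (by omega) h4 (Prod.ext_iff.1 h5).1
        omega
      · rintro ⟨j, h3, h4, h5⟩
        have := hinj2 k j h1 (by omega) (by omega) (by omega) (Prod.ext_iff.1 h5).1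
        omega
    · rw [hl]
      simp only
      rw [if_pos ⟨k, h1, h2, rfl⟩]
    · rw [hl]
      simp only
      rw [if_neg, if_pos ⟨k, h1, h2, rfl⟩]
      rintro ⟨j, h3, h4, h5⟩
      have := hinj2 k j (by omega) h2 (by omega) (by omega) (Prod.ext_iff.1 h5).1
      omega
  have e0 : (hF.toFinset : Set V) = F := hF.coe_toFinset
  refine ⟨⟨n, hF.toFinset, l, ?_, ?_, ?_, ?_⟩, rfl, e0, ?_⟩
  · rw [e0]; exact con
  · rw [e0]; exact con'
  · rw [e0]
    intro e he
    rw [hl]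
    simp only
    rw [if_neg, if_neg]
    · rintro ⟨j, -, -, rfl⟩
      exact he (U.bd_step hc j)
    · rintro ⟨j, -, -, rfl⟩
      exact he (U.bd_step hc j)
  · rw [e0]; exact ⟨N, v, a0, a1, a2, hM⟩
  · show Mk (hF.toFinset : Set V) l N v a0 a1 a2
    rw [e0]
    exact hM

/-- finitely many polygons of given unit in a given box -/
theorem fin_u (n : ℕ) (B : Finset V) : {u : U | u.n = n ∧ u.F ⊆ B}.Finite := by
  -- darts near the box
  set W : Finset V := B.biUnion fun q => Finset.Icc (q.1 - 3) (q.1 + 3) ×ˢ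
    Finset.Icc (q.2 - 3) (q.2 + 3) with hW
  set D : Finset (V × V) := W ×ˢ W with hD
  have hbd : ∀ (F : Finset V), F ⊆ B → ∀ e, Bd (F : Set V) e → e ∈ D := by
    rintro F hF ⟨⟨a, b⟩, ⟨c, d⟩⟩ ⟨h1, h2, -⟩
    have h3 := hF h2
    rw [hD, Finset.mem_product, hW]
    simp only [Finset.mem_biUnion, Finset.mem_product, Finset.mem_Icc]
    unfold lc at h3
    unfold Adj at h1
    simp only at h1 h3
    refine ⟨⟨_, h3, ?_⟩, ⟨_, h3, ?_⟩⟩
    · simp only
      omega
    · simp only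
      omega
  let f : U → Finset V × ({e // e ∈ D} → ZMod 3) := fun u => (u.F, fun e => u.l e.1)
  have hfin : (((B.powerset : Finset (Finset V)) : Set (Finset V)) ×ˢ
      (univ : Set ({e // e ∈ D} → ZMod 3))).Finite :=
    (Finset.finite_toSet _).prod finite_univ
  refine Set.Finite.of_finite_image (f := f) (hfin.subset ?_) ?_
  · rintro _ ⟨u, hu, rfl⟩
    exact ⟨by simpa using hu.2, mem_univ _⟩
  · rintro ⟨n1, F1, l1, c1, c1', nf1, m1⟩ hu ⟨n2, F2, l2, c2, c2', nf2, m2⟩ hu' h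
    obtain ⟨e1, h1⟩ := hu
    obtain ⟨e2, h2⟩ := hu'
    simp only at e1 e2 h1 h2
    subst e1
    subst e2
    have h3 : F1 = F2 := congrArg Prod.fst h
    subst h3
    have h4 : l1 = l2 := by
      funext e
      by_cases he : Bd (F1 : Set V) e
      · have h5 := congrFun (congrArg Prod.snd h) ⟨e, hbd F1 h1 e he⟩
        exact h5
      · rw [nf1 e he, nf2 e he]
    subst h4
    rfl

end Crest.Agent.R143.Polyx478
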