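import Crest.Agent.R143.VgL_239
import Crest.Agent.R143.SqG_445
import Crest.Agent.R143.C2SD_395

/-!
# Row 143 (S0194), block H, H5 = KAPPA (helper277): the positions of the ring loop

The hypotheses `hz`, `hs` of 690's `RQ.law` / `split` and `hR` of `wk_le` on 239's `ring_all`:
`z := zc hS id`, `w := wl h W o`, `h = 100 η`, `ρ = 2 h`.
* `rr_gz` : the sites of the tile `a` are at distance `≤ 2 h` of the gates `a`, `a + 1`
* `wl_step` : `‖w (l + 1) - w l‖ ≤ h`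
* **`pos_e`**, **`hz_hs`** : `T l ≤ t ≤ T (l + 1)` ⟹ `‖conj (zc (cell (P t))) - w l‖ ≤ 2 h`
* `all_rd` : every state is in a tile; **`pos_all`** : `‖zc (cell (P t)) - zB‖ ≤ L`;
  **`pos_sq`** : for the square `L = K h + 2 h`
* **`ring_pos`** : `ring_all` with the positions
-/

set_option autoImplicit false
set_option linter.all false

noncomputable section

open scoped Classical

namespace Crest.Agent.R143.PosTx277

open MeasureTheory Set
open Crest.ProbabilityR.Voronoi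
open Crest.Agent.R143.B0x346 Crest.Agent.R143.DelGx806 Crest.Agent.R143.DelRx806
  Crest.Agent.R143.JColx54 Crest.Agent.R143.Locx922
open Crest.Agent.R143.Frame1x395 Crest.Agent.R143.Frame2x395 Crest.Agent.R143.Frame3x395
  Crest.Agent.R143.Frame4x395 Crest.Agent.R143.Frame8x395 Crest.Agent.R143.Frame9x395
  Crest.Agent.R143.Frame10x395 Crest.Agent.R143.Frame11x395
open Crest.Agent.R143.Frame5x395 (sd mem_sd th th_spec)
open Crest.Agent.R143.Splx117 Crest.Agent.R143.WLocx713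
open Crest.Agent.R143.PP0x831 Crest.Agent.R143.Poisx304 Crest.Agent.R143.FinMx609
open Crest.Agent.R143.RingDx117 (RD DRing StC StR)
open Crest.Agent.R143.TileRx228 Crest.Agent.R143.PthFx765 Crest.Agent.R143.TplIx204
open Crest.Agent.R143.PathDx503 Crest.Agent.R143.PathGx503 Crest.Agent.R143.RingPx503
  Crest.Agent.R143.RingIx503
open Crest.Agent.R143.DCorGx713 Crest.Agent.R143.DCorFx713
open Crest.Agent.R143.CorHx713 (gA QA sdt yy xx)
open Crest.Agent.R143.Sptx169 Crest.Agent.R143.SpRx169 Crest.Agent.R143.SpVx169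
  Crest.Agent.R143.CorVx169
open Crest.Agent.R143.RingTx263 Crest.Agent.R143.PotPx263 Crest.Agent.R143.Winx355
  Crest.Agent.R143.RWrx355 Crest.Agent.R143.RcTx263
open Crest.Agent.R143.RingXx713.RngH (BT QO)
open Crest.Agent.R143.IndLocx279 Crest.Agent.R143.PWx978 Crest.Agent.R143.Tplx978
open Crest.Agent.R143.Janx304 (ovr)
open Crest.Agent.R143.RingXx713 Crest.Agent.R143.RngNx765 Crest.Agent.R143.CorNx765
open Crest.Agent.R143.FinCx811 Crest.Agent.R143.ColXx829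
open Crest.Agent.R143.Gatex838 (X Y)
open Crest.Agent.R143.CircPx838 (sup)
open Crest.Agent.R143.VgLx239
open scoped ENNReal ComplexConjugate

/-! ### geometry of the tiles -/

section geo

variable {h A B : ℝ} {W : ℤ → ℤ × ℤ} {M : ℕ}

theorem cz_norm {u : ℤ × ℤ} (hu : U4 u) : ‖cz u‖ = 1 := by
  rcases hu with rfl | rfl | rfl | rfl <;>
    · unfold cz
      rw [Complex.norm_def]
      simp [Complex.normSq]

theorem u4_neg {a : ℤ} (hW : ∀ a, U4 (W (a + 1) - W a)) : U4 (W (a - 1) - W a) := by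
  have h1 := hW (a - 1)
  rw [sub_add_cancel] at h1
  unfold U4 at h1 ⊢
  rcases h1 with h1 | h1 | h1 | h1 <;>
  · rw [Prod.ext_iff] at h1
    simp only [Prod.fst_sub, Prod.snd_sub] at h1
    obtain ⟨h1, h2⟩ := h1
    simp only [Prod.ext_iff, Prod.fst_sub, Prod.snd_sub]
    omega

/-- a point of an arm is near its start -/
theorem arm_near {c u s : ℂ} (hu : ‖u‖ = 1) (hA : A ≤ B) (hs : s ∈ Arm A B c u) :
    ‖s - c‖ < A + B := by
  obtain ⟨⟨h1, h2⟩, h3⟩ := hs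
  have h4 : |X c u s| < B := by rw [abs_lt]; exact ⟨by linarith, h2⟩
  have h5 : ‖(s - c) / u‖ = ‖s - c‖ := by rw [norm_div, hu, div_one]
  rw [← h5]
  have h6 := Complex.norm_le_abs_re_add_abs_im ((s - c) / u)
  have h7 : |((s - c) / u).re| < B := h4
  have h8 : |((s - c) / u).im| < A := h3
  linarith

theorem rr_cen (P : FPath M W) (hA : A ≤ B) {a : ℤ} {s : ℂ} (hs : s ∈ RR A B h W a) :
    ‖s - cen h W a‖ < A + B := by
  rcases hs with hs | hs
  · exact arm_near (cz_norm (u4_neg P.step)) hA hs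
  · exact arm_near (cz_norm (P.step a)) hA hs

theorem cz_sub (u v : ℤ × ℤ) : cz u - cz v = cz (u - v) := by
  unfold cz
  apply Complex.ext <;> simp

theorem cen_gz (P : FPath M W) (hh : 0 ≤ h) (a : ℤ) : ‖cen h W a - gz h W a‖ = h / 2 := by
  have e : cen h W a - gz h W a = ((h / 2 : ℝ) : ℂ) * cz (W a - W (a - 1)) := by
    unfold cen gz
    rw [← cz_sub]
    push_cast
    ring
  have h1 := P.step (a - 1)
  rw [sub_add_cancel] at h1
  rw [e, norm_mul, cz_norm h1, mul_one, Complex.norm_real, Real.norm_eq_abs,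
    abs_of_nonneg (by linarith)]

theorem cen_gz' (P : FPath M W) (hh : 0 ≤ h) (a : ℤ) : ‖cen h W a - gz h W (a + 1)‖ = h / 2 := by
  have e : cen h W a - gz h W (a + 1) = ((h / 2 : ℝ) : ℂ) * -cz (W (a + 1) - W a) := by
    unfold cen gz
    rw [← cz_sub, add_sub_cancel_right]
    push_cast
    ring
  rw [e, norm_mul, norm_neg, cz_norm (P.step a), mul_one, Complex.norm_real, Real.norm_eq_abs,
    abs_of_nonneg (by linarith)]

/-- **the sites of a tile are near its second gate** -/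
theorem rr_gz (P : FPath M W) (hh : 0 ≤ h) (hA : A ≤ B) (hB : A + B ≤ 3 / 2 * h) {a : ℤ} {s : ℂ}
    (hs : s ∈ RR A B h W a) : ‖s - gz h W (a + 1)‖ ≤ 2 * h := by
  have h1 := rr_cen P hA hs
  have h2 := cen_gz' P hh a
  have e : s - gz h W (a + 1) = (s - cen h W a) + (cen h W a - gz h W (a + 1)) := by ring
  rw [e]
  refine (norm_add_le _ _).trans ?_
  linarith

/-- and its first gate -/
theorem rr_gz' (P : FPath M W) (hh : 0 ≤ h) (hA : A ≤ B) (hB : A + B ≤ 3 / 2 * h) {a : ℤ} {s : ℂ}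
    (hs : s ∈ RR A B h W a) : ‖s - gz h W a‖ ≤ 2 * h := by
  have h1 := rr_cen P hA hs
  have h2 := cen_gz P hh a
  have e : s - gz h W a = (s - cen h W a) + (cen h W a - gz h W a) := by ring
  rw [e]
  refine (norm_add_le _ _).trans ?_
  linarith

theorem gz_step (P : FPath M W) (hh : 0 ≤ h) (a : ℤ) : ‖gz h W a - gz h W (a + 1)‖ ≤ h := by
  have h1 := cen_gz P hh a
  have h2 := cen_gz' P hh a
  have e : gz h W a - gz h W (a + 1) = -(cen h W a - gz h W a) + (cen h W a - gz h W (a + 1)) := by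
    ring
  rw [e]
  refine (norm_add_le _ _).trans ?_
  rw [norm_neg]
  linarith

/-- **steps of the gate centres** -/
theorem wl_step (P : FPath M W) (hh : 0 ≤ h) (o : ℤ) (l : ℕ) :
    ‖wl h W o (l + 1) - wl h W o l‖ ≤ h := by
  unfold wl
  rw [← map_sub, RCLike.norm_conj]
  have h1 := gz_step P hh (o - ((l + 1 : ℕ) : ℤ))
  rw [show o - ((l + 1 : ℕ) : ℤ) + 1 = o - l by push_cast; ring] at h1
  exact h1

/-- period of the gate centres (`VgLx239.wl_per` without its instance argument) -/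
theorem wl_pr (P : FPath M W) (h : ℝ) (o : ℤ) (l : ℕ) : wl h W o (l + M) = wl h W o l := by
  unfold wl gz
  have h1 := P.per (o - ((l + M : ℕ) : ℤ))
  have h2 := P.per (o - ((l + M : ℕ) : ℤ) - 1)
  rw [show o - ((l + M : ℕ) : ℤ) + M = o - l by push_cast; ring] at h1
  rw [show o - ((l + M : ℕ) : ℤ) - 1 + M = o - l - 1 by push_cast; ring] at h2
  rw [h1, h2]

/-- the square: distance of the sites of the tiles to the centre -/
theorem rr_sc {K : ℕ} (hK : 1 ≤ K) (hh : 0 < h) (hA : 0 < A) (hAB : A ≤ B) (hB : B ≤ h)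
    (v : ℤ × ℤ) {a : ℤ} {s : ℂ} (hs : s ∈ RR A B h (SqGx445.sqV K v) a) :
    ‖s - SqGx445.sc h K v‖ ≤ (K + 2) * h := by
  have h2 := SqGx445.rr_sup hK hh hA hB hs
  have h3 := CircPx838.norm_le_sup (s - SqGx445.sc h K v)
  have h4 := (abs_lt.1 h2).2
  have h5 : A ≤ h := hAB.trans hB
  nlinarith

end geo

/-! ### the states -/

section st

variable {S : Finset ℂ} {hS : GP (S : Set ℂ)} {h A B : ℝ} {W : ℤ → ℤ × ℤ} {M : ℕ}

/-- **the position of a state of a tile** -/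
theorem pos_e (P : FPath M W) (hh : 0 ≤ h) (hA : A ≤ B) (hB : A + B ≤ 3 / 2 * h)
    (hin : ∀ v ∈ S, ∀ a, v ∈ RR A B h W a → ¬ OnHull S v) {o : ℤ} {l : ℕ} {e : D0 S}
    (he : e ∈ RD S (RR A B h W (o - 1 - l))) :
    ‖conj (C2SDx395.zc hS id ((rc0 hS).cell e)) - wl h W o l‖ ≤ 2 * h := by
  obtain ⟨c, hc⟩ := mem_sd.1 e.2
  have hm : e.1.1 ∈ S := (mem_delT.1 hc).1
  have e1 : C2SDx395.zc hS id ((rc0 hS).cell e) = e.1.1 :=
    C2SDx395.zc_eq (z := id) (hin _ hm _ he.1) rfl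
  rw [e1]
  unfold wl
  rw [← map_sub, RCLike.norm_conj]
  have h1 := rr_gz P hh hA hB he.1
  rw [show o - 1 - (l : ℤ) + 1 = o - l by ring] at h1
  exact h1

/-- **the distance to a centre** -/
theorem pos_c {zB : ℂ} {L : ℝ} (hL : ∀ a, ∀ s ∈ RR A B h W a, ‖s - zB‖ ≤ L)
    (hin : ∀ v ∈ S, ∀ a, v ∈ RR A B h W a → ¬ OnHull S v) {a : ℤ} {e : D0 S}
    (he : e ∈ RD S (RR A B h W a)) : ‖C2SDx395.zc hS id ((rc0 hS).cell e) - zB‖ ≤ L := by
  obtain ⟨c, hc⟩ := mem_sd.1 e.2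
  have hm : e.1.1 ∈ S := (mem_delT.1 hc).1
  have e1 : C2SDx395.zc hS id ((rc0 hS).cell e) = e.1.1 :=
    C2SDx395.zc_eq (z := id) (hin _ hm _ he.1) rfl
  rw [e1]
  exact hL a _ he.1

end st

/-! ### the ring -/

section ring

variable {S : Finset ℂ} {hS : GP (S : Set ℂ)} {X : Set (ℂ × Bool)} {U : Set ℂ} {M : ℕ}
  {W : ℤ → ℤ × ℤ} {η d : ℝ}

/-- no hull site in the tiles of the ring -/
theorem tile_inn (eS : sX X = S) (H : RngH X U M W η d) :
    ∀ v ∈ S, ∀ a, v ∈ BT η W a → ¬ OnHull S v := by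
  subst eS
  intro v _ a hv
  have e1 := H.e0
  have e2 := H.d0
  have e3 := H.de
  exact H.cor1.inn (H.cor1.sub_U (by linarith) (by linarith) a hv)

variable {x : D0 S → ZMod 2} {P₀ : D0 S} {T : ℕ → ℕ} {o : ℤ}

/-- **hypotheses `hz`, `hs` of `RQ.law` and `split`**, `ρ = 2 h` -/
theorem hz_hs (eS : sX X = S) (H : RngH X U M W η d)
    (hc : ∀ k i : ℕ, T k ≤ i → i ≤ T (k + 1) →
      NonXx592.P (rc0 hS) x P₀ i ∈ RD S (BT η W (o - 1 - k))) {h : ℝ} (hh : h = 100 * η) :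
    (∀ l t : ℕ, T l ≤ t → t ≤ T (l + 1) →
      ‖conj (C2SDx395.zc hS id ((rc0 hS).cell (NonXx592.P (rc0 hS) x P₀ t))) - wl h W o l‖ ≤
        2 * h) ∧
    ∀ l, ‖wl h W o (l + 1) - wl h W o l‖ ≤ h := by
  subst hh
  have e1 := H.e0
  exact ⟨fun l t h1 h2 => pos_e H.path (by linarith) (by linarith) (by linarith)
    (tile_inn eS H) (hc l t h1 h2), wl_step H.path (by linarith) o⟩

/-- every state is in a tile -/
theorem all_rd {N n : ℕ} {Reg : ℕ → Set (Cs hS)} {s : Cs hS → ZMod 2}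
    (R : RLW (rc0 hS) s P₀ N n T Reg)
    (hc : ∀ k i : ℕ, T k ≤ i → i ≤ T (k + 1) →
      NonXx592.P (rc0 hS) (cfg (rc0 hS) s) P₀ i ∈ RD S (BT η W (o - 1 - k))) (t : ℕ) :
    ∃ k : ℕ, NonXx592.P (rc0 hS) (cfg (rc0 hS) s) P₀ t ∈ RD S (BT η W (o - 1 - k)) := by
  obtain ⟨k, h1, h2⟩ := R.toRL.tile t
  exact ⟨k, hc k t h1 h2.le⟩

/-- **hypothesis `hR` of `wk_le`** : all the states, any start `p` on the loop -/
theorem pos_all (eS : sX X = S) (H : RngH X U M W η d) {N n : ℕ} {Reg : ℕ → Set (Cs hS)}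
    {s : Cs hS → ZMod 2} (R : RLW (rc0 hS) s P₀ N n T Reg)
    (hc : ∀ k i : ℕ, T k ≤ i → i ≤ T (k + 1) →
      NonXx592.P (rc0 hS) (cfg (rc0 hS) s) P₀ i ∈ RD S (BT η W (o - 1 - k))) {zB : ℂ} {L : ℝ}
    (hL : ∀ a, ∀ s ∈ BT η W a, ‖s - zB‖ ≤ L) {p : D0 S} {u : ℕ}
    (hp : p = NonXx592.P (rc0 hS) (cfg (rc0 hS) s) P₀ u) (t : ℕ) :
    ‖C2SDx395.zc hS id ((rc0 hS).cell (NonXx592.P (rc0 hS) (cfg (rc0 hS) s) p t)) - zB‖ ≤ L := by
  obtain ⟨k, hk⟩ := all_rd R hc (t + u)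
  rw [hp, ← NonXx592.P_add]
  exact pos_c hL (tile_inn eS H) hk

/-- the square -/
theorem sq_L {K : ℕ} (hK : 1 ≤ K) (e0 : 0 < η) (v : ℤ × ℤ) : ∀ a,
    ∀ s ∈ BT η (SqGx445.sqV K v) a, ‖s - SqGx445.sc (100 * η) K v‖ ≤ (K + 2) * (100 * η) :=
  fun _ _ hs => rr_sc hK (by linarith) (by linarith) (by linarith) (by linarith) v hs

/-- **`ring_all` with the positions** -/
theorem ring_pos {h3 : 3 ≤ S.card} {s : Cs hS → ZMod 2} (H : RngH (Xc hS h3 s) U M W η d)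
    (o : ℤ) {zB : ℂ} {L : ℝ} (hL : ∀ a, ∀ s ∈ BT η W a, ‖s - zB‖ ≤ L) {h : ℝ}
    (hh : h = 100 * η) :
    ∃ (p : ℤ → D0 S) (T : ℕ → ℕ),
      (∀ a, (p a).1 = (yy η W (Xc hS h3 s) a, xx η W (Xc hS h3 s) a)) ∧
      (∀ a, p (a + M) = p a) ∧
      RQ (rc0 hS) (cfg (rc0 hS) s) (p o) (T M) M T (FR S (QO η W o)) ∧
      RLW (rc0 hS) s (p o) (T M) M T (fun k : ℕ => clR hS (BT η W (o - 1 - k))) ∧
      (∀ k : ℕ, NonXx592.P (rc0 hS) (cfg (rc0 hS) s) (p o) (T k) = p (o - k)) ∧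
      (∀ k i : ℕ, T k ≤ i → i ≤ T (k + 1) →
        NonXx592.P (rc0 hS) (cfg (rc0 hS) s) (p o) i ∈ RD S (BT η W (o - 1 - k))) ∧
      (∀ {ε : ℝ} {T₀ : Tpl ε (Tn × Bool)} {D : DT} [Fintype (ZMod M)] (_ : IsS D η)
        (Hs : Std T₀ D.A' D.B' D.h Prod.fst) {b : Bool} {t : ℕ} {C : ℝ}
        (_ : LawH H.path Hs b (η / 2) o t C) (i j : ℕ), i ≤ j → j ≤ M →
        ‖∑ l ∈ Finset.Ico i j, Vg (rc0 hS) (cfg (rc0 hS) s) (p o) T M (Engx490.nn S)
            (FR S (QO η W o)) l - kap D Hs b (η / 2) * (wl D.h W o j - wl D.h W o i)‖ ^ 2 ≤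
          BO H.path Hs b (η / 2) (o - M) t C (Xc hS h3 s)) ∧
      (∀ k, wl h W o (k + M) = wl h W o k) ∧
      (∀ l t : ℕ, T l ≤ t → t ≤ T (l + 1) → ‖conj (C2SDx395.zc hS id ((rc0 hS).cell
        (NonXx592.P (rc0 hS) (cfg (rc0 hS) s) (p o) t))) - wl h W o l‖ ≤ 2 * h) ∧
      (∀ l, ‖wl h W o (l + 1) - wl h W o l‖ ≤ h) ∧
      ∀ (q : D0 S) (u : ℕ), q = NonXx592.P (rc0 hS) (cfg (rc0 hS) s) (p o) u → ∀ t : ℕ,
        ‖C2SDx395.zc hS id ((rc0 hS).cell (NonXx592.P (rc0 hS) (cfg (rc0 hS) s) q t)) - zB‖ ≤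
          L := by
  obtain ⟨p, T, h1, h2, h4, h5, h6, h7, h8⟩ := ring_all H o
  obtain ⟨h9, h10⟩ := hz_hs (P₀ := p o) sX_Xc H h7 hh
  refine ⟨p, T, h1, h2, h4, h5, h6, h7, ?_, wl_pr H.path h o, h9, h10, fun q u hq t =>
    pos_all sX_Xc H h5 h7 hL hq t⟩
  intro ε T₀ D _ hs Hs b t C LH i j hij hj
  exact h8 hs Hs LH i j hij hj

end ring

end Crest.Agent.R143.PosTx277
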