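import Crest.Agent.R143.PotF_690
import Crest.Agent.R143.Exc6_790

/-!
# Row 143 (S0194), block H, H5 = KAPPA, route 2 (helper690): the split on helper790's `RJ` (box B4)

`M = rc0 hS`, `x = cfg M χ` the real ring at the representative, base state `q`, `χ'` the flipped
colouring, `pk A k μ` the static net of the pattern `k` (`A = AP3 ..`).
* `RQ.law'` : `RQ.law` for every base gate
* `bs` : sum over one block of `χ'`; **`split3`** : `‖κ conj Wk - Vk‖ ≤ ‖bs nn‖ + √(4 B) +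
  ‖κ‖ (2 ρ + 3 h) + √(14 ∑ ‖bs (rst nn F_l)‖²) + √(14 ∑ ‖root chord (rst nn F_l)‖²)`
-/

set_option autoImplicit false
set_option linter.unusedSectionVars false

noncomputable section

open scoped Classical ComplexConjugate

namespace Crest.Agent.R143.PotGx690

open Crest.Agent.R143.Frame1x395 Crest.Agent.R143.Frame2x395 Crest.Agent.R143.Frame3x395
  Crest.Agent.R143.Frame8x395 Crest.Agent.R143.NonXx592 Crest.Agent.R143.Coarsex166
  Crest.Agent.R143.Coarse2x166 Crest.Agent.R143.ChordCx357 Crest.Agent.R143.Chord2x355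
  Crest.Agent.R143.H2x355 Crest.Agent.R143.PotKx263 Crest.Agent.R143.PotPx263
  Crest.Agent.R143.Sptx169 Crest.Agent.R143.PotFx690
open Crest.Agent.R143.Splx117 (gp)
open Crest.Agent.R143.Chordx355 (NO Fo vl gt Lp lc)

section law

variable {D C : Type} {M : CMap D C} {x : D → ZMod 2} {p₀ : D} {m : ℕ}
  {P₀ : D} {N n : ℕ} {T : ℕ → ℕ} {F : ℕ → Set D} {φ : D → ℂ}

theorem t_per (R : RQ M x P₀ N n T F) (a q : ℕ) : T (a + q * n) = T a + q * N := by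
  induction q with
  | zero => simp
  | succ q ih =>
    rw [show a + (q + 1) * n = a + q * n + n by ring, R.per, ih]
    ring

theorem p_per (L : Lp M x P₀ N) (s q : ℕ) : P M x P₀ (s + q * N) = P M x P₀ s := by
  induction q with
  | zero => simp
  | succ q ih =>
    rw [show s + (q + 1) * N = N + (s + q * N) by ring, Nat.add_comm N, P_add]
    have h1 : P M x P₀ N = P₀ := L.per
    rw [h1, ih]

/-- **the potential difference of two cells of an outer arc**, every base gate -/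
theorem RQ.law' (R : RQ M x P₀ N n T F) {μ : ℂ} {w : ℕ → ℂ} {B : ℝ} (hw : ∀ k, w (k + n) = w k)
    (hB : ∀ i j, i ≤ j → j ≤ n →
      ‖∑ k ∈ Finset.Ico i j, Vg M x P₀ T n φ F k - μ * (w j - w i)‖ ^ 2 ≤ B)
    {z : C → ℂ} {ρ h : ℝ} (hz : ∀ l t, T l ≤ t → t ≤ T (l + 1) →
      ‖conj (z (M.cell (P M x P₀ t))) - w l‖ ≤ ρ) (hs : ∀ l, ‖w (l + 1) - w l‖ ≤ h)
    {a s0 s1 i j : ℕ} (h0 : T a ≤ s0) (h1 : s1 ≤ T (a + (n - 1))) (hj : s0 ≤ j)
    (hji : j ≤ i) (hi : i ≤ s1) (hp : p₀ = P M x P₀ s0) (hm : m = s1 - s0 + 1) {c c' : C}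
    (ci : M.cell (P M x P₀ i) = c) (cj : M.cell (P M x P₀ j) = c') :
    ‖pot M x p₀ m φ c - pot M x p₀ m φ c' - μ * conj (z c - z c')‖ ≤
      √(4 * B) + ‖μ‖ * (2 * ρ + 3 * h) + √(7 * ∑ l ∈ Finset.range n,
        ‖pot M x p₀ m (rst φ (F l)) c - pot M x p₀ m (rst φ (F l)) c'‖ ^ 2) := by
  have hn := R.n3
  set q := a / n with hq
  have ea : a = a % n + q * n := (Nat.mod_add_div' a n).symm
  have T1 : T a = T (a % n) + q * N := by conv_lhs => rw [ea]; rw [t_per R]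
  have T2 : T (a + (n - 1)) = T (a % n + (n - 1)) + q * N := by
    conv_lhs => rw [ea, show a % n + q * n + (n - 1) = a % n + (n - 1) + q * n by ring]
    rw [t_per R]
  have sh : ∀ s, q * N ≤ s → P M x P₀ (s - q * N) = P M x P₀ s := by
    intro s hs
    have := p_per R.L (s - q * N) q
    rw [Nat.sub_add_cancel hs] at this
    exact this.symm
  exact RQ.law R hw hB hz hs (a := a % n) (s0 := s0 - q * N) (s1 := s1 - q * N) (i := i - q * N)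
    (j := j - q * N) (Nat.mod_lt a (by omega)).le (by omega) (by omega) (by omega) (by omega)
    (by omega) (by rw [sh s0 (by omega)]; exact hp) (by omega)
    (by rw [sh i (by omega)]; exact ci) (by rw [sh j (by omega)]; exact cj)

end law

/-! ### the pattern of the ring -/

open Crest.Agent.R143.B0x346 Crest.Agent.R143.DelGx806 Crest.Agent.R143.DelRx806
  Crest.Agent.R143.JColx54 Crest.Agent.R143.Frame10x395 Crest.Agent.R143.DefsNx346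
  Crest.Agent.R143.C2SDx395
open Crest.Agent.R143.FinCx811 (Cs rc0)
open Crest.Agent.R143.C2SBx395 (Free Gi Cq Root Rc Pin)
open Crest.Agent.R143.C2SCx395 (pr pr_con pr_cq Far)
open Crest.Agent.R143.Patx828 Crest.Agent.R143.Exc3x790 Crest.Agent.R143.Exc4x790
  Crest.Agent.R143.Exc6x790
open Crest.Agent.R143.S1x828 (Vk Wk pk)

variable {S : Finset ℂ} {hS : GP (S : Set ℂ)} {σ μ χ' : Cs hS → ZMod 2} {p : D0 S} {Np : ℕ}
  {r : ZMod 3 → ℕ} {k j : ZMod 3}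

/-- sum over the block of `u` in the configuration `χ'` -/
def bs (hS : GP (S : Set ℂ)) (χ' : Cs hS → ZMod 2) (u : D0 S) (φ : D0 S → ℂ) : ℂ :=
  ∑ q ∈ blk (rc0 hS) (cfg (rc0 hS) χ') u, φ q

/-- **the split of the root chord of the pattern `k`** (box B4) -/
theorem split3 (X : Rg3 (rc0 hS) σ p Np r)
    (F : Far (AP (rc0 hS) (cfg (rc0 hS) σ) p Np r k) j) {p₀ : D0 S} {ν : ℕ} {Rv : Set (Cs hS)}
    (J : RJ (rc0 hS) (pr (AP (rc0 hS) (cfg (rc0 hS) σ) p Np r k)) (pr_con (X.gi k))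
      (pk (AP (rc0 hS) (cfg (rc0 hS) σ) p Np r k) k μ) χ' (rg (rc0 hS) σ p r k) p₀ ν Rv)
    -- the ring with its regions and the law
    {P₀ : D0 S} {N n : ℕ} {T : ℕ → ℕ} {Fl : ℕ → Set (D0 S)}
    (R : RQ (rc0 hS) (cfg (rc0 hS) σ) P₀ N n T Fl) {κ : ℂ} {w : ℕ → ℂ} {B : ℝ}
    (hw : ∀ k, w (k + n) = w k)
    (hB : ∀ i j, i ≤ j → j ≤ n → ‖∑ k ∈ Finset.Ico i j,
      Vg (rc0 hS) (cfg (rc0 hS) σ) P₀ T n (nn S) Fl k + κ * (w j - w i)‖ ^ 2 ≤ B)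
    {ρ h : ℝ} (hz : ∀ l t, T l ≤ t → t ≤ T (l + 1) →
      ‖conj (zc hS id ((rc0 hS).cell (P (rc0 hS) (cfg (rc0 hS) σ) P₀ t))) - w l‖ ≤ ρ)
    (hs : ∀ l, ‖w (l + 1) - w l‖ ≤ h)
    -- the outer arc
    {a s0 s1 : ℕ} (e0 : T a ≤ s0) (e1 : s1 ≤ T (a + (n - 1)))
    (hp : p₀ = P (rc0 hS) (cfg (rc0 hS) σ) P₀ s0) (hν : ν = s1 - s0 + 1)
    (occ' : cfg (rc0 hS) χ' p₀ = 1)
    (same : ∀ s, s ≤ s1 - s0 →
      P (rc0 hS) (cfg (rc0 hS) χ') p₀ s = P (rc0 hS) (cfg (rc0 hS) σ) P₀ (s0 + s))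
    -- the two end times
    {i j' : ℕ} (hj : s0 ≤ j') (hji : j' ≤ i) (hi : i ≤ s1)
    (ci : (rc0 hS).cell (P (rc0 hS) (cfg (rc0 hS) σ) P₀ i) =
      (rc0 hS).cell ((rc0 hS).rho (uA (X.gi k) k (rg (rc0 hS) σ p r k) μ)))
    (cj : (rc0 hS).cell (P (rc0 hS) (cfg (rc0 hS) σ) P₀ j') =
      (rc0 hS).cell (uB (X.gi k) k (rg (rc0 hS) σ p r k) μ)) :
    ‖κ * conj (Wk hS (AP (rc0 hS) (cfg (rc0 hS) σ) p Np r k) (rg (rc0 hS) σ p r k) k μ) -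
      Vk hS (AP (rc0 hS) (cfg (rc0 hS) σ) p Np r k) (rg (rc0 hS) σ p r k) k μ‖ ≤
      ‖bs hS χ' (uA (X.gi k) k (rg (rc0 hS) σ p r k) μ) (nn S)‖ + √(4 * B) +
      ‖κ‖ * (2 * ρ + 3 * h) +
      √(14 * ∑ l ∈ Finset.range n, ‖bs hS χ' (uA (X.gi k) k (rg (rc0 hS) σ p r k) μ)
        (rst (nn S) (Fl l))‖ ^ 2) +
      √(14 * ∑ l ∈ Finset.range n, ‖∑ q ∈ eb (X.gi k) k (rg (rc0 hS) σ p r k) μ,
        rst (nn S) (Fl l) q‖ ^ 2) := by
  have G := X.gi k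
  set ca := (rc0 hS).cell ((rc0 hS).rho (uA (X.gi k) k (rg (rc0 hS) σ p r k) μ)) with hca
  set cb := (rc0 hS).cell (uB (X.gi k) k (rg (rc0 hS) σ p r k) μ) with hcb
  have occ : cfg (rc0 hS) σ p₀ = 1 := by
    rw [hp]; exact P_occ R.L.ev R.L.occ _
  have sm : ∀ s, s < ν → P (rc0 hS) (cfg (rc0 hS) χ') p₀ s =
      P (rc0 hS) (cfg (rc0 hS) σ) p₀ s := by
    intro s hs
    rw [same s (by omega), hp, ← P_add, add_comm]
  have ps : ∀ (ψ : D0 S → ℂ) c, pot (rc0 hS) (cfg (rc0 hS) χ') p₀ ν ψ c =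
      pot (rc0 hS) (cfg (rc0 hS) σ) p₀ ν ψ c := fun ψ c =>
    pot_same (cfg_isC _) (cfg_isC _) occ occ' sm ψ c
  have L := RQ.law' (φ := nn S) (μ := -κ) R hw (B := B) (by
    intro i j hij hjn
    rw [neg_mul, sub_neg_eq_add]
    exact hB i j hij hjn) (z := zc hS id) hz hs e0 e1 hj hji hi hp hν (c := ca) (c' := cb) ci cj
  rw [norm_neg] at L
  -- the sums
  have C2 : ∀ ψ : D0 S → ℂ, ∑ q ∈ eb (X.gi k) k (rg (rc0 hS) σ p r k) μ, ψ q =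
      bs hS χ' (uA (X.gi k) k (rg (rc0 hS) σ p r k) μ) ψ -
        (pot (rc0 hS) (cfg (rc0 hS) σ) p₀ ν ψ ca - pot (rc0 hS) (cfg (rc0 hS) σ) p₀ ν ψ cb) := by
    intro ψ
    rw [← ps, ← ps]
    exact J.sum ℂ ψ
  -- the local terms
  have hl : √(7 * ∑ l ∈ Finset.range n, ‖pot (rc0 hS) (cfg (rc0 hS) σ) p₀ ν
        (rst (nn S) (Fl l)) ca - pot (rc0 hS) (cfg (rc0 hS) σ) p₀ ν (rst (nn S) (Fl l)) cb‖ ^ 2) ≤
      √(14 * ∑ l ∈ Finset.range n, ‖bs hS χ' (uA (X.gi k) k (rg (rc0 hS) σ p r k) μ)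
        (rst (nn S) (Fl l))‖ ^ 2) +
      √(14 * ∑ l ∈ Finset.range n, ‖∑ q ∈ eb (X.gi k) k (rg (rc0 hS) σ p r k) μ,
        rst (nn S) (Fl l) q‖ ^ 2) := by
    have h1 : 7 * ∑ l ∈ Finset.range n, ‖pot (rc0 hS) (cfg (rc0 hS) σ) p₀ ν
        (rst (nn S) (Fl l)) ca - pot (rc0 hS) (cfg (rc0 hS) σ) p₀ ν (rst (nn S) (Fl l)) cb‖ ^ 2 ≤
        14 * ∑ l ∈ Finset.range n, ‖bs hS χ' (uA (X.gi k) k (rg (rc0 hS) σ p r k) μ)
          (rst (nn S) (Fl l))‖ ^ 2 +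
        14 * ∑ l ∈ Finset.range n, ‖∑ q ∈ eb (X.gi k) k (rg (rc0 hS) σ p r k) μ,
          rst (nn S) (Fl l) q‖ ^ 2 := by
      have h2 : ∀ l ∈ Finset.range n, ‖pot (rc0 hS) (cfg (rc0 hS) σ) p₀ ν
          (rst (nn S) (Fl l)) ca - pot (rc0 hS) (cfg (rc0 hS) σ) p₀ ν (rst (nn S) (Fl l)) cb‖ ^ 2 ≤
          2 * ‖bs hS χ' (uA (X.gi k) k (rg (rc0 hS) σ p r k) μ) (rst (nn S) (Fl l))‖ ^ 2 +
          2 * ‖∑ q ∈ eb (X.gi k) k (rg (rc0 hS) σ p r k) μ, rst (nn S) (Fl l) q‖ ^ 2 := by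
        intro l _
        have e : pot (rc0 hS) (cfg (rc0 hS) σ) p₀ ν (rst (nn S) (Fl l)) ca -
            pot (rc0 hS) (cfg (rc0 hS) σ) p₀ ν (rst (nn S) (Fl l)) cb =
            bs hS χ' (uA (X.gi k) k (rg (rc0 hS) σ p r k) μ) (rst (nn S) (Fl l)) -
            ∑ q ∈ eb (X.gi k) k (rg (rc0 hS) σ p r k) μ, rst (nn S) (Fl l) q := by
          rw [C2]; ring
        rw [e]
        exact nsq_sub _ _
      have h3 := Finset.sum_le_sum h2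
      rw [Finset.sum_add_distrib, ← Finset.mul_sum, ← Finset.mul_sum] at h3
      linarith
    refine (Real.sqrt_le_sqrt h1).trans ?_
    refine Real.sqrt_le_iff.2 ⟨by positivity, ?_⟩
    have a1 : 0 ≤ 14 * ∑ l ∈ Finset.range n, ‖bs hS χ' (uA (X.gi k) k (rg (rc0 hS) σ p r k) μ)
        (rst (nn S) (Fl l))‖ ^ 2 := by positivity
    have a2 : 0 ≤ 14 * ∑ l ∈ Finset.range n, ‖∑ q ∈ eb (X.gi k) k (rg (rc0 hS) σ p r k) μ,
        rst (nn S) (Fl l) q‖ ^ 2 := by positivity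
    nlinarith [Real.sq_sqrt a1, Real.sq_sqrt a2, mul_nonneg (Real.sqrt_nonneg (14 *
      ∑ l ∈ Finset.range n, ‖bs hS χ' (uA (X.gi k) k (rg (rc0 hS) σ p r k) μ)
        (rst (nn S) (Fl l))‖ ^ 2)) (Real.sqrt_nonneg (14 * ∑ l ∈ Finset.range n,
      ‖∑ q ∈ eb (X.gi k) k (rg (rc0 hS) σ p r k) μ, rst (nn S) (Fl l) q‖ ^ 2))]
  have hW := wk_ends (k := k) X F μ
  have hV := vk_sum (k := k) (μ := μ) G (rg (rc0 hS) σ p r k)
  rw [hW, hV, C2, ← hca, ← hcb]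
  set bV := bs hS χ' (uA (X.gi k) k (rg (rc0 hS) σ p r k) μ) (nn S)
  set pa := pot (rc0 hS) (cfg (rc0 hS) σ) p₀ ν (nn S) ca
  set pb := pot (rc0 hS) (cfg (rc0 hS) σ) p₀ ν (nn S) cb
  have e2 : κ * conj (zc hS id ca - zc hS id cb) - (bV - (pa - pb)) =
      -bV + (pa - pb - -κ * conj (zc hS id ca - zc hS id cb)) := by ring
  rw [e2]
  refine (norm_add_le _ _).trans ?_
  rw [norm_neg]
  linarith

end Crest.Agent.R143.PotGx690
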