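import Crest.Agent.R143.Spt3_169
import Crest.Agent.R143.O_355

/-!
# Row 143 (S0194), block H (helper263): the potential of the outer arc in terms of the charges of the ring

355's potential `pot` / `Fo` of the outer arc (states `P p₀ 0, .., P p₀ (b - 1)`) and 117's / 169's block
path charges `KS`, `KP` of a loop with gate times `T`.
* `fo_kp` : `Fo M x p₀ b φ k = KP M x p₀ φ 0 (b - 1) 0 k` (`k < b`)
* `kp_shift` : change of the base point
* `dp_kp` : `pot c - pot c' = KP M x r φ tp tq j i` (`c` touched at the loop time `i`, `c'` at `j ≤ i`)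
* `RegC` : a closed ring loop with gate times `T 0 = 0, .., T n = N` (`CutC`) and regions `F l`, `l < n`:
  a gap of the arc `k` lies in exactly one region, and this region is `k - 1`, `k` or `k + 1` mod `n`
* `VR` : spatial charge of the region `l` of the RING: `∑_k KS (T k) (T (k + 1)) (rst φ (F l))`
  `= ∑_{t ∈ β} rst φ (F l) t` (`vr_blk`), independent of the window and of the base gate
* `RegC.full`, `RegC.off`, **`RegC.dp`** : for an arc `[tp, tq]` which does not meet the last tile: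
  `pot c - pot c' = ∑_{l ∈ Ico (ka + 2) (kb - 1)} VR l + ∑_{l ∈ En n ka kb} (pot_l c - pot_l c')`,
  `pot_l` = potential of the field `rst φ (F l)`, `En` at most 8 regions near the two ends
* **`RegC.cv`** : the same for the value `cv` of a chord; `RegC.cv_sq` : the inequality for the squares
-/

set_option autoImplicit false

noncomputable section

open scoped Classical

namespace Crest.Agent.R143.PotKx263

open Crest.Agent.R143.Frame1x395 Crest.Agent.R143.Frame2x395 Crest.Agent.R143.Frame3x395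
  Crest.Agent.R143.Frame8x395 Crest.Agent.R143.NonXx592
  Crest.Agent.R143.ChordCx357 Crest.Agent.R143.Chord2x355 Crest.Agent.R143.H2x355
  Crest.Agent.R143.Ox355
open Crest.Agent.R143.Splx117 (gp InK Cut CutC KS mono_of arc_of ring_sum ring_blk rho_gp)
open Crest.Agent.R143.Sptx169
open Crest.Agent.R143.Chordx355 (NO Fo vl gt fo_cell)

variable {D C : Type} {M : CMap D C} {x : D → ZMod 2} {r p₀ : D} {b : ℕ}
  {E : Type} {φ : D → E}

/-! ### the potential in 117's language -/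

theorem gap_iff (hx : IsC M ∅ x) (hp : x r = 1) (i : ℕ) :
    Gp M x (gt M x r i) ↔ x (gp M x r i) = 0 := by
  constructor
  · exact fun h => h.1
  · intro h
    exact ⟨h, by rw [show gt M x r i = gp M x r i from rfl, rho_gp]; exact P_occ hx hp i⟩

theorem ink_no {i : ℕ} (hi : i < b - 1) :
    InK M x p₀ 0 (b - 1) i ↔ x (gp M x p₀ i) = 0 ∧ NO (Chordx355.lc M x p₀) b i := by
  constructor
  · intro h
    exact ⟨h.gap, fun u h1 h2 v h3 e => h.sep v u (Nat.zero_le _) h3 h1 (by omega) e.symm⟩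
  · rintro ⟨h1, h2⟩
    exact ⟨Nat.zero_le _, hi, h1, fun j l _ a2 a3 a4 e => h2 l a3 (by omega) j a2 e.symm⟩

/-- **the potential of the outer arc** -/
theorem fo_kp [AddCommMonoid E] (hx : IsC M ∅ x) (hp : x p₀ = 1) {k : ℕ} (hk : k < b) :
    Fo M x p₀ b φ k = KP M x p₀ φ 0 (b - 1) 0 k := by
  unfold Fo KP
  rw [Finset.sum_filter, ← Finset.range_eq_Ico]
  refine Finset.sum_congr rfl fun i hi => ?_
  have hi' := Finset.mem_range.1 hi
  have h1 := ink_no (M := M) (x := x) (p₀ := p₀) (b := b) (i := i) (by omega)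
  by_cases h2 : NO (Chordx355.lc M x p₀) b i
  · rw [if_pos h2]
    unfold vl
    by_cases h3 : x (gp M x p₀ i) = 0
    · rw [if_pos ((gap_iff hx hp i).2 h3), if_pos (h1.2 ⟨h3, h2⟩)]
      rfl
    · rw [if_neg fun h => h3 ((gap_iff hx hp i).1 h), if_neg fun h => h3 (h1.1 h).1]
  · rw [if_neg h2, if_neg fun h => h2 (h1.1 h).2]

theorem ink_shift' {t A B i : ℕ} :
    InK M x (P M x r t) A B i ↔ InK M x r (t + A) (t + B) (t + i) := by
  have e : ∀ j, Splx117.lc M x (P M x r t) j = Splx117.lc M x r (t + j) := by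
    intro j
    unfold Splx117.lc
    rw [← Function.iterate_add_apply, add_comm]
  have eg : gp M x (P M x r t) i = gp M x r (t + i) := by
    unfold gp
    rw [← Function.iterate_add_apply, add_comm]
  constructor
  · intro h
    refine ⟨by have := h.lo; omega, by have := h.hi; omega, by rw [← eg]; exact h.gap, ?_⟩
    intro j l h1 h2 h3 h4
    have := h.sep (j - t) (l - t) (by omega) (by omega) (by omega) (by omega)
    rwa [e, e, show t + (j - t) = j by omega, show t + (l - t) = l by omega] at this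
  · intro h
    refine ⟨by have := h.lo; omega, by have := h.hi; omega, by rw [eg]; exact h.gap, ?_⟩
    intro j l h1 h2 h3 h4
    rw [e, e]
    exact h.sep (t + j) (t + l) (by omega) (by omega) (by omega) (by omega)

/-- change of the base point -/
theorem kp_shift [AddCommMonoid E] {t A B a c : ℕ} :
    KP M x (P M x r t) φ A B a c = KP M x r φ (t + A) (t + B) (t + a) (t + c) := by
  unfold KP
  refine Finset.sum_bij (fun i _ => t + i) ?_ ?_ ?_ ?_
  · intro i hi
    rw [Finset.mem_filter, Finset.mem_Ico] at hi ⊢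
    exact ⟨by omega, ink_shift'.1 hi.2⟩
  · intro i _ j _ h
    omega
  · intro i hi
    rw [Finset.mem_filter, Finset.mem_Ico] at hi
    refine ⟨i - t, ?_, by omega⟩
    rw [Finset.mem_filter, Finset.mem_Ico]
    refine ⟨by omega, ink_shift'.2 ?_⟩
    rw [show t + (i - t) = i by omega]
    exact hi.2
  · intro i _
    congr 1
    unfold gp
    rw [← Function.iterate_add_apply, add_comm]

/-- **the difference of the potential of the outer arc** `[tp, tq]` -/
theorem dp_kp [AddCommGroup E] (hx : IsC M ∅ x) (hr : x r = 1) {tp tq : ℕ} (hpq : tp ≤ tq)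
    (hp : p₀ = P M x r tp) (hb : b = tq - tp + 1) {c c' : C} {i j : ℕ} (hj : tp ≤ j) (hji : j ≤ i)
    (hi : i ≤ tq) (ci : M.cell (P M x r i) = c) (cj : M.cell (P M x r j) = c') :
    pot M x p₀ b φ c - pot M x p₀ b φ c' = KP M x r φ tp tq j i := by
  have h0 : x p₀ = 1 := by rw [hp]; exact P_occ hx hr tp
  have sh : ∀ k, tp ≤ k → P M x p₀ (k - tp) = P M x r k := by
    intro k hk
    rw [hp, ← P_add, Nat.sub_add_cancel hk]
  have e1 : pot M x p₀ b φ c = Fo M x p₀ b φ (i - tp) := by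
    refine pot_eq φ (by omega) ?_
    unfold Chordx355.lc
    rw [sh i (by omega)]
    exact ci
  have e2 : pot M x p₀ b φ c' = Fo M x p₀ b φ (j - tp) := by
    refine pot_eq φ (by omega) ?_
    unfold Chordx355.lc
    rw [sh j hj]
    exact cj
  rw [e1, e2, fo_kp hx h0 (by omega), fo_kp hx h0 (by omega),
    kp_add (a := 0) (c := j - tp) (b := i - tp) (Nat.zero_le _) (by omega), add_sub_cancel_left,
    hp, kp_shift, hb]
  congr 1 <;> omega

/-! ### a closed ring with regions -/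

/-- the regions next to the arc `k` mod `n` -/
def Nr (n k l : ℕ) : Prop := (k ≤ l + 1 ∧ l ≤ k + 1) ∨ (k = 0 ∧ l + 1 = n) ∨ (l = 0 ∧ k + 1 = n)

/-- **a ring loop with gate times and regions** `F l`, `l < n`: every state entered at the time `i`
(dart `gp i`) lies in exactly one region, next to its arc -/
structure RegC (M : CMap D C) (x : D → ZMod 2) (r : D) (N : ℕ) (T : ℕ → ℕ) (n : ℕ)
    (F : ℕ → Set D) : Prop where
  lp : Splx117.Lp M x r N
  n3 : 3 ≤ n
  T0 : T 0 = 0
  Tn : T n = N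
  mono : ∀ k, k < n → T k ≤ T (k + 1)
  cut : CutC M x r T n
  cov : ∀ i, i < N → ∃ l, l < n ∧ gp M x r i ∈ F l
  dis : ∀ i, i < N → ∀ l l', l < n → l' < n → gp M x r i ∈ F l → gp M x r i ∈ F l' → l = l'
  near : ∀ k, k < n → ∀ i, T k ≤ i → i < T (k + 1) → ∀ l, l < n → gp M x r i ∈ F l → Nr n k l

variable {N n : ℕ} {T : ℕ → ℕ} {F : ℕ → Set D}

/-- spatial charge of the region `l` of the ring -/
def VR [AddCommMonoid E] (M : CMap D C) (x : D → ZMod 2) (r : D) (T : ℕ → ℕ) (n : ℕ) (φ : D → E)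
    (F : ℕ → Set D) (l : ℕ) : E := ∑ k ∈ Finset.range n, KS M x r (rst φ (F l)) (T k) (T (k + 1))

/-- **the spatial charge is a sum over the block of the ring** -/
theorem RegC.vr_blk [Fintype D] (R : RegC M x r N T n F) {k0 i0 : ℕ} (hk0 : k0 < n)
    (hi0 : InK M x r (T k0) (T (k0 + 1)) i0) [AddCommMonoid E] (l : ℕ) :
    VR M x r T n φ F l = ∑ t ∈ blk M x (gp M x r i0), rst φ (F l) t :=
  (ring_sum R.lp (by have := R.n3; omega) R.T0 R.Tn R.mono R.cut hk0 hi0 _).symm

theorem RegC.le (R : RegC M x r N T n F) {k l : ℕ} (h1 : k ≤ l) (h2 : l ≤ n) : T k ≤ T l :=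
  mono_of (a := 0) (b := n) (fun k _ hk => R.mono k hk) (Nat.zero_le _) h1 h2

/-- a gap of the tile `k` inside the arc `[tp, tq]` (which does not meet the last tile) -/
theorem RegC.ink (R : RegC M x r N T n F) {tp tq k i : ℕ} (htq : tq ≤ T (n - 1)) (hk : k < n)
    (h1 : tp ≤ T k) (h2 : T (k + 1) ≤ tq) (h3 : T k ≤ i) (h4 : i < T (k + 1)) :
    InK M x r tp tq i ↔ InK M x r (T k) (T (k + 1)) i := by
  have hn := R.n3
  constructor
  · intro h
    exact ⟨h3, h4, h.gap, fun j l a1 a2 a3 a4 => h.sep j l (h1.trans a1) a2 a3 (a4.trans h2)⟩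
  · intro h
    refine ⟨h1.trans h3, h4.trans_le h2, h.gap, ?_⟩
    intro u v a1 a2 a3 a4 e
    -- the tiles of `u` and `v`
    have hk1 : ∃ k1, k1 ≤ k ∧ T k1 ≤ u ∧ u ≤ T (k1 + 1) := by
      rcases Nat.lt_or_ge u (T k) with c | c
      · have hk0 : 0 < k := by
          by_contra hc
          have : k = 0 := by omega
          rw [this, R.T0] at c
          omega
        obtain ⟨k1, -, b2, b3, b4⟩ := arc_of (T := T) (a := 0) (b := k) (u := u) hk0
          (by rw [R.T0]; exact Nat.zero_le _) c.le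
        exact ⟨k1, b2.le, b3, b4⟩
      · exact ⟨k, le_rfl, c, by omega⟩
    have hk2 : ∃ k2, k ≤ k2 ∧ k2 < n - 1 ∧ T k2 ≤ v ∧ v ≤ T (k2 + 1) := by
      have hkn : k < n - 1 := by
        by_contra hc
        have e1 : k = n - 1 := by omega
        have e2 : T (n - 1) ≤ T k := by rw [e1]
        omega
      obtain ⟨k2, b1, b2, b3, b4⟩ := arc_of (T := T) (a := k) (b := n - 1) (u := v) hkn
        (by omega) (a4.trans htq)
      exact ⟨k2, b1, b2, b3, b4⟩
    obtain ⟨k1, c1, c2, c3⟩ := hk1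
    obtain ⟨k2, d1, d2, d3, d4⟩ := hk2
    rcases Nat.lt_or_ge k1 k2 with hlt | hge
    · rcases R.cut k1 k2 hlt (by omega) u v c2 c3 d3 d4 e with ⟨g1, g2⟩ | ⟨-, g1, -⟩
      · rcases Nat.lt_or_ge k1 k with h5 | h5
        · -- `k2 = k`
          have : k2 = k := by omega
          subst this
          exact h.sep (T k2) v le_rfl h3 a3 d4 (g2.symm.trans e)
        · have : k1 = k := by omega
          subst this
          have e5 : Splx117.lc M x r u = Splx117.lc M x r (T (k1 + 1)) := by rw [g2, g1]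
          exact h.sep u (T (k1 + 1)) c2 a2 (by omega) le_rfl e5
      · omega
    · have e6 : k1 = k := by omega
      have e7 : k2 = k := by omega
      subst e6
      subst e7
      exact h.sep u v c2 a2 a3 d4 e

/-- the tile of a time -/
theorem RegC.tile (R : RegC M x r N T n F) {t a c : ℕ} (hac : a < c) (hc : c ≤ n) (h1 : T a ≤ t)
    (h2 : t < T c) : ∃ k, a ≤ k ∧ k < c ∧ T k ≤ t ∧ t < T (k + 1) := by
  induction c with
  | zero => omega
  | succ c ih =>
    rcases Nat.lt_or_ge t (T c) with h3 | h3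
    · rcases Nat.lt_or_ge a c with h4 | h4
      · obtain ⟨k, b1, b2, b3, b4⟩ := ih h4 (by omega) h3
        exact ⟨k, b1, by omega, b3, b4⟩
      · have := R.le (show c ≤ a by omega) (by omega)
        omega
    · exact ⟨c, by omega, by omega, h3, h2⟩

section add

variable [AddCommMonoid E]

theorem RegC.ks_far (R : RegC M x r N T n F) {k l : ℕ} (hk : k < n) (hl : l < n)
    (h : ¬ Nr n k l) : KS M x r (rst φ (F l)) (T k) (T (k + 1)) = 0 := by
  unfold KS
  refine Finset.sum_eq_zero fun i hi => ?_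
  obtain ⟨h0, h1⟩ := Finset.mem_filter.1 hi
  rw [Finset.mem_Ico] at h0
  exact rst_not fun h2 => h (R.near k hk i h0.1 h0.2 l hl h2)

/-- the window of one tile of the arc -/
theorem RegC.kp_tile (R : RegC M x r N T n F) {tp tq k : ℕ} (htq : tq ≤ T (n - 1)) (hk : k < n)
    (h1 : tp ≤ T k) (h2 : T (k + 1) ≤ tq) (ψ : D → E) :
    KP M x r ψ tp tq (T k) (T (k + 1)) = KS M x r ψ (T k) (T (k + 1)) := by
  unfold KP KS
  refine Finset.sum_congr ?_ fun _ _ => rfl
  ext i
  rw [Finset.mem_filter, Finset.mem_filter, Finset.mem_Ico]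
  constructor
  · rintro ⟨h3, h4⟩
    exact ⟨h3, (R.ink htq hk h1 h2 h3.1 h3.2).1 h4⟩
  · rintro ⟨h3, h4⟩
    exact ⟨h3, (R.ink htq hk h1 h2 h3.1 h3.2).2 h4⟩

/-- a piece of the arc which is not next to the region `l` -/
theorem RegC.kp_off (R : RegC M x r N T n F) {tp tq j i l : ℕ} (hi : i ≤ N) (hl : l < n)
    (h : ∀ k, k < n → Nr n k l → i ≤ T k ∨ T (k + 1) ≤ j) :
    KP M x r (rst φ (F l)) tp tq j i = 0 := by
  refine kp_zero fun t h1 h2 _ => rst_not fun h4 => ?_
  obtain ⟨k, -, c2, c3, c4⟩ := R.tile (t := t) (a := 0) (c := n) (by have := R.n3; omega) le_rfl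
    (by rw [R.T0]; exact Nat.zero_le t) (by rw [R.Tn]; omega)
  rcases h k c2 (R.near k c2 t c3 c4 l hl h4) with h5 | h5 <;> omega

/-- **a full region** -/
theorem RegC.full (R : RegC M x r N T n F) {tp tq i j ka kb l : ℕ} (htq : tq ≤ T (n - 1))
    (hj : tp ≤ j) (hi : i ≤ tq) (hka : j ≤ T (ka + 1)) (hkb : T kb ≤ i)
    (hkbn : kb < n) (h1 : ka + 2 ≤ l) (h2 : l + 2 ≤ kb) :
    KP M x r (rst φ (F l)) tp tq j i = VR M x r T n φ F l := by
  have hn := R.n3
  have le := fun {k l : ℕ} (h : k ≤ l) (h' : l ≤ n) => R.le (k := k) (l := l) h h'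
  have hN : T (n - 1) ≤ N := by rw [← R.Tn]; exact le (by omega) le_rfl
  have a1 : j ≤ T (l - 1) := hka.trans (le (by omega) (by omega))
  have a2 : T (l + 2) ≤ i := (le (by omega) (by omega)).trans hkb
  have a3 : T (l - 1) ≤ T l := le (by omega) (by omega)
  have a4 : T l ≤ T (l + 1) := le (by omega) (by omega)
  have a5 : T (l + 1) ≤ T (l + 2) := le (by omega) (by omega)
  have e1 : T (l - 1 + 1) = T l := by congr 1; omega
  -- the ring
  have hV : VR M x r T n φ F l = KS M x r (rst φ (F l)) (T (l - 1)) (T (l - 1 + 1)) +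
      KS M x r (rst φ (F l)) (T l) (T (l + 1)) +
      KS M x r (rst φ (F l)) (T (l + 1)) (T (l + 1 + 1)) := by
    unfold VR
    have hs : ({l - 1, l, l + 1} : Finset ℕ) ⊆ Finset.range n := by
      intro k hk
      simp only [Finset.mem_insert, Finset.mem_singleton] at hk
      rw [Finset.mem_range]
      omega
    have h3 : ∑ k ∈ ({l - 1, l, l + 1} : Finset ℕ), KS M x r (rst φ (F l)) (T k) (T (k + 1)) =
        ∑ k ∈ Finset.range n, KS M x r (rst φ (F l)) (T k) (T (k + 1)) := by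
      refine Finset.sum_subset hs fun k hk hk' => ?_
      rw [Finset.mem_range] at hk
      simp only [Finset.mem_insert, Finset.mem_singleton] at hk'
      refine R.ks_far hk (by omega) ?_
      rintro (h | h | h) <;> omega
    have m1 : l - 1 ∉ ({l, l + 1} : Finset ℕ) := by
      simp only [Finset.mem_insert, Finset.mem_singleton]
      omega
    have m2 : l ∉ ({l + 1} : Finset ℕ) := by
      rw [Finset.mem_singleton]
      omega
    rw [← h3, Finset.sum_insert m1, Finset.sum_insert m2, Finset.sum_singleton]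
    exact (add_assoc _ _ _).symm
  have k1 := R.kp_tile (tp := tp) htq (k := l - 1) (by omega) (by omega) (by omega) (rst φ (F l))
  have k2 := R.kp_tile (tp := tp) htq (k := l) (by omega) (by omega) (by omega) (rst φ (F l))
  have k3 := R.kp_tile (tp := tp) htq (k := l + 1) (by omega) (by omega)
    (show T (l + 2) ≤ tq by omega) (rst φ (F l))
  have o1 : KP M x r (rst φ (F l)) tp tq j (T (l - 1)) = 0 := by
    refine R.kp_off (by omega) (by omega) ?_
    rintro k hk (h | h | h)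
    · left; exact le (by omega) (by omega)
    · omega
    · omega
  have o2 : KP M x r (rst φ (F l)) tp tq (T (l + 2)) i = 0 := by
    refine R.kp_off (by omega) (by omega) ?_
    rintro k hk (h | h | h)
    · right; exact le (by omega) (by omega)
    · omega
    · omega
  have s1 := kp_add (M := M) (x := x) (q := r) (w := rst φ (F l)) (A := tp) (B := tq) (a := j)
    (c := T (l - 1)) (b := i) a1 (by omega)
  have s2 := kp_add (M := M) (x := x) (q := r) (w := rst φ (F l)) (A := tp) (B := tq)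
    (a := T (l - 1)) (c := T l) (b := i) a3 (by omega)
  have s3 := kp_add (M := M) (x := x) (q := r) (w := rst φ (F l)) (A := tp) (B := tq)
    (a := T l) (c := T (l + 1)) (b := i) a4 (by omega)
  have s4 := kp_add (M := M) (x := x) (q := r) (w := rst φ (F l)) (A := tp) (B := tq)
    (a := T (l + 1)) (c := T (l + 2)) (b := i) a5 a2
  rw [e1] at k1
  have k3' : KP M x r (rst φ (F l)) tp tq (T (l + 1)) (T (l + 2)) =
    KS M x r (rst φ (F l)) (T (l + 1)) (T (l + 1 + 1)) := k3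
  rw [s1, o1, zero_add, s2, s3, s4, o2, add_zero, hV, k1, k2, k3', e1]
  exact (add_assoc _ _ _).symm

/-- a region which is not next to the arcs of `[j, i]` -/
theorem RegC.off (R : RegC M x r N T n F) {tp tq i j ka kb l : ℕ} (hi : i ≤ N)
    (hka : T ka ≤ j) (hkan : ka < n) (hkb : i ≤ T (kb + 1)) (hkbn : kb + 1 < n) (hl : l < n)
    (h : l + 1 < ka ∨ kb + 1 < l) (h0 : ¬ (ka = 0 ∧ l + 1 = n)) :
    KP M x r (rst φ (F l)) tp tq j i = 0 := by
  have le := fun {k l : ℕ} (h : k ≤ l) (h' : l ≤ n) => R.le (k := k) (l := l) h h'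
  refine R.kp_off hi hl fun k hk hN => ?_
  rcases hN with g | g | g
  · rcases h with h | h
    · right
      have := le (show k + 1 ≤ ka by omega) (by omega)
      omega
    · left
      have := le (show kb + 1 ≤ k by omega) (by omega)
      omega
  · right
    have := le (show k + 1 ≤ ka by omega) (by omega)
    omega
  · left
    have := le (show kb + 1 ≤ k by omega) (by omega)
    omega

/-- the regions at the two ends -/
def En (n ka kb : ℕ) : Finset ℕ := (Finset.range n).filter fun l =>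
  (ka ≤ l + 1 ∧ l ≤ kb + 1 ∧ ¬ (ka + 2 ≤ l ∧ l + 2 ≤ kb)) ∨ (ka = 0 ∧ l + 1 = n)

theorem card_En {n ka kb : ℕ} : (En n ka kb).card ≤ 7 := by
  have h : En n ka kb ⊆ Finset.Icc (ka - 1) (ka + 1) ∪ Finset.Icc (kb - 1) (kb + 1) ∪ {n - 1} := by
    intro l hl
    have := (Finset.mem_filter.1 hl).2
    simp only [Finset.mem_union, Finset.mem_Icc, Finset.mem_singleton]
    omega
  have h1 := Finset.card_le_card h
  have h2 := Finset.card_union_le (Finset.Icc (ka - 1) (ka + 1) ∪ Finset.Icc (kb - 1) (kb + 1))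
    ({n - 1} : Finset ℕ)
  have h3 := Finset.card_union_le (Finset.Icc (ka - 1) (ka + 1)) (Finset.Icc (kb - 1) (kb + 1))
  rw [Nat.card_Icc, Nat.card_Icc] at h3
  rw [Finset.card_singleton] at h2
  omega

/-- **splitting of a piece of the arc** -/
theorem RegC.split (R : RegC M x r N T n F) {tp tq i j ka kb : ℕ} (htq : tq ≤ T (n - 1))
    (hj : tp ≤ j) (hi : i ≤ tq) (hka : T ka ≤ j) (hka' : j ≤ T (ka + 1))
    (hkan : ka < n) (hkb : T kb ≤ i) (hkb' : i ≤ T (kb + 1)) (hkbn : kb + 1 < n) :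
    KP M x r φ tp tq j i = ∑ l ∈ Finset.Ico (ka + 2) (kb - 1), VR M x r T n φ F l +
      ∑ l ∈ En n ka kb, KP M x r (rst φ (F l)) tp tq j i := by
  have hn := R.n3
  have hN : T (n - 1) ≤ N := by rw [← R.Tn]; exact R.le (by omega) le_rfl
  have e1 : KP M x r φ tp tq j i =
      ∑ l ∈ Finset.range n, KP M x r (rst φ (F l)) tp tq j i := by
    rw [← kp_sum]
    refine kp_congr fun t h1 h2 _ => ?_
    obtain ⟨l, hl, hl'⟩ := R.cov t (by omega)
    symm
    rw [Finset.sum_eq_single l]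
    · exact rst_of hl'
    · intro l' hl'' hne
      exact rst_not fun h => hne (R.dis t (by omega) l' l (Finset.mem_range.1 hl'') hl h hl')
    · intro h
      exact absurd (Finset.mem_range.2 hl) h
  have e2 : ∑ l ∈ Finset.Ico (ka + 2) (kb - 1), VR M x r T n φ F l =
      ∑ l ∈ Finset.Ico (ka + 2) (kb - 1), KP M x r (rst φ (F l)) tp tq j i := by
    refine Finset.sum_congr rfl fun l hl => ?_
    rw [Finset.mem_Ico] at hl
    exact (R.full htq hj hi hka' hkb (by omega) hl.1 (by omega)).symm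
  rw [e1, e2, ← Finset.sum_union]
  · symm
    refine Finset.sum_subset (fun l hl => ?_) fun l hl hl' => ?_
    · rcases Finset.mem_union.1 hl with h | h
      · rw [Finset.mem_Ico] at h
        exact Finset.mem_range.2 (by omega)
      · exact (Finset.mem_filter.1 h).1
    · have hln := Finset.mem_range.1 hl
      rw [Finset.mem_union, Finset.mem_Ico, En, Finset.mem_filter] at hl'
      refine R.off (by omega) hka hkan hkb' hkbn hln ?_ ?_
      · by_contra hc
        apply hl'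
        by_cases h4 : ka + 2 ≤ l ∧ l + 2 ≤ kb
        · left; omega
        · right
          exact ⟨hl, Or.inl ⟨by omega, by omega, h4⟩⟩
      · intro h4
        exact hl' (Or.inr ⟨hl, Or.inr h4⟩)
  · rw [Finset.disjoint_left]
    intro l hl hl'
    rw [Finset.mem_Ico] at hl
    rw [En, Finset.mem_filter] at hl'
    omega

end add

section grp

variable [AddCommGroup E]

/-- **the difference of the potential** -/
theorem RegC.dp (R : RegC M x r N T n F) {tp tq i j ka kb : ℕ} (hx : IsC M ∅ x) (hr : x r = 1)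
    (hp : p₀ = P M x r tp) (hb : b = tq - tp + 1) (htq : tq ≤ T (n - 1))
    (hj : tp ≤ j) (hji : j ≤ i) (hi : i ≤ tq) (hka : T ka ≤ j) (hka' : j ≤ T (ka + 1))
    (hkan : ka < n) (hkb : T kb ≤ i) (hkb' : i ≤ T (kb + 1)) (hkbn : kb + 1 < n) {c c' : C}
    (ci : M.cell (P M x r i) = c) (cj : M.cell (P M x r j) = c') :
    pot M x p₀ b φ c - pot M x p₀ b φ c' =
      ∑ l ∈ Finset.Ico (ka + 2) (kb - 1), VR M x r T n φ F l +
      ∑ l ∈ En n ka kb, (pot M x p₀ b (rst φ (F l)) c - pot M x p₀ b (rst φ (F l)) c') := by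
  rw [dp_kp hx hr (by omega) hp hb hj hji hi ci cj,
    R.split htq hj hi hka hka' hkan hkb hkb' hkbn]
  congr 1
  refine Finset.sum_congr rfl fun l _ => ?_
  rw [dp_kp hx hr (by omega) hp hb hj hji hi ci cj]

end grp

/-- **the value of a chord** -/
theorem RegC.cv [Fintype D] (R : RegC M x r N T n F) {φ : D → ℂ} {tp tq i j ka kb : ℕ}
    (hx : IsC M ∅ x) (hr : x r = 1)
    (hp : p₀ = P M x r tp) (hb : b = tq - tp + 1) (htq : tq ≤ T (n - 1))
    (hj : tp ≤ j) (hji : j ≤ i) (hi : i ≤ tq) (hka : T ka ≤ j) (hka' : j ≤ T (ka + 1))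
    (hkan : ka < n) (hkb : T kb ≤ i) (hkb' : i ≤ T (kb + 1)) (hkbn : kb + 1 < n) {k : D} {m : ℕ}
    (ci : M.cell (P M x r i) = M.cell (M.rho k))
    (cj : M.cell (P M x r j) = M.cell (P M x (M.rho k) m)) :
    Chord2x355.cv M x p₀ b φ k m = ∑ h ∈ cset M (P M x (M.rho k)) 0 m, φ h +
      ∑ l ∈ Finset.Ico (ka + 2) (kb - 1), VR M x r T n φ F l +
      ∑ l ∈ En n ka kb, (Chord2x355.cv M x p₀ b (rst φ (F l)) k m -
        ∑ h ∈ cset M (P M x (M.rho k)) 0 m, rst φ (F l) h) := by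
  have h1 := R.dp (φ := φ) hx hr hp hb htq hj hji hi hka hka' hkan hkb hkb' hkbn ci cj
  have h2 : ∀ ψ : D → ℂ, Chord2x355.cv M x p₀ b ψ k m =
      ∑ h ∈ cset M (P M x (M.rho k)) 0 m, ψ h +
        (pot M x p₀ b ψ (M.cell (M.rho k)) - pot M x p₀ b ψ (M.cell (P M x (M.rho k) m))) :=
    fun _ => rfl
  rw [h2 φ, h1, add_assoc]
  congr 2
  refine Finset.sum_congr rfl fun l _ => ?_
  rw [h2 (rst φ (F l)), add_sub_cancel_left]

/-- square of a sum with at most `7` terms -/
theorem sq_seven {s : Finset ℕ} (hs : s.card ≤ 7) (f : ℕ → ℂ) :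
    ‖∑ l ∈ s, f l‖ ^ 2 ≤ 7 * ∑ l ∈ s, ‖f l‖ ^ 2 := by
  have h1 : ‖∑ l ∈ s, f l‖ ≤ ∑ l ∈ s, ‖f l‖ := norm_sum_le _ _
  have h2 : (∑ l ∈ s, ‖f l‖) ^ 2 ≤ s.card * ∑ l ∈ s, ‖f l‖ ^ 2 := sq_sum_le_card_mul_sum_sq
  have h4 : (0 : ℝ) ≤ ∑ l ∈ s, ‖f l‖ ^ 2 := Finset.sum_nonneg fun _ _ => by positivity
  have h5 : (s.card : ℝ) ≤ 7 := by exact_mod_cast hs
  calc ‖∑ l ∈ s, f l‖ ^ 2 ≤ (∑ l ∈ s, ‖f l‖) ^ 2 := pow_le_pow_left₀ (norm_nonneg _) h1 2
    _ ≤ s.card * ∑ l ∈ s, ‖f l‖ ^ 2 := h2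
    _ ≤ 7 * ∑ l ∈ s, ‖f l‖ ^ 2 := mul_le_mul_of_nonneg_right h5 h4

theorem nsq_add (u v : ℂ) : ‖u + v‖ ^ 2 ≤ 2 * ‖u‖ ^ 2 + 2 * ‖v‖ ^ 2 := by
  have h1 := norm_add_le u v
  nlinarith [sq_nonneg (‖u‖ - ‖v‖), norm_nonneg u, norm_nonneg v, norm_nonneg (u + v)]

theorem nsq_sub (u v : ℂ) : ‖u - v‖ ^ 2 ≤ 2 * ‖u‖ ^ 2 + 2 * ‖v‖ ^ 2 := by
  have := nsq_add u (-v)
  rwa [← sub_eq_add_neg, norm_neg] at this

/-- **chord sum + full spatial charges: the inequality of the squares** -/
theorem RegC.cv_sq [Fintype D] (R : RegC M x r N T n F) {φ : D → ℂ} {tp tq i j ka kb : ℕ}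
    (hx : IsC M ∅ x) (hr : x r = 1)
    (hp : p₀ = P M x r tp) (hb : b = tq - tp + 1) (htq : tq ≤ T (n - 1))
    (hj : tp ≤ j) (hji : j ≤ i) (hi : i ≤ tq) (hka : T ka ≤ j) (hka' : j ≤ T (ka + 1))
    (hkan : ka < n) (hkb : T kb ≤ i) (hkb' : i ≤ T (kb + 1)) (hkbn : kb + 1 < n) {k : D} {m : ℕ}
    (ci : M.cell (P M x r i) = M.cell (M.rho k))
    (cj : M.cell (P M x r j) = M.cell (P M x (M.rho k) m)) :
    ‖∑ h ∈ cset M (P M x (M.rho k)) 0 m, φ h +
      ∑ l ∈ Finset.Ico (ka + 2) (kb - 1), VR M x r T n φ F l‖ ^ 2 ≤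
      2 * ‖Chord2x355.cv M x p₀ b φ k m‖ ^ 2 +
      28 * ∑ l ∈ En n ka kb, (‖Chord2x355.cv M x p₀ b (rst φ (F l)) k m‖ ^ 2 +
        ‖∑ h ∈ cset M (P M x (M.rho k)) 0 m, rst φ (F l) h‖ ^ 2) := by
  have h1 := R.cv (φ := φ) hx hr hp hb htq hj hji hi hka hka' hkan hkb hkb' hkbn ci cj
  set A := ∑ h ∈ cset M (P M x (M.rho k)) 0 m, φ h +
      ∑ l ∈ Finset.Ico (ka + 2) (kb - 1), VR M x r T n φ F l with hA
  set B := ∑ l ∈ En n ka kb, (Chord2x355.cv M x p₀ b (rst φ (F l)) k m -
        ∑ h ∈ cset M (P M x (M.rho k)) 0 m, rst φ (F l) h) with hB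
  have h2 : A = Chord2x355.cv M x p₀ b φ k m - B := by rw [h1, add_sub_cancel_right]
  have h3 := nsq_sub (Chord2x355.cv M x p₀ b φ k m) B
  rw [← h2] at h3
  have h4 : ‖B‖ ^ 2 ≤ 7 * ∑ l ∈ En n ka kb, ‖Chord2x355.cv M x p₀ b (rst φ (F l)) k m -
        ∑ h ∈ cset M (P M x (M.rho k)) 0 m, rst φ (F l) h‖ ^ 2 := sq_seven card_En _
  have h5 : ∑ l ∈ En n ka kb, ‖Chord2x355.cv M x p₀ b (rst φ (F l)) k m -
        ∑ h ∈ cset M (P M x (M.rho k)) 0 m, rst φ (F l) h‖ ^ 2 ≤
      2 * ∑ l ∈ En n ka kb, (‖Chord2x355.cv M x p₀ b (rst φ (F l)) k m‖ ^ 2 +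
        ‖∑ h ∈ cset M (P M x (M.rho k)) 0 m, rst φ (F l) h‖ ^ 2) := by
    rw [Finset.mul_sum]
    refine Finset.sum_le_sum fun l _ => ?_
    have := nsq_sub (Chord2x355.cv M x p₀ b (rst φ (F l)) k m)
      (∑ h ∈ cset M (P M x (M.rho k)) 0 m, rst φ (F l) h)
    linarith
  linarith

end Crest.Agent.R143.PotKx263
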