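import Crest.Agent.R143.Jan_304

/-!
# Row 143 (S0194): independent copies of the coloured Poisson configuration (helper609)

* `FMe F` : `F` of `n` points is measurable, any codomain (`FM` of `Pois_304` / `FinMeas`)
* `FRS.inter`, `FRS.measE`, `FMe.inter`
* `frs_cfg` : `cfg ε ω ∩ ovr B` is a finite random set for `B` Borel and bounded
* `law1` : `∫⁻ G (cfg ε ω ∩ ovr B) = J (muB ε B) G`
* `copies` : for disjoint bounded Borel sets `B i` (`i` in a finite type), the configuration in
  `⋃ i, B i` has the law of the union of the pieces `cfg ε (w i) ∩ ovr (B i)` of INDEPENDENT samples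
  `w i`: `∫⁻ ω, G (cfg ε ω ∩ ovr (⋃ B i)) = ∫⁻ w, G (⋃ i, cfg ε (w i) ∩ ovr (B i)) ∂(pi sampleLaw)`
* `copies_fun` : the same for functions of the family of pieces
* `indep` : two disjoint sets, product form
-/

set_option autoImplicit false
set_option linter.unusedSectionVars false

noncomputable section

namespace Crest.Agent.R143.Prodx609

open MeasureTheory Set Filter Topology
open Crest.ProbabilityR.Voronoi
open Crest.Agent.R143.PP0x831 Crest.Agent.R143.Poisx304 Crest.Agent.R143.Janx304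
open scoped ENNReal Nat

instance : IsProbabilityMeasure sampleLaw := by
  rw [sampleLaw]; infer_instance

section general

variable {E : Type*} [MeasurableSpace E] {X Y : Type*} [MeasurableSpace X] [MeasurableSpace Y]
  {C : Type*} [MeasurableSpace C]

/-- `F` of `n` points is a measurable function of the points -/
def FMe (F : Set E → C) : Prop := ∀ n : ℕ, Measurable fun z : Fin n → E => F (range z)

theorem FRS.measE {S : X → Set E} (hS : FRS S) {F : Set E → C} (hF : FMe F) :
    Measurable fun x => F (S x) := by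
  obtain ⟨n, y, hn, hy, h⟩ := hS
  have H : Measurable fun q : ℕ × X => F ((fun j => y j q.2) '' {j | j < q.1}) := by
    refine measurable_from_prod_countable_right fun m => ?_
    simp only [image_lt]
    exact (hF m).comp (measurable_pi_iff.2 fun i => hy i)
  simp only [h]
  exact H.comp (hn.prodMk measurable_id)

open Classical in
theorem frs_inter {S : X → Set E} (hS : FRS S) {A : Set E} (hA : MeasurableSet A) :
    FRS fun x => S x ∩ A := by
  obtain ⟨n, y, hn, hy, h⟩ := hS
  -- the first good index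
  have hyu : Measurable fun q : ℕ × X => y q.1 q.2 :=
    measurable_from_prod_countable_right fun m => hy m
  let g : X → Prop := fun x => ∃ k, k < n x ∧ y k x ∈ A
  have hgk : ∀ k, MeasurableSet {x | k < n x ∧ y k x ∈ A} := fun k =>
    (measurableSet_lt measurable_const hn).inter ((hy k) hA)
  have hg : MeasurableSet {x | g x} := by
    have : {x | g x} = ⋃ k, {x | k < n x ∧ y k x ∈ A} := by
      ext x; simp [g]
    rw [this]
    exact MeasurableSet.iUnion hgk
  let f : X → ℕ := fun x => if hx : g x then Nat.find hx else 0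
  have hf : Measurable f := by
    refine measurable_to_countable' fun m => ?_
    have : f ⁻¹' {m} = ({x | g x} ∩ {x | (m < n x ∧ y m x ∈ A)} ∩
        ⋂ k ∈ Finset.range m, {x | k < n x ∧ y k x ∈ A}ᶜ) ∪ ({x | g x}ᶜ ∩ {x | m = 0}) := by
      ext x
      simp only [mem_preimage, mem_singleton_iff, f]
      by_cases hx : g x
      · simp only [hx, dif_pos, mem_union, mem_inter_iff, mem_ofPred_eq, true_and,
          mem_iInter, mem_compl_iff, not_true, false_and, or_false, Finset.mem_range]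
        rw [Nat.find_eq_iff]
      · simp only [hx, mem_union, mem_inter_iff, mem_ofPred_eq, false_and,
          mem_compl_iff, not_false_iff, true_and, false_or]
        simp only [dite_false]
        exact eq_comm
    rw [this]
    refine ((hg.inter (hgk m)).inter ?_).union (hg.compl.inter (MeasurableSet.const _))
    exact Finset.measurableSet_biInter _ fun k _ => (hgk k).compl
  refine ⟨fun x => if g x then n x else 0, fun j x => if y j x ∈ A then y j x else y (f x) x,
    ?_, ?_, ?_⟩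
  · exact Measurable.ite hg hn measurable_const
  · intro j
    exact Measurable.ite ((hy j) hA) (hy j) (hyu.comp (hf.prodMk measurable_id))
  · intro x
    by_cases hx : g x
    · have hfx : f x = Nat.find hx := by simp only [f, dif_pos hx]
      have hsp := Nat.find_spec hx
      rw [← hfx] at hsp
      simp only [if_pos hx]
      ext e
      simp only [mem_inter_iff, mem_image, mem_ofPred_eq]
      rw [h x]
      constructor
      · rintro ⟨⟨j, hj, rfl⟩, he⟩
        exact ⟨j, hj, by rw [if_pos he]⟩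
      · rintro ⟨j, hj, he⟩
        by_cases hj' : y j x ∈ A
        · rw [if_pos hj'] at he
          rw [← he]
          exact ⟨⟨j, hj, rfl⟩, hj'⟩
        · rw [if_neg hj'] at he
          rw [← he]
          exact ⟨⟨f x, hsp.1, rfl⟩, hsp.2⟩
    · simp only [if_neg hx, Nat.not_lt_zero]
      ext e
      simp only [mem_inter_iff, mem_image, mem_ofPred_eq]
      rw [h x]
      constructor
      · rintro ⟨⟨j, hj, rfl⟩, he⟩
        exact absurd ⟨j, hj, he⟩ hx
      · rintro ⟨j, hj, -⟩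
        exact absurd hj (by simp)

theorem frs_range [Nonempty E] (n : ℕ) : FRS fun z : Fin n → E => range z := by
  rcases n with _ | n
  · have : (fun z : Fin 0 → E => range z) = fun _ => ∅ := by
      funext z; exact range_eq_empty z
    rw [this]
    exact FRS.empty
  · refine ⟨fun _ => n + 1, fun j z => z (Fin.ofNat (n + 1) j), measurable_const, fun j =>
      measurable_pi_apply _, fun z => ?_⟩
    ext e
    simp only [mem_range, mem_image, mem_ofPred_eq]
    constructor
    · rintro ⟨i, rfl⟩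
      exact ⟨i, i.2, by simp⟩
    · rintro ⟨j, -, rfl⟩
      exact ⟨_, rfl⟩

theorem FMe.inter [Nonempty E] {F : Set E → C} (hF : FMe F) {A : Set E} (hA : MeasurableSet A) :
    FMe fun S => F (S ∩ A) := fun n =>
  FRS.measE (frs_inter (frs_range n) hA) hF

end general

/-! ### the configuration in a bounded Borel set -/

theorem meas_ovr {B : Set ℂ} (hB : MeasurableSet B) : MeasurableSet (ovr B) := by
  rw [ovr_eq]; exact hB.prod MeasurableSet.univ

/-- intensity measure in `B` -/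
def muB (ε : ℝ) (B : Set ℂ) : Measure (ℂ × Bool) :=
  ((ENNReal.ofReal (ε ^ 2))⁻¹ • (volume : Measure ℂ).restrict B).prod coin

theorem muB_finite {ε : ℝ} (hε : 0 < ε) {B : Set ℂ} (hb : Bornology.IsBounded B) :
    IsFiniteMeasure (muB ε B) := by
  have := finite_mu hε hb
  unfold muB
  infer_instance

theorem frs_cfg {ε : ℝ} (hε : 0 < ε) {B : Set ℂ} (hB : MeasurableSet B)
    (hb : Bornology.IsBounded B) : FRS fun ω : Sample => cfg ε ω ∩ ovr B := by
  obtain ⟨K, h1, -⟩ := exists_cells hε hb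
  have hl : LocalOn B fun S : Set (ℂ × Bool) => S ∩ ovr B := by
    intro S
    show S ∩ ovr B = S ∩ ovr B ∩ ovr B
    rw [inter_assoc, inter_self]
  have h2 : (fun ω : Sample => cfg ε ω ∩ ovr B) =
      fun ω => (⋃ k ∈ K, blk ε k (zipS ω k)) ∩ ovr B := by
    funext ω
    exact local_eq h1 hl ω
  rw [h2]
  have hfrs : FRS fun x : ℤ × ℤ → Bl => ⋃ k ∈ K, blk ε k (x k) :=
    FRS.biUnion K (fun k (x : ℤ × ℤ → Bl) => blk ε k (x k))
      fun k => (blk_frs ε k).comp (measurable_pi_apply k)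
  exact frs_inter (hfrs.comp zipS_mp.measurable) (meas_ovr hB)

theorem J_inter {M : Measure (ℂ × Bool)} [IsFiniteMeasure M] {A : Set (ℂ × Bool)}
    (h : M Aᶜ = 0) (G : Set (ℂ × Bool) → ℝ≥0∞) :
    J M (fun S => G (S ∩ A)) = J M G := by
  unfold J Q P
  congr 1
  refine tsum_congr fun n => ?_
  congr 1
  have hae : ∀ᵐ z ∂(Measure.pi fun _ : Fin n => M), ∀ i, z i ∈ A := by
    rw [ae_all_iff]
    intro i
    exact (Measure.quasiMeasurePreserving_eval (fun _ : Fin n => M) i).ae h
  refine lintegral_congr_ae ?_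
  filter_upwards [hae] with z hz
  have : range z ∩ A = range z := inter_eq_left.2 (by rintro _ ⟨i, rfl⟩; exact hz i)
  simp only [this]

theorem muB_compl {ε : ℝ} {B : Set ℂ} (hB : MeasurableSet B) : muB ε B (ovr B)ᶜ = 0 := by
  have h : (ovr B)ᶜ = Bᶜ ×ˢ (univ : Set Bool) := by
    ext p; simp [ovr]
  rw [h]
  unfold muB
  rw [Measure.prod_prod, Measure.smul_apply, Measure.restrict_apply hB.compl, compl_inter_self,
    measure_empty, smul_zero, zero_mul]

/-- the law of the configuration in `B` -/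
theorem law1 {ε : ℝ} (hε : 0 < ε) {B : Set ℂ} (hB : MeasurableSet B)
    (hb : Bornology.IsBounded B) {G : Set (ℂ × Bool) → ℝ≥0∞} (hG : FM G) :
    ∫⁻ ω, G (cfg ε ω ∩ ovr B) ∂sampleLaw = J (muB ε B) G := by
  have := muB_finite hε hb
  have hF : FM fun S => G (S ∩ ovr B) := FMe.inter (F := G) hG (meas_ovr hB)
  have hl : LocalOn B fun S => G (S ∩ ovr B) := by
    intro S
    show G (S ∩ ovr B) = G (S ∩ ovr B ∩ ovr B)
    rw [inter_assoc, inter_self]
  have h1 := (jan ε hε B hB hb (fun S => G (S ∩ ovr B)) hl hF).2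
  rw [h1, ← J_eq_janossy hε hb hF]
  exact J_inter (muB_compl hB) G

/-- the intensity of a disjoint union -/
theorem muB_sum {ι : Type*} [Fintype ι] {ε : ℝ} (hε : 0 < ε) {B : ι → Set ℂ}
    (hB : ∀ i, MeasurableSet (B i)) (hb : ∀ i, Bornology.IsBounded (B i))
    (hd : Pairwise fun i j => Disjoint (B i) (B j)) :
    ∑ i, muB ε (B i) = muB ε (⋃ i, B i) := by
  have hfin : ∀ i, IsFiniteMeasure
      ((ENNReal.ofReal (ε ^ 2))⁻¹ • (volume : Measure ℂ).restrict (B i)) :=
    fun i => finite_mu hε (hb i)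
  have hbU : Bornology.IsBounded (⋃ i, B i) := (Bornology.isBounded_iUnion).2 hb
  have := finite_mu hε hbU
  symm
  unfold muB
  apply Measure.prod_eq
  intro s t hs ht
  rw [Measure.finsetSum_apply]
  simp only [Measure.prod_prod, Measure.smul_apply, smul_eq_mul]
  rw [← Finset.sum_mul, ← Finset.mul_sum]
  congr 2
  rw [Measure.restrict_apply hs, inter_iUnion, measure_iUnion _ fun i => hs.inter (hB i),
    tsum_fintype]
  · refine Finset.sum_congr rfl fun i _ => ?_
    rw [Measure.restrict_apply hs]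
  · intro i j hij
    exact (hd hij).mono inter_subset_right inter_subset_right

/-- **INDEPENDENT COPIES** -/
theorem copies {ι : Type*} [Fintype ι] {ε : ℝ} (hε : 0 < ε) {B : ι → Set ℂ}
    (hB : ∀ i, MeasurableSet (B i)) (hb : ∀ i, Bornology.IsBounded (B i))
    (hd : Pairwise fun i j => Disjoint (B i) (B j)) {G : Set (ℂ × Bool) → ℝ≥0∞} (hG : FM G) :
    ∫⁻ ω, G (cfg ε ω ∩ ovr (⋃ i, B i)) ∂sampleLaw =
      ∫⁻ w, G (⋃ i, cfg ε (w i) ∩ ovr (B i)) ∂(Measure.pi fun _ : ι => sampleLaw) := by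
  have hbU : Bornology.IsBounded (⋃ i, B i) := (Bornology.isBounded_iUnion).2 hb
  have hfin : ∀ i, IsFiniteMeasure (muB ε (B i)) := fun i => muB_finite hε (hb i)
  rw [law1 hε (MeasurableSet.iUnion hB) hbU hG, ← muB_sum hε hB hb hd]
  have h := blocks sampleLaw (fun i ω => cfg ε ω ∩ ovr (B i)) (fun i => frs_cfg hε (hB i) (hb i))
    (fun i => muB ε (B i)) (fun i G hG => law1 hε (hB i) (hb i) hG) Finset.univ G hG
  rw [← h, Measure.infinitePi_eq_pi]
  simp only [Finset.mem_univ, iUnion_true]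

theorem copies_frs {ι : Type*} [Fintype ι] {ε : ℝ} (hε : 0 < ε) {B : ι → Set ℂ}
    (hB : ∀ i, MeasurableSet (B i)) (hb : ∀ i, Bornology.IsBounded (B i)) :
    FRS fun w : ι → Sample => ⋃ i, cfg ε (w i) ∩ ovr (B i) := by
  have h := FRS.biUnion (Finset.univ : Finset ι) (fun i (w : ι → Sample) => cfg ε (w i) ∩ ovr (B i))
    fun i => (frs_cfg hε (hB i) (hb i)).comp (measurable_pi_apply i)
  simpa only [Finset.mem_univ, iUnion_true] using h

/-- the pieces of the union are the pieces -/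
theorem piece {ι : Type*} {B : ι → Set ℂ} (hd : Pairwise fun i j => Disjoint (B i) (B j))
    (X : ι → Set (ℂ × Bool)) (i : ι) :
    (⋃ j, X j ∩ ovr (B j)) ∩ ovr (B i) = X i ∩ ovr (B i) := by
  ext e
  simp only [mem_inter_iff, mem_iUnion, ovr, mem_ofPred_eq]
  constructor
  · rintro ⟨⟨j, hj, hj'⟩, hi⟩
    by_cases h : j = i
    · subst h; exact ⟨hj, hi⟩
    · exact absurd hi (Set.disjoint_left.1 (hd h) hj')
  · rintro ⟨h1, h2⟩
    exact ⟨⟨i, h1, h2⟩, h2⟩

theorem piece' {ι : Type*} {B : ι → Set ℂ} (X : Set (ℂ × Bool)) (i : ι) :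
    X ∩ ovr (⋃ j, B j) ∩ ovr (B i) = X ∩ ovr (B i) := by
  ext e
  simp only [mem_inter_iff, ovr, mem_iUnion, mem_ofPred_eq]
  constructor
  · rintro ⟨⟨h1, -⟩, h2⟩; exact ⟨h1, h2⟩
  · rintro ⟨h1, h2⟩; exact ⟨⟨h1, i, h2⟩, h2⟩

/-- independent copies, for functions of the family of pieces -/
theorem copies_fun {ι : Type*} [Fintype ι] {ε : ℝ} (hε : 0 < ε) {B : ι → Set ℂ}
    (hB : ∀ i, MeasurableSet (B i)) (hb : ∀ i, Bornology.IsBounded (B i))
    (hd : Pairwise fun i j => Disjoint (B i) (B j)) {F : (ι → Set (ℂ × Bool)) → ℝ≥0∞}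
    (hF : FM fun S => F fun i => S ∩ ovr (B i)) :
    ∫⁻ ω, F (fun i => cfg ε ω ∩ ovr (B i)) ∂sampleLaw =
      ∫⁻ w, F (fun i => cfg ε (w i) ∩ ovr (B i)) ∂(Measure.pi fun _ : ι => sampleLaw) := by
  have h := copies hε hB hb hd hF
  simp only [piece'] at h
  have h2 : ∀ (w : ι → Sample) (i : ι),
      (⋃ j, cfg ε (w j) ∩ ovr (B j)) ∩ ovr (B i) = cfg ε (w i) ∩ ovr (B i) :=
    fun w i => piece hd (fun j => cfg ε (w j)) i
  simp only [h2] at h
  exact h

/-! ### laws of functions with values in a measurable space -/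

section law

variable {C : Type*} [MeasurableSpace C]

theorem fmInd {F : Set (ℂ × Bool) → C} (hF : FMe F) {T : Set C} (hT : MeasurableSet T) :
    FM fun S => T.indicator (fun _ => (1 : ℝ≥0∞)) (F S) := fun n =>
  (measurable_one.indicator hT).comp (hF n)

theorem meas_cfg {ε : ℝ} (hε : 0 < ε) {B : Set ℂ} (hB : MeasurableSet B)
    (hb : Bornology.IsBounded B) {F : Set (ℂ × Bool) → C} (hF : FMe F) :
    Measurable fun ω : Sample => F (cfg ε ω ∩ ovr B) :=
  FRS.measE (frs_cfg hε hB hb) hF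

theorem meas_copies {ι : Type*} [Fintype ι] {ε : ℝ} (hε : 0 < ε) {B : ι → Set ℂ}
    (hB : ∀ i, MeasurableSet (B i)) (hb : ∀ i, Bornology.IsBounded (B i))
    {F : Set (ℂ × Bool) → C} (hF : FMe F) :
    Measurable fun w : ι → Sample => F (⋃ i, cfg ε (w i) ∩ ovr (B i)) :=
  FRS.measE (copies_frs hε hB hb) hF

/-- the law of a function of the configuration in `⋃ i, B i` is the law of the same function of the
glued independent pieces -/
theorem law_eq {ι : Type*} [Fintype ι] {ε : ℝ} (hε : 0 < ε) {B : ι → Set ℂ}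
    (hB : ∀ i, MeasurableSet (B i)) (hb : ∀ i, Bornology.IsBounded (B i))
    (hd : Pairwise fun i j => Disjoint (B i) (B j)) {F : Set (ℂ × Bool) → C} (hF : FMe F) :
    Measure.map (fun ω : Sample => F (cfg ε ω ∩ ovr (⋃ i, B i))) sampleLaw =
      Measure.map (fun w : ι → Sample => F (⋃ i, cfg ε (w i) ∩ ovr (B i)))
        (Measure.pi fun _ : ι => sampleLaw) := by
  have hbU : Bornology.IsBounded (⋃ i, B i) := (Bornology.isBounded_iUnion).2 hb
  have m1 : Measurable fun ω : Sample => F (cfg ε ω ∩ ovr (⋃ i, B i)) :=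
    meas_cfg hε (MeasurableSet.iUnion hB) hbU hF
  have m2 : Measurable fun w : ι → Sample => F (⋃ i, cfg ε (w i) ∩ ovr (B i)) :=
    meas_copies hε hB hb hF
  ext T hT
  rw [Measure.map_apply m1 hT, Measure.map_apply m2 hT]
  have h := copies hε hB hb hd (fmInd hF hT)
  have e1 : ∀ ω : Sample, T.indicator (fun _ => (1 : ℝ≥0∞)) (F (cfg ε ω ∩ ovr (⋃ i, B i))) =
      ((fun ω : Sample => F (cfg ε ω ∩ ovr (⋃ i, B i))) ⁻¹' T).indicator 1 ω := fun ω => rfl
  have e2 : ∀ w : ι → Sample, T.indicator (fun _ => (1 : ℝ≥0∞))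
      (F (⋃ i, cfg ε (w i) ∩ ovr (B i))) =
      ((fun w : ι → Sample => F (⋃ i, cfg ε (w i) ∩ ovr (B i))) ⁻¹' T).indicator 1 w :=
    fun w => rfl
  simp only [e1, e2] at h
  rwa [lintegral_indicator_one (m1 hT), lintegral_indicator_one (m2 hT)] at h

/-- nonnegative functions of the value -/
theorem lint_eq {ι : Type*} [Fintype ι] {ε : ℝ} (hε : 0 < ε) {B : ι → Set ℂ}
    (hB : ∀ i, MeasurableSet (B i)) (hb : ∀ i, Bornology.IsBounded (B i))
    (hd : Pairwise fun i j => Disjoint (B i) (B j)) {F : Set (ℂ × Bool) → C} (hF : FMe F)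
    {f : C → ℝ≥0∞} (hf : Measurable f) :
    ∫⁻ ω, f (F (cfg ε ω ∩ ovr (⋃ i, B i))) ∂sampleLaw =
      ∫⁻ w, f (F (⋃ i, cfg ε (w i) ∩ ovr (B i))) ∂(Measure.pi fun _ : ι => sampleLaw) :=
  copies hε hB hb hd (G := fun S => f (F S)) fun n => hf.comp (hF n)

/-- Bochner integrals -/
theorem int_eq {ι : Type*} [Fintype ι] {ε : ℝ} (hε : 0 < ε) {B : ι → Set ℂ}
    (hB : ∀ i, MeasurableSet (B i)) (hb : ∀ i, Bornology.IsBounded (B i))
    (hd : Pairwise fun i j => Disjoint (B i) (B j)) {F : Set (ℂ × Bool) → ℂ} (hF : FMe F) :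
    ∫ ω, F (cfg ε ω ∩ ovr (⋃ i, B i)) ∂sampleLaw =
      ∫ w, F (⋃ i, cfg ε (w i) ∩ ovr (B i)) ∂(Measure.pi fun _ : ι => sampleLaw) := by
  have hbU : Bornology.IsBounded (⋃ i, B i) := (Bornology.isBounded_iUnion).2 hb
  have m1 : Measurable fun ω : Sample => F (cfg ε ω ∩ ovr (⋃ i, B i)) :=
    meas_cfg hε (MeasurableSet.iUnion hB) hbU hF
  have m2 : Measurable fun w : ι → Sample => F (⋃ i, cfg ε (w i) ∩ ovr (B i)) :=
    meas_copies hε hB hb hF
  have h := law_eq hε hB hb hd hF
  have h1 := integral_map (f := fun z : ℂ => z) m1.aemeasurable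
    aestronglyMeasurable_id (μ := sampleLaw)
  have h2 := integral_map (f := fun z : ℂ => z) m2.aemeasurable
    aestronglyMeasurable_id (μ := Measure.pi fun _ : ι => sampleLaw)
  rw [← h1, ← h2, h]

/-- events -/
theorem ev_eq {ι : Type*} [Fintype ι] {ε : ℝ} (hε : 0 < ε) {B : ι → Set ℂ}
    (hB : ∀ i, MeasurableSet (B i)) (hb : ∀ i, Bornology.IsBounded (B i))
    (hd : Pairwise fun i j => Disjoint (B i) (B j)) {P : Set (ℂ × Bool) → Prop} (hP : FMe P) :
    MeasurableSet {ω : Sample | P (cfg ε ω ∩ ovr (⋃ i, B i))} ∧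
    MeasurableSet {w : ι → Sample | P (⋃ i, cfg ε (w i) ∩ ovr (B i))} ∧
    sampleLaw {ω | P (cfg ε ω ∩ ovr (⋃ i, B i))} =
      (Measure.pi fun _ : ι => sampleLaw) {w | P (⋃ i, cfg ε (w i) ∩ ovr (B i))} := by
  have hbU : Bornology.IsBounded (⋃ i, B i) := (Bornology.isBounded_iUnion).2 hb
  have m1 : Measurable fun ω : Sample => P (cfg ε ω ∩ ovr (⋃ i, B i)) :=
    meas_cfg hε (MeasurableSet.iUnion hB) hbU hP
  have m2 : Measurable fun w : ι → Sample => P (⋃ i, cfg ε (w i) ∩ ovr (B i)) :=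
    meas_copies hε hB hb hP
  refine ⟨measurableSet_setOfPred.2 m1, measurableSet_setOfPred.2 m2, ?_⟩
  have h := law_eq hε hB hb hd hP
  have h2 := congrArg (fun μ : Measure Prop => μ {True}) h
  rw [Measure.map_apply m1 (measurableSet_singleton _),
    Measure.map_apply m2 (measurableSet_singleton _)] at h2
  have e1 : {ω : Sample | P (cfg ε ω ∩ ovr (⋃ i, B i))} =
      (fun ω : Sample => P (cfg ε ω ∩ ovr (⋃ i, B i))) ⁻¹' {True} := by
    ext ω; simp
  have e2 : {w : ι → Sample | P (⋃ i, cfg ε (w i) ∩ ovr (B i))} =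
      (fun w : ι → Sample => P (⋃ i, cfg ε (w i) ∩ ovr (B i))) ⁻¹' {True} := by
    ext ω; simp
  rw [e1, e2]
  exact h2

end law

/-- two families: product of two product spaces -/
theorem copies_prod {ι κ : Type*} [Fintype ι] [Fintype κ] {ε : ℝ} (hε : 0 < ε)
    {B : ι → Set ℂ} {D : κ → Set ℂ} (hB : ∀ i, MeasurableSet (B i))
    (hb : ∀ i, Bornology.IsBounded (B i)) (hD : ∀ i, MeasurableSet (D i))
    (hbD : ∀ i, Bornology.IsBounded (D i)) (hd : Pairwise fun i j => Disjoint (B i) (B j))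
    (hdD : Pairwise fun i j => Disjoint (D i) (D j)) (hBD : ∀ i j, Disjoint (B i) (D j))
    {G : Set (ℂ × Bool) → ℝ≥0∞} (hG : FM G) :
    ∫⁻ ω, G (cfg ε ω ∩ ovr ((⋃ i, B i) ∪ ⋃ j, D j)) ∂sampleLaw =
      ∫⁻ p : (ι → Sample) × (κ → Sample),
        G ((⋃ i, cfg ε (p.1 i) ∩ ovr (B i)) ∪ ⋃ j, cfg ε (p.2 j) ∩ ovr (D j))
        ∂((Measure.pi fun _ : ι => sampleLaw).prod (Measure.pi fun _ : κ => sampleLaw)) := by
  have h := copies (ι := ι ⊕ κ) hε (B := Sum.elim B D)
    (by rintro (i | j) <;> [exact hB i; exact hD j])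
    (by rintro (i | j) <;> [exact hb i; exact hbD j])
    (by
      rintro (i | i) (j | j) hij
      · exact hd fun h => hij (congrArg _ h)
      · exact hBD i j
      · exact (hBD j i).symm
      · exact hdD fun h => hij (congrArg _ h)) hG
  have e : (⋃ i : ι ⊕ κ, Sum.elim B D i) = (⋃ i, B i) ∪ ⋃ j, D j := by
    rw [iUnion_sum]; rfl
  rw [e] at h
  rw [h]
  have hmp := measurePreserving_sumPiEquivProdPi (fun _ : ι ⊕ κ => (sampleLaw : Measure Sample))
  have hm : Measurable fun p : (ι → Sample) × (κ → Sample) =>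
      G ((⋃ i, cfg ε (p.1 i) ∩ ovr (B i)) ∪ ⋃ j, cfg ε (p.2 j) ∩ ovr (D j)) :=
    (((copies_frs hε hB hb).comp measurable_fst).union
      ((copies_frs hε hD hbD).comp measurable_snd)).meas hG
  rw [← hmp.lintegral_comp hm]
  refine lintegral_congr fun w => ?_
  rw [iUnion_sum]
  rfl

/-- two disjoint sets: product form -/
theorem indep {ε : ℝ} (hε : 0 < ε) {B D : Set ℂ} (hB : MeasurableSet B)
    (hb : Bornology.IsBounded B) (hD : MeasurableSet D) (hbD : Bornology.IsBounded D)
    (hd : Disjoint B D) {F G : Set (ℂ × Bool) → ℝ≥0∞} (hF : FM F) (hG : FM G) :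
    ∫⁻ ω, F (cfg ε ω ∩ ovr B) * G (cfg ε ω ∩ ovr D) ∂sampleLaw =
      (∫⁻ ω, F (cfg ε ω ∩ ovr B) ∂sampleLaw) * ∫⁻ ω, G (cfg ε ω ∩ ovr D) ∂sampleLaw := by
  have hH : FM fun S => F (S ∩ ovr B) * G (S ∩ ovr D) := fun n =>
    (FMe.inter (F := F) hF (meas_ovr hB) n).mul (FMe.inter (F := G) hG (meas_ovr hD) n)
  have hdis : Pairwise fun i j : Bool => Disjoint (cond i B D) (cond j B D) := by
    rintro (_ | _) (_ | _) hij
    · exact absurd rfl hij
    · exact hd.symm
    · exact hd
    · exact absurd rfl hij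
  have h := copies_fun (ι := Bool) hε (B := fun i => cond i B D)
    (by rintro (_ | _) <;> assumption) (by rintro (_ | _) <;> assumption) hdis
    (F := fun X => F (X true) * G (X false)) hH
  have h' : ∫⁻ ω, F (cfg ε ω ∩ ovr B) * G (cfg ε ω ∩ ovr D) ∂sampleLaw =
      ∫⁻ w : Bool → Sample, F (cfg ε (w true) ∩ ovr B) * G (cfg ε (w false) ∩ ovr D)
        ∂(Measure.pi fun _ : Bool => sampleLaw) := h
  rw [h']
  have hf : Measurable fun ω : Sample => F (cfg ε ω ∩ ovr B) := (frs_cfg hε hB hb).meas hF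
  have hg : Measurable fun ω : Sample => G (cfg ε ω ∩ ovr D) := (frs_cfg hε hD hbD).meas hG
  have hi := (ProbabilityTheory.iIndepFun_pi (μ := fun _ : Bool => (sampleLaw : Measure Sample))
    (X := fun (i : Bool) (ω : Sample) =>
      cond i (F (cfg ε ω ∩ ovr B)) (G (cfg ε ω ∩ ovr D)))
    (by rintro (_ | _) <;> [exact hg.aemeasurable; exact hf.aemeasurable])).indepFun
      (show true ≠ false by decide)
  have e1 : ∫⁻ w : Bool → Sample, F (cfg ε (w true) ∩ ovr B) ∂(Measure.pi fun _ => sampleLaw) =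
      ∫⁻ ω, F (cfg ε ω ∩ ovr B) ∂sampleLaw :=
    (measurePreserving_eval (fun _ : Bool => (sampleLaw : Measure Sample)) true).lintegral_comp hf
  have e2 : ∫⁻ w : Bool → Sample, G (cfg ε (w false) ∩ ovr D) ∂(Measure.pi fun _ => sampleLaw) =
      ∫⁻ ω, G (cfg ε ω ∩ ovr D) ∂sampleLaw :=
    (measurePreserving_eval (fun _ : Bool => (sampleLaw : Measure Sample)) false).lintegral_comp hg
  rw [← e1, ← e2]
  exact ProbabilityTheory.lintegral_mul_eq_lintegral_mul_lintegral_of_indepFun''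
    (hf.comp (measurable_pi_apply true)).aemeasurable
    (hg.comp (measurable_pi_apply false)).aemeasurable hi

/-- invariance under measure preserving maps of the plane, piece form -/
theorem iso_piece {ε : ℝ} (hε : 0 < ε) {B : Set ℂ} (hB : MeasurableSet B)
    (hb : Bornology.IsBounded B) {g : ℂ ≃ᵐ ℂ} (hg : MeasurePreserving g volume volume)
    (hgb : Bornology.IsBounded (g ⁻¹' B)) {G : Set (ℂ × Bool) → ℝ≥0∞} (hG : FM G) :
    ∫⁻ ω, G ((fun p : ℂ × Bool => (g p.1, p.2)) '' (cfg ε ω ∩ ovr (g ⁻¹' B))) ∂sampleLaw =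
      ∫⁻ ω, G (cfg ε ω ∩ ovr B) ∂sampleLaw := by
  have hF : FM fun S => G (S ∩ ovr B) := FMe.inter (F := G) hG (meas_ovr hB)
  have hl : LocalOn B fun S => G (S ∩ ovr B) := by
    intro S
    show G (S ∩ ovr B) = G (S ∩ ovr B ∩ ovr B)
    rw [inter_assoc, inter_self]
  have h := iso ε hε B hB hb g hg hgb (fun S => G (S ∩ ovr B)) hl hF
  rw [← h]
  refine lintegral_congr fun ω => ?_
  congr 1
  ext e
  simp only [mem_image, mem_inter_iff, ovr, mem_ofPred_eq, mem_preimage]
  constructor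
  · rintro ⟨p, ⟨h1, h2⟩, rfl⟩
    exact ⟨⟨p, h1, rfl⟩, h2⟩
  · rintro ⟨⟨p, h1, rfl⟩, h2⟩
    exact ⟨p, ⟨h1, h2⟩, rfl⟩

end Crest.Agent.R143.Prodx609
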