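import Crest.Agent.R143.TileR0_228

/-!
# Row 143 (S0194), CORE-C: frames of the tiles along a closed lattice path (helper348)

`FPath M W` (TileR0_228): simple closed lattice path. Unit `η`, `h = 100 η`. Pure lattice geometry:

* `fr c e : ℂ ≃ᵐ ℂ`, `z ↦ c + e z`; `fr_mp` measure preserving for `‖e‖ = 1`
* `Ty = S | L | R`, `rt` the turn (`1, I, -I`), `nx h t` the next gate in the frame of the source gate
* `GB a b c e` : gate box `|X| ≤ a`, `|Y| ≤ b`; `Dt A B h t` : tile in the frame of its source gate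
* `frW h W a` the frame of the gate `a`; `frW_succ : frW (a + 1) = frW a ∘ nx (ty a)`;
  `pre_GB`, `pre_RR` : preimages
* `RR_RR`, `RR_GB`, `GB_GB` : disjointness (`B + a ≤ h / 2`, `a + b < h / 2`)
-/

set_option autoImplicit false

noncomputable section

open scoped Classical

namespace Crest.Agent.R143.PthFx348

open MeasureTheory Set
open Crest.Agent.R143.Gatex838 (X Y)
open Crest.Agent.R143.TileRx228

/-! ### frames -/

/-- the affine map `z ↦ c + e z` -/
def fr (c e : ℂ) : ℂ ≃ᵐ ℂ :=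
  if he : e = 0 then MeasurableEquiv.refl ℂ
  else ((Homeomorph.mulLeft₀ e he).trans (Homeomorph.addLeft c)).toMeasurableEquiv

theorem fr_apply {c e : ℂ} (he : e ≠ 0) (z : ℂ) : fr c e z = c + e * z := by
  unfold fr
  rw [dif_neg he]
  rfl

theorem fr_symm_apply {c e : ℂ} (he : e ≠ 0) (z : ℂ) : (fr c e).symm z = (z - c) / e := by
  rw [MeasurableEquiv.symm_apply_eq, fr_apply he]
  field_simp
  ring

theorem ne_of_norm {e : ℂ} (h : ‖e‖ = 1) : e ≠ 0 := by
  rintro rfl
  simp at h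

/-- multiplication by a unit preserves the volume -/
theorem mul_mp {e : ℂ} (h : ‖e‖ = 1) : MeasurePreserving (fun z : ℂ => e * z) volume volume := by
  have h1 : e ∈ Submonoid.unitSphere ℂ := mem_sphere_zero_iff_norm.2 h
  exact (rotation (⟨e, h1⟩ : Circle)).measurePreserving

theorem fr_mp {c e : ℂ} (h : ‖e‖ = 1) : MeasurePreserving (fr c e) volume volume := by
  have h1 : (fr c e : ℂ → ℂ) = (fun z => c + z) ∘ fun z => e * z := by
    funext z
    rw [fr_apply (ne_of_norm h)]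
    rfl
  rw [h1]
  exact (measurePreserving_add_left volume c).comp (mul_mp h)

theorem fr_bdd {c e : ℂ} (h : ‖e‖ = 1) {D : Set ℂ} (hD : Bornology.IsBounded D) :
    Bornology.IsBounded (fr c e ⁻¹' D) := by
  obtain ⟨r, hr⟩ := hD.exists_norm_le
  rw [isBounded_iff_forall_norm_le]
  refine ⟨r + ‖c‖, fun z hz => ?_⟩
  have h1 := hr _ hz
  rw [fr_apply (ne_of_norm h)] at h1
  have h2 : ‖e * z‖ ≤ ‖c + e * z‖ + ‖c‖ := by
    have h3 := norm_sub_le (c + e * z) c
    rwa [add_sub_cancel_left] at h3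
  rw [norm_mul, h, one_mul] at h2
  linarith

/-- composition of frames -/
theorem fr_comp {c e c' e' : ℂ} (he : e ≠ 0) (he' : e' ≠ 0) (z : ℂ) :
    fr c e (fr c' e' z) = fr (c + e * c') (e * e') z := by
  rw [fr_apply he, fr_apply he', fr_apply (mul_ne_zero he he')]
  ring

theorem X_fr {c e c' v : ℂ} (he : e ≠ 0) (z : ℂ) :
    X (c + e * c') (e * v) (fr c e z) = X c' v z := by
  unfold X
  rw [fr_apply he, add_sub_add_left_eq_sub, ← mul_sub, mul_div_mul_left _ _ he]

theorem Y_fr {c e c' v : ℂ} (he : e ≠ 0) (z : ℂ) :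
    Y (c + e * c') (e * v) (fr c e z) = Y c' v z := by
  unfold Y
  rw [fr_apply he, add_sub_add_left_eq_sub, ← mul_sub, mul_div_mul_left _ _ he]

theorem pre_Arm {A B : ℝ} {c e c' v : ℂ} (he : e ≠ 0) :
    fr c e ⁻¹' Arm A B (c + e * c') (e * v) = Arm A B c' v := by
  ext z
  simp only [Arm, mem_preimage, mem_ofPred_eq, X_fr he, Y_fr he]

/-- gate box -/
def GB (a b : ℝ) (c e : ℂ) : Set ℂ := {s | |X c e s| ≤ a ∧ |Y c e s| ≤ b}

theorem pre_GB' {a b : ℝ} {c e c' v : ℂ} (he : e ≠ 0) :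
    fr c e ⁻¹' GB a b (c + e * c') (e * v) = GB a b c' v := by
  ext z
  simp only [GB, mem_preimage, mem_ofPred_eq, X_fr he, Y_fr he]

theorem pre_GB {a b : ℝ} {c e : ℂ} (he : e ≠ 0) : fr c e ⁻¹' GB a b c e = GB a b 0 1 := by
  have h := pre_GB' (a := a) (b := b) (c := c) (c' := 0) (v := 1) he
  rwa [mul_zero, add_zero, mul_one] at h

/-! ### types -/

/-- straight, left, right -/
inductive Ty
  | S
  | L
  | R
  deriving DecidableEq

instance : Fintype Ty := ⟨{.S, .L, .R}, fun t => by cases t <;> simp⟩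

/-- the turn -/
def rt : Ty → ℂ
  | .S => 1
  | .L => Complex.I
  | .R => -Complex.I

theorem rt_norm (t : Ty) : ‖rt t‖ = 1 := by cases t <;> simp [rt]

theorem rt_ne (t : Ty) : rt t ≠ 0 := ne_of_norm (rt_norm t)

/-- the next gate in the frame of the source gate -/
def nx (h : ℝ) (t : Ty) : ℂ ≃ᵐ ℂ := fr ((h / 2 : ℝ) * (1 + rt t)) (rt t)

theorem nx_apply (h : ℝ) (t : Ty) (z : ℂ) : nx h t z = (h / 2 : ℝ) * (1 + rt t) + rt t * z :=
  fr_apply (rt_ne t) z

theorem nx_mp (h : ℝ) (t : Ty) : MeasurePreserving (nx h t) volume volume := fr_mp (rt_norm t)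

theorem nx_bdd (h : ℝ) (t : Ty) {D : Set ℂ} (hD : Bornology.IsBounded D) :
    Bornology.IsBounded (nx h t ⁻¹' D) := fr_bdd (rt_norm t) hD

/-- the tile in the frame of its source gate -/
def Dt (A B h : ℝ) (t : Ty) : Set ℂ :=
  Arm A B ((h / 2 : ℝ) : ℂ) (-1) ∪ Arm A B ((h / 2 : ℝ) : ℂ) (rt t)

/-! ### lattice directions -/

theorem cz_sub (u v : ℤ × ℤ) : cz (u - v) = cz u - cz v := by
  unfold cz
  apply Complex.ext <;> simp

theorem cz_norm {u : ℤ × ℤ} (h : U4 u) : ‖cz u‖ = 1 := by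
  rcases h with rfl | rfl | rfl | rfl <;>
    simp [cz, Complex.norm_def, Complex.normSq_apply]

theorem cz_ne {u : ℤ × ℤ} (h : U4 u) : cz u ≠ 0 := ne_of_norm (cz_norm h)

theorem cz_inj {u v : ℤ × ℤ} (h : cz u = cz v) : u = v := by
  have h1 := congrArg Complex.re h
  have h2 := congrArg Complex.im h
  simp only [cz] at h1 h2
  exact Prod.ext (by exact_mod_cast h1) (by exact_mod_cast h2)

theorem X_cz {u : ℤ × ℤ} (h : U4 u) (c s : ℂ) :
    X c (cz u) s = u.1 * (s - c).re + u.2 * (s - c).im := by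
  unfold X
  rcases h with rfl | rfl | rfl | rfl <;>
    simp [cz, Complex.div_re, Complex.normSq_apply]

theorem Y_cz {u : ℤ × ℤ} (h : U4 u) (c s : ℂ) :
    Y c (cz u) s = u.1 * (s - c).im - u.2 * (s - c).re := by
  unfold Y
  rcases h with rfl | rfl | rfl | rfl <;>
    simp [cz, Complex.div_im, Complex.normSq_apply]

/-! ### the frames of the path -/

section path

variable {M : ℕ} {W : ℤ → ℤ × ℤ}

theorem FPath.u4 (H : FPath M W) (a : ℤ) : U4 (W a - W (a - 1)) := by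
  have h := H.step (a - 1)
  rwa [sub_add_cancel] at h

theorem FPath.ge_norm (H : FPath M W) (a : ℤ) : ‖ge W a‖ = 1 := cz_norm (FPath.u4 H a)

theorem FPath.ge_ne (H : FPath M W) (a : ℤ) : ge W a ≠ 0 := ne_of_norm (FPath.ge_norm H a)

/-- the type of the tile `a` -/
def ty (W : ℤ → ℤ × ℤ) (a : ℤ) : Ty :=
  if W (a + 1) - W a = W a - W (a - 1) then .S
  else if cz (W (a + 1) - W a) = cz (W a - W (a - 1)) * Complex.I then .L else .R

theorem ge_succ (H : FPath M W) (a : ℤ) : ge W (a + 1) = ge W a * rt (ty W a) := by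
  unfold ge ty
  rw [add_sub_cancel_right]
  split_ifs with h1 h2
  · rw [h1, rt, mul_one]
  · rw [h2, rt]
  · have h3 := H.step a
    have h4 := FPath.u4 H a
    have h5 : W (a + 1) - W a ≠ -(W a - W (a - 1)) := by
      intro h
      have h6 := H.turn (a - 1)
      rw [show a - 1 + 2 = a + 1 by ring] at h6
      apply h6
      have h7 : W (a + 1) = W a + -(W a - W (a - 1)) := by rw [← h]; abel
      rw [h7]; abel
    rw [rt]
    generalize W (a + 1) - W a = u at *
    generalize W a - W (a - 1) = v at *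
    rcases h3 with rfl | rfl | rfl | rfl <;> rcases h4 with rfl | rfl | rfl | rfl <;>
      first
        | exact absurd rfl h1
        | (exfalso; exact h5 (by decide))
        | (apply Complex.ext <;> simp [cz]; done)
        | (exfalso; apply h2; apply Complex.ext <;> simp [cz])

theorem gz_succ (h : ℝ) (H : FPath M W) (a : ℤ) :
    gz h W (a + 1) = gz h W a + ge W a * ((h / 2 : ℝ) * (1 + rt (ty W a))) := by
  have h1 := ge_succ H a
  have h2 : ge W a * ((h / 2 : ℝ) * (1 + rt (ty W a))) =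
      (h / 2 : ℝ) * (ge W a + ge W (a + 1)) := by
    rw [h1]; ring
  rw [h2]
  unfold gz ge
  rw [add_sub_cancel_right, cz_sub, cz_sub]
  push_cast
  ring

theorem cen_eq (h : ℝ) (W : ℤ → ℤ × ℤ) (a : ℤ) :
    cen h W a = gz h W a + ge W a * ((h / 2 : ℝ) : ℂ) := by
  unfold cen gz ge
  rw [cz_sub]
  push_cast
  ring

/-- the frame of the gate `a` -/
def frW (h : ℝ) (W : ℤ → ℤ × ℤ) (a : ℤ) : ℂ ≃ᵐ ℂ := fr (gz h W a) (ge W a)

theorem frW_apply (h : ℝ) (H : FPath M W) (a : ℤ) (z : ℂ) :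
    frW h W a z = gz h W a + ge W a * z := fr_apply (FPath.ge_ne H a) z

theorem frW_mp (h : ℝ) (H : FPath M W) (a : ℤ) : MeasurePreserving (frW h W a) volume volume :=
  fr_mp (FPath.ge_norm H a)

theorem frW_bdd (h : ℝ) (H : FPath M W) (a : ℤ) {D : Set ℂ} (hD : Bornology.IsBounded D) :
    Bornology.IsBounded (frW h W a ⁻¹' D) := fr_bdd (FPath.ge_norm H a) hD

/-- **consecutive frames** -/
theorem frW_succ (h : ℝ) (H : FPath M W) (a : ℤ) (z : ℂ) :
    frW h W (a + 1) z = frW h W a (nx h (ty W a) z) := by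
  unfold frW nx
  rw [fr_comp (FPath.ge_ne H a) (rt_ne _), gz_succ h H, ge_succ H]

theorem frW_succ' (h : ℝ) (H : FPath M W) (a : ℤ) :
    frW h W (a + 1) = (nx h (ty W a)).trans (frW h W a) := by
  apply MeasurableEquiv.ext
  funext z
  exact frW_succ h H a z

theorem frW_per (h : ℝ) (H : FPath M W) (a : ℤ) : frW h W (a + M) = frW h W a := by
  unfold frW gz ge
  rw [H.per a, show a + M - 1 = (a - 1) + M by ring, H.per (a - 1)]

theorem ty_per (H : FPath M W) (a : ℤ) : ty W (a + M) = ty W a := by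
  unfold ty
  rw [H.per a, show a + M - 1 = (a - 1) + M by ring, H.per (a - 1),
    show a + M + 1 = (a + 1) + M by ring, H.per (a + 1)]

theorem pre_gate (h : ℝ) (H : FPath M W) (a : ℤ) {p q : ℝ} :
    frW h W a ⁻¹' GB p q (gz h W a) (ge W a) = GB p q 0 1 := pre_GB (FPath.ge_ne H a)

theorem pre_RR (h : ℝ) (H : FPath M W) (a : ℤ) {A B : ℝ} :
    frW h W a ⁻¹' RR A B h W a = Dt A B h (ty W a) := by
  unfold RR Dt frW
  rw [preimage_union, cen_eq h W a]
  have h1 : cz (W (a - 1) - W a) = ge W a * (-1) := by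
    unfold ge
    rw [cz_sub, cz_sub]; ring
  have h2 : cz (W (a + 1) - W a) = ge W a * rt (ty W a) := by
    rw [← ge_succ H a]
    unfold ge
    rw [add_sub_cancel_right]
  rw [h1, h2, pre_Arm (FPath.ge_ne H a), pre_Arm (FPath.ge_ne H a)]

end path

/-! ### disjointness -/

/-- open square -/
def SB (c : ℂ) (r : ℝ) : Set ℂ := {s | |(s - c).re| < r ∧ |(s - c).im| < r}

theorem Arm_sub {A B : ℝ} (hAB : A ≤ B) {u : ℤ × ℤ} (hu : U4 u) (c : ℂ) :
    Arm A B c (cz u) ⊆ SB c B := by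
  intro s hs
  obtain ⟨⟨h1, h2⟩, h3⟩ := hs
  rw [X_cz hu] at h1 h2
  rw [Y_cz hu] at h3
  rw [abs_lt] at h3
  simp only [SB, mem_ofPred_eq, abs_lt]
  rcases hu with rfl | rfl | rfl | rfl <;>
    · simp only [Int.cast_one, Int.cast_zero, Int.cast_neg, one_mul, zero_mul, neg_mul, add_zero,
        zero_add, sub_zero, zero_sub] at h1 h2 h3
      refine ⟨⟨?_, ?_⟩, ⟨?_, ?_⟩⟩ <;> linarith [h3.1, h3.2]

theorem neg_u4 {u : ℤ × ℤ} (h : U4 u) : U4 (-u) := by
  rcases h with rfl | rfl | rfl | rfl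
  · right; right; left; rfl
  · right; right; right; rfl
  · left; rfl
  · right; left; rfl

variable {M : ℕ} {W : ℤ → ℤ × ℤ} {h A B p q : ℝ}

theorem RR_sub (H : FPath M W) (hAB : A ≤ B) (a : ℤ) : RR A B h W a ⊆ SB (cen h W a) B := by
  refine union_subset (Arm_sub hAB ?_ _) (Arm_sub hAB (H.step a) _)
  have h1 := neg_u4 (FPath.u4 H a)
  rwa [neg_sub] at h1

theorem one_le_mul (hh : 0 < h) {k : ℤ} (hk : k ≠ 0) : h ≤ |h * (k : ℝ)| := by
  rw [abs_mul, abs_of_pos hh]
  have : (1 : ℝ) ≤ |(k : ℝ)| := by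
    rw [← Int.cast_abs]
    exact_mod_cast Int.one_le_abs hk
  nlinarith

theorem half_le_mul (hh : 0 < h) (k : ℤ) : h / 2 ≤ |h * ((k : ℝ) + 1 / 2)| := by
  rw [abs_mul, abs_of_pos hh]
  have : (1 / 2 : ℝ) ≤ |(k : ℝ) + 1 / 2| := by
    rcases le_or_gt 0 k with hk | hk
    · have : (0 : ℝ) ≤ k := by exact_mod_cast hk
      rw [abs_of_nonneg (by linarith)]
      linarith
    · have : (k : ℝ) ≤ -1 := by exact_mod_cast Int.le_sub_one_of_lt hk
      rw [abs_of_neg (by linarith)]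
      linarith
  nlinarith

theorem SB_disj (hh : 0 < h) (hB : 2 * B ≤ h) {P Q : ℤ × ℤ} (hne : P ≠ Q) :
    Disjoint (SB ((h : ℂ) * cz P) B) (SB ((h : ℂ) * cz Q) B) := by
  rw [Set.disjoint_left]
  rintro s ⟨h1, h2⟩ ⟨h3, h4⟩
  simp only [cz, Complex.sub_re, Complex.sub_im, Complex.re_ofReal_mul, Complex.im_ofReal_mul]
    at h1 h2 h3 h4
  rw [abs_lt] at h1 h2 h3 h4
  by_cases hk : P.1 = Q.1
  · have hk2 : P.2 - Q.2 ≠ 0 := fun h => hne (Prod.ext hk (by omega))
    have := one_le_mul hh hk2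
    push_cast at this
    rw [mul_sub] at this
    have h5 : |h * (P.2 : ℝ) - h * (Q.2 : ℝ)| < h := by
      rw [abs_lt]; constructor <;> linarith [h2.1, h2.2, h4.1, h4.2]
    linarith
  · have hk2 : P.1 - Q.1 ≠ 0 := fun h => hk (by omega)
    have := one_le_mul hh hk2
    push_cast at this
    rw [mul_sub] at this
    have h5 : |h * (P.1 : ℝ) - h * (Q.1 : ℝ)| < h := by
      rw [abs_lt]; constructor <;> linarith [h1.1, h1.2, h3.1, h3.2]
    linarith

/-- **tile, tile** -/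
theorem RR_RR (H : FPath M W) (hh : 0 < h) (hAB : A ≤ B) (hB : 2 * B ≤ h) {a b : ℤ}
    (hab : ¬ (M : ℤ) ∣ b - a) : Disjoint (RR A B h W a) (RR A B h W b) :=
  (SB_disj hh hB fun hne => hab (H.simple a b hne)).mono (RR_sub H hAB a) (RR_sub H hAB b)

/-- a gate box does not meet a square around a vertex -/
theorem SB_GB (hh : 0 < h) (hBp : B + p ≤ h / 2) {P Q u : ℤ × ℤ} (hu : U4 u) :
    Disjoint (SB ((h : ℂ) * cz Q) B) (GB p q ((h : ℂ) * ((cz P + cz (P + u)) / 2)) (cz u)) := by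
  rw [Set.disjoint_left]
  rintro s ⟨h1, h2⟩ ⟨h3, -⟩
  rw [X_cz hu] at h3
  have e1 : ((h : ℂ) * ((cz P + cz (P + u)) / 2)).re = h * (P.1 + u.1 / 2) := by
    rw [Complex.re_ofReal_mul]
    simp only [cz, Complex.div_ofNat_re, Complex.add_re, Prod.fst_add, Int.cast_add]
    ring
  have e2 : ((h : ℂ) * ((cz P + cz (P + u)) / 2)).im = h * (P.2 + u.2 / 2) := by
    rw [Complex.im_ofReal_mul]
    simp only [cz, Complex.div_ofNat_im, Complex.add_im, Prod.snd_add, Int.cast_add]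
    ring
  rw [Complex.sub_re, Complex.sub_im, e1, e2] at h3
  simp only [Complex.sub_re, Complex.sub_im, Complex.re_ofReal_mul, Complex.im_ofReal_mul] at h1 h2
  simp only [cz] at h1 h2
  have key := half_le_mul hh (u.1 * (P.1 - Q.1) + u.2 * (P.2 - Q.2))
  rw [abs_lt] at h1 h2
  rw [abs_le] at h3
  have h5 : |h * (((u.1 * (P.1 - Q.1) + u.2 * (P.2 - Q.2) : ℤ) : ℝ) + 1 / 2)| < h / 2 := by
    rw [abs_lt]
    rcases hu with rfl | rfl | rfl | rfl <;>
      · push_cast at h3 ⊢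
        simp only [Int.cast_one, Int.cast_zero, Int.cast_neg, one_mul, zero_mul, neg_mul, add_zero,
          zero_add, sub_zero, zero_sub] at h3 ⊢
        constructor <;> nlinarith [h3.1, h3.2, h1.1, h1.2, h2.1, h2.2]
  linarith

/-- **tile, gate** -/
theorem RR_GB (H : FPath M W) (hh : 0 < h) (hAB : A ≤ B) (hBp : B + p ≤ h / 2) (a b : ℤ) :
    Disjoint (RR A B h W a) (GB p q (gz h W b) (ge W b)) := by
  have h1 := SB_GB (q := q) hh hBp (P := W (b - 1)) (Q := W a) (FPath.u4 H b)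
  rw [add_sub_cancel] at h1
  exact h1.mono_left (RR_sub H hAB a)

/-- gate boxes of two different edges -/
theorem GB_disj (hh : 0 < h) (hpq : p + q < h / 2) (hp : 2 * p < h) (hq : 2 * q < h)
    {P u P' u' : ℤ × ℤ} (hu : U4 u) (hu' : U4 u') (h1 : ¬ (P = P' ∧ u = u'))
    (h2 : ¬ (P + u = P' ∧ u' = -u)) :
    Disjoint (GB p q ((h : ℂ) * ((cz P + cz (P + u)) / 2)) (cz u))
      (GB p q ((h : ℂ) * ((cz P' + cz (P' + u')) / 2)) (cz u')) := by
  rw [Set.disjoint_left]
  have er : ∀ P u : ℤ × ℤ, ((h : ℂ) * ((cz P + cz (P + u)) / 2)).re = h * (P.1 + u.1 / 2) := by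
    intro P u
    rw [Complex.re_ofReal_mul]
    simp only [cz, Complex.div_ofNat_re, Complex.add_re, Prod.fst_add, Int.cast_add]
    ring
  have ei : ∀ P u : ℤ × ℤ, ((h : ℂ) * ((cz P + cz (P + u)) / 2)).im = h * (P.2 + u.2 / 2) := by
    intro P u
    rw [Complex.im_ofReal_mul]
    simp only [cz, Complex.div_ofNat_im, Complex.add_im, Prod.snd_add, Int.cast_add]
    ring
  rintro s ⟨g1, g2⟩ ⟨g3, g4⟩
  rw [X_cz hu, Complex.sub_re, Complex.sub_im, er, ei, abs_le] at g1
  rw [Y_cz hu, Complex.sub_re, Complex.sub_im, er, ei, abs_le] at g2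
  rw [X_cz hu', Complex.sub_re, Complex.sub_im, er, ei, abs_le] at g3
  rw [Y_cz hu', Complex.sub_re, Complex.sub_im, er, ei, abs_le] at g4
  obtain ⟨P1, P2⟩ := P
  obtain ⟨Q1, Q2⟩ := P'
  have k1 := half_le_mul hh (P1 - Q1)
  have k2 := half_le_mul hh (P1 - Q1 - 1)
  rw [le_abs] at k1 k2
  push_cast at k1 k2
  have par : ∀ (a b : ℤ) (r t : ℝ), 2 * r < h → 2 * t < h → ¬ (a = 0 ∧ b = 0) →
      -(2 * r) ≤ h * (a : ℝ) → h * (a : ℝ) ≤ 2 * r → -(2 * t) ≤ h * (b : ℝ) →
      h * (b : ℝ) ≤ 2 * t → False := by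
    intro a b r t hr ht hab i1 i2 i3 i4
    by_cases ha : a = 0
    · have hb : b ≠ 0 := fun hb => hab ⟨ha, hb⟩
      have := one_le_mul hh hb
      rw [le_abs] at this
      rcases this with h | h <;> linarith
    · have := one_le_mul hh ha
      rw [le_abs] at this
      rcases this with h | h <;> linarith
  have e1 : P1 - Q1 = 0 ∧ P2 - Q2 = 0 → u ≠ u' := fun ⟨h3, h4⟩ h5 =>
    h1 ⟨Prod.ext (by change P1 = Q1; omega) (by change P2 = Q2; omega), h5⟩
  have e2 : P1 + u.1 - Q1 = 0 ∧ P2 + u.2 - Q2 = 0 → u' ≠ -u := fun ⟨h3, h4⟩ h5 =>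
    h2 ⟨Prod.ext (by change P1 + u.1 = Q1; omega) (by change P2 + u.2 = Q2; omega), h5⟩
  rcases hu with rfl | rfl | rfl | rfl <;> rcases hu' with rfl | rfl | rfl | rfl <;>
    push_cast at g1 g2 g3 g4 <;>
    first
      | (exfalso; rcases k1 with k1 | k1 <;> rcases k2 with k2 | k2 <;>
          linarith [g1.1, g1.2, g2.1, g2.2, g3.1, g3.2, g4.1, g4.2])
      | (refine par _ _ p q hp hq (fun hz => e1 hz rfl) ?_ ?_ ?_ ?_ <;> push_cast <;>
          linarith [g1.1, g1.2, g2.1, g2.2, g3.1, g3.2, g4.1, g4.2])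
      | (refine par _ _ q p hq hp (fun hz => e1 hz rfl) ?_ ?_ ?_ ?_ <;> push_cast <;>
          linarith [g1.1, g1.2, g2.1, g2.2, g3.1, g3.2, g4.1, g4.2])
      | (refine par _ _ p q hp hq (fun hz => e2 hz (by decide)) ?_ ?_ ?_ ?_ <;> push_cast <;>
          linarith [g1.1, g1.2, g2.1, g2.2, g3.1, g3.2, g4.1, g4.2])
      | (refine par _ _ q p hq hp (fun hz => e2 hz (by decide)) ?_ ?_ ?_ ?_ <;> push_cast <;>
          linarith [g1.1, g1.2, g2.1, g2.2, g3.1, g3.2, g4.1, g4.2])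

/-- **gate, gate** -/
theorem GB_GB (H : FPath M W) (hh : 0 < h) (hpq : p + q < h / 2) (hp : 2 * p < h)
    (hq : 2 * q < h) {a b : ℤ} (hab : ¬ (M : ℤ) ∣ b - a) :
    Disjoint (GB p q (gz h W a) (ge W a)) (GB p q (gz h W b) (ge W b)) := by
  have h1 := GB_disj (P := W (a - 1)) (u := W a - W (a - 1)) (P' := W (b - 1))
    (u' := W b - W (b - 1)) hh hpq hp hq (FPath.u4 H a) (FPath.u4 H b) ?_ ?_
  · rw [add_sub_cancel, add_sub_cancel] at h1
    exact h1
  · rintro ⟨h3, -⟩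
    have := H.simple _ _ h3
    rw [sub_sub_sub_cancel_right] at this
    exact hab this
  · rintro ⟨h3, h4⟩
    rw [add_sub_cancel] at h3
    rw [← h3] at h4
    have h5 : W b = W (a - 1) := by
      have h6 := congrArg (· + W a) h4
      simpa using h6
    have h7 := H.simple _ _ h3
    have h8 := H.simple _ _ h5
    have h9 : (M : ℤ) ∣ 2 := by
      have := dvd_add h7 h8
      have h10 : (b - 1 - a) + (a - 1 - b) = -2 := by ring
      rw [h10] at this
      exact (Int.dvd_neg).1 this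
    obtain ⟨k, hk⟩ := h9
    have h10 : ∀ n : ℕ, W (b + M * n) = W b := by
      intro n
      induction n with
      | zero => simp
      | succ n ih =>
        rw [← ih, Nat.cast_succ, mul_add, mul_one, ← add_assoc]
        exact H.per _
    have hk0 : 0 ≤ k := by
      by_contra hc
      push Not at hc
      have : (M : ℤ) * k ≤ 0 := mul_nonpos_of_nonneg_of_nonpos (by positivity) hc.le
      omega
    have h11 := h10 k.toNat
    rw [Int.toNat_of_nonneg hk0, ← hk] at h11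
    exact H.turn b h11

end Crest.Agent.R143.PthFx348
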