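import Crest.Agent.R143.FarF_263
import Crest.Agent.R143.GeoI_136

/-!
# Row 143 (S0194), block H: the hypothesis `QA` of 263's far clause (helper136)

* **`qa_of`** : environment (795), regions of the windows (`RegH`), ring data (389's `Rd`) where the
  weight is not zero ==> `QA` a.e. for every `Y ≤ 8 * avPhi` with the full field `nn`
-/

set_option autoImplicit false

noncomputable section

open scoped Classical ENNReal

namespace Crest.Agent.R143.QAFx136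

open MeasureTheory Filter Topology
open Crest.ProbabilityR.Voronoi
open Crest.Agent.R143.B0x346 Crest.Agent.R143.DelGx806 Crest.Agent.R143.DelRx806
  Crest.Agent.R143.Mass1x302 Crest.Agent.R143.Mass2x302 Crest.Agent.R143.Mass3x302
  Crest.Agent.R143.Mass4x302 Crest.Agent.R143.Mass5x302 Crest.Agent.R143.MassQx304
  Crest.Agent.R143.SmallAx304 Crest.Agent.R143.Frame10x395 Crest.Agent.R143.RevCx389
  Crest.Agent.R143.SumAx389 Crest.Agent.R143.Meetx707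
  Crest.Agent.R143.Stripx707 Crest.Agent.R143.MajAx136 Crest.Agent.R143.GeoIx136
  Crest.Agent.R143.Asm4x414 Crest.Agent.R143.PP0x831
open Crest.Agent.R143.Dbl2x609 (Ap paint coe_Ap)
open Crest.Agent.R143.EnvRx795 (EnvS)
open Crest.Agent.R143.CircPx838 (sup)
open Crest.Agent.R143.FinCx811 (Cs rc0)
open Crest.Agent.R143.FarIx355 (allI)
open Crest.Agent.R143.Engx490 (nn)
open Crest.Agent.R143.StgIx432 (exists_dart)

/-- regions of the full exploration, for every set of sites -/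
abbrev RF := ∀ (A : Finset ℂ) (hS : GP (A : Set ℂ)), 3 ≤ A.card → Rg (D0 A) (Cs hS)

/-- regions of the windows, for every set of sites -/
abbrev RW := ∀ (A : Finset ℂ) (hS : GP (A : Set ℂ)), 3 ≤ A.card → ℕ → Rg (D0 A) (Cs hS)

/-- **`QA` from the environment, the regions and the ring data** -/
theorem qa_of {hB d0 l t0 a2 r1 et E0 : ℝ} (P : Par hB d0 l t0 a2 r1 et E0) :
    ∃ p c1 c2 K : ℝ, 0 < p ∧ 0 < c1 ∧ 0 < c2 ∧ c2 ≤ 1 ∧ 0 < K ∧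
    ∀ (R d ρ0 : ℝ) (zB : ℂ), d ≤ c1 * r1 → d ≤ 1 / 2 → ρ0 ≤ 1 / 2 → ρ0 ≤ c2 * r1 →
      ‖zB‖ + 2 * hB + 2 * l + 2 * a2 + K * r1 + r1 + 2 < R →
    ∀ (m₀ : ℕ) (u : ℕ → ℂ) (c0 : ℕ → ℝ) (Gr : RF) (Gw : RW) (Z : Finset ℂ),
      (∀ z ∈ Z, sup (z - zB) ≤ hB - d0) →
    ∀ (ε : ℝ), 0 < ε → ∀ B : Set ℂ, Bornology.IsBounded B → Metric.closedBall 0 R ⊆ B →
    ∀ (g : Set (ℂ × Bool) → ℝ≥0∞) (Y : Finset ℂ → Finset ℂ → ℝ≥0∞),
      (∀ (A β : Finset ℂ) (hS : GP (A : Set ℂ)) (h3 : 3 ≤ A.card), Y A β ≤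
        8 * avPhi m₀ hS h3 (Gw A hS h3) (Gr A hS h3) Z id (fun _ => r1) (allI (D0 A)) (nn A) β) →
      (∀ᵐ ω ∂sampleLaw, ∀ β ∈ (Ap ε B ω).powerset, g (paint (Ap ε B ω) β) ≠ 0 →
        EnvS (Ap ε B ω) R d ρ0 ∧
        ∃ (hS : GP ((Ap ε B ω : Finset ℂ) : Set ℂ)) (h3 : 3 ≤ (Ap ε B ω).card),
          RegH zB hB l t0 a2 m₀ u c0 hS h3 (Gw _ hS h3) (Gr _ hS h3) ∧
          ∃ r, Rd (rc0 hS) (Gr _ hS h3) (Gw _ hS h3) m₀ (chiS hS h3 β) r) →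
      ∀ᵐ ω ∂sampleLaw, QA ℂ 8 (r1 / 2) p m₀ Z.card (points ε ω) (Metric.closedBall 0 R)
        (Ap ε B ω) (fun β => g (paint (Ap ε B ω) β)) (Y (Ap ε B ω)) := by
  obtain ⟨p, c1, c2, K, hp, hc1, hc2, hc2', hK, H⟩ := geoA_env P
  have hr := P.pr
  refine ⟨p, c1, c2, K, hp, hc1, hc2, hc2', hK, ?_⟩
  intro R d ρ0 zB e2 e3 e4 e5 hR m₀ u c0 Gr Gw Z hZ ε hε B hBb hUB g Y hY hD
  filter_upwards [hD] with ω hD
  by_cases h0 : ∀ β, β ⊆ Ap ε B ω → g (paint (Ap ε B ω) β) = 0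
  · refine Or.inl fun β hβ => ?_
    show g (paint (Ap ε B ω) β) * Y (Ap ε B ω) β = 0
    rw [h0 β hβ, zero_mul]
  right
  push Not at h0
  obtain ⟨β0, hβ0, hg0⟩ := h0
  obtain ⟨e1, hS, h3, hG, -⟩ := hD β0 (Finset.mem_powerset.2 hβ0) hg0
  obtain ⟨e0⟩ := exists_dart hS h3
  have hA := coe_Ap hε hBb ω
  have hPS : ∀ z ∈ Metric.closedBall (0 : ℂ) R, z ∈ ((Ap ε B ω : Finset ℂ) : Set ℂ) ↔
      z ∈ points ε ω := by
    intro z hz
    rw [hA]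
    exact ⟨fun h => h.1, fun h => ⟨h, hUB hz⟩⟩
  refine ⟨hS, h3, e0, nn _, Gw _ hS h3, Gr _ hS h3, inS _, Z, id, fun _ => r1, zB, hB + a2, _,
    allI _, fldU_congr hPS (Fld.toU (Or.inl fun t ht => ?_)),
    H _ R d ρ0 zB e1 e2 e3 e4 e5 hR hS h3 m₀ u c0 _ _ hG Z hZ _ (by linarith only), le_rfl, ?_, ?_⟩
  · exact (StgIx432.fld_nn (Metric.closedBall 0 R)).nn _ hS e0 t ht
  · intro β hβ hg
    obtain ⟨-, _, _, -, h4⟩ := hD β (Finset.mem_powerset.2 hβ) hg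
    exact h4
  · intro β _ _
    exact hY _ β hS h3

end Crest.Agent.R143.QAFx136
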