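import Crest.Agent.R143.Col_583

/-!
# Row 143 (S0194), K7, LAYER: quotient forest (helper341)

Disjoint connected sets `K k` of sites off `V` and off `X` are contracted to points; 583's thin
forest on the quotient gives a retraction which is constant on every `K k`.

* `exists_frsK` : thin retraction `f` of `S \ V` onto `X`, constant on every `K k`
* `tr_terrK` : enlarged classes `A'` with free sites `V`; every `K k` lies in one class `A' (l k)`
-/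

set_option autoImplicit false

noncomputable section

open scoped Classical

namespace Crest.Agent.R143.QForx341

open Set
open Crest.Agent.R143.B0x346 Crest.Agent.R143.DelGx806 Crest.Agent.R143.DelRx806
  Crest.Agent.R143.JColx54 Crest.Agent.R143.RE0x723 Crest.Agent.R143.K33x877
  Crest.Agent.R143.Terr2x583 Crest.Agent.R143.Colx583

variable {S V X : Finset ℂ} {A : ZMod 3 → Set ℂ} {ι : Type} {K : ι → Set ℂ} {ρ D : ℝ} {x y : ℂ}

/-! ### the contraction -/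

/-- representative of a nonempty set -/
def rep (K : ι → Set ℂ) (k : ι) : ℂ := if h : (K k).Nonempty then h.some else 0

theorem rep_mem {k : ι} (h : (K k).Nonempty) : rep K k ∈ K k := by
  unfold rep
  rw [dif_pos h]
  exact h.some_mem

/-- contraction of the sets `K k` to points -/
def ctr (K : ι → Set ℂ) (x : ℂ) : ℂ := if h : ∃ k, x ∈ K k then rep K h.choose else x

theorem ctr_of (hd : ∀ k k', k ≠ k' → Disjoint (K k) (K k')) {k : ι} (hx : x ∈ K k) :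
    ctr K x = rep K k := by
  have hex : ∃ k, x ∈ K k := ⟨k, hx⟩
  unfold ctr
  rw [dif_pos hex]
  by_contra hne
  have h1 : hex.choose ≠ k := by
    intro h
    rw [h] at hne
    exact hne rfl
  exact Set.disjoint_left.1 (hd _ _ h1) hex.choose_spec hx

theorem ctr_off (hx : ∀ k, x ∉ K k) : ctr K x = x := by
  unfold ctr
  rw [dif_neg]
  rintro ⟨k, hk⟩
  exact hx k hk

theorem ctr_idem (hd : ∀ k k', k ≠ k' → Disjoint (K k) (K k')) (x : ℂ) :
    ctr K (ctr K x) = ctr K x := by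
  by_cases h : ∃ k, x ∈ K k
  · obtain ⟨k, hk⟩ := h
    rw [ctr_of hd hk, ctr_of hd (rep_mem ⟨x, hk⟩)]
  · have h' : ∀ k, x ∉ K k := fun k hk => h ⟨k, hk⟩
    rw [ctr_off h', ctr_off h']

/-- data of the contraction -/
structure Blk (S V X : Finset ℂ) (K : ι → Set ℂ) (D : ℝ) : Prop where
  nn : 0 ≤ D
  sub : ∀ k, ∀ x ∈ K k, (x ∈ S ∧ x ∉ V) ∧ x ∉ X
  dis : ∀ k k', k ≠ k' → Disjoint (K k) (K k')
  con : ∀ k, ∀ x ∈ K k, ∀ y ∈ K k, Pth S (K k) x y
  dia : ∀ k, ∀ x ∈ K k, ∀ y ∈ K k, ‖x - y‖ ≤ D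

namespace Blk

variable (h : Blk S V X K D)
include h

theorem ctr_mem (hx : x ∈ S ∧ x ∉ V) : ctr K x ∈ S ∧ ctr K x ∉ V := by
  by_cases hk : ∃ k, x ∈ K k
  · obtain ⟨k, hk⟩ := hk
    rw [ctr_of h.dis hk]
    exact (h.sub k _ (rep_mem ⟨x, hk⟩)).1
  · rw [ctr_off fun k hk' => hk ⟨k, hk'⟩]
    exact hx

theorem ctr_X (hx : x ∈ X) : ctr K x = x :=
  ctr_off fun k hk => (h.sub k x hk).2 hx

theorem ctr_dist (x : ℂ) : ‖x - ctr K x‖ ≤ D := by
  by_cases hk : ∃ k, x ∈ K k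
  · obtain ⟨k, hk⟩ := hk
    rw [ctr_of h.dis hk]
    exact h.dia k _ hk _ (rep_mem ⟨x, hk⟩)
  · rw [ctr_off fun k hk' => hk ⟨k, hk'⟩, sub_self, norm_zero]
    exact h.nn

/-- chain in the fibre -/
theorem fib (hx : x ∈ S ∧ x ∉ V) :
    Pth S {z | (z ∈ S ∧ z ∉ V) ∧ ctr K z = ctr K x} x (ctr K x) := by
  by_cases hk : ∃ k, x ∈ K k
  · obtain ⟨k, hk⟩ := hk
    rw [ctr_of h.dis hk]
    refine (h.con k _ hk _ (rep_mem ⟨x, hk⟩)).mono fun z hz => ⟨(h.sub k z hz).1, ?_⟩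
    rw [ctr_of h.dis hz]
  · have e : ctr K x = x := ctr_off fun k hk' => hk ⟨k, hk'⟩
    rw [e]
    exact Pth.refl ⟨hx, by rw [e]⟩

end Blk

/-- relation of the quotient -/
def Rq (S V : Finset ℂ) (K : ι → Set ℂ) (u v : ℂ) : Prop :=
  u ≠ v ∧ ∃ a b, (a ∈ S ∧ a ∉ V) ∧ (b ∈ S ∧ b ∉ V) ∧ Adj S a b ∧ ctr K a = u ∧ ctr K b = v

/-- vertices of the quotient -/
def Oq (S V : Finset ℂ) (K : ι → Set ℂ) : Finset ℂ := (S \ V).image (ctr K)

theorem mem_Oq : y ∈ Oq S V K ↔ ∃ a, (a ∈ S ∧ a ∉ V) ∧ ctr K a = y := by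
  unfold Oq
  rw [Finset.mem_image]
  constructor
  · rintro ⟨a, ha, h⟩
    exact ⟨a, Finset.mem_sdiff.1 ha, h⟩
  · rintro ⟨a, ha, h⟩
    exact ⟨a, Finset.mem_sdiff.2 ha, h⟩

/-- **thin retraction, constant on the blocks** -/
theorem exists_frsK (hX : X ⊆ S \ V) (hρ : 0 < ρ)
    (hN : ∀ x ∈ S, x ∉ V → Near S V X ρ x) (h : Blk S V X K D) :
    ∃ f, Frs S V X (ρ + 4 * D) f ∧ ∀ k, ∀ x ∈ K k, ∀ y ∈ K k, f x = f y := by
  have hD := h.nn
  have hρ' : 0 < ρ + 2 * D := by linarith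
  have hA : X ⊆ Oq S V K := by
    intro a ha
    exact mem_Oq.2 ⟨a, Finset.mem_sdiff.1 (hX ha), h.ctr_X ha⟩
  obtain ⟨g, g1, g2, g3⟩ := thin_global (R := Rq S V K) hA (fun _ _ hh => hh.1) hρ'
  -- the projected chain
  have hpr : ∀ x ∈ S, x ∉ V → ∃ y ∈ X, Relation.ReflTransGen
      (fun a b => Rq S V K a b ∧ (b ∈ Oq S V K ∧ dist (ctr K x) b ≤ ρ + 2 * D)) (ctr K x) y := by
    intro x hxS hxV
    obtain ⟨y, hy, hp⟩ := hN x hxS hxV
    refine ⟨y, hy, ?_⟩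
    have key : ∀ z, Relation.ReflTransGen (fun a b => Adj S a b ∧
        b ∈ {z | (z ∈ S ∧ z ∉ V) ∧ ‖z - x‖ ≤ ρ}) x z → (z ∈ S ∧ z ∉ V) ∧
        Relation.ReflTransGen (fun a b => Rq S V K a b ∧
          (b ∈ Oq S V K ∧ dist (ctr K x) b ≤ ρ + 2 * D)) (ctr K x) (ctr K z) := by
      intro z hz
      induction hz with
      | refl => exact ⟨⟨hxS, hxV⟩, Relation.ReflTransGen.refl⟩
      | @tail b c _ h2 ih =>
        obtain ⟨h3, h4, h5⟩ := h2
        refine ⟨h4, ?_⟩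
        by_cases he : ctr K b = ctr K c
        · rw [← he]; exact ih.2
        · refine ih.2.tail ⟨⟨he, b, c, ih.1, h4, h3, rfl, rfl⟩, mem_Oq.2 ⟨c, h4, rfl⟩, ?_⟩
          rw [dist_eq_norm]
          have e : ctr K x - ctr K c = (c - ctr K c) - (x - ctr K x) - (c - x) := by ring
          rw [e]
          have k1 := norm_sub_le ((c - ctr K c) - (x - ctr K x)) (c - x)
          have k2 := norm_sub_le (c - ctr K c) (x - ctr K x)
          have k3 := h.ctr_dist c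
          have k4 := h.ctr_dist x
          linarith
    have h1 := (key y hp.2).2
    rw [h.ctr_X hy] at h1
    exact h1
  set f : ℂ → ℂ := fun z => g (ctr K z) with hf
  -- the lifted link
  have hlift : ∀ x, (x ∈ S ∧ x ∉ V) → Pth S {z | (z ∈ S ∧ z ∉ V) ∧ f z = f x ∧
      ‖z - x‖ ≤ 24 * (ρ + 4 * D)} x (f x) := by
    intro x hx
    obtain ⟨y, hy, hp⟩ := hpr x hx.1 hx.2
    have hu : ctr K x ∈ Oq S V K := mem_Oq.2 ⟨x, hx, rfl⟩
    have hch := g3 _ hu ⟨y, hy, hp⟩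
    set P : Set ℂ := {z | (z ∈ S ∧ z ∉ V) ∧ f z = f x ∧ ‖z - x‖ ≤ 24 * (ρ + 4 * D)} with hP
    -- points of a fibre near `u`
    have hin : ∀ a u, (a ∈ S ∧ a ∉ V) → ctr K a = u → g u = g (ctr K x) →
        dist (ctr K x) u ≤ 24 * (ρ + 2 * D) → a ∈ P := by
      intro a u ha hau hgu hdu
      refine ⟨ha, ?_, ?_⟩
      · show g (ctr K a) = g (ctr K x)
        rw [hau, hgu]
      · rw [dist_eq_norm] at hdu
        have e : a - x = (a - ctr K a) - (x - ctr K x) - (ctr K x - u) := by rw [hau]; ring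
        rw [e]
        have k1 := norm_sub_le ((a - ctr K a) - (x - ctr K x)) (ctr K x - u)
        have k2 := norm_sub_le (a - ctr K a) (x - ctr K x)
        have k3 := h.ctr_dist a
        have k4 := h.ctr_dist x
        linarith
    have hfibP : ∀ a, (a ∈ S ∧ a ∉ V) → g (ctr K a) = g (ctr K x) →
        dist (ctr K x) (ctr K a) ≤ 24 * (ρ + 2 * D) → Pth S P a (ctr K a) := by
      intro a ha hga hda
      refine (h.fib ha).mono ?_
      rintro z ⟨hz, hz'⟩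
      exact hin z (ctr K a) hz hz' hga hda
    have h0 : dist (ctr K x) (ctr K x) ≤ 24 * (ρ + 2 * D) := by rw [dist_self]; linarith
    have key : ∀ v, Relation.ReflTransGen (fun a b => Rq S V K a b ∧ (b ∈ Oq S V K ∧
        g b = g (ctr K x) ∧ dist (ctr K x) b ≤ 24 * (ρ + 2 * D))) (ctr K x) v →
        (g v = g (ctr K x) ∧ dist (ctr K x) v ≤ 24 * (ρ + 2 * D)) ∧ Pth S P x v := by
      intro v hv
      induction hv with
      | refl => exact ⟨⟨rfl, h0⟩, hfibP x hx rfl h0⟩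
      | @tail b c _ h2 ih =>
        obtain ⟨⟨hne, a1, a2, ha1, ha2, hadj, e1, e2⟩, h3, h4, h5⟩ := h2
        refine ⟨⟨h4, h5⟩, ?_⟩
        have p1 : Pth S P a1 b := by
          have := hfibP a1 ha1 (by rw [e1]; exact ih.1.1) (by rw [e1]; exact ih.1.2)
          rwa [e1] at this
        have p2 : Pth S P a2 c := by
          have := hfibP a2 ha2 (by rw [e2]; exact h4) (by rw [e2]; exact h5)
          rwa [e2] at this
        exact ((ih.2.trans p1.symm).tail hadj p2.1).trans p2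
    exact (key _ hch).2
  have hgX : ∀ x, (x ∈ S ∧ x ∉ V) → f x ∈ X := by
    intro x hx
    obtain ⟨y, hy, hp⟩ := hpr x hx.1 hx.2
    refine (g2 (ctr K x) (mem_Oq.2 ⟨x, hx, rfl⟩) ⟨y, hy, Relation.ReflTransGen.mono ?_ _ _ hp⟩).1
    rintro a b ⟨h1, h2, -⟩
    exact ⟨h1, h2⟩
  refine ⟨f, ⟨hX, ?_, fun x h1 h2 => hgX x ⟨h1, h2⟩, ?_, ?_⟩, ?_⟩
  · intro a ha
    show g (ctr K a) = a
    rw [h.ctr_X ha, g1 a ha]
  · intro x h1 h2
    refine (hlift x ⟨h1, h2⟩).mono ?_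
    rintro z ⟨h3, h4, -⟩
    exact ⟨h3, h4⟩
  · intro x h1 h2 _
    exact hlift x ⟨h1, h2⟩
  · intro k x hx y hy
    show g (ctr K x) = g (ctr K y)
    rw [ctr_of h.dis hx, ctr_of h.dis hy]

/-- **territories, constant on the blocks** : `V` are the free sites, every site of `A' i` is joined
to `A i` in `A' i` within `24 (ρ + 4 D)`, every block lies in one class -/
theorem tr_terrK (h : Tr S A) (hV : (V : Set ℂ) ⊆ fr S A) (hρ : 0 < ρ)
    (hN : ∀ x ∈ S, x ∉ V → Near S V (uA S A) ρ x) (hK : Blk S V (uA S A) K D) :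
    ∃ (A' : ZMod 3 → Set ℂ) (l : ι → ZMod 3), Tr S A' ∧ (∀ i, A i ⊆ A' i) ∧ fr S A' = V ∧
      (∀ i, ∀ x ∈ A' i, ∃ y ∈ A i, Pth S {z | z ∈ A' i ∧ ‖z - x‖ ≤ 24 * (ρ + 4 * D)} x y) ∧
      ∀ k, K k ⊆ A' (l k) := by
  have hX : uA S A ⊆ S \ V := by
    intro x hx
    obtain ⟨i, hi⟩ := (mem_uA h).1 hx
    refine Finset.mem_sdiff.2 ⟨(Finset.mem_filter.1 hx).1, fun hxV => ?_⟩
    exact (hV (Finset.mem_coe.2 hxV)).2 i hi
  obtain ⟨f, hf, hfK⟩ := exists_frsK hX hρ hN hK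
  have hD := hK.nn
  have hN' : ∀ x ∈ S, x ∉ V → Near S V (uA S A) (ρ + 4 * D) x := by
    intro x h1 h2
    obtain ⟨y, hy, hp⟩ := hN x h1 h2
    exact ⟨y, hy, hp.mono fun z hz => ⟨hz.1, hz.2.trans (by linarith)⟩⟩
  set A' : ZMod 3 → Set ℂ := fun i => {x | (x ∈ S ∧ x ∉ V) ∧ f x ∈ A i} with hA'
  have hAT : ∀ i, A i ⊆ A' i := by
    intro i x hx
    have h1 : x ∈ uA S A := (mem_uA h).2 ⟨i, hx⟩
    refine ⟨Finset.mem_sdiff.1 (hX h1), ?_⟩
    rw [hf.fX x h1]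
    exact hx
  have hex : ∀ x, (x ∈ S ∧ x ∉ V) → ∃ i, f x ∈ A i := fun x hx =>
    (mem_uA h).1 (hf.mem x hx.1 hx.2)
  have hl : ∀ i, ∀ x ∈ A' i, f x ∈ A i ∧ Pth S (A' i) x (f x) := by
    rintro i x ⟨⟨h1, h2⟩, h3⟩
    refine ⟨h3, (hf.link x h1 h2).mono ?_⟩
    rintro z ⟨h4, h5⟩
    exact ⟨h4, by rw [h5]; exact h3⟩
  refine ⟨A', fun k => if hk : (K k).Nonempty then
    (hex _ (hK.sub k _ hk.some_mem).1).choose else 0, ?_, hAT, ?_, ?_, ?_⟩
  · refine tr_up h hAT (fun i x hx => Finset.mem_coe.2 hx.1.1) ?_ ?_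
    · intro i j hij
      rw [Set.disjoint_left]
      rintro x ⟨-, h1⟩ ⟨-, h2⟩
      exact Set.disjoint_left.1 (h.disj i j hij) h1 h2
    · intro i x hx y hy
      obtain ⟨h1, h2⟩ := hl i x hx
      obtain ⟨h3, h4⟩ := hl i y hy
      exact (h2.trans ((h.con i _ h1 _ h3).mono (hAT i))).trans h4.symm
  · ext x
    constructor
    · rintro ⟨h1, h2⟩
      by_contra hxW
      have hxW' : x ∉ V := fun h' => hxW (Finset.mem_coe.2 h')
      obtain ⟨i, hi⟩ := hex x ⟨h1, hxW'⟩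
      exact h2 i ⟨⟨h1, hxW'⟩, hi⟩
    · intro hx
      exact ⟨(hV hx).1, fun i hi => hi.1.2 (Finset.mem_coe.1 hx)⟩
  · rintro i x ⟨⟨h1, h2⟩, h3⟩
    refine ⟨f x, h3, (hf.thin x h1 h2 (hN' x h1 h2)).mono ?_⟩
    rintro z ⟨h4, h5, h6⟩
    exact ⟨⟨h4, by rw [h5]; exact h3⟩, h6⟩
  · intro k x hx
    have hk : (K k).Nonempty := ⟨x, hx⟩
    refine ⟨(hK.sub k x hx).1, ?_⟩
    show f x ∈ A (if hk : (K k).Nonempty then (hex _ (hK.sub k _ hk.some_mem).1).choose else 0)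
    rw [dif_pos hk, hfK k x hx _ hk.some_mem]
    exact (hex _ (hK.sub k _ hk.some_mem).1).choose_spec

end Crest.Agent.R143.QForx341
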