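import Crest.Agent.R143.QNum_414

/-!
# Row 143 (S0194), block H (helper239): the choice of the tile size along a subsequence

The windows of the ring (263's `Wn`, 355's `RW`) need `4 (n + 2) = h * m₀` with `m₀ = m₀(R)` fixed, so
`n` runs over the numbers with `m' ∣ n + 2`, `m₀ = 4 m'`.

* `RingMf z b κ` : 414's `RingM` for frequently many `n`
* `freq_of` : a statement for all `n = m' h - 2`, `h ≥ h₀`, holds frequently; `num_of` : the numbers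
* **`body_of_meshf`** ; `RingM.f`
-/

set_option autoImplicit false

noncomputable section

open scoped Classical

namespace Crest.Agent.R143.QNumFx239

open MeasureTheory Filter Topology
open Crest.ProbabilityR.Voronoi
open Crest.Agent.R143.B0x346 Crest.Agent.R143.SumScx302 Crest.Agent.R143.Mass1x302
open Crest.Agent.R143.PP0x831 Crest.Agent.R143.Trans3x690
  Crest.Agent.R143.HBudx136 Crest.Agent.R143.HGluex136
  Crest.Agent.R143.SmallAx304 Crest.Agent.R143.Dblx609 Crest.Agent.R143.Dbl2x609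
  Crest.Agent.R143.Asm3x414 Crest.Agent.R143.Asm4x414
open Crest.Agent.R143.StgIx432
open Crest.Agent.R143.HDecx197 Crest.Agent.R143.HCompx197 Crest.Agent.R143.RingTx197
open Crest.Agent.R143.KapAx690 (KapH)
open Crest.Agent.R143.Spinex422 (Body)
open Crest.Agent.R143.QNumx414
open scoped ENNReal

/-- 414's `RingM`, frequently many tile sizes -/
def RingMf (z : ℂ) (b : ℝ) (κ : ℕ → ℝ → ℂ) : Prop :=
  ∃ C4 : ℝ, 0 ≤ C4 ∧ ∃ Cf : ℝ, 0 ≤ Cf ∧ ∃ cF : ℕ,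
    ∀ K c1 c2 : ℝ, 1 ≤ K → 0 < c1 → 0 < c2 → c2 ≤ 1 → ∀ d0 : ℝ, 0 < d0 → d0 ≤ b / 4 →
      ∀ R : ℝ, 0 < R → R ≤ d0 / 10 → ∃ CZ CK : ℝ, 0 ≤ CZ ∧ 0 ≤ CK ∧ ∃ᶠ n : ℕ in atTop,
        ∃ c : ℝ, 0 < c ∧ ∀ δ : ℝ, 0 < δ → ∀ᶠ ε : ℝ in 𝓝[>] 0, ∃ (B : Set ℂ)
          (g : Set (ℂ × Bool) → ℝ≥0∞) (E : EFam) (Rv : Finset ℂ → Finset ℂ → Finset ℂ),
          RDat z b (2 / n) ε c d0 R K c1 c2 C4 B g E Rv ∧
          RFarK z b (2 / n) ε d0 R Cf CZ δ (ENNReal.ofReal (CK * ‖κ n ε‖ ^ 2)) cF B g E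

theorem _root_.Crest.Agent.R143.QNumx414.RingM.f {z : ℂ} {b : ℝ} {κ : ℕ → ℝ → ℂ}
    (H : RingM z b κ) : RingMf z b κ := by
  obtain ⟨C4, hC4, Cf, hCf, cF, H⟩ := H
  refine ⟨C4, hC4, Cf, hCf, cF, fun K c1 c2 hK h1 h2 h3 d0 hd0 hdb R hR hRd => ?_⟩
  obtain ⟨CZ, CK, hCZ, hCK, H⟩ := H K c1 c2 hK h1 h2 h3 d0 hd0 hdb R hR hRd
  exact ⟨CZ, CK, hCZ, hCK, H.frequently⟩

/-- **the subsequence** -/
theorem freq_of {P : ℕ → Prop} {m : ℕ} (hm : 1 ≤ m) (h0 : ℕ) (h : ∀ k, h0 ≤ k → P (m * k - 2)) :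
    ∃ᶠ n : ℕ in atTop, P n := by
  rw [Filter.frequently_atTop]
  intro a
  refine ⟨m * (max h0 (a + 2)) - 2, ?_, h _ (le_max_left _ _)⟩
  have h1 : a + 2 ≤ max h0 (a + 2) := le_max_right _ _
  have h2 : max h0 (a + 2) ≤ m * max h0 (a + 2) := Nat.le_mul_of_pos_left _ (by omega)
  omega

/-- the numbers of the windows: `n = m k - 2`, step `k`, `4 m` windows -/
theorem num_of {m k : ℕ} (hm : 1 ≤ m) (hk : 2 ≤ k) :
    4 * ((m * k - 2) + 2) = k * (4 * m) ∧ m * k - 2 + 2 = m * k := by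
  have h1 : k ≤ m * k := Nat.le_mul_of_pos_left _ (by omega)
  constructor
  · rw [Nat.sub_add_cancel (by omega)]
    ring
  · exact Nat.sub_add_cancel (by omega)

/-- **the choice of the tile size** -/
theorem ringT_of_meshf {z : ℂ} {b : ℝ} {κ : ℕ → ℝ → ℂ} (hκ : KapH κ) (H : RingMf z b κ) :
    RingT z b := by
  obtain ⟨C4, hC4, Cf, hCf, cF, H⟩ := H
  refine ⟨C4, hC4, Cf, hCf, cF, fun K c1 c2 hK h1 h2 h3 d0 hd0 hdb R hR hRd τ hτ => ?_⟩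
  obtain ⟨CZ, CK, hCZ, hCK, H⟩ := H K c1 c2 hK h1 h2 h3 d0 hd0 hdb R hR hRd
  -- the size of `κ`
  set η : ℝ := min 1 (τ / (CK + 1)) with hη
  have hη0 : 0 < η := by positivity
  have e1 := hκ η hη0
  -- the tile size
  have t0 : Tendsto (fun n : ℕ => (2 : ℝ) / n) atTop (𝓝 0) :=
    tendsto_const_nhds.div_atTop tendsto_natCast_atTop_atTop
  have e2 : ∀ᶠ n : ℕ in atTop, (2 : ℝ) / n ≤ τ :=
    (t0.eventually (ge_mem_nhds hτ))
  have t1 : Tendsto (fun n : ℕ => CZ * Real.sqrt ((2 : ℝ) / n)) atTop (𝓝 0) := by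
    have h4 := (Real.continuous_sqrt.tendsto 0).comp t0
    rw [Real.sqrt_zero] at h4
    have h5 := h4.const_mul CZ
    rw [mul_zero] at h5
    exact h5
  have e3 : ∀ᶠ n : ℕ in atTop, CZ * Real.sqrt ((2 : ℝ) / n) ≤ τ :=
    t1.eventually (ge_mem_nhds hτ)
  obtain ⟨n, ⟨c, hc, hn⟩, ⟨⟨h4, h5⟩, h6⟩, h7⟩ :=
    (H.and_eventually (((e1.and e2).and e3).and (eventually_gt_atTop 0))).exists
  have hn0 : (0 : ℝ) < n := Nat.cast_pos.2 h7
  refine ⟨2 / n, c, by positivity, h5, hc, fun δ hδ => ?_⟩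
  refine ((hn δ hδ).and h4).frequently.mono fun ε hε => ?_
  obtain ⟨⟨B, g, E, Rv, hD, hF⟩, h8⟩ := hε
  refine ⟨B, g, E, Rv, hD, hF.rfar h6 (ENNReal.ofReal_le_ofReal ?_)⟩
  have h9 : ‖κ n ε‖ ^ 2 ≤ η := by
    calc ‖κ n ε‖ ^ 2 ≤ η ^ 2 := by gcongr
      _ ≤ η := by
        have : η ≤ 1 := min_le_left _ _
        nlinarith
  calc CK * ‖κ n ε‖ ^ 2 ≤ CK * (τ / (CK + 1)) := by
        gcongr
        exact h9.trans (min_le_right _ _)
    _ ≤ τ := by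
        rw [mul_div_assoc', div_le_iff₀ (by positivity)]
        nlinarith

/-- **block H from the rings of frequently many tile sizes** -/
theorem body_of_meshf {z : ℂ} {b : ℝ} (hb : 0 < b) {κ : ℕ → ℝ → ℂ} (hκ : KapH κ)
    (H : RingMf z b κ) : Body := body_of_ringT hb (ringT_of_meshf hκ H)

end Crest.Agent.R143.QNumFx239
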