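import Crest.Agent.R143.QNum_414

/-!
# Row 143 (S0194), block H: the choice of the tile size along a subsequence (helper355)

414's `RingM` with `∃ᶠ n` in place of `∀ᶠ n` : the rings may be given only for `n` in an unbounded
set (503's windows need `n + 2 = (w + 8) m₁`).
* `RingMF z b κ`, `ringT_of_meshF`, `body_of_meshF`
* `freq_of_seq` : `∀ᶠ w, P (f w)` with `f → ∞` gives `∃ᶠ n, P n`
-/

set_option autoImplicit false

noncomputable section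

open scoped Classical

namespace Crest.Agent.R143.QNumFx355

open MeasureTheory Filter Topology
open Crest.ProbabilityR.Voronoi
open Crest.Agent.R143.B0x346 Crest.Agent.R143.SumScx302 Crest.Agent.R143.Mass1x302
open Crest.Agent.R143.PP0x831 Crest.Agent.R143.Trans3x690
  Crest.Agent.R143.HBudx136 Crest.Agent.R143.HGluex136
  Crest.Agent.R143.SmallAx304 Crest.Agent.R143.Dblx609 Crest.Agent.R143.Dbl2x609
  Crest.Agent.R143.Asm3x414 Crest.Agent.R143.Asm4x414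
open Crest.Agent.R143.StgIx432
open Crest.Agent.R143.HDecx197 Crest.Agent.R143.HCompx197 Crest.Agent.R143.RingTx197
open Crest.Agent.R143.KapAx690 (KapH)
open Crest.Agent.R143.Spinex422 (Body)
open Crest.Agent.R143.QNumx414 (RFarK)
open scoped ENNReal

/-- 414's `RingM` for infinitely many `n` -/
def RingMF (z : ℂ) (b : ℝ) (κ : ℕ → ℝ → ℂ) : Prop :=
  ∃ C4 : ℝ, 0 ≤ C4 ∧ ∃ Cf : ℝ, 0 ≤ Cf ∧ ∃ cF : ℕ,
    ∀ K c1 c2 : ℝ, 1 ≤ K → 0 < c1 → 0 < c2 → c2 ≤ 1 → ∀ d0 : ℝ, 0 < d0 → d0 ≤ b / 4 →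
      ∀ R : ℝ, 0 < R → R ≤ d0 / 10 → ∃ CZ CK : ℝ, 0 ≤ CZ ∧ 0 ≤ CK ∧ ∃ᶠ n : ℕ in atTop,
        ∃ c : ℝ, 0 < c ∧ ∀ δ : ℝ, 0 < δ → ∀ᶠ ε : ℝ in 𝓝[>] 0, ∃ (B : Set ℂ)
          (g : Set (ℂ × Bool) → ℝ≥0∞) (E : EFam) (Rv : Finset ℂ → Finset ℂ → Finset ℂ),
          RDat z b (2 / n) ε c d0 R K c1 c2 C4 B g E Rv ∧
          RFarK z b (2 / n) ε d0 R Cf CZ δ (ENNReal.ofReal (CK * ‖κ n ε‖ ^ 2)) cF B g E

/-- **the choice of the tile size** -/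
theorem ringT_of_meshF {z : ℂ} {b : ℝ} {κ : ℕ → ℝ → ℂ} (hκ : KapH κ) (H : RingMF z b κ) :
    RingT z b := by
  obtain ⟨C4, hC4, Cf, hCf, cF, H⟩ := H
  refine ⟨C4, hC4, Cf, hCf, cF, fun K c1 c2 hK h1 h2 h3 d0 hd0 hdb R hR hRd τ hτ => ?_⟩
  obtain ⟨CZ, CK, hCZ, hCK, H⟩ := H K c1 c2 hK h1 h2 h3 d0 hd0 hdb R hR hRd
  set η : ℝ := min 1 (τ / (CK + 1)) with hη
  have hη0 : 0 < η := by positivity
  have e1 := hκ η hη0
  have t0 : Tendsto (fun n : ℕ => (2 : ℝ) / n) atTop (𝓝 0) :=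
    tendsto_const_nhds.div_atTop tendsto_natCast_atTop_atTop
  have e2 : ∀ᶠ n : ℕ in atTop, (2 : ℝ) / n ≤ τ :=
    (t0.eventually (ge_mem_nhds hτ))
  have t1 : Tendsto (fun n : ℕ => CZ * Real.sqrt ((2 : ℝ) / n)) atTop (𝓝 0) := by
    have h4 := (Real.continuous_sqrt.tendsto 0).comp t0
    rw [Real.sqrt_zero] at h4
    have h5 := h4.const_mul CZ
    rw [mul_zero] at h5
    exact h5
  have e3 : ∀ᶠ n : ℕ in atTop, CZ * Real.sqrt ((2 : ℝ) / n) ≤ τ :=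
    t1.eventually (ge_mem_nhds hτ)
  obtain ⟨n, ⟨c, hc, hn⟩, ⟨⟨h4, h5⟩, h6⟩, h7⟩ :=
    (H.and_eventually (((e1.and e2).and e3).and (eventually_gt_atTop 0))).exists
  have hn0 : (0 : ℝ) < n := Nat.cast_pos.2 h7
  refine ⟨2 / n, c, by positivity, h5, hc, fun δ hδ => ?_⟩
  refine ((hn δ hδ).and h4).frequently.mono fun ε hε => ?_
  obtain ⟨⟨B, g, E, Rv, hD, hF⟩, h8⟩ := hε
  refine ⟨B, g, E, Rv, hD, hF.rfar h6 (ENNReal.ofReal_le_ofReal ?_)⟩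
  have h9 : ‖κ n ε‖ ^ 2 ≤ η := by
    calc ‖κ n ε‖ ^ 2 ≤ η ^ 2 := by gcongr
      _ ≤ η := by
        have : η ≤ 1 := min_le_left _ _
        nlinarith
  calc CK * ‖κ n ε‖ ^ 2 ≤ CK * (τ / (CK + 1)) := by
        gcongr
        exact h9.trans (min_le_right _ _)
    _ ≤ τ := by
        rw [mul_div_assoc', div_le_iff₀ (by positivity)]
        nlinarith

theorem body_of_meshF {z : ℂ} {b : ℝ} (hb : 0 < b) {κ : ℕ → ℝ → ℂ} (hκ : KapH κ)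
    (H : RingMF z b κ) : Body := body_of_ringT hb (ringT_of_meshF hκ H)

/-- subsequences -/
theorem freq_of_seq {P : ℕ → Prop} {f : ℕ → ℕ} (hf : Tendsto f atTop atTop)
    (H : ∀ᶠ w : ℕ in atTop, P (f w)) : ∃ᶠ n : ℕ in atTop, P n :=
  hf.frequently H.frequently

/-- 503's subsequence `n = (w + 8) m - 2` -/
theorem freq_win {P : ℕ → Prop} {m : ℕ} (hm : 0 < m)
    (H : ∀ᶠ w : ℕ in atTop, P ((w + 8) * m - 2)) : ∃ᶠ n : ℕ in atTop, P n := by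
  refine freq_of_seq ?_ H
  refine tendsto_atTop_mono (fun w => ?_) tendsto_id
  have : w + 8 ≤ (w + 8) * m := Nat.le_mul_of_pos_right _ hm
  show w ≤ (w + 8) * m - 2
  omega

end Crest.Agent.R143.QNumFx355
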