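import Crest.Agent.R143.Pos_653
import Crest.Agent.R143.TplG_204
import Crest.Agent.R143.Half_73
import Crest.Agent.R143.TileRR_345

/-!
# R143 (helper653), box R1 (C): the quenched tile bound in the language of finite sets of sites

* `gS S Q`, `gB S Q` (73) : sites and black sites of the configuration `S` in `Q`
* `cut_clr`, `all_clr` : `S ∩ ovr Q` and `S ∪ clr T τ` as `clr`
* `LG_q`, `LG_qn` : the gate darts of `clr M β` are those of the boxes
* `te_iff` : the tile event as `Tile`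
* `qtile_of` : `QTile` from a bound for `Tile` for the gate darts `p`, `p'`
* `fr_nxt` : the frames `(0, η)`, `((nxt (T η) t) 0, η rot t)` satisfy `Fr T`
-/

set_option autoImplicit false

noncomputable section

open scoped Classical

namespace Crest.Agent.R143.QTbx653

open Set
open Crest.ProbabilityR.Voronoi
open Crest.Agent.R143.B0x346 (GP)
open Crest.Agent.R143.PP0x831 Crest.Agent.R143.Poisx304 Crest.Agent.R143.Janx304
open Crest.Agent.R143.IndLocx279 Crest.Agent.R143.IndLoc3x279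
open Crest.Agent.R143.PWx978 Crest.Agent.R143.Tplx978
open Crest.Agent.R143.Fairx653 Crest.Agent.R143.Posx653 Crest.Agent.R143.TplIx204
open Crest.Agent.R143.PthFx765 Crest.Agent.R143.WLocx713 Crest.Agent.R143.TileRx228
open Crest.Agent.R143.Neckx921 (Tile Lk)
open Crest.Agent.R143.Harx315 (pr pr_mono)
open Crest.Agent.R143.CovBx126 (Mo)
open Crest.Agent.R143.RHx73 (sX_clr bX_clr)
open Crest.Agent.R143.Halfx73 (gS gB gB_sub)

variable {P : DT} {t : Tn} {RH LH : Cf → Prop} {a c : ℝ} {S : Cf} {T τ : Finset ℂ} {Q Q' : Set ℂ}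

lemma gS_mem {v : ℂ} (h : v ∈ gS S Q) : v ∈ Q := (Finset.mem_filter.1 h).2

lemma mem_S (hS : S.Finite) (hc : Sc S) {v : ℂ} {b : Bool} :
    (v, b) ∈ S ↔ v ∈ sx S ∧ (b = true ↔ v ∈ bk S) := by
  have h := eq_clr hS hc
  conv_lhs => rw [h]
  exact mem_clr

/-- the part of the configuration in a box -/
lemma cut_clr (hS : S.Finite) (hc : Sc S) : S ∩ ovr Q = clr (gS S Q) (gB S Q) := by
  ext ⟨v, b⟩
  rw [mem_clr, gS, gB, Finset.mem_filter, Finset.mem_filter]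
  simp only [mem_inter_iff, mem_S hS hc, ovr, mem_ofPred_eq]
  tauto

/-- the configuration with the fresh positions -/
lemma all_clr (hS : S.Finite) (hc : Sc S) (hSQ : S ⊆ ovr (Q ∪ Q'))
    (hT : ∀ s ∈ T, s ∉ Q ∪ Q') (hτ : τ ⊆ T) :
    S ∪ clr T τ = clr (gS S Q ∪ T ∪ gS S Q') (τ ∪ (gB S Q ∪ gB S Q')) := by
  ext ⟨v, b⟩
  simp only [mem_union, mem_clr, mem_S hS hc, gS, gB, Finset.mem_union, Finset.mem_filter]
  have a1 : v ∈ sx S → v ∈ Q ∨ v ∈ Q' := by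
    intro h
    have h1 : (v, decide (v ∈ bk S)) ∈ S := (mem_S hS hc).2 ⟨h, by simp⟩
    exact hSQ h1
  have a2 : v ∈ bk S → v ∈ sx S := fun h => bk_sub hS h
  have a3 : v ∈ T → ¬(v ∈ Q ∨ v ∈ Q') := fun h => hT v h
  have a4 : v ∈ τ → v ∈ T := fun h => hτ h
  tauto

lemma LG_q (hS : S.Finite) (hc : Sc S) {g : GPar} {p : ℂ × ℂ} : LG g Q S p ↔ LG g Q (clr (gS S Q) (gB S Q)) p := by
  rw [← cut_clr hS hc]
  exact (LG_cut subset_rfl p).symm

lemma gs_disj (hT : ∀ s ∈ T, s ∉ Q) : Disjoint (gS S Q) T := by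
  rw [Finset.disjoint_left]
  intro v h1 h2
  exact hT v h2 (gS_mem h1)

lemma gs_gs (h : Disjoint Q Q') : Disjoint (gS S Q) (gS S Q') := by
  rw [Finset.disjoint_left]
  intro v h1 h2
  exact Set.disjoint_left.1 h (gS_mem h1) (gS_mem h2)

/-- all sites -/
lemma coe_gS (hS : S.Finite) (hSQ : S ⊆ ovr (Q ∪ Q')) :
    ((gS S Q ∪ T ∪ gS S Q' : Finset ℂ) : Set ℂ) = psn S ∪ T := by
  ext v
  have h0 : v ∈ fs (psn S) ↔ v ∈ psn S := mem_fs (hS.image Prod.fst)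
  simp only [Finset.coe_union, mem_union, Finset.mem_coe, gS, Finset.mem_filter, sx]
  rw [h0]
  have a1 : v ∈ psn S → v ∈ Q ∨ v ∈ Q' := by
    rintro ⟨q, hq, rfl⟩
    exact hSQ hq
  tauto

/-- cutting to a box forgets the fresh positions -/
lemma cut_union (hT : ∀ s ∈ T, s ∉ Q) : (S ∪ clr T τ) ∩ ovr Q = S ∩ ovr Q := by
  ext ⟨v, b⟩
  simp only [mem_union, mem_inter_iff, mem_clr, ovr, mem_ofPred_eq]
  have := hT v
  tauto

lemma LG_union {g : GPar} (hT : ∀ s ∈ T, s ∉ Q) {p : ℂ × ℂ} :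
    LG g Q (S ∪ clr T τ) p ↔ LG g Q S p := by
  rw [← LG_cut (X := S ∪ clr T τ) subset_rfl p, cut_union hT, LG_cut subset_rfl p]

/-- all sites, 73's form -/
lemma sx_gS (hS : S.Finite) (hSQ : S ⊆ ovr (Q ∪ Q')) : sx S ∪ T = gS S Q ∪ T ∪ gS S Q' := by
  have h1 : (psn S).Finite := hS.image Prod.fst
  rw [← Finset.coe_inj, coe_gS hS hSQ, Finset.coe_union, sx, fs_fin h1]

/-- **the tile event as `Tile`** -/
theorem te_of (hS : S.Finite) (hc : Sc S) (hSQ : S ⊆ ovr (P.Q ∪ P.Qn t))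
    (hT : ∀ s ∈ T, s ∈ P.D t) (hτ : τ ⊆ T) {p p' : ℂ × ℂ} (hp : LG P.g P.Q S p)
    (hp' : LG (P.gn t) (P.Qn t) S p')
    (h : Tile (gS S P.Q ∪ T ∪ gS S (P.Qn t)) (gS S P.Q ∪ T ∪ gS S (P.Qn t))
      (τ ∪ (gB S P.Q ∪ gB S (P.Qn t))) (WR P.A P.B P.h t) p.1 p.2 p'.1 p'.2) :
    P.TE (t, true) (S ∪ clr T τ) := by
  have dD : Disjoint (P.Q ∪ P.Qn t) (P.D t) := P.D_disj t
  have hT1 : ∀ s ∈ T, s ∉ P.Q ∪ P.Qn t := fun s hs h1 => Set.disjoint_left.1 dD h1 (hT s hs)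
  set X : Cf := S ∪ clr T τ with hX
  have hXf : X.Finite := hS.union (clr_finite T τ)
  have e0 : X ∩ ovr (P.Z t) = X := by
    rw [inter_eq_left]
    rintro ⟨v, b⟩ (hv | hv)
    · exact Or.inl (hSQ hv)
    · exact Or.inr (hT v (mem_clr.1 hv).1)
  have e1 := all_clr hS hc hSQ hT1 hτ
  set M : Finset ℂ := gS S P.Q ∪ T ∪ gS S (P.Qn t) with hM
  set β : Finset ℂ := τ ∪ (gB S P.Q ∪ gB S (P.Qn t)) with hβ
  have hβM : β ⊆ M := by
    refine Finset.union_subset ?_ (Finset.union_subset ?_ ?_)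
    · exact (hτ.trans Finset.subset_union_right).trans Finset.subset_union_left
    · exact ((gB_sub hS _).trans Finset.subset_union_left).trans Finset.subset_union_left
    · exact (gB_sub hS _).trans Finset.subset_union_right
  have e2 : sX X = M := by rw [hX, e1, sX_clr]
  have e3 : bX X = β := by rw [hX, e1, bX_clr hβM]
  show TB true (WR P.A P.B P.h t) (LG P.g P.Q) (LG (P.gn t) (P.Qn t)) (X ∩ ovr (P.Z t))
  rw [e0]
  refine ⟨hXf, p, p', (LG_union fun s hs h1 => hT1 s hs (Or.inl h1)).2 hp,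
    (LG_union fun s hs h1 => hT1 s hs (Or.inr h1)).2 hp', fun _ => ?_, ?_⟩
  · rw [e2, e3]
    exact h.1
  · rw [e2, e3]
    exact h.2

/-- the moved gate dart -/
lemma KG_nx (hk : tr (nxt P.h t).e (KG P) S) : ∃ p', LG (P.gn t) (P.Qn t) S p' := by
  obtain ⟨-, p, hp⟩ := hk
  have hm : Mo (nxt P.h t).e.toEquiv (rot t) := mo_nxt P.h t
  refine ⟨mp (nxt P.h t).e p, (DT.LG_fr hm P.g P.Q p).2 ?_⟩
  exact (LG_cut subset_rfl p).1 hp

lemma KG_q (hk : KG P S) : ∃ p, LG P.g P.Q S p := by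
  obtain ⟨-, p, hp⟩ := hk
  exact ⟨p, (LG_cut subset_rfl p).1 hp⟩

/-- **`QTile` from the bound for the gate darts** -/
theorem qtile_of (hS : S.Finite) (hc : Sc S) (hSQ : S ⊆ ovr (P.Q ∪ P.Qn t))
    (hT : ∀ s ∈ T, s ∈ P.D t)
    (H : ∀ p p' : ℂ × ℂ, LG P.g P.Q (clr (gS S P.Q) (gB S P.Q)) p →
      LG (P.gn t) (P.Qn t) (clr (gS S (P.Qn t)) (gB S (P.Qn t))) p' →
      a ≤ pr T (fun τ => RH (S ∪ clr T τ)) →
      a ≤ pr T (fun τ => tr (nxt P.h t).e LH (S ∪ clr T τ)) →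
      c ≤ pr T fun τ => Tile (gS S P.Q ∪ T ∪ gS S (P.Qn t)) (gS S P.Q ∪ T ∪ gS S (P.Qn t))
        (τ ∪ (gB S P.Q ∪ gB S (P.Qn t))) (WR P.A P.B P.h t) p.1 p.2 p'.1 p'.2) :
    QTile P t RH LH a c S T := by
  intro k1 k2 h1 h2
  obtain ⟨p, hp⟩ := KG_q k1
  obtain ⟨p', hp'⟩ := KG_nx k2
  refine (H p p' ((LG_q hS hc).1 hp) ((LG_q hS hc).1 hp') h1 h2).trans
    (pr_mono fun τ hτ h => ?_)
  exact te_of hS hc hSQ hT hτ hp hp' h

/-! ### the frames -/

theorem nxt_zero (h : ℝ) (t : Tn) : (nxt h t).e 0 = ((h / 2 : ℝ) : ℂ) * (1 + rot t) := by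
  unfold nxt
  rw [Fr.aff_apply]
  push_cast
  ring

/-- **the frames of the two gates** -/
theorem fr_nxt (η T : ℝ) (t : Tn) :
    TileRRx345.Fr T 0 (η : ℂ) ((nxt (T * η) t).e 0) (rot t * (η : ℂ)) := by
  refine ⟨?_, ?_⟩
  · rw [nxt_zero]
    push_cast
    ring
  · cases t
    · left; simp [rot]
    · right; left; simp [rot, mul_comm]
    · right; right; simp [rot, mul_comm]

end Crest.Agent.R143.QTbx653
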