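import Crest.Agent.R143.TileG_176
import Crest.Agent.R143.VTc_169
import Crest.Agent.R143.RingN_765

/-!
# Row 143 (S0194), block H, box R6Q (helper253): the second moment of the ring charges

The input `hC` of 765's `ring_law` / `cycV` (239's `Cyc`) from 176's `tileH` (full tiles, environments
with holes), 169's crude bound and the quenched half `QF` of 490 / 683 for windows of five tiles.

* `VT_norm` : `‖VT Nn‖ = ‖VT fP‖`; `VT_nc` : crude bound with 176's `Nc`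
* `QFw` : the quenched half for the window of the tiles `a .. a + 4`
* **`pth_le`** : any path, any types, any net pieces `I`, `J` which contain the window
* `Ce_scale`, `err_le` : the error is at most `h²` for small mesh
* **`ring_hC`** : literal `hC` with `C = C₁ h²`, `C₁` depends on the constants of the template only
-/

set_option autoImplicit false

noncomputable section

namespace Crest.Agent.R143.R6Qx253

open MeasureTheory Set Filter Topology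
open Crest.ProbabilityR.Voronoi
open Crest.Agent.R143.PP0x831 Crest.Agent.R143.Poisx304 Crest.Agent.R143.Janx304
open Crest.Agent.R143.IndLocx279 Crest.Agent.R143.PWx978 Crest.Agent.R143.Tplx978
open Crest.Agent.R143.TileRx228 Crest.Agent.R143.PthFx765 Crest.Agent.R143.CorNx765
open Crest.Agent.R143.Dblx609 Crest.Agent.R143.Dbl2x609
open Crest.Agent.R143.WLocx713 Crest.Agent.R143.TplIx204 Crest.Agent.R143.SpRx169
  Crest.Agent.R143.SpVx169 Crest.Agent.R143.SpMx169 Crest.Agent.R143.VTcx169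
  Crest.Agent.R143.RngNx765
open Crest.Agent.R143.TileFx176 Crest.Agent.R143.TileGx176
open Crest.Agent.R143.FinMx609 (ps)
open Crest.Agent.R143.Locx922 (Hol)
open Crest.Agent.R143.SumScx302 (sq)
open Crest.Agent.R143.Sptx832 (fQ)
open Crest.Agent.R143.B0x346 (om)
open scoped ENNReal

variable {M : ℕ} {W : ℤ → ℤ × ℤ} (D : DT) (P : FPath M W) (r : ℝ)

/-! ### the two fields -/

theorem zC_nn (Q R : Set ℂ) (St En : Set (ℂ × Bool) → ℂ × ℂ → Prop) (X : Cf) :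
    zC (fQ Mass1x302.Nn Q) R St En X = (starRingEnd ℂ) (om * zC (fQ fP Q) R St En X) := by
  rw [VTcx169.zC_sum, VTcx169.zC_sum, Finset.mul_sum, map_sum]
  refine Finset.sum_congr rfl fun t _ => ?_
  unfold fQ
  split_ifs with h
  · rw [fP_Nn, Complex.conj_conj]
  · rw [mul_zero, map_zero]

theorem VT_nn (a : ℤ) (X : Cf) :
    VT D P r Mass1x302.Nn a X = (starRingEnd ℂ) (om * VT D P r fP a X) := by
  unfold VT AC
  rw [Finset.mul_sum, map_sum]
  exact Finset.sum_congr rfl fun j _ => zC_nn _ _ _ _ _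

theorem VT_norm (a : ℤ) (X : Cf) : ‖VT D P r Mass1x302.Nn a X‖ = ‖VT D P r fP a X‖ := by
  rw [VT_nn, RCLike.norm_conj, norm_mul, norm_om, one_mul]

/-! ### the crude bound -/

theorem sX_card {U : Set ℂ} {X : Cf} (hX : X.Finite) : (sX (X ∩ ovr U)).card = Nc U X := by
  unfold Nc
  rw [← coe_sX (hX.inter_of_left _), ncard_coe_finset]

theorem VT_nc (hh : 0 ≤ D.h) (hA : 0 ≤ D.A') (a : ℤ) {ρ : ℝ}
    (hρ : D.h + (max D.A' D.B' + D.A') ≤ ρ) {X : Cf} (hX : X.Finite) :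
    ENNReal.ofReal (‖VT D P r fP a X‖ ^ 2) ≤ ENNReal.ofReal (9 * cR D ^ 2) *
      (Nc (Metric.closedBall (cen D.h W (a + 1)) ρ) X : ℝ≥0∞) ^ 4 := by
  have h1 := VT_crude D P r hh hA a X
  rw [sX_card hX] at h1
  have h2 : Nc (reg3 D W a) X ≤ Nc (Metric.closedBall (cen D.h W (a + 1)) ρ) X := by
    refine Nc_mono (fun s hs => ?_) ((hX.image _).inter_of_left _)
    rw [Metric.mem_closedBall, dist_eq_norm]
    exact (reg3_ball D P hh a hs).trans hρ
  set n := Nc (Metric.closedBall (cen D.h W (a + 1)) ρ) X with hn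
  have hc := cR_nn D hh hA
  have h3 : ‖VT D P r fP a X‖ ≤ 3 * cR D * (n : ℝ) ^ 2 := by
    refine h1.trans ?_
    have h4 : (Nc (reg3 D W a) X : ℝ) ≤ n := by exact_mod_cast h2
    have h5 : (0 : ℝ) ≤ Nc (reg3 D W a) X := Nat.cast_nonneg _
    gcongr
  have h6 : ‖VT D P r fP a X‖ ^ 2 ≤ 9 * cR D ^ 2 * (n : ℝ) ^ 4 := by
    calc ‖VT D P r fP a X‖ ^ 2 ≤ (3 * cR D * (n : ℝ) ^ 2) ^ 2 :=
          pow_le_pow_left₀ (norm_nonneg _) h3 2
      _ = 9 * cR D ^ 2 * (n : ℝ) ^ 4 := by ring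
  refine (ENNReal.ofReal_le_ofReal h6).trans (le_of_eq ?_)
  rw [ENNReal.ofReal_mul (by positivity), ENNReal.ofReal_pow (Nat.cast_nonneg _),
    ENNReal.ofReal_natCast]

/-! ### any path -/

/-- **the quenched half** (490's `TileZ`) for the window of the tiles `a .. a + 4`, environments without
hole -/
def QFw {ε : ℝ} {Ty : Type} {T : Tpl ε Ty} {tu : Ty → Tn} (Hs : Std T D.A' D.B' D.h tu)
    {ty : ZMod M → Ty} (hty : Typ W tu ty) (a : ℤ) (d : ℝ) (I₀ J₀ : Finset (ZMod M)) (B : Set ℂ) :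
    Prop :=
  ∀ᵐ ω ∂sampleLaw, Hol (Ap ε B ω : Set ℂ) (Metric.closedBall (cen D.h W (a + 2)) (10 * D.h)) d →
    QF (Ap ε B ω) (TilePx176.win (pth P Hs ty hty).net I₀ J₀)
      (fun X => ENNReal.ofReal (‖VT D P r fP (a + 1) X‖ ^ 2)) (Rg D.h W (a + 2)) d

include P in
theorem rg_sq (hh : 0 < D.h) (a : ℤ) {d : ℝ} (hd : d ≤ D.h / 4) {B : Set ℂ}
    (hB : Metric.closedBall (cen D.h W a) (11 * D.h) ⊆ B) {o : ℂ} (ho : o ∈ Rg D.h W a) :
    Metric.closedBall o d ⊆ sq (cen D.h W a - (D.h + D.h * Complex.I)) (2 * D.h) ∩ B := by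
  obtain ⟨h1, h2⟩ := Rg_ball P ho
  intro z hz
  rw [Metric.mem_closedBall, dist_eq_norm] at hz
  have h3 := (Complex.abs_re_le_norm (z - o)).trans hz
  have h4 := (Complex.abs_im_le_norm (z - o)).trans hz
  rw [Complex.sub_re, abs_le] at h3
  rw [Complex.sub_im, abs_le] at h4
  rw [Complex.sub_re, abs_le] at h1
  rw [Complex.sub_im, abs_le] at h2
  refine ⟨?_, hB ?_⟩
  · unfold SumScx302.sq
    simp only [mem_ofPred_eq, Complex.sub_re, Complex.add_re, Complex.ofReal_re, Complex.mul_re,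
      Complex.I_re, mul_zero, Complex.ofReal_im, Complex.I_im, mul_one, sub_self, add_zero,
      Complex.sub_im, Complex.add_im, Complex.mul_im, zero_add]
    refine ⟨?_, ?_, ?_, ?_⟩ <;> linarith
  · rw [Metric.mem_closedBall, dist_eq_norm]
    have h5 := Complex.norm_le_abs_re_add_abs_im (z - cen D.h W a)
    have h6 : |(z - cen D.h W a).re| ≤ D.h := by
      rw [Complex.sub_re, abs_le]
      constructor <;> linarith
    have h7 : |(z - cen D.h W a).im| ≤ D.h := by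
      rw [Complex.sub_im, abs_le]
      constructor <;> linarith
    linarith

/-- **FULL TILES OF A PATH** -/
theorem pth_le : ∃ C : ℝ≥0∞, C ≠ ∞ ∧ ∀ {ε : ℝ} {Ty : Type} {T : Tpl ε Ty} {tu : Ty → Tn}
    {M : ℕ} {W : ℤ → ℤ × ℤ} (P : FPath M W) {D : DT} (Hs : Std T D.A' D.B' D.h tu)
    {ty : ZMod M → Ty} (hty : Typ W tu ty) (hn : Pr M 5) (a : ℤ) {τ : ℕ → Ty}
    (hτ : ∀ j : ℕ, j < 5 → ty ((a + (j : ℤ) : ℤ) : ZMod M) = τ j) {I J : Finset (ZMod M)},
    (win P Hs hty hn a hτ).I ⊆ I → (win P Hs hty hn a hτ).J ⊆ J →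
    (∀ k ∈ J, (pth P Hs ty hty).net.N k ⊆ I) → ε ≤ 2 * D.h →
    D.h + (max D.A' D.B' + D.A') ≤ 10 * D.h →
    ∀ {d r : ℝ} {B : Set ℂ}, 0 < d → d ≤ D.h / 4 → MeasurableSet B → Bornology.IsBounded B →
    (pth P Hs ty hty).net.reg I J ⊆ B → Metric.closedBall (cen D.h W (a + 2)) (11 * D.h) ⊆ B →
    QFw D P r Hs hty a d (win P Hs hty hn a hτ).I (win P Hs hty hn a hτ).J B →
    (T.c ^ 5 * (∫⁻ ω, T.A (cfg ε ω) ∂sampleLaw) ^ 6) *
      ∫⁻ ω, (pth P Hs ty hty).net.gw I J (cfg ε ω) *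
        ENNReal.ofReal (‖VT D P r Mass1x302.Nn (a + 1) (cfg ε ω)‖ ^ 2) ∂sampleLaw ≤
    (C * ENNReal.ofReal ((2 * D.h) ^ 2) + ENNReal.ofReal (9 * cR D ^ 2) *
        ENNReal.ofReal (Ce (10 * D.h) d * ε ^ 2)) *
      ∫⁻ ω, (pth P Hs ty hty).net.gw I J (cfg ε ω) ∂sampleLaw := by
  obtain ⟨C, hC, h⟩ := tileH
  refine ⟨C, hC, ?_⟩
  intro ε Ty T tu M W P D Hs ty hty hn a τ hτ I J hI hJ hN hε hD d r B hd hd4 hBm hBb hreg hcb hQ
  have hh : 0 < D.h := by linarith [Hs.hA, Hs.hAB, Hs.hh]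
  set w5 := win P Hs hty hn a hτ with hw5
  have hmass := w5.mass_eq
  have hm2 : w5.mass = T.c ^ w5.J.card * ∏ i ∈ w5.I, ∫⁻ ω, (pth P Hs ty hty).net.a i (cfg ε ω)
      ∂sampleLaw := (pth P Hs ty hty).net.mass w5.hN
  have hreg0 : (pth P Hs ty hty).net.reg w5.I w5.J ⊆ B := (Net.reg_mono _ hI hJ).trans hreg
  have hsub : reg3 D W (a + 1) ⊆ (pth P Hs ty hty).net.reg w5.I w5.J := by
    intro s hs
    obtain ⟨j, hj, hs⟩ := mem_iUnion₂.1 hs
    have hj' := Finset.mem_range.1 hj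
    have e : a + 1 + (j : ℤ) = a + ((j + 1 : ℕ) : ℤ) := by push_cast; ring
    rw [e] at hs
    exact RR_reg P Hs hty hn a hτ (j := j + 1) (by omega) hs
  have hloc : LocalOn ((pth P Hs ty hty).net.reg w5.I w5.J)
      (fun X => ENNReal.ofReal (‖VT D P r fP (a + 1) X‖ ^ 2)) :=
    LocalOn.comp (IndLocx279.LocalOn.mono hsub (VT_local3 D P r fP (a + 1)))
      fun z : ℂ => ENNReal.ofReal (‖z‖ ^ 2)
  have hfm : FinMeas fun X => ENNReal.ofReal (‖VT D P r fP (a + 1) X‖ ^ 2) := fun n =>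
    ((VT_fm D P r fP_meas (a + 1) n).norm.pow_const 2).ennreal_ofReal
  have key := h (pth P Hs ty hty).net I w5.I J w5.J (s := 2 * D.h) hε hI hJ hN w5.hN
    (cen D.h W (a + 2) - (D.h + D.h * Complex.I)) (Rg D.h W (a + 2)) B d (Rg_meas _ _ _) hBm hBb
    hreg0 (fun o ho => rg_sq D P hh (a + 2) hd4 hcb ho)
    (fun X => ENNReal.ofReal (‖VT D P r fP (a + 1) X‖ ^ 2)) hloc hfm
    (cen D.h W (a + 2)) (10 * D.h) d (Metric.closedBall (cen D.h W (a + 2)) (10 * D.h))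
    (ENNReal.ofReal (9 * cR D ^ 2)) hd (by linarith)
    ((Metric.closedBall_subset_closedBall (by linarith)).trans hcb) Subset.rfl
    (fun X hX => by
      have := VT_nc D P r hh.le Hs.hA.le (a + 1) hD hX
      rwa [show a + 1 + 1 = a + 2 by ring] at this) hQ
  have e1 : (pth P Hs ty hty).net.c = T.c := rfl
  rw [e1, ← hm2, hmass] at key
  simp only [VT_norm]
  exact key

/-! ### the error -/

theorem Ce_le {h : ℝ} (hh : 0 < h) :
    Ce (10 * h) (h / 10000) = Ce 10 (1 / 10000) / h ^ 2 := by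
  unfold Ce
  have e1 : mz (10 * h) (h / 10000) = mz 10 (1 / 10000) := by
    unfold mz
    congr 2
    field_simp
  rw [e1]
  have hp := Real.pi_pos
  field_simp

/-- the constant of the error -/
def K₁ : ℝ := 9 * (656 / 100) ^ 2 * Ce 10 (1 / 10000)

theorem K₁_nn : 0 ≤ K₁ := by
  have := Ce_nonneg 10 (1 / 10000)
  unfold K₁
  positivity

theorem err_le {D : DT} {η ε : ℝ} (hD : CorVx169.IsS D η) (hη : 0 < η)
    (hε : K₁ * ε ^ 2 ≤ D.h ^ 2) :
    ENNReal.ofReal (9 * cR D ^ 2) * ENNReal.ofReal (Ce (10 * D.h) (D.h / 10000) * ε ^ 2) ≤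
      ENNReal.ofReal (D.h ^ 2) := by
  have hh : D.h = 100 * η := hD.h
  have h0 : 0 < D.h := by rw [hh]; linarith
  have hc : cR D = 656 / 100 * D.h := by rw [cR_std D hD hη.le, hh]; ring
  rw [← ENNReal.ofReal_mul (by positivity), Ce_le h0]
  refine ENNReal.ofReal_le_ofReal (le_trans (le_of_eq ?_) hε)
  rw [hc]
  unfold K₁
  field_simp

/-! ### the closed ring -/

theorem std_le {D : DT} {η : ℝ} (hD : CorVx169.IsS D η) (hη : 0 < η) :
    D.h + (max D.A' D.B' + D.A') ≤ 10 * D.h := by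
  rw [hD.h, hD.A', hD.B', max_eq_right (by linarith)]
  linarith

/-- gates of the window of five tiles -/
def I5 (M : ℕ) (a : ℤ) : Finset (ZMod M) :=
  (Finset.range (5 + 1)).image fun j : ℕ => ((a + (j : ℤ) : ℤ) : ZMod M)

/-- tubes of the window of five tiles -/
def J5 (M : ℕ) (a : ℤ) : Finset (ZMod M) :=
  (Finset.range 5).image fun j : ℕ => ((a + (j : ℤ) : ℤ) : ZMod M)

/-- **`hC` OF THE RING** -/
theorem ring_hC {cc ca : ℝ≥0∞} (hcc : cc ≠ 0) (hca : ca ≠ 0) : ∃ C₁ : ℝ, 0 ≤ C₁ ∧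
    ∀ {ε η : ℝ} {T : Tpl ε (Tn × Bool)} {M : ℕ} {W : ℤ → ℤ × ℤ} [Fintype (ZMod M)]
    (P : FPath M W) {D : DT}, CorVx169.IsS D η → 0 < η → ∀ (Hs : Std T D.A' D.B' D.h Prod.fst)
    (b : Bool), Pr M 5 → ε ≤ 2 * D.h → K₁ * ε ^ 2 ≤ D.h ^ 2 → cc ≤ T.c →
    ca ≤ ∫⁻ ω, T.A (cfg ε ω) ∂sampleLaw → ∀ {r : ℝ} {B : Set ℂ}, MeasurableSet B →
    Bornology.IsBounded B → Rall D.A' D.B' D.h W ⊆ B → ∀ (o : ℤ) (k : ℕ),
    Metric.closedBall (cen D.h W (o + k)) (11 * D.h) ⊆ B →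
    QFw D P r Hs (rty_typ b) (o + k - 2) (D.h / 10000) (I5 M (o + k - 2)) (J5 M (o + k - 2)) B →
    ∫⁻ ω, gO P Hs b (cfg ε ω) * ENNReal.ofReal (‖SV D P r o k (cfg ε ω)‖ ^ 2) ∂sampleLaw ≤
      ENNReal.ofReal (C₁ * D.h ^ 2) * ∫⁻ ω, gO P Hs b (cfg ε ω) ∂sampleLaw := by
  obtain ⟨C, hC, h⟩ := pth_le
  refine ⟨(4 * C.toReal + 1) / (cc.toReal ^ 5 * ca.toReal ^ 6), by positivity, ?_⟩
  intro ε η T M W _ P D hD hη Hs b hM hε hε2 hc1 hc2 r B hBm hBb hR o k hcb hQ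
  have hct : cc ≠ ∞ := ne_top_of_le_ne_top T.c1 hc1
  have hat : ca ≠ ∞ := ne_top_of_le_ne_top ENNReal.one_ne_top (hc2.trans (Win.A_le T))
  have hh : 0 < D.h := by rw [hD.h]; linarith
  set a : ℤ := o + k - 2 with ha
  have e1 : a + 1 = o + k - 1 := by rw [ha]; ring
  have e2 : a + 2 = o + k := by rw [ha]; ring
  have key := h P (D := D) Hs (rty_typ b) hM a (τ := fun j => (tn W (a + (j : ℤ)), b))
    (fun j _ => rty_cast P b _) (I := Finset.univ) (J := Finset.univ) (Finset.subset_univ _)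
    (Finset.subset_univ _) (fun _ _ => Finset.subset_univ _) hε (std_le hD hη) (d := D.h / 10000)
    (r := r) (B := B) (by linarith) (by linarith) hBm hBb
    (by
      have : (pth P Hs (rty M W b) (rty_typ b)).net.reg Finset.univ Finset.univ =
        Rall D.A' D.B' D.h W := rreg P Hs b
      rw [this]
      exact hR) (by rw [e2]; exact hcb) hQ
  rw [e1] at key
  set L : ℝ≥0∞ := ∫⁻ ω, gO P Hs b (cfg ε ω) *
    ENNReal.ofReal (‖SV D P r o k (cfg ε ω)‖ ^ 2) ∂sampleLaw with hL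
  set G : ℝ≥0∞ := ∫⁻ ω, gO P Hs b (cfg ε ω) ∂sampleLaw with hG
  have k1 : (T.c ^ 5 * (∫⁻ ω, T.A (cfg ε ω) ∂sampleLaw) ^ 6) * L ≤
      (C * ENNReal.ofReal ((2 * D.h) ^ 2) + ENNReal.ofReal (9 * cR D ^ 2) *
        ENNReal.ofReal (Ce (10 * D.h) (D.h / 10000) * ε ^ 2)) * G := key
  have k2 : (cc ^ 5 * ca ^ 6) * L ≤ ENNReal.ofReal ((4 * C.toReal + 1) * D.h ^ 2) * G := by
    calc (cc ^ 5 * ca ^ 6) * L ≤ (T.c ^ 5 * (∫⁻ ω, T.A (cfg ε ω) ∂sampleLaw) ^ 6) * L := by gcongr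
      _ ≤ _ := k1
      _ ≤ (C * ENNReal.ofReal ((2 * D.h) ^ 2) + ENNReal.ofReal (D.h ^ 2)) * G := by
          gcongr
          exact err_le hD hη hε2
      _ = _ := by
          have e4 : (4 * C.toReal + 1) * D.h ^ 2 = C.toReal * (2 * D.h) ^ 2 + D.h ^ 2 := by ring
          rw [e4, ENNReal.ofReal_add (by positivity) (by positivity),
            ENNReal.ofReal_mul ENNReal.toReal_nonneg, ENNReal.ofReal_toReal hC]
  have hp0 : cc ^ 5 * ca ^ 6 ≠ 0 := mul_ne_zero (pow_ne_zero _ hcc) (pow_ne_zero _ hca)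
  have hpt : cc ^ 5 * ca ^ 6 ≠ ∞ := ENNReal.mul_ne_top (ENNReal.pow_ne_top hct)
    (ENNReal.pow_ne_top hat)
  have hreal : cc ^ 5 * ca ^ 6 = ENNReal.ofReal (cc.toReal ^ 5 * ca.toReal ^ 6) := by
    rw [ENNReal.ofReal_mul (by positivity), ENNReal.ofReal_pow ENNReal.toReal_nonneg,
      ENNReal.ofReal_pow ENNReal.toReal_nonneg, ENNReal.ofReal_toReal hct,
      ENNReal.ofReal_toReal hat]
  have hpos : 0 < cc.toReal ^ 5 * ca.toReal ^ 6 := by
    have h1 := ENNReal.toReal_pos hcc hct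
    have h2 := ENNReal.toReal_pos hca hat
    positivity
  have k3 : (cc ^ 5 * ca ^ 6) * L ≤ (cc ^ 5 * ca ^ 6) *
      (ENNReal.ofReal ((4 * C.toReal + 1) / (cc.toReal ^ 5 * ca.toReal ^ 6) * D.h ^ 2) * G) := by
    refine k2.trans (le_of_eq ?_)
    rw [← mul_assoc]
    congr 1
    rw [hreal, ← ENNReal.ofReal_mul hpos.le]
    congr 1
    rw [div_mul_eq_mul_div, mul_div_cancel₀ _ hpos.ne']
  exact (ENNReal.mul_le_mul_iff_right hp0 hpt).1 k3

end Crest.Agent.R143.R6Qx253
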