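import Crest.Agent.R143.BN_88
import Crest.Agent.R143.R6Q_253
import Crest.Agent.R143.RingWD_445
import Crest.Agent.R143.SqG_445

/-!
# Row 143 (S0194), block H: numbers of the error of the linear law (helper445)

* `tn_sqV`, `trn_sqV`, `sqv_turns`, `rsqv_turns` : the shifted square path has at most 4 turns
* `num_ring` : the numbers for `M = 4 (n + 2)`, `h = 1 / n`
* **`z_ring`** : 253's `ring_hC` and 88's `ring_bn'` for the weight with arms: the integral of the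
  majorant is at most `CE * m / c * √(2 / n)` times the mean of the weight
-/

set_option autoImplicit false

noncomputable section

open scoped Classical

namespace Crest.Agent.R143.QZx445

open MeasureTheory Set Filter Topology
open Crest.ProbabilityR.Voronoi
open Crest.Agent.R143.PP0x831 Crest.Agent.R143.Poisx304 Crest.Agent.R143.Janx304
open Crest.Agent.R143.IndLocx279 Crest.Agent.R143.PWx978 Crest.Agent.R143.Tplx978
open Crest.Agent.R143.Dblx609 Crest.Agent.R143.Dbl2x609 Crest.Agent.R143.HGluex136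
  Crest.Agent.R143.Asm3x414 Crest.Agent.R143.Asm4x414 Crest.Agent.R143.JColx54
open Crest.Agent.R143.WgtHx445 Crest.Agent.R143.BNx88 Crest.Agent.R143.R6Qx253
open Crest.Agent.R143.SqGx445
open Crest.Agent.R143.TileRx228 Crest.Agent.R143.PthFx765 Crest.Agent.R143.CorNx765
open Crest.Agent.R143.TplIx204 Crest.Agent.R143.SpVx169 Crest.Agent.R143.SqPx503
  Crest.Agent.R143.RngNx765 Crest.Agent.R143.TileFx176 Crest.Agent.R143.TileGx176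
open scoped ENNReal ComplexConjugate

/-! ### turns of the shifted square -/

theorem ge_sqV (K : ℕ) (v : ℤ × ℤ) (a : ℤ) : ge (sqV K v) a = ge (sqW K) a := by
  unfold ge sqV
  rw [add_sub_add_right_eq_sub]

theorem tn_sqV (K : ℕ) (v : ℤ × ℤ) (a : ℤ) : tn (sqV K v) a = tn (sqW K) a := by
  unfold tn
  rw [ge_sqV, ge_sqV]

theorem trn_sqV (K : ℕ) (v : ℤ × ℤ) (M : ℕ) [Fintype (ZMod M)] :
    Trn M (sqV K v) = Trn M (sqW K) := by
  unfold Trn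
  simp only [tn_sqV]

theorem sqv_turns {K : ℕ} (hK : 2 ≤ K) (v : ℤ × ℤ) [Fintype (ZMod (4 * K))] :
    (Trn (4 * K) (sqV K v)).card ≤ 4 := by
  rw [trn_sqV]
  exact sq_turns hK

theorem rsqv_turns {K : ℕ} (hK : 2 ≤ K) (v : ℤ × ℤ) [Fintype (ZMod (4 * K))] :
    (Trn (4 * K) (rvW (sqV K v))).card ≤ 4 :=
  (rv_trn (sqv_fpath (by omega) v)).trans (sqv_turns hK v)

/-! ### numbers -/

theorem num_M {n : ℕ} (hn : 1 ≤ n) : ((4 * (n + 2) : ℕ) : ℝ) * (1 / n) ≤ 12 := by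
  have h : (1 : ℝ) ≤ n := by exact_mod_cast hn
  push_cast
  rw [mul_one_div, div_le_iff₀ (by linarith)]
  linarith

/-- constant of `z_ring` -/
def cZ (C₁ : ℝ) : ℝ := 2 * (C₁ * (4608 * (12 * √12) + 162 * ((4 : ℕ) : ℝ) ^ 2))

theorem cZ_nonneg {C₁ : ℝ} (h : 0 ≤ C₁) : 0 ≤ cZ C₁ := by unfold cZ; positivity

theorem num_ring {C₁ m c : ℝ} (h1 : 0 ≤ C₁) (hm : 0 ≤ m) (hc : 0 < c) {n : ℕ} (hn : 1 ≤ n) :
    ENNReal.ofReal m * (ENNReal.ofReal (C₁ * (4608 * (12 * √12) + 162 * ((4 : ℕ) : ℝ) ^ 2) *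
      √(1 / (n : ℝ))) * (2 * (ENNReal.ofReal c)⁻¹)) ≤
      ENNReal.ofReal (cZ C₁ * m / c * √(2 / n)) := by
  have hn0 : (0 : ℝ) < n := by exact_mod_cast hn
  rw [← ENNReal.ofReal_inv_of_pos hc, show (2 : ℝ≥0∞) = ENNReal.ofReal 2 by norm_num,
    ← ENNReal.ofReal_mul (by norm_num), ← ENNReal.ofReal_mul (by positivity),
    ← ENNReal.ofReal_mul hm]
  refine ENNReal.ofReal_le_ofReal ?_
  have h2 : √(1 / (n : ℝ)) ≤ √(2 / n) := by
    refine Real.sqrt_le_sqrt ?_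
    gcongr
    norm_num
  calc m * (C₁ * (4608 * (12 * √12) + 162 * ((4 : ℕ) : ℝ) ^ 2) * √(1 / (n : ℝ)) * (2 * c⁻¹))
      = cZ C₁ * m / c * √(1 / (n : ℝ)) := by
        unfold cZ
        ring
    _ ≤ _ := by
        have := cZ_nonneg h1
        gcongr

/-! ### the ring -/

/-- **the error of the linear law times the number of the deep chords** -/
theorem z_ring {cc ca : ℝ≥0∞} (hcc : cc ≠ 0) (hca : ca ≠ 0) : ∃ CE : ℝ, 0 ≤ CE ∧
    ∀ {ε η : ℝ} {T : Tpl ε (Tn × Bool)} {n : ℕ} {W : ℤ → ℤ × ℤ} [Fintype (ZMod (4 * (n + 2)))]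
    (P : FPath (4 * (n + 2)) W) {D : DT}, CorVx169.IsS D η → 0 < η →
    ∀ (Hs : Std T D.A' D.B' D.h Prod.fst) (b : Bool), 2 ≤ n → D.h = 1 / n → ε ≤ 2 * D.h →
    K₁ * ε ^ 2 ≤ D.h ^ 2 → cc ≤ T.c → ca ≤ ∫⁻ ω, T.A (cfg ε ω) ∂sampleLaw →
    (Trn (4 * (n + 2)) W).card ≤ 4 →
    ∀ {r : ℝ} {B : Set ℂ}, MeasurableSet B → Bornology.IsBounded B →
    Rall D.A' D.B' D.h W ⊆ B → ∀ o : ℤ,
    (∀ k < 4 * (n + 2), Metric.closedBall (cen D.h W (o + (k : ℕ))) (11 * D.h) ⊆ B) →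
    (∀ k < 4 * (n + 2), QFw D P r Hs (rty_typ b) (o + (k : ℕ) - 2) (D.h / 10000)
      (I5 (4 * (n + 2)) (o + (k : ℕ) - 2)) (J5 (4 * (n + 2)) (o + (k : ℕ) - 2)) B) →
    ∀ {Bb Ui Uo : Set ℂ} {go F e : Cf → ℝ≥0∞} {c : ℝ}, 0 < c →
    WD ε Bb Ui Uo (gO P Hs b) go F e (ENNReal.ofReal c)⁻¹ → Rall D.A' D.B' D.h W ⊆ Ui →
    ∀ {N : Finset ℂ → Finset ℂ → ℝ≥0∞} {m : ℝ}, 0 ≤ m →
    (∀ᵐ ω ∂sampleLaw, ∀ β ∈ (Ap ε Bb ω).powerset,
      wt Bb (gO P Hs b) go F e (paint (Ap ε Bb ω) β) ≠ 0 →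
        N (Ap ε Bb ω) β ≤ ENNReal.ofReal m) →
    ∃ (C : ℝ) (R : Sample → ℝ≥0∞), 0 ≤ C ∧ C ≤ CE * D.h ^ 2 ∧
      MajQ ε Bb (wt Bb (gO P Hs b) go F e)
        (fun A β => ENNReal.ofReal (BO P Hs b r o 4 C (paint A β)) * N A β) R ∧
      ∫⁻ ω, R ω ∂sampleLaw ≤ ENNReal.ofReal (cZ CE * m / c * √(2 / n)) *
        Mg ε Bb (wt Bb (gO P Hs b) go F e) := by
  obtain ⟨C₁, hC₁, h⟩ := ring_hC hcc hca
  refine ⟨C₁, hC₁, ?_⟩
  intro ε η T n W _ P D hD hη Hs b hn hDh hε hε2 h1 h2 ht r B hBm hBb hRB o hcen hQ Bb Ui Uo go F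
    e c hc H hU N m hm hN
  have hn0 : (2 : ℝ) ≤ n := by exact_mod_cast hn
  have hh : 0 < D.h := by rw [hDh]; positivity
  have hh1 : D.h ≤ 1 := by
    rw [hDh]
    exact (div_le_one (by linarith)).2 (by linarith)
  have hPr : Pr (4 * (n + 2)) 5 := Or.inr (by omega)
  have hA0 : ∫⁻ ω, T.A (cfg ε ω) ∂sampleLaw ≠ 0 := fun h0 => hca (le_zero_iff.1 (h0 ▸ h2))
  have hC : ∀ k < 4 * (n + 2), ∫⁻ ω, gO P Hs b (cfg ε ω) *
      ENNReal.ofReal (‖SV D P r o k (cfg ε ω)‖ ^ 2) ∂sampleLaw ≤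
      ENNReal.ofReal (C₁ * D.h ^ 2) * ∫⁻ ω, gO P Hs b (cfg ε ω) ∂sampleLaw := fun k hk =>
    h P hD hη Hs b hPr hε hε2 h1 h2 hBm hBb hRB o k (hcen k hk) (hQ k hk)
  obtain ⟨R, hR, hI⟩ := ring_bn' (t := 4) (N0 := 12) P Hs b r hA0 o ht (by omega) (by omega) hC₁ hh hh1
    (by rw [hDh]; exact num_M (by omega)) hC H hU hN
  refine ⟨C₁ * D.h ^ 2, R, by positivity, le_rfl, hR, hI.trans ?_⟩
  refine mul_le_mul_left ?_ _
  rw [hDh]
  exact num_ring (n := n) hC₁ hm hc (by omega)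

end Crest.Agent.R143.QZx445
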