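import Crest.Agent.R143.RB1_54
import Crest.Agent.R143.Crs6_117

/-!
# Row 143 (S0194): combinatorial quads (helper54)

* `Qd S V B r` : Delaunay triangulation of `S`, inner sites `V`, four disjoint connected classes
  `B 0 .. B 3` of outer sites (counterclockwise), `r k` = the hull edge from the class `k - 1` to the
  class `k`
* `Qd.N` : its network (killed edges = pairs inside a class, marks `r 0, r 2, r 3`)
* `Qd.hnet`, `Qd.pos` : the order of the marks
* `Qd.Crs`, `Qd.pr` : chains from `B i` to `B (i + 2)` in a set of sites, their probability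
* `Qd.xor` : black chain `B 0 - B 2` iff no white chain `B 1 - B 3`
* `Qd.exists_box` : the network is a `Box`, `p = pr`
-/

set_option autoImplicit false
set_option linter.all false

noncomputable section

open scoped Classical

namespace Crest.Agent.R143.Qdx54

open Crest.Agent.R143.B0x346 Crest.Agent.R143.DelGx806 Crest.Agent.R143.DelRx806
  Crest.Agent.R143.B0Dx346 Crest.Agent.R143.JColx54 Crest.Agent.R143.JCol2x54
  Crest.Agent.R143.JWalkx872 Crest.Agent.R143.JCardx872 Crest.Agent.R143.Crsx117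
open Crest.Agent.R143.Crs6x117 (adj_of_hull chn_xor)

/-- **combinatorial quad** -/
structure Qd (S V : Finset ℂ) (B : ZMod 4 → Set ℂ) (r : ZMod 4 → ℂ × ℂ) : Prop where
  gp : GP (S : Set ℂ)
  sub : ∀ i, B i ⊆ S
  disj : ∀ i j, i ≠ j → Disjoint (B i) (B j)
  /-- inner sites = sites in no class -/
  inn : ∀ v, v ∈ V ↔ v ∈ S ∧ ∀ i, v ∉ B i
  hr : ∀ k, hullE S (r k).1 (r k).2
  end1 : ∀ k, (r k).1 ∈ B (k - 1)
  end2 : ∀ k, (r k).2 ∈ B k
  /-- a hull edge which is not a mark joins two sites of the same class -/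
  hull : ∀ a b, hullE S a b → (∃ k, r k = (a, b)) ∨ ∃ i, a ∈ B i ∧ b ∈ B i
  /-- the classes are connected -/
  con : ∀ i, ∀ v ∈ B i, ∀ w ∈ B i,
    Relation.ReflTransGen (fun a b => a ∈ B i ∧ b ∈ B i ∧ Adj S a b) v w

variable {S V : Finset ℂ} {B : ZMod 4 → Set ℂ} {r : ZMod 4 → ℂ × ℂ}

namespace Qd

variable (O : Qd S V B r)

/-- the triangulation as a `Trg` -/
def trg (O : Qd S V B r) : Trg ℂ where
  T := delT S
  rot := fun h => (g1 S O.gp).1 _ _ _ h
  uniq := fun h h' => (g1 S O.gp).2.1 _ _ _ _ h h'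
  ne := fun h => (g1 S O.gp).2.2 _ _ _ h

/-- the network of a quad -/
def N (O : Qd S V B r) : Net ℂ where
  T := delT S
  rot := fun h => (g1 S O.gp).1 _ _ _ h
  uniq := fun h h' => (g1 S O.gp).2.1 _ _ _ _ h h'
  ne := fun h => (g1 S O.gp).2.2 _ _ _ h
  kl := {p | ∃ i, p.1 ∈ B i ∧ p.2 ∈ B i}
  klsym := by
    rintro a b ⟨i, h1, h2⟩
    exact ⟨i, h2, h1⟩
  ex := fun k => if k = 0 then r 0 else if k = 1 then r 2 else r 3

include O

/-- the class of a site is unique -/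
theorem uniq {v : ℂ} {i j : ZMod 4} (hi : v ∈ B i) (hj : v ∈ B j) : i = j := by
  by_contra h
  exact Set.disjoint_left.1 (O.disj i j h) hi hj

theorem r_ne {i j : ZMod 4} (h : i ≠ j) : r i ≠ r j := fun e => by
  have h1 := O.end2 i
  rw [e] at h1
  exact h (O.uniq h1 (O.end2 j))

/-- the two ends of a mark are in no common class -/
theorem r_not_same {k i : ZMod 4} (h1 : (r k).1 ∈ B i) (h2 : (r k).2 ∈ B i) : False := by
  have e1 := O.uniq h1 (O.end1 k)
  have e2 := O.uniq h2 (O.end2 k)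
  have e3 : k - 1 = k := e1.symm.trans e2
  have : ∀ k : ZMod 4, k - 1 ≠ k := by decide
  exact this k e3

theorem hull_cls {a b : ℂ} (h : hullE S a b) : (∃ i, a ∈ B i) ∧ ∃ i, b ∈ B i := by
  rcases O.hull a b h with ⟨k, hk⟩ | ⟨i, h1, h2⟩
  · have e1 : a = (r k).1 := by rw [hk]
    have e2 : b = (r k).2 := by rw [hk]
    exact ⟨⟨_, e1 ▸ O.end1 k⟩, ⟨_, e2 ▸ O.end2 k⟩⟩
  · exact ⟨⟨i, h1⟩, ⟨i, h2⟩⟩

theorem ex0 : O.N.ex 0 = r 0 := rfl
theorem ex1 : O.N.ex 1 = r 2 := by
  show (if (1 : ZMod 3) = 0 then r 0 else if (1 : ZMod 3) = 1 then r 2 else r 3) = r 2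
  rw [if_neg (by decide), if_pos rfl]
theorem ex2 : O.N.ex 2 = r 3 := by
  show (if (2 : ZMod 3) = 0 then r 0 else if (2 : ZMod 3) = 1 then r 2 else r 3) = r 3
  rw [if_neg (by decide), if_neg (by decide)]

theorem mem_kl {a b : ℂ} : (a, b) ∈ O.N.kl ↔ ∃ i, a ∈ B i ∧ b ∈ B i := Iff.rfl

theorem mem_exS {p : ℂ × ℂ} : p ∈ O.N.exS ↔ ∃ k : ZMod 4, k ≠ 1 ∧ r k = p := by
  constructor
  · rintro ⟨k, hk⟩
    have h3 : ∀ k : ZMod 3, k = 0 ∨ k = 1 ∨ k = 2 := by decide
    rcases h3 k with rfl | rfl | rfl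
    · rw [O.ex0] at hk; exact ⟨0, by decide, hk⟩
    · rw [O.ex1] at hk; exact ⟨2, by decide, hk⟩
    · rw [O.ex2] at hk; exact ⟨3, by decide, hk⟩
  · rintro ⟨k, h1, hk⟩
    have h4 : ∀ k : ZMod 4, k = 0 ∨ k = 1 ∨ k = 2 ∨ k = 3 := by decide
    rcases h4 k with rfl | rfl | rfl | rfl
    · exact ⟨0, by rw [O.ex0]; exact hk⟩
    · exact absurd rfl h1
    · exact ⟨1, by rw [O.ex1]; exact hk⟩
    · exact ⟨2, by rw [O.ex2]; exact hk⟩

/-- an edge inside one class is no mark -/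
theorem not_exS {a b : ℂ} {i : ZMod 4} (ha : a ∈ B i) (hb : b ∈ B i) : (a, b) ∉ O.N.exS := by
  rw [O.mem_exS]
  rintro ⟨k, -, hk⟩
  apply O.r_not_same (k := k) (i := i)
  · rw [hk]; exact ha
  · rw [hk]; exact hb

/-! ### order of the marks -/

variable {n : ℕ} {w : ℤ → ℂ} {m : ℤ → ℤ}

/-- along the hull, as long as there is no mark, the class is constant -/
theorem run (H : HullCyc S n w) {i : ZMod 4} {a b : ℤ} (hab : a ≤ b) (ha : w a ∈ B i)
    (h : ∀ j, a ≤ j → j < b → ∀ k, r k ≠ hm w j) : w b ∈ B i := by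
  obtain ⟨q, rfl⟩ := Int.le.dest hab
  induction q with
  | zero => simpa using ha
  | succ q ih =>
    have h1 := ih (by linarith) (fun j h1 h2 => h j h1 (by push_cast; linarith))
    rcases O.hull _ _ (H.edge (a + q)) with ⟨k, hk⟩ | ⟨l, h2, h3⟩
    · exact absurd hk (h (a + q) (by linarith) (by push_cast; linarith) k)
    · have : l = i := O.uniq h2 h1
      subst this
      have e : a + ((q + 1 : ℕ) : ℤ) = a + q + 1 := by push_cast; ring
      rw [e]
      exact h3

/-- the next mark -/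
theorem next (H : HullCyc S n w) {k : ZMod 4} {j J : ℤ} {l : ZMod 4} (hj : r k = hm w j)
    (hJ : r l = hm w J) (hjJ : j < J) : ∃ j', j < j' ∧ j' ≤ J ∧ r (k + 1) = hm w j' := by
  have hex : ∃ q : ℕ, ∃ l, r l = hm w (j + 1 + q) := by
    refine ⟨(J - (j + 1)).toNat, l, ?_⟩
    rw [Int.toNat_of_nonneg (by omega)]
    rw [show j + 1 + (J - (j + 1)) = J by ring]
    exact hJ
  obtain ⟨l', hl'⟩ := Nat.find_spec hex
  set q := Nat.find hex with hq
  have hmin : ∀ q', q' < q → ∀ l, r l ≠ hm w (j + 1 + q') := by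
    intro q' h l h'
    exact Nat.find_min hex h ⟨l, h'⟩
  have h0 : w (j + 1) ∈ B k := by
    have := O.end2 k
    rw [hj] at this
    exact this
  have h1 : w (j + 1 + q) ∈ B k := by
    refine O.run H (by omega) h0 ?_
    intro i h2 h3 l h4
    refine hmin (i - (j + 1)).toNat (by omega) l ?_
    rw [Int.toNat_of_nonneg (by omega), show j + 1 + (i - (j + 1)) = i by ring]
    exact h4
  have h2 := O.end1 l'
  rw [hl'] at h2
  have h3 : l' - 1 = k := O.uniq h2 h1
  have h4 : l' = k + 1 := by rw [← h3]; ring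
  refine ⟨j + 1 + q, by omega, ?_, by rw [← h4]; exact hl'⟩
  by_contra hc
  push Not at hc
  have := hmin (J - (j + 1)).toNat (by omega) l
  rw [Int.toNat_of_nonneg (by omega), show j + 1 + (J - (j + 1)) = J by ring] at this
  exact this hJ

theorem hm_per (H : HullCyc S n w) (j : ℤ) : hm w (j + n) = hm w j := by
  unfold hm
  rw [H.per, show j + (n : ℤ) + 1 = j + 1 + n by ring, H.per]

/-- **positions of the four marks** -/
theorem pos4 (H : HullCyc S n w) : ∃ j0 j1 j2 j3 : ℤ, j0 < j1 ∧ j1 < j2 ∧ j2 < j3 ∧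
    j3 < j0 + n ∧ r 0 = hm w j0 ∧ r 1 = hm w j1 ∧ r 2 = hm w j2 ∧ r 3 = hm w j3 := by
  have hn : (0 : ℤ) < n := by exact_mod_cast H.pos
  obtain ⟨j0, -, -, a1, a2⟩ := H.all _ _ (O.hr 0)
  have e0 : r 0 = hm w j0 := Prod.ext a1.symm a2.symm
  have e0' : r 0 = hm w (j0 + n) := by rw [hm_per O H]; exact e0
  obtain ⟨j1, h1, h1', e1⟩ := O.next H e0 e0' (by linarith)
  have n1 : j1 ≠ j0 + n := by
    rintro rfl
    exact O.r_ne (by decide : (0 : ZMod 4) + 1 ≠ 0) (e1.trans e0'.symm)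
  obtain ⟨j2, h2, h2', e2⟩ := O.next H e1 e0' (lt_of_le_of_ne h1' n1)
  have n2 : j2 ≠ j0 + n := by
    rintro rfl
    exact O.r_ne (by decide : (0 : ZMod 4) + 1 + 1 ≠ 0) (e2.trans e0'.symm)
  obtain ⟨j3, h3, h3', e3⟩ := O.next H e2 e0' (lt_of_le_of_ne h2' n2)
  have n3 : j3 ≠ j0 + n := by
    rintro rfl
    exact O.r_ne (by decide : (0 : ZMod 4) + 1 + 1 + 1 ≠ 0) (e3.trans e0'.symm)
  exact ⟨j0, j1, j2, j3, h1, h2, h3, lt_of_le_of_ne h3' n3, e0, e1, e2, e3⟩

theorem card3 : 3 ≤ S.card := by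
  obtain ⟨⟨c, hc⟩, -⟩ := O.hr 0
  obtain ⟨h1, h2, h3, h4, -⟩ := mem_delT.1 hc
  have n1 : (r 0).1 ≠ (r 0).2 := (g1 S O.gp).2.2 _ _ _ hc
  have n2 : (r 0).2 ≠ c := (g1 S O.gp).2.2 _ _ _ ((g1 S O.gp).1 _ _ _ hc)
  have n3 : c ≠ (r 0).1 := (g1 S O.gp).2.2 _ _ _ ((g1 S O.gp).1 _ _ _ ((g1 S O.gp).1 _ _ _ hc))
  have h5 : ({(r 0).1, (r 0).2, c} : Finset ℂ) ⊆ S := by
    intro x hx
    simp only [Finset.mem_insert, Finset.mem_singleton] at hx
    rcases hx with rfl | rfl | rfl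
    · exact h1
    · exact h2
    · exact h3
  have h6 : ({(r 0).1, (r 0).2, c} : Finset ℂ).card = 3 :=
    Finset.card_eq_three.2 ⟨_, _, _, n1, n3.symm, n2, rfl⟩
  rw [← h6]
  exact Finset.card_le_card h5

/-- **the network of a quad is a network** -/
theorem hnet : HNet S O.N where
  gp := O.gp
  tri := rfl
  hex := by
    intro k
    have h3 : ∀ k : ZMod 3, k = 0 ∨ k = 1 ∨ k = 2 := by decide
    rcases h3 k with rfl | rfl | rfl
    · rw [O.ex0]; exact O.hr 0
    · rw [O.ex1]; exact O.hr 2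
    · rw [O.ex2]; exact O.hr 3
  live := by
    intro k
    have key : ∀ k, r k ∉ O.N.kl := by
      intro k hk
      obtain ⟨i, h1, h2⟩ := hk
      exact O.r_not_same h1 h2
    have h3 : ∀ k : ZMod 3, k = 0 ∨ k = 1 ∨ k = 2 := by decide
    rcases h3 k with rfl | rfl | rfl
    · rw [O.ex0]; exact key 0
    · rw [O.ex1]; exact key 2
    · rw [O.ex2]; exact key 3
  ccw := by
    obtain ⟨n, w, H⟩ := hull_cycle O.gp O.card3
    obtain ⟨j0, j1, j2, j3, h1, h2, h3, h4, e0, e1, e2, e3⟩ := O.pos4 H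
    rw [O.ex0, O.ex1, O.ex2, e0, e2, e3]
    exact Planarx54.mid_pos H (by linarith) h3 h4

theorem pp0 (Pm : Sidesx697.Pos O.N n w m) : r 0 = hm w (m 0) := by
  have e := Pm.ex 0
  rw [Int.cast_zero, O.ex0] at e
  exact e

theorem pp1 (Pm : Sidesx697.Pos O.N n w m) : r 2 = hm w (m 1) := by
  have e := Pm.ex 1
  rw [Int.cast_one, O.ex1] at e
  exact e

theorem pp2 (Pm : Sidesx697.Pos O.N n w m) : r 3 = hm w (m 2) := by
  have e := Pm.ex 2
  rw [show (((2 : ℤ)) : ZMod 3) = 2 from rfl, O.ex2] at e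
  exact e

/-- the mark `1` lies between the marks `0` and `2` -/
theorem pos1 (H : HullCyc S n w) (Pm : Sidesx697.Pos O.N n w m) :
    ∃ j1, m 0 < j1 ∧ j1 < m 1 ∧ r 1 = hm w j1 := by
  have m01 : m 0 < m 1 := Pm.mono (by norm_num)
  obtain ⟨j1, h1, h2, e1⟩ := O.next H (O.pp0 Pm) (O.pp1 Pm) m01
  refine ⟨j1, h1, lt_of_le_of_ne h2 ?_, e1⟩
  rintro rfl
  exact O.r_ne (by decide : (0 : ZMod 4) + 1 ≠ 2) (e1.trans (O.pp1 Pm).symm)

/-- dead edges of a class are walls -/
theorem wall_of {a b : ℂ} {i : ZMod 4} (ha : a ∈ B i) (hb : b ∈ B i) (h : Adj S a b) :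
    Sidesx697.Wall O.N a b :=
  ⟨(mem_E O.hnet.tri).2 h, O.not_exS ha hb, O.not_exS hb ha, Or.inl ⟨i, ha, hb⟩⟩

theorem free (H : HullCyc S n w) (Pm : Sidesx697.Pos O.N n w m) : Free S O.N V where
  sub := fun v hv => ((O.inn v).1 hv).1
  live := by
    rintro a ha b _ ⟨i, h1, h2⟩
    exact ((O.inn a).1 ha).2 i h1
  nh := by
    intro a ha b
    have ha' := ((O.inn a).1 ha).2
    constructor
    · intro h
      obtain ⟨i, hi⟩ := (O.hull_cls h).1
      exact ha' i hi
    · intro h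
      obtain ⟨i, hi⟩ := (O.hull_cls h).2
      exact ha' i hi
  out := by
    intro v hv hvI
    have : ∃ i, v ∈ B i := by
      by_contra hc
      push Not at hc
      exact hvI ((O.inn v).2 ⟨hv, hc⟩)
    obtain ⟨i, hi⟩ := this
    have hcon : Relation.ReflTransGen (Sidesx697.Wall O.N) (r i).2 v := by
      have h1 := O.con i _ (O.end2 i) v hi
      refine Relation.ReflTransGen.mono ?_ _ _ h1
      rintro a b ⟨h2, h3, h4⟩
      exact O.wall_of h2 h3 h4
    have h4 : ∀ k : ZMod 4, k = 0 ∨ k = 1 ∨ k = 2 ∨ k = 3 := by decide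
    rcases h4 i with rfl | rfl | rfl | rfl
    · refine ⟨0, ?_⟩
      unfold Sidesx697.Side
      rw [O.ex0]
      exact hcon
    · refine ⟨0, ?_⟩
      obtain ⟨j1, h1, h2, h3⟩ := O.pos1 H Pm
      have hT := O.hnet.tri
      have hn : (0 : ℤ) < n := by exact_mod_cast H.pos
      have p0 := O.pp0 Pm
      have m12 : m 1 < m 2 := Pm.mono (by norm_num)
      have m23 : m 2 < m 0 + n := by
        rw [← Pm.per 0]
        exact Pm.mono (by norm_num)
      have key : ∀ q : ℕ, m 0 + 1 + q ≤ m 1 → Sidesx697.Side O.N 0 (w (m 0 + 1 + q)) := by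
        intro q
        induction q with
        | zero =>
          intro _
          unfold Sidesx697.Side
          rw [O.ex0, p0]
          simp only [hm, Nat.cast_zero, add_zero]
          exact Relation.ReflTransGen.refl
        | succ q ih =>
          intro hq
          push_cast at hq
          have h5 := ih (by linarith)
          refine Relation.ReflTransGen.tail h5 ?_
          have e : m 0 + 1 + ((q + 1 : ℕ) : ℤ) = m 0 + 1 + q + 1 := by push_cast; ring
          rw [e]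
          have hh := H.edge (m 0 + 1 + q)
          have hx : (w (m 0 + 1 + q), w (m 0 + 1 + q + 1)) ∉ O.N.exS := by
            rintro ⟨k, hk⟩
            have h3 : ∀ k : ZMod 3, k = 0 ∨ k = 1 ∨ k = 2 := by decide
            have e0 := Pm.ex 0
            have e1 := Pm.ex 1
            have e2 := Pm.ex 2
            simp only [Int.cast_zero, Int.cast_one, Int.cast_ofNat] at e0 e1 e2
            rcases h3 k with rfl | rfl | rfl
            · rw [e0] at hk
              exact hm_ne H (by linarith) (by linarith) hk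
            · rw [e1] at hk
              exact hm_ne H (by linarith) (by linarith) hk.symm
            · rw [e2] at hk
              exact hm_ne H (by linarith) (by linarith) hk.symm
          refine ⟨(mem_E hT).2 (adj_of_hull hh), hx, ?_, Or.inr (Or.inl ?_)⟩
          · intro h'
            exact hullE_asymm hh (exS_hull O.hnet h')
          · intro c
            rw [hT]
            exact hh.2 c
      have h6 := key (j1 - m 0).toNat (by rw [Int.toNat_of_nonneg (by linarith)]; linarith)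
      rw [Int.toNat_of_nonneg (by linarith)] at h6
      have e : m 0 + 1 + (j1 - m 0) = j1 + 1 := by ring
      rw [e] at h6
      have h7 : (r 1).2 = w (j1 + 1) := by rw [h3]; rfl
      rw [h7] at hcon
      exact Relation.ReflTransGen.trans h6 hcon
    · refine ⟨1, ?_⟩
      unfold Sidesx697.Side
      rw [O.ex1]
      exact hcon
    · refine ⟨2, ?_⟩
      unfold Sidesx697.Side
      rw [O.ex2]
      exact hcon

/-! ### the colouring -/

omit O in
/-- the sites of the classes `0` and `2` -/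
def B02 (S : Finset ℂ) (B : ZMod 4 → Set ℂ) : Finset ℂ := S.filter fun v => v ∈ B 0 ∨ v ∈ B 2

theorem mem_B02 {v : ℂ} : v ∈ B02 S B ↔ v ∈ B 0 ∨ v ∈ B 2 := by
  unfold B02
  rw [Finset.mem_filter]
  constructor
  · exact fun h => h.2
  · intro h
    exact ⟨by rcases h with h | h; exacts [O.sub _ h, O.sub _ h], h⟩

theorem B02_cls {v : ℂ} {i : ZMod 4} (h : v ∈ B i) : v ∈ B02 S B ↔ (i = 0 ∨ i = 2) := by
  rw [O.mem_B02]
  constructor
  · rintro (h1 | h1)
    · exact Or.inl (O.uniq h h1)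
    · exact Or.inr (O.uniq h h1)
  · rintro (rfl | rfl)
    · exact Or.inl h
    · exact Or.inr h

theorem hdd {p : ℂ × ℂ} : p ∈ DD O.N (r 1) ↔ ∃ k, r k = p := by
  constructor
  · rintro (h | h)
    · obtain ⟨k, -, hk⟩ := O.mem_exS.1 h
      exact ⟨k, hk⟩
    · exact ⟨1, h.symm⟩
  · rintro ⟨k, hk⟩
    by_cases h1 : k = 1
    · right
      rw [← hk, h1]
      rfl
    · left
      exact O.mem_exS.2 ⟨k, h1, hk⟩

theorem r1_exS : r 1 ∉ O.N.exS := by
  rw [O.mem_exS]
  rintro ⟨k, h1, hk⟩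
  exact O.r_ne h1 hk

theorem px : PX S O.N (r 1) ∅ := PX.empty (O.hr 1) O.r1_exS

/-- the boundary colouring is valid -/
theorem B02_VC : B02 S B ∈ VC S O.N (r 1) ∅ := by
  rw [PX.mem_VC]
  have same : ∀ {a b : ℂ} {i : ZMod 4}, a ∈ B i → b ∈ B i →
      blk (B02 S B) a = blk (B02 S B) b := by
    intro a b i ha hb
    unfold blk
    rw [decide_eq_decide, O.B02_cls ha, O.B02_cls hb]
  refine ⟨Finset.filter_subset _ _, ⟨?_, ?_, ?_⟩, by simp⟩
  · intro a b hab hk _ _
    obtain ⟨i, h1, h2⟩ := hk.1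
    exact same h1 h2
  · intro a b hab hn
    rcases O.hull a b hab with ⟨k, hk⟩ | ⟨i, h1, h2⟩
    · exact absurd (O.hdd.2 ⟨k, hk⟩) hn
    · exact same h1 h2
  · intro a b hab
    obtain ⟨k, hk⟩ := O.hdd.1 hab
    have h1 := O.end1 k
    have h2 := O.end2 k
    rw [hk] at h1 h2
    unfold blk
    rw [ne_eq, decide_eq_decide, O.B02_cls h1, O.B02_cls h2]
    have : ∀ k : ZMod 4, ¬ ((k - 1 = 0 ∨ k - 1 = 2) ↔ (k = 0 ∨ k = 2)) := by decide
    exact this k

theorem hj_ne : (O.N.hj (r 1).1 (r 1).2).Nonempty := by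
  have h1 := O.B02_VC
  unfold VC at h1
  have h2 := setJ_mem O.gp O.hnet.tri (O.px.hD O.hnet) klx_symm (Finset.mem_filter.1 h1).1
  have hkl : klx O.N ∅ = O.N.kl := by
    ext p
    simp [klx]
  rw [hkl] at h2
  exact ⟨_, h2⟩

/-- chain inside the boundary class -/
theorem cls_chn {i : ZMod 4} {σ : ℂ → Bool} (hσ : ∀ a ∈ B i, ∀ b ∈ B i, σ a = σ b)
    {a b : ℂ} (ha : a ∈ B i) (hb : b ∈ B i) : Chn S σ a b := by
  refine Relation.ReflTransGen.mono ?_ _ _ (O.con i a ha b hb)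
  rintro x y ⟨h1, h2, h3⟩
  exact ⟨h3, hσ x h1 y h2⟩

omit O in
/-- chain of sites of `T` from the class `i` to the class `i + 2` -/
def Crs (S : Finset ℂ) (B : ZMod 4 → Set ℂ) (T : Set ℂ) (i : ZMod 4) : Prop :=
  ∃ a ∈ B i, ∃ b ∈ B (i + 2), Relation.ReflTransGen
    (fun x y => Adj S x y ∧ (y ∈ T ∨ y ∈ B i ∨ y ∈ B (i + 2))) a b

/-- **chain of colour = crossing** -/
theorem chn_iff {i : ZMod 4} {T C : Finset ℂ}
    (hB : ∀ v ∈ S, v ∈ C ↔ v ∈ T ∨ v ∈ B i ∨ v ∈ B (i + 2)) {a b : ℂ}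
    (ha : a ∈ B i) (hb : b ∈ B (i + 2)) :
    Chn S (blk C) a b ↔ Crs S B (T : Set ℂ) i := by
  have haB : a ∈ C := (hB a (O.sub _ ha)).2 (Or.inr (Or.inl ha))
  constructor
  · intro h
    refine ⟨a, ha, b, hb, ?_⟩
    clear hb
    induction h with
    | refl => exact Relation.ReflTransGen.refl
    | tail h1 h2 ih =>
      rename_i x y
      refine Relation.ReflTransGen.tail ih ⟨h2.1, ?_⟩
      have h3 : blk C a = blk C y := (Chn.col h1).trans h2.2
      have h4 : y ∈ C := by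
        unfold blk at h3
        rw [decide_eq_decide] at h3
        exact h3.1 haB
      have h5 := (hB y h2.1.mem.2).1 h4
      rcases h5 with h5 | h5 | h5
      · exact Or.inl (by exact_mod_cast h5)
      · exact Or.inr (Or.inl h5)
      · exact Or.inr (Or.inr h5)
  · rintro ⟨a', ha', b', hb', h⟩
    have ca : ∀ x ∈ B i, ∀ y ∈ B i, blk C x = blk C y := by
      intro x hx y hy
      unfold blk
      rw [decide_eq_decide]
      exact ⟨fun _ => (hB y (O.sub _ hy)).2 (Or.inr (Or.inl hy)),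
        fun _ => (hB x (O.sub _ hx)).2 (Or.inr (Or.inl hx))⟩
    have cb : ∀ x ∈ B (i + 2), ∀ y ∈ B (i + 2), blk C x = blk C y := by
      intro x hx y hy
      unfold blk
      rw [decide_eq_decide]
      exact ⟨fun _ => (hB y (O.sub _ hy)).2 (Or.inr (Or.inr hy)),
        fun _ => (hB x (O.sub _ hx)).2 (Or.inr (Or.inr hx))⟩
    have h1 : Chn S (blk C) a' b' ∧ b' ∈ C := by
      clear hb'
      induction h with
      | refl => exact ⟨Chn.refl _ _, (hB a' (O.sub _ ha')).2 (Or.inr (Or.inl ha'))⟩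
      | tail _ h2 ih =>
        rename_i x y _
        have h3 : Adj S x y := h2.1
        have h4 : y ∈ C := by
          rw [hB y h3.mem.2]
          rcases h2.2 with h5 | h5 | h5
          · exact Or.inl (by exact_mod_cast h5)
          · exact Or.inr (Or.inl h5)
          · exact Or.inr (Or.inr h5)
        refine ⟨ih.1.trans (Chn.single h3 ?_), h4⟩
        unfold blk
        rw [decide_eq_decide]
        exact ⟨fun _ => h4, fun _ => ih.2⟩
    exact ((O.cls_chn ca ha ha').trans h1.1).trans (O.cls_chn cb hb' hb)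

theorem inn_notB {v : ℂ} (hv : v ∈ V) : v ∉ B02 S B := by
  rw [O.mem_B02]
  rintro (h | h)
  · exact ((O.inn v).1 hv).2 _ h
  · exact ((O.inn v).1 hv).2 _ h

/-- chains of the colour `B02 ∪ T` -/
theorem chn0 {T : Finset ℂ} {a b : ℂ} (ha : a ∈ B 0) (hb : b ∈ B 2) :
    Chn S (blk (B02 S B ∪ T)) a b ↔ Crs S B (T : Set ℂ) 0 := by
  have e : (0 : ZMod 4) + 2 = 2 := by decide
  refine O.chn_iff ?_ ha (e ▸ hb)
  intro v _
  rw [Finset.mem_union, O.mem_B02, e]
  tauto

/-- chains of the other colour -/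
theorem chn1 {T : Finset ℂ} (hT : T ⊆ V) {a b : ℂ} (ha : a ∈ B 1) (hb : b ∈ B 3) :
    Chn S (blk (B02 S B ∪ T)) a b ↔ Crs S B ((V \ T : Finset ℂ) : Set ℂ) 1 := by
  rw [← chn_compl]
  have e : (1 : ZMod 4) + 2 = 3 := by decide
  refine O.chn_iff ?_ ha (e ▸ hb)
  intro v hv
  rw [e, Finset.mem_sdiff, Finset.mem_union, Finset.mem_sdiff]
  by_cases hin : v ∈ V
  · have h1 := O.inn_notB hin
    have h2 := ((O.inn v).1 hin).2
    have h3 := h2 1
    have h4 := h2 3
    tauto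
  · have h1 : v ∉ T := fun h' => hin (hT h')
    have h2 : ∃ i, v ∈ B i := by
      by_contra hc
      push Not at hc
      exact hin ((O.inn v).2 ⟨hv, hc⟩)
    obtain ⟨i, hi⟩ := h2
    have h3 := O.B02_cls hi
    have h4 : v ∈ B 1 ↔ i = 1 := ⟨fun h => O.uniq hi h, fun h => h ▸ hi⟩
    have h5 : v ∈ B 3 ↔ i = 3 := ⟨fun h => O.uniq hi h, fun h => h ▸ hi⟩
    rw [h3, h4, h5]
    have h6 : ∀ i : ZMod 4, (¬ (i = 0 ∨ i = 2)) ↔ (i = 1 ∨ i = 3) := by decide
    have := h6 i
    tauto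

/-- **black chain `B 0 - B 2` iff no white chain `B 1 - B 3`** -/
theorem xor {T : Finset ℂ} (hT : T ⊆ V) :
    Crs S B (T : Set ℂ) 0 ↔ ¬ Crs S B ((V \ T : Finset ℂ) : Set ℂ) 1 := by
  obtain ⟨n, w, H⟩ := hull_cycle O.gp O.card3
  obtain ⟨m, Pm⟩ := Sidesx697.exists_pos O.hnet H
  obtain ⟨j1, q1, q2, hf⟩ := O.pos1 H Pm
  have hF := O.free H Pm
  have e0 := O.pp0 Pm
  have e1 := O.pp1 Pm
  have e2 := O.pp2 Pm
  have a0 : w j1 ∈ B 0 := by
    have := O.end1 1
    rw [hf] at this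
    exact this
  have a2 : w (m 2) ∈ B 2 := by
    have := O.end1 3
    rw [e2] at this
    exact this
  have a1 : w (m 1) ∈ B 1 := by
    have := O.end1 2
    rw [e1] at this
    exact this
  have a3 : w (m 0) ∈ B 3 := by
    have := O.end1 0
    rw [e0] at this
    exact this
  have hBV := O.B02_VC
  rw [hf] at hBV
  have hpx := O.px
  rw [hf] at hpx
  have hsd : B02 S B \ V = B02 S B := by
    ext v
    rw [Finset.mem_sdiff]
    exact ⟨fun h => h.1, fun h => ⟨h, fun h' => O.inn_notB h' h⟩⟩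
  have valid : B02 S B ∪ T ∈ VC S O.N (hm w j1) ∅ := by
    have := free_mem O.hnet hpx hF hBV hT
    rw [hsd] at this
    exact this
  rw [← O.chn0 a0 a2, ← O.chn1 hT a1 a3]
  have := chn_xor (i := 0) O.hnet H Pm q1 q2 valid
  simpa using this

omit O in
/-- probability of a chain `B i - B (i + 2)` : fair colours of the inner sites -/
def pr (S V : Finset ℂ) (B : ZMod 4 → Set ℂ) (i : ZMod 4) : ℝ :=
  ((V.powerset.filter fun T : Finset ℂ => Crs S B (T : Set ℂ) i).card : ℝ) / 2 ^ V.card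

end Qd

end Crest.Agent.R143.Qdx54
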