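import Crest.Agent.R143.Qd1_54
import Crest.Agent.R143.RB2_54
import Crest.Agent.R143.Frame7_395
import Crest.Agent.R143.Half_930

/-!
# Row 143 (S0194): combinatorial quads, file 2 (helper54)

* `exists_box` : the network of a quad is a `Box`, `p = Qd.pr S V Z 0`
* `far_two`, `tj_of_lk`, `lk_f`
* `ep` : **energy principle**: `3 / 2 ≤ √3 * pr + √3 * √(∑ c²)` for every family of walks from the
  class `0` to the class `2`, from the frame bound (no E3)
-/

set_option autoImplicit false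
set_option linter.all false

noncomputable section

open scoped Classical

namespace Crest.Agent.R143.Qd2x54

open Set
open Crest.Agent.R143.B0x346 Crest.Agent.R143.B0Dx346 Crest.Agent.R143.DelGx806
  Crest.Agent.R143.DelRx806 Crest.Agent.R143.Oscx63 Crest.Agent.R143.Rswx63
  Crest.Agent.R143.Circx63 Crest.Agent.R143.Famx930
  Crest.Agent.R143.Crsx117 Crest.Agent.R143.JCardx872
open Crest.Agent.R143.JCol2x54 (HullM join_col isCol_of_join IsCol mem_E)
open Crest.Agent.R143.JColx54 (delT_rot)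
open Crest.Agent.R143.Ex0x922 (Lk LAdj)
open Crest.Agent.R143.RB1x54 (Box WallF)
open Crest.Agent.R143.RB2x54 (rot3 Vt vt_of_side net0 extract lk_conn norm_om_ge)
open Crest.Agent.R143.Scalx63 (dm)
open Crest.Agent.R143.Qdx54

variable {S V : Finset ℂ} {Z : ZMod 4 → Set ℂ} {r : ZMod 4 → ℂ × ℂ}

/-! ### the box of a quad -/

theorem exists_box (O : Qd S V Z r) : ∃ (n : ℕ) (w : ℤ → ℂ) (i0 i1 i2 i3 : ℤ),
    ∃ B : Box S O.N n w i0 i1 i2 i3, r 1 = hm w i1 ∧ r 0 = hm w i0 ∧
      (∀ v ∈ Z 0, v ∈ B.A) ∧ Box.p O.N w i1 = Qd.pr S V Z 0 := by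
  obtain ⟨n, w, H⟩ := hull_cycle O.gp (Sidesx697.card3 O.hnet)
  obtain ⟨m, Pm⟩ := Sidesx697.exists_pos O.hnet H
  obtain ⟨j1, q1, q2, hf⟩ := O.pos1 H Pm
  have hF := O.free H Pm
  have e0 := O.pp0 Pm
  have e1 := O.pp1 Pm
  have e2 := O.pp2 Pm
  have hM := m4_of H Pm (i := 0) q1 q2
  rw [zero_add, zero_add] at hM
  have h01 := hM.h01
  have h12 := hM.h12
  have h23 := hM.h23
  have h30 := hM.h30
  have f1 : (r 1).1 = w j1 := by rw [hf]; rfl
  have f2 : (r 1).2 = w (j1 + 1) := by rw [hf]; rfl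
  have a0 : w j1 ∈ Z 0 := by
    have := O.end1 1
    rw [f1] at this
    exact this
  -- the class is closed under walls
  have hclosed : ∀ u v, WallF S O.N (hm w j1) u v → u ∈ Z 0 → v ∈ Z 0 := by
    intro u v h hu
    have same : ∀ i, u ∈ Z i → v ∈ Z i → v ∈ Z 0 := by
      intro i h1 h2
      have := O.uniq h1 hu
      rw [← this]; exact h2
    rcases h.2.2.2.2.2 with h1 | h1 | h1
    · obtain ⟨i, h2, h3⟩ := h1
      exact same i h2 h3
    · rcases O.hull u v h1 with ⟨k, hk⟩ | ⟨i, h2, h3⟩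
      · exfalso
        by_cases hk1 : k = 1
        · rw [hk1, hf] at hk
          exact h.2.2.2.1 hk.symm
        · exact h.2.1 (O.mem_exS.2 ⟨k, hk1, hk⟩)
      · exact same i h2 h3
    · rcases O.hull v u h1 with ⟨k, hk⟩ | ⟨i, h2, h3⟩
      · exfalso
        by_cases hk1 : k = 1
        · rw [hk1, hf] at hk
          exact h.2.2.2.2.1 hk.symm
        · exact h.2.2.1 (O.mem_exS.2 ⟨k, hk1, hk⟩)
      · exact same i h3 h2
  have hA0 : ∀ v, v ∈ RB1x54.cls S O.N (hm w j1) (w j1) → v ∈ Z 0 := by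
    intro v hv
    have hv' : Relation.ReflTransGen (WallF S O.N (hm w j1)) (w j1) v := hv
    induction hv' with
    | refl => exact a0
    | tail h1 h2 ih => exact hclosed _ _ h2 (ih h1)
  -- no ray edge between two positions
  have nray : ∀ j, m 0 < j → j < m 0 + n → j ≠ j1 → j ≠ m 1 → j ≠ m 2 → ∀ k, r k ≠ hm w j := by
    intro j h1 h2 h3 h4 h5 k hk
    have key : ∀ i, m 0 ≤ i → i < m 0 + n → j ≠ i → hm w i ≠ hm w j := by
      intro i hi hi' hne
      rcases lt_or_gt_of_ne hne with h6 | h6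
      · exact (hm_ne H h6 (by linarith)).symm
      · exact hm_ne H h6 (by linarith)
    have h4' : ∀ k : ZMod 4, k = 0 ∨ k = 1 ∨ k = 2 ∨ k = 3 := by decide
    rcases h4' k with rfl | rfl | rfl | rfl
    · rw [e0] at hk; exact key _ le_rfl (by linarith) (by linarith) hk
    · rw [hf] at hk; exact key _ (by linarith) (by linarith) h3 hk
    · rw [e1] at hk; exact key _ (by linarith) (by linarith) h4 hk
    · rw [e2] at hk; exact key _ (by linarith) (by linarith) h5 hk
  have hout : ∀ k, j1 < k → k ≤ m 0 + n → ∃ i, i ≠ 0 ∧ w k ∈ Z i := by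
    intro k h1 h2
    rcases le_or_gt k (m 1) with h3 | h3
    · refine ⟨1, by decide, O.run H (a := j1 + 1) (by linarith) ?_ ?_⟩
      · have := O.end2 1
        rw [f2] at this
        exact this
      · intro j h4 h5
        exact nray j (by linarith) (by linarith) (by linarith) (by linarith) (by linarith)
    · rcases le_or_gt k (m 2) with h4 | h4
      · refine ⟨2, by decide, O.run H (a := m 1 + 1) (by linarith) ?_ ?_⟩
        · have := O.end2 2
          rw [e1] at this
          exact this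
        · intro j h5 h6
          exact nray j (by linarith) (by linarith) (by linarith) (by linarith) (by linarith)
      · refine ⟨3, by decide, O.run H (a := m 2 + 1) (by linarith) ?_ ?_⟩
        · have := O.end2 3
          rw [e2] at this
          exact this
        · intro j h5 h6
          exact nray j (by linarith) (by linarith) (by linarith) (by linarith) (by linarith)
  have hlive : hm w j1 ∉ O.N.kl := by
    intro h'
    rw [← hf] at h'
    obtain ⟨i, g1, g2⟩ := h'
    exact O.r_not_same g1 g2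
  have B : Box S O.N n w (m 0) j1 (m 1) (m 2) :=
    { net := O.hnet
      m4 := hM
      e0 := by rw [O.ex0, e0]
      e1 := by rw [O.ex1, e1]
      e2 := by rw [O.ex2, e2]
      live := hlive
      out := by
        intro k h1 h2 h3
        obtain ⟨i, hi, h4⟩ := hout k h1 h2
        exact hi (O.uniq h4 (hA0 _ h3)) }
  refine ⟨n, w, m 0, j1, m 1, m 2, B, hf, e0, ?_, ?_⟩
  · intro v hv
    have h1 := O.con 0 _ a0 v hv
    have h2 : Relation.ReflTransGen (WallF S O.N (hm w j1)) (w j1) v := by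
      refine Relation.ReflTransGen.mono ?_ _ _ h1
      rintro x y ⟨h3, h4, h5⟩
      exact B.wall_kill h5 ⟨0, h3, h4⟩
    exact h2
  · -- the crossing probability
    have hbx := O.end1 1
    have a2 : w (m 2) ∈ Z 2 := by
      have := O.end1 3
      rw [e2] at this
      exact this
    have hBV := O.B02_VC
    rw [hf] at hBV
    have hpx := O.px
    rw [hf] at hpx
    have hj := O.hj_ne
    rw [f1, f2] at hj
    have hnotin : ∀ v ∈ V, v ∉ Qd.B02 S Z := fun v hv => O.inn_notB hv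
    have hsd : Qd.B02 S Z \ V = Qd.B02 S Z := by
      ext v
      rw [Finset.mem_sdiff]
      exact ⟨fun h => h.1, fun h => ⟨h, fun h' => hnotin v h' h⟩⟩
    have hw0 : w j1 ∈ Qd.B02 S Z := O.mem_B02.2 (Or.inl a0)
    have p0 : Qd.pr S V Z 0 = crossP S (V) (Qd.B02 S Z) (w j1) (w (m 2)) := by
      unfold Qd.pr crossP crossT
      congr 2
      refine congrArg Finset.card (Finset.filter_congr ?_)
      intro T _
      exact (O.chn0 a0 a2).symm
    have hkl : klx O.N ∅ = O.N.kl := by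
      ext p
      simp [klx]
    obtain ⟨B0, g1, g2, g3, g4, g5⟩ := main O.hnet H Pm q1 q2 hpx hF
      (c := fun k => O.N.cnt (w j1) (w (j1 + 1)) k)
      (Hn := (O.N.hj (w j1) (w (j1 + 1))).card)
      (fun k => by
        rw [hkl]
        unfold Net.cnt Net.hj
        simp only [Finset.empty_subset, true_and]
        rfl)
      (by
        rw [hkl]
        unfold Net.hj
        simp only [Finset.empty_subset, Finset.filter_true]
        rfl)
      (Finset.card_pos.2 hj)
    have hB0 : B0 = Qd.B02 S Z := by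
      rw [← g4 _ hBV hw0, hsd]
    subst hB0
    rw [show (0 : ℤ) + 2 = 2 from rfl, ← p0] at g5
    have hHn : (0 : ℝ) < ((O.N.hj (w j1) (w (j1 + 1))).card : ℝ) := by
      exact_mod_cast Finset.card_pos.2 hj
    have hsum := Sidesx697.sum_cnt (J1x872.good_of_hnet O.hnet) (w j1) (w (j1 + 1)) 0
    set N := O.N with hN
    have o0 : omz ((0 : ℤ) : ZMod 3) = 1 := by
      rw [Int.cast_zero]
      exact Box.omz_zero
    have o1 : omz (((0 : ℤ) : ZMod 3) + 1) = om := by
      rw [Int.cast_zero, zero_add]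
      exact Box.omz_one
    have hfin : ∀ f : ZMod 3 → ℂ, ∑ k : ZMod 3, f k = f 0 + f 1 + f 2 := fun f =>
      Fin.sum_univ_three f
    have o2 : omz 2 = om ^ 2 := by
      unfold omz
      rw [show ZMod.val (2 : ZMod 3) = 2 from rfl]
    rw [hfin, o0, o1, Box.omz_zero, Box.omz_one, o2, mul_one, mul_one] at g5
    rw [show (0 : ZMod 3) + 1 = 1 from rfl, show (0 : ZMod 3) + 2 = 2 from rfl] at hsum
    set α0 : ℝ := (N.cnt (w j1) (w (j1 + 1)) 0 : ℝ) / ((N.hj (w j1) (w (j1 + 1))).card : ℝ) with hα0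
    set α1 : ℝ := (N.cnt (w j1) (w (j1 + 1)) 1 : ℝ) / ((N.hj (w j1) (w (j1 + 1))).card : ℝ) with hα1
    set α2 : ℝ := (N.cnt (w j1) (w (j1 + 1)) 2 : ℝ) / ((N.hj (w j1) (w (j1 + 1))).card : ℝ) with hα2
    have hs : α0 + α1 + α2 = 1 := by
      rw [hα0, hα1, hα2, ← add_div, ← add_div, div_eq_one_iff_eq hHn.ne']
      exact_mod_cast hsum
    have g6 : (α0 : ℂ) + α1 * om + α2 * om ^ 2 = ((1 - Qd.pr S V Z 0 : ℝ) : ℂ) + (Qd.pr S V Z 0 : ℂ) * om := by
      rw [← g5, hα0, hα1, hα2]
      push_cast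
      ring
    have him := congrArg Complex.im g6
    have hre := congrArg Complex.re g6
    have r1 := Oscx63.om_re
    have n1 : om.re * om.re + om.im * om.im = 1 := by
      rw [← Complex.normSq_apply, Complex.normSq_eq_norm_sq, Oscx63.norm_om]
      norm_num
    simp only [Complex.add_im, Complex.add_re, Complex.mul_im, Complex.mul_re, Complex.ofReal_re,
      Complex.ofReal_im, pow_two, zero_mul, add_zero, sub_zero, zero_add] at him hre
    rw [r1] at him hre n1
    have hii : om.im ≠ 0 := by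
      intro h0
      rw [h0] at n1
      norm_num at n1
    have h2 : α1 - α2 = Qd.pr S V Z 0 := by
      have : om.im * (α1 - α2 - Qd.pr S V Z 0) = 0 := by linarith
      rcases mul_eq_zero.1 this with h3 | h3
      · exact absurd h3 hii
      · linarith
    have h3 : om.im * om.im = 3 / 4 := by linarith
    rw [h3] at hre
    show α1 = Qd.pr S V Z 0
    linarith

/-- a triangle linked to triangles with vertices in the class `0` and in the class `2` is linked to
the hull edge of the ray `1` -/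
theorem lk_f (O : Qd S V Z r) {t s s' : ℂ × ℂ × ℂ} (hs : Lk O.N t s)
    (hs' : Lk O.N t s') {v v' : ℂ} (hv : v = s.1 ∨ v = s.2.1 ∨ v = s.2.2)
    (hv' : v' = s'.1 ∨ v' = s'.2.1 ∨ v' = s'.2.2) (h0 : v ∈ Z 0) (h2 : v' ∈ Z 2)
    (ht : t ∈ delT S) {x : ℂ} (hx : ((r 1).1, (r 1).2, x) ∈ delT S) :
    Lk O.N t ((r 1).1, (r 1).2, x) := by
  by_contra hcon
  have hS := O.gp
  set N := O.N with hN
  have hT : N.T = delT S := O.hnet.tri
  obtain ⟨n, w, i0, i1, i2, i3, B, r1, r0, hA, -⟩ := exists_box O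
  set g0 : ℂ → Bool := fun v => decide (v ∈ Z 0) with hg0
  have same : ∀ {a b : ℂ} {i : ZMod 4}, a ∈ Z i → b ∈ Z i → g0 a = g0 b := by
    intro a b i ha hb
    rw [hg0]
    simp only [decide_eq_decide]
    constructor
    · intro h
      rw [← O.uniq ha h]; exact hb
    · intro h
      rw [← O.uniq hb h]; exact ha
  set J : Finset (ℂ × ℂ) := N.E.filter fun p => g0 p.1 ≠ g0 p.2 ∧
    ∃ c, (p.1, p.2, c) ∈ delT S ∧ Lk N t (p.1, p.2, c) with hJ
  have mJ : ∀ a b, (a, b) ∈ J ↔ g0 a ≠ g0 b ∧ ∃ c, (a, b, c) ∈ delT S ∧ Lk N t (a, b, c) := by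
    intro a b
    rw [hJ, Finset.mem_filter]
    constructor
    · exact fun h => h.2
    · intro h
      refine ⟨?_, h⟩
      obtain ⟨-, c, hc, -⟩ := h
      rw [mem_E hT]
      exact Or.inl ⟨c, hc⟩
  -- hull edges in `J`
  have hullJ : ∀ a b, hullE S a b → (a, b) ∈ J → (a, b) = r 0 := by
    intro a b hab h
    obtain ⟨h1, c, h3, h4⟩ := (mJ a b).1 h
    rcases O.hull a b hab with ⟨k, hk⟩ | ⟨i, h5, h6⟩
    · have e1 := O.end1 k
      have e2 := O.end2 k
      rw [hk] at e1 e2
      have h5 : k = 0 ∨ k = 1 := by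
        by_contra hc
        push Not at hc
        apply h1
        have f1 : ¬ (a ∈ Z 0) := fun h => by
          have := O.uniq e1 h
          apply hc.2
          have h7 : ∀ k : ZMod 4, k - 1 = 0 → k = 1 := by decide
          exact h7 k this
        have f2 : ¬ (b ∈ Z 0) := fun h => hc.1 (O.uniq e2 h)
        rw [hg0]
        simp only [f1, f2, decide_false]
      rcases h5 with rfl | rfl
      · exact hk.symm
      · exfalso
        apply hcon
        have hab' : ((r 1).1, (r 1).2) = (a, b) := by rw [← hk]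
        rw [Prod.mk.injEq] at hab'
        rw [hab'.1, hab'.2] at hx ⊢
        have : c = x := N.uniq (by rw [hT]; exact h3) (by rw [hT]; exact hx)
        rw [← this]; exact h4
    · exact absurd (same h5 h6) h1
  have hr0 : hullE S (r 0).1 (r 0).2 := O.hr 0
  set D' : Set (ℂ × ℂ) := {p | p = r 0 ∧ p ∈ J} with hD'
  have hDh : ∀ a b, (a, b) ∈ D' → hullE S a b := by
    rintro a b ⟨h1, -⟩
    rw [← h1] at hr0
    exact hr0
  have killg : ∀ a b, (a, b) ∈ N.kl → Crest.Agent.R143.JColx54.Adj S a b → g0 a = g0 b := by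
    intro a b h1 h3
    obtain ⟨i, h4, h5⟩ := h1
    exact same h4 h5
  -- crossing an edge
  have cross : ∀ a b, (a, b) ∈ J → (∃ c, (b, a, c) ∈ delT S) → (b, a) ∈ J := by
    rintro a b h ⟨c', hc'⟩
    obtain ⟨h1, c, h3, h4⟩ := (mJ a b).1 h
    have hk : (a, b) ∉ N.kl := fun h5 => h1 (killg a b h5 (Or.inl ⟨c, h3⟩))
    refine (mJ b a).2 ⟨fun e => h1 e.symm, c', hc', h4.trans (Lk.of_adj ?_)⟩
    exact ⟨a, b, c, c', by rw [hT]; exact h3, by rw [hT]; exact hc', Ex0x922.mem_rots_self _,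
      Ex0x922.mem_rots_self _, hk⟩
  have key : ∀ a b, (a, b) ∈ J → (a, b) ∉ D' → (b, a) ∈ J := by
    intro a b h h'
    by_cases hh : ∃ c, (b, a, c) ∈ delT S
    · exact cross a b h hh
    · exfalso
      push Not at hh
      obtain ⟨h1, c, h3, h4⟩ := (mJ a b).1 h
      exact h' ⟨hullJ a b ⟨⟨c, h3⟩, hh⟩ h, h⟩
  have hJoin : IsJoin N.toTrg N.kl ∅ D' J := by
    refine ⟨Finset.filter_subset _ _, ?_, ?_, ?_, ?_, ?_⟩
    · intro a b h1 h3
      exact ⟨fun h => key a b h h1, fun h => key b a h h3⟩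
    · rintro a b ⟨h1, h3⟩
      refine ⟨h3, fun h4 => ?_⟩
      obtain ⟨-, c, h5, -⟩ := (mJ b a).1 h4
      have := hr0.2
      rw [← h1] at this
      exact this c h5
    · intro a b h1 h3
      rw [hT] at h1
      have h4 : (b, a) ∉ J := fun h => by
        obtain ⟨-, c, h5, -⟩ := (mJ b a).1 h
        exact h1 c h5
      exact ⟨fun h => h4 (key a b h h3), h4⟩
    · intro a b h1 h3 h4
      refine ⟨fun h => ?_, fun h => ?_⟩
      · obtain ⟨h5, c, h6, -⟩ := (mJ a b).1 h
        exact h5 (killg a b h1 (Or.inl ⟨c, h6⟩))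
      · obtain ⟨h5, c, h6, -⟩ := (mJ b a).1 h
        exact h5 (killg b a (N.klsym _ _ h1) (Or.inl ⟨c, h6⟩))
    · intro a b c h
      have hdt : (a, b, c) ∈ delT S := by rw [← hT]; exact h
      have hr1 := delT_rot hS hdt
      have hr2 := delT_rot hS hr1
      simp only [Set.mem_empty_iff_false, if_false]
      by_cases hl : Lk N t (a, b, c)
      · have m1 : (a, b) ∈ J ↔ g0 a ≠ g0 b := by
          rw [mJ]; exact ⟨fun h => h.1, fun h => ⟨h, c, hdt, hl⟩⟩
        have m2 : (b, c) ∈ J ↔ g0 b ≠ g0 c := by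
          rw [mJ]; exact ⟨fun h => h.1, fun h => ⟨h, a, hr1, hl.trans (Lk.of_rots (rot3 a b c).1)⟩⟩
        have m3 : (c, a) ∈ J ↔ g0 c ≠ g0 a := by
          rw [mJ]; exact ⟨fun h => h.1, fun h => ⟨h, b, hr2, hl.trans (Lk.of_rots (rot3 a b c).2)⟩⟩
        simp only [m1, m2, m3]
        generalize g0 a = p, g0 b = q, g0 c = r
        revert p q r
        decide
      · have m1 : (a, b) ∉ J := by
          rw [mJ]
          rintro ⟨-, e, h5, h6⟩
          have := N.uniq h (by rw [hT]; exact h5)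
          rw [← this] at h6
          exact hl h6
        have m2 : (b, c) ∉ J := by
          rw [mJ]
          rintro ⟨-, e, h5, h6⟩
          have := N.uniq (N.rot h) (by rw [hT]; exact h5)
          rw [← this] at h6
          exact hl (h6.trans (Lk.of_rots (rot3 b c a).2))
        have m3 : (c, a) ∉ J := by
          rw [mJ]
          rintro ⟨-, e, h5, h6⟩
          have := N.uniq (N.rot (N.rot h)) (by rw [hT]; exact h5)
          rw [← this] at h6
          exact hl (h6.trans (Lk.of_rots (rot3 c a b).1))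
        simp [m1, m2, m3]
  obtain ⟨χ, hχ⟩ := join_col hS hT (fun a b h => (hDh a b h).2) hJoin
  have hχc := isCol_of_join hT hDh hJoin hχ
  -- the hull
  have q30 := B.m4.h30
  have q0 := B.m4.h01
  have q1 := B.m4.h12
  have q2 := B.m4.h23
  have hullc : ∀ j, i0 + 1 ≤ j → j < i0 + n → χ (w j) = χ (w (j + 1)) := by
    intro j h1 h3
    refine hχc.hull _ _ (B.m4.cyc.edge j) ?_
    rintro ⟨h4, -⟩
    rw [r0] at h4
    exact hm_ne B.m4.cyc (i := i0) (j := j) (by linarith) (by linarith) h4.symm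
  have hullk : ∀ j, i0 + 1 ≤ j → j ≤ i0 + n → χ (w (i0 + 1)) = χ (w j) := fun j h1 h3 =>
    w_const h1 fun k h4 h5 => hullc k h4 (by linarith)
  have hD0 : D' = ∅ := by
    rw [Set.eq_empty_iff_forall_notMem]
    rintro p hp
    have h1 := hχc.mark p.1 p.2 hp
    obtain ⟨h3, -⟩ := hp
    rw [h3, r0] at h1
    apply h1
    show χ (w i0) = χ (w (i0 + 1))
    rw [hullk (i0 + n) (by linarith) le_rfl, B.m4.cyc.per]
  -- all the classes have one colour
  have clsc : ∀ i, ∀ a ∈ Z i, ∀ b ∈ Z i, χ a = χ b := by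
    intro i a ha b hb
    have h1 := O.con i a ha b hb
    clear hb
    induction h1 with
    | refl => rfl
    | @tail x y _ hxy ih =>
      rw [ih]
      obtain ⟨h3, h4, h5⟩ := hxy
      exact hχc.kill _ _ h5 ⟨i, h3, h4⟩ (by rw [hD0]; simp) (by rw [hD0]; simp)
  have hc0 : ∀ i a, a ∈ Z i → χ a = χ (w (i0 + 1)) := by
    intro i a ha
    have h1 := clsc i a ha _ (O.end2 i)
    rw [h1]
    obtain ⟨k, h3, h4, h5, h6⟩ := B.m4.cyc.all _ _ (O.hr i)
    -- shift the position
    rw [← h6]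
    have hn : (0 : ℤ) < n := by exact_mod_cast B.m4.cyc.pos
    have h7 := mod_per B.m4.cyc.pos B.m4.cyc.per (k + 1 - (i0 + 1))
    obtain ⟨q, hq1, hq2, hq3⟩ : ∃ q, i0 + 1 ≤ q ∧ q < i0 + 1 + n ∧ w q = w (k + 1) := by
      refine ⟨i0 + 1 + (k + 1 - (i0 + 1)) % n, by linarith [Int.emod_nonneg (k + 1 - (i0 + 1)) hn.ne'],
        by linarith [Int.emod_lt_of_pos (k + 1 - (i0 + 1)) hn], ?_⟩
      have hper : ∀ i, (fun j => w (i0 + 1 + j)) (i + n) = (fun j => w (i0 + 1 + j)) i := by
        intro i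
        show w (i0 + 1 + (i + n)) = w (i0 + 1 + i)
        rw [← add_assoc, B.m4.cyc.per]
      have := mod_per (w := fun j => w (i0 + 1 + j)) B.m4.cyc.pos hper (k + 1 - (i0 + 1))
      rw [this]
      congr 1
      ring
    rw [← hq3]
    exact (hullk q hq1 (by linarith)).symm
  -- the function `χ xor g0` is constant on the linked triangles
  have tri1 : ∀ a b c, (a, b, c) ∈ delT S → Lk N t (a, b, c) → xor (χ a) (g0 a) = xor (χ b) (g0 b) := by
    intro a b c h hl
    have h1 := hχ a b (Or.inl ⟨c, h⟩)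
    have h3 : ((a, b) ∈ J ∨ (b, a) ∈ J) ↔ g0 a ≠ g0 b := by
      constructor
      · rintro (h4 | h4)
        · exact ((mJ a b).1 h4).1
        · exact fun e => ((mJ b a).1 h4).1 e.symm
      · intro h4
        exact Or.inl ((mJ a b).2 ⟨h4, c, h, hl⟩)
    rw [h3] at h1
    revert h1
    generalize χ a = p, χ b = q, g0 a = r, g0 b = u
    revert p q r u
    decide
  set ps : ℂ → Bool := fun v => xor (χ v) (g0 v) with hps
  have tri2 : ∀ s ∈ delT S, Lk N t s → ps s.2.1 = ps s.1 ∧ ps s.2.2 = ps s.1 := by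
    rintro ⟨a, b, c⟩ h hl
    have h1 := tri1 a b c h hl
    have h3 := tri1 b c a (delT_rot hS h) (hl.trans (Lk.of_rots (rot3 a b c).1))
    exact ⟨h1.symm, (h1.trans h3).symm⟩
  have tri3 : ∀ s, Lk N t s → ps s.1 = ps t.1 ∧ s ∈ delT S := by
    intro s hs
    have hs2 : Lk N t s := hs
    induction hs with
    | refl => exact ⟨rfl, ht⟩
    | @tail a b h1 h3 ih =>
      obtain ⟨ih1, ih2⟩ := ih h1
      have hb : b ∈ delT S := by
        rw [← hT]
        exact Lk.mem (N := N) (t := a) (Relation.ReflTransGen.single h3) (by rw [hT]; exact ih2)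
      refine ⟨?_, hb⟩
      rw [← ih1]
      have ta := tri2 a ih2 h1
      have tb := tri2 b hb hs2
      rcases h3 with h3 | ⟨p, q, c, c', h4, h5, h6, h7, h8⟩
      · simp only [rots, Set.mem_insert_iff, Set.mem_singleton_iff] at h3
        rcases h3 with rfl | rfl | rfl
        · rfl
        · exact ta.1
        · exact ta.2
      · simp only [rots, Set.mem_insert_iff, Set.mem_singleton_iff] at h6 h7
        have pa : ps p = ps a.1 := by
          rcases h6 with h6 | h6 | h6
          · rw [show p = a.1 from congrArg (fun t => t.1) h6]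
          · rw [show p = a.2.1 from congrArg (fun t => t.1) h6]; exact ta.1
          · rw [show p = a.2.2 from congrArg (fun t => t.1) h6]; exact ta.2
        have pb : ps p = ps b.1 := by
          rcases h7 with h7 | h7 | h7
          · rw [show p = b.2.1 from congrArg (fun t => t.2.1) h7]; exact tb.1
          · rw [show p = b.2.2 from congrArg (fun t => t.2.1) h7]; exact tb.2
          · rw [show p = b.1 from congrArg (fun t => t.2.1) h7]
        rw [← pa, pb]
  have e1 : ps v = ps t.1 := by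
    obtain ⟨h1, h3⟩ := tri3 s hs
    have h4 := tri2 s h3 hs
    rcases hv with rfl | rfl | rfl
    · exact h1
    · rw [h4.1]; exact h1
    · rw [h4.2]; exact h1
  have e2 : ps v' = ps t.1 := by
    obtain ⟨h1, h3⟩ := tri3 s' hs'
    have h4 := tri2 s' h3 hs'
    rcases hv' with rfl | rfl | rfl
    · exact h1
    · rw [h4.1]; exact h1
    · rw [h4.2]; exact h1
  have e3 : ps v = ps v' := e1.trans e2.symm
  rw [hps] at e3
  simp only at e3
  rw [hc0 0 v h0, hc0 2 v' h2] at e3
  have g1 : g0 v = true := by rw [hg0]; simpa using h0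
  have g2 : g0 v' = false := by
    rw [hg0]
    simp only [decide_eq_false_iff_not]
    intro h
    have := O.uniq h h2
    exact absurd this (by decide)
  rw [g1, g2] at e3
  revert e3
  generalize χ (w (i0 + 1)) = p
  revert p
  decide

/-- values at the class `2` -/
theorem far_two (O : Qd S V Z r) {e : ℂ × ℂ} (he : e.1 ∈ Z 2 ∨ e.2 ∈ Z 2)
    {a b c : ℂ} (ht : (a, b, c) ∈ delT S) (hab : e = (a, b) ∨ e = (b, a))
    (hk : (a, b) ∉ O.N.kl) (hne : (O.N.tj (a, b, c)).Nonempty) :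
    3 / 2 ≤ ‖O.N.F e.1 e.2 - 1‖ := by
  set N := O.N with hN
  have hT : N.T = delT S := O.hnet.tri
  have hFc : N.F e.1 e.2 = N.F a b := by
    rcases hab with rfl | rfl
    · rfl
    · exact Oscx63.F_comm N b a
  have hA : a ∈ Z 2 ∨ b ∈ Z 2 := by
    rcases hab with rfl | rfl
    · exact he
    · exact he.symm
  rw [hFc]
  by_cases hex : ∃ k, N.ex k = (a, b) ∨ N.ex k = (b, a)
  · have hF : N.F a b = omz hex.choose := by
      unfold Net.F
      rw [dif_pos hex]
    rw [hF]
    apply norm_om_ge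
    have h0 : hex.choose ≠ 0 := by
      intro h0
      have h1 := hex.choose_spec
      rw [h0, hN, O.ex0] at h1
      have e1 := O.end1 0
      have e2 := O.end2 0
      rcases h1 with h1 | h1
      · rw [h1] at e1 e2
        rcases hA with h2 | h2
        · exact absurd (O.uniq e1 h2) (by decide)
        · exact absurd (O.uniq e2 h2) (by decide)
      · rw [h1] at e1 e2
        rcases hA with h2 | h2
        · exact absurd (O.uniq e2 h2) (by decide)
        · exact absurd (O.uniq e1 h2) (by decide)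
    rcases Box.z3 hex.choose with h1 | h1 | h1
    · exact absurd h1 h0
    · exact Or.inl h1
    · exact Or.inr h1
  · push Not at hex
    have h1 : (a, b) ∉ N.exS := by rintro ⟨k, hk'⟩; exact (hex k).1 hk'
    have h2 : (b, a) ∉ N.exS := by rintro ⟨k, hk'⟩; exact (hex k).2 hk'
    have ht' : (a, b, c) ∈ N.T := by rw [hT]; exact ht
    have hk' : (b, a) ∉ N.kl := fun h => hk (N.klsym _ _ h)
    have hcard := card_half (G := N.toTrg) (kl := N.kl) (D := N.exS) ht' hk hk' h1 h2
    have hpos : 0 < (N.tj (a, b, c)).card := Finset.card_pos.2 hne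
    have hne' : (N.hj a b).Nonempty ∨ (N.hj b a).Nonempty := by
      by_contra hcon
      push Not at hcon
      unfold Net.tj at hpos
      unfold Net.hj at hcon
      rw [← hcard, hcon.1, hcon.2] at hpos
      simp at hpos
    have hsd : ∀ v ∈ Z 2, Sidesx697.Side N 1 v := by
      intro v hv
      unfold Sidesx697.Side
      rw [hN, O.ex1]
      refine Relation.ReflTransGen.mono ?_ _ _ (O.con 2 _ (O.end2 2) v hv)
      rintro x y ⟨g1, g2, g3⟩
      exact O.wall_of g1 g2 g3
    have hside : Sidesx697.Side N 1 a ∨ Sidesx697.Side N 1 b := by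
      rcases hA with h | h
      · exact Or.inl (hsd _ h)
      · exact Or.inr (hsd _ h)
    obtain ⟨p0, p1, pF⟩ := Sidesx697.F_side O.hnet h1 h2 (i := 1) hside hne'
    rw [show (1 : ZMod 3) + 1 = 2 from rfl] at p0 p1 pF
    have hre : (N.F a b).re = -1 / 2 := by
      have r1 := Oscx63.om_re
      have h3 : (omz 1).re = -1 / 2 := by rw [Box.omz_one]; exact r1
      have h4 : (omz 2).re = -1 / 2 := by
        have : omz 2 = om ^ 2 := by
          unfold omz
          rw [show ZMod.val (2 : ZMod 3) = 2 from rfl]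
        rw [this, ← Rswx63.conj_om]
        simpa using r1
      rw [pF, Complex.add_re, Complex.re_ofReal_mul, Complex.re_ofReal_mul, h3, h4]
      ring
    have h2 := Complex.abs_re_le_norm (N.F a b - 1)
    rw [Complex.sub_re, Complex.one_re, hre] at h2
    norm_num at h2
    linarith

/-- joins exist at a triangle linked to the hull edge of the ray `1` -/
theorem tj_of_lk (O : Qd S V Z r) {t : ℂ × ℂ × ℂ} (ht : t ∈ delT S) {x : ℂ}
    (hx : ((r 1).1, (r 1).2, x) ∈ delT S)
    (h : Lk O.N t ((r 1).1, (r 1).2, x)) :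
    (O.N.tj t).Nonempty := by
  set N := O.N with hN
  have hT : N.T = delT S := O.hnet.tri
  obtain ⟨J, hJ⟩ := O.hj_ne
  obtain ⟨K, hK⟩ := Exx395.chain_isJoin h
  have hJ := mem_joins.1 hJ
  have hr1 : hullE S (r 1).1 (r 1).2 := O.hr 1
  have hlive : ((r 1).1, (r 1).2) ∉ N.kl := by
    intro h'
    obtain ⟨i, g1, g2⟩ := h'
    exact O.r_not_same g1 g2
  have hnx : ((r 1).1, (r 1).2) ∉ N.exS := O.r1_exS
  have hnx' : ((r 1).2, (r 1).1) ∉ N.exS := by
    intro h'
    exact hullE_asymm hr1 (exS_hull O.hnet h')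
  have h1 := erase_isJoin (G := N.toTrg) (kl := N.kl) (D := N.exS) (by rw [hT]; exact hx) hlive
    (fun h' => hlive (N.klsym _ _ h')) hnx hnx' hJ
  have h2 := xor_isJoin hK (D := N.exS) (fun x hx => by
    obtain ⟨k, rfl⟩ := hx
    exact (hK.bdr _ _ (by rw [hT]; exact (O.hnet.hex k).2) (by simp)).1) h1.1
  have e : symmDiff (rots ((r 1).1, (r 1).2, x))
      (symmDiff (rots t) (rots ((r 1).1, (r 1).2, x))) = rots t := by
    rw [symmDiff_comm (rots t), symmDiff_symmDiff_cancel_left]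
  rw [e] at h2
  exact ⟨_, mem_joins.2 h2⟩


/-! ### adjacent classes -/

/-- if the classes `0` and `2` are adjacent, there is always a chain -/
theorem pr_one (O : Qd S V Z r) {a b : ℂ} (ha : a ∈ Z 0) (hb : b ∈ Z 2)
    (hab : Crest.Agent.R143.JColx54.Adj S a b) : Qd.pr S V Z 0 = 1 := by
  have e : (0 : ZMod 4) + 2 = 2 := by decide
  have h : V.powerset.filter (fun T : Finset ℂ => Qd.Crs S Z (T : Set ℂ) 0) = V.powerset := by
    rw [Finset.filter_eq_self]
    intro T _
    refine ⟨a, ha, b, by rw [e]; exact hb, Relation.ReflTransGen.single ⟨hab, ?_⟩⟩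
    rw [e]
    exact Or.inr (Or.inr hb)
  unfold Qd.pr
  rw [h, Finset.card_powerset]
  push_cast
  exact div_self (by positivity)

theorem adj_of_vt (hS : GP (S : Set ℂ)) {t : ℂ × ℂ × ℂ} (ht : t ∈ delT S) {v v' : ℂ}
    (hv : Vt t v) (hv' : Vt t v') (hne : v ≠ v') : Crest.Agent.R143.JColx54.Adj S v v' := by
  obtain ⟨a, b, c⟩ := t
  have h2 := delT_rot hS ht
  have h3 := delT_rot hS h2
  rcases hv with rfl | rfl | rfl <;> rcases hv' with rfl | rfl | rfl
  · exact absurd rfl hne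
  · exact Or.inl ⟨_, ht⟩
  · exact Or.inr ⟨_, h3⟩
  · exact Or.inr ⟨_, ht⟩
  · exact absurd rfl hne
  · exact Or.inl ⟨_, h2⟩
  · exact Or.inl ⟨_, h3⟩
  · exact Or.inr ⟨_, h2⟩
  · exact absurd rfl hne

/-- **energy principle** for a quad: every member `s` of a weighted family of sets of triangles
contains a walk from the class `0` to the class `2` -/
theorem ep_gen (O : Qd S V Z r) {U : Finset (ℂ × ℂ × ℂ)} (hUS : U ⊆ delT S)
    (hrep : ∀ t ∈ U, ∀ t' ∈ U, t ≠ t' → t' ∉ rots t)
    {J : Finset (Finset (ℂ × ℂ × ℂ))} {lam : Finset (ℂ × ℂ × ℂ) → ℝ}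
    (hl : ∀ s ∈ J, 0 ≤ lam s) (hs : ∑ s ∈ J, lam s = 1) (hsU : ∀ s ∈ J, s ⊆ U)
    (hvert : ∀ s ∈ J, ∀ t ∈ s, ∀ v, Vt t v → v ∈ Z 0 ∨ v ∈ Z 2 ∨ v ∈ (V : Set ℂ))
    (hno : ∀ s ∈ J, ∀ t ∈ s, ∀ v v', Vt t v → Vt t v' → v ∈ Z 0 → v' ∉ Z 2)
    (hconn : ∀ s ∈ J, ∃ g g', Conn (net0 O.N) s g g' ∧ (g.1 ∈ Z 0 ∨ g.2 ∈ Z 0) ∧
      (g'.1 ∈ Z 2 ∨ g'.2 ∈ Z 2) ∧ ∃ t ∈ s, LSide (net0 O.N) t g) :
    3 / 2 ≤ Real.sqrt 3 * Qd.pr S V Z 0 +
      Real.sqrt 3 * Real.sqrt (∑ t ∈ U, cw J lam (fun s => s) t ^ 2) := by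
  have hS := O.gp
  set N := O.N with hN
  have hT : N.T = delT S := O.hnet.tri
  obtain ⟨n, ww, i0, i1, i2, i3, B, r1, r0, hA, hp⟩ := exists_box O
  -- triangles of the family
  set U' : Finset (ℂ × ℂ × ℂ) := U.filter fun t => ∃ s ∈ J, t ∈ s with hU'
  have hU'U : U' ⊆ U := Finset.filter_subset _ _
  have mU' : ∀ s ∈ J, ∀ t ∈ s, t ∈ U' := fun s hs' t ht =>
    Finset.mem_filter.2 ⟨hsU s hs' ht, s, hs', ht⟩
  have vtU : ∀ t ∈ U', ∀ v, Vt t v → v ∈ Z 0 ∨ v ∈ Z 2 ∨ v ∈ (V : Set ℂ) := by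
    intro t ht v hv
    obtain ⟨-, s, hs', hts⟩ := Finset.mem_filter.1 ht
    exact hvert s hs' t hts v hv
  have hnoex : ∀ t ∈ U', ∀ a b, Vt t a → Vt t b → (a, b) ∉ N.exS := by
    intro t ht a b ha hb hex
    obtain ⟨k, hk1, hk⟩ := O.mem_exS.1 hex
    have e1 := O.end1 k
    have e2 := O.end2 k
    rw [hk] at e1 e2
    have a1 : k - 1 = 0 ∨ k - 1 = 2 := by
      rcases vtU t ht a ha with h | h | h
      · exact Or.inl (O.uniq e1 h)
      · exact Or.inr (O.uniq e1 h)
      · exact absurd e1 (((O.inn a).1 (Finset.mem_coe.1 h)).2 _)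
    have a2 : k = 0 ∨ k = 2 := by
      rcases vtU t ht b hb with h | h | h
      · exact Or.inl (O.uniq e2 h)
      · exact Or.inr (O.uniq e2 h)
      · exact absurd e2 (((O.inn b).1 (Finset.mem_coe.1 h)).2 _)
    have h3 : ∀ k : ZMod 4, (k - 1 = 0 ∨ k - 1 = 2) → ¬ (k = 0 ∨ k = 2) := by decide
    exact h3 k a1 a2
  have hR : ∀ t ∈ U', RelAt N t := by
    intro t ht
    refine Rel2x63.relAt O.hnet (hUS (hU'U ht)) (Or.inr ⟨?_, ?_, ?_⟩)
    · exact hnoex t ht _ _ (Or.inl rfl) (Or.inr (Or.inl rfl))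
    · exact hnoex t ht _ _ (Or.inr (Or.inl rfl)) (Or.inr (Or.inr rfl))
    · exact hnoex t ht _ _ (Or.inr (Or.inr rfl)) (Or.inl rfl)
  -- the walks
  have hwalk : ∀ s ∈ J, ∃ e e' : ℂ × ℂ, Conn N s e e' ∧
      ‖N.F e.1 e.2 - 1‖ ≤ Real.sqrt 3 * Qd.pr S V Z 0 ∧ 3 / 2 ≤ ‖N.F e'.1 e'.2 - 1‖ := by
    intro s hs'
    have hsT : ∀ t ∈ s, t ∈ N.T := fun t ht => by rw [hT]; exact hUS (hsU s hs' ht)
    have hsS : ∀ t ∈ s, t ∈ delT S := fun t ht => hUS (hsU s hs' ht)
    obtain ⟨g, g', hc, hg, hg', t0, ht0, hgt⟩ := hconn s hs'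
    have hext := extract (N := N) (A := s) (P := Z 0) (Q := Z 2)
      (I := (V : Set ℂ)) hsT (fun t ht v hv => hvert s hs' t ht v hv)
      (fun t ht v v' hv hv' h1 => hno s hs' t ht v v' hv hv' h1)
      (fun v hv => ((O.inn v).1 (Finset.mem_coe.1 hv)).2 0)
      (fun v hv => ((O.inn v).1 (Finset.mem_coe.1 hv)).2 2)
      (fun v hv x hx => by
        obtain ⟨i, h1, -⟩ := hx
        exact ((O.inn v).1 (Finset.mem_coe.1 hv)).2 i h1)
      hc hg hg'
    rcases hext with hgg | ⟨e, e', he, he', hconn', ⟨t, ht, hte⟩, t', ht', hte'⟩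
    · exfalso
      have v1 := (vt_of_side hgt).1
      have v2 := (vt_of_side hgt).2
      rw [← hgg] at hg'
      rcases hg with h1 | h1 <;> rcases hg' with h2 | h2
      · exact hno s hs' t0 ht0 _ _ v1 v1 h1 h2
      · exact hno s hs' t0 ht0 _ _ v1 v2 h1 h2
      · exact hno s hs' t0 ht0 _ _ v2 v1 h1 h2
      · exact hno s hs' t0 ht0 _ _ v2 v2 h1 h2
    refine ⟨e, e', hconn', ?_, ?_⟩
    · -- the start
      have htT := hsT t ht
      have htT' := hsT t' ht'
      have hlk : Lk N t t' := lk_conn hsT htT hte hconn' t' htT' hte'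
      obtain ⟨x, hx⟩ := (O.hr 1).1
      have hva := vt_of_side hte
      have hvb := vt_of_side hte'
      have hlf : Lk N t ((r 1).1, (r 1).2, x) := by
        rcases he with h1 | h1 <;> rcases he' with h2 | h2
        · exact lk_f O (Lk.refl t) hlk hva.1 hvb.1 h1 h2 (hsS t ht) hx
        · exact lk_f O (Lk.refl t) hlk hva.1 hvb.2 h1 h2 (hsS t ht) hx
        · exact lk_f O (Lk.refl t) hlk hva.2 hvb.1 h1 h2 (hsS t ht) hx
        · exact lk_f O (Lk.refl t) hlk hva.2 hvb.2 h1 h2 (hsS t ht) hx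
      have key : ∀ a b c : ℂ, (a, b, c) ∈ rots t → (e = (a, b) ∨ e = (b, a)) →
          ‖N.F e.1 e.2 - 1‖ ≤ Real.sqrt 3 * Qd.pr S V Z 0 := by
        intro a b c hr hab
        have h3 : (a, b, c) ∈ delT S := by rw [← hT]; exact Ex0x922.rots_mem_T hr htT
        have h4 : Lk N (a, b, c) ((r 1).1, (r 1).2, x) :=
          (Lk.of_rots (Ex0x922.rots_symm hr)).trans hlf
        have h5 := tj_of_lk O h3 hx h4
        have hFc : N.F e.1 e.2 = N.F a b := by
          rcases hab with rfl | rfl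
          · rfl
          · exact Oscx63.F_comm N b a
        have hkl : (a, b) ∉ N.kl := by
          rcases hab with rfl | rfl
          · exact hte.1
          · exact fun h => hte.1 (N.klsym _ _ h)
        have hAB : a ∈ B.A ∨ b ∈ B.A := by
          rcases hab with rfl | rfl
          · exact he.imp (hA _) (hA _)
          · exact he.symm.imp (hA _) (hA _)
        rw [hFc, ← hp]
        exact B.near_one h3 hAB hkl h5
      rcases T6Dx697.side_cases hte with ⟨c, hc⟩ | ⟨c, hc⟩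
      · exact key _ _ c hc (Or.inl rfl)
      · exact key _ _ c hc (Or.inr rfl)
    · -- the end
      have htT := hsT t ht
      have htT' := hsT t' ht'
      have hlk : Lk N t' t := (lk_conn hsT htT hte hconn' t' htT' hte').symm
      obtain ⟨x, hx⟩ := (O.hr 1).1
      have hva := vt_of_side hte
      have hvb := vt_of_side hte'
      have hlf : Lk N t' ((r 1).1, (r 1).2, x) := by
        rcases he with h1 | h1 <;> rcases he' with h2 | h2
        · exact lk_f O hlk (Lk.refl t') hva.1 hvb.1 h1 h2 (hsS t' ht') hx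
        · exact lk_f O hlk (Lk.refl t') hva.1 hvb.2 h1 h2 (hsS t' ht') hx
        · exact lk_f O hlk (Lk.refl t') hva.2 hvb.1 h1 h2 (hsS t' ht') hx
        · exact lk_f O hlk (Lk.refl t') hva.2 hvb.2 h1 h2 (hsS t' ht') hx
      have key : ∀ a b c : ℂ, (a, b, c) ∈ rots t' → (e' = (a, b) ∨ e' = (b, a)) →
          3 / 2 ≤ ‖N.F e'.1 e'.2 - 1‖ := by
        intro a b c hr hab
        have h3 : (a, b, c) ∈ delT S := by rw [← hT]; exact Ex0x922.rots_mem_T hr htT'
        have h4 : Lk N (a, b, c) ((r 1).1, (r 1).2, x) :=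
          (Lk.of_rots (Ex0x922.rots_symm hr)).trans hlf
        have h5 := tj_of_lk O h3 hx h4
        have hkl : (a, b) ∉ N.kl := by
          rcases hab with rfl | rfl
          · exact hte'.1
          · exact fun h => hte'.1 (N.klsym _ _ h)
        exact far_two O he' h3 hab hkl h5
      rcases T6Dx697.side_cases hte' with ⟨c, hc⟩ | ⟨c, hc⟩
      · exact key _ _ c hc (Or.inl rfl)
      · exact key _ _ c hc (Or.inr rfl)
  -- Cauchy-Schwarz
  obtain ⟨s, hs', hT4⟩ := Oscx63.T4 (N := N) J lam hl hs (fun s => s) U'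
    (fun s hs' t ht => mU' s hs' t ht) hR
  obtain ⟨e, e', h1, h2, h3⟩ := hwalk s hs'
  have h4 := hT4 e e' h1
  have h5 : ‖N.F e'.1 e'.2 - 1‖ ≤ ‖N.F e.1 e.2 - 1‖ + ‖N.F e.1 e.2 - N.F e'.1 e'.2‖ := by
    have : N.F e'.1 e'.2 - 1 = (N.F e.1 e.2 - 1) - (N.F e.1 e.2 - N.F e'.1 e'.2) := by ring
    rw [this]
    exact norm_sub_le _ _
  have h6 : Real.sqrt (∑ t ∈ U', ‖N.Q t‖ ^ 2) ≤ 1 := by
    refine Real.sqrt_le_one.2 ?_
    exact Frame7x395.frame O.hnet (hU'U.trans hUS) fun t ht t' ht' h =>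
      hrep t (hU'U ht) t' (hU'U ht') h
  have h7 : Real.sqrt (∑ t ∈ U', (∑ i ∈ J.filter (fun i => t ∈ i), lam i) ^ 2) ≤
      Real.sqrt (∑ t ∈ U, cw J lam (fun s => s) t ^ 2) := by
    apply Real.sqrt_le_sqrt
    refine (Finset.sum_le_sum_of_subset_of_nonneg hU'U fun t _ _ => sq_nonneg _).trans (le_of_eq ?_)
    refine Finset.sum_congr rfl fun t _ => ?_
    unfold cw
    congr!
  have h8 : Real.sqrt (∑ t ∈ U', (∑ i ∈ J.filter (fun i => t ∈ i), lam i) ^ 2) *
      Real.sqrt (∑ t ∈ U', ‖N.Q t‖ ^ 2) ≤ Real.sqrt (∑ t ∈ U, cw J lam (fun s => s) t ^ 2) := by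
    calc _ ≤ Real.sqrt (∑ t ∈ U', (∑ i ∈ J.filter (fun i => t ∈ i), lam i) ^ 2) * 1 :=
          mul_le_mul_of_nonneg_left h6 (Real.sqrt_nonneg _)
      _ ≤ _ := by rw [mul_one]; exact h7
  have h9 := mul_le_mul_of_nonneg_left h8 (Real.sqrt_nonneg 3)
  linarith

end Crest.Agent.R143.Qd2x54
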