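import Crest.Agent.R143.Part_778

/-!
# Row 143 (S0194), box Q2: second moments relative to the weight off a window (helper810)

The law of `mix O σ τ` under a weight `g σ`, where `g` is NOT a function of the revealed cells.

* `dom` : `O`, `P` stopping sets, `0 ≤ g ≤ g'`, `g'` depends only on the colours in a fixed set `L`;
  where `g σ ≠ 0` : `P σ ⊆ O σ` and `O σ ∩ L ⊆ P σ`.  Then
  `∑ σ τ, g σ * F (mix O σ τ) ≤ ∑ σ τ, g' σ * F (mix P σ τ)` for every `F ≥ 0`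
* `part2` : **second moments of block sums** relative to `g'` : revealed cells `P σ ⊆ E (r σ)`, the
  cells of `E` are giants with prescribed (recoloured) colours; replaces `Part_778.part`, whose
  hypothesis `hG` cannot hold for an arc which enters the boundary boxes of the window
* `part2_blk` : the same for the square of one block sum of `M` (merge lemma `blk_pieces`)
* `fresh_blk` : the inside given `σ` : mean over `τ` of the square of one block sum of the coarse map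
-/

set_option autoImplicit false
set_option linter.unusedSectionVars false

noncomputable section

open scoped Classical

namespace Crest.Agent.R143.QuLx810

open Crest.Agent.R143.Frame1x395 Crest.Agent.R143.Frame2x395 Crest.Agent.R143.Frame3x395
  Crest.Agent.R143.Frame4x395 Crest.Agent.R143.Frame8x395 Crest.Agent.R143.NonXx592
  Crest.Agent.R143.Coarsex166 Crest.Agent.R143.Giantx46 Crest.Agent.R143.Resax778
  Crest.Agent.R143.Partx778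

/-! ### the domination lemma -/

section dom

variable {S B : Type*} [Fintype S] [Fintype B] {O P : (S → B) → Finset S} {L : Finset S}
  {g g' : (S → B) → ℝ}

/-- **DOMINATION** -/
theorem dom (hO : StopSet O) (hP : StopSet P) (hg0 : ∀ σ, 0 ≤ g' σ) (hgg : ∀ σ, g σ ≤ g' σ)
    (hgL : ∀ σ τ, (∀ s ∈ L, τ s = σ s) → g' τ = g' σ)
    (hPO : ∀ σ, g σ ≠ 0 → P σ ⊆ O σ) (hOL : ∀ σ, g σ ≠ 0 → ∀ s ∈ O σ, s ∈ L → s ∈ P σ)
    {F : (S → B) → ℝ} (hF : ∀ μ, 0 ≤ F μ) :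
    ∑ σ, ∑ τ, g σ * F (mix O σ τ) ≤ ∑ σ, ∑ τ, g' σ * F (mix P σ τ) := by
  rw [sum_swap hO, sum_swap hP]
  refine Finset.sum_le_sum fun σ _ => ?_
  rw [← Finset.sum_mul, ← Finset.sum_mul]
  refine mul_le_mul_of_nonneg_right ?_ (hF σ)
  by_cases h : ∀ τ, g (mix O σ τ) = 0
  · rw [Finset.sum_eq_zero fun τ _ => h τ]
    exact Finset.sum_nonneg fun τ _ => hg0 _
  push Not at h
  obtain ⟨τ₀, h0⟩ := h
  have e1 : O (mix O σ τ₀) = O σ := stop_mix hO σ τ₀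
  have e2 : P (mix O σ τ₀) ⊆ O σ := by
    rw [← e1]; exact hPO _ h0
  have e3 : P σ = P (mix O σ τ₀) := hP _ _ fun s hs => (mix_on (e2 hs)).symm
  have e4 : ∀ s ∈ L, s ∈ O σ ↔ s ∈ P σ := by
    intro s hs
    constructor
    · intro h1
      rw [e3]
      exact hOL _ h0 s (by rw [e1]; exact h1) hs
    · intro h1
      exact e2 (by rw [← e3]; exact h1)
  refine Finset.sum_le_sum fun τ _ => (hgg _).trans (le_of_eq ?_)
  refine hgL _ _ fun s hs => ?_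
  by_cases h1 : s ∈ O σ
  · rw [mix_on h1, mix_on ((e4 s hs).1 h1)]
  · rw [mix_off h1, mix_off fun h2 => h1 ((e4 s hs).2 h2)]

/-- the gluing on a larger set forgets the revealed set -/
theorem glue_mix {E : Finset S} {χ σ τ : S → B} (h : P σ ⊆ E) :
    glue E χ (mix P σ τ) = glue E χ τ := by
  funext s
  by_cases hs : s ∈ E
  · rw [glue_on hs, glue_on hs]
  · rw [glue_off hs, glue_off hs, mix_off fun h' => hs (h h')]

end dom

/-! ### block sums -/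

section part

variable {D C : Type} [Fintype D] [Fintype C] {M : CMap D C}

/-- **SECOND MOMENTS RELATIVE TO THE WEIGHT OFF THE WINDOW.** -/
theorem part2 {w : ℂ} (w3 : w ^ 3 = 1) (w1 : w ≠ 1) (wc : (starRingEnd ℂ) w = w ^ 2)
    {O P : (C → ZMod 2) → Finset C} (hO : StopSet O) (hP : StopSet P) {L : Finset C}
    {g g' : (C → ZMod 2) → ℝ} (hg : ∀ σ, 0 ≤ g σ) (hg0 : ∀ σ, 0 ≤ g' σ) (hgg : ∀ σ, g σ ≤ g' σ)
    (hgL : ∀ σ τ, (∀ s ∈ L, τ s = σ s) → g' τ = g' σ)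
    (hPO : ∀ σ, g σ ≠ 0 → P σ ⊆ O σ) (hOL : ∀ σ, g σ ≠ 0 → ∀ s ∈ O σ, s ∈ L → s ∈ P σ)
    {R : Type} {r : (C → ZMod 2) → R} (hr : Adp P r) {H : R → Prop}
    {E : R → Finset C} {χ₀ : R → C → ZMod 2} (hPE : ∀ σ, H (r σ) → P σ ⊆ E (r σ))
    {C' : R → Type} [∀ q, Fintype (C' q)] {π : ∀ q, C → C' q} {hπ : ∀ q, ClsCon M (π q)}
    {A : ∀ q, Finset (C' q)} {v : ∀ q, C' q → ZMod 2} {m : ℕ} (hA : ∀ q, H q → (A q).card ≤ m)
    (HG : ∀ q, H q → Gts (π q) (E q) (χ₀ q) (A q) (v q))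
    {a : R → D → ℂ} (ha : ∀ q, Spin M w (a q))
    {X : (C → ZMod 2) → (C → ZMod 2) → ℝ} (hH : ∀ σ, g σ ≠ 0 → H (r σ))
    (hX : ∀ σ τ, g σ ≠ 0 → X σ τ ≤
      ∑ β ∈ blks (coarse M (π (r σ)) (hπ (r σ)))
        (cfg M (glue (E (r σ)) (χ₀ (r σ)) (mix O σ τ))), ‖∑ k ∈ β, a (r σ) k‖ ^ 2) :
    ∑ σ, ∑ τ, g σ * X σ τ ≤
      (2 : ℝ) ^ m / 4 * Fintype.card (C → ZMod 2) * ∑ σ, g' σ * ∑ k, ‖a (r σ) k‖ ^ 2 := by
  -- the function of `mix O σ τ`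
  set F : (C → ZMod 2) → ℝ := fun μ => if H (r μ) then
    ∑ β ∈ blks (coarse M (π (r μ)) (hπ (r μ))) (cfg M (glue (E (r μ)) (χ₀ (r μ)) μ)),
      ‖∑ k ∈ β, a (r μ) k‖ ^ 2 else 0 with hF
  have F0 : ∀ μ, 0 ≤ F μ := by
    intro μ
    rw [hF]
    beta_reduce
    split_ifs
    · exact Finset.sum_nonneg fun β _ => by positivity
    · exact le_rfl
  have h1 : ∑ σ, ∑ τ, g σ * X σ τ ≤ ∑ σ, ∑ τ, g σ * F (mix O σ τ) := by
    refine Finset.sum_le_sum fun σ _ => Finset.sum_le_sum fun τ _ => ?_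
    by_cases h : g σ = 0
    · rw [h, zero_mul, zero_mul]
    refine mul_le_mul_of_nonneg_left ?_ (hg σ)
    have e1 : r (mix O σ τ) = r σ := hr σ _ fun s hs => mix_on (hPO σ h hs)
    have h2 := hX σ τ h
    rw [hF]
    beta_reduce
    rw [e1, if_pos (hH σ h)]
    exact h2
  refine (h1.trans (dom hO hP hg0 hgg hgL hPO hOL F0)).trans ?_
  rw [Finset.mul_sum]
  refine Finset.sum_le_sum fun σ _ => ?_
  rw [← Finset.mul_sum]
  have e2 : ∀ τ, F (mix P σ τ) = if H (r σ) then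
      ∑ β ∈ blks (coarse M (π (r σ)) (hπ (r σ))) (cfg M (glue (E (r σ)) (χ₀ (r σ)) τ)),
        ‖∑ k ∈ β, a (r σ) k‖ ^ 2 else 0 := by
    intro τ
    have e1 : r (mix P σ τ) = r σ := hr σ _ fun s hs => mix_on hs
    rw [hF]
    beta_reduce
    rw [e1]
    by_cases h : H (r σ)
    · rw [if_pos h, if_pos h, glue_mix (hPE σ h)]
    · rw [if_neg h, if_neg h]
  rw [Finset.sum_congr rfl fun τ _ => e2 τ]
  have hc : 0 ≤ (2 : ℝ) ^ m / 4 * Fintype.card (C → ZMod 2) * ∑ k, ‖a (r σ) k‖ ^ 2 := by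
    have : 0 ≤ ∑ k, ‖a (r σ) k‖ ^ 2 := Finset.sum_nonneg fun _ _ => by positivity
    positivity
  by_cases h : H (r σ)
  · simp only [if_pos h]
    have h3 := (HG (r σ) h).frame (M := M) (hπ := hπ (r σ)) w3 w1 wc (ha (r σ))
    have h5 : (2 : ℝ) ^ (A (r σ)).card ≤ 2 ^ m := pow_le_pow_right₀ (by norm_num) (hA _ h)
    calc g' σ * ∑ τ, ∑ β ∈ blks (coarse M (π (r σ)) (hπ (r σ)))
          (cfg M (glue (E (r σ)) (χ₀ (r σ)) τ)), ‖∑ k ∈ β, a (r σ) k‖ ^ 2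
        ≤ g' σ * ((2 : ℝ) ^ (A (r σ)).card / 4 * Fintype.card (C → ZMod 2) *
          ∑ k, ‖a (r σ) k‖ ^ 2) := mul_le_mul_of_nonneg_left h3 (hg0 σ)
      _ ≤ g' σ * ((2 : ℝ) ^ m / 4 * Fintype.card (C → ZMod 2) * ∑ k, ‖a (r σ) k‖ ^ 2) := by
          refine mul_le_mul_of_nonneg_left ?_ (hg0 σ)
          gcongr
      _ = _ := by ring
  · simp only [if_neg h]
    rw [Finset.sum_const_zero, mul_zero]
    have := mul_nonneg (hg0 σ) hc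
    linarith

/-- **the same for one block sum of `M`** : the block of the gap `p (mix O σ τ)`, field zero on the
explored gaps, harmless giants -/
theorem part2_blk {w : ℂ} (w3 : w ^ 3 = 1) (w1 : w ≠ 1) (wc : (starRingEnd ℂ) w = w ^ 2)
    {O P : (C → ZMod 2) → Finset C} (hO : StopSet O) (hP : StopSet P) {L : Finset C}
    {g g' : (C → ZMod 2) → ℝ} (hg : ∀ σ, 0 ≤ g σ) (hg0 : ∀ σ, 0 ≤ g' σ) (hgg : ∀ σ, g σ ≤ g' σ)
    (hgL : ∀ σ τ, (∀ s ∈ L, τ s = σ s) → g' τ = g' σ)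
    (hPO : ∀ σ, g σ ≠ 0 → P σ ⊆ O σ) (hOL : ∀ σ, g σ ≠ 0 → ∀ s ∈ O σ, s ∈ L → s ∈ P σ)
    {R : Type} {r : (C → ZMod 2) → R} (hr : Adp P r) {H : R → Prop}
    {E : R → Finset C} {χ₀ : R → C → ZMod 2} (hPE : ∀ σ, H (r σ) → P σ ⊆ E (r σ))
    {C' : R → Type} [∀ q, Fintype (C' q)] {π : ∀ q, C → C' q} {hπ : ∀ q, ClsCon M (π q)}
    {A : ∀ q, Finset (C' q)} {v : ∀ q, C' q → ZMod 2} {m : ℕ} (hA : ∀ q, H q → (A q).card ≤ m)
    (HG : ∀ q, H q → Gts (π q) (E q) (χ₀ q) (A q) (v q))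
    {a : D → ℂ} (ha : Spin M w a) (hH : ∀ σ, g σ ≠ 0 → H (r σ))
    {X : (C → ZMod 2) → (C → ZMod 2) → ℝ} {Q : D → Prop} (hQ : ∀ k, ¬ Q k → a k = 0)
    (hX : ∀ σ τ, g σ ≠ 0 → ∃ k₀, Gp M (cfg M (glue (E (r σ)) (χ₀ (r σ)) (mix O σ τ))) k₀ ∧
      IsC (coarse M (π (r σ)) (hπ (r σ))) ∅
        (cfg M (glue (E (r σ)) (χ₀ (r σ)) (mix O σ τ))) ∧
      X σ τ ≤ ‖∑ k ∈ blk M (cfg M (glue (E (r σ)) (χ₀ (r σ)) (mix O σ τ))) k₀, a k‖ ^ 2 ∧
      ∀ c', Harm M (π (r σ)) (cfg M (glue (E (r σ)) (χ₀ (r σ)) (mix O σ τ)))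
        (out M k₀) Q c') :
    ∑ σ, ∑ τ, g σ * X σ τ ≤
      (2 : ℝ) ^ m / 4 * Fintype.card (C → ZMod 2) * ∑ σ, g' σ * ∑ k, ‖a k‖ ^ 2 := by
  refine part2 (hπ := hπ) w3 w1 wc hO hP hg hg0 hgg hgL hPO hOL hr hPE hA HG (a := fun _ => a)
    (fun _ => ha) hH fun σ τ h => ?_
  obtain ⟨k₀, h1, h2, h3, h4⟩ := hX σ τ h
  exact h3.trans (blk_pieces (hπ := hπ (r σ)) h2 h1 (fun k _ hk => hQ k hk) h4)

/-- **the inside given `σ`** : mean over the fresh colours of the square of one block sum of the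
coarse map, without one gap `k₁` -/
theorem fresh_blk {w : ℂ} (w3 : w ^ 3 = 1) (w1 : w ≠ 1) (wc : (starRingEnd ℂ) w = w ^ 2)
    {C' : Type} [Fintype C'] {π : C → C'} {hπ : ClsCon M π} {E : Finset C} {χ₀ : C → ZMod 2}
    {A : Finset C'} {v : C' → ZMod 2} (HG : Gts π E χ₀ A v) {m : ℕ} (hA : A.card ≤ m) (hm : 2 ≤ m)
    {a : D → ℂ} (ha : Spin M w a) {k₀ k₁ : D}
    (h0 : ∀ τ, Gp (coarse M π hπ) (cfg M (glue E χ₀ τ)) k₀) :
    ∑ τ, ‖∑ k ∈ (blk (coarse M π hπ) (cfg M (glue E χ₀ τ)) k₀).erase k₁, a k‖ ^ 2 ≤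
      (2 : ℝ) ^ (m + 1) * Fintype.card (C → ZMod 2) * ∑ k, ‖a k‖ ^ 2 := by
  have h1 := HG.frame (M := M) (hπ := hπ) w3 w1 wc ha
  have hk1 : ‖a k₁‖ ^ 2 ≤ ∑ k, ‖a k‖ ^ 2 :=
    Finset.single_le_sum (f := fun k => ‖a k‖ ^ 2) (fun k _ => by positivity) (Finset.mem_univ k₁)
  have key : ∀ τ, ‖∑ k ∈ (blk (coarse M π hπ) (cfg M (glue E χ₀ τ)) k₀).erase k₁, a k‖ ^ 2 ≤
      2 * ∑ β ∈ blks (coarse M π hπ) (cfg M (glue E χ₀ τ)), ‖∑ k ∈ β, a k‖ ^ 2 +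
        2 * ∑ k, ‖a k‖ ^ 2 := by
    intro τ
    set b := blk (coarse M π hπ) (cfg M (glue E χ₀ τ)) k₀ with hb
    have hmem : b ∈ blks (coarse M π hπ) (cfg M (glue E χ₀ τ)) :=
      Finset.mem_image_of_mem _ (mem_gaps.2 (h0 τ))
    have h2 : ‖∑ k ∈ b, a k‖ ^ 2 ≤
        ∑ β ∈ blks (coarse M π hπ) (cfg M (glue E χ₀ τ)), ‖∑ k ∈ β, a k‖ ^ 2 :=
      Finset.single_le_sum (f := fun β => ‖∑ k ∈ β, a k‖ ^ 2) (fun β _ => by positivity) hmem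
    have h3 : ‖∑ k ∈ b.erase k₁, a k‖ ≤ ‖∑ k ∈ b, a k‖ + ‖a k₁‖ := by
      by_cases hk : k₁ ∈ b
      · have e : ∑ k ∈ b.erase k₁, a k = ∑ k ∈ b, a k - a k₁ := by
          rw [← Finset.add_sum_erase b a hk]; ring
        rw [e]
        exact norm_sub_le _ _
      · rw [Finset.erase_eq_of_notMem hk]
        have := norm_nonneg (a k₁)
        linarith
    have n1 := norm_nonneg (∑ k ∈ b.erase k₁, a k)
    have n2 := norm_nonneg (∑ k ∈ b, a k)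
    have n3 := norm_nonneg (a k₁)
    have h4 : ‖∑ k ∈ b.erase k₁, a k‖ ^ 2 ≤ 2 * ‖∑ k ∈ b, a k‖ ^ 2 + 2 * ‖a k₁‖ ^ 2 := by
      nlinarith [sq_nonneg (‖∑ k ∈ b, a k‖ - ‖a k₁‖)]
    linarith
  refine (Finset.sum_le_sum fun τ _ => key τ).trans ?_
  rw [Finset.sum_add_distrib, ← Finset.mul_sum, Finset.sum_const, Finset.card_univ, nsmul_eq_mul]
  set Sa := ∑ k, ‖a k‖ ^ 2 with hSa
  have hSa0 : 0 ≤ Sa := Finset.sum_nonneg fun _ _ => by positivity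
  set N : ℝ := (Fintype.card (C → ZMod 2) : ℝ) with hN
  have hN0 : 0 ≤ N := Nat.cast_nonneg _
  have h5 : (2 : ℝ) ^ A.card ≤ 2 ^ m := pow_le_pow_right₀ (by norm_num) hA
  have h6 : (4 : ℝ) ≤ 2 ^ m := by
    calc (4 : ℝ) = 2 ^ 2 := by norm_num
      _ ≤ 2 ^ m := pow_le_pow_right₀ (by norm_num) hm
  have h7 : (2 : ℝ) ^ A.card / 4 * N * Sa ≤ 2 ^ m / 4 * N * Sa := by gcongr
  have h8 : 0 ≤ N * Sa := mul_nonneg hN0 hSa0
  have h9 : (2 : ℝ) ^ (m + 1) = 2 * 2 ^ m := pow_succ' 2 m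
  rw [h9]
  nlinarith

end part

end Crest.Agent.R143.QuLx810
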