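import Crest.Agent.R143.GoodA_654
import Crest.Agent.R143.RigZ_609

/-!
# Row 143 (S0194), RIG: the field `quen` on the objects of `RigZd_609` (helper346)

`GoodAx654.quenI` at one environment with `CorEnv`: the geometric side conditions (`ta, tb ≤ n`, holes,
the sites in `u.P`, the bound of the sites) are proved; output `QuenX` (609).
-/

set_option autoImplicit false

noncomputable section

open scoped Classical

namespace Crest.Agent.R143.QuenPx346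

open Crest.ProbabilityR.Voronoi
open Crest.Agent.R143.B0x346 Crest.Agent.R143.DelGx806 Crest.Agent.R143.DelRx806
  Crest.Agent.R143.FinCx811 Crest.Agent.R143.Resax778 Crest.Agent.R143.SmallAx304
  Crest.Agent.R143.C2SBx395 Crest.Agent.R143.C2SCx395 Crest.Agent.R143.C2SDx395
open Crest.Agent.R143.Frame1x395 Crest.Agent.R143.Frame2x395 Crest.Agent.R143.Frame3x395
  Crest.Agent.R143.Frame4x395 Crest.Agent.R143.Frame8x395 Crest.Agent.R143.Frame9x395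
  Crest.Agent.R143.Frame10x395
open Crest.Agent.R143.Coarse2x166 (zs)
open Crest.Agent.R143.NetUx346 Crest.Agent.R143.NetVx346
open Crest.Agent.R143.CorMx970 (av far)
open Crest.Agent.R143.IndLoc3x279 (clr)
open Crest.Agent.R143.OutSx358 Crest.Agent.R143.SysCx166 Crest.Agent.R143.SysDx166
  Crest.Agent.R143.RigDx654 Crest.Agent.R143.QuenSx654
open Crest.Agent.R143.R10Px923 (Cpl)
open Crest.Agent.R143.RigPx854 (nT ly ly_spec hN)
open Crest.Agent.R143.RigZdx609 Crest.Agent.R143.RigZx609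
open Crest.Agent.R143.CorEx133 (Rp RU UU SU CorEnv)
open Crest.Agent.R143.SpMx169 (fP)
open Crest.Agent.R143.PolyUx346 (Poly)
open Crest.Agent.R143.MeasDx609 Crest.Agent.R143.InpJx609

/-- larger errors -/
theorem quenX_mono {n r c : ℕ} {S : Finset ℂ} {g : Set (ℂ × Bool) → ℝ}
    {V : ℕ → Set (ℂ × Bool) → ℂ} {a b : Set (ℂ × Bool) → ℕ} {t T : ℂ}
    {E1 a2 θ Q E1' a2' θ' Q' : ℝ} (h : QuenX n r c S g V a b t T E1 a2 θ Q) (h0 : E1 ≤ E1')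
    (h1 : a2 ≤ a2') (h2 : θ ≤ θ') (h3 : Q ≤ Q') :
    QuenX n r c S g V a b t T E1' a2' θ' Q' := by
  obtain ⟨Vβ, Vγ, TK, W, ka, kb, H⟩ := h
  exact ⟨Vβ, Vγ, TK, W, ka, kb,
    { hb' := H.hb', hkb := H.hkb, hWV := H.hWV, hW0 := H.hW0, close := H.close, fresh := H.fresh
      small := H.small.trans h0
      cont := fun σ hσ hg => (H.cont σ hσ hg).trans h1
      hθ := fun σ hσ hg => (H.hθ σ hσ hg).trans h2
      hQ := H.hQ.trans h3 }⟩

section env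

variable {u : Poly} {w : ZMod 3} {N : ℕ} {ε d K1 c2 ρ0 : ℝ} {ω : Sample}

theorem hole_P (C : CorEnv u ε d K1 c2 ρ0 ω) {r : ℝ} (hr : 0 ≤ r) :
    Crest.Agent.R143.Locx922.Hol (SU u ε ω : Set ℂ) (LocUx700.deep u.P r) d :=
  C.hol.mono fun _ hx => CorEx133.P_sub_UU u (hx (Metric.mem_closedBall_self (by positivity)))

theorem sites_P (C : CorEnv u ε d K1 c2 ρ0 ω) : ∀ x ∈ u.P, x ∈ SU u ε ω ↔ x ∈ points ε ω := by
  intro x hx
  rw [CorEx133.mem_SU C.e0]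
  refine ⟨fun h => h.1, fun h => ⟨h, ?_⟩⟩
  have h1 := CorEx133.P_norm u hx
  have h2 := CorEx133.one_le_Rp u
  unfold RU
  linarith

theorem norm_sites (C : CorEnv u ε d K1 c2 ρ0 ω) : ∀ v ∈ SU u ε ω, ‖v‖ ≤ RU u :=
  fun _ hv => ((CorEx133.mem_SU C.e0).1 hv).2

theorem tA_le (hn : u.n + 4 ≤ N) (X : Set (ℂ × Bool)) : tA u w N ε X ≤ nT u w N :=
  TlAx58.ta_le_nn u √ε (hN N) u.P w X (ly_spec hn).lay

theorem tB_le (hn : u.n + 4 ≤ N) (X : Set (ℂ × Bool)) : tB u w N ε X ≤ nT u w N :=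
  TlAx58.tb_le u √ε (hN N) u.P w X (ly_spec hn).lay

end env

variable {Z : TData} {u : Poly} {w : ZMod 3} {N : ℕ} {ε K1 c2 ρ0 : ℝ} {ω : Sample}
  {hS : GP (SU u ε ω : Set ℂ)} {h3 : 3 ≤ (SU u ε ω).card} {H R : Set (Cs hS)}
  {Q : Set (D0 (SU u ε ω))} {ι : Type}
  {pa : ι → (Cs hS → ZMod 2) → D0 (SU u ε ω)} {na : ι → (Cs hS → ZMod 2) → ℕ}
  {Ev : ι → (Cs hS → ZMod 2) → Prop} {F : ℕ → Set (D0 (SU u ε ω))} {tl : Cs hS → ℕ}
  {d₀ : D0 (SU u ε ω)} {E1 η θ0 θ Qq : ℝ} {r : ℕ}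

/-- **the field `quen` at one environment** -/
theorem quenX_of (C : CorEnv u ε √ε K1 c2 ρ0 ω) (hn : u.n + 4 ≤ N) (he : 0 < ε)
    (h0 : 0 < nT u w N)
    (Y : Sys (rc0 hS) H R Q pa na Ev)
    (hH : ∀ c : Cs hS, ∀ v, OnHull (SU u ε ω) v → c.1 = Quot.mk (hullE (SU u ε ω)) v → c ∈ H)
    (hZ : ∀ j σ, Ev j σ → ∀ c ∈ H, c ∉ ac (rc0 hS) (pa j σ) (na j σ) σ)
    (hx : ∀ σ ∈ (SU u ε ω).powerset, 0 < gW Z u w hn he (clr (SU u ε ω) σ) →
      Hx (rc0 hS) pa na Ev (nT u w N) (nT u w N) F tl (chiS hS h3 σ))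
    (hV : ∀ σ ∈ (SU u ε ω).powerset, 0 < gW Z u w hn he (clr (SU u ε ω) σ) →
      ∀ l, 2 ≤ l → l + 2 < nT u w N →
        VL Z fP u w ε hn (nT u w N - 1 - l) (clr (SU u ε ω) σ) =
          Vs (rc0 hS) pa na Ev (zs (rc0 hS) om (zc hS id)) F l (chiS hS h3 σ))
    (small : av (SU u ε ω).powerset (fun σ => gW Z u w hn he (clr (SU u ε ω) σ) *
      av (SU u ε ω).powerset fun τ =>
      ‖Vb (rc0 hS) H R Q pa na Ev d₀ (zs (rc0 hS) om (zc hS id)) (chiS hS h3 σ)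
        (chiS hS h3 τ)‖) ≤ E1)
    (hη : 0 ≤ η)
    (hC : ∀ σ ∈ (SU u ε ω).powerset, 0 < gW Z u w hn he (clr (SU u ε ω) σ) →
      Vin (SU u ε ω) u.P √ε ⊆
        ff (SU u ε ω) (st (gA (rc0 hS) H R Q pa na Ev (w + 1) (chiS hS h3 σ))) ∧
      Cpl (SU u ε ω) (st (gA (rc0 hS) H R Q pa na Ev (w + 1) (chiS hS h3 σ)))
        (Vin (SU u ε ω) u.P √ε)
        (Bl (SU u ε ω) (Vin (SU u ε ω) u.P √ε) u.Lab) η θ0)
    (hθ : ∀ σ ∈ (SU u ε ω).powerset, 0 < gW Z u w hn he (clr (SU u ε ω) σ) →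
      av (SU u ε ω).powerset (far r
      (fun σ τ => ka (rc0 hS) H R Q pa na Ev (nT u w N) (nT u w N) F tl (chiS hS h3 σ)
        (chiS hS h3 τ))
      (fun σ τ => kb (rc0 hS) H R Q pa na Ev (nT u w N) (nT u w N) F tl (chiS hS h3 σ)
        (chiS hS h3 τ))
      (fun τ => nT u w N - tB u w N ε (clr (SU u ε ω) τ))
      (fun τ => nT u w N - tA u w N ε (clr (SU u ε ω) τ)) σ) ≤ θ)
    (hQ : ∑ l ∈ Finset.range (nT u w N), av (SU u ε ω).powerset (fun σ =>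
      gW Z u w hn he (clr (SU u ε ω) σ) * av (SU u ε ω).powerset fun τ =>
      ‖Wd (rc0 hS) H R Q pa na Ev (w + 1) d₀ (zs (rc0 hS) om (zc hS id)) F l (chiS hS h3 σ)
        (chiS hS h3 τ)‖ ^ 2) ≤ Qq) :
    QuenX (nT u w N) (r + 1) 3 (SU u ε ω) (gW Z u w hn he) (VL Z fP u w ε hn) (tA u w N ε)
      (tB u w N ε) om (RigCx654.tI (mv u ε ω) (w + 1)) E1 (3 * (η + 2 * RU u * θ0)) θ Qq :=
  ⟨_, _, _, _, _, _, GoodAx654.quenI (i := w + 1) Y h0 hH hZ hx hV (fun τ _ => tA_le hn _)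
    (fun τ _ => tB_le hn _) small he (hole_P C (Real.sqrt_nonneg ε)) (sites_P C)
    (by linarith [CorEx133.RU_ge u]) (norm_sites C) hη hC hθ hQ⟩

end Crest.Agent.R143.QuenPx346
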