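import Crest.Agent.R143.R10E_930

/-!
# Row 143 (S0194), box R10: the structure `UO` (output of the geometric half) and its consequences
(helper930)

* `UO` : giants `A` with a root face, classes `A'` which cover the complement of `V = Vin S P √ε`,
  thin, labels right off the marks
* **`uo`** : `cpl` coupling of the hits of `A` with the values of the position labels of `V`;
  `card` : exactly one hit triple of the position labels of each type, with high probability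
-/

set_option autoImplicit false

noncomputable section

open scoped Classical ENNReal

namespace Crest.Agent.R143.R10Gx930

open Set
open Crest.ProbabilityR.Voronoi
open Crest.Agent.R143.Harx315
open Crest.Agent.R143.B0x346 Crest.Agent.R143.DelGx806
open Crest.Agent.R143.K33x877
open Crest.Agent.R143.NetUx346 Crest.Agent.R143.NetVx346 Crest.Agent.R143.Stabx930
open Crest.Agent.R143.Stab2x930 Crest.Agent.R143.R10x930 Crest.Agent.R143.R10Ex930
open Crest.Agent.R143.Hexx877 (NegO hex_root)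
open Crest.Agent.R143.ArmPx930 (ldns_mono mesh_mono)
open Crest.Agent.R143.GateKx421 (Thin)
open Crest.Agent.R143.EnvHx653 (Cab Cab_pos)

/-- **output of the geometric half** -/
structure UO (S : Finset ℂ) (A A' : ZMod 3 → Set ℂ) (o : ℂ × ℂ × ℂ) (l : ZMod 3) (P : Set ℂ)
    (L : ℂ → ZMod 3) (mk : ZMod 3 → ℂ) (R1 h D ε d0 d ρ : ℝ) : Prop where
  root : TrR S o l A
  neg : NegO A o
  cls : Cls S A'
  sub : ∀ i, A i ⊆ A' i
  ffV : ff S A' = Vin S P √ε
  vis : ∃ X, CtrX S A' X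
  reg : ∀ w ∈ fr S A, ‖w‖ + 2 * √ε ≤ R1
  d0n : 0 ≤ d0
  thin : ∀ l, Thin S A A' l d0
  dd : d0 + 4 * √ε ≤ d
  hd : h ≤ d
  hρ : h ≤ ρ
  ρD : 100 * ρ ≤ D
  mkR : ∀ k, ‖mk k‖ ≤ R1
  lab : ∀ x, Nxt S (Vin S P √ε) x → (∀ k, ρ < ‖x - mk k‖) → ∀ j, x ∈ A' j → L x = j
  opp : ∀ k, ∃ f, ∀ x, Nxt S (Vin S P √ε) x → x ∉ Vin S P √ε → (x ∈ A' f ∨ L x = f) →
    D < ‖x - mk k‖

variable {S : Finset ℂ} {A A' : ZMod 3 → Set ℂ} {o : ℂ × ℂ × ℂ} {l : ZMod 3} {P : Set ℂ}
  {L : ℂ → ZMod 3} {mk : ZMod 3 → ℂ} {R1 h D ε d0 d ρ : ℝ}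

theorem UO.root' (U : UO S A A' o l P L mk R1 h D ε d0 d ρ) : TrR S o l A' := U.root.up U.sub U.cls

theorem UO.neg' (U : UO S A A' o l P L mk R1 h D ε d0 d ρ) : NegO A' o :=
  ⟨U.sub 0 U.neg.1, U.sub 2 U.neg.2.1, U.sub 1 U.neg.2.2⟩

theorem UO.hex (U : UO S A A' o l P L mk R1 h D ε d0 d ρ) : Hex S A := hex_root U.root U.neg

theorem UO.hex' (U : UO S A A' o l P L mk R1 h D ε d0 d ρ) : Hex S A' := hex_root U.root' U.neg'

theorem UO.nr (U : UO S A A' o l P L mk R1 h D ε d0 d ρ) : NR S A' :=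
  nr_root U.root' U.neg' U.vis

/-- the marks -/
theorem UO.mkS (U : UO S A A' o l P L mk R1 h D ε d0 d ρ) {c1 c2 K : ℝ}
    (EM : EnvM S mk Cab c1 c2 K √ε ρ D) (hK : 2 ≤ K) (hc1 : c1 ≤ 1) :
    Mk S (ff S A') A' (Bl S (ff S A') L) mk √ε ρ (Real.sqrt (ρ * D)) D := by
  have hV := U.ffV
  have adjS : ∀ {x : ℂ}, Nxt S (Vin S P √ε) x → x ∈ S := by
    rintro x ⟨v, -, ha⟩
    exact ha.mem.2
  have dA : ∀ j, ∀ x ∈ A' j, x ∉ ff S A' := by
    intro j x hx h
    exact (mem_ff.1 h).2 j hx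
  refine mk_of hK hc1 EM dA (fun j x hx => hx.2.1) ?_ ?_
  · intro x hx hk j
    rw [hV] at hx
    constructor
    · intro h
      refine ⟨adjS hx, dA j x h, ?_, U.lab x hx hk j h⟩
      obtain ⟨v, hv, ha⟩ := hx
      exact ⟨v, by rw [hV]; exact hv, ha.symm⟩
    · intro h
      have : ∃ j', x ∈ A' j' := by
        by_contra hcon
        push Not at hcon
        exact h.2.1 (mem_ff.2 ⟨h.1, hcon⟩)
      obtain ⟨j', hj'⟩ := this
      have e1 := U.lab x hx hk j' hj'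
      rw [h.2.2.2] at e1
      rw [e1]
      exact hj'
  · intro k
    obtain ⟨f, hf⟩ := U.opp k
    refine ⟨f, fun x hx h => ?_⟩
    rw [hV] at hx
    rcases h with h | h
    · exact hf x hx (by rw [← hV]; exact dA f x h) (Or.inl h)
    · exact hf x hx (by rw [← hV]; exact h.2.1) (Or.inr h.2.2.2)

/-- **R10 in a fixed environment** -/
theorem uo : ∃ C c c1 c2 K : ℝ, 1 ≤ C ∧ 0 < c ∧ 0 < c1 ∧ 0 < c2 ∧ 2 ≤ K ∧
    ∀ (S : Finset ℂ) (R1 h D ε : ℝ), 0 < h → GE S c1 c2 K R1 h D ε →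
    ∀ (A A' : ZMod 3 → Set ℂ) (o : ℂ × ℂ × ℂ) (l : ZMod 3) (P : Set ℂ) (L : ℂ → ZMod 3)
      (mk : ZMod 3 → ℂ) (d0 d ρ : ℝ), UO S A A' o l P L mk R1 h D ε d0 d ρ →
    (∀ η, d ≤ η → η ≤ D → ∀ i, pr (ff S A) (fun β => η < ‖hv S A i (β : Set ℂ) -
      zV S (Vin S P √ε) (Bl S (Vin S P √ε) L) i ((β ∩ Vin S P √ε : Finset ℂ) : Set ℂ)
        (fun x => x)‖) ≤ C * ((d / η) ^ c + (ρ / D) ^ c)) ∧
    pr (Vin S P √ε) (fun T => ∃ i,
      (hitsV S (Vin S P √ε) (Bl S (Vin S P √ε) L) i (T : Set ℂ)).card ≠ 1) ≤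
        C * (ρ / D) ^ c := by
  obtain ⟨Ca, ca, c1a, c2a, Ka, hCa, hca, hc1a, hc2a, hKa, Ha⟩ := r10_fix
  obtain ⟨Cs, cs, c1s, c2s, Ks, hCs, hcs, hc1s, hc1s', hc2s, -, hKs, Hs⟩ := bde_pow Cab Cab_pos.le
  refine ⟨Ca + Cs, min ca cs, min c1a c1s, min c2a c2s, max Ka Ks, by linarith,
    lt_min hca hcs, lt_min hc1a hc1s, lt_min hc2a hc2s, hKs.trans (le_max_right _ _), ?_⟩
  intro S R1 h D ε hh E A A' o l P L mk d0 d ρ U
  have hρ0 : 0 < ρ := hh.trans_le U.hρ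
  have hD0 : 0 < D := by linarith [U.ρD]
  have hd : 0 < d := hh.trans_le U.hd
  have E' : GE S c1a c2a Ka R1 h D ε := by
    refine ⟨fun z hz => ldns_mono (E.ld z hz)
      (mul_le_mul_of_nonneg_right (le_max_left _ _) hD0.le), fun z hz b hb1 hb2 =>
      mesh_mono (E.mesh z hz b ?_ hb2)
      (mul_le_mul_of_nonneg_right (le_max_left _ _) hD0.le), E.dr.trans
      (mul_le_mul_of_nonneg_right (min_le_left _ _) hh.le)⟩
    exact (mul_le_mul_of_nonneg_right (min_le_left _ _) hh.le).trans hb1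
  have y2 : (ρ / D) ^ ca ≤ (ρ / D) ^ (min ca cs) :=
    Real.rpow_le_rpow_of_exponent_ge (by positivity)
      ((div_le_one hD0).2 (by linarith [U.ρD])) (min_le_left _ _)
  have y3 : (ρ / D) ^ cs ≤ (ρ / D) ^ (min ca cs) :=
    Real.rpow_le_rpow_of_exponent_ge (by positivity)
      ((div_le_one hD0).2 (by linarith [U.ρD])) (min_le_right _ _)
  have z2 : 0 ≤ (ρ / D) ^ (min ca cs) := Real.rpow_nonneg (by positivity) _
  constructor
  · intro η hη hηD i
    have hη0 : 0 < η := by linarith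
    refine (Ha S R1 h D ε hh E' A A' o l U.root U.neg U.cls U.sub P L mk d0 d ρ U.ffV U.vis U.reg
      U.d0n U.thin U.dd U.hd U.hρ U.ρD U.mkR U.lab U.opp η hη hηD i).trans ?_
    have y1 : (d / η) ^ ca ≤ (d / η) ^ (min ca cs) :=
      Real.rpow_le_rpow_of_exponent_ge (by positivity) ((div_le_one hη0).2 hη) (min_le_left _ _)
    have z1 : 0 ≤ (d / η) ^ (min ca cs) := Real.rpow_nonneg (by positivity) _
    have w1 : Ca * ((d / η) ^ ca + (ρ / D) ^ ca) ≤
        Ca * ((d / η) ^ (min ca cs) + (ρ / D) ^ (min ca cs)) :=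
      mul_le_mul_of_nonneg_left (by linarith) (by linarith)
    refine w1.trans (mul_le_mul_of_nonneg_right (by linarith) (by linarith))
  · have EM : EnvM S mk Cab c1s c2s Ks √ε ρ D :=
      envM_ge (le_max_right _ _) (min_le_right _ _) (min_le_right _ _) hc1s hc2s hh U.hρ U.ρD
        U.mkR E
    have hVS : ff S A' ⊆ S := Finset.filter_subset _ _
    have H := U.mkS EM hKs hc1s'
    have hB := Hs S mk √ε ρ D EM (ff S A') hVS
    rw [← U.ffV]
    refine (pr_mono fun T hT hn => ?_).trans (hB.trans ?_)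
    · by_contra hb
      obtain ⟨i, hi⟩ := hn
      obtain ⟨t, h1, -, -⟩ := hit_hv U.root.gp H U.hex' U.nr hT hb i
      apply hi
      rw [h1, Finset.card_singleton]
    · refine (mul_le_mul_of_nonneg_left y3 hCs.le).trans
        (mul_le_mul_of_nonneg_right (by linarith) z2)

end Crest.Agent.R143.R10Gx930
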