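import Crest.Agent.R143.VisP_930
import Crest.Agent.R143.LocU_700
import Crest.Agent.R143.Edd_798
import Crest.Agent.R143.R10P_923

/-!
# Row 143 (S0194), box R10: windows (helper930)

* `hitsV_loc`, `zV_loc` : the hit triples of the labelled region `(P, L)` depend on the sites in `P`
* `Vw_eq`, `hits_win`, `zV_win` : the windows `Sw`, `Vw`, `Bw` of 58 / 798
* **`r10w`** : `UO` ⟹ 923's `Cpl` for the window objects and 798's `fU ≤ θ`
-/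

set_option autoImplicit false

noncomputable section

open scoped Classical ENNReal

namespace Crest.Agent.R143.R10Wx930

open Set
open Crest.ProbabilityR.Voronoi
open Crest.Agent.R143.Harx315
open Crest.Agent.R143.B0x346 Crest.Agent.R143.DelGx806
open Crest.Agent.R143.JColx54 (Adj)
open Crest.Agent.R143.K33x877
open Crest.Agent.R143.NetUx346 Crest.Agent.R143.NetVx346 Crest.Agent.R143.Stabx930
open Crest.Agent.R143.Stab2x930 Crest.Agent.R143.R10x930 Crest.Agent.R143.R10Ex930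
open Crest.Agent.R143.R10Gx930
open Crest.Agent.R143.PolyUx346
open Crest.Agent.R143.LocUx700 (deep deep_sub Vin_eq mem_Vin agr_deep bd_Vin)
open Crest.Agent.R143.LocTx700 (sameT_local mem_bd_of)
open Crest.Agent.R143.Locx922 (Hol)
open Crest.Agent.R143.TlAx58 (Sw Vw Bw)
open Crest.Agent.R143.Eddx798 (fU)
open Crest.Agent.R143.R10Px923 (Cpl yV)

variable {S S' T : Finset ℂ} {P : Set ℂ} {d : ℝ} {L : ℂ → ZMod 3}

/-- **the hit triples of a labelled region depend on the sites of the region** -/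
theorem hitsV_loc (hd : 0 < d) (hS : GP (S : Set ℂ)) (hH : Hol (S : Set ℂ) (deep P d) d)
    (h : ∀ x ∈ P, x ∈ S ↔ x ∈ S') (hT : T ⊆ Vin S P d) (i : ZMod 3) :
    hitsV S (Vin S P d) (Bl S (Vin S P d) L) i (T : Set ℂ) =
      hitsV S' (Vin S' P d) (Bl S' (Vin S' P d) L) i (T : Set ℂ) := by
  have hsame := sameT_local hd hH (agr_deep hd h)
    (V := Vin S P d) (fun v hv => (mem_Vin.1 (Finset.mem_coe.1 hv)).2)
  have had : ∀ u v, u ∈ Vin S P d → (Adj S u v ↔ Adj S' u v) := by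
    intro u v hu
    constructor
    · rintro (⟨c, hc⟩ | ⟨c, hc⟩)
      · exact Or.inl ⟨c, (hsame _ (Or.inl hu)).1 hc⟩
      · exact Or.inr ⟨c, (hsame _ (Or.inr (Or.inl hu))).1 hc⟩
    · rintro (⟨c, hc⟩ | ⟨c, hc⟩)
      · exact Or.inl ⟨c, (hsame _ (Or.inl hu)).2 hc⟩
      · exact Or.inr ⟨c, (hsame _ (Or.inr (Or.inl hu))).2 hc⟩
  rw [← Vin_eq hd h]
  refine hitsV_congr hS (fun j x hx => hx.2.1) (fun j x hx => hx.2.1) hsame ?_ hT
  intro x hx j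
  constructor
  · rintro ⟨h1, h2, ⟨v, hv, ha⟩, h4⟩
    have hxP := bd_Vin hd hH (mem_bd_of h2 hv ha.symm)
    exact ⟨(h x hxP).1 h1, h2, ⟨v, hv, ((had v x hv).1 ha.symm).symm⟩, h4⟩
  · rintro ⟨h1, h2, ⟨v, hv, ha⟩, h4⟩
    have ha' := (had v x hv).2 ha.symm
    exact ⟨ha'.mem.2, h2, ⟨v, hv, ha'.symm⟩, h4⟩

theorem zV_loc (hd : 0 < d) (hS : GP (S : Set ℂ)) (hH : Hol (S : Set ℂ) (deep P d) d)
    (h : ∀ x ∈ P, x ∈ S ↔ x ∈ S') (hT : T ⊆ Vin S P d) (i : ZMod 3) (z : ℂ → ℂ) :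
    zV S (Vin S P d) (Bl S (Vin S P d) L) i (T : Set ℂ) z =
      zV S' (Vin S' P d) (Bl S' (Vin S' P d) L) i (T : Set ℂ) z := by
  unfold zV
  rw [hitsV_loc hd hS hH h hT i]

variable {u : Poly} {W : Set ℂ}

theorem win_mem (hW : P ⊆ W) : ∀ x ∈ P, x ∈ S ↔ x ∈ Sw W S := fun x hx => by
  unfold Sw
  rw [Finset.mem_filter]
  exact ⟨fun h => ⟨h, hW hx⟩, fun h => h.1⟩

theorem Vw_eq (hd : 0 < d) (hW : u.P ⊆ W) : Vw u d W S = Vin S u.P d :=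
  (Vin_eq hd (win_mem hW)).symm

theorem hits_win (hd : 0 < d) (hS : GP (S : Set ℂ)) (hH : Hol (S : Set ℂ) (deep u.P d) d)
    (hW : u.P ⊆ W) (hT : T ⊆ Vin S u.P d) (i : ZMod 3) :
    hitsV (Sw W S) (Vw u d W S) (Bw u d W S) i (T : Set ℂ) =
      hitsV S (Vin S u.P d) (Bl S (Vin S u.P d) u.Lab) i (T : Set ℂ) :=
  (hitsV_loc hd hS hH (win_mem hW) hT i).symm

theorem zV_win (hd : 0 < d) (hS : GP (S : Set ℂ)) (hH : Hol (S : Set ℂ) (deep u.P d) d)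
    (hW : u.P ⊆ W) (hT : T ⊆ Vin S u.P d) (i : ZMod 3) (z : ℂ → ℂ) :
    zV (Sw W S) (Vw u d W S) (Bw u d W S) i (T : Set ℂ) z =
      zV S (Vin S u.P d) (Bl S (Vin S u.P d) u.Lab) i (T : Set ℂ) z :=
  (zV_loc hd hS hH (win_mem hW) hT i z).symm

/-- **R10 in a fixed environment, for the window objects** -/
theorem r10w : ∃ C c c1 c2 K : ℝ, 1 ≤ C ∧ 0 < c ∧ 0 < c1 ∧ c1 ≤ 1 ∧ 0 < c2 ∧ 2 ≤ K ∧
    ∀ (S : Finset ℂ) (R1 h D ε : ℝ), 0 < h → 0 < ε → GE S c1 c2 K R1 h D ε →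
    ∀ (u : Poly) (A A' : ZMod 3 → Set ℂ) (o : ℂ × ℂ × ℂ) (l : ZMod 3)
      (mk : ZMod 3 → ℂ) (d0 d ρ : ℝ), UO S A A' o l u.P u.Lab mk R1 h D ε d0 d ρ →
    (∀ z ∈ u.P, ‖z‖ ≤ R1) → ∀ W : Set ℂ, u.P ⊆ W →
    (∀ η, d ≤ η → η ≤ D → Cpl S A (Vin S u.P √ε) (Bl S (Vin S u.P √ε) u.Lab) η
      (C * ((d / η) ^ c + (ρ / D) ^ c)) ∧
      ∀ i, pr (ff S A) (fun β => η < ‖hv S A i (β : Set ℂ) -
        zV (Sw W S) (Vw u √ε W S) (Bw u √ε W S) i
          ((β ∩ Vin S u.P √ε : Finset ℂ) : Set ℂ) id‖) ≤ C * ((d / η) ^ c + (ρ / D) ^ c)) ∧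
    ∀ i, fU u √ε W i S ≤ C * (ρ / D) ^ c := by
  obtain ⟨C, c, c1, c2, K, hC, hc, hc1, hc2, hK, H⟩ := uo
  refine ⟨C, c, min c1 1, c2, K, hC, hc, lt_min hc1 one_pos, min_le_right _ _, hc2, hK, ?_⟩
  intro S R1 h D ε hh hε E u A A' o l mk d0 d ρ U hP W hW
  have hε' : 0 < √ε := Real.sqrt_pos.2 hε
  have E' : GE S c1 c2 K R1 h D ε :=
    ⟨E.ld, E.mesh, E.dr.trans (mul_le_mul_of_nonneg_right (min_le_left _ _) hh.le)⟩
  obtain ⟨h1, h2⟩ := H S R1 h D ε hh E' A A' o l u.P u.Lab mk d0 d ρ U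
  have hS := U.root.gp
  have hD0 : 0 < D := by linarith [U.ρD, U.hρ]
  have hdD : √ε ≤ D := by
    have := E.dr.trans (mul_le_mul_of_nonneg_right (min_le_right _ _) hh.le)
    linarith [U.ρD, U.hρ]
  have hH : Hol (S : Set ℂ) (deep u.P √ε) √ε := by
    intro w hw z hz
    obtain ⟨s, h3, h4⟩ := (E.ld w (hP w (deep_sub hε'.le hw))).hole z (by nlinarith)
    exact ⟨s, Finset.mem_coe.2 h3, h4⟩
  refine ⟨fun η hη hηD => ⟨fun i => h1 η hη hηD i, fun i => ?_⟩, fun i => ?_⟩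
  · refine le_trans (pr_mono fun β hβ hlt => ?_) (h1 η hη hηD i)
    rw [zV_win hε' hS hH hW Finset.inter_subset_right] at hlt
    exact hlt
  · unfold fU
    rw [Vw_eq hε' hW]
    refine le_trans (pr_mono fun T hT hn => ?_) h2
    refine ⟨i, ?_⟩
    have e := hits_win (u := u) (W := W) hε' hS hH hW hT i
    rw [Vw_eq hε' hW] at e
    rw [← e]
    exact hn

end Crest.Agent.R143.R10Wx930
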