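import Crest.Agent.R143.RingL_239
import Crest.Agent.R143.Hq_304

/-!
# Row 143 (S0194), block H, box R6H (helper253): the input `hC` of 239's `Chain` / `Cyc`

* `hC_of` : literal field `hC` of `RingLx239.Chain` / `RingLx239.Cyc` from 304's `Wnd` and the
  quenched inequality of ONE window (683's `tile_le` + `tile_one`, 490's `corr_one`): the same
  inequality as box R6 of RIG, nothing about the ring outside of the window is used
* `cyc_of`, `chain_of` : the structures with `C = K (C₀ s² / m0)`, one `C₀` for all nets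
-/

set_option autoImplicit false

noncomputable section

namespace Crest.Agent.R143.R6Hx253

open MeasureTheory Set Filter Topology
open Crest.ProbabilityR.Voronoi
open Crest.Agent.R143.PP0x831 Crest.Agent.R143.Poisx304 Crest.Agent.R143.Janx304
open Crest.Agent.R143.Prodx609 Crest.Agent.R143.ColSumx304 Crest.Agent.R143.Lawx831
open Crest.Agent.R143.Dblx609 Crest.Agent.R143.Dbl2x609
open Crest.Agent.R143.IndLocx279 Crest.Agent.R143.PWx978 Crest.Agent.R143.TilePx176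
  Crest.Agent.R143.TileQx176 Crest.Agent.R143.TileRx176 Crest.Agent.R143.Hqx304
open Crest.Agent.R143.RingLx239
open scoped ENNReal

/-- the quenched inequality of the window `l` (683 / 490) -/
def Qn {ε : ℝ} {ι κ : Type} [DecidableEq ι] [DecidableEq κ] (M : Net ε ι κ) (I I₁ : Finset ι)
    (J J₁ : Finset κ) (D : Set ℂ) (d : ℝ) (B : Set ℂ) (K : ℝ) (V : Cf → ℂ) : Prop :=
  ∀ᵐ ω ∂sampleLaw, ∑ β ∈ (Ap ε B ω).powerset,
      (M.gw (I \ I₁) (J \ J₁) (paint (Ap ε B ω) β)).toReal *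
        ((win M I₁ J₁ (paint (Ap ε B ω) β)).toReal * ‖V (paint (Ap ε B ω) β)‖ ^ 2) ≤
    K * ∑ β ∈ (Ap ε B ω).powerset, (M.gw (I \ I₁) (J \ J₁) (paint (Ap ε B ω) β)).toReal *
      (Hd D d (paint (Ap ε B ω) β)).toReal

/-- **the field `hC`** -/
theorem hC_of : ∃ C₀ : ℝ, 0 ≤ C₀ ∧ ∀ {ε d s : ℝ} {ι κ : Type} [DecidableEq ι] [DecidableEq κ]
    {M : Net ε ι κ} {I : Finset ι} {J : Finset κ} {n : ℕ} {I₁ : ℕ → Finset ι}
    {J₁ : ℕ → Finset κ} {D : ℕ → Set ℂ} {B : Set ℂ} {m0 : ℝ≥0∞},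
    Wnd M I J n I₁ J₁ D d s B m0 → ∀ l < n, ∀ K : ℝ, 0 ≤ K → ∀ V : Cf → ℂ, LocalOn B V →
    FinMeas V → Qn M I (I₁ l) J (J₁ l) (D l) d B K V →
    ∫⁻ ω, M.gw I J (cfg ε ω) * ENNReal.ofReal (‖V (cfg ε ω)‖ ^ 2) ∂sampleLaw ≤
      ENNReal.ofReal (K * (C₀ * s ^ 2 / m0.toReal)) * mass M I J := by
  obtain ⟨C₀, hC₀, h2⟩ := V2_bound
  refine ⟨C₀, hC₀, ?_⟩
  intro ε d s ι κ _ _ M I J n I₁ J₁ D B m0 h l hl K hK V hVl hVm hV
  obtain ⟨hi, hb⟩ := h2 h l hl K hK V hVl hVm hV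
  have e1 : ∀ ω, M.gw I J (cfg ε ω) * ENNReal.ofReal (‖V (cfg ε ω)‖ ^ 2) =
      ENNReal.ofReal ((M.gw I J (cfg ε ω)).toReal * ‖V (cfg ε ω)‖ ^ 2) := by
    intro ω
    rw [ENNReal.ofReal_mul ENNReal.toReal_nonneg, ENNReal.ofReal_toReal
      (ne_top_of_le_ne_top ENNReal.one_ne_top (M.gw_le_one h.hN ω))]
  simp_rw [e1]
  rw [← ofReal_integral_eq_lintegral_ofReal hi (Filter.Eventually.of_forall fun ω => by positivity)]
  refine (ENNReal.ofReal_le_ofReal hb).trans ?_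
  rw [ENNReal.ofReal_mul (by positivity), ENNReal.ofReal_toReal (gw_lint_ne_top h)]
  rfl

/-- **a ring of 239 from the windows of 304**: everything except `hC` is bookkeeping of the net -/
theorem cyc_of : ∃ C₀ : ℝ, 0 ≤ C₀ ∧ ∀ {ε d s : ℝ} {ι κ : Type} [DecidableEq ι] [DecidableEq κ]
    {M : Net ε ι κ} {I : Finset ι} {J : Finset κ} {n : ℕ} {I₁ : ℕ → Finset ι}
    {J₁ : ℕ → Finset κ} {D : ℕ → Set ℂ} {B : Set ℂ} {m0 : ℝ≥0∞},
    Wnd M I J n I₁ J₁ D d s B m0 → ∀ K : ℝ, 0 ≤ K → ∀ (V : ℕ → Cf → ℂ) (II : ℕ → Finset ι)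
      (JJ : ℕ → Finset κ) (r : ℕ), mass M I J ≠ 0 → (∀ k < n, II k ⊆ I) → (∀ k < n, JJ k ⊆ J) →
    (∀ k < n, ∀ j ∈ JJ k, M.N j ⊆ II k) → (∀ k < n, LocalOn (M.reg (II k) (JJ k)) (V k)) →
    (∀ k < n, FinMeas (V k)) →
    (∀ k l, k + r ≤ l → l < n → l + r ≤ n + k → Disjoint (II k) (II l) ∧ Disjoint (JJ k) (JJ l)) →
    (∀ k < n, Qn M I (I₁ k) J (J₁ k) (D k) d B K (V k)) →
    Cyc M I J n r (K * (C₀ * s ^ 2 / m0.toReal)) V II JJ := by
  obtain ⟨C₀, hC₀, h2⟩ := hC_of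
  refine ⟨C₀, hC₀, ?_⟩
  intro ε d s ι κ _ _ M I J n I₁ J₁ D B m0 h K hK V II JJ r h0 hII hJJ hNN hV hVm hd hQ
  exact
    { hN := h.hN
      h0 := h0
      hII := hII
      hJJ := hJJ
      hNN := hNN
      hV := hV
      hVm := hVm
      hd := hd
      C0 := by positivity
      hC := fun k hk => h2 h k hk K hK (V k)
        (LocalOn.mono ((M.reg_mono (hII k hk) (hJJ k hk)).trans h.reg) (hV k hk)) (hVm k hk)
        (hQ k hk) }

/-- the same for an open corridor -/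
theorem chain_of : ∃ C₀ : ℝ, 0 ≤ C₀ ∧ ∀ {ε d s : ℝ} {ι κ : Type} [DecidableEq ι] [DecidableEq κ]
    {M : Net ε ι κ} {I : Finset ι} {J : Finset κ} {n : ℕ} {I₁ : ℕ → Finset ι}
    {J₁ : ℕ → Finset κ} {D : ℕ → Set ℂ} {B : Set ℂ} {m0 : ℝ≥0∞},
    Wnd M I J n I₁ J₁ D d s B m0 → ∀ K : ℝ, 0 ≤ K → ∀ (V : ℕ → Cf → ℂ) (II : ℕ → Finset ι)
      (JJ : ℕ → Finset κ) (r : ℕ), mass M I J ≠ 0 → (∀ k < n, II k ⊆ I) → (∀ k < n, JJ k ⊆ J) →
    (∀ k < n, ∀ j ∈ JJ k, M.N j ⊆ II k) → (∀ k < n, LocalOn (M.reg (II k) (JJ k)) (V k)) →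
    (∀ k < n, FinMeas (V k)) →
    (∀ k l, k + r ≤ l → l < n → Disjoint (II k) (II l) ∧ Disjoint (JJ k) (JJ l)) →
    (∀ k < n, Qn M I (I₁ k) J (J₁ k) (D k) d B K (V k)) →
    Chain M I J n r (K * (C₀ * s ^ 2 / m0.toReal)) V II JJ := by
  obtain ⟨C₀, hC₀, h2⟩ := hC_of
  refine ⟨C₀, hC₀, ?_⟩
  intro ε d s ι κ _ _ M I J n I₁ J₁ D B m0 h K hK V II JJ r h0 hII hJJ hNN hV hVm hd hQ
  exact
    { hN := h.hN
      h0 := h0
      hII := hII
      hJJ := hJJ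
      hNN := hNN
      hV := hV
      hVm := hVm
      hd := hd
      C0 := by positivity
      hC := fun k hk => h2 h k hk K hK (V k)
        (LocalOn.mono ((M.reg_mono (hII k hk) (hJJ k hk)).trans h.reg) (hV k hk)) (hVm k hk)
        (hQ k hk) }

end Crest.Agent.R143.R6Hx253
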