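import Crest.Agent.R143.Rect3_723
import Crest.Agent.R143.RB2_54
import Crest.Agent.R143.CircP_838

/-!
# Row 143 (S0194), leaf RB (box crossings): assembly (helper723, on top of 54's `RB2x54.core`)

* `lower` : the crossing probability of the rectangle is `≥ exp (- C (1 + C4))`
* `rb : E3 → RB0x838.RB`
-/

set_option autoImplicit false
set_option linter.unusedSectionVars false

noncomputable section

open scoped Classical

namespace Crest.Agent.R143.Rect2x723

open Set Filter Topology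
open Crest.Agent.R143.B0x346 Crest.Agent.R143.B0Dx346 Crest.Agent.R143.DelGx806
  Crest.Agent.R143.DelRx806
  Crest.Agent.R143.Cfgx416 Crest.Agent.R143.Rect1x723
  Crest.Agent.R143.RB0x838 Crest.Agent.R143.Circx63 Crest.Agent.R143.Scalx63
  Crest.Agent.R143.Oscx63 Crest.Agent.R143.Rswx63 Crest.Agent.R143.Famx930
  Crest.Agent.R143.Ex0x922

variable {S : Finset ℂ} {z0 u : ℂ} {a b d : ℝ}

namespace RH

variable (H : RH S z0 u a b d)
include H

/-- a vertex of a triangle which meets the strip -/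
theorem vt_small {h : ℝ} (hh : h ∈ Icc 0 (b1 b)) {t : ℂ × ℂ × ℂ} (ht : t ∈ delT (Sr S z0 a b))
    {y : ℂ} (hy : y ∈ cT t) (hyp : y ∈ par (cor z0 u a b d) u (2 * (a1 a b + 3 * d)) h) {v : ℂ}
    (hv : RB2x54.Vt t v) : ‖v - y‖ < 2 * d ∧ v ∈ Sr S z0 a b := by
  obtain ⟨h1, h2⟩ := H.par_strip hh hyp
  obtain ⟨x1, x2, x3⟩ := t
  obtain ⟨⟨g1, g2, g3⟩, m1, m2, m3⟩ := H.vert_small ht hy (H.strip_deep h1 h2)
  unfold RB2x54.Vt at hv
  rcases hv with rfl | rfl | rfl
  · exact ⟨g1, m1⟩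
  · exact ⟨g2, m2⟩
  · exact ⟨g3, m3⟩

/-- **lower bound** -/
theorem lower (hE : E3) {k C4 : ℝ} (hk : a ≤ k * b) (hC4 : 0 ≤ C4)
    (hM : Mesh S z0 (Lr a b) b C4) :
    Real.sqrt 3 / 2 * Real.exp (-(1 + 1152 * (4 * C4 * (4 * k + 3)))) ≤
      (Cr z0 u a b).pr (Sr S z0 a b) 0 := by
  have hd := H.dp
  have hds := H.d_small
  have hb := H.hb
  have ha := H.ha
  have ha1 := H.a1p
  have hb1 := H.b1p
  have hbb : b = 2 * b1 b := by unfold b1; ring
  have hbL := H.b_L
  have hl0 : 0 ≤ a1 a b + 3 * d := by positivity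
  have hlw : 2 * (a1 a b + 3 * d) / b1 b + 1 ≤ 4 * k + 3 := by
    rw [← le_sub_iff_add_le, div_le_iff₀ hb1]
    have : a1 a b = a + b1 b / 2 := by unfold a1 b1; ring
    nlinarith
  have hmain := RB2x54.core hE H.out (z1 := cor z0 u a b d) (u := u) H.u1
    (l := 2 * (a1 a b + 3 * d)) (w := b1 b) (C4 := 4 * C4) (by positivity) hb1 (by positivity)
    (fun h hh x hx => by
      obtain ⟨h1, h2⟩ := H.par_strip hh hx
      exact H.cover (H.strip_deep h1 h2))
    (fun h hh t ht hm v hv => by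
      obtain ⟨y, hy, hyp⟩ := hm
      obtain ⟨h1, h2⟩ := H.par_strip hh hyp
      obtain ⟨g1, g2⟩ := H.vt_small hh ht hy hyp hv
      by_cases hc : ∃ i, v ∈ (Cr z0 u a b).cls (Sr S z0 a b) i
      · obtain ⟨i, hi⟩ := hc
        rcases H.strip_cls h1 h2 g1 hi with rfl | rfl
        · exact Or.inl hi
        · exact Or.inr (Or.inl hi)
      · push Not at hc
        exact Or.inr (Or.inr (Finset.mem_coe.2 (DomEx722.mem_inn.2 ⟨g2, hc⟩))))
    (fun h hh t ht hm v v' hv hv' h0 h2 => by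
      obtain ⟨y, hy, hyp⟩ := hm
      obtain ⟨g1, -⟩ := H.vt_small hh ht hy hyp hv
      obtain ⟨g2, -⟩ := H.vt_small hh ht hy hyp hv'
      have k1 := H.cls0_left h0
      have k2 := H.cls2_right h2
      have k3 := abs_le.1 (H.re_diff v y)
      have k4 := abs_le.1 (H.re_diff v' y)
      linarith)
    (fun h hh => by
      set q : ℂ := cor z0 u a b d + u * (((0 : ℝ) : ℂ) + (h : ℂ) * Complex.I) with hq
      have hqp : q ∈ par (cor z0 u a b d) u (2 * (a1 a b + 3 * d)) h :=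
        ⟨0, ⟨le_rfl, by positivity⟩, rfl⟩
      obtain ⟨h1, h2⟩ := H.par_strip hh hqp
      obtain ⟨t, ht, hqt⟩ := H.cover (H.strip_deep h1 h2)
      have hv : RB2x54.Vt t t.1 := Or.inl rfl
      obtain ⟨g1, g2⟩ := H.vt_small hh ht hqt hqp hv
      refine ⟨t, ht, ⟨q, hqt, hqp⟩, t.1, hv, H.left_cls (p := q) ?_ h2 g1 g2⟩
      rw [hq, H.cor_re]; ring)
    (fun h hh => by
      set q : ℂ := cor z0 u a b d + u * (((2 * (a1 a b + 3 * d) : ℝ) : ℂ) + (h : ℂ) * Complex.I)
        with hq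
      have hqp : q ∈ par (cor z0 u a b d) u (2 * (a1 a b + 3 * d)) h :=
        ⟨_, ⟨by positivity, le_rfl⟩, rfl⟩
      obtain ⟨h1, h2⟩ := H.par_strip hh hqp
      obtain ⟨t, ht, hqt⟩ := H.cover (H.strip_deep h1 h2)
      have hv : RB2x54.Vt t t.1 := Or.inl rfl
      obtain ⟨g1, g2⟩ := H.vt_small hh ht hqt hqp hv
      refine ⟨t, ht, ⟨q, hqt, hqp⟩, t.1, hv, H.right_cls (p := q) ?_ h2 g1 g2⟩
      rw [hq, H.cor_re]; ring)
    (fun h hh t ht hm => by
      obtain ⟨y, hy, hyp⟩ := hm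
      obtain ⟨h1, h2⟩ := H.par_strip hh hyp
      have := (H.tri_small ht hy (H.strip_deep h1 h2)).2
      linarith)
    (fun s hs => by
      set c : ℂ := cor z0 u a b d + u * ((s : ℂ) + ((b1 b / 2 : ℝ) : ℂ) * Complex.I) with hc
      have hcn : ‖c - z0‖ ≤ a1 a b + 3 * d := by
        rw [← H.ndiv]
        refine (Complex.norm_le_abs_re_add_abs_im _).trans ?_
        rw [hc, H.cor_re, H.cor_im, sub_self, abs_zero, add_zero, abs_le]
        obtain ⟨hs0, hs1⟩ := hs
        constructor <;> linarith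
      have hLr : Lr a b = 4 * (a1 a b + b1 b) := rfl
      have h1 := hM c (by linarith)
      have h2 : (delT (Sr S z0 a b)).filter
          (fun t => (cT t ∩ Metric.closedBall c (b1 b)).Nonempty) ⊆
          (delT S).filter (fun t => (cT t ∩ Metric.closedBall c b).Nonempty) := by
        intro t ht
        rw [Finset.mem_filter] at ht ⊢
        obtain ⟨ht, y, hy1, hy2⟩ := ht
        have hy3 : ‖y - c‖ ≤ b1 b := by rwa [Metric.mem_closedBall, dist_eq_norm] at hy2
        have hy4 : ‖y - z0‖ ≤ Lr a b - 2 * d := by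
          have := Locx922.norm_tri y c z0
          linarith
        constructor
        · exact (Locx922.delT_local (a := t.1) (b := t.2.1) (c := t.2.2) H.dp H.hol H.agr hy4
            hy1).1 ht
        · refine ⟨y, hy1, ?_⟩
          rw [Metric.mem_closedBall, dist_eq_norm]
          linarith
      calc _ ≤ ∑ t ∈ (delT S).filter (fun t => (cT t ∩ Metric.closedBall c b).Nonempty), dm t ^ 2 :=
            Finset.sum_le_sum_of_subset_of_nonneg h2 fun t _ _ => sq_nonneg _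
        _ ≤ C4 * b ^ 2 := h1
        _ = 4 * C4 * b1 b ^ 2 := by unfold b1; ring)
  refine le_trans ?_ hmain
  apply mul_le_mul_of_nonneg_left _ (by positivity)
  rw [Real.exp_le_exp]
  have h1 : 4 * C4 * (2 * (a1 a b + 3 * d) / b1 b + 1) ≤ 4 * C4 * (4 * k + 3) :=
    mul_le_mul_of_nonneg_left hlw (by positivity)
  linarith

end RH

/-- the hypotheses from `d ≤ c₁ b` -/
theorem rh_of {k : ℝ} (hk : 1 ≤ k) (hu : ‖u‖ = 1) (ha : 0 < a) (hb : 0 < b) (hab : a ≤ k * b)
    (hba : b ≤ k * a) (hL : LDns S z0 (8 * (a + b)) d)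
    (hd : d ≤ 1 / (40000 * (4 * k + 3) ^ 5 * (64 * (k + 1)) ^ 6) * b) : RH S z0 u a b d := by
  have hdp := hL.dpos
  have hLr : Lr a b = 4 * a + 3 * b := by unfold Lr LL a1 b1; ring
  have hL1 : Lr a b ≤ (4 * k + 3) * b := by rw [hLr]; nlinarith
  have hL0 : 0 < Lr a b := by rw [hLr]; positivity
  have ha1 : 0 < a1 a b := by unfold a1; positivity
  have hb1 : 0 < b1 b := by unfold b1; positivity
  have hk0 : 0 < k := by linarith
  have hdr : b / (64 * (k + 1)) ≤ dr a b := by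
    have h1 : b / 4 ≤ min (a1 a b) (b1 b) := le_min (by unfold a1; linarith) (by unfold b1; linarith)
    have h2 : (b / 4) ^ 2 ≤ min (a1 a b) (b1 b) ^ 2 := pow_le_pow_left₀ (by positivity) h1 2
    have h3 : a1 a b + b1 b ≤ (k + 1) * b := by unfold a1 b1; nlinarith
    unfold dr dl
    rw [div_le_div_iff₀ (by positivity) (by positivity)]
    have h4 : b * (4 * (a1 a b + b1 b)) ≤ b * (4 * ((k + 1) * b)) :=
      mul_le_mul_of_nonneg_left (by linarith) hb.le
    have h5 : (b / 4) ^ 2 * (64 * (k + 1)) ≤ min (a1 a b) (b1 b) ^ 2 * (64 * (k + 1)) :=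
      mul_le_mul_of_nonneg_right h2 (by positivity)
    nlinarith
  have hden : 0 < 40000 * (4 * k + 3) ^ 5 * (64 * (k + 1)) ^ 6 := by positivity
  have hd' : 40000 * (4 * k + 3) ^ 5 * (64 * (k + 1)) ^ 6 * d ≤ b := by
    rw [one_div, inv_mul_eq_div, le_div_iff₀ hden] at hd
    linarith
  refine ⟨hu, ha, hb, CircPx838.LDns.mono hL (by rw [hLr]; linarith), ?_, ?_⟩
  · have h1 : Lr a b ^ 5 ≤ ((4 * k + 3) * b) ^ 5 := pow_le_pow_left₀ hL0.le hL1 5
    have h2 : (b / (64 * (k + 1))) ^ 6 ≤ dr a b ^ 6 := pow_le_pow_left₀ (by positivity) hdr 6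
    refine le_trans ?_ h2
    have h3 : 40000 * Lr a b ^ 5 * d ≤ 40000 * ((4 * k + 3) * b) ^ 5 * d :=
      mul_le_mul_of_nonneg_right (mul_le_mul_of_nonneg_left h1 (by norm_num)) hdp.le
    refine h3.trans ?_
    rw [div_pow, le_div_iff₀ (by positivity)]
    calc 40000 * ((4 * k + 3) * b) ^ 5 * d * (64 * (k + 1)) ^ 6 =
          b ^ 5 * (40000 * (4 * k + 3) ^ 5 * (64 * (k + 1)) ^ 6 * d) := by ring
      _ ≤ b ^ 5 * b := mul_le_mul_of_nonneg_left hd' (by positivity)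
      _ = b ^ 6 := by ring
  · have h1 : 25 * (Lr a b * d) ≤ 25 * ((4 * k + 3) * b * d) :=
      mul_le_mul_of_nonneg_left (mul_le_mul_of_nonneg_right hL1 hdp.le) (by norm_num)
    refine h1.trans ?_
    have h2 : b ^ 2 ≤ k ^ 2 * a ^ 2 := by
      rw [← mul_pow]; exact pow_le_pow_left₀ hb.le hba 2
    have e1 : (1 : ℝ) ≤ 4 * k + 3 := by linarith
    have e2 : 4 * k + 3 ≤ (4 * k + 3) ^ 5 := le_self_pow₀ e1 (by norm_num)
    have e3 : k ^ 2 ≤ (64 * (k + 1)) ^ 6 := by
      calc k ^ 2 ≤ (64 * (k + 1)) ^ 2 := pow_le_pow_left₀ hk0.le (by linarith) 2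
        _ ≤ (64 * (k + 1)) ^ 6 := pow_le_pow_right₀ (by linarith) (by norm_num)
    have e4 : 25 * (4 * k + 3) * k ^ 2 ≤ 40000 * (4 * k + 3) ^ 5 * (64 * (k + 1)) ^ 6 := by
      calc 25 * (4 * k + 3) * k ^ 2 ≤ 25 * (4 * k + 3) ^ 5 * (64 * (k + 1)) ^ 6 :=
            mul_le_mul (by linarith) e3 (by positivity) (by positivity)
        _ ≤ _ := by
          have : 0 < (4 * k + 3) ^ 5 * (64 * (k + 1)) ^ 6 := by positivity
          nlinarith
    have e5 : 25 * (4 * k + 3) * k ^ 2 * d ≤ b :=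
      (mul_le_mul_of_nonneg_right e4 hdp.le).trans hd'
    have e6 : 25 * (4 * k + 3) * k ^ 2 * d * b ≤ b ^ 2 := by
      rw [pow_two b]; exact mul_le_mul_of_nonneg_right e5 hb.le
    have e7 : k ^ 2 * (25 * ((4 * k + 3) * b * d)) ≤ k ^ 2 * a ^ 2 := by
      calc k ^ 2 * (25 * ((4 * k + 3) * b * d)) = 25 * (4 * k + 3) * k ^ 2 * d * b := by ring
        _ ≤ b ^ 2 := e6
        _ ≤ _ := h2
    exact le_of_mul_le_mul_left e7 (by positivity)

/-- **RB** (box crossings) from E3 -/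
theorem rb (hE : E3) : RB := by
  intro k hk
  refine ⟨2 + 4608 * (4 * k + 3), 1 / (40000 * (4 * k + 3) ^ 5 * (64 * (k + 1)) ^ 6), 8,
    by positivity, by positivity, by norm_num, ?_⟩
  intro S z0 e a b d C4 he ha hb hab hba hL hC4 hM hd
  have H : RH S z0 e a b d := rh_of hk he ha hb hab hba hL hd
  have hLr : Lr a b ≤ 8 * (a + b) := by
    have : Lr a b = 4 * a + 3 * b := by unfold Lr LL a1 b1; ring
    linarith
  have hM' : Mesh S z0 (Lr a b) b C4 := fun z hz => hM z (hz.trans hLr)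
  refine ⟨(Cr z0 e a b).inn (Sr S z0 a b), H.inn_sub, ?_⟩
  refine le_trans ?_ (H.lower hE hab hC4 hM' |>.trans H.pr_le)
  have h1 : Real.exp (-1) ≤ Real.sqrt 3 / 2 := by
    have h2 : (1 : ℝ) ≤ Real.sqrt 3 := by
      rw [Real.one_le_sqrt]; norm_num
    have h3 : Real.exp (-1) ≤ 1 / 2 := by
      rw [Real.exp_neg, inv_eq_one_div]
      apply one_div_le_one_div_of_le (by norm_num)
      have := Real.add_one_le_exp (1 : ℝ)
      linarith
    linarith
  calc Real.exp (-(2 + 4608 * (4 * k + 3)) * (1 + C4))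
      ≤ Real.exp (-1 + -(1 + 1152 * (4 * C4 * (4 * k + 3)))) := by
        rw [Real.exp_le_exp]
        have : 0 ≤ 4608 * (4 * k + 3) := by positivity
        nlinarith
    _ = Real.exp (-1) * Real.exp (-(1 + 1152 * (4 * C4 * (4 * k + 3)))) := Real.exp_add _ _
    _ ≤ _ := mul_le_mul_of_nonneg_right h1 (Real.exp_pos _).le

end Crest.Agent.R143.Rect2x723
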