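import Crest.Agent.R143.CB_838
import Crest.Agent.R143.Multi_838

/-!
# Row 143: the weak form `RBp` of the rectangle crossings (helper838)

`RBp` : for every aspect ratio `k` and every mesh constant `C4` there is a `p > 0` (and `c1`, `K`,
all depending on `k` and `C4`) with crossing probability `≥ p`.  The users `circ_prp`, `no_circp`,
`no_circ_whitep`, `cbp`, `tbp`, `rb_hcp`, `rb_vcp`, `multip` are the old statements with
`exp (- C (1 + C4))` replaced by `p`.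
-/

set_option autoImplicit false

noncomputable section

open scoped Classical

namespace Crest.Agent.R143.RBpx838

open Crest.Agent.R143.B0x346 Crest.Agent.R143.DelGx806 Crest.Agent.R143.DelRx806
open Crest.Agent.R143.ToolWx838 Crest.Agent.R143.Blkx838 Crest.Agent.R143.ToolW2x838
open Crest.Agent.R143.ToolW3x838 Crest.Agent.R143.Circ4x838 Crest.Agent.R143.Harx315
open Crest.Agent.R143.RB0x838 Crest.Agent.R143.CircPx838 Crest.Agent.R143.Gatex838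
open Crest.Agent.R143.CBx838 Crest.Agent.R143.Multix838

variable {S V : Finset ℂ} {z0 e : ℂ} {a b r : ℝ}

/-- **RBp**: crossings of rectangles of bounded aspect ratio, weak form -/
def RBp : Prop := ∀ k : ℝ, 1 ≤ k → ∀ C4 : ℝ, 0 ≤ C4 → ∃ p c1 K : ℝ, 0 < p ∧ 0 < c1 ∧ 0 < K ∧
  ∀ (S : Finset ℂ) (z0 e : ℂ) (a b d : ℝ), ‖e‖ = 1 → 0 < a → 0 < b → a ≤ k * b → b ≤ k * a →
    LDns S z0 (K * (a + b)) d → Mesh S z0 (K * (a + b)) b C4 → d ≤ c1 * b →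
    ∃ V : Finset ℂ, V ⊆ S ∧ p ≤ pr V (fun β => ∃ l, Cross S z0 e a b β l)

theorem rbp_of_rb (h : RB) : RBp := by
  intro k hk C4 hC4
  obtain ⟨C, c1, K, hC, hc1, hK, H⟩ := h k hk
  exact ⟨Real.exp (-C * (1 + C4)), c1, K, Real.exp_pos _, hc1, hK,
    fun S z0 e a b d he ha hb hab hba hD hM hd => H S z0 e a b d C4 he ha hb hab hba hD hC4 hM hd⟩

/-- circuits -/
theorem circ_prp (hRB : RBp) : ∀ C4 : ℝ, 0 ≤ C4 → ∃ p c1 K : ℝ, 0 < p ∧ 0 < c1 ∧ 0 < K ∧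
    ∀ (S : Finset ℂ) (z0 : ℂ) (r d : ℝ), 0 < r → LDns S z0 (K * r) d →
    Mesh S z0 (K * r) r C4 → d ≤ c1 * r →
    ∀ V : Finset ℂ, V ⊆ S → (∀ s ∈ S, r < sup (s - z0) → sup (s - z0) < 2 * r → s ∈ V) →
    p ≤ pr V (fun β => ∃ c, CircC S z0 r β c) := by
  intro C4 hC4
  obtain ⟨p, c1, K, hp, hc1, hK, h⟩ := hRB 6 (by norm_num) (16 * C4) (by positivity)
  refine ⟨p ^ 4, c1 / 4, 7 / 4 * K + 5 / 4, by positivity, by positivity, by positivity, ?_⟩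
  intro S z0 r d hr hD hM hd V hV hann
  have hk : ∀ k, p ≤ pr V (fun β => CE S z0 r k β) := by
    intro k
    have hsh : ‖zc z0 r k - z0‖ + K * (3 / 2 * r + 1 / 4 * r) ≤ (7 / 4 * K + 5 / 4) * r := by
      rw [norm_zc hr]; nlinarith
    have hM' : Mesh S (zc z0 r k) (K * (3 / 2 * r + 1 / 4 * r)) (1 / 4 * r) (16 * C4) := by
      have := mesh_small (mesh_shift hM hsh) (b := 1 / 4 * r) (k := 4) (by positivity) (by linarith) hC4
        (by linarith)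
      rw [show C4 * (4 : ℝ) ^ 2 = 16 * C4 by ring] at this
      exact this
    obtain ⟨V0, hV0, h0⟩ := h S (zc z0 r k) (dir k) (3 / 2 * r) (1 / 4 * r) d (norm_dir k)
      (by positivity) (by positivity) (by linarith) (by linarith)
      (LDns.shift hD hsh) hM' (by linarith)
    refine pr_transfer (S := S) hV0 (fun β β' h1 ⟨l, hl⟩ => ⟨l, cross_mono hl h1⟩) ?_ hV h0
    rintro β hβ ⟨l, hl⟩
    have ha := CE.ann hr hl
    exact ⟨l, hl.ne, hl.adj, fun s hs => Finset.mem_inter.2 ⟨hl.col s hs,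
      hann s (hβ (hl.col s hs)) (ha s hs).1 (ha s hs).2⟩, hl.strip, hl.loc, hl.left, hl.right⟩
  exact circ_ge hD.gp hr hp.le hk

/-- many annuli -/
theorem no_circp (hRB : RBp) : ∀ C4 : ℝ, 0 ≤ C4 → ∃ p c1 K : ℝ, 0 < p ∧ 0 < c1 ∧ 0 < K ∧
    ∀ (S : Finset ℂ) (z0 : ℂ) (r d : ℝ), 0 < r → ∀ J : Finset ℕ,
    (∀ j ∈ J, LDns S z0 (K * (2 ^ j * r)) d) →
    (∀ j ∈ J, Mesh S z0 (K * (2 ^ j * r)) (2 ^ j * r) C4) → d ≤ c1 * r →
    ∀ V : Finset ℂ, V ⊆ S →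
    (∀ j ∈ J, ∀ s ∈ S, 2 ^ j * r < sup (s - z0) → sup (s - z0) < 2 * (2 ^ j * r) → s ∈ V) →
    pr V (fun β => ∀ j ∈ J, ¬ ∃ c, CircC S z0 (2 ^ j * r) β c) ≤ (1 - p) ^ J.card := by
  intro C4 hC4
  obtain ⟨p, c1, K, hp, hc1, hK, h⟩ := circ_prp hRB C4 hC4
  refine ⟨p, c1, K, hp, hc1, hK, fun S z0 r d hr J hD hM hd V hV hann => ?_⟩
  have hdisj : ∀ i ∈ J, ∀ j ∈ J, i ≠ j → Disjoint (ann V z0 (2 ^ i * r)) (ann V z0 (2 ^ j * r)) := by
    have key : ∀ i j : ℕ, i < j → Disjoint (ann V z0 (2 ^ i * r)) (ann V z0 (2 ^ j * r)) := by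
      intro i j hij
      rw [Finset.disjoint_left]
      intro s h1 h2
      rw [mem_ann] at h1 h2
      have h3 : (2 : ℝ) ^ (i + 1) ≤ 2 ^ j := pow_le_pow_right₀ (by norm_num) hij
      rw [pow_succ] at h3
      nlinarith [h1.2.2, h2.2.1, mul_le_mul_of_nonneg_right h3 hr.le]
    intro i _ j _ hij
    rcases lt_or_gt_of_ne hij with h | h
    · exact key i j h
    · exact (key j i h).symm
  rw [pr_indep_prod (V := V) J (A := fun j β => ¬ ∃ c, CircC S z0 (2 ^ j * r) β c)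
    (W := fun j => ann V z0 (2 ^ j * r)) hdisj
    (fun j _ => (dep_circ fun s hs h1 h2 => mem_ann.2 ⟨hs, h1, h2⟩).not)]
  have h1 : ∀ j ∈ J, pr V (fun β => ¬ ∃ c, CircC S z0 (2 ^ j * r) β c) ≤ 1 - p := by
    intro j hj
    rw [pr_not]
    have hj1 : (1 : ℝ) ≤ 2 ^ j := one_le_pow₀ (by norm_num)
    have h2 := h S z0 (2 ^ j * r) d (by positivity) (hD j hj) (hM j hj)
      (hd.trans (by nlinarith [mul_le_mul_of_nonneg_right hj1 hr.le])) V hV (hann j hj)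
    linarith
  refine (Finset.prod_le_prod (fun j _ => pr_nonneg) h1).trans ?_
  rw [Finset.prod_const]

/-- the same for white circuits -/
theorem no_circ_whitep (hRB : RBp) : ∀ C4 : ℝ, 0 ≤ C4 → ∃ p c1 K : ℝ, 0 < p ∧ 0 < c1 ∧ 0 < K ∧
    ∀ (S : Finset ℂ) (z0 : ℂ) (r d : ℝ), 0 < r → ∀ J : Finset ℕ,
    (∀ j ∈ J, LDns S z0 (K * (2 ^ j * r)) d) →
    (∀ j ∈ J, Mesh S z0 (K * (2 ^ j * r)) (2 ^ j * r) C4) → d ≤ c1 * r →
    ∀ V : Finset ℂ, V ⊆ S →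
    (∀ j ∈ J, ∀ s ∈ S, 2 ^ j * r < sup (s - z0) → sup (s - z0) < 2 * (2 ^ j * r) → s ∈ V) →
    pr V (fun β => ∀ j ∈ J, ¬ ∃ c, CircC S z0 (2 ^ j * r) (V \ β) c) ≤ (1 - p) ^ J.card := by
  intro C4 hC4
  obtain ⟨p, c1, K, hp, hc1, hK, h⟩ := no_circp hRB C4 hC4
  refine ⟨p, c1, K, hp, hc1, hK, fun S z0 r d hr J hD hM hd V hV hann => ?_⟩
  have h1 := pr_flip V (fun β => ∀ j ∈ J, ¬ ∃ c, CircC S z0 (2 ^ j * r) β c)
  rw [h1]
  exact h S z0 r d hr J hD hM hd V hV hann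

/-- crossing of an annulus by one colour, arbitrary free sites -/
theorem cbp (hRB : RBp) : ∀ C4 : ℝ, 0 ≤ C4 → ∃ p c1 K : ℝ, 0 < p ∧ 0 < c1 ∧ 0 < K ∧
    ∀ (S : Finset ℂ) (z0 : ℂ) (r d : ℝ), 0 < r → LDns S z0 (K * r) d →
    Mesh S z0 (K * r) r C4 → d ≤ c1 * r → ∀ V : Finset ℂ, V ⊆ S →
    pr V (fun β => ∃ l, Arm S z0 r (3 * r) β l) ≤ 1 - p := by
  intro C4 hC4
  obtain ⟨p, c1, K, hp, hc1, hK, h⟩ := circ_prp hRB C4 hC4
  refine ⟨p, c1, K, hp, hc1, hK, fun S z0 r d hr hD hM hd V hV => ?_⟩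
  refine (pr_le_of_sub hV fun β β' h1 ⟨l, hl⟩ => ⟨l, hl.ne, hl.adj, fun s hs => h1 (hl.col s hs),
    hl.left, hl.right⟩).trans ?_
  have h1 := h S z0 r d hr hD hM hd S subset_rfl (fun s hs _ _ => hs)
  rw [← pr_white] at h1
  have h2 : pr S (fun β => ∃ l, Arm S z0 r (3 * r) β l) ≤
      pr S (fun β => ¬ ∃ c, CircC S z0 r (S \ β) c) := by
    refine pr_mono fun β _ ⟨l, hl⟩ ⟨c, hc⟩ => arm_blocked hD.gp hr ?_ hl hc
    exact Finset.disjoint_sdiff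
  rw [pr_not] at h2
  linarith

/-- long crossing of a rectangle by one colour, arbitrary free sites -/
theorem tbp (hRB : RBp) : ∀ k : ℝ, 1 ≤ k → ∀ C4 : ℝ, 0 ≤ C4 →
    ∃ p c1 K : ℝ, 0 < p ∧ 0 < c1 ∧ 0 < K ∧
    ∀ (S : Finset ℂ) (z0 e : ℂ) (a b d : ℝ), ‖e‖ = 1 → 0 < a → 0 < b → a ≤ k * b → b ≤ k * a →
    LDns S z0 (K * (a + b)) d → Mesh S z0 (K * (a + b)) a C4 → d ≤ c1 * a →
    ∀ V : Finset ℂ, V ⊆ S → pr V (fun β => ∃ l, Lng S z0 e a b β l) ≤ 1 - p := by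
  intro k hk C4 hC4
  obtain ⟨p, c1, K, hp, hc1, hK, h⟩ := hRB k hk C4 hC4
  refine ⟨p, c1, K, hp, hc1, hK, fun S z0 e a b d he ha hb hab hba hD hM hd V hV => ?_⟩
  have he0 : e ≠ 0 := by rintro rfl; simp at he
  refine (pr_le_of_sub hV fun β β' h1 ⟨l, hl⟩ => ⟨l, hl.ne, hl.adj, fun s hs => h1 (hl.col s hs),
    hl.strip, hl.left, hl.right⟩).trans ?_
  obtain ⟨V0, hV0, h0⟩ := h S z0 (e * Complex.I) b a d (by simp [he]) hb ha hba hab
    (by rwa [add_comm]) (by rwa [add_comm b a]) hd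
  have h1 : p ≤ pr S (fun β => ∃ l, Cross S z0 (e * Complex.I) b a β l) :=
    h0.trans (pr_le_of_sub hV0 fun β β' h1 ⟨l, hl⟩ => ⟨l, cross_mono hl h1⟩)
  rw [← pr_flip S (fun β => ∃ l, Cross S z0 (e * Complex.I) b a β l)] at h1
  have h2 : pr S (fun β => ∃ l, Lng S z0 e a b β l) ≤
      pr S (fun β => ¬ ∃ l, Cross S z0 (e * Complex.I) b a (S \ β) l) := by
    refine pr_mono fun β _ ⟨l, hl⟩ ⟨c, hc⟩ => lng_blocked hD.gp he0 ?_ hl hc
    exact Finset.disjoint_sdiff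
  rw [pr_not] at h2
  linarith

/-- rectangles given by their coordinates, horizontal -/
theorem rb_hcp (hRB : RBp) : ∀ k : ℝ, 1 ≤ k → ∀ C4 : ℝ, 0 ≤ C4 →
    ∃ p c1 K : ℝ, 0 < p ∧ 0 < c1 ∧ 0 < K ∧
    ∀ (S : Finset ℂ) (z0 : ℂ) (ρ d : ℝ), 0 < ρ → Nv S z0 (K * ρ) ρ d C4 → d ≤ c1 * ρ →
    ∀ (e : ℂ) (x0 x1 y0 y1 m : ℝ), ‖e‖ = 1 → |x0| ≤ k * ρ → |x1| ≤ k * ρ → |y0| ≤ k * ρ →
    |y1| ≤ k * ρ → ρ ≤ k * (x1 - x0) → ρ ≤ k * (y1 - y0) → y1 - y0 ≤ 2 * ρ → (y1 - y0) / 2 ≤ m →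
    ∀ V : Finset ℂ, V ⊆ S → (∀ s ∈ S, y0 < Y z0 e s → Y z0 e s < y1 → x0 - m ≤ X z0 e s →
      X z0 e s ≤ x1 + m → s ∈ V) →
    p ≤ pr V (fun β => ∃ l, HC S z0 e x0 x1 y0 y1 m β l) := by
  intro k hk C4 hC4
  obtain ⟨p, c1, K, hp, hc1, hK, h⟩ := hRB (2 * k ^ 2) (by nlinarith) (4 * k ^ 2 * C4)
    (by positivity)
  refine ⟨p, min (c1 / (2 * k)) 1, 2 * k * K + 2 * k, hp, by positivity, by positivity, ?_⟩
  intro S z0 ρ d hρ hN hd e x0 x1 y0 y1 m he hx0 hx1 hy0 hy1 hx hy hy2 hm V hV hreg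
  have hk0 : 0 < k := by linarith
  have he0 : e ≠ 0 := by rintro rfl; simp at he
  rw [abs_le] at hx0 hx1 hy0 hy1
  have hxx : 0 < x1 - x0 := by
    by_contra hcon; push Not at hcon; nlinarith
  have hyy : 0 < y1 - y0 := by
    by_contra hcon; push Not at hcon; nlinarith
  set a : ℝ := (x1 - x0) / 2 with ha
  set b : ℝ := (y1 - y0) / 2 with hb
  set u : ℝ := (x0 + x1) / 2 with hu
  set v : ℝ := (y0 + y1) / 2 with hv
  set z1 : ℂ := z0 + e * ((u : ℂ) + (v : ℂ) * Complex.I) with hz1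
  have ha0 : 0 < a := by rw [ha]; linarith
  have hb0 : 0 < b := by rw [hb]; linarith
  have hak : a ≤ k * ρ := by rw [ha]; linarith
  have hbk : b ≤ k * ρ := by rw [hb]; linarith
  have hρa : ρ ≤ 2 * k * a := by rw [ha]; linarith
  have hρb : ρ ≤ 2 * k * b := by rw [hb]; linarith
  have hnz : ‖z1 - z0‖ ≤ 2 * k * ρ := by
    rw [hz1, add_sub_cancel_left, norm_mul, he, one_mul]
    refine (norm_add_le _ _).trans ?_
    rw [norm_mul, Complex.norm_I, mul_one, Complex.norm_real, Complex.norm_real, Real.norm_eq_abs,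
      Real.norm_eq_abs]
    have h1 : |u| ≤ k * ρ := by rw [hu, abs_le]; constructor <;> linarith
    have h2 : |v| ≤ k * ρ := by rw [hv, abs_le]; constructor <;> linarith
    linarith
  have hsh : ‖z1 - z0‖ + K * (a + b) ≤ (2 * k * K + 2 * k) * ρ := by nlinarith
  have hM : Mesh S z1 (K * (a + b)) b (4 * k ^ 2 * C4) := by
    have := mesh_small (mesh_shift hN.mesh hsh) (b := b) (k := 2 * k) hb0 (by linarith) hN.C4 hρb
    rw [show C4 * (2 * k) ^ 2 = 4 * k ^ 2 * C4 by ring] at this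
    exact this
  have hdb : d ≤ c1 * b := by
    have h1 := hd.trans (mul_le_mul_of_nonneg_right (min_le_left _ _) hρ.le)
    have h2 : c1 / (2 * k) * ρ ≤ c1 * b := by
      rw [div_mul_eq_mul_div, div_le_iff₀ (by positivity)]
      nlinarith
    linarith
  obtain ⟨V0, hV0, h0⟩ := h S z1 e a b d he ha0 hb0 (by nlinarith) (by nlinarith)
    (LDns.shift hN.dns hsh) hM hdb
  · refine (pr_transfer (S := S) (V := V0) (V' := V) (A := fun β => ∃ l, HC S z0 e x0 x1 y0 y1 m β l)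
      hV0 (fun β β' h1 ⟨l, hl⟩ => ⟨l, hl.mono h1⟩) ?_ hV (h0.trans (pr_mono ?_)))
    · rintro β hβ ⟨l, hl⟩
      exact ⟨l, hl.ne, hl.adj, fun s hs => Finset.mem_inter.2 ⟨hl.col s hs,
        hreg s (hβ (hl.col s hs)) (hl.strip s hs).1 (hl.strip s hs).2 (hl.loc s hs).1
        (hl.loc s hs).2⟩, hl.strip, hl.loc, hl.left, hl.right⟩
    · rintro β hβ ⟨l, hl⟩
      refine ⟨l, hl.ne, hl.adj, hl.col, fun s hs => ?_, fun s hs => ?_, ?_, ?_⟩
      · have h1 := hl.strip s hs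
        have h2 := (coord_shift (z0 := z0) he0 u v s).2
        rw [← hz1] at h2
        rw [h2, abs_lt] at h1
        constructor <;> linarith [h1.1, h1.2]
      · have h1 := hl.loc s hs
        have h2 := (coord_shift (z0 := z0) he0 u v s).1
        rw [← hz1] at h2
        rw [h2, abs_le] at h1
        constructor <;> linarith [h1.1, h1.2]
      · have h1 := hl.left
        have h2 := (coord_shift (z0 := z0) he0 u v (l.head hl.ne)).1
        rw [← hz1] at h2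
        rw [h2] at h1
        linarith
      · have h1 := hl.right
        have h2 := (coord_shift (z0 := z0) he0 u v (l.getLast hl.ne)).1
        rw [← hz1] at h2
        rw [h2] at h1
        linarith

/-- rectangles given by their coordinates, vertical -/
theorem rb_vcp (hRB : RBp) : ∀ k : ℝ, 1 ≤ k → ∀ C4 : ℝ, 0 ≤ C4 →
    ∃ p c1 K : ℝ, 0 < p ∧ 0 < c1 ∧ 0 < K ∧
    ∀ (S : Finset ℂ) (z0 : ℂ) (ρ d : ℝ), 0 < ρ → Nv S z0 (K * ρ) ρ d C4 → d ≤ c1 * ρ →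
    ∀ (e : ℂ) (x0 x1 y0 y1 m : ℝ), ‖e‖ = 1 → |x0| ≤ k * ρ → |x1| ≤ k * ρ → |y0| ≤ k * ρ →
    |y1| ≤ k * ρ → ρ ≤ k * (x1 - x0) → ρ ≤ k * (y1 - y0) → x1 - x0 ≤ 2 * ρ → (x1 - x0) / 2 ≤ m →
    ∀ V : Finset ℂ, V ⊆ S → (∀ s ∈ S, x0 < X z0 e s → X z0 e s < x1 → y0 - m ≤ Y z0 e s →
      Y z0 e s ≤ y1 + m → s ∈ V) →
    p ≤ pr V (fun β => ∃ l, VC S z0 e x0 x1 y0 y1 m β l) := by
  intro k hk C4 hC4
  obtain ⟨p, c1, K, hp, hc1, hK, h⟩ := rb_hcp hRB k hk C4 hC4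
  refine ⟨p, c1, K, hp, hc1, hK, ?_⟩
  intro S z0 ρ d hρ hN hd e x0 x1 y0 y1 m he hx0 hx1 hy0 hy1 hx hy hx2 hm V hV hreg
  refine (h S z0 ρ d hρ hN hd (e * Complex.I) y0 y1 (-x1) (-x0) m (by simp [he]) hy0 hy1
    (by rwa [abs_neg]) (by rwa [abs_neg]) hy (by linarith) (by linarith) (by linarith) V hV ?_).trans
    (pr_mono fun β _ ⟨l, hl⟩ => ⟨l, vc_of_hc hl⟩)
  intro s hs h1 h2 h3 h4
  rw [Y_turn] at h1 h2
  rw [X_turn] at h3 h4
  exact hreg s hs (by linarith) (by linarith) h3 h4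

/-- **circuits and crossings together**: joint probability `≥ p ^ (#Q + #T)`, free sites `V`,
explored sites `E` black -/
theorem multip (hRB : RBp) : ∀ k : ℝ, 1 ≤ k → ∀ C4 : ℝ, 0 ≤ C4 →
    ∃ p c1 K : ℝ, 0 < p ∧ 0 < c1 ∧ 0 < K ∧
    ∀ (S : Finset ℂ) (z0 : ℂ) (R ρ d : ℝ), 0 < ρ → Nv S z0 R ρ d C4 → d ≤ c1 * ρ →
    ∀ V E : Finset ℂ, V ⊆ S → E ⊆ S → Disjoint V E →
    ∀ (Q : List ℂ) (h : ℝ) (T : List Rect), ρ ≤ k * h → h ≤ ρ →
    (∀ q ∈ Q, ‖q - z0‖ + K * ρ ≤ R) → (∀ q ∈ T, ‖q.z - z0‖ + K * ρ ≤ R) →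
    (∀ q ∈ T, q.Fit k ρ) →
    (∀ q ∈ Q, ∀ s ∈ S, h < sup (s - q) → sup (s - q) < 2 * h → s ∈ V ∪ E) →
    (∀ q ∈ T, ∀ s ∈ S, q.Reg s → s ∈ V ∪ E) →
    p ^ (Q.length + T.length) ≤
      pr V (fun β => (∀ q ∈ Q, ∃ c, CircC S q h (β ∪ E) c) ∧ ∀ q ∈ T, q.Ev S (β ∪ E)) := by
  intro k hk C4 hC4
  obtain ⟨p1, a1, K1, hp1, ha1, hK1, H1⟩ := circ_prp hRB (C4 * k ^ 2) (by positivity)
  obtain ⟨p2, a2, K2, hp2, ha2, hK2, H2⟩ := rb_hcp hRB k hk C4 hC4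
  obtain ⟨p3, a3, K3, hp3, ha3, hK3, H3⟩ := rb_vcp hRB k hk C4 hC4
  have hk0 : 0 < k := by linarith
  refine ⟨min p1 (min p2 p3), min (a1 / k) (min a2 a3), K1 + K2 + K3,
    lt_min hp1 (lt_min hp2 hp3), by positivity, by positivity, ?_⟩
  intro S z0 R ρ d hρ hN hd V E hV hE hVE Q h T hρh hhρ hQ hT hF hQs hTs
  set p := min p1 (min p2 p3) with hp
  have hpp1 : p ≤ p1 := min_le_left _ _
  have hpp2 : p ≤ p2 := (min_le_right _ _).trans (min_le_left _ _)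
  have hpp3 : p ≤ p3 := (min_le_right _ _).trans (min_le_right _ _)
  have hh : 0 < h := by
    by_contra hcon
    push Not at hcon
    nlinarith
  have hVE' : V ∪ E ⊆ S := Finset.union_subset hV hE
  have hd1 : d ≤ a1 * h := by
    have h1 := hd.trans (mul_le_mul_of_nonneg_right (min_le_left _ _) hρ.le)
    have h2 : a1 / k * ρ ≤ a1 * h := by
      rw [div_mul_eq_mul_div, div_le_iff₀ hk0]
      nlinarith
    linarith
  have hd2 : d ≤ a2 * ρ := hd.trans (mul_le_mul_of_nonneg_right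
    ((min_le_right _ _).trans (min_le_left _ _)) hρ.le)
  have hd3 : d ≤ a3 * ρ := hd.trans (mul_le_mul_of_nonneg_right
    ((min_le_right _ _).trans (min_le_right _ _)) hρ.le)
  have e1 : ∀ q ∈ Q, p ≤ pr (V ∪ E) (fun β => ∃ c, CircC S q h β c) := by
    intro q hq
    have hq1 := hQ q hq
    have hsh : ‖q - z0‖ + K1 * h ≤ R := by
      nlinarith [mul_nonneg (add_nonneg hK2.le hK3.le) hρ.le, mul_le_mul_of_nonneg_left hhρ hK1.le]
    have hM : Mesh S q (K1 * h) h (C4 * k ^ 2) :=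
      mesh_small (mesh_shift hN.mesh hsh) hh hhρ hC4 hρh
    exact hpp1.trans (H1 S q h d hh (LDns.shift hN.dns hsh) hM hd1
      (V ∪ E) hVE' (fun s hs h1 h2 => hQs q hq s hs h1 h2))
  have e2 : ∀ q ∈ T, p ≤ pr (V ∪ E) (q.Ev S) := by
    intro q hq
    have hq1 := hT q hq
    have hf := hF q hq
    have hreg := hTs q hq
    have hw := hf.w
    by_cases hh : q.hor = true
    · simp only [Rect.Reg, hh, if_true] at hreg
      simp only [hh, if_true] at hw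
      have hsh : ‖q.z - z0‖ + K2 * ρ ≤ R := by
        nlinarith [mul_nonneg hK1.le hρ.le, mul_nonneg hK3.le hρ.le]
      have h1 := H2 S q.z ρ d hρ ⟨LDns.shift hN.dns hsh, mesh_shift hN.mesh hsh, hC4⟩ hd2 q.e q.x0 q.x1 q.y0 q.y1
        q.m hf.e hf.x0 hf.x1 hf.y0 hf.y1 hf.x hf.y hw.1 hw.2 (V ∪ E) hVE'
        (fun s hs a b c d => hreg s hs ⟨⟨a, b⟩, c, d⟩)
      have h2 : pr (V ∪ E) (fun β => ∃ l, HC S q.z q.e q.x0 q.x1 q.y0 q.y1 q.m β l) =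
          pr (V ∪ E) (q.Ev S) := by
        apply pr_congr
        intro β _
        simp only [Rect.Ev, hh, if_true]
      rw [← h2]
      exact hpp2.trans h1
    · simp only [Rect.Reg, hh] at hreg
      simp only [hh] at hw
      have hsh : ‖q.z - z0‖ + K3 * ρ ≤ R := by
        nlinarith [mul_nonneg hK1.le hρ.le, mul_nonneg hK2.le hρ.le]
      have h1 := H3 S q.z ρ d hρ ⟨LDns.shift hN.dns hsh, mesh_shift hN.mesh hsh, hC4⟩ hd3 q.e q.x0 q.x1 q.y0 q.y1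
        q.m hf.e hf.x0 hf.x1 hf.y0 hf.y1 hf.x hf.y hw.1 hw.2 (V ∪ E) hVE'
        (fun s hs a b c d => hreg s hs ⟨⟨a, b⟩, c, d⟩)
      have h2 : pr (V ∪ E) (fun β => ∃ l, VC S q.z q.e q.x0 q.x1 q.y0 q.y1 q.m β l) =
          pr (V ∪ E) (q.Ev S) := by
        apply pr_congr
        intro β _
        simp only [Rect.Ev, hh]
        simp
      rw [← h2]
      exact hpp3.trans h1
  have h3 := multi_list (V := V) (E := E) hVE
    (l := (Q.map fun q => fun β => ∃ c, CircC S q h β c) ++ T.map fun q => q.Ev S) (p := p)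
    (by
      intro A hA
      rcases List.mem_append.1 hA with hA | hA
      · obtain ⟨q, -, rfl⟩ := List.mem_map.1 hA
        exact inc_circ S q h
      · obtain ⟨q, -, rfl⟩ := List.mem_map.1 hA
        exact q.inc S) (lt_min hp1 (lt_min hp2 hp3)).le
    (by
      intro A hA
      rcases List.mem_append.1 hA with hA | hA
      · obtain ⟨q, hq, rfl⟩ := List.mem_map.1 hA
        exact e1 q hq
      · obtain ⟨q, hq, rfl⟩ := List.mem_map.1 hA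
        exact e2 q hq)
  rw [List.length_append, List.length_map, List.length_map] at h3
  refine h3.trans (pr_mono fun β _ hh => ⟨fun q hq => ?_, fun q hq => ?_⟩)
  · exact hh _ (List.mem_append_left _ (List.mem_map.2 ⟨q, hq, rfl⟩))
  · exact hh _ (List.mem_append_right _ (List.mem_map.2 ⟨q, hq, rfl⟩))

end Crest.Agent.R143.RBpx838
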