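import Crest.Agent.R143.LawU_348
import Crest.Agent.R143.EFam_432
import Crest.Agent.R143.NgB_197

/-!
# Row 143 (S0194), block H, COMPOSITION, part 6 (helper197): `RDat` with the literal exploration

`Gq A1 A2 D1` : 432's regions of the full exploration as a family; `rvf_rf` : its revealed sites are
432's `Rf`.
* `hull_lev` : the hull is above the level `A2`
* `acw_of` : 197's `Acw` from any gate darts and gate times (239's `ring_all`)
* `rc_of` : the ring configuration from 713's ring, the environment and one right cell of the ring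
  loop in the white cluster
* **`rdat_fin`** : `RDat` from 445's data, the mass and `Acw` almost surely
-/

set_option autoImplicit false

noncomputable section

open scoped Classical

namespace Crest.Agent.R143.RDatFx197

open MeasureTheory Filter Topology Set
open Crest.ProbabilityR.Voronoi
open Crest.Agent.R143.B0x346 Crest.Agent.R143.SumScx302 Crest.Agent.R143.Mass1x302
  Crest.Agent.R143.DelGx806 Crest.Agent.R143.DelRx806
open Crest.Agent.R143.PP0x831 Crest.Agent.R143.HBudx136 Crest.Agent.R143.HGluex136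
  Crest.Agent.R143.SmallAx304 Crest.Agent.R143.Dblx609
  Crest.Agent.R143.Dbl2x609 Crest.Agent.R143.Asm3x414 Crest.Agent.R143.Asm4x414
open Crest.Agent.R143.Frame1x395 Crest.Agent.R143.Frame10x395
open Crest.Agent.R143.StgIx432 Crest.Agent.R143.RingTx197 Crest.Agent.R143.RingUx197
open Crest.Agent.R143.RevCx389 (Rg)
open Crest.Agent.R143.Meetx707 (sr)
open Crest.Agent.R143.AnnCx707 (Lev)
open Crest.Agent.R143.CircPx838 (sup)
open Crest.Agent.R143.EnvRx795 (EnvS)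
open Crest.Agent.R143.FinCx811 Crest.Agent.R143.ColXx829
open Crest.Agent.R143.RingXx713 (RngH)
open Crest.Agent.R143.TileRx228 (FPath)
open Crest.Agent.R143.RingIx503 (pz)
open Crest.Agent.R143.RcTx422 (scol_hull)
open Crest.Agent.R143.WLocx713 hiding zB
open Crest.Agent.R143.PWx978 Crest.Agent.R143.Tplx978 Crest.Agent.R143.TplIx204
  Crest.Agent.R143.PthFx765 Crest.Agent.R143.CorNx765 Crest.Agent.R143.IndLoc3x279
  Crest.Agent.R143.GPosCx348
open scoped ENNReal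

/-- 432's regions of the full exploration, as a family -/
abbrev Gq (A1 A2 D1 : ℝ) (A : Finset ℂ) (hS : GP (A : Set ℂ)) (h3 : 3 ≤ A.card) :
    Rg (D0 A) (Cs hS) := EFamx432.Gf zB A1 A2 D1 hS h3

theorem rvf_rf (A1 A2 D1 : ℝ) (A β : Finset ℂ) :
    Rvf (Gq A1 A2 D1) A β = EFamx432.Rf zB A1 A2 D1 A β := rfl

variable {A β : Finset ℂ} {Rr d ρ0 A1 A2 D1 : ℝ} {n : ℕ}

/-- the hull is above the level `A2` -/
theorem hull_lev (env : EnvS A Rr d ρ0) (hd : d ≤ 1) (h : 2 * A2 + 2 ≤ Rr) :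
    ∀ s ∈ A, OnHull A s → A2 ≤ sup (s - zB) := by
  intro s _ hs
  have h1 := env.hull_far hs
  have h2 := norm_sp s
  have h3 : FarEkx88.sp zB s = sup (s - zB) := rfl
  rw [h3] at h2
  linarith

/-- **the ring configuration** -/
theorem rc_of {U : Set ℂ} {hS : GP (A : Set ℂ)} {h3 : 3 ≤ A.card}
    (R : RngH (Xc hS h3 (chiS hS h3 β)) U (4 * (n + 2)) (Wi n) (et n) d)
    (env : EnvS A Rr d ρ0) (hd : d ≤ 1) (h : 2 * A2 + 2 ≤ Rr) (h12 : A1 ≤ A2)
    (ac : Acw R (EFamx432.Gf zB A1 A2 D1 hS h3)) : RC n d A1 A2 U (Gq A1 A2 D1) A β :=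
  ⟨hS, h3, R, EFamx432.gf_lev hS h3 (hull_lev env hd h),
    fun _ hw hs => EFamx432.gf_dw hS h3 (hull_lev env hd h) hw (hs.trans_le h12), ac⟩

/-! ### one right cell of the ring loop in the white cluster -/

/-- **`Acw`** from any gate darts and gate times of the ring loop (239's `ring_all`) -/
theorem acw_of {W : ℤ → ℤ × ℤ} {η : ℝ} {M : ℕ} {U : Set ℂ} {hS : GP (A : Set ℂ)} {h3 : 3 ≤ A.card}
    (R : RngH (Xc hS h3 (chiS hS h3 β)) U M W η d) {G : Rg (D0 A) (Cs hS)} {o : ℤ} {p : ℤ → D0 A}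
    {T : ℕ → ℕ} {N : ℕ}
    (hp : ∀ a, (p a).1 = (CorHx713.yy η W (Xc hS h3 (chiS hS h3 β)) a,
      CorHx713.xx η W (Xc hS h3 (chiS hS h3 β)) a))
    (per : ∀ a, p (a + M) = p a)
    (hT : ∀ k : ℕ, NonXx592.P (rc0 hS) (Frame8x395.cfg (rc0 hS) (chiS hS h3 β)) (p o) (T k) =
      p (o - k))
    (L : Chordx355.Lp (rc0 hS) (Frame8x395.cfg (rc0 hS) (chiS hS h3 β)) (p o) N) {t : ℕ}
    (ht : (rc0 hS).cell ((rc0 hS).rho (NonXx592.P (rc0 hS)
      (Frame8x395.cfg (rc0 hS) (chiS hS h3 β)) (p o) t)) ∈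
        Crest.Agent.R143.RevCx389.Cw (rc0 hS) G (chiS hS h3 β)) : Acw R G := by
  have hM := R.M5
  have hpq : ∀ (q : ℕ) (a : ℤ), p (a + q * (M : ℤ)) = p a := by
    intro q a
    induction q with
    | zero => simp
    | succ q ih =>
      rw [show a + ((q + 1 : ℕ) : ℤ) * (M : ℤ) = a + q * (M : ℤ) + M by push_cast; ring, per, ih]
  obtain ⟨k, q, hk⟩ : ∃ k q : ℕ, o - k + q * (M : ℤ) = 0 := by
    refine ⟨(o + |o| * M).toNat, |o|.toNat, ?_⟩
    have h1 : (0 : ℤ) ≤ |o| := abs_nonneg _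
    have h2 : (0 : ℤ) ≤ o + |o| * M := by
      have h5 := neg_abs_le o
      have h8 : (1 : ℤ) ≤ (M : ℤ) := by exact_mod_cast (by omega : 1 ≤ M)
      nlinarith
    rw [Int.toNat_of_nonneg h1, Int.toNat_of_nonneg h2]
    ring
  have h0 : NonXx592.P (rc0 hS) (Frame8x395.cfg (rc0 hS) (chiS hS h3 β)) (p o) (T k) = p 0 := by
    rw [hT, ← hpq q, hk]
  have e0 : pz (scol_hull (chiS hS h3 β)) (clo_X R) 0 = p 0 := Subtype.ext (hp 0).symm
  have hN := L.pos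
  have hle : T k ≤ t + T k * N := by nlinarith
  refine ⟨t + T k * N - T k, ?_⟩
  have e1 : NonXx592.P (rc0 hS) (Frame8x395.cfg (rc0 hS) (chiS hS h3 β))
      (pz (scol_hull (chiS hS h3 β)) (clo_X R) 0) (t + T k * N - T k) =
      NonXx592.P (rc0 hS) (Frame8x395.cfg (rc0 hS) (chiS hS h3 β)) (p o) t := by
    rw [e0, ← h0]
    have h1 : NonXx592.P (rc0 hS) (Frame8x395.cfg (rc0 hS) (chiS hS h3 β))
        (NonXx592.P (rc0 hS) (Frame8x395.cfg (rc0 hS) (chiS hS h3 β)) (p o) (T k))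
          (t + T k * N - T k) =
        NonXx592.P (rc0 hS) (Frame8x395.cfg (rc0 hS) (chiS hS h3 β)) (p o)
          ((t + T k * N - T k) + T k) := by
      unfold NonXx592.P
      rw [Function.iterate_add_apply]
    rw [h1, Nat.sub_add_cancel hle, ← p_mod L.per (t + T k * N), ← p_mod L.per t,
      Nat.add_mul_mod_self_right]
  rw [e1]
  exact ht

variable {D : DT} {ε : ℝ} {hε : 0 < ε} {c : ℝ≥0∞} {c0 : c ≠ 0} {c1 : c ≤ 1}
  [Fintype (ZMod (4 * (n + 2)))] [Fintype (ZMod (4 * (n + 22)))]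

/-- **`RDat`** from 445's data, the mass and one right cell of the ring loop in the white cluster -/
theorem rdat_fin (hn : 24 ≤ n) (N : NumC D (et n)) (P : FPath (4 * (n + 2)) (Wi n))
    (P' : FPath (4 * (n + 22)) (Wo n))
    (H : Std (D.raw ε hε c c0 c1).tpl D.A' D.B' D.h Prod.fst) (hP : (D.raw ε hε c c0 c1).AePos)
    {Ui Uo : Set ℂ} {F : Set (ℂ × Bool) → ℝ≥0∞} {Kw : ℝ≥0∞} {cm d0 R K k1 k2 : ℝ}
    (Wd : WgtHx445.WD ε (Bx Rr) Ui Uo (RngNx765.gO P H true) (RngNx765.gO P' H false) F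
      (RingWDx445.eB (Bx Rr) Rr √ε ρ0) Kw)
    (mass : ENNReal.ofReal cm ≤ Mg ε (Bx Rr) (gw Rr ρ0 ε (RngNx765.gO P H true)
      (RngNx765.gO P' H false) F))
    (h12 : A1 ≤ A2) (hA1 : 1 / 2 + 2 * (100 * et n) ≤ A1) (hA2 : 2 * A2 + 2 ≤ Rr)
    (hRr : 5 + K * (d0 / 2) + d0 / 2 + 1 < Rr) (hK : 0 ≤ K) (hd0 : 0 ≤ d0) (hρ : ρ0 ≤ 1 / 2)
    (hρR : ρ0 ≤ k2 * R) (e1 : √ε ≤ 1) (e2 : 2 * √ε ≤ R) (e3 : √ε ≤ k1 * R)
    (e4 : 100 * √ε ≤ et n)
    (hac : ∀ᵐ ω ∂sampleLaw, ∀ β ∈ (Ap ε (Bx Rr) ω).powerset,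
      F (paint (Ap ε (Bx Rr) ω) β) ≠ 0 → EnvS (Ap ε (Bx Rr) ω) Rr √ε ρ0 →
      ∀ (hS : GP (Ap ε (Bx Rr) ω : Set ℂ)) (h3 : 3 ≤ (Ap ε (Bx Rr) ω).card)
        (Rn : RngH (Xc hS h3 (chiS hS h3 β)) (Metric.closedBall 0 4) (4 * (n + 2)) (Wi n) (et n)
          √ε), Acw Rn (EFamx432.Gf zB A1 A2 D1 hS h3)) :
    RDat 0 1 (2 * (100 * et n)) ε cm d0 R K k1 k2 EnvRx795.Ce (Bx Rr)
      (gw Rr ρ0 ε (RngNx765.gO P H true) (RngNx765.gO P' H false) F) (EF (Wi n) (et n))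
      (EFamx432.Rf zB A1 A2 D1) := by
  have hKd : 0 ≤ K * (d0 / 2) := by positivity
  have hR4 : 4 ≤ Rr := by linarith
  have key := rdat_of (U := Metric.closedBall 0 4) (Gf := Gq A1 A2 D1) (c1 := k1) (c2 := k2)
    (A2 := A2) Wd mass (by omega) h12 hA1 hRr hK hd0 hρ hρR e1 e2 e3 (by
      filter_upwards [LawUx348.law_wt hn N P P' H hP hR4 (Real.sqrt_pos.2 hε) e4 Wd
        (ρ0 := ρ0) (fun A β hA h => RingWDx445.eB_ne hA h), hac] with ω h1 h2 β hβ h0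
      obtain ⟨env, hF, hL⟩ := h1 β h0
      have hS : GP (Ap ε (Bx Rr) ω : Set ℂ) := env.gp
      have h3 : 3 ≤ (Ap ε (Bx Rr) ω).card := env.card (by linarith)
      obtain ⟨Rn, -⟩ := hL hS h3
      exact rc_of Rn env e1 hA2 h12 (h2 β hβ hF env hS h3 Rn))
  exact key

end Crest.Agent.R143.RDatFx197
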