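import Crest.Agent.R143.RE0_723
import Crest.Agent.R143.G6W_723

/-!
# Row 143, RBE, T3a: labels give a polygon (helper723)

* `assign` : label classes along the hull, every outer site joined to the hull by outer sites: the
  pockets of the label classes are given to adjacent classes, this is a polygon `Pg`
-/

set_option autoImplicit false

noncomputable section

open scoped Classical

namespace Crest.Agent.R143.RE3x723

open Set
open Crest.Agent.R143.B0x346 Crest.Agent.R143.DelGx806 Crest.Agent.R143.DelRx806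
  Crest.Agent.R143.JColx54 Crest.Agent.R143.RE0x723

variable {S : Finset ℂ} {V W : Set ℂ} {x y z : ℂ}

/-! ### the polygon -/

section assign

variable {n m : ℕ} {w : ℤ → ℂ} {p : ℕ → ℤ} {Lb : ℕ → ℂ → Prop}

/-- outer sites -/
def Ou (S : Finset ℂ) (m : ℕ) (Lb : ℕ → ℂ → Prop) : Set ℂ := {s | s ∈ S ∧ ∃ j, j ≤ m ∧ Lb j s}

/-- main part of the label class `j` : joined to the hull -/
def Mn (S : Finset ℂ) (w : ℤ → ℂ) (Lb : ℕ → ℂ → Prop) (j : ℕ) : Set ℂ :=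
  {s | ∃ i : ℤ, Pth S {v | v ∈ S ∧ Lb j v} s (w i)}

/-- pockets -/
def Po (S : Finset ℂ) (w : ℤ → ℂ) (m : ℕ) (Lb : ℕ → ℂ → Prop) : Set ℂ :=
  {s | s ∈ Ou S m Lb ∧ ∀ j, j ≤ m → s ∉ Mn S w Lb j}

/-- the pocket of `s` is adjacent to the main part `j` -/
def Rk (S : Finset ℂ) (w : ℤ → ℂ) (m : ℕ) (Lb : ℕ → ℂ → Prop) (s : ℂ) (j : ℕ) : Prop :=
  ∃ u y, Pth S (Po S w m Lb) s u ∧ Adj S u y ∧ y ∈ Mn S w Lb j

/-- the class -/
def Ak (S : Finset ℂ) (w : ℤ → ℂ) (m : ℕ) (Lb : ℕ → ℂ → Prop) (j : ℕ) : Finset ℂ :=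
  S.filter fun s => s ∈ Mn S w Lb j ∨
    (s ∈ Po S w m Lb ∧ Rk S w m Lb s j ∧ ∀ i, i < j → ¬ Rk S w m Lb s i)

theorem mn_mem {j : ℕ} {s : ℂ} (h : s ∈ Mn S w Lb j) : s ∈ S ∧ Lb j s := by
  obtain ⟨i, h⟩ := h
  exact h.1

theorem mn_pth {j : ℕ} {s : ℂ} (h : s ∈ Mn S w Lb j) : ∃ i : ℤ, Pth S (Mn S w Lb j) s (w i) := by
  obtain ⟨i, h⟩ := h
  refine ⟨i, h.self.mono ?_⟩
  rintro v ⟨-, h1⟩
  exact ⟨i, h1⟩

theorem mem_Ak {j : ℕ} {s : ℂ} : s ∈ Ak S w m Lb j ↔ s ∈ Mn S w Lb j ∨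
    (s ∈ Po S w m Lb ∧ Rk S w m Lb s j ∧ ∀ i, i < j → ¬ Rk S w m Lb s i) := by
  unfold Ak
  rw [Finset.mem_filter]
  constructor
  · exact fun h => h.2
  · intro h
    refine ⟨?_, h⟩
    rcases h with h | h
    · exact (mn_mem h).1
    · exact h.1.1.1

theorem rk_iff {s u : ℂ} (h : Pth S (Po S w m Lb) s u) (j : ℕ) :
    Rk S w m Lb s j ↔ Rk S w m Lb u j := by
  constructor
  · rintro ⟨v, y, h1, h2, h3⟩
    exact ⟨v, y, h.symm.trans h1, h2, h3⟩
  · rintro ⟨v, y, h1, h2, h3⟩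
    exact ⟨v, y, h.trans h1, h2, h3⟩

/-- **labels give a polygon** -/
theorem assign (hS : GP (S : Set ℂ)) (H : HullCyc S n w) (mono : ∀ j, j < m → p j < p (j + 1))
    (last : p m < p 0 + n)
    (uniq : ∀ i j, i ≤ m → j ≤ m → ∀ s, Lb i s → Lb j s → i = j)
    (lab : ∀ j, j < m → ∀ i, p j < i → i ≤ p (j + 1) → Lb j (w i))
    (labl : ∀ i, p m < i → i ≤ p 0 + n → Lb m (w i))
    (hcon : ∀ s ∈ Ou S m Lb, ∃ i : ℤ, Pth S (Ou S m Lb) s (w i)) :
    Pg S n w m p (Ak S w m Lb) ∧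
    (∀ s ∈ S, (∃ j, j ≤ m ∧ s ∈ Ak S w m Lb j) ↔ ∃ j, j ≤ m ∧ Lb j s) := by
  have hn : (0 : ℤ) < n := by exact_mod_cast H.pos
  have wS : ∀ i, w i ∈ S := fun i => (hullE.mem (H.edge i)).1
  -- positions are monotone
  have pm : ∀ i j, i ≤ j → j ≤ m → p i ≤ p j := by
    intro i j hij
    induction hij with
    | refl => intro _; exact le_rfl
    | step h1 ih =>
      intro h2
      rename_i j
      have := mono j (by omega)
      exact (ih (by omega)).trans this.le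
  -- hull arcs
  have arcM : ∀ j, j < m → ∀ i, p j < i → i ≤ p (j + 1) → w i ∈ Mn S w Lb j := fun j hj i h1 h2 =>
    ⟨i, Pth.refl ⟨wS i, lab j hj i h1 h2⟩⟩
  have arcL : ∀ i, p m < i → i ≤ p 0 + n → w i ∈ Mn S w Lb m := fun i h1 h2 =>
    ⟨i, Pth.refl ⟨wS i, labl i h1 h2⟩⟩
  -- every hull index is in an arc
  have win : ∀ i : ℤ, ∃ i', p 0 < i' ∧ i' ≤ p 0 + n ∧ w i' = w i := by
    intro i
    obtain ⟨i', h1, h2, h3, -⟩ := Sidesx697.hull_window H (p 0 + 1) (H.edge i)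
    exact ⟨i', by omega, by omega, h3⟩
  have inarc : ∀ i', p 0 < i' → i' ≤ p 0 + n →
      (∃ j, j < m ∧ p j < i' ∧ i' ≤ p (j + 1)) ∨ p m < i' := by
    intro i' h1 h2
    by_contra hcon'
    push Not at hcon'
    have key : ∀ j, j ≤ m → p j < i' := by
      intro j
      induction j with
      | zero => intro _; exact h1
      | succ j ih =>
        intro hj
        exact hcon'.1 j (by omega) (ih (by omega))
    exact absurd (key m le_rfl) (not_lt.2 hcon'.2)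
  -- the arc `j`
  have arcj : ∀ j, j ≤ m → ∃ lo hi : ℤ, (∀ i, lo < i → i ≤ hi → w i ∈ Mn S w Lb j) ∧
      ∀ i : ℤ, Lb j (w i) → ∃ i', lo < i' ∧ i' ≤ hi ∧ w i' = w i := by
    intro j hj
    have hj' : ∀ i : ℤ, Lb j (w i) → (j < m → ∃ i', p j < i' ∧ i' ≤ p (j + 1) ∧ w i' = w i) ∧
        (j = m → ∃ i', p m < i' ∧ i' ≤ p 0 + n ∧ w i' = w i) := by
      intro i hi
      obtain ⟨i', h1, h2, h3⟩ := win i
      rw [← h3] at hi
      rcases inarc i' h1 h2 with ⟨l, h4, h5, h6⟩ | h4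
      · have e := uniq j l hj h4.le _ hi (lab l h4 i' h5 h6)
        subst e
        exact ⟨fun _ => ⟨i', h5, h6, h3⟩, fun h => absurd h (by omega)⟩
      · have e := uniq j m hj le_rfl _ hi (labl i' h4 h2)
        subst e
        exact ⟨fun h => absurd h (by omega), fun _ => ⟨i', h4, h2, h3⟩⟩
    rcases lt_or_eq_of_le hj with h | h
    · exact ⟨p j, p (j + 1), fun i h1 h2 => arcM j h i h1 h2, fun i hi => (hj' i hi).1 h⟩
    · subst h
      exact ⟨p j, p 0 + n, fun i h1 h2 => arcL i h1 h2, fun i hi => (hj' i hi).2 rfl⟩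
  -- consecutive hull sites
  have run : ∀ (j : ℕ) (lo hi : ℤ), (∀ i, lo < i → i ≤ hi → w i ∈ Mn S w Lb j) →
      ∀ (q : ℕ) (i : ℤ), lo < i → i + q ≤ hi → Pth S (Mn S w Lb j) (w i) (w (i + q)) := by
    intro j lo hi hM q
    induction q with
    | zero =>
      intro i h1 h2
      rw [Nat.cast_zero, add_zero]
      rw [Nat.cast_zero, add_zero] at h2
      exact Pth.refl (hM i h1 h2)
    | succ q ih =>
      intro i h1 h2
      push_cast at h2
      have h3 := ih i h1 (by linarith)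
      have e : i + ((q + 1 : ℕ) : ℤ) = i + q + 1 := by push_cast; ring
      rw [e]
      exact h3.tail (Or.inl (H.edge (i + q)).1) (hM _ (by linarith) (by linarith))
  -- main parts are connected
  have mncon : ∀ j, j ≤ m → ∀ s ∈ Mn S w Lb j, ∀ t ∈ Mn S w Lb j, Pth S (Mn S w Lb j) s t := by
    intro j hj s hs t ht
    obtain ⟨i, hi⟩ := mn_pth hs
    obtain ⟨l, hl⟩ := mn_pth ht
    obtain ⟨lo, hi', hM, hA⟩ := arcj j hj
    obtain ⟨i1, a1, a2, a3⟩ := hA i (mn_mem hi.snd).2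
    obtain ⟨l1, b1, b2, b3⟩ := hA l (mn_mem hl.snd).2
    have hmid : Pth S (Mn S w Lb j) (w i) (w l) := by
      rw [← a3, ← b3]
      rcases le_total i1 l1 with h | h
      · have := run j lo hi' hM (l1 - i1).toNat i1 a1 (by rw [Int.toNat_of_nonneg (by omega)]; omega)
        rwa [Int.toNat_of_nonneg (by omega), add_sub_cancel] at this
      · have := run j lo hi' hM (i1 - l1).toNat l1 b1 (by rw [Int.toNat_of_nonneg (by omega)]; omega)
        rw [Int.toNat_of_nonneg (by omega), add_sub_cancel] at this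
        exact this.symm
    exact (hi.trans hmid).trans hl.symm
  have mnA : ∀ j, Mn S w Lb j ⊆ (Ak S w m Lb j : Set ℂ) := fun j s hs =>
    Finset.mem_coe.2 (mem_Ak.2 (Or.inl hs))
  -- pockets are adjacent to a main part
  have pock : ∀ s ∈ Po S w m Lb, ∃ j, j ≤ m ∧ Rk S w m Lb s j := by
    intro s hs
    obtain ⟨i, hi⟩ := hcon s hs.1
    have hwi : ∃ j, j ≤ m ∧ w i ∈ Mn S w Lb j := by
      obtain ⟨i', h1, h2, h3⟩ := win i
      rw [← h3]
      rcases inarc i' h1 h2 with ⟨l, h4, h5, h6⟩ | h4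
      · exact ⟨l, h4.le, arcM l h4 i' h5 h6⟩
      · exact ⟨m, le_rfl, arcL i' h4 h2⟩
    obtain ⟨u, v, h1, h2, h3, h4⟩ := hi.exit (Q := fun s => ∀ j, j ≤ m → s ∉ Mn S w Lb j) hs.2
      (by push Not; exact hwi)
    push Not at h4
    obtain ⟨j, h5, h6⟩ := h4
    exact ⟨j, h5, u, v, h1.mono (fun a ha => ⟨ha.1, ha.2⟩), h2, h6⟩
  refine ⟨⟨hS, H, mono, last, fun j _ => Finset.filter_subset _ _, ?_, ?_, ?_, ?_⟩, ?_⟩
  · -- disjoint
    intro i j hi hj hij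
    rw [Finset.disjoint_left]
    intro s h1 h2
    rcases mem_Ak.1 h1 with h1 | h1 <;> rcases mem_Ak.1 h2 with h2 | h2
    · exact hij (uniq i j hi hj s (mn_mem h1).2 (mn_mem h2).2)
    · exact h2.1.2 i hi h1
    · exact h1.1.2 j hj h2
    · rcases lt_or_gt_of_ne hij with h | h
      · exact h2.2.2 i h h1.2.1
      · exact h1.2.2 j h h2.2.1
  · -- connected
    intro j hj
    have hto : ∀ s ∈ Ak S w m Lb j, ∃ t ∈ Mn S w Lb j, Pth S (Ak S w m Lb j : Set ℂ) s t := by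
      intro s hs
      rcases mem_Ak.1 hs with h | ⟨h1, ⟨u, y, h2, h3, h4⟩, h5⟩
      · exact ⟨s, h, Pth.refl (Finset.mem_coe.2 hs)⟩
      · refine ⟨y, h4, Pth.tail ?_ h3 (mnA j h4)⟩
        have key : Pth S {v | v ∈ Po S w m Lb ∧ Pth S (Po S w m Lb) v u} s u := h2.self
        refine key.mono ?_
        rintro v ⟨hv1, hv2⟩
        have hsv : Pth S (Po S w m Lb) s v := h2.trans hv2.symm
        exact Finset.mem_coe.2 (mem_Ak.2 (Or.inr ⟨hv1, (rk_iff hsv j).1 ⟨u, y, h2, h3, h4⟩,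
          fun i hi h' => h5 i hi ((rk_iff hsv i).2 h')⟩))
    intro s hs t ht
    obtain ⟨s', a1, a2⟩ := hto s hs
    obtain ⟨t', b1, b2⟩ := hto t ht
    exact (a2.trans ((mncon j hj s' a1 t' b1).mono (mnA j))).trans b2.symm
  · exact fun j hj k h1 h2 => mem_Ak.2 (Or.inl (arcM j hj k h1 h2))
  · exact fun k h1 h2 => mem_Ak.2 (Or.inl (arcL k h1 h2))
  · intro s hs
    constructor
    · rintro ⟨j, hj, h⟩
      rcases mem_Ak.1 h with h | h
      · exact ⟨j, hj, (mn_mem h).2⟩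
      · exact h.1.1.2
    · rintro ⟨j, hj, h⟩
      by_cases hM : ∃ j, j ≤ m ∧ s ∈ Mn S w Lb j
      · obtain ⟨l, h1, h2⟩ := hM
        exact ⟨l, h1, mem_Ak.2 (Or.inl h2)⟩
      · push Not at hM
        have hP : s ∈ Po S w m Lb := ⟨⟨hs, j, hj, h⟩, hM⟩
        obtain ⟨l0, hl0, hr0⟩ := pock s hP
        have hex : ∃ l, Rk S w m Lb s l := ⟨l0, hr0⟩
        refine ⟨Nat.find hex, (Nat.find_min' hex hr0).trans hl0, mem_Ak.2 (Or.inr ⟨hP,
          Nat.find_spec hex, fun i hi => Nat.find_min hex hi⟩)⟩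

end assign

end Crest.Agent.R143.RE3x723
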