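import Crest.Agent.R143.RE4_723

/-!
# Row 143, RBE, T3a: the polygon of a strip (helper723)

* `nok_ex`, `uniq`, `outer_iff` : the labels
* `geo` : the walks to the hull give the polygon
-/

set_option autoImplicit false

noncomputable section

open scoped Classical

namespace Crest.Agent.R143.RE5x723

open Set
open Crest.Agent.R143.B0x346 Crest.Agent.R143.DelGx806 Crest.Agent.R143.DelRx806
  Crest.Agent.R143.JColx54 Crest.Agent.R143.RE0x723 Crest.Agent.R143.RE3x723
  Crest.Agent.R143.RE4x723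
open Crest.Agent.R143.HULx838 (xj_succ xj_one hh_pos)
open Crest.Agent.R143.SSbx930 (SH)

variable {S : Finset ℂ} {z0 u : ℂ} {a b k d : ℝ} {K N : ℕ}

/-! ### the labels -/

theorem MM3 (hK : 0 < K) : (6 : ℝ) ≤ MM K := by
  have : 6 ≤ MM K := by
    unfold MM
    have : 4 ^ 1 ≤ 4 ^ K := Nat.pow_le_pow_right (by norm_num) hK
    omega
  exact_mod_cast this

theorem hh_le (hK : 0 < K) (hb : 0 < b) : 48 * hh K b ≤ b := by
  have := MM3 hK
  unfold hh
  rw [← mul_div_assoc, div_le_iff₀ (by linarith)]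
  nlinarith

theorem nok_ex (hK : 0 < K) (ha : 0 < a) (hb : 0 < b) (hab : a ≤ k * b) :
    ∃ N, Nok a b k K N := by
  have hh0 := hh_pos (b := b) K hb
  have hl := hh_le (b := b) hK hb
  have hM := MM3 hK
  have h1 : (2 * a + b / 2) / hh K b ≤ (⌈(2 * a + b / 2) / hh K b⌉₊ : ℝ) := Nat.le_ceil _
  have h2 := Nat.ceil_lt_add_one (show 0 ≤ (2 * a + b / 2) / hh K b by positivity)
  have e : (2 * a + b / 2) / hh K b = 8 * MM K * (2 * a + b / 2) / b := by
    unfold hh
    field_simp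
  have h3 : (2 * a + b / 2) / hh K b * hh K b = 2 * a + b / 2 := div_mul_cancel₀ _ hh0.ne'
  refine ⟨⌈(2 * a + b / 2) / hh K b⌉₊, ?_, ?_, ?_, ?_⟩
  · have : (MM K : ℝ) ≤ (2 * a + b / 2) / hh K b := by
      rw [e, le_div_iff₀ hb]
      nlinarith
    exact_mod_cast this.trans h1
  · refine h2.le.trans ?_
    have : (2 * a + b / 2) / hh K b ≤ 8 * MM K * (2 * k + 1) := by
      rw [e, div_le_iff₀ hb]
      have : 8 * (MM K : ℝ) * (2 * a + b / 2) ≤ 8 * (MM K : ℝ) * ((2 * k + 1) * b) :=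
        mul_le_mul_of_nonneg_left (by linarith) (by linarith)
      linarith
    linarith
  · unfold xj
    push_cast
    nlinarith
  · unfold xj
    push_cast
    nlinarith

theorem xj_mono (hb : 0 < b) {i j : ℕ} (h : i ≤ j) : xj K a b i ≤ xj K a b j := by
  unfold xj
  have : (i : ℝ) ≤ j := by exact_mod_cast h
  have := hh_pos (b := b) K hb
  nlinarith

theorem xj_lt (hb : 0 < b) {i j : ℕ} (h : i < j) : xj K a b i + hh K b ≤ xj K a b j := by
  rw [← xj_succ]
  exact xj_mono hb h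

theorem lab0 {s : ℂ} : Lab z0 u a b K N 0 s ↔ X z0 u s ≤ xj K a b 1 := by
  unfold Lab
  rw [if_pos rfl]

theorem labR {s : ℂ} : Lab z0 u a b K N (N + 1) s ↔ xj K a b (N + 1) < X z0 u s := by
  unfold Lab
  rw [if_neg (by omega), if_pos rfl]

theorem labT {s : ℂ} : Lab z0 u a b K N (N + 2) s ↔
    xj K a b 1 < X z0 u s ∧ X z0 u s ≤ xj K a b (N + 1) ∧ b / 2 ≤ Y z0 u s := by
  unfold Lab
  rw [if_neg (by omega), if_neg (by omega), if_pos rfl]

theorem labB {s : ℂ} {j : ℕ} (h1 : 1 ≤ j) (h2 : j ≤ N) : Lab z0 u a b K N j s ↔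
    xj K a b j < X z0 u s ∧ X z0 u s ≤ xj K a b (j + 1) ∧ Y z0 u s < -(b / 2) := by
  unfold Lab
  rw [if_neg (by omega), if_neg (by omega), if_neg (by omega)]

/-- the four kinds of labels -/
theorem lcases {j : ℕ} (hj : j ≤ N + 2) : j = 0 ∨ (1 ≤ j ∧ j ≤ N) ∨ j = N + 1 ∨ j = N + 2 := by
  omega

theorem uniq (hb : 0 < b) (hN : 1 ≤ N) {i j : ℕ} (hi : i ≤ N + 2) (hj : j ≤ N + 2) {s : ℂ}
    (h1 : Lab z0 u a b K N i s) (h2 : Lab z0 u a b K N j s) : i = j := by
  have key : ∀ i j : ℕ, i ≤ N + 2 → j ≤ N + 2 → Lab z0 u a b K N i s → Lab z0 u a b K N j s →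
      i < j → False := by
    intro i j hi hj h1 h2 hij
    have m0 : ∀ i, 1 ≤ i → xj K a b 1 ≤ xj K a b i := fun i h => xj_mono hb h
    have mN : ∀ i, i ≤ N + 1 → xj K a b i ≤ xj K a b (N + 1) := fun i h => xj_mono hb h
    rcases lcases hi with rfl | ⟨i1, i2⟩ | rfl | rfl
    · rw [lab0] at h1
      rcases lcases hj with rfl | ⟨j1, j2⟩ | rfl | rfl
      · omega
      · rw [labB j1 j2] at h2
        have := m0 j j1
        linarith [h2.1]
      · rw [labR] at h2
        have := m0 (N + 1) (by omega)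
        linarith
      · rw [labT] at h2
        linarith [h2.1]
    · rw [labB i1 i2] at h1
      rcases lcases hj with rfl | ⟨j1, j2⟩ | rfl | rfl
      · omega
      · rw [labB j1 j2] at h2
        have := xj_mono (K := K) (a := a) hb (show i + 1 ≤ j from hij)
        linarith [h2.1, h1.2.1]
      · rw [labR] at h2
        have := mN (i + 1) (by omega)
        linarith [h1.2.1]
      · rw [labT] at h2
        linarith [h2.2.2, h1.2.2]
    · rw [labR] at h1
      rcases lcases hj with rfl | ⟨j1, j2⟩ | h | rfl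
      · omega
      · omega
      · omega
      · rw [labT] at h2
        linarith [h2.2.1]
    · omega
  rcases lt_trichotomy i j with h | h | h
  · exact (key i j hi hj h1 h2 h).elim
  · exact h
  · exact (key j i hj hi h2 h1 h).elim

theorem outer_iff (hb : 0 < b) (hN : 1 ≤ N) {s : ℂ} : (∃ j, j ≤ N + 2 ∧ Lab z0 u a b K N j s) ↔
    X z0 u s ≤ xj K a b 1 ∨ xj K a b (N + 1) < X z0 u s ∨ b / 2 ≤ Y z0 u s ∨
      Y z0 u s < -(b / 2) := by
  constructor
  · rintro ⟨j, hj, h⟩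
    rcases lcases hj with rfl | ⟨j1, j2⟩ | rfl | rfl
    · exact Or.inl (lab0.1 h)
    · exact Or.inr (Or.inr (Or.inr ((labB j1 j2).1 h).2.2))
    · exact Or.inr (Or.inl (labR.1 h))
    · exact Or.inr (Or.inr (Or.inl (labT.1 h).2.2))
  · intro h
    by_cases h1 : X z0 u s ≤ xj K a b 1
    · exact ⟨0, by omega, lab0.2 h1⟩
    by_cases h2 : xj K a b (N + 1) < X z0 u s
    · exact ⟨N + 1, by omega, labR.2 h2⟩
    push Not at h1 h2
    rcases h with h | h | h | h
    · linarith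
    · linarith
    · exact ⟨N + 2, le_rfl, labT.2 ⟨h1, h2, h⟩⟩
    · have hex : ∃ j, X z0 u s ≤ xj K a b (j + 1) := ⟨N, h2⟩
      have f1 := Nat.find_spec hex
      have f2 : Nat.find hex ≤ N := Nat.find_min' hex h2
      have f3 : 1 ≤ Nat.find hex := by
        by_contra hcon
        have : Nat.find hex = 0 := by omega
        rw [this] at f1
        rw [zero_add] at f1
        linarith
      have f4 := Nat.find_min hex (m := Nat.find hex - 1) (by omega)
      rw [Nat.sub_add_cancel f3] at f4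
      push Not at f4
      exact ⟨Nat.find hex, by omega, (labB f3 f2).2 ⟨f4, f1, h⟩⟩

/-! ### the walks -/

/-- bottom walk -/
def WB (S : Finset ℂ) (z0 u : ℂ) (a b k d : ℝ) : Prop := ∀ v ∈ SS S z0 u k a b,
  |X z0 u v| ≤ a + b / 2 → Y z0 u v < -(b / 2) → ∃ x y, hullE (SS S z0 u k a b) x y ∧
    Pth (SS S z0 u k a b) {s | s ∈ SS S z0 u k a b ∧ Y z0 u s < -(b / 2) ∧
      |X z0 u s - X z0 u v| ≤ 10 * Real.sqrt (RR k a b * d)} v x

/-- top walk -/
def WT (S : Finset ℂ) (z0 u : ℂ) (a b k d : ℝ) : Prop := ∀ v ∈ SS S z0 u k a b,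
  |X z0 u v| ≤ a + b / 2 → b / 2 ≤ Y z0 u v → ∃ x y, hullE (SS S z0 u k a b) x y ∧
    Pth (SS S z0 u k a b) {s | s ∈ SS S z0 u k a b ∧ b / 2 ≤ Y z0 u s ∧
      min (X z0 u v) 0 - 10 * Real.sqrt (RR k a b * d) ≤ X z0 u s ∧
      X z0 u s ≤ max (X z0 u v) 0 + 10 * Real.sqrt (RR k a b * d)} v x

theorem X_dt (hu : ‖u‖ = 1) (s v : ℂ) : X z0 u s - X z0 u v = dt (s - v) u := by
  rw [HULx838.X_sub, Complex.div_re]
  have : Complex.normSq u = 1 := by rw [Complex.normSq_eq_norm_sq, hu, one_pow]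
  rw [this]
  unfold dt
  ring

/-- a pocket near the line `l` -/
def Loc (z0 u : ℂ) (a b D0 : ℝ) (K N : ℕ) (l : ℕ) (t : Bool) (s : ℂ) : Prop :=
  1 ≤ l ∧ l ≤ N + 1 ∧ |X z0 u s - xj K a b l| ≤ 10 * D0 ∧
    (t = true → b / 2 ≤ Y z0 u s) ∧ (t = false → Y z0 u s < -(b / 2))

section geo

variable {n : ℕ} {w : ℤ → ℂ} {p : ℕ → ℤ}

/-- **the polygon** -/
theorem geo (H : SH S z0 u a b k d) (hK : 0 < K) (hN : Nok a b k K N)
    (h4 : 200 * Real.sqrt (RR k a b * d) ≤ hh K b) (hH : Hul S z0 u a b k K n w N p)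
    (wb : WB S z0 u a b k d) (wt : WT S z0 u a b k d) :
    Geo S z0 u a b k K n w N p (Ak (SS S z0 u k a b) w (N + 2) (Lab z0 u a b K N)) := by
  have hb := H.hb
  have ha := H.ha
  have hu := H.u1
  have hgp := H.gp
  have h3 := H.dns.card
  have hh0 := hh_pos (b := b) K hb
  have hhb := hh_le (b := b) hK hb
  have hN1 : 1 ≤ N := by
    have := hN.MN
    have : 6 ≤ MM K := by exact_mod_cast MM3 hK
    omega
  have hxl := hN.xl
  have hxr := hN.xr
  have hx1 : xj K a b 1 = -(a + b / 4) := xj_one K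
  set D0 := Real.sqrt (RR k a b * d) with hD0
  have hD0p : 0 ≤ D0 := Real.sqrt_nonneg _
  set T := SS S z0 u k a b with hT
  have hcyc := hH.cyc
  rw [← hT] at hcyc
  set Lb := Lab z0 u a b K N with hLb
  have onh : ∀ {x y : ℂ}, hullE T x y → ∃ i : ℤ, w i = x := by
    intro x y hxy
    obtain ⟨i, -, -, h, -⟩ := hcyc.all x y hxy
    exact ⟨i, h⟩
  -- half planes
  have F1 : ∀ v ∈ T, Lb 0 v → v ∈ Mn T w Lb 0 := by
    intro v hv hl
    obtain ⟨x, y, hxy, hp⟩ := walkH hgp h3 (e := -u) (neg_ne_zero.2 H.u0) _ v hv le_rfl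
    obtain ⟨i, rfl⟩ := onh hxy
    refine ⟨i, hp.mono ?_⟩
    rintro s ⟨h1, h2⟩
    refine ⟨h1, lab0.2 ?_⟩
    have h5 := lab0.1 hl
    have h6 := X_dt (z0 := z0) hu s v
    have h7 : dt (s - v) (-u) = -dt (s - v) u := by unfold dt; simp only [Complex.neg_re, Complex.neg_im]; ring
    linarith
  have F2 : ∀ v ∈ T, Lb (N + 1) v → v ∈ Mn T w Lb (N + 1) := by
    intro v hv hl
    obtain ⟨x, y, hxy, hp⟩ := walkH hgp h3 (e := u) H.u0 _ v hv le_rfl
    obtain ⟨i, rfl⟩ := onh hxy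
    refine ⟨i, hp.mono ?_⟩
    rintro s ⟨h1, h2⟩
    refine ⟨h1, labR.2 ?_⟩
    have h5 := labR.1 hl
    have h6 := X_dt (z0 := z0) hu s v
    linarith
  have xin : ∀ s : ℂ, xj K a b 1 < X z0 u s → X z0 u s ≤ xj K a b (N + 1) →
      |X z0 u s| ≤ a + b / 2 := by
    intro s h1 h2
    rw [abs_le]
    constructor <;> linarith
  have F3 : ∀ v ∈ T, ∀ j, 1 ≤ j → j ≤ N → Lb j v → xj K a b j + 10 * D0 < X z0 u v →
      X z0 u v + 10 * D0 ≤ xj K a b (j + 1) → v ∈ Mn T w Lb j := by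
    intro v hv j j1 j2 hl g1 g2
    obtain ⟨l1, l2, l3⟩ := (labB j1 j2).1 hl
    have m1 := xj_mono (K := K) (a := a) hb j1
    have m2 := xj_mono (K := K) (a := a) hb (show j + 1 ≤ N + 1 by omega)
    obtain ⟨x, y, hxy, hp⟩ := wb v hv (xin v (by linarith) (by linarith)) l3
    obtain ⟨i, rfl⟩ := onh hxy
    refine ⟨i, hp.mono ?_⟩
    rintro s ⟨s1, s2, s3⟩
    rw [abs_le] at s3
    exact ⟨s1, (labB j1 j2).2 ⟨by linarith, by linarith, s2⟩⟩
  have F4 : ∀ v ∈ T, Lb (N + 2) v → xj K a b 1 + 10 * D0 < X z0 u v →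
      X z0 u v + 10 * D0 ≤ xj K a b (N + 1) → v ∈ Mn T w Lb (N + 2) := by
    intro v hv hl g1 g2
    obtain ⟨l1, l2, l3⟩ := labT.1 hl
    obtain ⟨x, y, hxy, hp⟩ := wt v hv (xin v l1 l2) l3
    obtain ⟨i, rfl⟩ := onh hxy
    refine ⟨i, hp.mono ?_⟩
    rintro s ⟨s1, s2, s3, s4⟩
    refine ⟨s1, labT.2 ⟨?_, ?_, s2⟩⟩
    · rcases le_total (X z0 u v) 0 with h | h
      · rw [min_eq_left h] at s3
        linarith
      · rw [min_eq_right h] at s3
        linarith
    · rcases le_total (X z0 u v) 0 with h | h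
      · rw [max_eq_right h] at s4
        linarith
      · rw [max_eq_left h] at s4
        linarith
  -- outer sites are joined to the hull
  have hou : ∀ s, s ∈ Ou T (N + 2) Lb ↔ s ∈ T ∧ (X z0 u s ≤ xj K a b 1 ∨
      xj K a b (N + 1) < X z0 u s ∨ b / 2 ≤ Y z0 u s ∨ Y z0 u s < -(b / 2)) := by
    intro s
    unfold Ou
    rw [Set.mem_setOf_eq, outer_iff hb hN1]
  have hcon : ∀ s ∈ Ou T (N + 2) Lb, ∃ i : ℤ, Pth T (Ou T (N + 2) Lb) s (w i) := by
    rintro s ⟨hs, j, hj, hl⟩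
    rcases lcases hj with rfl | ⟨j1, j2⟩ | rfl | rfl
    · obtain ⟨i, hp⟩ := F1 s hs hl
      exact ⟨i, hp.mono fun v hv => ⟨hv.1, 0, hj, hv.2⟩⟩
    · obtain ⟨l1, l2, l3⟩ := (labB j1 j2).1 hl
      have m1 := xj_mono (K := K) (a := a) hb j1
      have m2 := xj_mono (K := K) (a := a) hb (show j + 1 ≤ N + 1 by omega)
      obtain ⟨x, y, hxy, hp⟩ := wb s hs (xin s (by linarith) (by linarith)) l3
      obtain ⟨i, rfl⟩ := onh hxy
      exact ⟨i, hp.mono fun v hv => (hou v).2 ⟨hv.1, Or.inr (Or.inr (Or.inr hv.2.1))⟩⟩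
    · obtain ⟨i, hp⟩ := F2 s hs hl
      exact ⟨i, hp.mono fun v hv => ⟨hv.1, N + 1, hj, hv.2⟩⟩
    · obtain ⟨l1, l2, l3⟩ := labT.1 hl
      obtain ⟨x, y, hxy, hp⟩ := wt s hs (xin s l1 l2) l3
      obtain ⟨i, rfl⟩ := onh hxy
      exact ⟨i, hp.mono fun v hv => (hou v).2 ⟨hv.1, Or.inr (Or.inr (Or.inl hv.2.1))⟩⟩
  obtain ⟨hpg, hout⟩ := assign (S := T) (n := n) (m := N + 2) (w := w) (p := p) (Lb := Lb) hgp hcyc
    (fun j hj => hH.mono j (by omega)) hH.last
    (fun i j hi hj s h1 h2 => uniq hb hN1 hi hj h1 h2)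
    (fun j hj => hH.lab j (by omega)) hH.labl hcon
  -- the pockets
  have pl : ∀ s ∈ Po T w (N + 2) Lb, ∃ l t, Loc z0 u a b D0 K N l t s := by
    rintro s ⟨⟨hs, j, hj, hl⟩, hno⟩
    rcases lcases hj with rfl | ⟨j1, j2⟩ | rfl | rfl
    · exact absurd (F1 s hs hl) (hno 0 hj)
    · obtain ⟨l1, l2, l3⟩ := (labB j1 j2).1 hl
      by_cases g1 : xj K a b j + 10 * D0 < X z0 u s
      · by_cases g2 : X z0 u s + 10 * D0 ≤ xj K a b (j + 1)
        · exact absurd (F3 s hs j j1 j2 hl g1 g2) (hno j hj)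
        · push Not at g2
          refine ⟨j + 1, false, by omega, by omega, ?_, fun h => by simp at h, fun _ => l3⟩
          rw [abs_le]
          constructor <;> linarith
      · push Not at g1
        refine ⟨j, false, j1, by omega, ?_, fun h => by simp at h, fun _ => l3⟩
        rw [abs_le]
        constructor <;> linarith
    · exact absurd (F2 s hs hl) (hno _ hj)
    · obtain ⟨l1, l2, l3⟩ := labT.1 hl
      by_cases g1 : xj K a b 1 + 10 * D0 < X z0 u s
      · by_cases g2 : X z0 u s + 10 * D0 ≤ xj K a b (N + 1)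
        · exact absurd (F4 s hs hl g1 g2) (hno _ hj)
        · push Not at g2
          refine ⟨N + 1, true, by omega, le_rfl, ?_, fun _ => l3, fun h => by simp at h⟩
          rw [abs_le]
          constructor <;> linarith
      · push Not at g1
        refine ⟨1, true, le_rfl, by omega, ?_, fun _ => l3, fun h => by simp at h⟩
        rw [abs_le]
        constructor <;> linarith
  have edX : ∀ {x y : ℂ}, Adj T x y → |X z0 u x - X z0 u y| ≤ 5 * D0 := fun h =>
    (H.X_diff _ _).trans (edge5 H.dns h)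
  have edY : ∀ {x y : ℂ}, Adj T x y → |Y z0 u x - Y z0 u y| ≤ 5 * D0 := fun h =>
    (H.Y_diff _ _).trans (edge5 H.dns h)
  have pstep : ∀ {l l' : ℕ} {t t' : Bool} {s s' : ℂ}, Adj T s s' →
      Loc z0 u a b D0 K N l t s → Loc z0 u a b D0 K N l' t' s' → l = l' ∧ t = t' := by
    rintro l l' t t' s s' hss ⟨a1, a2, a3, a4, a5⟩ ⟨b1, b2, b3, b4, b5⟩
    have e1 := edX hss
    have e2 := edY hss
    rw [abs_le] at e1 e2 a3 b3
    constructor
    · rcases lt_trichotomy l l' with h | h | h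
      · have := xj_lt (K := K) (a := a) hb h
        exfalso
        linarith
      · exact h
      · have := xj_lt (K := K) (a := a) hb h
        exfalso
        linarith
    · cases t <;> cases t'
      · rfl
      · have q1 := a5 rfl
        have q2 := b4 rfl
        exfalso
        linarith
      · have q1 := a4 rfl
        have q2 := b5 rfl
        exfalso
        linarith
      · rfl
  have ppath : ∀ {l : ℕ} {t : Bool} {s v : ℂ}, Pth T (Po T w (N + 2) Lb) s v →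
      Loc z0 u a b D0 K N l t s → Loc z0 u a b D0 K N l t v := by
    intro l t s v hp hl
    refine hp.ind (P := fun s => Loc z0 u a b D0 K N l t s) hl ?_
    intro x y hx hy hxy hlx
    obtain ⟨l', t', h'⟩ := pl y hy
    obtain ⟨rfl, rfl⟩ := pstep hxy hlx h'
    exact h'
  have prk : ∀ s ∈ Po T w (N + 2) Lb, ∀ j, Rk T w (N + 2) Lb s j → ∃ l t v y,
      Loc z0 u a b D0 K N l t s ∧ Loc z0 u a b D0 K N l t v ∧ Adj T v y ∧ Lb j y := by
    rintro s hs j ⟨v, y, q1, q2, q3⟩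
    obtain ⟨l, t, hl⟩ := pl s hs
    exact ⟨l, t, v, y, hl, ppath q1 hl, q2, (mn_mem q3).2⟩
  refine ⟨hpg, hN, fun s hs => ?_, ?_, ?_, ?_, ?_⟩
  · rw [hout s hs, outer_iff hb hN1]
  · -- left
    intro s hs
    rcases mem_Ak.1 hs with h | ⟨h1, h2, -⟩
    · have := lab0.1 (mn_mem h).2
      linarith
    · obtain ⟨l, t, v, y, ⟨a1, a2, a3, -⟩, ⟨-, -, b3, -⟩, q2, q3⟩ := prk s h1 0 h2
      have e1 := edX q2
      have q4 := lab0.1 q3
      rw [abs_le] at e1 a3 b3
      rcases Nat.eq_or_lt_of_le a1 with h | h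
      · rw [← h] at a3
        linarith
      · have := xj_lt (K := K) (a := a) hb h
        linarith
  · intro s hs
    rcases mem_Ak.1 hs with h | ⟨h1, h2, -⟩
    · have := labR.1 (mn_mem h).2
      linarith
    · obtain ⟨l, t, v, y, ⟨a1, a2, a3, -⟩, ⟨-, -, b3, -⟩, q2, q3⟩ := prk s h1 (N + 1) h2
      have e1 := edX q2
      have q4 := labR.1 q3
      rw [abs_le] at e1 a3 b3
      rcases Nat.eq_or_lt_of_le a2 with h | h
      · rw [h] at a3
        linarith
      · have := xj_lt (K := K) (a := a) hb h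
        linarith
  · intro s hs
    rcases mem_Ak.1 hs with h | ⟨h1, h2, -⟩
    · exact (labT.1 (mn_mem h).2).2.2
    · obtain ⟨l, t, v, y, ⟨-, -, -, a4, -⟩, ⟨-, -, -, -, b5⟩, q2, q3⟩ := prk s h1 (N + 2) h2
      have e1 := edY q2
      have q4 := (labT.1 q3).2.2
      rw [abs_le] at e1
      cases t
      · have := b5 rfl
        exfalso
        linarith
      · exact a4 rfl
  · intro j j1 j2 s hs
    rcases mem_Ak.1 hs with h | ⟨h1, h2, -⟩
    · obtain ⟨g1, g2, g3⟩ := (labB j1 j2).1 (mn_mem h).2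
      exact ⟨by linarith, by linarith, g3⟩
    · obtain ⟨l, t, v, y, ⟨-, -, a3, -, a5⟩, ⟨-, -, b3, b4, -⟩, q2, q3⟩ := prk s h1 j h2
      have e1 := edX q2
      have e2 := edY q2
      obtain ⟨g1, g2, g3⟩ := (labB j1 j2).1 q3
      rw [abs_le] at e1 e2 a3 b3
      have ht : t = false := by
        cases t
        · rfl
        · have := b4 rfl
          exfalso
          linarith
      have hl : l = j ∨ l = j + 1 := by
        rcases Nat.lt_or_ge l j with h | h
        · have := xj_lt (K := K) (a := a) hb h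
          exfalso
          linarith
        · rcases Nat.lt_or_ge (j + 1) l with h' | h'
          · have := xj_lt (K := K) (a := a) hb h'
            exfalso
            linarith
          · omega
      have hs1 := xj_succ (a := a) (b := b) K j
      refine ⟨?_, ?_, a5 ht⟩
      · rcases hl with rfl | rfl <;> linarith
      · rcases hl with rfl | rfl <;> linarith

end geo

/-- `c1` -/
theorem small (hk : 1 ≤ k) (ha : 0 < a) (hb : 0 < b) (hab : a ≤ k * b) (hd : 0 < d) (hK : 0 < K)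
    (h : d ≤ 1 / (20480000 * (1 + k) ^ 2 * (MM K : ℝ) ^ 2) * b) :
    100 * (1 + k) * d ≤ b ∧ 200 * Real.sqrt (RR k a b * d) ≤ hh K b := by
  have hM := MM3 hK
  have hpos : (0 : ℝ) < 20480000 * (1 + k) ^ 2 * (MM K : ℝ) ^ 2 := by positivity
  have h1 : d * (20480000 * (1 + k) ^ 2 * (MM K : ℝ) ^ 2) ≤ b := by
    rw [one_div, mul_comm, ← div_eq_mul_inv] at h
    rwa [le_div_iff₀ hpos] at h
  constructor
  · have h2 : 1 ≤ (MM K : ℝ) ^ 2 := by nlinarith
    have h3 : (1 + k) ≤ (1 + k) ^ 2 := by nlinarith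
    have h4 : d * (100 * (1 + k)) ≤ d * (20480000 * (1 + k) ^ 2 * (MM K : ℝ) ^ 2) := by
      apply mul_le_mul_of_nonneg_left _ hd.le
      nlinarith
    linarith
  · have h2 : RR k a b ≤ 8 * (1 + k) ^ 2 * b := by
      unfold RR
      have : a + b ≤ (1 + k) * b := by linarith
      nlinarith [mul_le_mul_of_nonneg_left this (show (0 : ℝ) ≤ 8 * (1 + k) by linarith)]
    have h3 : RR k a b * d ≤ 8 * (1 + k) ^ 2 * b * d := mul_le_mul_of_nonneg_right h2 hd.le
    have h5 : Real.sqrt (RR k a b * d) ≤ hh K b / 200 := by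
      apply Real.sqrt_le_iff.2
      refine ⟨by have := hh_pos (b := b) K hb; positivity, ?_⟩
      unfold hh
      have h6 : (b / (8 * (MM K : ℝ)) / 200) ^ 2 = b ^ 2 / (2560000 * (MM K : ℝ) ^ 2) := by
        field_simp
        norm_num
      rw [h6]
      refine h3.trans ?_
      rw [le_div_iff₀ (by positivity)]
      nlinarith
    linarith

/-- **GEO3 from the walks** -/
theorem geo3_of
    (wb : ∀ (S : Finset ℂ) (z0 u : ℂ) (a b k d : ℝ), SH S z0 u a b k d →
      400 * Real.sqrt (RR k a b * d) ≤ b → WB S z0 u a b k d)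
    (wt : ∀ (S : Finset ℂ) (z0 u : ℂ) (a b k d : ℝ), SH S z0 u a b k d →
      400 * Real.sqrt (RR k a b * d) ≤ b → WT S z0 u a b k d) : GEO3 := by
  intro k hk K hK
  obtain ⟨c1, hc1, h⟩ := HULx838.hul k hk K hK
  have hM := MM3 hK
  refine ⟨min c1 (1 / (20480000 * (1 + k) ^ 2 * (MM K : ℝ) ^ 2)), lt_min hc1 (by positivity), ?_⟩
  intro S z0 u a b d hu ha hb hab hba hld hd
  obtain ⟨N, hN⟩ := nok_ex hK ha hb hab
  have hd1 : d ≤ c1 * b := hd.trans (mul_le_mul_of_nonneg_right (min_le_left _ _) hb.le)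
  have hd2 : d ≤ 1 / (20480000 * (1 + k) ^ 2 * (MM K : ℝ) ^ 2) * b :=
    hd.trans (mul_le_mul_of_nonneg_right (min_le_right _ _) hb.le)
  obtain ⟨s1, s2⟩ := small hk ha hb hab hld.dpos hK hd2
  have H : SH S z0 u a b k d := ⟨hk, hu, ha, hb, hab, hba, hld, s1⟩
  obtain ⟨n, w, p, hH⟩ := h S z0 u a b d N hu ha hb hab hba hld hd1 hN
  have h4 : 400 * Real.sqrt (RR k a b * d) ≤ b := by
    have := hh_le (b := b) hK hb
    have := hh_pos (b := b) K hb
    linarith
  exact ⟨n, w, N, p, _, geo H hK hN s2 hH (wb S z0 u a b k d H h4) (wt S z0 u a b k d H h4)⟩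

end Crest.Agent.R143.RE5x723
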