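import Crest.Agent.R143.EFam_432
import Crest.Agent.R143.RingU_197
import Crest.Agent.R143.LawU_348

/-!
# Row 143 (S0194), block H (helper432): the full exploration on 197's family

* `Gr A1 A2 D1` : the literal record `Gf` as a family; `rvf_gr` : 197's `Rvf (Gr ..) = Rf ..`
* `lev_env`, `dw_env` : 707's `Lev` and the sites in `Dw`, from 795's `EnvS`
* `rc_env` : 197's `RC` from `RngH`, `EnvS` and one right cell in the white cluster (`Acw`)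
* **`rc_ae`** : `RC` a.e. where the weight is not zero (348's law); left: `Acw` from the arms
* `facts_env` : `Facts` of one configuration
-/

set_option autoImplicit false

noncomputable section

open scoped Classical

namespace Crest.Agent.R143.RFctx432

open MeasureTheory Filter Topology Set
open Crest.ProbabilityR.Voronoi
open Crest.Agent.R143.B0x346 Crest.Agent.R143.SumScx302 Crest.Agent.R143.Mass1x302
  Crest.Agent.R143.Mass2x302 Crest.Agent.R143.Mass3x302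
  Crest.Agent.R143.Mass4x302 Crest.Agent.R143.Mass5x302 Crest.Agent.R143.DelGx806
  Crest.Agent.R143.DelRx806 Crest.Agent.R143.JColx54
open Crest.Agent.R143.Frame10x395 Crest.Agent.R143.NonXx592
  Crest.Agent.R143.FinCx811 Crest.Agent.R143.SmallAx304 Crest.Agent.R143.GiantEx197
  Crest.Agent.R143.StgIx432 Crest.Agent.R143.HRevx432
  Crest.Agent.R143.EFamx432 Crest.Agent.R143.RingUx197
open Crest.Agent.R143.Dblx609 Crest.Agent.R143.Dbl2x609 Crest.Agent.R143.Asm3x414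
open Crest.Agent.R143.RevCx389 (Rg)
open Crest.Agent.R143.Meetx707 (cel mem_cel sr pl_rc0 Pl)
open Crest.Agent.R143.AnnCx707 (Lev hull_ex)
open Crest.Agent.R143.CircPx838 (sup)
open Crest.Agent.R143.RingXx713 (RngH)
open Crest.Agent.R143.ColXx829 (Xc)
open Crest.Agent.R143.HBudx136 (Ub)
open Crest.Agent.R143.EnvRx795 (EnvS)
open Crest.Agent.R143.LawGx348 Crest.Agent.R143.GPosFx348 Crest.Agent.R143.GPosCx348
open Crest.Agent.R143.TileRx228 Crest.Agent.R143.PthFx765 Crest.Agent.R143.TplIx204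
  Crest.Agent.R143.Tplx978
open scoped ENNReal

variable {A β : Finset ℂ} {A1 A2 D1 Rr d ρ0 : ℝ}

/-- the literal record as a family -/
def Gr (A1 A2 D1 : ℝ) :
    ∀ (A : Finset ℂ) (hS : GP (A : Set ℂ)), 3 ≤ A.card → Rg (D0 A) (Cs hS) :=
  fun _ hS h3 => Gf zB A1 A2 D1 hS h3

theorem rvf_gr : Rvf (Gr A1 A2 D1) = Rf zB A1 A2 D1 := rfl

/-- the hull is beyond the level `A2` -/
theorem hull_env (env : EnvS A Rr d ρ0) (h : 2 * A2 + 2 * d ≤ Rr) :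
    ∀ s ∈ A, OnHull A s → A2 ≤ sup (s - zB) := by
  intro s _ hs
  have h1 := env.hull_far hs
  have h2 := norm_sp s
  rw [← FactJx432.sup_sp] at h2
  linarith

/-- **707's `Lev` of the literal record** -/
theorem lev_env (env : EnvS A Rr d ρ0) (h : 2 * A2 + 2 * d ≤ Rr) (hS : GP (A : Set ℂ))
    (h3 : 3 ≤ A.card) : Lev A (sr hS h3) (Gf zB A1 A2 D1 hS h3) zB A1 A2 :=
  gf_lev hS h3 (hull_env env h)

theorem dw_env (env : EnvS A Rr d ρ0) (h : 2 * A2 + 2 * d ≤ Rr) (h12 : A1 ≤ A2)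
    (hS : GP (A : Set ℂ)) (h3 : 3 ≤ A.card) :
    ∀ w ∈ A, sup (w - zB) < A1 → sr hS h3 w ∈ (Gf zB A1 A2 D1 hS h3).Dw :=
  fun _ hw h1 => gf_dw hS h3 (hull_env env h) hw (h1.trans_le h12)

/-- **`Facts` of one configuration** -/
theorem facts_env {n : ℕ} (hn : 4 ≤ n) {U : Set ℂ} {hS : GP (A : Set ℂ)} {h3 : 3 ≤ A.card}
    (R : RngH (Xc hS h3 (chiS hS h3 β)) U (4 * (n + 2)) (Wi n) (et n) d)
    (env : EnvS A Rr d ρ0) (hRr : 4 ≤ Rr) (hA2 : 2 * A2 + 2 * d ≤ Rr) (h12 : A1 ≤ A2)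
    (hA1 : 1 / 2 + 2 * (100 * et n) ≤ A1) (ac : Acw R (Gf zB A1 A2 D1 hS h3)) :
    Facts (Ub 0 1 (2 * (100 * et n))) (sq 0 1) A β (Rf zB A1 A2 D1 A β)
      (EF (Wi n) (et n) A β) := by
  rw [rf_eq hS h3]
  exact facts_one hn R env hRr (lev_env env hA2 hS h3) h12 hA1 (dw_env env hA2 h12 hS h3) ac

/-- **197's ring configuration** -/
theorem rc_env {n : ℕ} {U : Set ℂ} {hS : GP (A : Set ℂ)} {h3 : 3 ≤ A.card}
    (R : RngH (Xc hS h3 (chiS hS h3 β)) U (4 * (n + 2)) (Wi n) (et n) d)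
    (env : EnvS A Rr d ρ0) (hA2 : 2 * A2 + 2 * d ≤ Rr) (h12 : A1 ≤ A2)
    (ac : Acw R (Gf zB A1 A2 D1 hS h3)) : RC n d A1 A2 U (Gr A1 A2 D1) A β :=
  ⟨hS, h3, R, lev_env env hA2 hS h3, dw_env env hA2 h12 hS h3, ac⟩

variable {D : DT} {ε : ℝ} {hε : 0 < ε} {c : ℝ≥0∞} {c0 : c ≠ 0} {c1 : c ≤ 1} {n : ℕ}

/-- **`RC` a.e. where the weight is not zero**; left: one right cell of the ring in the white cluster,
from the arms `F` and the white circuit -/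
theorem rc_ae (hn : 24 ≤ n) (N : NumC D (et n))
    (P : FPath (4 * (n + 2)) (Wi n)) (P' : FPath (4 * (n + 22)) (Wo n))
    (H : Std (D.raw ε hε c c0 c1).tpl D.A' D.B' D.h Prod.fst) (hP : (D.raw ε hε c c0 c1).AePos)
    (hRr : 4 ≤ Rr) (hd : 0 < √ε) (hd' : 100 * √ε ≤ et n) {Ui Uo : Set ℂ}
    {F : Set (ℂ × Bool) → ℝ≥0∞} {Kw : ℝ≥0∞}
    (Wd : WgtHx445.WD ε (Bx Rr) Ui Uo (RngNx765.gO P H true) (RngNx765.gO P' H false) F
      (RingWDx445.eB (Bx Rr) Rr √ε ρ0) Kw)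
    (hA2 : 2 * A2 + 2 * √ε ≤ Rr) (h12 : A1 ≤ A2)
    (ac : ∀ᵐ ω ∂sampleLaw, ∀ β : Finset ℂ, F (paint (Ap ε (Bx Rr) ω) β) ≠ 0 →
      EnvS (Ap ε (Bx Rr) ω) Rr √ε ρ0 → ∀ (hS : GP (Ap ε (Bx Rr) ω : Set ℂ))
        (h3 : 3 ≤ (Ap ε (Bx Rr) ω).card)
        (R : RngH (Xc hS h3 (chiS hS h3 β)) (Metric.closedBall 0 4) (4 * (n + 2)) (Wi n)
          (et n) √ε),
        WhtH (Xc hS h3 (chiS hS h3 β)) (Metric.closedBall 0 4) (4 * (n + 22)) (Wo n) (et n) √ε →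
        Acw R (Gf zB A1 A2 D1 hS h3)) :
    ∀ᵐ ω ∂sampleLaw, ∀ β ∈ (Ap ε (Bx Rr) ω).powerset,
      gw Rr ρ0 ε (RngNx765.gO P H true) (RngNx765.gO P' H false) F
        (paint (Ap ε (Bx Rr) ω) β) ≠ 0 →
      RC n √ε A1 A2 (Metric.closedBall 0 4) (Gr A1 A2 D1) (Ap ε (Bx Rr) ω) β := by
  have h0 := LawUx348.law_wt (Rr := Rr) (ρ0 := ρ0) hn N P P' H hP hRr hd hd' Wd
    fun A β hA h => RingWDx445.eB_ne hA h
  filter_upwards [h0, ac] with ω h1 h2 β _ hg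
  obtain ⟨env, hF, h4⟩ := h1 β hg
  have h3 : 3 ≤ (Ap ε (Bx Rr) ω).card := env.card (by
    have := LawUx348.et_le (n := n) (by omega)
    linarith)
  obtain ⟨R, Wh⟩ := h4 env.gp h3
  exact rc_env R env hA2 h12 (h2 β hF env env.gp h3 R Wh)

end Crest.Agent.R143.RFctx432
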