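import Crest.Agent.R143.WLoc11_713
import Crest.Agent.R143.Theta_73
import Crest.Agent.R143.Fair_653

/-!
# Row 143, CORE-C, box R1d: half events of a gate in link form (helper73)

* `Hf S z0 e l0 l1 p0 p1 m K P A` : a vertical chain of sites of `A` in the landing zone, all its sites
  linked in `A ∩ K` to the gate sites `P`; `Hf.mo`, `Hf.su` (support), `Hf.tr` (other triangulation)
* `Dg F r S` : grid density; `Dg.hol`
* `HX` : half event of a configuration (black and white), `HX_fme`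
* `hx` : the half event of the cut configuration, as a functional; `hx_local`, `hx_fm`, `hx_le`
* `sX_clr`, `bX_clr`, `wX_clr`, `LG_clr`, `HX_clr` : the configuration `clr V β` of the sites `V`
* `Hf.up` : from the cut configuration to a larger one
* `gd_of_hx` : **quenched half event `≥ a` gives `Gd` of `Theta_73`** for the events
  `Hf M .. Kb ..`, `Hf M .. Kw ..` of the larger triangulation `M`
* `qn_hx` : the quenched mean of `hx` as `pr`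
-/

set_option autoImplicit false

noncomputable section

open scoped Classical

namespace Crest.Agent.R143.RHx73

open Set MeasureTheory
open Crest.Agent.R143.B0x346 Crest.Agent.R143.DelGx806 Crest.Agent.R143.DelRx806
open Crest.Agent.R143.ToolWx838 Crest.Agent.R143.Blkx838
open Crest.Agent.R143.Gatex838 Crest.Agent.R143.Harx315
open Crest.Agent.R143.Neckx921 (Neck NeckD Tile Lk)
open Crest.Agent.R143.Thetax73 (Mo Su)
open Crest.Agent.R143.WLocx713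
open Crest.Agent.R143.Locx922
open Crest.Agent.R143.PP0x831 Crest.Agent.R143.Poisx304 Crest.Agent.R143.Janx304
open Crest.Agent.R143.Prodx609 Crest.Agent.R143.FinMx609 Crest.Agent.R143.FinM2x609
open Crest.Agent.R143.IndLocx279 Crest.Agent.R143.IndLoc3x279
open Crest.Agent.R143.PWx978 (Cf fm_inter localOn_of)
open Crest.Agent.R143.Fairx653
open scoped ENNReal

variable {S S' A : Finset ℂ} {z0 e : ℂ} {l0 l1 p0 p1 m : ℝ} {K P : Set ℂ}

/-! ## one colour -/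

/-- one colour of the half event: `P` = the gate sites of this colour -/
def Hf (S : Finset ℂ) (z0 e : ℂ) (l0 l1 p0 p1 m : ℝ) (K P : Set ℂ) (A : Finset ℂ) : Prop :=
  ∃ l, VC S z0 e l0 l1 p0 p1 m A l ∧ ∀ y ∈ P, ∀ s ∈ l, Lk S {v | v ∈ A ∧ v ∈ K} y s

theorem Hf.mo : Mo (Hf S z0 e l0 l1 p0 p1 m K P) := by
  rintro A A' hA ⟨l, h1, h2⟩
  exact ⟨l, h1.mono hA, fun y hy s hs => (h2 y hy s hs).mono fun v hv => ⟨hA hv.1, hv.2⟩⟩

/-- support: the sites of the region `K` and of the landing zone -/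
theorem Hf.su {U W : Finset ℂ} (hK : ∀ s ∈ U, s ∈ K → s ∈ W)
    (hZ : ∀ s ∈ U, l0 < X z0 e s → X z0 e s < l1 → p0 - m ≤ Y z0 e s → Y z0 e s ≤ p1 + m → s ∈ W) :
    Su U W (Hf S z0 e l0 l1 p0 p1 m K P) := by
  rintro A hA ⟨l, h1, h2⟩
  refine ⟨l, TileGx73.VC.inter h1 fun s hs => hZ s (hA hs), fun y hy s hs => ?_⟩
  exact (h2 y hy s hs).mono fun v hv => ⟨Finset.mem_inter.2 ⟨hv.1, hK v (hA hv.1) hv.2⟩, hv.2⟩

theorem lk_tr {B : Set ℂ} (h : ∀ u v, u ∈ B → v ∈ B → DE S u v → DE S' u v) {u v : ℂ}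
    (hl : Lk S B u v) : Lk S' B u v := by
  obtain ⟨h1, h2⟩ := hl
  exact ⟨h1, Relation.ReflTransGen.mono (fun a b h3 => ⟨h a b h3.2.1 h3.2.2 h3.1, h3.2⟩) _ _ h2⟩

/-- another triangulation which has the same edges inside `K` and the landing zone -/
theorem Hf.tr (h : ∀ u v, u ∈ A → v ∈ A → u ∈ K → v ∈ K → DE S u v → DE S' u v)
    (hZ : ∀ s ∈ A, l0 < X z0 e s → X z0 e s < l1 → p0 - m ≤ Y z0 e s → Y z0 e s ≤ p1 + m → s ∈ K)
    (hf : Hf S z0 e l0 l1 p0 p1 m K P A) : Hf S' z0 e l0 l1 p0 p1 m K P A := by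
  obtain ⟨l, h1, h2⟩ := hf
  have hl : ∀ s ∈ l, s ∈ K := fun s hs => hZ s (h1.col s hs) (h1.strip s hs).1 (h1.strip s hs).2
    (h1.loc s hs).1 (h1.loc s hs).2
  refine ⟨l, ⟨h1.ne, fun p hp => ?_, h1.col, h1.strip, h1.loc, h1.left, h1.right⟩,
    fun y hy s hs => lk_tr (fun u v hu hv h3 => h u v hu.1 hv.1 hu.2 hv.2 h3) (h2 y hy s hs)⟩
  obtain ⟨m1, m2⟩ := prs_mem hp
  exact h _ _ (h1.col _ m1) (h1.col _ m2) (hl _ m1) (hl _ m2) (h1.adj p hp)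

theorem Hf.monoP {P' : Set ℂ} (hP : P' ⊆ P) (h : Hf S z0 e l0 l1 p0 p1 m K P A) :
    Hf S z0 e l0 l1 p0 p1 m K P' A := by
  obtain ⟨l, h1, h2⟩ := h
  exact ⟨l, h1, fun y hy => h2 y (hP hy)⟩

/-! ## density -/

/-- grid density -/
def Dg (F : Finset ℂ) (r : ℝ) (S : Set ℂ) : Prop := ∀ z ∈ F, ∃ s ∈ S, ‖s - z‖ < r

theorem Dg.mono {F : Finset ℂ} {r : ℝ} {S S' : Set ℂ} (h : Dg F r S) (hS : S ⊆ S') : Dg F r S' :=
  fun z hz => by obtain ⟨s, hs, h1⟩ := h z hz; exact ⟨s, hS hs, h1⟩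

/-- grid density gives density: `F` is an `r`-net of the `d`-neighbourhood of `W`, `2 r ≤ d` -/
theorem Dg.hol {F : Finset ℂ} {r d : ℝ} {S W : Set ℂ} (h : Dg F r S)
    (hF : ∀ w ∈ W, ∀ z, ‖z - w‖ ≤ d → ∃ f ∈ F, ‖f - z‖ ≤ d - r) : Hol S W d := by
  intro w hw z hz
  obtain ⟨f, hf, h1⟩ := hF w hw z hz
  obtain ⟨s, hs, h2⟩ := h f hf
  refine ⟨s, hs, ?_⟩
  have h3 : ‖s - z‖ ≤ ‖s - f‖ + ‖f - z‖ := by
    have := norm_add_le (s - f) (f - z)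
    rwa [sub_add_sub_cancel] at this
  linarith

theorem dg_fme (F : Finset ℂ) (r : ℝ) : FMe fun X : Set (ℂ × Bool) => Dg F r (ps X) := by
  intro n
  have h : ∀ z ∈ F, MeasurableSet {w : Fin n → ℂ × Bool | ∃ s ∈ ps (range w), ‖s - z‖ < r} := by
    intro z _
    have e : {w : Fin n → ℂ × Bool | ∃ s ∈ ps (range w), ‖s - z‖ < r} =
        ⋃ i : Fin n, {w : Fin n → ℂ × Bool | ‖(w i).1 - z‖ < r} := by
      ext w
      simp only [mem_ofPred_eq, mem_iUnion]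
      constructor
      · rintro ⟨s, ⟨_, ⟨i, rfl⟩, rfl⟩, hs⟩
        exact ⟨i, hs⟩
      · rintro ⟨i, hi⟩
        exact ⟨_, ⟨w i, ⟨i, rfl⟩, rfl⟩, hi⟩
    rw [e]
    refine MeasurableSet.iUnion fun i => ?_
    have hm : Measurable fun w : Fin n → ℂ × Bool => ‖(w i).1 - z‖ :=
      ((meas_pos n i).sub measurable_const).norm
    exact measurableSet_lt hm measurable_const
  have h2 : MeasurableSet {w : Fin n → ℂ × Bool | Dg F r (ps (range w))} := by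
    have e : {w : Fin n → ℂ × Bool | Dg F r (ps (range w))} =
        ⋂ z ∈ F, {w : Fin n → ℂ × Bool | ∃ s ∈ ps (range w), ‖s - z‖ < r} := by
      ext w
      simp only [Dg, mem_ofPred_eq, mem_iInter]
    rw [e]
    exact Finset.measurableSet_biInter F h
  exact measurable_to_prop (by simpa [preimage] using h2)

/-! ## the half event of a configuration -/

/-- numbers of a landing zone: black chain over `(p0, p1)`, white chain over `(q0, q1)` -/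
structure LZ where
  l0 : ℝ
  l1 : ℝ
  p0 : ℝ
  p1 : ℝ
  q0 : ℝ
  q1 : ℝ
  m : ℝ

/-- the Borel sets of a vertical crossing -/
def UV (z0 e : ℂ) (l0 l1 p0 p1 m : ℝ) : Fin 3 → Set ℂ :=
  ![{s | (l0 < X z0 e s ∧ X z0 e s < l1) ∧ p0 - m ≤ Y z0 e s ∧ Y z0 e s ≤ p1 + m},
    {s | Y z0 e s ≤ p0}, {s | p1 ≤ Y z0 e s}]

theorem UV_meas (i : Fin 3) : MeasurableSet (UV z0 e l0 l1 p0 p1 m i) := by
  have hX := meas_X (z0 := z0) (e := e)
  have hY := meas_Y (z0 := z0) (e := e)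
  fin_cases i
  · exact ((measurableSet_lt measurable_const hX).inter (measurableSet_lt hX measurable_const)).inter
      ((measurableSet_le measurable_const hY).inter (measurableSet_le hY measurable_const))
  · exact measurableSet_le hY measurable_const
  · exact measurableSet_le measurable_const hY

/-- white sites of a configuration -/
def wX (X : Set (ℂ × Bool)) : Finset ℂ := sX X \ bX X

/-- **half event of a configuration** -/
def HX (g : GPar) (Z : LZ) (Q Kb Kw : Set ℂ) (F : Finset ℂ) (r : ℝ) (X : Set (ℂ × Bool)) : Prop :=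
  (X.Finite ∧ Dg F r (ps X)) ∧
    Hf (sX X) g.z0 g.e Z.l0 Z.l1 Z.p0 Z.p1 Z.m Kb {y | ∃ p, LG g Q X p ∧ p.1 = y} (bX X) ∧
    Hf (sX X) g.z0 g.e Z.l0 Z.l1 Z.q0 Z.q1 Z.m Kw {x | ∃ p, LG g Q X p ∧ p.2 = x} (wX X)

section transport

variable {ι κ : Type*} [Finite ι] [Finite κ] {U : ι → Set ℂ} {R : κ → ℂ × ℂ × ℂ → Prop}
  {X X' : Set (ℂ × Bool)} {f : ℂ → ℂ}

theorem iso_vc (hX : X.Finite) (hX' : X'.Finite) (he : PIso U R X X' f)
    (hU : ∀ i, ∃ a, U a = UV z0 e l0 l1 p0 p1 m i) {A A' : Finset ℂ} (hA : ∀ s ∈ A, s ∈ ps X)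
    (hAA : ∀ s ∈ ps X, s ∈ A → f s ∈ A') {l : List ℂ} (h : VC (sX X) z0 e l0 l1 p0 p1 m A l) :
    VC (sX X') z0 e l0 l1 p0 p1 m A' (l.map f) := by
  have h1 : ∀ s ∈ l, s ∈ ps X := fun s hs => hA s (h.col s hs)
  have loc : ∀ i, ∀ s ∈ l, s ∈ UV z0 e l0 l1 p0 p1 m i ↔ f s ∈ UV z0 e l0 l1 p0 p1 m i := by
    intro i s hs
    obtain ⟨a, ha⟩ := hU i
    rw [← ha]
    exact he.loc s (h1 s hs) a
  have hne : l.map f ≠ [] := by simpa using h.ne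
  have w : ∀ s' ∈ l.map f, s' ∈ UV z0 e l0 l1 p0 p1 m 0 := by
    intro s' hs'
    obtain ⟨s, hs, rfl⟩ := List.mem_map.1 hs'
    exact (loc 0 s hs).1 (And.intro (h.strip s hs) (h.loc s hs))
  refine ⟨hne, iso_adj hX hX' he h.adj, ?_, fun s hs => (w s hs).1, fun s hs => (w s hs).2, ?_, ?_⟩
  · intro s' hs'
    obtain ⟨s, hs, rfl⟩ := List.mem_map.1 hs'
    exact hAA s (h1 s hs) (h.col s hs)
  · rw [List.head_map]
    exact (loc 1 _ (List.head_mem h.ne)).1 h.left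
  · rw [List.getLast_map]
    exact (loc 2 _ (List.getLast_mem h.ne)).1 h.right

theorem iso_lkA (hX : X.Finite) (hX' : X'.Finite) (he : PIso U R X X' f) {B B' : Set ℂ}
    (hB : ∀ s ∈ B, s ∈ ps X) (hBB : ∀ s ∈ ps X, s ∈ B → f s ∈ B') {u v : ℂ}
    (h : Lk (sX X) B u v) : Lk (sX X') B' (f u) (f v) :=
  iso_lk hX hX' he hBB (hB u h.1.1) (hB v h.1.2) h

theorem iso_hf (hX : X.Finite) (hX' : X'.Finite) (he : PIso U R X X' f)
    (hU : ∀ i, ∃ a, U a = UV z0 e l0 l1 p0 p1 m i) (hK : ∃ a, U a = K) {A A' : Finset ℂ}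
    (hA : ∀ s ∈ A, s ∈ ps X) (hAA : ∀ s ∈ ps X, s ∈ A → f s ∈ A') {P P' : Set ℂ}
    (hP : ∀ y' ∈ P', ∃ y ∈ P, y ∈ ps X ∧ f y = y') (h : Hf (sX X) z0 e l0 l1 p0 p1 m K P A) :
    Hf (sX X') z0 e l0 l1 p0 p1 m K P' A' := by
  obtain ⟨l, h1, h2⟩ := h
  obtain ⟨a, rfl⟩ := hK
  refine ⟨l.map f, iso_vc hX hX' he hU hA hAA h1, ?_⟩
  intro y' hy' s' hs'
  obtain ⟨y, hy, hy1, rfl⟩ := hP y' hy'
  obtain ⟨s, hs, rfl⟩ := List.mem_map.1 hs'
  exact iso_lkA hX hX' he (B := {v | v ∈ A ∧ v ∈ U a}) (B' := {v | v ∈ A' ∧ v ∈ U a}) (fun s hs => hA s hs.1)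
    (fun s hs h3 => ⟨hAA s hs h3.1, (he.loc s hs a).1 h3.2⟩) (h2 y hy s hs)

end transport

/-- the Borel sets of a half event -/
def UH (g : GPar) (Z : LZ) (Q Kb Kw : Set ℂ) : Fin 5 ⊕ Fin 3 ⊕ Fin 3 ⊕ Fin 3 → Set ℂ :=
  Sum.elim g.U (Sum.elim (UV g.z0 g.e Z.l0 Z.l1 Z.p0 Z.p1 Z.m)
    (Sum.elim (UV g.z0 g.e Z.l0 Z.l1 Z.q0 Z.q1 Z.m) ![Q, Kb, Kw]))

theorem UH_meas {g : GPar} {Z : LZ} {Q Kb Kw : Set ℂ} (hQ : MeasurableSet Q)
    (hb : MeasurableSet Kb) (hw : MeasurableSet Kw) : ∀ i, MeasurableSet (UH g Z Q Kb Kw i) := by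
  rintro (i | i | i | i)
  · exact UN_meas i
  · exact UV_meas i
  · exact UV_meas i
  · fin_cases i
    · exact hQ
    · exact hb
    · exact hw

/-- **measurability of the half event** -/
theorem HX_fme (g : GPar) (Z : LZ) {Q Kb Kw : Set ℂ} (hQ : MeasurableSet Q)
    (hb : MeasurableSet Kb) (hw : MeasurableSet Kw) (F : Finset ℂ) (r : ℝ) :
    FMe (HX g Z Q Kb Kw F r) := by
  set U := UC (UH g Z Q Kb Kw) with hUdef
  set R : Unit → ℂ × ℂ × ℂ → Prop := fun _ => RG g with hR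
  have hUm : ∀ a, MeasurableSet (U a) := fun a => UC_meas (UH_meas hQ hb hw) a
  have hRm : ∀ a, MeasurableSet {t | R a t} := fun _ => RG_meas g
  have us : ∀ b, U {b} = UH g Z Q Kb Kw b := fun b => UC_single _ b
  have hG : GInv U R (LG g Q) := LG_ginv (UC_cl _)
    (fun i => ⟨{Sum.inl i}, us _⟩)
    ⟨{Sum.inr (Sum.inr (Sum.inr 0))}, us _⟩ ⟨(), rfl⟩
  have h2 : FMe fun X : Set (ℂ × Bool) =>
      Hf (sX X) g.z0 g.e Z.l0 Z.l1 Z.p0 Z.p1 Z.m Kb {y | ∃ p, LG g Q X p ∧ p.1 = y} (bX X) ∧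
      Hf (sX X) g.z0 g.e Z.l0 Z.l1 Z.q0 Z.q1 Z.m Kw {x | ∃ p, LG g Q X p ∧ p.2 = x} (wX X) := by
    refine finMeas_iso hUm hRm (P := fun X : Set (ℂ × Bool) =>
      Hf (sX X) g.z0 g.e Z.l0 Z.l1 Z.p0 Z.p1 Z.m Kb {y | ∃ p, LG g Q X p ∧ p.1 = y} (bX X) ∧
      Hf (sX X) g.z0 g.e Z.l0 Z.l1 Z.q0 Z.q1 Z.m Kw {x | ∃ p, LG g Q X p ∧ p.2 = x} (wX X)) ?_
    rintro X X' hX hX' f he ⟨h3, h4⟩
    constructor
    · refine iso_hf hX hX' he (fun i => ⟨{Sum.inr (Sum.inl i)}, us _⟩)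
        ⟨{Sum.inr (Sum.inr (Sum.inr 1))}, us _⟩
        (fun s hs => ((mem_bX hX).1 hs).1) (fun s hs h5 => (iso_bX hX hX' he hs).1 h5) ?_ h3
      rintro y' ⟨p, hp, rfl⟩
      obtain ⟨m1, m2⟩ := hG.mem X' p hp
      obtain ⟨u, hu, hu'⟩ := he.bij.surjOn m1
      obtain ⟨v, hv, hv'⟩ := he.bij.surjOn m2
      refine ⟨u, ⟨(u, v), (hG.iff hX hX' he (p := (u, v)) hu hv).2 ?_, rfl⟩, hu, hu'⟩
      have e1 : mp f (u, v) = p := Prod.ext hu' hv'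
      rw [e1]
      exact hp
    · refine iso_hf hX hX' he
        (fun i => ⟨{Sum.inr (Sum.inr (Sum.inl i))}, us _⟩)
        ⟨{Sum.inr (Sum.inr (Sum.inr 2))}, us _⟩
        (fun s hs => (mem_sX hX).1 (Finset.mem_sdiff.1 hs).1) (fun s hs h5 => ?_) ?_ h4
      · change s ∈ sX X \ bX X at h5
        show f s ∈ sX X' \ bX X'
        rw [Finset.mem_sdiff] at h5 ⊢
        rw [← iso_sX hX hX' he hs, ← iso_bX hX hX' he hs]
        exact h5
      rintro x' ⟨p, hp, rfl⟩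
      obtain ⟨m1, m2⟩ := hG.mem X' p hp
      obtain ⟨u, hu, hu'⟩ := he.bij.surjOn m1
      obtain ⟨v, hv, hv'⟩ := he.bij.surjOn m2
      refine ⟨v, ⟨(u, v), (hG.iff hX hX' he (p := (u, v)) hu hv).2 ?_, rfl⟩, hv, hv'⟩
      have e1 : mp f (u, v) = p := Prod.ext hu' hv'
      rw [e1]
      exact hp
  intro n
  have h3 : Measurable fun w : Fin n → ℂ × Bool => Dg F r (ps (range w)) := dg_fme F r n
  have h4 := h2 n
  have e : (fun w : Fin n → ℂ × Bool => HX g Z Q Kb Kw F r (range w)) = fun w =>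
      Dg F r (ps (range w)) ∧ (Hf (sX (range w)) g.z0 g.e Z.l0 Z.l1 Z.p0 Z.p1 Z.m Kb
        {y | ∃ p, LG g Q (range w) p ∧ p.1 = y} (bX (range w)) ∧
      Hf (sX (range w)) g.z0 g.e Z.l0 Z.l1 Z.q0 Z.q1 Z.m Kw
        {x | ∃ p, LG g Q (range w) p ∧ p.2 = x} (wX (range w))) := by
    funext w
    unfold HX
    simp only [finite_range, true_and]
  rw [e]
  exact h3.and h4

/-- the half event of the configuration in `D`, as a functional -/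
def hx (g : GPar) (Z : LZ) (Q Kb Kw : Set ℂ) (F : Finset ℂ) (r : ℝ) (D : Set ℂ) (X : Cf) : ℝ≥0∞ :=
  if HX g Z Q Kb Kw F r (X ∩ ovr D) then 1 else 0

theorem hx_le (g : GPar) (Z : LZ) (Q Kb Kw : Set ℂ) (F : Finset ℂ) (r : ℝ) (D : Set ℂ) (X : Cf) :
    hx g Z Q Kb Kw F r D X ≤ 1 := by
  unfold hx
  split_ifs <;> simp

theorem hx_local (g : GPar) (Z : LZ) (Q Kb Kw : Set ℂ) (F : Finset ℂ) (r : ℝ) (D : Set ℂ) :
    LocalOn D (hx g Z Q Kb Kw F r D) := by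
  refine localOn_of fun S T h => ?_
  unfold hx
  rw [h]

theorem hx_fm (g : GPar) (Z : LZ) {Q Kb Kw : Set ℂ} (hQ : MeasurableSet Q)
    (hb : MeasurableSet Kb) (hw : MeasurableSet Kw) (F : Finset ℂ) (r : ℝ) {D : Set ℂ}
    (hD : MeasurableSet D) : FinMeas (hx g Z Q Kb Kw F r D) := by
  have h : FinMeas fun X : Cf => if HX g Z Q Kb Kw F r X then (1 : ℝ≥0∞) else 0 := by
    intro n
    have h1 := HX_fme g Z hQ hb hw F r n
    exact Measurable.ite (measurableSet_setOfPred.2 h1) measurable_const measurable_const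
  exact fm_inter h hD

/-! ## configurations given by sites and black sites -/

theorem ps_clr (V β : Finset ℂ) : ps (clr V β) = V := psn_clr V β

theorem sX_clr (V β : Finset ℂ) : sX (clr V β) = V := by
  rw [← Finset.coe_inj, coe_sX (clr_finite V β), ps_clr]

theorem bX_clr {V β : Finset ℂ} (h : β ⊆ V) : bX (clr V β) = β := by
  ext v
  rw [mem_bX (clr_finite V β), ps_clr, cX]
  constructor
  · rintro ⟨h1, h2⟩
    by_contra h3
    rw [if_neg (fun h4 => h3 (h4.2.1 rfl))] at h2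
    exact absurd h2 (by decide)
  · intro h1
    refine ⟨h h1, if_pos ⟨h h1, by simp [h1]⟩⟩

theorem wX_clr {V β : Finset ℂ} (h : β ⊆ V) : wX (clr V β) = V \ β := by
  rw [wX, sX_clr, bX_clr h]

/-- the gate darts only depend on the configuration in the box -/
theorem LG_clr {g : GPar} {Q : Set ℂ} {G T q τ : Finset ℂ} (_hG : ∀ s ∈ G, s ∈ Q)
    (hT : ∀ s ∈ T, s ∉ Q) (_hq : q ⊆ G) (hτ : τ ⊆ T) (p : ℂ × ℂ) :
    LG g Q (clr (G ∪ T) (q ∪ τ)) p ↔ LG g Q (clr G q) p := by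
  have e : clr (G ∪ T) (q ∪ τ) ∩ ovr Q = clr G q ∩ ovr Q := by
    ext ⟨v, c⟩
    constructor
    · rintro ⟨⟨h1, h2⟩, h3⟩
      have hv : v ∈ G := by
        rcases Finset.mem_union.1 h1 with h4 | h4
        · exact h4
        · exact absurd h3 (hT v h4)
      refine ⟨⟨hv, h2.trans ?_⟩, h3⟩
      rw [Finset.mem_union]
      exact ⟨fun h => h.resolve_right fun h5 => hT v (hτ h5) h3, Or.inl⟩
    · rintro ⟨⟨h1, h2⟩, h3⟩
      refine ⟨⟨Finset.mem_union_left _ h1, h2.trans ?_⟩, h3⟩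
      rw [Finset.mem_union]
      exact ⟨Or.inl, fun h => h.resolve_right fun h5 => hT v (hτ h5) h3⟩
  unfold LG
  rw [e]

/-- black gate sites -/
def Pb (g : GPar) (Q : Set ℂ) (X : Cf) : Set ℂ := {y | ∃ p, LG g Q X p ∧ p.1 = y}

/-- white gate sites -/
def Pw (g : GPar) (Q : Set ℂ) (X : Cf) : Set ℂ := {x | ∃ p, LG g Q X p ∧ p.2 = x}

theorem HX_clr {g : GPar} {Z : LZ} {Q Kb Kw : Set ℂ} {F : Finset ℂ} {r : ℝ} {G T q τ : Finset ℂ}
    (hG : ∀ s ∈ G, s ∈ Q) (hT : ∀ s ∈ T, s ∉ Q) (hq : q ⊆ G) (hτ : τ ⊆ T) :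
    HX g Z Q Kb Kw F r (clr (G ∪ T) (q ∪ τ)) ↔ Dg F r (G ∪ T : Finset ℂ) ∧
      Hf (G ∪ T) g.z0 g.e Z.l0 Z.l1 Z.p0 Z.p1 Z.m Kb (Pb g Q (clr G q)) (q ∪ τ) ∧
      Hf (G ∪ T) g.z0 g.e Z.l0 Z.l1 Z.q0 Z.q1 Z.m Kw (Pw g Q (clr G q)) ((G ∪ T) \ (q ∪ τ)) := by
  unfold HX Pb Pw
  rw [ps_clr, sX_clr, bX_clr (Finset.union_subset_union hq hτ),
    wX_clr (Finset.union_subset_union hq hτ)]
  simp only [LG_clr hG hT hq hτ, clr_finite, true_and]

/-- **from the cut configuration to a larger one** -/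
theorem Hf.up {V M A' : Finset ℂ} {d : ℝ} (hd : 0 < d) (hH : Hol (V : Set ℂ) K d)
    (hA : Agr (V : Set ℂ) (M : Set ℂ) K (2 * d)) (hAA : A ⊆ A')
    (hZ : ∀ s ∈ A, l0 < X z0 e s → X z0 e s < l1 → p0 - m ≤ Y z0 e s → Y z0 e s ≤ p1 + m → s ∈ K)
    (hf : Hf V z0 e l0 l1 p0 p1 m K P A) : Hf M z0 e l0 l1 p0 p1 m K P A' :=
  Hf.mo _ _ hAA (Hf.tr (fun _ _ _ _ hu _ h => (de_loc hd hH hA hu).1 h) hZ hf)

/-- the landing zone (black) -/
def Zn (z0 e : ℂ) (l0 l1 p0 p1 m : ℝ) : Set ℂ :=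
  {s | (l0 < X z0 e s ∧ X z0 e s < l1) ∧ p0 - m ≤ Y z0 e s ∧ Y z0 e s ≤ p1 + m}

open Crest.Agent.R143.Thetax73 (Gd)

/-- **the quenched half event gives `Gd` of `Theta_73`**: `G`, `q` = sites and black sites of the gate
box, `T` = sites of the tube, `T1 ⊆ T` those of the landing box, `M` = all sites -/
theorem gd_of_hx {g : GPar} {Z : LZ} {Q Kb Kw : Set ℂ} {F : Finset ℂ} {r a d : ℝ}
    {G T T1 q M : Finset ℂ} (hG : ∀ s ∈ G, s ∈ Q) (hT : ∀ s ∈ T, s ∉ Q) (hq : q ⊆ G)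
    (hT1 : T1 ⊆ T) (hd : 0 < d)
    (hF : ∀ w ∈ Kb ∪ Kw, ∀ z, ‖z - w‖ ≤ d → ∃ f ∈ F, ‖f - z‖ ≤ d - r)
    (hM : Agr ((G ∪ T1 : Finset ℂ) : Set ℂ) (M : Set ℂ) (Kb ∪ Kw) (2 * d))
    (zb : Zn g.z0 g.e Z.l0 Z.l1 Z.p0 Z.p1 Z.m ⊆ Kb) (zw : Zn g.z0 g.e Z.l0 Z.l1 Z.q0 Z.q1 Z.m ⊆ Kw)
    (h : a ≤ pr T fun τ => HX g Z Q Kb Kw F r (clr (G ∪ T1) (q ∪ (τ ∩ T1)))) :
    Gd G T (Hf M g.z0 g.e Z.l0 Z.l1 Z.q0 Z.q1 Z.m Kw (Pw g Q (clr G q)))
      (Hf M g.z0 g.e Z.l0 Z.l1 Z.p0 Z.p1 Z.m Kb (Pb g Q (clr G q))) a q := by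
  have hGT : ∀ s ∈ G, s ∉ T := fun s hs h1 => hT s h1 (hG s hs)
  refine h.trans (pr_mono fun τ hτ h1 => ?_)
  rw [HX_clr hG (fun s hs => hT s (hT1 hs)) hq Finset.inter_subset_right] at h1
  obtain ⟨h1, h2, h3⟩ := h1
  have hH : Hol ((G ∪ T1 : Finset ℂ) : Set ℂ) (Kb ∪ Kw) d := Dg.hol h1 hF
  refine ⟨Hf.up hd (hH.mono subset_union_right) (fun w hw => hM w (Or.inr hw)) ?_
    (fun s _ a1 a2 a3 a4 => zw ⟨⟨a1, a2⟩, a3, a4⟩) h3,
    Hf.up hd (hH.mono subset_union_left) (fun w hw => hM w (Or.inl hw)) ?_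
    (fun s _ a1 a2 a3 a4 => zb ⟨⟨a1, a2⟩, a3, a4⟩) h2⟩
  · intro s hs
    simp only [Finset.mem_sdiff, Finset.mem_union, Finset.mem_inter, not_or, not_and] at hs ⊢
    obtain ⟨h4, h5, h6⟩ := hs
    refine ⟨h4.imp id fun h7 => hT1 h7, fun h7 => ?_, h5⟩
    rcases h4 with h8 | h8
    · exact hGT s h8 (hτ h7)
    · exact h6 h7 h8
  · intro s hs
    rw [Finset.mem_union] at hs ⊢
    rcases hs with h4 | h4
    · exact Or.inr h4
    · exact Or.inl (Finset.mem_inter.1 h4).1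

/-- **quenched mean of the half event**: `S ∩ ovr Q = clr G q`, positions `P` of the tube `C`,
`D = Q ∪ C1` -/
theorem qn_hx {g : GPar} {Z : LZ} {Q Kb Kw C C1 : Set ℂ} {F : Finset ℂ} {r : ℝ} {S : Cf}
    {G q : Finset ℂ} (hS : S ∩ ovr Q = clr G q) (hq : q ⊆ G) (hQ : Disjoint Q C) (h1 : C1 ⊆ C)
    {P : Set ℂ} (hP : P ⊆ C) (hf : P.Finite) :
    qn C (hx g Z Q Kb Kw F r (Q ∪ C1)) S P = ENNReal.ofReal (pr (fs P) fun τ =>
      HX g Z Q Kb Kw F r (clr (G ∪ (fs P).filter (· ∈ C1)) (q ∪ (τ ∩ (fs P).filter (· ∈ C1))))) := by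
  have e0 : hx g Z Q Kb Kw F r (Q ∪ C1) =
      fun X : Cf => if HX g Z Q Kb Kw F r (X ∩ ovr (Q ∪ C1)) then 1 else 0 := rfl
  rw [e0, qn_pr (E := fun X : Cf => HX g Z Q Kb Kw F r (X ∩ ovr (Q ∪ C1)))]
  congr 1
  refine Harx315.pr_congr fun τ hτ => ?_
  have hd : ∀ s ∈ G, s ∉ C := fun s hs hs' => by
    have h2 : (s, decide (s ∈ q)) ∈ S ∩ ovr Q := by rw [hS, mem_clr]; exact ⟨hs, by simp⟩
    exact Set.disjoint_left.1 hQ h2.2 hs'
  have e : ((S ∩ ovr Cᶜ) ∪ clr (fs P) τ) ∩ ovr (Q ∪ C1) =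
      clr (G ∪ (fs P).filter (· ∈ C1)) (q ∪ (τ ∩ (fs P).filter (· ∈ C1))) := by
    ext ⟨v, c⟩
    have hv := Set.ext_iff.1 hS (v, c)
    rw [mem_clr] at hv ⊢
    simp only [ovr, mem_inter_iff, mem_union, mem_ofPred_eq, mem_compl_iff, Finset.mem_union,
      Finset.mem_filter, Finset.mem_inter, mem_clr, mem_fs hf] at hv ⊢
    have a1 : v ∈ Q → v ∉ C := fun h h' => Set.disjoint_left.1 hQ h h'
    have a2 : v ∈ C1 → v ∈ C := fun h => h1 h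
    have a3 : v ∈ P → v ∈ C := fun h => hP h
    have a4 : v ∈ G → v ∉ C := hd v
    have a5 : v ∈ q → v ∈ G := fun h => hq h
    have a6 : v ∈ τ → v ∈ P := fun h => (mem_fs hf).1 (hτ h)
    have a7 : v ∈ G → v ∈ Q := fun h => by
      have h2 : (v, decide (v ∈ q)) ∈ S ∩ ovr Q := by rw [hS, mem_clr]; exact ⟨h, by simp⟩
      exact h2.2
    constructor
    · rintro ⟨h2 | h2, h3⟩
      · rcases h3 with h3 | h3
        · obtain ⟨b1, b2⟩ := hv.1 ⟨h2.1, h3⟩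
          refine ⟨Or.inl b1, b2.trans ⟨Or.inl, ?_⟩⟩
          rintro (h | h)
          · exact h
          · exact absurd (a3 (a6 h.1)) (a4 b1)
        · exact absurd (a2 h3) h2.2
      · rcases h3 with h3 | h3
        · exact absurd (a3 h2.1) (a1 h3)
        · refine ⟨Or.inr ⟨h2.1, h3⟩, h2.2.trans ⟨fun h => Or.inr ⟨h, h2.1, h3⟩, ?_⟩⟩
          rintro (h | h)
          · exact absurd (a3 h2.1) (a4 (a5 h))
          · exact h.1
    · rintro ⟨h2 | h2, h3⟩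
      · have h5 := hv.2 ⟨h2, h3.trans ⟨?_, Or.inl⟩⟩
        · exact ⟨Or.inl ⟨h5.1, a4 h2⟩, Or.inl h5.2⟩
        · rintro (h | h)
          · exact h
          · exact absurd (a3 (a6 h.1)) (a4 h2)
      · refine ⟨Or.inr ⟨h2.1, h3.trans ⟨?_, fun h => Or.inr ⟨h, h2⟩⟩⟩, Or.inr h2.2⟩
        rintro (h | h)
        · exact absurd (a3 h2.1) (a4 (a5 h))
        · exact h.1
  rw [e]

end Crest.Agent.R143.RHx73
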