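import Crest.Agent.R143.FarI_355
import Crest.Agent.R143.GiantE_197

/-!
# Row 143 (S0194), block H (helper355): the structure `RW` for 197's giant

`rw_of` : ring loop `RL`, black left cells, giant `Eg M h0 K`, `K` = left cells of the ring loop,
389's window data ==> `RW`.
-/

set_option autoImplicit false

noncomputable section

open scoped Classical

namespace Crest.Agent.R143.RWix355

open Crest.Agent.R143.Frame1x395 Crest.Agent.R143.Frame2x395 Crest.Agent.R143.Frame3x395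
  Crest.Agent.R143.Frame8x395 Crest.Agent.R143.Frame9x395 Crest.Agent.R143.Frame11x395
  Crest.Agent.R143.NonXx592 Crest.Agent.R143.Coarsex166 Crest.Agent.R143.Budx432
  Crest.Agent.R143.RevCx389 Crest.Agent.R143.RevAx389 Crest.Agent.R143.HInst1x432
  Crest.Agent.R143.GiantEx197
  Crest.Agent.R143.Chordx355 Crest.Agent.R143.ChordCx357 Crest.Agent.R143.Chord2x355
  Crest.Agent.R143.H2x355 Crest.Agent.R143.Ox355 Crest.Agent.R143.Winx355
  Crest.Agent.R143.Win2x355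

open Crest.Agent.R143.Exitx707 (Nb nb_symm)

variable {D C : Type} {M : CMap D C} {ψ : C → ZMod 2} {P₀ : D} {N n : ℕ} {T : ℕ → ℕ}
  {Reg : ℕ → Set C} {h0 : C}

/-- the left cells of the ring loop -/
theorem lc_lf {x : D → ZMod 2} (L : Lp M x P₀ N) (u : ℕ) : lc M x P₀ u ∈ Lf M x P₀ N := by
  refine ⟨u % N, (Nat.mod_lt _ L.pos).le, ?_⟩
  rw [← L.mod u]
  rfl

/-- the explored outside is joined to the hull off `K` -/
theorem xs_ek {G : Rg D C} (hG : G.h0 = h0) {K : Set C} (hF : ∀ c ∈ K, c ∉ G.Far)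
    (hA : ∀ c ∈ K, c ∉ G.Ann) : Xs M G ψ ⊆ Ek M h0 K := by
  intro c hc
  refine xs_ind (Q := fun c => c ∈ Ek M h0 K) (hG ▸ h0_ek) (fun a c _ ih h1 h2 => ?_) c hc
  refine ek_step ih h1 fun hK => ?_
  rcases h2 with h2 | h2
  · exact hF c hK h2
  · exact hA c hK h2.1

/-- the white cluster is joined to the hull off `K` -/
theorem cw_ek {G : Rg D C} (hG : G.h0 = h0) {K : Set C} (hF : ∀ c ∈ K, c ∉ G.Far)
    (hA : ∀ c ∈ K, c ∉ G.Ann) (hb : ∀ c ∈ K, ψ c = 1) : Cw M G ψ ⊆ Ek M h0 K := by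
  have h1 : Fs M G ψ ⊆ Ek M h0 K := by
    rintro c ⟨-, h3, a, h4, h5⟩
    refine ek_step (xs_ek hG hF hA h4) h5 fun hK => ?_
    rw [hb c hK] at h3
    exact absurd h3 (by decide)
  rintro c ⟨z, hz, h⟩
  exact clus_mem (χ := ψ) hb h1 ⟨z, hz, Relation.ReflTransGen.mono (fun _ _ h => ⟨h.1, h.2.2⟩) _ _ h⟩

/-- **`RW` for the giant `Eg`** -/
theorem rw_of [Fintype D] (R : RL M (cfg M ψ) P₀ N n T Reg) (hb : ψ (M.cell P₀) = 1)
    (gen : ∀ c, c ∉ Eg M h0 (Lf M (cfg M ψ) P₀ N) → Gen M c) {h l m₀ : ℕ} {G : ℕ → Rg D C}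
    {tp tq : ℕ → ℕ} (hG : ∀ i, i < m₀ → (G i).h0 = h0)
    (hF : ∀ i, i < m₀ → ∀ k, ∀ c ∈ Reg k, c ∉ (G i).Far)
    (hA : ∀ i, i < m₀ → ∀ k, ∀ c ∈ Reg k, c ∉ (G i).Ann)
    (hh : 5 ≤ h) (hn : n = h * m₀) (hm : 2 ≤ m₀) (hl : l ≤ h)
    (p0 : ∀ i, i < m₀ → RevCx389.p0 M (G i) ψ = P M (cfg M ψ) P₀ (T (h * i + l) + tp i))
    (ln : ∀ i, i < m₀ → RevCx389.ln M (G i) ψ = tq i - tp i + 1)
    (htp : ∀ i, i < m₀ → T (h * i + l) + tp i ≤ T (h * i + l + 3))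
    (htq1 : ∀ i, i < m₀ → T (h * i + n - 3) ≤ T (h * i + l) + tq i)
    (htq2 : ∀ i, i < m₀ → T (h * i + l) + tq i ≤ T (h * i + n)) :
    RW M ψ (pe (Eg M h0 (Lf M (cfg M ψ) P₀ N))) none P₀ N n T Reg h l m₀ G tp tq := by
  have hKR : ∀ c ∈ Lf M (cfg M ψ) P₀ N, ∃ k, c ∈ Reg k := by
    rintro c ⟨j, -, rfl⟩
    obtain ⟨k, h1, h2⟩ := R.tile j
    exact ⟨k, R.reg k j h1 h2⟩
  have hsame : ∀ d, cfg M ψ d = 0 → ψ (M.cell d) = ψ (M.cell (M.rho d)) := by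
    intro d hd
    have : ψ (M.cell d) + ψ (M.cell (M.rho d)) = 0 := hd
    revert this
    generalize ψ (M.cell d) = a
    generalize ψ (M.cell (M.rho d)) = b
    revert a b; decide
  have hKb : ∀ c ∈ Lf M (cfg M ψ) P₀ N, ψ c = 1 := by
    rintro c ⟨j, -, rfl⟩
    exact (it_col (cfg_isC ψ) R.L.occ hsame j).trans hb
  refine ⟨gt_pe gen, rim_walk R.L.occ hb N, R, fun u => pe_none.2 (Or.inr (lc_lf R.L u)),
    fun d h1 h2 => ?_, hh, hn, hm, hl, p0, ln, htp, htq1, htq2, fun i hi c hc => ?_⟩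
  · have h3 : M.cell (M.rho d) ∉ Eg M h0 (Lf M (cfg M ψ) P₀ N) := fun h => h2 (pe_none.2 h)
    obtain ⟨j, -, h4⟩ := kin h3 (nb_symm ⟨d, rfl, rfl⟩) (pe_none.1 h1)
    exact ⟨j, h4⟩
  · refine pe_none.2 (Or.inl (cw_ek (hG i hi) ?_ ?_ hKb hc))
    · intro c hc
      obtain ⟨k, hk⟩ := hKR c hc
      exact hF i hi k c hk
    · intro c hc
      obtain ⟨k, hk⟩ := hKR c hc
      exact hA i hi k c hk

end Crest.Agent.R143.RWix355
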