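import Crest.Agent.R143.PlP_88
import Crest.Agent.R143.QAF_136
import Crest.Agent.R143.RDatF_197
import Crest.Agent.R143.Core_389

/-!
# Row 143 (S0194), block H: the clause `RY` of 263's `rfark_of` for the square family (helper88)

Any levels `A1`, `A2 ≤ 1/2 + 17 h`, `D1 ≥ 1/2 + h - t0` (`h = hh n`); windows = 503's `rgi` with any
radial chains `La Lb`; full exploration = 432's `Gf`; cores = 389's `Zl`.
* `Gwi`, `Zc`; `gwi_le`; `regh` : 136's `RegH`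
* **`ry_fam`** : from `Num` and `Rd` where the weight is not zero
-/

set_option autoImplicit false

noncomputable section

open scoped Classical

namespace Crest.Agent.R143.RYFx88

open MeasureTheory Filter Topology
open Crest.ProbabilityR.Voronoi
open Crest.Agent.R143.PP0x831 Crest.Agent.R143.B0x346 Crest.Agent.R143.DelGx806
  Crest.Agent.R143.DelRx806 Crest.Agent.R143.SmallAx304 Crest.Agent.R143.Dbl2x609
  Crest.Agent.R143.Asm4x414 Crest.Agent.R143.Frame10x395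
open Crest.Agent.R143.FinCx811 (Cs rc0)
open Crest.Agent.R143.RevCx389 (Rg)
open Crest.Agent.R143.RevEx389 (Le)
open Crest.Agent.R143.SumAx389 (Rd)
open Crest.Agent.R143.Meetx707 (sr)
open Crest.Agent.R143.Stripx707 (Par)
open Crest.Agent.R143.CircPx838 (sup)
open Crest.Agent.R143.EnvRx795 (EnvS)
open Crest.Agent.R143.RegGx707 (zq dir_du du)
open Crest.Agent.R143.GeoIx136 (RegH)
open Crest.Agent.R143.GeoRx136 (regH_rg)
open Crest.Agent.R143.EFamx432 (hv)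
open Crest.Agent.R143.RingUx197 Crest.Agent.R143.RDatFx197
open Crest.Agent.R143.WinRx503 (hb wp cw0 cw0_le rgi)
open Crest.Agent.R143.FarGx263 (RgW yf yf_eq)
open Crest.Agent.R143.Corex389 (Zl zl_sup)
open Crest.Agent.R143.PlSx88 Crest.Agent.R143.PlPx88
open scoped ENNReal

/-- radial chains, for every set of sites -/
abbrev Ch := ∀ (A : Finset ℂ), GP (A : Set ℂ) → 3 ≤ A.card → ℕ → ℕ → D0 A

/-- **the windows** -/
def Gwi (n j : ℕ) (A1 A2 D1 t0 l : ℝ) (La Lb : Ch) : RgW := fun A hS h3 i =>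
  rgi A (sr hS h3) (sr hS h3 (hv hS h3)) (hh n) (n + 2) 1 A1 A2 D1 t0 l j i (La A hS h3)
    (Lb A hS h3)

/-- the centres of the cores -/
def Zc (n : ℕ) (d0 r1 : ℝ) : Finset ℂ := Zl zB r1 (1 / 2 + hh n - d0 / 2)

theorem hk_eq {n : ℕ} (hn : 0 < n) : hh n * ((n + 2 : ℕ) : ℝ) / 2 = 1 / 2 + hh n := by
  have h := hh_mul hn
  push_cast
  linear_combination h / 2

/-- the windows are parts of the full exploration -/
theorem gwi_le {n j : ℕ} (hn : 0 < n) {A1 A2 D1 t0 l : ℝ} (La Lb : Ch) (A : Finset ℂ)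
    (hS : GP (A : Set ℂ)) (h3 : 3 ≤ A.card) (i : ℕ) :
    Le (Gwi n j A1 A2 D1 t0 l La Lb A hS h3 i) (Gq A1 A2 D1 A hS h3) := by
  unfold Gwi rgi Gq
  rw [zq_eq hn]
  exact EFamx432.gf_le hS h3 rfl

/-- **136's `RegH`** -/
theorem regh {n j m1 : ℕ} (hn : 0 < n) (hm : n + 2 = hb j * m1) (m1p : 1 ≤ m1)
    {A1 A2 D1 t0 l : ℝ} (hA2 : A2 ≤ 1 / 2 + 17 * hh n) (hD : 1 / 2 + hh n - t0 ≤ D1)
    (hl : l ≤ hh n * j) (La Lb : Ch) (A : Finset ℂ) (hS : GP (A : Set ℂ)) (h3 : 3 ≤ A.card) :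
    RegH zB (1 / 2 + hh n) l t0 (16 * hh n) (4 * m1) (fun i => du (wp (n + 2) j i))
      (fun i => cw0 (hh n) (n + 2) 1 j i) hS h3 (Gwi n j A1 A2 D1 t0 l La Lb A hS h3)
      (Gq A1 A2 D1 A hS h3) := by
  have hp := hh_pos hn
  have e : Gwi n j A1 A2 D1 t0 l La Lb A hS h3 = fun i =>
      RegGx707.rg A (sr hS h3) (sr hS h3 (hv hS h3)) zB A1 A2 D1
      (Stripx707.Sec (du (wp (n + 2) j i)) zB (1 / 2 + hh n) t0 (cw0 (hh n) (n + 2) 1 j i) l)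
      (La A hS h3 i) (Lb A hS h3 i) := by
    funext i
    unfold Gwi rgi
    rw [zq_eq hn, hk_eq hn]
  have key := regH_rg (zB := zB) (hB := 1 / 2 + hh n) (l := l) (t0 := t0) (a2 := 16 * hh n)
    (A1 := A1) (A2 := A2) (D1 := D1) (m₀ := 4 * m1)
    (u := fun i => du (wp (n + 2) j i)) (c0 := fun i => cw0 (hh n) (n + 2) 1 j i)
    (h0 := sr hS h3 (hv hS h3)) (La := La A hS h3) (Lb := Lb A hS h3)
    (Gf := Gq A1 A2 D1 A hS h3)
    (fun s hs => EFamx432.sr_hull hS h3 hs) (fun i _ => dir_du _)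
    (fun i hi => by
      have h1 := cw0_le (j0 := 1) (h := hh n) hp hm m1p hi
      rw [hk_eq hn] at h1
      have hj : (0 : ℝ) ≤ j := Nat.cast_nonneg _
      nlinarith)
    (by linarith) hD
    (fun i hi => by
      have h1 := gwi_le (j := j) (A1 := A1) (A2 := A2) (D1 := D1) (t0 := t0) (l := l) hn La Lb A
        hS h3 i
      rw [e] at h1
      exact h1)
  rw [e]
  exact key

/-- **the clause `RY`** -/
theorem ry_fam {d0 R : ℝ} {m1 : ℕ} {l t0 r1 τ E : ℝ} {j : ℕ} (N : Num d0 R m1 l t0 r1 τ E j) :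
    ∃ Rr0 ρ00 : ℝ, 0 < ρ00 ∧ ∀ Rr : ℝ, Rr0 ≤ Rr → ∀ ρ0 : ℝ, ρ0 ≤ ρ00 → ∀ δ : ℝ, 0 < δ →
      ∀ᶠ ε : ℝ in 𝓝[>] 0, ∀ (B : Set ℂ), Bornology.IsBounded B → Metric.closedBall 0 Rr ⊆ B →
      ∀ (g : Set (ℂ × Bool) → ℝ≥0∞), (∀ X, g X ≤ 1) → ∀ (A1 A2 D1 : ℝ) (La Lb : Ch),
      A2 ≤ 1 / 2 + 17 * hh (nj m1 j) → 1 / 2 + hh (nj m1 j) - t0 ≤ D1 →
      (∀ᵐ ω ∂sampleLaw, ∀ β ∈ (Ap ε B ω).powerset, g (paint (Ap ε B ω) β) ≠ 0 →
        EnvS (Ap ε B ω) Rr √ε ρ0 ∧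
        ∃ (hS : GP ((Ap ε B ω : Finset ℂ) : Set ℂ)) (h3 : 3 ≤ (Ap ε B ω).card),
          ∃ r, Rd (rc0 hS) (Gq A1 A2 D1 _ hS h3) (Gwi (nj m1 j) j A1 A2 D1 t0 l La Lb _ hS h3)
            (4 * m1) (chiS hS h3 β) r) →
      ∃ RY : Sample → ℝ≥0∞, MajQ ε B g (yf (4 * m1) (Gwi (nj m1 j) j A1 A2 D1 t0 l La Lb)
          (Gq A1 A2 D1) (Zc (nj m1 j) d0 r1) id fun _ => r1) RY ∧
        ∫⁻ ω, RY ω ∂sampleLaw ≤ ENNReal.ofReal δ := by
  have n0 : 0 < nj m1 j := by have := N.n24; omega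
  obtain ⟨p, c1, c2, K, hp, hc1, hc2, hc2', hK, H⟩ := QAFx136.qa_of N.par
  have hr := N.par.pr
  refine ⟨‖zB‖ + 2 * (1 / 2 + hh (nj m1 j)) + 2 * l + 2 * (16 * hh (nj m1 j)) + K * r1 + r1 + 3,
    min (1 / 2) (c2 * r1), by positivity, fun Rr hRr ρ0 hρ δ hδ => ?_⟩
  have hk : 0 < r1 / 2 := by positivity
  have hs : ∀ᶠ ε : ℝ in 𝓝[>] 0, √ε ≤ min (1 / 2) (c1 * r1) := by
    have h1 : Tendsto (fun ε : ℝ => √ε) (𝓝[>] 0) (𝓝 0) := by
      have h2 := (Real.continuous_sqrt.tendsto 0).mono_left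
        (nhdsWithin_le_nhds (s := Set.Ioi (0 : ℝ)))
      rwa [Real.sqrt_zero] at h2
    exact h1.eventually (ge_mem_nhds (by positivity))
  filter_upwards [MajAx136.majA_lim hk (Metric.isBounded_closedBall (x := (0 : ℂ)) (r := Rr)) ℂ
    (kp := 8) (by norm_num) hp (4 * m1) (Zc (nj m1 j) d0 r1).card hδ, hs,
    eventually_mem_nhdsWithin] with ε h1 h2 hε B hB hUB g hg A1 A2 D1 La Lb hA2 hD hQ
  have hε : 0 < ε := hε
  refine h1 B hB hUB g hg _ ?_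
  refine H Rr √ε ρ0 zB (h2.trans (min_le_right _ _)) (h2.trans (min_le_left _ _))
    (hρ.trans (min_le_left _ _)) (hρ.trans (min_le_right _ _)) (by linarith) (4 * m1)
    (fun i => du (wp (nj m1 j + 2) j i)) (fun i => cw0 (hh (nj m1 j)) (nj m1 j + 2) 1 j i)
    (Gq A1 A2 D1) (Gwi (nj m1 j) j A1 A2 D1 t0 l La Lb) (Zc (nj m1 j) d0 r1)
    (fun z hz => zl_sup hz) ε hε B hB hUB g _ (fun A β hS h3 => (yf_eq hS h3).le) ?_
  filter_upwards [hQ] with ω hq β hβ h0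
  obtain ⟨e1, hS, h3, r, hr⟩ := hq β hβ h0
  exact ⟨e1, hS, h3, regh n0 N.hn N.m1p hA2 hD N.lj La Lb _ hS h3, r, hr⟩

end Crest.Agent.R143.RYFx88
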