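import Crest.Agent.R143.AnnC_707
import Crest.Agent.R143.SqP_503

/-!
# Row 143 (S0194), block H: radial chains of darts beside a window (helper707)

* `rect_all` : a crossing by all sites exists (probability `> 0`)
* `rad_of` : `RingWx389.Rad` from the crossing of a radial rectangle
* `radq` : the radial rectangle of the side `u` at the tangential coordinate `ca`; `radq_fit`,
  `radq_ex` (existence), `rad_side` : `Rad` for it
-/

set_option autoImplicit false

noncomputable section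

open scoped Classical

namespace Crest.Agent.R143.RadGx707

open Crest.Agent.R143.B0x346 Crest.Agent.R143.DelGx806 Crest.Agent.R143.DelRx806
open Crest.Agent.R143.ToolWx838 Crest.Agent.R143.Blkx838 Crest.Agent.R143.ToolW2x838
open Crest.Agent.R143.ToolW3x838 Crest.Agent.R143.Circ4x838 Crest.Agent.R143.Harx315
open Crest.Agent.R143.RB0x838 Crest.Agent.R143.CircPx838 Crest.Agent.R143.Gatex838
open Crest.Agent.R143.CBx838 Crest.Agent.R143.Multix838 Crest.Agent.R143.RBmx838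
open Crest.Agent.R143.JColx54
open Crest.Agent.R143.Frame1x395 Crest.Agent.R143.Frame10x395
open Crest.Agent.R143.Frame5x395 (sd mem_sd th th_spec)
open Crest.Agent.R143.Tubex707 Crest.Agent.R143.Exitx707 Crest.Agent.R143.TubeWx707
open Crest.Agent.R143.RevCx389 Crest.Agent.R143.Meetx707 Crest.Agent.R143.Stripx707
open Crest.Agent.R143.AnnCx707
open Crest.Agent.R143.RingWx389 (Rad)

variable {S V : Finset ℂ}

/-! ### crossings by all sites -/

/-- an event of positive probability occurs -/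
theorem ex_of_pr {p : ℝ} (hp : 0 < p) {A : Finset ℂ → Prop} (h : p ≤ pr V A) :
    ∃ β, β ⊆ V ∧ A β := by
  by_contra hcon
  push Not at hcon
  have h1 : pr V A = pr V (fun _ => False) := by
    apply pr_congr
    intro β hβ
    exact ⟨fun h => hcon β hβ h, False.elim⟩
  have h2 : pr V (fun _ => False) ≤ 0 := by
    unfold pr nb fl
    simp
  linarith

/-- **a crossing by all sites exists** -/
theorem rect_all (hRB : RBm) : ∀ k : ℝ, 1 ≤ k → ∀ C4 : ℝ, 0 ≤ C4 →
    ∃ c1 c2 K : ℝ, 0 < c1 ∧ 0 < c2 ∧ c2 ≤ 1 ∧ 0 < K ∧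
    ∀ (S : Finset ℂ) (z0 : ℂ) (R ρ d : ℝ), 0 < ρ → NvA S z0 R c2 ρ d C4 → d ≤ c1 * ρ →
    ∀ q : Rect, ‖q.z - z0‖ + K * ρ ≤ R → q.Fit k ρ → q.Ev S S := by
  intro k hk C4 hC4
  obtain ⟨p, c1, c2, K, hp, hc1, hc2, hc2', hK, H⟩ := multim hRB k hk C4 hC4
  refine ⟨c1, c2, K, hc1, hc2, hc2', hK, ?_⟩
  intro S z0 R ρ d hρ hN hd q hR hF
  have h5 := H S z0 R ρ d hρ hN hd S ∅ subset_rfl (Finset.empty_subset _)
    (Finset.disjoint_empty_right _) [] ρ [q] (by nlinarith) le_rfl (by simp)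
    (by simpa using hR) (by simpa using hF) (by simp) (fun _ _ s hs _ => Finset.mem_union_left _ hs)
  obtain ⟨β, hβ, h6⟩ := ex_of_pr (by positivity) h5
  have h7 := h6.2 q (List.mem_singleton.2 rfl)
  rw [Finset.union_empty] at h7
  exact q.inc S β S hβ h7

/-! ### chains of darts -/

variable {C : Type} {M : CMap (D0 S) C} {σ : ℂ → C} {hS : GP (S : Set ℂ)} {G : Rg (D0 S) C}
  {zB : ℂ} {A1 A2 : ℝ}

theorem de_mem {a b : ℂ} (h : DE S a b) : a ∈ S ∧ b ∈ S := by
  rcases h with ⟨c, hc⟩ | ⟨c, hc⟩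
  · exact ⟨(mem_delT.1 hc).1, (mem_delT.1 hc).2.1⟩
  · exact ⟨(mem_delT.1 hc).2.1, (mem_delT.1 hc).1⟩

/-- an edge at an inner site is a dart -/
theorem dart_inner (hS : GP (S : Set ℂ)) {a b : ℂ} (h : DE S a b) (ha : ¬ OnHull S a) :
    (a, b) ∈ sd S := by
  rcases h with h | ⟨c, hc⟩
  · exact mem_sd.2 h
  · by_contra hcon
    apply ha
    refine ⟨b, ⟨c, hc⟩, fun c' hc' => hcon (mem_sd.2 ⟨c', hc'⟩)⟩

/-- **radial chain of darts from the crossing of a rectangle** -/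
theorem rad_of (H : Pl hS M σ) (h3 : 3 ≤ S.card) (L : Lev S σ G zB A1 A2) {q : Rect}
    (hq : q.Ev S S) (hfar : ∀ s ∈ S, q.Reg s → Rect.Out q s → A2 ≤ sup (s - zB))
    (hdp : ∀ s ∈ S, q.Reg s → Rect.Inn q s → σ s ∈ G.Dp)
    (hdw : ∀ s ∈ S, ¬ OnHull S s → q.Reg s → sup (s - zB) < A2 → σ s ∈ G.Dw)
    {B : ℕ → Set C} {n : ℕ} {ok : ℕ → Prop}
    (hB : ∀ s ∈ S, q.Reg s → ∀ k, k < n → σ s ∈ B k → ok k) :
    ∃ Lc : ℕ → D0 S, Rad M G B n ok Lc := by
  obtain ⟨l, hn, hl, hm, he⟩ := rect_chain hq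
  have e0 : Rect.Out q (l.head hn) ∧ Rect.Inn q (l.getLast hn) := by
    unfold Rect.Out Rect.Inn
    split_ifs at he ⊢ with hh
    · exact he
    · exact he
  have hc : Rc S (fun s => s ∈ S ∧ q.Reg s) (l.getLast hn) (l.head hn) :=
    rc_list hl (fun s hs => hm s hs) (List.getLast_mem hn) (List.head_mem hn)
  obtain ⟨w, m, w0, wm, hw⟩ := fun_of_rtg hc
  have hreg : ∀ i, i ≤ m → w i ∈ S ∧ q.Reg (w i) := by
    intro i hi
    rcases Nat.eq_zero_or_pos i with h | h
    · rw [h, w0]; exact hm _ (List.getLast_mem hn)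
    · have := (hw (i - 1) (by omega)).2
      rwa [Nat.sub_add_cancel h] at this
  -- first far site
  have hex : ∃ i, i ≤ m ∧ A2 ≤ sup (w i - zB) := by
    refine ⟨m, le_rfl, ?_⟩
    rw [wm]
    exact hfar _ (hm _ (List.head_mem hn)).1 (hm _ (List.head_mem hn)).2 e0.1
  set e := Nat.find hex with hedef
  obtain ⟨hem, hef⟩ := Nat.find_spec hex
  have hmin : ∀ j, j < e → sup (w j - zB) < A2 := by
    intro j hj
    by_contra hc
    push Not at hc
    exact Nat.find_min hex hj ⟨by omega, hc⟩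
  have hinn : ∀ j, j < e → ¬ OnHull S (w j) := fun j hj h =>
    absurd (L.hl _ (hreg j (by omega)).1 h) (not_le.2 (hmin j hj))
  -- a dart at the last site
  obtain ⟨b, hb⟩ := exists_tri_at hS h3 (hreg e hem).1
  obtain ⟨c, hbc⟩ := mem_nbs.1 hb
  have hde : (w e, b) ∈ sd S := mem_sd.2 ⟨c, hbc⟩
  have hdj : ∀ j, j < e → (w j, w (j + 1)) ∈ sd S := fun j hj =>
    dart_inner hS (hw j (by omega)).1 (hinn j hj)
  let Lc : ℕ → D0 S := fun j =>
    if h : j < e then ⟨(w j, w (j + 1)), hdj j h⟩ else ⟨(w e, b), hde⟩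
  have hLl : ∀ j (h : j < e), Lc j = ⟨(w j, w (j + 1)), hdj j h⟩ := fun j h => dif_pos h
  have hLe : Lc e = ⟨(w e, b), hde⟩ := dif_neg (lt_irrefl e)
  have hcell : ∀ j, j ≤ e → M.cell (Lc j) = σ (w j) := by
    intro j hj
    rw [H.cell]
    rcases lt_or_eq_of_le hj with h | h
    · rw [hLl j h]
    · rw [h, hLe]
  refine ⟨Lc, ?_, e, ?_, ?_, ?_, ?_⟩
  · rw [hcell 0 (Nat.zero_le _), w0]
    exact hdp _ (hm _ (List.getLast_mem hn)).1 (hm _ (List.getLast_mem hn)).2 e0.2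
  · rw [hcell e le_rfl]
    exact L.far_mem (hreg e hem).1 hef
  · intro j hj
    rw [hcell (j + 1) hj, H.cell, H.rho, hLl j hj]
    rfl
  · intro j hj
    rw [hcell j hj.le]
    exact hdw _ (hreg j (by omega)).1 (hinn j hj) (hreg j (by omega)).2 (hmin j hj)
  · intro j hj k hk h
    rw [hcell j hj] at h
    exact hB _ (hreg j (by omega)).1 (hreg j (by omega)).2 k hk h

/-! ### the radial rectangles -/

/-- radial rectangle of the side `u` at the tangential coordinate `ca`, base level `l0`, from the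
level `l1` (inside) to the level `l2` (outside), half width `et` -/
def radq (u zB : ℂ) (ca l0 l1 l2 et : ℝ) : Rect where
  z := zB + u * (-((l0 : ℝ) : ℂ) + Complex.I * ((ca : ℝ) : ℂ))
  e := u
  x0 := l0 - l2
  x1 := l0 - l1
  y0 := -et
  y1 := et
  m := et
  hor := true

variable {u : ℂ} {ca l0 l1 l2 et : ℝ}

theorem xy_radq (hu : Dir u) (s : ℂ) :
    X (zB + u * (-((l0 : ℝ) : ℂ) + Complex.I * ((ca : ℝ) : ℂ))) u s = X zB u s + l0 ∧
      Y (zB + u * (-((l0 : ℝ) : ℂ) + Complex.I * ((ca : ℝ) : ℂ))) u s = Y zB u s - ca := by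
  have h1 : (s - (zB + u * (-((l0 : ℝ) : ℂ) + Complex.I * ((ca : ℝ) : ℂ)))) / u =
      (s - zB) / u + ((l0 : ℝ) : ℂ) - Complex.I * ((ca : ℝ) : ℂ) := by
    field_simp [hu.ne]
    ring
  unfold X Y
  rw [h1]
  simp

theorem radq_reg (hu : Dir u) {s : ℂ} : (radq u zB ca l0 l1 l2 et).Reg s ↔
    |Y zB u s - ca| < et ∧ -l2 - et ≤ X zB u s ∧ X zB u s ≤ -l1 + et := by
  obtain ⟨h1, h2⟩ := xy_radq (zB := zB) (ca := ca) (l0 := l0) hu s
  unfold Rect.Reg
  rw [if_pos (show (radq u zB ca l0 l1 l2 et).hor = true from rfl)]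
  show (-et < Y (zB + u * (-((l0 : ℝ) : ℂ) + Complex.I * ((ca : ℝ) : ℂ))) u s ∧
    Y (zB + u * (-((l0 : ℝ) : ℂ) + Complex.I * ((ca : ℝ) : ℂ))) u s < et) ∧
    l0 - l2 - et ≤ X (zB + u * (-((l0 : ℝ) : ℂ) + Complex.I * ((ca : ℝ) : ℂ))) u s ∧
    X (zB + u * (-((l0 : ℝ) : ℂ) + Complex.I * ((ca : ℝ) : ℂ))) u s ≤ l0 - l1 + et ↔ _
  rw [h1, h2, abs_lt]
  constructor
  · rintro ⟨h3, h4, h5⟩
    exact ⟨h3, by linarith, by linarith⟩
  · rintro ⟨h3, h4, h5⟩
    exact ⟨h3, by linarith, by linarith⟩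

theorem radq_out (hu : Dir u) {s : ℂ} :
    Rect.Out (radq u zB ca l0 l1 l2 et) s ↔ X zB u s ≤ -l2 := by
  obtain ⟨h1, h2⟩ := xy_radq (zB := zB) (ca := ca) (l0 := l0) hu s
  unfold Rect.Out
  rw [if_pos (show (radq u zB ca l0 l1 l2 et).hor = true from rfl)]
  show X (zB + u * (-((l0 : ℝ) : ℂ) + Complex.I * ((ca : ℝ) : ℂ))) u s ≤ l0 - l2 ↔ _
  rw [h1]
  constructor <;> intro h <;> linarith

theorem radq_inn (hu : Dir u) {s : ℂ} :
    Rect.Inn (radq u zB ca l0 l1 l2 et) s ↔ -l1 ≤ X zB u s := by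
  obtain ⟨h1, h2⟩ := xy_radq (zB := zB) (ca := ca) (l0 := l0) hu s
  unfold Rect.Inn
  rw [if_pos (show (radq u zB ca l0 l1 l2 et).hor = true from rfl)]
  show l0 - l1 ≤ X (zB + u * (-((l0 : ℝ) : ℂ) + Complex.I * ((ca : ℝ) : ℂ))) u s ↔ _
  rw [h1]
  constructor <;> intro h <;> linarith

theorem radq_fit (hu : Dir u) (het : 0 < et) {k : ℝ} (h1 : l0 - l1 ≤ k * et) (h2 : l2 - l0 ≤ k * et)
    (h3 : l1 ≤ l0) (h4 : l0 ≤ l2) (h5 : et ≤ l2 - l1) (hk : 1 ≤ k) :
    (radq u zB ca l0 l1 l2 et).Fit k et := by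
  have h6 : et ≤ k * et := by nlinarith
  refine ⟨hu.norm, ?_, ?_, ?_, ?_, ?_, ?_, ?_⟩
  · show |l0 - l2| ≤ k * et
    rw [abs_of_nonpos (by linarith)]
    linarith
  · show |l0 - l1| ≤ k * et
    rw [abs_of_nonneg (by linarith)]
    linarith
  · show |-et| ≤ k * et
    rw [abs_neg, abs_of_pos het]; exact h6
  · show |et| ≤ k * et
    rw [abs_of_pos het]; exact h6
  · show et ≤ k * (l0 - l1 - (l0 - l2))
    nlinarith
  · show et ≤ k * (et - -et)
    nlinarith
  · show et - -et ≤ 2 * et ∧ (et - -et) / 2 ≤ et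
    exact ⟨by linarith, by linarith⟩

theorem norm_radq (hu : Dir u) (h0 : 0 ≤ l0) (hca : |ca| ≤ l0) :
    ‖(radq u zB ca l0 l1 l2 et).z - zB‖ ≤ 2 * l0 := by
  show ‖zB + u * (-((l0 : ℝ) : ℂ) + Complex.I * ((ca : ℝ) : ℂ)) - zB‖ ≤ 2 * l0
  rw [add_sub_cancel_left, norm_mul, hu.norm, one_mul]
  refine (norm_add_le _ _).trans ?_
  rw [norm_neg, norm_mul, Complex.norm_I, one_mul, Complex.norm_real, Complex.norm_real,
    Real.norm_eq_abs, Real.norm_eq_abs, abs_of_nonneg h0]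
  linarith

/-- **the radial crossings by all sites exist** -/
theorem radq_ex (hRB : RBm) (het : 0 < et) {D1 D2 : ℝ} (hD1 : 0 ≤ D1) (hD2 : 0 ≤ D2)
    (hD : et ≤ D1 + D2) : ∀ C4 : ℝ, 0 ≤ C4 → ∃ c1 c2 K : ℝ, 0 < c1 ∧ 0 < c2 ∧ c2 ≤ 1 ∧ 0 < K ∧
    ∀ (S : Finset ℂ) (z0 : ℂ) (R d : ℝ), NvA S z0 R c2 et d C4 → d ≤ c1 * et →
    ∀ (u zB : ℂ) (ca l0 : ℝ), Dir u → 0 ≤ l0 → |ca| ≤ l0 → ‖zB - z0‖ + 2 * l0 + K * et ≤ R →
    (radq u zB ca l0 (l0 - D1) (l0 + D2) et).Ev S S := by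
  intro C4 hC4
  set k : ℝ := 1 + D1 / et + D2 / et with hk
  have k1 : 1 ≤ k := by
    have h1 : 0 ≤ D1 / et := by positivity
    have h2 : 0 ≤ D2 / et := by positivity
    linarith
  have k2 : D1 ≤ k * et := by
    have h1 : D1 / et * et = D1 := by field_simp
    have h2 : 0 ≤ D2 / et * et := by positivity
    have : k * et = et + D1 / et * et + D2 / et * et := by rw [hk]; ring
    linarith
  have k3 : D2 ≤ k * et := by
    have h1 : D2 / et * et = D2 := by field_simp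
    have h2 : 0 ≤ D1 / et * et := by positivity
    have : k * et = et + D1 / et * et + D2 / et * et := by rw [hk]; ring
    linarith
  obtain ⟨c1, c2, K, hc1, hc2, hc2', hK, H⟩ := rect_all hRB k k1 C4 hC4
  refine ⟨c1, c2, K, hc1, hc2, hc2', hK, ?_⟩
  intro S z0 R d hN hd u zB ca l0 hu h0 hca hR
  refine H S z0 R et d het hN hd _ ?_ (radq_fit hu het (by linarith) (by linarith) (by linarith)
    (by linarith) (by linarith) k1)
  have h1 := norm_radq (zB := zB) (l1 := l0 - D1) (l2 := l0 + D2) (et := et) hu h0 hca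
  have h2 : ‖(radq u zB ca l0 (l0 - D1) (l0 + D2) et).z - z0‖ ≤
      ‖(radq u zB ca l0 (l0 - D1) (l0 + D2) et).z - zB‖ + ‖zB - z0‖ := by
    have : (radq u zB ca l0 (l0 - D1) (l0 + D2) et).z - z0 =
      ((radq u zB ca l0 (l0 - D1) (l0 + D2) et).z - zB) + (zB - z0) := by ring
    rw [this]; exact norm_add_le _ _
  linarith

/-- **`Rad` on a side**: the sets `Dp`, `Dw` by levels; the tiles are met only where the hypothesis
`hB` allows -/
theorem rad_side (H : Pl hS M σ) (h3 : 3 ≤ S.card) (L : Lev S σ G zB A1 A2) (hu : Dir u)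
    (hq : (radq u zB ca l0 l1 l2 et).Ev S S) {D1 : ℝ} (h2 : A2 ≤ l2) (h1 : l1 ≤ D1)
    (hD : D1 < A2) (hc : |ca| + et ≤ D1) (he : et ≤ 2 * l1)
    (hdp : cel S σ (fun s => sup (s - zB) ≤ D1) ⊆ G.Dp)
    (hdw : cel S σ (fun s => |Y zB u s - ca| < et ∧ X zB u s ≤ -l1 + et ∧ sup (s - zB) < A2) ⊆
      G.Dw)
    {B : ℕ → Set C} {n : ℕ} {ok : ℕ → Prop}
    (hB : ∀ s ∈ S, |Y zB u s - ca| < et → X zB u s ≤ -l1 + et → ∀ k, k < n → σ s ∈ B k → ok k) :
    ∃ Lc : ℕ → D0 S, Rad M G B n ok Lc := by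
  refine rad_of H h3 L hq ?_ ?_ ?_ ?_
  · intro s _ _ ho
    rw [radq_out hu] at ho
    rw [hu.sup]
    refine le_trans ?_ (le_max_left _ _)
    refine le_trans ?_ (neg_le_abs _)
    linarith
  · intro s hs hr hi
    rw [radq_reg hu] at hr
    rw [radq_inn hu] at hi
    have h4 := abs_lt.1 hr.1
    have h5 := le_abs_self ca
    have h6 := neg_abs_le ca
    have h7 : sup (s - zB) ≤ D1 := by
      rw [hu.sup]
      apply max_le
      · rw [abs_le]
        exact ⟨by linarith, by linarith [hr.2.2]⟩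
      · rw [abs_le]
        exact ⟨by linarith [h4.1], by linarith [h4.2]⟩
    exact hdp ⟨s, hs, fun h => absurd (L.hl s hs h) (not_le.2 (by linarith)), h7, rfl⟩
  · intro s hs hh hr hlt
    rw [radq_reg hu] at hr
    exact hdw ⟨s, hs, hh, ⟨hr.1, hr.2.2, hlt⟩, rfl⟩
  · intro s hs hr
    rw [radq_reg hu] at hr
    exact hB s hs hr.1 hr.2.2

/-! ### the strip meets one tile only -/

open Crest.Agent.R143.TileRx228 (FPath cen RR Arm U4 cz)

variable {W : ℤ → ℤ × ℤ} {h hR A' B' : ℝ}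

/-- the sites of a tile are near its vertex -/
theorem rr_near (hA : A' ≤ B') (hW : ∀ a, U4 (W (a + 1) - W a)) (a : ℤ) {s : ℂ}
    (hs : s ∈ RR A' B' h W a) : sup (s - cen h W a) < B' := by
  have key : ∀ v : ℤ × ℤ, U4 v → s ∈ Arm A' B' (cen h W a) (cz v) → sup (s - cen h W a) < B' := by
    intro v hv hm
    have hd : Dir (cz v) := by
      rcases hv with rfl | rfl | rfl | rfl
      · left; apply Complex.ext <;> simp [cz]
      · right; left; apply Complex.ext <;> simp [cz]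
      · right; right; left; apply Complex.ext <;> simp [cz]
      · right; right; right; apply Complex.ext <;> simp [cz]
    obtain ⟨⟨h1, h2⟩, h3⟩ := hm
    rw [hd.sup]
    rw [abs_lt] at h3
    apply max_lt
    · rw [abs_lt]; exact ⟨by linarith, h2⟩
    · rw [abs_lt]; exact ⟨by linarith [h3.1], by linarith [h3.2]⟩
  rcases hs with hs | hs
  · refine key _ ?_ hs
    have h1 := hW (a - 1)
    rw [sub_add_cancel] at h1
    unfold U4 at h1 ⊢
    rcases h1 with h1 | h1 | h1 | h1 <;>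
    · rw [Prod.ext_iff] at h1
      simp only [Prod.fst_sub, Prod.snd_sub] at h1
      obtain ⟨h1, h2⟩ := h1
      simp only [Prod.ext_iff, Prod.fst_sub, Prod.snd_sub]
      omega
  · exact key _ (hW a) hs

/-- local coordinates of the lattice points -/
theorem lat_y (hu : Dir u) (a b : ℤ) : ∃ i : ℤ,
    Y zB u (cen h W a) - Y zB u (cen h W b) = h * i := by
  have h1 : Y zB u (cen h W a) - Y zB u (cen h W b) = ((cen h W a - cen h W b) / u).im := by
    unfold Y
    rw [← Complex.sub_im]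
    congr 1
    ring
  rw [h1]
  unfold cen cz
  rcases hu with rfl | rfl | rfl | rfl
  · refine ⟨(W a).2 - (W b).2, ?_⟩
    simp
    ring
  · refine ⟨-((W a).1 - (W b).1), ?_⟩
    rw [div_I_im]
    simp
    ring
  · refine ⟨-((W a).2 - (W b).2), ?_⟩
    rw [div_neg1]
    simp
    ring
  · refine ⟨(W a).1 - (W b).1, ?_⟩
    rw [div_negI]
    simp
    ring

/-- **the strip at the vertex `a0` of the side `u` meets the tile of `a0` only** -/
theorem one_tile (hu : Dir u) (hW : ∀ a, U4 (W (a + 1) - W a))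
    (hbd : ∀ a, sup (cen h W a - zB) = hR) (hh : 0 < h) (hA : A' ≤ B') (hAB : A' + B' < h)
    (hBR : B' + et ≤ hR) (het : et ≤ A') {a0 : ℤ} (hx0 : X zB u (cen h W a0) = -hR)
    (hc : |Y zB u (cen h W a0)| < hR) {s : ℂ}
    (hs1 : |Y zB u s - Y zB u (cen h W a0)| < et) (hs2 : X zB u s ≤ et) {a : ℤ}
    (hs : s ∈ RR A' B' h W a) : W a = W a0 := by
  have h1 := rr_near hA hW a hs
  have h2 : sup (s - cen h W a) = max |X (cen h W a) u s| |Y (cen h W a) u s| := hu.sup _ _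
  rw [h2, max_lt_iff] at h1
  have hX : X (cen h W a) u s = X zB u s - X zB u (cen h W a) := by
    unfold X; rw [← Complex.sub_re]; congr 1; ring
  have hY : Y (cen h W a) u s = Y zB u s - Y zB u (cen h W a) := by
    unfold Y; rw [← Complex.sub_im]; congr 1; ring
  rw [hX, hY] at h1
  obtain ⟨i, hi⟩ := lat_y (zB := zB) (h := h) (W := W) hu a a0
  have h3 := abs_lt.1 h1.1
  have h4 := abs_lt.1 h1.2
  have h5 := abs_lt.1 hs1
  have hi0 : i = 0 := by
    have h6 : |h * (i : ℝ)| < h := by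
      rw [← hi, abs_lt]
      exact ⟨by linarith [h4.2, h5.1], by linarith [h4.1, h5.2]⟩
    rw [abs_mul, abs_of_pos hh] at h6
    have h7 : |(i : ℝ)| < 1 := by
      by_contra hcon
      push Not at hcon
      nlinarith
    have h8 : |i| < 1 := by exact_mod_cast h7
    exact Int.abs_lt_one_iff.1 h8
  have hYe : Y zB u (cen h W a) = Y zB u (cen h W a0) := by
    rw [hi0] at hi
    simp at hi
    linarith
  have hba := hbd a
  rw [hu.sup] at hba
  have hxa : |X zB u (cen h W a)| = hR := by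
    rcases max_choice |X zB u (cen h W a)| |Y zB u (cen h W a)| with h6 | h6
    · rw [← h6]; exact hba
    · rw [h6, hYe] at hba
      linarith
  have hxe : X zB u (cen h W a) = -hR := by
    rcases le_total 0 (X zB u (cen h W a)) with h6 | h6
    · rw [abs_of_nonneg h6] at hxa
      linarith [h3.1]
    · rw [abs_of_nonpos h6] at hxa
      linarith
  -- equal local coordinates
  have hcen : cen h W a = cen h W a0 := by
    have h6 : (cen h W a - zB) / u = (cen h W a0 - zB) / u := by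
      apply Complex.ext
      · show X zB u (cen h W a) = X zB u (cen h W a0)
        rw [hxe, hx0]
      · exact hYe
    have h7 := (div_left_inj' hu.ne).1 h6
    linear_combination h7
  have hhc : (h : ℂ) ≠ 0 := by exact_mod_cast hh.ne'
  have h8 : cz (W a) = cz (W a0) := mul_left_cancel₀ hhc hcen
  unfold cz at h8
  rw [Complex.mk.injEq] at h8
  exact Prod.ext (by exact_mod_cast h8.1) (by exact_mod_cast h8.2)

end Crest.Agent.R143.RadGx707
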