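import Crest.Agent.R143.EFam_432
import Crest.Agent.R143.GeoR_136
import Crest.Agent.R143.RingG_355
import Crest.Agent.R143.PlugW_503
import Crest.Agent.R143.VgL_239
import Crest.Agent.R143.RingU_197

/-!
# Row 143 (S0194), block H (helper707): the literal regions of the windows

432's full record `Gf` has no window. Here the record of the window `i` with chosen radial chains:
* `pick Q d` : a chain with the property `Q` if there is one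
* `Gw zB A1 A2 D1 sec B n oka okb hS h3 i` : 707's `rg` with sector `sec i`, chains = chosen `Rad`
* `gw_ra`, `gw_rb` : the chosen chains are `Rad`; `gw_lev`, `gw_le`, `gw_th`, `gw_rgs` (355's `Rgs`),
  `gw_regH` (136's `RegH`)
* `gf_rgs` : 355's `Rgs` for the full record
* **`Gn`** : the family of the regions of 503's windows; `gn_lev`, `gn_rgs`, `gn_le`, `gn_th`,
  `gn_regH`, **`gn_rad`** (both chains of all windows), `gn_off`; `zq_num` : the centre in 197's numbers;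
  `wi_sqs`, `sqs_sqV` : the path in 197's / 445's form
-/

set_option autoImplicit false

noncomputable section

open scoped Classical

namespace Crest.Agent.R143.RecWx707

open Crest.Agent.R143.B0x346 Crest.Agent.R143.DelGx806 Crest.Agent.R143.DelRx806
open Crest.Agent.R143.Frame1x395 Crest.Agent.R143.Frame2x395 Crest.Agent.R143.Frame3x395
  Crest.Agent.R143.Frame8x395 Crest.Agent.R143.Frame9x395 Crest.Agent.R143.Frame10x395
  Crest.Agent.R143.NonXx592 Crest.Agent.R143.FinCx811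
open Crest.Agent.R143.RevCx389 (Rg)
open Crest.Agent.R143.RevEx389 (Le)
open Crest.Agent.R143.RingWx389 (Rad)
open Crest.Agent.R143.Meetx707 (cel mem_cel cel_mono sr pl_rc0 Pl)
open Crest.Agent.R143.AnnCx707 (Lev)
open Crest.Agent.R143.Stripx707
open Crest.Agent.R143.RegGx707 (rg lev_rg le_rg th_rg)
open Crest.Agent.R143.EFamx432 (hv ed sr_hull Gf)
open Crest.Agent.R143.RingGx355 (Rgs)
open Crest.Agent.R143.GeoIx136 (RegH)
open Crest.Agent.R143.CircPx838 (sup)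

/-! ### chosen chains -/

/-- a chain with the property `Q` -/
def pick {D : Type} (Q : (ℕ → D) → Prop) (d : D) : ℕ → D :=
  if h : ∃ L, Q L then h.choose else fun _ => d

theorem pick_spec {D : Type} {Q : (ℕ → D) → Prop} (d : D) (h : ∃ L, Q L) : Q (pick Q d) := by
  unfold pick
  rw [dif_pos h]
  exact h.choose_spec

variable {S : Finset ℂ} {C : Type} {M : CMap (D0 S) C} {σ : ℂ → C} {h0 : C} {zB : ℂ}
  {A1 A2 D1 : ℝ} {sec : ℂ → Prop} {La Lb La' Lb' : ℕ → D0 S} {B : ℕ → Set C} {n : ℕ}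
  {ok ok' : ℕ → Prop} {L : ℕ → D0 S}

/-- `Rad` does not look at the chains of the record -/
theorem rad_la (h : Rad M (rg S σ h0 zB A1 A2 D1 sec La Lb) B n ok L) :
    Rad M (rg S σ h0 zB A1 A2 D1 sec La' Lb') B n ok L := ⟨h.l0, h.fin⟩

theorem rad_ok (h : Rad M (rg S σ h0 zB A1 A2 D1 sec La Lb) B n ok L)
    (hk : ∀ k, k < n → ok k → ok' k) : Rad M (rg S σ h0 zB A1 A2 D1 sec La Lb) B n ok' L := by
  obtain ⟨e, h1, h2, h3, h4⟩ := h.fin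
  exact ⟨h.l0, e, h1, h2, h3, fun j hj k hk' hc => hk k hk' (h4 j hj k hk' hc)⟩

/-- 355's `Rgs` for 707's `rg` -/
theorem rgs_rg (hh : ∀ s, OnHull S s → σ s = h0) (hl : ∀ s ∈ S, OnHull S s → A2 ≤ sup (s - zB)) :
    Rgs S σ (rg S σ h0 zB A1 A2 D1 sec La Lb) zB D1 A1 A2 sec where
  lev := lev_rg hh hl
  dw s hs hi h1 h2 := ⟨s, hs, hi, ⟨h1, h2⟩, rfl⟩
  th _ h := h
  dp _ h := h

/-! ### the regions of a window -/

variable {A : Finset ℂ} (hS : GP (A : Set ℂ)) (h3 : 3 ≤ A.card)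

/-- **the regions of the window `i`** : sector `sec i`, tiles `Bt i k`, chains chosen -/
def Gw (zB : ℂ) (A1 A2 D1 : ℝ) (sec : ℕ → ℂ → Prop) (Bt : ℕ → ℕ → Set (Cs hS)) (n : ℕ)
    (oka okb : ℕ → Prop) (i : ℕ) : Rg (D0 A) (Cs hS) :=
  rg A (sr hS h3) (sr hS h3 (hv hS h3)) zB A1 A2 D1 (sec i)
    (pick (Rad (rc0 hS) (rg A (sr hS h3) (sr hS h3 (hv hS h3)) zB A1 A2 D1 (sec i)
      (fun _ => ed hS h3) (fun _ => ed hS h3)) (Bt i) n oka) (ed hS h3))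
    (pick (Rad (rc0 hS) (rg A (sr hS h3) (sr hS h3 (hv hS h3)) zB A1 A2 D1 (sec i)
      (fun _ => ed hS h3) (fun _ => ed hS h3)) (Bt i) n okb) (ed hS h3))

variable {hS h3} {sec : ℕ → ℂ → Prop} {Bt : ℕ → ℕ → Set (Cs hS)} {oka okb : ℕ → Prop} {i : ℕ}

/-- field `ra` -/
theorem gw_ra {La Lb L : ℕ → D0 A}
    (h : Rad (rc0 hS) (rg A (sr hS h3) (sr hS h3 (hv hS h3)) zB A1 A2 D1 (sec i) La Lb) (Bt i) n
      oka L) :
    Rad (rc0 hS) (Gw hS h3 zB A1 A2 D1 sec Bt n oka okb i) (Bt i) n oka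
      (Gw hS h3 zB A1 A2 D1 sec Bt n oka okb i).La :=
  rad_la (pick_spec (ed hS h3) ⟨L, rad_la h⟩)

/-- field `rb` -/
theorem gw_rb {La Lb L : ℕ → D0 A}
    (h : Rad (rc0 hS) (rg A (sr hS h3) (sr hS h3 (hv hS h3)) zB A1 A2 D1 (sec i) La Lb) (Bt i) n
      okb L) :
    Rad (rc0 hS) (Gw hS h3 zB A1 A2 D1 sec Bt n oka okb i) (Bt i) n okb
      (Gw hS h3 zB A1 A2 D1 sec Bt n oka okb i).Lb :=
  rad_la (pick_spec (ed hS h3) ⟨L, rad_la h⟩)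

theorem gw_h0 : ∀ s, OnHull A s → sr hS h3 s = (Gw hS h3 zB A1 A2 D1 sec Bt n oka okb i).h0 :=
  fun _ hs => sr_hull hS h3 hs

theorem gw_lev (hl : ∀ s ∈ A, OnHull A s → A2 ≤ sup (s - zB)) :
    Lev A (sr hS h3) (Gw hS h3 zB A1 A2 D1 sec Bt n oka okb i) zB A1 A2 :=
  lev_rg (fun _ hs => sr_hull hS h3 hs) hl

theorem gw_rgs (hl : ∀ s ∈ A, OnHull A s → A2 ≤ sup (s - zB)) :
    Rgs A (sr hS h3) (Gw hS h3 zB A1 A2 D1 sec Bt n oka okb i) zB D1 A1 A2 (sec i) :=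
  rgs_rg (fun _ hs => sr_hull hS h3 hs) hl

theorem gf_rgs (hl : ∀ s ∈ A, OnHull A s → A2 ≤ sup (s - zB)) :
    Rgs A (sr hS h3) (Gf zB A1 A2 D1 hS h3) zB D1 A1 A2 (fun _ => False) :=
  rgs_rg (fun _ hs => sr_hull hS h3 hs) hl

/-- 389's `Le` -/
theorem gw_le : Le (Gw hS h3 zB A1 A2 D1 sec Bt n oka okb i) (Gf zB A1 A2 D1 hS h3) :=
  EFamx432.gf_le hS h3 rfl

theorem gw_th : ∀ c, c ∈ (Gw hS h3 zB A1 A2 D1 sec Bt n oka okb i).Dw →
    c ∉ (Gw hS h3 zB A1 A2 D1 sec Bt n oka okb i).Th := th_rg (pl_rc0 hS h3)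

/-- **136's `RegH`** -/
theorem gw_regH {hB l t0 a2 : ℝ} {m₀ : ℕ} {u : ℕ → ℂ} {c0 : ℕ → ℝ}
    (hdir : ∀ i, i < m₀ → Dir (u i)) (hwin : ∀ i, i < m₀ → |c0 i| ≤ hB - l)
    (hA2 : A2 ≤ hB + a2) (hD : hB - t0 ≤ D1) :
    RegH zB hB l t0 a2 m₀ u c0 hS h3
      (Gw hS h3 zB A1 A2 D1 (fun i => Sec (u i) zB hB t0 (c0 i) l) Bt n oka okb)
      (Gf zB A1 A2 D1 hS h3) where
  dir := hdir
  win := hwin
  h0 _ _ := gw_h0
  le _ _ := gw_le
  th _ _ := gw_th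
  far _ _ := fun _ ⟨s, a1, a2', a3, a4⟩ => Or.inr ⟨s, a1, a2', hA2.trans a3, a4⟩
  sec _ _ := subset_rfl
  deep _ _ := cel_mono fun _ _ _ h => h.trans hD

/-! ### 503's windows -/

section gn

open Crest.Agent.R143.WinRx503 Crest.Agent.R143.PlugWx503
open Crest.Agent.R143.RegGx707 (sqs zq du dir_du)
open Crest.Agent.R143.RadGx707 (radq)
open Crest.Agent.R143.VgLx239 (clR)
open Crest.Agent.R143.RingXx713.RngH (BT)
open Crest.Agent.R143.TileRx228 (RR)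

/-- the cells of the tile `k` (walk order) -/
def tn (hS : GP (A : Set ℂ)) (η : ℝ) (K : ℕ) (j0 : ℤ) (j k : ℕ) : Set (Cs hS) :=
  clR hS (BT η (sqs K j0) (2 * j + 5 - (k : ℤ)))

/-- both chains of all windows are radial chains -/
def Ch (hS : GP (A : Set ℂ)) (h3 : 3 ≤ A.card) (η : ℝ) (K : ℕ) (j0 : ℤ) (A1 A2 D1 t0 l : ℝ)
    (j m1 : ℕ) (LL : (ℕ → ℕ → D0 A) × (ℕ → ℕ → D0 A)) : Prop :=
  ∀ i, i < 4 * m1 →
    Rad (rc0 hS) (rgi A (sr hS h3) (sr hS h3 (hv hS h3)) (100 * η) K j0 A1 A2 D1 t0 l j i LL.1 LL.2)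
      (fun k => tn hS η K j0 j (hb j * i + (2 * j + 1) + k)) (4 * K) (fun k => k < 3) (LL.1 i) ∧
    Rad (rc0 hS) (rgi A (sr hS h3) (sr hS h3 (hv hS h3)) (100 * η) K j0 A1 A2 D1 t0 l j i LL.1 LL.2)
      (fun k => tn hS η K j0 j (hb j * i + (2 * j + 1) + k)) (4 * K)
      (fun k => 4 * K - (2 * j + 1) ≤ k + 3 ∧ k < 4 * K - (2 * j + 1)) (LL.2 i)

/-- the chosen chains -/
def cL (hS : GP (A : Set ℂ)) (h3 : 3 ≤ A.card) (η : ℝ) (K : ℕ) (j0 : ℤ) (A1 A2 D1 t0 l : ℝ)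
    (j m1 : ℕ) : (ℕ → ℕ → D0 A) × (ℕ → ℕ → D0 A) :=
  if h : ∃ LL, Ch hS h3 η K j0 A1 A2 D1 t0 l j m1 LL then h.choose
  else (fun _ _ => ed hS h3, fun _ _ => ed hS h3)

/-- **the regions of the windows, as a family** -/
def Gn (η : ℝ) (K : ℕ) (j0 : ℤ) (A1 A2 D1 t0 l : ℝ) (j m1 : ℕ) :
    ∀ (A : Finset ℂ) (hS : GP (A : Set ℂ)), 3 ≤ A.card → ℕ → Rg (D0 A) (Cs hS) :=
  fun A hS h3 i => rgi A (sr hS h3) (sr hS h3 (hv hS h3)) (100 * η) K j0 A1 A2 D1 t0 l j i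
    (cL hS h3 η K j0 A1 A2 D1 t0 l j m1).1 (cL hS h3 η K j0 A1 A2 D1 t0 l j m1).2

variable {η : ℝ} {K : ℕ} {j0 : ℤ} {t0 l : ℝ} {j m1 : ℕ}

theorem gn_h0 : ∀ s, OnHull A s → sr hS h3 s = (Gn η K j0 A1 A2 D1 t0 l j m1 A hS h3 i).h0 :=
  fun _ hs => sr_hull hS h3 hs

theorem gn_lev (hl : ∀ s ∈ A, OnHull A s → A2 ≤ sup (s - zq (100 * η) K j0)) :
    Lev A (sr hS h3) (Gn η K j0 A1 A2 D1 t0 l j m1 A hS h3 i) (zq (100 * η) K j0) A1 A2 :=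
  lev_rg (fun _ hs => sr_hull hS h3 hs) hl

/-- 355's `Rgs` -/
theorem gn_rgs (hl : ∀ s ∈ A, OnHull A s → A2 ≤ sup (s - zq (100 * η) K j0)) :
    Rgs A (sr hS h3) (Gn η K j0 A1 A2 D1 t0 l j m1 A hS h3 i) (zq (100 * η) K j0) D1 A1 A2
      (Sec (du (wp K j i)) (zq (100 * η) K j0) (100 * η * K / 2) t0 (cw0 (100 * η) K j0 j i) l) :=
  rgs_rg (fun _ hs => sr_hull hS h3 hs) hl

/-- 389's `Le` -/
theorem gn_le : Le (Gn η K j0 A1 A2 D1 t0 l j m1 A hS h3 i) (Gf (zq (100 * η) K j0) A1 A2 D1 hS h3) :=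
  EFamx432.gf_le hS h3 rfl

theorem gn_th : ∀ c, c ∈ (Gn η K j0 A1 A2 D1 t0 l j m1 A hS h3 i).Dw →
    c ∉ (Gn η K j0 A1 A2 D1 t0 l j m1 A hS h3 i).Th := th_rg (pl_rc0 hS h3)

/-- **136's `RegH`** for all windows -/
theorem gn_regH {a2 : ℝ} (he : 0 < η) (hK : K = hb j * m1) (m1p : 1 ≤ m1)
    (hl : l ≤ 100 * η * (j + 5)) (hA2 : A2 ≤ 100 * η * K / 2 + a2)
    (hD : 100 * η * K / 2 - t0 ≤ D1) :
    RegH (zq (100 * η) K j0) (100 * η * K / 2) l t0 a2 (4 * m1) (fun i => du (wp K j i))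
      (fun i => cw0 (100 * η) K j0 j i) hS h3 (Gn η K j0 A1 A2 D1 t0 l j m1 A hS h3)
      (Gf (zq (100 * η) K j0) A1 A2 D1 hS h3) where
  dir _ _ := dir_du _
  win i hi := (cw0_le (by positivity) hK m1p hi).trans (by linarith)
  h0 _ _ := gn_h0
  le _ _ := gn_le
  th _ _ := gn_th
  far _ _ := fun _ ⟨s, a1, a2', a3, a4⟩ => Or.inr ⟨s, a1, a2', hA2.trans a3, a4⟩
  sec _ _ := subset_rfl
  deep _ _ := cel_mono fun _ _ _ h => h.trans hD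

theorem mem_tn {k : ℕ} {c : Cs hS} (hc : c ∈ tn hS η K j0 j k) :
    ∃ s ∈ A, s ∈ BT η (sqs K j0) (2 * j + 5 - (k : ℤ)) ∧ sr hS h3 s = c := by
  obtain ⟨v, h1, h2, h4⟩ := hc
  refine ⟨v, h1, h2, Subtype.ext ?_⟩
  rw [EFamx432.sr_val h1]
  exact h4

/-- **the chains of all windows** (355's fields `ra`, `rb`) -/
theorem gn_rad {E1 E2 r : ℝ} (hl0 : ∀ s ∈ A, OnHull A s → A2 ≤ sup (s - zq (100 * η) K j0))
    (hK : K = hb j * m1) (m1p : 1 ≤ m1) (he : 0 < η) (r0 : 0 < r) (hr : r ≤ 19 / 2 * η)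
    (hl : l ≤ 100 * η * j)
    (hq : ∀ (u : ℂ) (ca : ℝ), Dir u → |ca| ≤ 100 * η * K / 2 →
      (radq u (zq (100 * η) K j0) ca (100 * η * K / 2) (100 * η * K / 2 - E1)
        (100 * η * K / 2 + E2) r).Ev A A)
    (e1 : 100 * η * K / 2 - E1 ≤ D1) (e2 : A2 ≤ 100 * η * K / 2 + E2) (e3 : D1 < A2)
    (e4 : 100 * η * K / 2 - 3 * (100 * η) + r ≤ D1) (e5 : r ≤ 2 * (100 * η * K / 2 - E1))
    (e6 : 100 * η * K / 2 + 19 / 2 * η ≤ A2) (hi : i < 4 * m1) :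
    Rad (rc0 hS) (Gn η K j0 A1 A2 D1 t0 l j m1 A hS h3 i)
      (fun k => tn hS η K j0 j (hb j * i + (2 * j + 1) + k)) (4 * K) (fun k => k < 3)
      (Gn η K j0 A1 A2 D1 t0 l j m1 A hS h3 i).La ∧
    Rad (rc0 hS) (Gn η K j0 A1 A2 D1 t0 l j m1 A hS h3 i)
      (fun k => tn hS η K j0 j (hb j * i + (2 * j + 1) + k)) (4 * K)
      (fun k => 4 * K - (2 * j + 1) ≤ k + 3 ∧ k < 4 * K - (2 * j + 1))
      (Gn η K j0 A1 A2 D1 t0 l j m1 A hS h3 i).Lb := by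
  obtain ⟨La, Lb, h⟩ := rad_w (M := rc0 hS) (A1 := A1) (t0 := t0)
    (Reg := fun k => tn hS η K j0 j k) (A' := 19 / 2 * η)
    (B' := 103 / 2 * η) (pl_rc0 hS h3) h3 (ed hS h3) (fun _ hs => sr_hull hS h3 hs) hl0 hK m1p
    (by positivity) (by linarith) (by linarith) r0 hr hl hq e1 e2 e3 e4 e5 e6
    (fun k c hc => mem_tn hc)
  have hex : ∃ LL, Ch hS h3 η K j0 A1 A2 D1 t0 l j m1 LL := ⟨(La, Lb), h⟩
  have hc : Ch hS h3 η K j0 A1 A2 D1 t0 l j m1 (cL hS h3 η K j0 A1 A2 D1 t0 l j m1) := by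
    unfold cL
    rw [dif_pos hex]
    exact hex.choose_spec
  exact hc i hi

/-- **the tiles off the window miss its sector** (355's field `off`) -/
theorem gn_off (hK : K = hb j * m1) (m1p : 1 ≤ m1) (he : 0 < η) (hl : l ≤ 100 * η * j)
    (ht : 103 / 2 * η ≤ 100 * η * K / 2 - t0) (hi : i < 4 * m1) {k : ℕ}
    (hk : k < 4 * K - (2 * j + 1)) {s : ℂ}
    (hs : s ∈ BT η (sqs K j0) (2 * j + 5 - ((hb j * i + (2 * j + 1) + k : ℕ) : ℤ))) :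
    ¬ Sec (du (wp K j i)) (zq (100 * η) K j0) (100 * η * K / 2) t0 (cw0 (100 * η) K j0 j i) l s :=
  off_w (A' := 19 / 2 * η) (B' := 103 / 2 * η) hK m1p (by positivity) (by linarith) (by linarith) hl
    ht hi hk hs

/-- the levels of the tiles (355's field `rk`) -/
theorem gn_rk (hK1 : 1 ≤ K) (he : 0 < η) (a : ℤ) {s : ℂ} (hs : s ∈ BT η (sqs K j0) a) :
    100 * η * K / 2 - 19 / 2 * η < sup (s - zq (100 * η) K j0) ∧
      sup (s - zq (100 * η) K j0) < 100 * η * K / 2 + 19 / 2 * η :=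
  RegGx707.rr_lev (RegGx707.sqr_sqW hK1 (by positivity) j0) (by positivity) (by linarith)
    (by linarith) a hs

/-- the path in 445's form -/
theorem sqs_sqV (K : ℕ) (j0 : ℤ) : sqs K j0 = SqGx445.sqV K (-j0, -j0) := by
  funext a
  unfold RegGx707.sqs SqGx445.sqV
  rw [sub_eq_add_neg]
  rfl

/-- the centre in 197's numbers -/
theorem zq_num {n : ℕ} (hn : 0 < n) : zq (100 * RingUx197.et n) (n + 2) 1 = RingUx197.zB := by
  have h := RingUx197.et_mul hn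
  unfold RegGx707.zq RingUx197.zB
  apply Complex.ext
  · show 100 * RingUx197.et n * (((n + 2 : ℕ) : ℝ) / 2 - ((1 : ℤ) : ℝ)) = 1 / 2
    push_cast
    linear_combination h / 2
  · show 100 * RingUx197.et n * (((n + 2 : ℕ) : ℝ) / 2 - ((1 : ℤ) : ℝ)) = 1 / 2
    push_cast
    linear_combination h / 2

theorem wi_sqs (n : ℕ) : RingUx197.Wi n = sqs (n + 2) 1 := (sqs_sqV (n + 2) 1).symm

end gn

end Crest.Agent.R143.RecWx707
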