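import Crest.Agent.R143.Cfg_416

/-!
# Row 143 (S0194), leaf RB (box crossings), geometry of the rectangle, file 1 (helper723)

* `rc z0 u a b : Cfg 4` : the rectangle with centre `z0`, direction `u` (along `a`) and half sides
  `a`, `b`, with tentacles along the diagonals; `R 0` = west, `R 1` = south, `R 2` = east,
  `R 3` = north
* `rc_ok` : it is an admissible configuration with `δ = min a b ^ 2 / (4 (a + b))`
-/

set_option autoImplicit false

noncomputable section

open scoped Classical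

namespace Crest.Agent.R143.Rect1x723

open Set Filter Topology
open Crest.Agent.R143.B0x346 Crest.Agent.R143.Cfgx416

/-! ### the frame -/

/-- `‖a + b I‖` -/
def rd (a b : ℝ) : ℝ := ‖(⟨a, b⟩ : ℂ)‖

/-- signed distance to the diagonal NE - SW (positive above / left) -/
def X (a b : ℝ) (w : ℂ) : ℝ := (a * w.im - b * w.re) / rd a b

/-- signed distance to the diagonal NW - SE (positive above / right) -/
def Y (a b : ℝ) (w : ℂ) : ℝ := (a * w.im + b * w.re) / rd a b

/-- radius of the big disc -/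
def LL (a b : ℝ) : ℝ := 4 * (a + b)

/-- width of the tentacles -/
def dl (a b : ℝ) : ℝ := min a b ^ 2 / (4 * (a + b))

/-- half width of the tentacle at `w` -/
def M (a b : ℝ) (w : ℂ) : ℝ := dl a b / LL a b * max (LL a b / 2) ‖w‖

/-- the four regions in the frame -/
def RW (a b : ℝ) : Set ℂ := {w | w.re < -a ∧ M a b w < X a b w ∧ Y a b w < -M a b w}
/-- south -/
def RS (a b : ℝ) : Set ℂ := {w | w.im < -b ∧ X a b w < -M a b w ∧ Y a b w < -M a b w}
/-- east -/
def RE (a b : ℝ) : Set ℂ := {w | a < w.re ∧ X a b w < -M a b w ∧ M a b w < Y a b w}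
/-- north -/
def RN (a b : ℝ) : Set ℂ := {w | b < w.im ∧ M a b w < X a b w ∧ M a b w < Y a b w}

/-- the regions, indexed -/
def Rg (a b : ℝ) (k : ZMod 4) : Set ℂ :=
  if k = 0 then RW a b else if k = 1 then RS a b else if k = 2 then RE a b else RN a b

/-- the direction of the diagonal NE -/
def p0 (a b : ℝ) : ℂ := ⟨a / rd a b, b / rd a b⟩

/-- the direction of the diagonal NW -/
def p1 (a b : ℝ) : ℂ := ⟨-(a / rd a b), b / rd a b⟩

/-- the directions, indexed -/
def Qg (a b : ℝ) (k : ZMod 4) : ℂ :=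
  if k = 0 then p1 a b else if k = 1 then -p0 a b else if k = 2 then -p1 a b else p0 a b

/-- **the rectangle** -/
def rc (z0 u : ℂ) (a b : ℝ) : Cfg 4 where
  c := z0
  L := LL a b
  R := fun k => {z | (z - z0) / u ∈ Rg a b k}
  q := fun k => u * Qg a b k

theorem z4 (k : ZMod 4) : k = 0 ∨ k = 1 ∨ k = 2 ∨ k = 3 := by revert k; decide

theorem Rg0 (a b : ℝ) : Rg a b 0 = RW a b := by unfold Rg; rw [if_pos rfl]
theorem Rg1 (a b : ℝ) : Rg a b 1 = RS a b := by
  unfold Rg; rw [if_neg (by decide), if_pos rfl]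
theorem Rg2 (a b : ℝ) : Rg a b 2 = RE a b := by
  unfold Rg; rw [if_neg (by decide), if_neg (by decide), if_pos rfl]
theorem Rg3 (a b : ℝ) : Rg a b 3 = RN a b := by
  unfold Rg; rw [if_neg (by decide), if_neg (by decide), if_neg (by decide)]

theorem Qg0 (a b : ℝ) : Qg a b 0 = p1 a b := by unfold Qg; rw [if_pos rfl]
theorem Qg1 (a b : ℝ) : Qg a b 1 = -p0 a b := by
  unfold Qg; rw [if_neg (by decide), if_pos rfl]
theorem Qg2 (a b : ℝ) : Qg a b 2 = -p1 a b := by
  unfold Qg; rw [if_neg (by decide), if_neg (by decide), if_pos rfl]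
theorem Qg3 (a b : ℝ) : Qg a b 3 = p0 a b := by
  unfold Qg; rw [if_neg (by decide), if_neg (by decide), if_neg (by decide)]

section

variable {a b : ℝ}

theorem rd_sq (a b : ℝ) : rd a b ^ 2 = a ^ 2 + b ^ 2 := by
  unfold rd
  rw [← Complex.normSq_eq_norm_sq, Complex.normSq_mk]
  ring

theorem rd_pos (ha : 0 < a) : 0 < rd a b := by
  unfold rd
  apply norm_pos_iff.2
  intro h
  have := congrArg Complex.re h
  simp at this
  exact ha.ne' this

theorem rd_le (ha : 0 < a) (hb : 0 < b) : rd a b ≤ a + b := by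
  have h := rd_sq a b
  have h1 := rd_pos (b := b) ha
  nlinarith [mul_pos ha hb]

theorem LL_pos (ha : 0 < a) (hb : 0 < b) : 0 < LL a b := by unfold LL; positivity

theorem min_pos' (ha : 0 < a) (hb : 0 < b) : 0 < min a b := lt_min ha hb

theorem dl_pos (ha : 0 < a) (hb : 0 < b) : 0 < dl a b := by
  unfold dl
  have := min_pos' ha hb
  positivity

/-- `16 δ ≤ min a b` (in fact `δ ≤ min / 8`) -/
theorem dl_le (ha : 0 < a) (hb : 0 < b) : 8 * dl a b ≤ min a b := by
  unfold dl
  have h := min_pos' ha hb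
  have h1 : 2 * min a b ≤ a + b := by
    have := min_le_left a b
    have := min_le_right a b
    linarith
  rw [← mul_div_assoc, div_le_iff₀ (by positivity)]
  nlinarith

/-- `η ≤ 1 / 64` -/
theorem eta_le (ha : 0 < a) (hb : 0 < b) : dl a b / LL a b ≤ 1 / 64 := by
  have h := dl_le ha hb
  have h1 : 2 * min a b ≤ a + b := by
    have := min_le_left a b
    have := min_le_right a b
    linarith
  have hL := LL_pos ha hb
  rw [div_le_iff₀ hL]
  unfold LL
  linarith

theorem eta_pos (ha : 0 < a) (hb : 0 < b) : 0 < dl a b / LL a b := div_pos (dl_pos ha hb) (LL_pos ha hb)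

theorem M_ge (ha : 0 < a) (hb : 0 < b) (w : ℂ) : dl a b / 2 ≤ M a b w := by
  unfold M
  have h1 : LL a b / 2 ≤ max (LL a b / 2) ‖w‖ := le_max_left _ _
  have hL := LL_pos ha hb
  calc dl a b / 2 = dl a b / LL a b * (LL a b / 2) := by field_simp
    _ ≤ _ := mul_le_mul_of_nonneg_left h1 (eta_pos ha hb).le

theorem M_pos (ha : 0 < a) (hb : 0 < b) (w : ℂ) : 0 < M a b w :=
  lt_of_lt_of_le (by have := dl_pos ha hb; positivity) (M_ge ha hb w)

theorem M_far {w : ℂ} (h : LL a b / 2 < ‖w‖) : M a b w = dl a b / LL a b * ‖w‖ := by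
  unfold M
  rw [max_eq_right h.le]

theorem M_near {w : ℂ} (ha : 0 < a) (hb : 0 < b) (h : ‖w‖ ≤ LL a b / 2) : M a b w = dl a b / 2 := by
  unfold M
  rw [max_eq_left h]
  have := LL_pos ha hb
  field_simp

/-- the decomposition along the NE diagonal -/
theorem norm_X (ha : 0 < a) (w : ℂ) :
    ‖w‖ ^ 2 = X a b w ^ 2 + ((a * w.re + b * w.im) / rd a b) ^ 2 := by
  have hr := rd_pos (b := b) ha
  have h := rd_sq a b
  unfold X
  rw [← Complex.normSq_eq_norm_sq, Complex.normSq_apply, div_pow, div_pow, h]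
  have h2 : a ^ 2 + b ^ 2 ≠ 0 := by rw [← h]; positivity
  field_simp
  ring

/-- the decomposition along the NW diagonal -/
theorem norm_Y (ha : 0 < a) (w : ℂ) :
    ‖w‖ ^ 2 = Y a b w ^ 2 + ((-a * w.re + b * w.im) / rd a b) ^ 2 := by
  have hr := rd_pos (b := b) ha
  have h := rd_sq a b
  unfold Y
  rw [← Complex.normSq_eq_norm_sq, Complex.normSq_apply, div_pow, div_pow, h]
  have h2 : a ^ 2 + b ^ 2 ≠ 0 := by rw [← h]; positivity
  field_simp
  ring

theorem abs_X_le (ha : 0 < a) (w : ℂ) : |X a b w| ≤ ‖w‖ := by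
  have h := norm_X (b := b) ha w
  apply abs_le_of_sq_le_sq _ (norm_nonneg w)
  nlinarith [sq_nonneg ((a * w.re + b * w.im) / rd a b)]

theorem abs_Y_le (ha : 0 < a) (w : ℂ) : |Y a b w| ≤ ‖w‖ := by
  have h := norm_Y (b := b) ha w
  apply abs_le_of_sq_le_sq _ (norm_nonneg w)
  nlinarith [sq_nonneg ((-a * w.re + b * w.im) / rd a b)]

theorem X_sub (w w' : ℂ) : X a b (w - w') = X a b w - X a b w' := by
  unfold X
  rw [Complex.sub_re, Complex.sub_im]
  ring

theorem Y_sub (w w' : ℂ) : Y a b (w - w') = Y a b w - Y a b w' := by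
  unfold Y
  rw [Complex.sub_re, Complex.sub_im]
  ring

theorem X_add (w w' : ℂ) : X a b (w + w') = X a b w + X a b w' := by
  unfold X
  rw [Complex.add_re, Complex.add_im]
  ring

theorem Y_add (w w' : ℂ) : Y a b (w + w') = Y a b w + Y a b w' := by
  unfold Y
  rw [Complex.add_re, Complex.add_im]
  ring

theorem X_smul (t : ℝ) (w : ℂ) : X a b ((t : ℂ) * w) = t * X a b w := by
  unfold X
  rw [Complex.re_ofReal_mul, Complex.im_ofReal_mul]
  ring

theorem Y_smul (t : ℝ) (w : ℂ) : Y a b ((t : ℂ) * w) = t * Y a b w := by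
  unfold Y
  rw [Complex.re_ofReal_mul, Complex.im_ofReal_mul]
  ring

theorem X_neg (w : ℂ) : X a b (-w) = -X a b w := by
  unfold X
  rw [Complex.neg_re, Complex.neg_im]
  ring

theorem Y_neg (w : ℂ) : Y a b (-w) = -Y a b w := by
  unfold Y
  rw [Complex.neg_re, Complex.neg_im]
  ring

theorem X_p0 : X a b (p0 a b) = 0 := by
  unfold X p0
  simp only
  ring

theorem Y_p1 : Y a b (p1 a b) = 0 := by
  unfold Y p1
  simp only
  ring

/-- `2ab / r²` -/
def cc (a b : ℝ) : ℝ := 2 * a * b / rd a b ^ 2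
/-- `(a² - b²) / r²` -/
def dd (a b : ℝ) : ℝ := (a ^ 2 - b ^ 2) / rd a b ^ 2

theorem Y_p0 : Y a b (p0 a b) = cc a b := by
  unfold Y p0 cc
  simp only
  ring

theorem X_p1 : X a b (p1 a b) = cc a b := by
  unfold X p1 cc
  simp only
  ring

theorem X_Ip0 (ha : 0 < a) : X a b (Complex.I * p0 a b) = 1 := by
  have hr := rd_pos (b := b) ha
  have h := rd_sq a b
  unfold X p0
  simp only [Complex.mul_re, Complex.mul_im, Complex.I_re, Complex.I_im]
  field_simp
  rw [h]; ring

theorem Y_Ip0 : Y a b (Complex.I * p0 a b) = dd a b := by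
  unfold Y p0 dd
  simp only [Complex.mul_re, Complex.mul_im, Complex.I_re, Complex.I_im]
  ring

theorem Y_Ip1 (ha : 0 < a) : Y a b (Complex.I * p1 a b) = -1 := by
  have hr := rd_pos (b := b) ha
  have h := rd_sq a b
  unfold Y p1
  simp only [Complex.mul_re, Complex.mul_im, Complex.I_re, Complex.I_im]
  field_simp
  rw [h]; ring

theorem X_Ip1 : X a b (Complex.I * p1 a b) = -dd a b := by
  unfold X p1 dd
  simp only [Complex.mul_re, Complex.mul_im, Complex.I_re, Complex.I_im]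
  ring

theorem norm_p0 (ha : 0 < a) : ‖p0 a b‖ = 1 := by
  have hr := rd_pos (b := b) ha
  have h := rd_sq a b
  have : ‖p0 a b‖ ^ 2 = 1 := by
    rw [← Complex.normSq_eq_norm_sq]
    unfold p0
    rw [Complex.normSq_mk]
    field_simp
    rw [h]
  have h0 := norm_nonneg (p0 a b)
  nlinarith

theorem norm_p1 (ha : 0 < a) : ‖p1 a b‖ = 1 := by
  have hr := rd_pos (b := b) ha
  have h := rd_sq a b
  have : ‖p1 a b‖ ^ 2 = 1 := by
    rw [← Complex.normSq_eq_norm_sq]
    unfold p1
    rw [Complex.normSq_mk]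
    field_simp
    rw [h]
  have h0 := norm_nonneg (p1 a b)
  nlinarith

theorem dec_p0 (ha : 0 < a) (w : ℂ) : w =
    (((a * w.re + b * w.im) / rd a b : ℝ) : ℂ) * p0 a b + ((X a b w : ℝ) : ℂ) * (Complex.I * p0 a b) := by
  have hr := rd_pos (b := b) ha
  have h := rd_sq a b
  apply Complex.ext
  · rw [Complex.add_re, Complex.re_ofReal_mul, Complex.re_ofReal_mul]
    unfold X p0
    simp only [Complex.mul_re, Complex.I_re, Complex.I_im]
    field_simp
    rw [h]; ring
  · rw [Complex.add_im, Complex.im_ofReal_mul, Complex.im_ofReal_mul]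
    unfold X p0
    simp only [Complex.mul_im, Complex.I_re, Complex.I_im]
    field_simp
    rw [h]; ring

theorem dec_p1 (ha : 0 < a) (w : ℂ) : w =
    (((-a * w.re + b * w.im) / rd a b : ℝ) : ℂ) * p1 a b - ((Y a b w : ℝ) : ℂ) * (Complex.I * p1 a b) := by
  have hr := rd_pos (b := b) ha
  have h := rd_sq a b
  apply Complex.ext
  · rw [Complex.sub_re, Complex.re_ofReal_mul, Complex.re_ofReal_mul]
    unfold Y p1
    simp only [Complex.mul_re, Complex.I_re, Complex.I_im]
    field_simp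
    rw [h]; ring
  · rw [Complex.sub_im, Complex.im_ofReal_mul, Complex.im_ofReal_mul]
    unfold Y p1
    simp only [Complex.mul_im, Complex.I_re, Complex.I_im]
    field_simp
    rw [h]; ring

/-- far away, the sign conditions give the edge conditions -/
theorem sec_re (ha : 0 < a) (hb : 0 < b) {w : ℂ} (h : LL a b / 2 < ‖w‖)
    (h1 : |a * w.im| < b * |w.re|) : a < |w.re| := by
  have h2 : a ^ 2 * w.im ^ 2 < b ^ 2 * w.re ^ 2 := by
    have := mul_self_lt_mul_self (abs_nonneg _) h1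
    have e1 : |a * w.im| * |a * w.im| = a ^ 2 * w.im ^ 2 := by rw [abs_mul_abs_self]; ring
    have e2 : b * |w.re| * (b * |w.re|) = b ^ 2 * w.re ^ 2 := by
      have := sq_abs w.re; nlinarith
    rw [e1, e2] at this
    exact this
  have h3 : ‖w‖ ^ 2 = w.re ^ 2 + w.im ^ 2 := by
    rw [← Complex.normSq_eq_norm_sq, Complex.normSq_apply]; ring
  have h4 : (2 * (a + b)) ^ 2 < ‖w‖ ^ 2 := by
    have : 2 * (a + b) < ‖w‖ := by unfold LL at h; linarith
    exact pow_lt_pow_left₀ this (by positivity) (by norm_num)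
  by_contra h5
  push Not at h5
  have h6 : w.re ^ 2 ≤ a ^ 2 := by
    have := sq_abs w.re
    have := abs_nonneg w.re
    nlinarith
  have h7 : a ^ 2 * ‖w‖ ^ 2 ≤ (a ^ 2 + b ^ 2) * a ^ 2 := by
    rw [h3]; nlinarith [sq_nonneg a, sq_nonneg b]
  have h8 : a ^ 2 * (2 * (a + b)) ^ 2 < (a ^ 2 + b ^ 2) * a ^ 2 :=
    lt_of_lt_of_le (mul_lt_mul_of_pos_left h4 (by positivity)) h7
  have h9 : (2 * (a + b)) ^ 2 < a ^ 2 + b ^ 2 := by
    by_contra h9
    push Not at h9
    nlinarith [mul_le_mul_of_nonneg_left h9 (sq_nonneg a)]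
  nlinarith [mul_pos ha hb]

theorem sec_im (ha : 0 < a) (hb : 0 < b) {w : ℂ} (h : LL a b / 2 < ‖w‖)
    (h1 : b * |w.re| < |a * w.im|) : b < |w.im| := by
  have h2 : b ^ 2 * w.re ^ 2 < a ^ 2 * w.im ^ 2 := by
    have := mul_self_lt_mul_self (by positivity) h1
    have e1 : |a * w.im| * |a * w.im| = a ^ 2 * w.im ^ 2 := by rw [abs_mul_abs_self]; ring
    have e2 : b * |w.re| * (b * |w.re|) = b ^ 2 * w.re ^ 2 := by
      have := sq_abs w.re; nlinarith
    rw [e1, e2] at this
    exact this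
  have h3 : ‖w‖ ^ 2 = w.re ^ 2 + w.im ^ 2 := by
    rw [← Complex.normSq_eq_norm_sq, Complex.normSq_apply]; ring
  have h4 : (2 * (a + b)) ^ 2 < ‖w‖ ^ 2 := by
    have : 2 * (a + b) < ‖w‖ := by unfold LL at h; linarith
    exact pow_lt_pow_left₀ this (by positivity) (by norm_num)
  by_contra h5
  push Not at h5
  have h6 : w.im ^ 2 ≤ b ^ 2 := by
    have := sq_abs w.im
    have := abs_nonneg w.im
    nlinarith
  have h7 : b ^ 2 * ‖w‖ ^ 2 ≤ (a ^ 2 + b ^ 2) * b ^ 2 := by
    rw [h3]; nlinarith [sq_nonneg a, sq_nonneg b]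
  have h8 : b ^ 2 * (2 * (a + b)) ^ 2 < (a ^ 2 + b ^ 2) * b ^ 2 :=
    lt_of_lt_of_le (mul_lt_mul_of_pos_left h4 (by positivity)) h7
  have h9 : (2 * (a + b)) ^ 2 < a ^ 2 + b ^ 2 := by
    by_contra h9
    push Not at h9
    nlinarith [mul_le_mul_of_nonneg_left h9 (sq_nonneg b)]
  nlinarith [mul_pos ha hb]

theorem X_pos_iff (ha : 0 < a) {w : ℂ} : 0 < X a b w ↔ b * w.re < a * w.im := by
  have hr := rd_pos (b := b) ha
  unfold X
  rw [lt_div_iff₀ hr, zero_mul, sub_pos]

theorem X_neg_iff (ha : 0 < a) {w : ℂ} : X a b w < 0 ↔ a * w.im < b * w.re := by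
  have hr := rd_pos (b := b) ha
  unfold X
  rw [div_lt_iff₀ hr, zero_mul, sub_neg]

theorem Y_pos_iff (ha : 0 < a) {w : ℂ} : 0 < Y a b w ↔ -(b * w.re) < a * w.im := by
  have hr := rd_pos (b := b) ha
  unfold Y
  rw [lt_div_iff₀ hr, zero_mul]
  constructor <;> intro h <;> linarith

theorem Y_neg_iff (ha : 0 < a) {w : ℂ} : Y a b w < 0 ↔ a * w.im < -(b * w.re) := by
  have hr := rd_pos (b := b) ha
  unfold Y
  rw [div_lt_iff₀ hr, zero_mul]
  constructor <;> intro h <;> linarith

/-- far away, the regions are given by the sign conditions -/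
theorem RW_far (ha : 0 < a) (hb : 0 < b) {w : ℂ} (h : LL a b / 2 < ‖w‖) (h1 : M a b w < X a b w)
    (h2 : Y a b w < -M a b w) : w ∈ RW a b := by
  have hM := M_pos ha hb w
  have e1 := (X_pos_iff ha).1 (hM.trans h1)
  have e2 := (Y_neg_iff ha).1 (h2.trans (neg_neg_of_pos hM))
  have e3 : w.re < 0 := by
    by_contra h3
    push Not at h3
    nlinarith
  have := sec_re ha hb h (by rw [abs_of_neg e3, abs_lt]; constructor <;> linarith)
  rw [abs_of_neg e3] at this
  exact ⟨by linarith, h1, h2⟩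

theorem RE_far (ha : 0 < a) (hb : 0 < b) {w : ℂ} (h : LL a b / 2 < ‖w‖) (h1 : X a b w < -M a b w)
    (h2 : M a b w < Y a b w) : w ∈ RE a b := by
  have hM := M_pos ha hb w
  have e1 := (X_neg_iff ha).1 (h1.trans (neg_neg_of_pos hM))
  have e2 := (Y_pos_iff ha).1 (hM.trans h2)
  have e3 : 0 < w.re := by
    by_contra h3
    push Not at h3
    nlinarith
  have := sec_re ha hb h (by rw [abs_of_pos e3, abs_lt]; constructor <;> linarith)
  rw [abs_of_pos e3] at this
  exact ⟨by linarith, h1, h2⟩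

theorem RS_far (ha : 0 < a) (hb : 0 < b) {w : ℂ} (h : LL a b / 2 < ‖w‖) (h1 : X a b w < -M a b w)
    (h2 : Y a b w < -M a b w) : w ∈ RS a b := by
  have hM := M_pos ha hb w
  have e1 := (X_neg_iff ha).1 (h1.trans (neg_neg_of_pos hM))
  have e2 := (Y_neg_iff ha).1 (h2.trans (neg_neg_of_pos hM))
  have e3 : w.im < 0 := by
    by_contra h3
    push Not at h3
    nlinarith
  have e4 : a * w.im < 0 := mul_neg_of_pos_of_neg ha e3
  have := sec_im ha hb h (by
    rw [abs_of_neg e4, ← abs_of_pos hb, ← abs_mul, abs_lt]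
    constructor <;> linarith)
  rw [abs_of_neg e3] at this
  exact ⟨by linarith, h1, h2⟩

theorem RN_far (ha : 0 < a) (hb : 0 < b) {w : ℂ} (h : LL a b / 2 < ‖w‖) (h1 : M a b w < X a b w)
    (h2 : M a b w < Y a b w) : w ∈ RN a b := by
  have hM := M_pos ha hb w
  have e1 := (X_pos_iff ha).1 (hM.trans h1)
  have e2 := (Y_pos_iff ha).1 (hM.trans h2)
  have e3 : 0 < w.im := by
    by_contra h3
    push Not at h3
    nlinarith
  have e4 : 0 < a * w.im := mul_pos ha e3
  have := sec_im ha hb h (by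
    rw [abs_of_pos e4, ← abs_of_pos hb, ← abs_mul, abs_lt]
    constructor <;> linarith)
  rw [abs_of_pos e3] at this
  exact ⟨by linarith, h1, h2⟩

/-! ### topology of the regions -/

theorem cont_M (a b : ℝ) : Continuous (M a b) := by
  unfold M; fun_prop

theorem cont_X (a b : ℝ) : Continuous (X a b) := by
  unfold X
  exact ((continuous_const.mul Complex.continuous_im).sub
    (continuous_const.mul Complex.continuous_re)).div_const _

theorem cont_Y (a b : ℝ) : Continuous (Y a b) := by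
  unfold Y
  exact ((continuous_const.mul Complex.continuous_im).add
    (continuous_const.mul Complex.continuous_re)).div_const _

theorem open_Rg (a b : ℝ) (k : ZMod 4) : IsOpen (Rg a b k) := by
  have hM := cont_M a b
  have hX := cont_X a b
  have hY := cont_Y a b
  rcases z4 k with rfl | rfl | rfl | rfl
  · rw [Rg0]
    exact (isOpen_lt Complex.continuous_re continuous_const).inter
      ((isOpen_lt hM hX).inter (isOpen_lt hY hM.neg))
  · rw [Rg1]
    exact (isOpen_lt Complex.continuous_im continuous_const).inter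
      ((isOpen_lt hX hM.neg).inter (isOpen_lt hY hM.neg))
  · rw [Rg2]
    exact (isOpen_lt continuous_const Complex.continuous_re).inter
      ((isOpen_lt hX hM.neg).inter (isOpen_lt hM hY))
  · rw [Rg3]
    exact (isOpen_lt continuous_const Complex.continuous_im).inter
      ((isOpen_lt hM hX).inter (isOpen_lt hM hY))

theorem M_conv (ha : 0 < a) (hb : 0 < b) {s t : ℝ} (hs : 0 ≤ s) (ht : 0 ≤ t) (hst : s + t = 1)
    (v w : ℂ) : M a b ((s : ℂ) * v + (t : ℂ) * w) ≤ s * M a b v + t * M a b w := by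
  have he := eta_pos ha hb
  have h1 : ‖(s : ℂ) * v + (t : ℂ) * w‖ ≤ s * ‖v‖ + t * ‖w‖ := by
    refine (norm_add_le _ _).trans (le_of_eq ?_)
    rw [norm_mul, norm_mul, Complex.norm_real, Complex.norm_real, Real.norm_of_nonneg hs,
      Real.norm_of_nonneg ht]
  have h2 : max (LL a b / 2) ‖(s : ℂ) * v + (t : ℂ) * w‖ ≤
      s * max (LL a b / 2) ‖v‖ + t * max (LL a b / 2) ‖w‖ := by
    apply max_le
    · calc LL a b / 2 = s * (LL a b / 2) + t * (LL a b / 2) := by rw [← add_mul, hst, one_mul]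
        _ ≤ _ := add_le_add (mul_le_mul_of_nonneg_left (le_max_left _ _) hs)
          (mul_le_mul_of_nonneg_left (le_max_left _ _) ht)
    · exact h1.trans (add_le_add (mul_le_mul_of_nonneg_left (le_max_right _ _) hs)
          (mul_le_mul_of_nonneg_left (le_max_right _ _) ht))
  unfold M
  calc _ ≤ dl a b / LL a b * (s * max (LL a b / 2) ‖v‖ + t * max (LL a b / 2) ‖w‖) :=
        mul_le_mul_of_nonneg_left h2 he.le
    _ = _ := by ring

theorem X_conv {s t : ℝ} (v w : ℂ) : X a b ((s : ℂ) * v + (t : ℂ) * w) = s * X a b v + t * X a b w := by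
  rw [X_add, X_smul, X_smul]

theorem Y_conv {s t : ℝ} (v w : ℂ) : Y a b ((s : ℂ) * v + (t : ℂ) * w) = s * Y a b v + t * Y a b w := by
  rw [Y_add, Y_smul, Y_smul]

theorem lt_conv {s t x y x' y' : ℝ} (hs : 0 ≤ s) (ht : 0 ≤ t) (hst : s + t = 1) (h : x < y)
    (h' : x' < y') : s * x + t * x' < s * y + t * y' := by
  rcases hs.lt_or_eq with hs' | hs'
  · have := mul_lt_mul_of_pos_left h hs'
    have := mul_le_mul_of_nonneg_left h'.le ht
    linarith
  · subst hs'
    have : t = 1 := by linarith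
    subst this
    linarith

theorem conv_Rg (ha : 0 < a) (hb : 0 < b) (k : ZMod 4) : Convex ℝ (Rg a b k) := by
  intro v hv w hw s t hs ht hst
  have hM := M_conv ha hb hs ht hst v w
  have e : s • v + t • w = (s : ℂ) * v + (t : ℂ) * w := by
    rw [Complex.real_smul, Complex.real_smul]
  rw [e]
  have eX := X_conv (a := a) (b := b) (s := s) (t := t) v w
  have eY := Y_conv (a := a) (b := b) (s := s) (t := t) v w
  have er : ((s : ℂ) * v + (t : ℂ) * w).re = s * v.re + t * w.re := by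
    rw [Complex.add_re, Complex.re_ofReal_mul, Complex.re_ofReal_mul]
  have ei : ((s : ℂ) * v + (t : ℂ) * w).im = s * v.im + t * w.im := by
    rw [Complex.add_im, Complex.im_ofReal_mul, Complex.im_ofReal_mul]
  have ec : ∀ c : ℝ, s * c + t * c = c := fun c => by rw [← add_mul, hst, one_mul]
  rcases z4 k with rfl | rfl | rfl | rfl
  · rw [Rg0] at *
    obtain ⟨v1, v2, v3⟩ := hv
    obtain ⟨w1, w2, w3⟩ := hw
    have l1 := lt_conv hs ht hst v1 w1
    have l2 := lt_conv hs ht hst v2 w2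
    have l3 := lt_conv hs ht hst v3 w3
    have := ec (-a)
    refine ⟨by rw [er]; linarith, by rw [eX]; linarith, by rw [eY]; linarith⟩
  · rw [Rg1] at *
    obtain ⟨v1, v2, v3⟩ := hv
    obtain ⟨w1, w2, w3⟩ := hw
    have l1 := lt_conv hs ht hst v1 w1
    have l2 := lt_conv hs ht hst v2 w2
    have l3 := lt_conv hs ht hst v3 w3
    have := ec (-b)
    refine ⟨by rw [ei]; linarith, by rw [eX]; linarith, by rw [eY]; linarith⟩
  · rw [Rg2] at *
    obtain ⟨v1, v2, v3⟩ := hv
    obtain ⟨w1, w2, w3⟩ := hw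
    have l1 := lt_conv hs ht hst v1 w1
    have l2 := lt_conv hs ht hst v2 w2
    have l3 := lt_conv hs ht hst v3 w3
    have := ec a
    refine ⟨by rw [er]; linarith, by rw [eX]; linarith, by rw [eY]; linarith⟩
  · rw [Rg3] at *
    obtain ⟨v1, v2, v3⟩ := hv
    obtain ⟨w1, w2, w3⟩ := hw
    have l1 := lt_conv hs ht hst v1 w1
    have l2 := lt_conv hs ht hst v2 w2
    have l3 := lt_conv hs ht hst v3 w3
    have := ec b
    refine ⟨by rw [ei]; linarith, by rw [eX]; linarith, by rw [eY]; linarith⟩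

/-! ### nonempty -/

theorem ne_Rg (ha : 0 < a) (hb : 0 < b) (k : ZMod 4) : (Rg a b k).Nonempty := by
  have hL := LL_pos ha hb
  have hr := rd_pos (b := b) ha
  have hrl := rd_le ha hb
  have he := eta_le ha hb
  have hmin := min_pos' ha hb
  -- the point at distance `L` on an axis
  have key : ∀ x : ℝ, 0 < x → min a b ≤ x → dl a b / LL a b * LL a b < x * LL a b / rd a b := by
    intro x hx hmx
    have h1 := dl_le ha hb
    rw [div_mul_cancel₀ _ hL.ne', lt_div_iff₀ hr]
    have h2 : dl a b * rd a b ≤ dl a b * (a + b) := mul_le_mul_of_nonneg_left hrl (dl_pos ha hb).le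
    have h3 : dl a b * (a + b) ≤ x * (a + b) := mul_le_mul_of_nonneg_right (by linarith) (by linarith)
    unfold LL
    nlinarith [mul_pos hx (add_pos ha hb)]
  have key' : ∀ w : ℂ, ‖w‖ = LL a b → M a b w = dl a b / LL a b * LL a b := fun w hw => by
    rw [M_far (by rw [hw]; linarith), hw]
  rcases z4 k with rfl | rfl | rfl | rfl
  · rw [Rg0]
    have hn : ‖(⟨-LL a b, 0⟩ : ℂ)‖ = LL a b := by
      have : (⟨-LL a b, 0⟩ : ℂ) = ((-LL a b : ℝ) : ℂ) := rfl
      rw [this, Complex.norm_real, norm_neg, Real.norm_of_nonneg hL.le]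
    have k1 := key b hb (min_le_right _ _)
    refine ⟨⟨-LL a b, 0⟩, RW_far ha hb (by rw [hn]; linarith) ?_ ?_⟩
    · rw [key' _ hn]
      unfold X
      simp only
      rw [show a * 0 - b * -LL a b = b * LL a b by ring]
      exact k1
    · rw [key' _ hn]
      unfold Y
      simp only
      rw [show a * 0 + b * -LL a b = -(b * LL a b) by ring, neg_div]
      exact neg_lt_neg k1
  · rw [Rg1]
    have hn : ‖(⟨0, -LL a b⟩ : ℂ)‖ = LL a b := by
      have : (⟨0, -LL a b⟩ : ℂ) = ((-LL a b : ℝ) : ℂ) * Complex.I := by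
        apply Complex.ext <;> simp
      rw [this, norm_mul, Complex.norm_real, norm_neg, Real.norm_of_nonneg hL.le, Complex.norm_I,
        mul_one]
    have k1 := key a ha (min_le_left _ _)
    refine ⟨⟨0, -LL a b⟩, RS_far ha hb (by rw [hn]; linarith) ?_ ?_⟩
    · rw [key' _ hn]
      unfold X
      simp only
      rw [show a * -LL a b - b * 0 = -(a * LL a b) by ring, neg_div]
      exact neg_lt_neg k1
    · rw [key' _ hn]
      unfold Y
      simp only
      rw [show a * -LL a b + b * 0 = -(a * LL a b) by ring, neg_div]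
      exact neg_lt_neg k1
  · rw [Rg2]
    have hn : ‖(⟨LL a b, 0⟩ : ℂ)‖ = LL a b := by
      have : (⟨LL a b, 0⟩ : ℂ) = ((LL a b : ℝ) : ℂ) := rfl
      rw [this, Complex.norm_real, Real.norm_of_nonneg hL.le]
    have k1 := key b hb (min_le_right _ _)
    refine ⟨⟨LL a b, 0⟩, RE_far ha hb (by rw [hn]; linarith) ?_ ?_⟩
    · rw [key' _ hn]
      unfold X
      simp only
      rw [show a * 0 - b * LL a b = -(b * LL a b) by ring, neg_div]
      exact neg_lt_neg k1
    · rw [key' _ hn]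
      unfold Y
      simp only
      rw [show a * 0 + b * LL a b = b * LL a b by ring]
      exact k1
  · rw [Rg3]
    have hn : ‖(⟨0, LL a b⟩ : ℂ)‖ = LL a b := by
      have : (⟨0, LL a b⟩ : ℂ) = ((LL a b : ℝ) : ℂ) * Complex.I := by
        apply Complex.ext <;> simp
      rw [this, norm_mul, Complex.norm_real, Real.norm_of_nonneg hL.le, Complex.norm_I, mul_one]
    have k1 := key a ha (min_le_left _ _)
    refine ⟨⟨0, LL a b⟩, RN_far ha hb (by rw [hn]; linarith) ?_ ?_⟩
    · rw [key' _ hn]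
      unfold X
      simp only
      rw [show a * LL a b - b * 0 = a * LL a b by ring]
      exact k1
    · rw [key' _ hn]
      unfold Y
      simp only
      rw [show a * LL a b + b * 0 = a * LL a b by ring]
      exact k1

/-! ### separation -/

theorem Rg_abs (ha : 0 < a) (hb : 0 < b) {k : ZMod 4} {w : ℂ} (h : w ∈ Rg a b k) :
    M a b w < |X a b w| ∧ M a b w < |Y a b w| := by
  have hM := M_pos ha hb w
  rcases z4 k with rfl | rfl | rfl | rfl
  · rw [Rg0] at h
    obtain ⟨-, h1, h2⟩ := h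
    exact ⟨lt_abs.2 (Or.inl h1), lt_abs.2 (Or.inr (by linarith))⟩
  · rw [Rg1] at h
    obtain ⟨-, h1, h2⟩ := h
    exact ⟨lt_abs.2 (Or.inr (by linarith)), lt_abs.2 (Or.inr (by linarith))⟩
  · rw [Rg2] at h
    obtain ⟨-, h1, h2⟩ := h
    exact ⟨lt_abs.2 (Or.inr (by linarith)), lt_abs.2 (Or.inl (by linarith))⟩
  · rw [Rg3] at h
    obtain ⟨-, h1, h2⟩ := h
    exact ⟨lt_abs.2 (Or.inl h1), lt_abs.2 (Or.inl (by linarith))⟩

theorem far_X (ha : 0 < a) (hb : 0 < b) {v w : ℂ} (h1 : X a b v < -M a b v) (h2 : M a b w < X a b w) :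
    dl a b ≤ ‖v - w‖ := by
  have e1 := M_ge ha hb v
  have e2 := M_ge ha hb w
  have e3 := abs_X_le (b := b) ha (v - w)
  rw [X_sub] at e3
  have e4 := neg_abs_le (X a b v - X a b w)
  linarith

theorem far_Y (ha : 0 < a) (hb : 0 < b) {v w : ℂ} (h1 : Y a b v < -M a b v) (h2 : M a b w < Y a b w) :
    dl a b ≤ ‖v - w‖ := by
  have e1 := M_ge ha hb v
  have e2 := M_ge ha hb w
  have e3 := abs_Y_le (b := b) ha (v - w)
  rw [Y_sub] at e3
  have e4 := neg_abs_le (Y a b v - Y a b w)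
  linarith

theorem far_Rg (ha : 0 < a) (hb : 0 < b) {i j : ZMod 4} (hij : i ≠ j) {v w : ℂ}
    (hv : v ∈ Rg a b i) (hw : w ∈ Rg a b j) : dl a b ≤ ‖v - w‖ := by
  rcases z4 i with rfl | rfl | rfl | rfl <;> rcases z4 j with rfl | rfl | rfl | rfl <;>
    first
    | exact absurd rfl hij
    | skip
  · rw [Rg0] at hv; rw [Rg1] at hw
    rw [norm_sub_rev]; exact far_X ha hb hw.2.1 hv.2.1
  · rw [Rg0] at hv; rw [Rg2] at hw
    rw [norm_sub_rev]; exact far_X ha hb hw.2.1 hv.2.1
  · rw [Rg0] at hv; rw [Rg3] at hw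
    exact far_Y ha hb hv.2.2 hw.2.2
  · rw [Rg1] at hv; rw [Rg0] at hw
    exact far_X ha hb hv.2.1 hw.2.1
  · rw [Rg1] at hv; rw [Rg2] at hw
    exact far_Y ha hb hv.2.2 hw.2.2
  · rw [Rg1] at hv; rw [Rg3] at hw
    exact far_Y ha hb hv.2.2 hw.2.2
  · rw [Rg2] at hv; rw [Rg0] at hw
    exact far_X ha hb hv.2.1 hw.2.1
  · rw [Rg2] at hv; rw [Rg1] at hw
    rw [norm_sub_rev]; exact far_Y ha hb hw.2.2 hv.2.2
  · rw [Rg2] at hv; rw [Rg3] at hw
    exact far_X ha hb hv.2.1 hw.2.1
  · rw [Rg3] at hv; rw [Rg0] at hw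
    rw [norm_sub_rev]; exact far_Y ha hb hw.2.2 hv.2.2
  · rw [Rg3] at hv; rw [Rg1] at hw
    rw [norm_sub_rev]; exact far_X ha hb hw.2.1 hv.2.1
  · rw [Rg3] at hv; rw [Rg2] at hw
    rw [norm_sub_rev]; exact far_X ha hb hw.2.1 hv.2.1

/-! ### tentacles far away -/

theorem tent_Rg (ha : 0 < a) (hb : 0 < b) {w : ℂ} (h : LL a b / 2 < ‖w‖) :
    (∀ k, w ∉ Rg a b k) ↔ ∃ k : ZMod 4, ∃ t : ℝ, 0 ≤ t ∧
      ‖w - (t : ℂ) * Qg a b k‖ ≤ dl a b / LL a b * ‖w‖ := by
  have hM := M_far h
  constructor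
  · intro h0
    by_contra hcon
    push Not at hcon
    have hX : M a b w < |X a b w| := by
      have hd := dec_p0 (b := b) ha w
      set P := (a * w.re + b * w.im) / rd a b with hP
      have e1 : ‖w - (P : ℂ) * p0 a b‖ = |X a b w| := by
        have : w - (P : ℂ) * p0 a b = ((X a b w : ℝ) : ℂ) * (Complex.I * p0 a b) := by
          nth_rw 1 [hd]; ring
        rw [this, norm_mul, norm_mul, Complex.norm_I, norm_p0 ha, Complex.norm_real, one_mul, mul_one]
        rfl
      rw [hM, ← e1]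
      rcases le_total 0 P with hp | hp
      · have := hcon 3 P hp
        rwa [Qg3] at this
      · have := hcon 1 (-P) (by linarith)
        rw [Qg1] at this
        rwa [show w - ((-P : ℝ) : ℂ) * -p0 a b = w - (P : ℂ) * p0 a b by push_cast; ring] at this
    have hY : M a b w < |Y a b w| := by
      have hd := dec_p1 (b := b) ha w
      set P := (-a * w.re + b * w.im) / rd a b with hP
      have e1 : ‖w - (P : ℂ) * p1 a b‖ = |Y a b w| := by
        have : w - (P : ℂ) * p1 a b = -(((Y a b w : ℝ) : ℂ) * (Complex.I * p1 a b)) := by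
          nth_rw 1 [hd]; ring
        rw [this, norm_neg, norm_mul, norm_mul, Complex.norm_I, norm_p1 ha, Complex.norm_real,
          one_mul, mul_one]
        rfl
      rw [hM, ← e1]
      rcases le_total 0 P with hp | hp
      · have := hcon 0 P hp
        rwa [Qg0] at this
      · have := hcon 2 (-P) (by linarith)
        rw [Qg2] at this
        rwa [show w - ((-P : ℝ) : ℂ) * -p1 a b = w - (P : ℂ) * p1 a b by push_cast; ring] at this
    rcases lt_abs.1 hX with x1 | x1 <;> rcases lt_abs.1 hY with y1 | y1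
    · exact h0 3 (by rw [Rg3]; exact RN_far ha hb h x1 y1)
    · exact h0 0 (by rw [Rg0]; exact RW_far ha hb h x1 (by linarith))
    · exact h0 2 (by rw [Rg2]; exact RE_far ha hb h (by linarith) y1)
    · exact h0 1 (by rw [Rg1]; exact RS_far ha hb h (by linarith) (by linarith))
  · rintro ⟨k, t, ht, hk⟩ j hj
    rw [← hM] at hk
    obtain ⟨hX, hY⟩ := Rg_abs ha hb hj
    have eX : ∀ q : ℂ, X a b q = 0 → |X a b w| ≤ ‖w - (t : ℂ) * q‖ := by
      intro q hq
      have := abs_X_le (b := b) ha (w - (t : ℂ) * q)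
      rwa [X_sub, X_smul, hq, mul_zero, sub_zero] at this
    have eY : ∀ q : ℂ, Y a b q = 0 → |Y a b w| ≤ ‖w - (t : ℂ) * q‖ := by
      intro q hq
      have := abs_Y_le (b := b) ha (w - (t : ℂ) * q)
      rwa [Y_sub, Y_smul, hq, mul_zero, sub_zero] at this
    rcases z4 k with rfl | rfl | rfl | rfl
    · rw [Qg0] at hk
      have := eY _ Y_p1
      linarith
    · rw [Qg1] at hk
      have := eX _ (by rw [X_neg, X_p0, neg_zero])
      linarith
    · rw [Qg2] at hk
      have := eY _ (by rw [Y_neg, Y_p1, neg_zero])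
      linarith
    · rw [Qg3] at hk
      have := eX _ X_p0
      linarith

/-! ### sectors -/

theorem exp_I (ψ : ℝ) : Complex.exp (ψ * Complex.I) =
    ((Real.cos ψ : ℝ) : ℂ) + ((Real.sin ψ : ℝ) : ℂ) * Complex.I := by
  rw [Complex.exp_mul_I, Complex.ofReal_cos, Complex.ofReal_sin]

theorem X_rot (q : ℂ) (ψ : ℝ) : X a b (q * Complex.exp (ψ * Complex.I)) =
    Real.cos ψ * X a b q + Real.sin ψ * X a b (Complex.I * q) := by
  rw [exp_I, show q * (((Real.cos ψ : ℝ) : ℂ) + ((Real.sin ψ : ℝ) : ℂ) * Complex.I) =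
    ((Real.cos ψ : ℝ) : ℂ) * q + ((Real.sin ψ : ℝ) : ℂ) * (Complex.I * q) by ring, X_add, X_smul,
    X_smul]

theorem Y_rot (q : ℂ) (ψ : ℝ) : Y a b (q * Complex.exp (ψ * Complex.I)) =
    Real.cos ψ * Y a b q + Real.sin ψ * Y a b (Complex.I * q) := by
  rw [exp_I, show q * (((Real.cos ψ : ℝ) : ℂ) + ((Real.sin ψ : ℝ) : ℂ) * Complex.I) =
    ((Real.cos ψ : ℝ) : ℂ) * q + ((Real.sin ψ : ℝ) : ℂ) * (Complex.I * q) by ring, Y_add, Y_smul,
    Y_smul]

theorem norm_rot (ha : 0 < a) (k : ZMod 4) (ψ : ℝ) : ‖Qg a b k * Complex.exp (ψ * Complex.I)‖ = 1 := by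
  rw [norm_mul, Complex.norm_exp_ofReal_mul_I, mul_one]
  rcases z4 k with rfl | rfl | rfl | rfl
  · rw [Qg0]; exact norm_p1 ha
  · rw [Qg1, norm_neg]; exact norm_p0 ha
  · rw [Qg2, norm_neg]; exact norm_p1 ha
  · rw [Qg3]; exact norm_p0 ha

/-- the inequalities at the angle `arcsin η` -/
theorem UV_ang (ha : 0 < a) (hb : 0 < b) :
    dl a b / LL a b < Real.cos (Real.arcsin (dl a b / LL a b)) * cc a b +
      Real.sin (Real.arcsin (dl a b / LL a b)) * dd a b ∧
    dl a b / LL a b < Real.cos (Real.arcsin (dl a b / LL a b)) * cc a b -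
      Real.sin (Real.arcsin (dl a b / LL a b)) * dd a b := by
  have hL := LL_pos ha hb
  have hr := rd_pos (b := b) ha
  have hrq := rd_sq a b
  have he := eta_le ha hb
  have he0 := eta_pos ha hb
  set η := dl a b / LL a b with hη
  have hs : Real.sin (Real.arcsin η) = η := Real.sin_arcsin (by linarith) (by linarith)
  have hc : 1 / 2 ≤ Real.cos (Real.arcsin η) := by
    rw [Real.cos_arcsin]
    apply Real.le_sqrt_of_sq_le
    nlinarith
  set co := Real.cos (Real.arcsin η) with hco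
  rw [hs]
  -- `η (a + b)² ≤ min² / 16`
  have h1 : η * (a + b) ^ 2 = min a b ^ 2 / 16 := by
    rw [hη]; unfold dl LL
    have : a + b ≠ 0 := by positivity
    field_simp
    ring
  have hm0 := min_pos' ha hb
  have hma := min_le_left a b
  have hmb := min_le_right a b
  have h2 : min a b ^ 2 ≤ a * b := by nlinarith
  have hab := mul_pos ha hb
  have h3 : η * a ^ 2 < a * b / 2 := by nlinarith [mul_pos he0 (sq_pos_of_pos hb)]
  have h4 : η * b ^ 2 < a * b / 2 := by nlinarith [mul_pos he0 (sq_pos_of_pos ha)]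
  unfold cc dd
  rw [hrq]
  have hab2 : 0 < a ^ 2 + b ^ 2 := by positivity
  constructor
  · rw [← mul_div_assoc, ← mul_div_assoc, ← add_div, lt_div_iff₀ hab2]
    nlinarith [mul_le_mul_of_nonneg_right hc hab.le]
  · rw [← mul_div_assoc, ← mul_div_assoc, ← sub_div, lt_div_iff₀ hab2]
    nlinarith [mul_le_mul_of_nonneg_right hc hab.le]

theorem UV (ha : 0 < a) (hb : 0 < b) : ∃ e > 0, ∀ ψ : ℝ, Real.arcsin (dl a b / LL a b) < ψ →
    ψ < Real.arcsin (dl a b / LL a b) + e → dl a b / LL a b < Real.sin ψ ∧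
      dl a b / LL a b < Real.cos ψ * cc a b + Real.sin ψ * dd a b ∧
      dl a b / LL a b < Real.cos ψ * cc a b - Real.sin ψ * dd a b := by
  obtain ⟨h1, h2⟩ := UV_ang ha hb
  have he := eta_le ha hb
  have he0 := eta_pos ha hb
  set η := dl a b / LL a b with hη
  have c1 : Continuous fun ψ : ℝ => Real.cos ψ * cc a b + Real.sin ψ * dd a b := by fun_prop
  have c2 : Continuous fun ψ : ℝ => Real.cos ψ * cc a b - Real.sin ψ * dd a b := by fun_prop
  have e1 := c1.continuousAt.eventually (lt_mem_nhds h1)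
  have e2 := c2.continuousAt.eventually (lt_mem_nhds h2)
  have e3 : ∀ᶠ ψ : ℝ in 𝓝 (Real.arcsin η), ψ < Real.pi / 2 :=
    gt_mem_nhds (Real.arcsin_lt_pi_div_two.2 (by linarith))
  obtain ⟨e, he', hball⟩ := Metric.eventually_nhds_iff.1 (e1.and (e2.and e3))
  refine ⟨e, he', fun ψ hψ1 hψ2 => ?_⟩
  obtain ⟨g1, g2, g3⟩ := hball (y := ψ) (by
    rw [Real.dist_eq, abs_of_pos (by linarith)]; linarith)
  refine ⟨?_, g1, g2⟩
  have hs : Real.sin (Real.arcsin η) = η := Real.sin_arcsin (by linarith) (by linarith)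
  rw [← hs]
  exact Real.sin_lt_sin_of_lt_of_le_pi_div_two (Real.neg_pi_div_two_le_arcsin η) g3.le hψ1

theorem sect_Rg (ha : 0 < a) (hb : 0 < b) (k : ZMod 4) {r : ℝ} (hr : LL a b / 2 < r) :
    ∃ e > 0, ∀ ψ : ℝ, Real.arcsin (dl a b / LL a b) < ψ → ψ < Real.arcsin (dl a b / LL a b) + e →
      (r : ℂ) * (Qg a b k * Complex.exp (ψ * Complex.I)) ∈ Rg a b k ∧
      (r : ℂ) * (Qg a b k * Complex.exp (-(ψ * Complex.I))) ∈ Rg a b (k - 1) := by
  obtain ⟨e, he, h⟩ := UV ha hb
  refine ⟨e, he, fun ψ h1 h2 => ?_⟩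
  obtain ⟨g1, g2, g3⟩ := h ψ h1 h2
  have hL := LL_pos ha hb
  have hr0 : 0 < r := by linarith
  have hneg : -((ψ : ℂ) * Complex.I) = ((-ψ : ℝ) : ℂ) * Complex.I := by push_cast; ring
  rw [hneg]
  have hn : ∀ (k : ZMod 4) (ψ : ℝ), ‖(r : ℂ) * (Qg a b k * Complex.exp (ψ * Complex.I))‖ = r := by
    intro k ψ
    rw [norm_mul, norm_rot ha, Complex.norm_real, Real.norm_of_nonneg hr0.le, mul_one]
  have hf : ∀ (k : ZMod 4) (ψ : ℝ), LL a b / 2 < ‖(r : ℂ) * (Qg a b k * Complex.exp (ψ * Complex.I))‖ := by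
    intro k ψ; rw [hn]; exact hr
  have hM : ∀ (k : ZMod 4) (ψ : ℝ), M a b ((r : ℂ) * (Qg a b k * Complex.exp (ψ * Complex.I))) =
      r * (dl a b / LL a b) := by
    intro k ψ
    rw [M_far (hf k ψ), hn, mul_comm]
  set η := dl a b / LL a b with hη
  have pos : ∀ {x : ℝ}, η < x → r * η < r * x := fun hx => mul_lt_mul_of_pos_left hx hr0
  have neg : ∀ {x : ℝ}, x < -η → r * x < -(r * η) := fun hx => by
    have := mul_lt_mul_of_pos_left hx hr0
    linarith
  rcases z4 k with rfl | rfl | rfl | rfl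
  · rw [Rg0, show (0 : ZMod 4) - 1 = 3 by decide, Rg3]
    refine ⟨RW_far ha hb (hf _ _) ?_ ?_, RN_far ha hb (hf _ _) ?_ ?_⟩
    · rw [hM, X_smul, X_rot, Qg0, X_p1, X_Ip1]
      exact pos (by linarith)
    · rw [hM, Y_smul, Y_rot, Qg0, Y_p1, Y_Ip1 ha]
      exact neg (by linarith)
    · rw [hM, X_smul, X_rot, Qg0, X_p1, X_Ip1, Real.cos_neg, Real.sin_neg]
      exact pos (by linarith)
    · rw [hM, Y_smul, Y_rot, Qg0, Y_p1, Y_Ip1 ha, Real.cos_neg, Real.sin_neg]
      exact pos (by linarith)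
  · rw [Rg1, show (1 : ZMod 4) - 1 = 0 by decide, Rg0]
    refine ⟨RS_far ha hb (hf _ _) ?_ ?_, RW_far ha hb (hf _ _) ?_ ?_⟩
    · rw [hM, X_smul, X_rot, Qg1, mul_neg, X_neg, X_neg, X_p0, X_Ip0 ha]
      exact neg (by linarith)
    · rw [hM, Y_smul, Y_rot, Qg1, mul_neg, Y_neg, Y_neg, Y_p0, Y_Ip0]
      exact neg (by linarith)
    · rw [hM, X_smul, X_rot, Qg1, mul_neg, X_neg, X_neg, X_p0, X_Ip0 ha, Real.cos_neg, Real.sin_neg]
      exact pos (by linarith)
    · rw [hM, Y_smul, Y_rot, Qg1, mul_neg, Y_neg, Y_neg, Y_p0, Y_Ip0, Real.cos_neg, Real.sin_neg]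
      exact neg (by linarith)
  · rw [Rg2, show (2 : ZMod 4) - 1 = 1 by decide, Rg1]
    refine ⟨RE_far ha hb (hf _ _) ?_ ?_, RS_far ha hb (hf _ _) ?_ ?_⟩
    · rw [hM, X_smul, X_rot, Qg2, mul_neg, X_neg, X_neg, X_p1, X_Ip1]
      exact neg (by linarith)
    · rw [hM, Y_smul, Y_rot, Qg2, mul_neg, Y_neg, Y_neg, Y_p1, Y_Ip1 ha]
      exact pos (by linarith)
    · rw [hM, X_smul, X_rot, Qg2, mul_neg, X_neg, X_neg, X_p1, X_Ip1, Real.cos_neg, Real.sin_neg]
      exact neg (by linarith)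
    · rw [hM, Y_smul, Y_rot, Qg2, mul_neg, Y_neg, Y_neg, Y_p1, Y_Ip1 ha, Real.cos_neg, Real.sin_neg]
      exact neg (by linarith)
  · rw [Rg3, show (3 : ZMod 4) - 1 = 2 by decide, Rg2]
    refine ⟨RN_far ha hb (hf _ _) ?_ ?_, RE_far ha hb (hf _ _) ?_ ?_⟩
    · rw [hM, X_smul, X_rot, Qg3, X_p0, X_Ip0 ha]
      exact pos (by linarith)
    · rw [hM, Y_smul, Y_rot, Qg3, Y_p0, Y_Ip0]
      exact pos (by linarith)
    · rw [hM, X_smul, X_rot, Qg3, X_p0, X_Ip0 ha, Real.cos_neg, Real.sin_neg]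
      exact neg (by linarith)
    · rw [hM, Y_smul, Y_rot, Qg3, Y_p0, Y_Ip0, Real.cos_neg, Real.sin_neg]
      exact pos (by linarith)

/-! ### angles -/

/-- half angle between the diagonals -/
def al (a b : ℝ) : ℝ := Complex.arg ⟨a, b⟩

theorem al_pos (ha : 0 < a) (hb : 0 < b) : 0 < al a b := by
  unfold al
  rcases (Complex.arg_nonneg_iff (z := ⟨a, b⟩)).2 hb.le |>.lt_or_eq with h | h
  · exact h
  · have := (Complex.arg_eq_zero_iff (z := ⟨a, b⟩)).1 h.symm
    exact absurd this.2 hb.ne'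

theorem al_lt (ha : 0 < a) (hb : 0 < b) : al a b < Real.pi / 2 := by
  unfold al
  have := (Complex.abs_arg_lt_pi_div_two_iff (z := ⟨a, b⟩)).2 (Or.inl ha)
  exact (abs_lt.1 this).2

theorem exp_al (ha : 0 < a) : Complex.exp (al a b * Complex.I) = p0 a b := by
  have hr := rd_pos (b := b) ha
  have h := Complex.norm_mul_exp_arg_mul_I (⟨a, b⟩ : ℂ)
  have hr' : ((rd a b : ℝ) : ℂ) ≠ 0 := by exact_mod_cast hr.ne'
  have h2 : ((rd a b : ℝ) : ℂ) * Complex.exp (al a b * Complex.I) = ⟨a, b⟩ := h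
  rw [← mul_right_inj' hr', h2]
  apply Complex.ext
  · rw [Complex.re_ofReal_mul]; unfold p0; simp only; field_simp
  · rw [Complex.im_ofReal_mul]; unfold p0; simp only; field_simp

theorem exp_neg_al (ha : 0 < a) : Complex.exp (-(al a b * Complex.I)) = -p1 a b := by
  have h := exp_al (b := b) ha
  have : Complex.exp (-(al a b * Complex.I)) = (starRingEnd ℂ) (Complex.exp (al a b * Complex.I)) := by
    rw [← Complex.exp_conj, map_mul, Complex.conj_I, Complex.conj_ofReal, mul_neg]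
  rw [this, h]
  unfold p0 p1
  apply Complex.ext <;> simp

/-- the lifted angle of the direction `k` -/
def th (a b : ℝ) (k : ℤ) : ℝ :=
  ((k / 2 : ℤ) + 1 : ℝ) * Real.pi + if k % 2 = 0 then -al a b else al a b

theorem th_succ (ha : 0 < a) (hb : 0 < b) (k : ℤ) : th a b k < th a b (k + 1) := by
  have h1 := al_pos ha hb
  have h2 := al_lt ha hb
  have hpi := Real.pi_pos
  unfold th
  rcases Int.emod_two_eq_zero_or_one k with h | h
  · rw [if_pos h, if_neg (by omega), show (k + 1) / 2 = k / 2 by omega]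
    linarith
  · rw [if_neg (by omega), if_pos (by omega), show (k + 1) / 2 = k / 2 + 1 by omega]
    push_cast
    nlinarith

theorem th_four (k : ℤ) : th a b (k + 4) = th a b k + 2 * Real.pi := by
  unfold th
  rw [show (k + 4) / 2 = k / 2 + 2 by omega, show (k + 4) % 2 = k % 2 by omega]
  push_cast
  ring

theorem exp_pi_mul (t : ℂ) (x : ℝ) : Complex.exp (((t * Real.pi + x : ℂ)) * Complex.I) =
    Complex.exp (t * Real.pi * Complex.I) * Complex.exp (x * Complex.I) := by
  rw [add_mul, Complex.exp_add]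

theorem th_exp (ha : 0 < a) (k : ℤ) : Qg a b (k : ZMod 4) = Complex.exp (th a b k * Complex.I) := by
  have h4 : (4 : ZMod 4) = 0 := by decide
  have e1 := exp_al (b := b) ha
  have e2 := exp_neg_al (b := b) ha
  have key : ∀ m : ℤ, Complex.exp ((2 * m : ℂ) * Real.pi * Complex.I) = 1 := fun m => by
    rw [show (2 * m : ℂ) * Real.pi * Complex.I = m * (2 * Real.pi * Complex.I) by ring]
    exact Complex.exp_int_mul_two_pi_mul_I m
  have hpi : Complex.exp (Real.pi * Complex.I) = -1 := Complex.exp_pi_mul_I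
  obtain ⟨m, hm⟩ : ∃ m : ℤ, k = 4 * m ∨ k = 4 * m + 1 ∨ k = 4 * m + 2 ∨ k = 4 * m + 3 :=
    ⟨k / 4, by omega⟩
  rcases hm with rfl | rfl | rfl | rfl
  · have h0 : ((4 * m : ℤ) : ZMod 4) = 0 := by push_cast; rw [h4, zero_mul]
    rw [h0, Qg0]
    unfold th
    rw [if_pos (by omega), show 4 * m / 2 = 2 * m by omega]
    have : ((((2 * m : ℤ) : ℝ) + 1) * Real.pi + -al a b : ℝ) * Complex.I =
        (2 * m : ℂ) * Real.pi * Complex.I + (Real.pi * Complex.I + -(al a b * Complex.I)) := by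
      push_cast; ring
    rw [this, Complex.exp_add, Complex.exp_add, key, hpi, e2]
    ring
  · have h0 : ((4 * m + 1 : ℤ) : ZMod 4) = 1 := by push_cast; rw [h4, zero_mul, zero_add]
    rw [h0, Qg1]
    unfold th
    rw [if_neg (by omega), show (4 * m + 1) / 2 = 2 * m by omega]
    have : ((((2 * m : ℤ) : ℝ) + 1) * Real.pi + al a b : ℝ) * Complex.I =
        (2 * m : ℂ) * Real.pi * Complex.I + (Real.pi * Complex.I + (al a b * Complex.I)) := by
      push_cast; ring
    rw [this, Complex.exp_add, Complex.exp_add, key, hpi, e1]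
    ring
  · have h0 : ((4 * m + 2 : ℤ) : ZMod 4) = 2 := by push_cast; rw [h4, zero_mul, zero_add]
    rw [h0, Qg2]
    unfold th
    rw [if_pos (by omega), show (4 * m + 2) / 2 = 2 * m + 1 by omega]
    have : ((((2 * m + 1 : ℤ) : ℝ) + 1) * Real.pi + -al a b : ℝ) * Complex.I =
        (2 * (m + 1 : ℤ) : ℂ) * Real.pi * Complex.I + (-(al a b * Complex.I)) := by
      push_cast; ring
    rw [this, Complex.exp_add, key, e2]
    ring
  · have h0 : ((4 * m + 3 : ℤ) : ZMod 4) = 3 := by push_cast; rw [h4, zero_mul, zero_add]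
    rw [h0, Qg3]
    unfold th
    rw [if_neg (by omega), show (4 * m + 3) / 2 = 2 * m + 1 by omega]
    have : ((((2 * m + 1 : ℤ) : ℝ) + 1) * Real.pi + al a b : ℝ) * Complex.I =
        (2 * (m + 1 : ℤ) : ℂ) * Real.pi * Complex.I + ((al a b * Complex.I)) := by
      push_cast; ring
    rw [this, Complex.exp_add, key, e1]
    ring

theorem norm_Qg (ha : 0 < a) (k : ZMod 4) : ‖Qg a b k‖ = 1 := by
  have := norm_rot (b := b) ha k 0
  rwa [Complex.ofReal_zero, zero_mul, Complex.exp_zero, mul_one] at this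

/-! ### the configuration is admissible -/

theorem rc_ok (ha : 0 < a) (hb : 0 < b) {z0 u : ℂ} (hu : ‖u‖ = 1) : (rc z0 u a b).OK (dl a b) := by
  have hL := LL_pos ha hb
  have hu0 : u ≠ 0 := by rintro rfl; simp at hu
  have hdiv : ∀ z : ℂ, ‖z / u‖ = ‖z‖ := fun z => by rw [norm_div, hu, div_one]
  have hcont : Continuous fun z : ℂ => (z - z0) / u := (continuous_id.sub continuous_const).div_const _
  refine ⟨hL, dl_pos ha hb, fun k => (open_Rg a b k).preimage hcont, fun k => ?_, fun k => ?_, ?_,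
    ?_, ?_, ?_⟩
  · -- connected
    have e : (rc z0 u a b).R k = (fun w : ℂ => z0 + u * w) '' Rg a b k := by
      ext z
      constructor
      · intro h
        exact ⟨_, h, by simp only; field_simp; ring⟩
      · rintro ⟨w, hw, rfl⟩
        show (z0 + u * w - z0) / u ∈ Rg a b k
        rw [add_sub_cancel_left, mul_div_cancel_left₀ _ hu0]
        exact hw
    rw [e]
    exact IsConnected.image ⟨ne_Rg ha hb k, (conv_Rg ha hb k).isPreconnected⟩ _
      (by fun_prop)
  · show ‖u * Qg a b k‖ = 1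
    rw [norm_mul, hu, norm_Qg ha, one_mul]
  · -- angles
    refine ⟨fun k => th a b k + Complex.arg u, ?_, ?_, ?_⟩
    · apply strictMono_int_of_lt_succ
      intro k
      have := th_succ ha hb k
      linarith
    · intro k
      show th a b (k + 4) + _ = _
      rw [th_four]; ring
    · intro k
      show u * Qg a b k = _
      have h1 := Complex.norm_mul_exp_arg_mul_I u
      rw [hu, Complex.ofReal_one, one_mul] at h1
      push_cast
      rw [add_mul, Complex.exp_add, h1, th_exp ha, mul_comm]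
  · -- far
    intro i j hij z hz w hw
    have := far_Rg ha hb hij hz hw
    rwa [← sub_div, hdiv, sub_sub_sub_cancel_right] at this
  · -- tentacles
    intro z hz
    have hz' : LL a b / 2 < ‖(z - z0) / u‖ := by rw [hdiv]; exact hz
    have h := tent_Rg ha hb hz'
    refine Iff.trans h ?_
    apply exists_congr; intro k
    apply exists_congr; intro t
    apply and_congr_right; intro _
    have e1 : ‖(z - z0) / u - (t : ℂ) * Qg a b k‖ = ‖z - ((rc z0 u a b).c + (t : ℂ) * (rc z0 u a b).q k)‖ := by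
      show _ = ‖z - (z0 + (t : ℂ) * (u * Qg a b k))‖
      rw [← hdiv (z - (z0 + (t : ℂ) * (u * Qg a b k)))]
      congr 1
      field_simp
      ring
    rw [e1, hdiv]
    rfl
  · -- sectors
    intro k r hr
    obtain ⟨e, he, h⟩ := sect_Rg ha hb k hr
    refine ⟨e, he, fun ψ h1 h2 => ?_⟩
    obtain ⟨g1, g2⟩ := h ψ h1 h2
    constructor
    · show (z0 + (r : ℂ) * (u * Qg a b k) * Complex.exp (ψ * Complex.I) - z0) / u ∈ Rg a b k
      convert g1 using 1
      field_simp
      ring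
    · show (z0 + (r : ℂ) * (u * Qg a b k) * Complex.exp (-(ψ * Complex.I)) - z0) / u ∈ Rg a b (k - 1)
      convert g2 using 1
      field_simp
      ring

end

end Crest.Agent.R143.Rect1x723
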