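import Crest.Agent.R143.Rect2_723
import Crest.Agent.R143.FamR_930
import Crest.Agent.R143.T6D_697
import Crest.Agent.R143.Ad2_422

/-!
# Row 143 (S0194), leaf RB (box crossings), geometry of the rectangle, file 3 (helper723)

* `RH.exm` : the triangles on the diagonals and on the vertical axis are joined to the marks
* `RH.half` : walks along a half of a horizontal, from the middle to the class `i`
* `RH.fam` : **the weighted family of horizontals** from the class `0` to the class `2`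
-/

set_option autoImplicit false
set_option linter.unusedSectionVars false

noncomputable section

open scoped Classical

namespace Crest.Agent.R143.Rect2x723

open Set Filter Topology
open Crest.ProbabilityR.Voronoi
open Crest.Agent.R143.B0x346 Crest.Agent.R143.B0Dx346 Crest.Agent.R143.DelGx806
  Crest.Agent.R143.DelRx806
  Crest.Agent.R143.Cfgx416 Crest.Agent.R143.Rect1x723
  Crest.Agent.R143.RB0x838 Crest.Agent.R143.Circx63 Crest.Agent.R143.Scalx63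
  Crest.Agent.R143.Oscx63 Crest.Agent.R143.Rswx63 Crest.Agent.R143.Famx930
  Crest.Agent.R143.Ex0x922

variable {S : Finset ℂ} {z0 u : ℂ} {a b d : ℝ}

/-- the network -/
def Nr (S : Finset ℂ) (z0 u : ℂ) (a b : ℝ) : Net ℂ := (Cr z0 u a b).dom.netS (Sr S z0 a b)

/-- the cross of the diagonals and the vertical axis -/
def Pr (z0 u : ℂ) (a b : ℝ) : Set ℂ := {z |
  (‖(z - z0) / u‖ ≤ 3 / 4 * Lr a b ∧ (X (a1 a b) (b1 b) ((z - z0) / u) = 0 ∨
    Y (a1 a b) (b1 b) ((z - z0) / u) = 0)) ∨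
  (((z - z0) / u).re = 0 ∧ |((z - z0) / u).im| ≤ b1 b / 2)}

namespace RH

variable (H : RH S z0 u a b d)
include H

theorem hnet : HNet (Sr S z0 a b) (Nr S z0 u a b) := H.out.hnet

theorem gp' : GP (Sr S z0 a b : Set ℂ) := H.dns.gp

theorem Nr_T : (Nr S z0 u a b).T = delT (Sr S z0 a b) := Locx922.netS_T _ H.gp'

theorem wdom : (Cr z0 u a b).dom.W (dr a b) :=
  Dom.Ad.w ⟨4, Cr z0 u a b, by norm_num, H.ok, rfl⟩

theorem kl_kl {p : ℂ × ℂ} (h : p ∈ (Nr S z0 u a b).kl) :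
    p ∈ (Cr z0 u a b).dom.kl (Sr S z0 a b) := by
  unfold Nr at h
  rw [Locx922.netS_kl _ H.gp', Set.mem_ofPred_eq] at h
  exact h.1

theorem Pr_conn : IsPreconnected (Pr z0 u a b) := by
  apply isPreconnected_of_forall z0
  intro y hy
  refine ⟨(fun r : ℝ => z0 + (r : ℂ) * (y - z0)) '' Icc 0 1, ?_, ⟨0, by simp, by simp⟩,
    ⟨1, by simp, by simp⟩, ?_⟩
  · rintro _ ⟨r, ⟨hr0, hr1⟩, rfl⟩
    have e : (z0 + (r : ℂ) * (y - z0) - z0) / u = (r : ℂ) * ((y - z0) / u) := by ring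
    unfold Pr at hy ⊢
    rw [Set.mem_ofPred_eq] at hy ⊢
    simp only
    rw [e]
    rcases hy with ⟨h1, h2⟩ | ⟨h1, h2⟩
    · left
      constructor
      · rw [norm_mul, Complex.norm_real, Real.norm_of_nonneg hr0]
        have := norm_nonneg ((y - z0) / u)
        nlinarith
      · rw [X_smul, Y_smul]
        rcases h2 with h2 | h2
        · left; rw [h2, mul_zero]
        · right; rw [h2, mul_zero]
    · right
      rw [Complex.re_ofReal_mul, Complex.im_ofReal_mul, h1, mul_zero]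
      refine ⟨rfl, ?_⟩
      rw [abs_mul, abs_of_nonneg hr0]
      have := abs_nonneg ((y - z0) / u).im
      nlinarith
  · apply isPreconnected_Icc.image
    fun_prop

theorem Pr_sub {y : ℂ} (hy : y ∈ Pr z0 u a b) : ‖y - z0‖ ≤ 3 / 4 * Lr a b := by
  rcases hy with ⟨h1, -⟩ | ⟨h1, h2⟩
  · rwa [H.ndiv] at h1
  · apply H.deep
    · rw [h1, abs_zero]; exact H.a1p.le
    · have := H.b1p
      linarith

theorem Pr_q (k : ZMod 4) :
    z0 + ((3 / 4 * Lr a b : ℝ) : ℂ) * (Cr z0 u a b).q k ∈ Pr z0 u a b := by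
  have hu0 := H.u0
  have hL := H.Lp
  have e : (z0 + ((3 / 4 * Lr a b : ℝ) : ℂ) * (Cr z0 u a b).q k - z0) / u =
      ((3 / 4 * Lr a b : ℝ) : ℂ) * Qg (a1 a b) (b1 b) k := by
    show (z0 + ((3 / 4 * Lr a b : ℝ) : ℂ) * (u * Qg (a1 a b) (b1 b) k) - z0) / u = _
    field_simp
    ring
  left
  rw [e, norm_mul, norm_Qg H.a1p, Complex.norm_real, Real.norm_of_nonneg (by positivity), mul_one,
    X_smul, Y_smul]
  refine ⟨le_rfl, ?_⟩
  rcases z4 k with rfl | rfl | rfl | rfl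
  · right; rw [Qg0, Y_p1, mul_zero]
  · left; rw [Qg1, X_neg, X_p0, neg_zero, mul_zero]
  · right; rw [Qg2, Y_neg, Y_p1, neg_zero, mul_zero]
  · left; rw [Qg3, X_p0, mul_zero]

theorem Pr_dom (k : ZMod 3) :
    (Cr z0 u a b).dom.c + ((3 / 4 * (Cr z0 u a b).dom.L : ℝ) : ℂ) * (Cr z0 u a b).dom.q k ∈
      Pr z0 u a b := by
  have : ∃ j : ZMod 4, (Cr z0 u a b).dom.q k = (Cr z0 u a b).q j := by
    unfold Cfg.dom
    simp only
    split_ifs
    · exact ⟨_, rfl⟩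
    · exact ⟨_, rfl⟩
    · exact ⟨_, rfl⟩
  obtain ⟨j, hj⟩ := this
  rw [hj]
  exact H.Pr_q j

theorem not_out_of {y z : ℂ} (hy : y ∈ Pr z0 u a b) (hz : ‖z - y‖ < dr a b / 4) :
    z ∉ (Cr z0 u a b).dom.out := by
  rw [Cfg.dom_out]
  unfold Cfg.out
  rw [mem_iUnion]
  rintro ⟨i, hi⟩
  have hi' : (z - z0) / u ∈ Rg (a1 a b) (b1 b) i := hi
  have hdr := H.drp
  have hdb := H.dr_b
  have ha1 := H.a1p
  have hb1 := H.b1p
  have hb : b = 2 * b1 b := by unfold b1; ring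
  have hM := M_ge H.a1p H.b1p ((z - z0) / u)
  obtain ⟨h1, h2⟩ := Rg_abs H.a1p H.b1p hi'
  have hdist : ‖(z - z0) / u - (y - z0) / u‖ = ‖z - y‖ := by
    rw [← sub_div, sub_sub_sub_cancel_right, H.ndiv]
  have hd' : dl (a1 a b) (b1 b) = dr a b := rfl
  rcases hy with ⟨-, h3 | h3⟩ | ⟨h3, h4⟩
  · have h5 := abs_X_le (b := b1 b) H.a1p ((z - z0) / u - (y - z0) / u)
    rw [X_sub, h3, sub_zero, hdist] at h5
    linarith
  · have h5 := abs_Y_le (b := b1 b) H.a1p ((z - z0) / u - (y - z0) / u)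
    rw [Y_sub, h3, sub_zero, hdist] at h5
    linarith
  · have h5 := abs_le.1 (H.re_diff z y)
    have h6 := abs_le.1 (H.im_diff z y)
    rw [h3] at h5
    have h7 := abs_le.1 h4
    have hle := H.dr_le
    have hl1 := min_le_left (a1 a b) (b1 b)
    rcases z4 i with rfl | rfl | rfl | rfl
    · rw [Rg0] at hi'; have := hi'.1; linarith
    · rw [Rg1] at hi'; have := hi'.1; linarith
    · rw [Rg2] at hi'; have := hi'.1; linarith
    · rw [Rg3] at hi'; have := hi'.1; linarith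

/-- **triangles on the cross are joined to the marks** -/
theorem exm {t : ℂ × ℂ × ℂ} (ht : t ∈ delT (Sr S z0 a b)) (hm : (cT t ∩ Pr z0 u a b).Nonempty) :
    ExM (Nr S z0 u a b) t ∧ ∀ v w x, (v, w, x) ∈ rots t → (v, w) ∉ (Nr S z0 u a b).kl := by
  have h1 := H.d_Dr
  have h2 := H.Dr_le
  have h3 := H.Drp
  obtain ⟨h4, h5⟩ := Ex2x922.exm_of_linkedW (D := (Cr z0 u a b).dom) (η := dr a b / 4) H.wdom H.dns
    H.sm (by linarith) H.Pr_conn (fun y hy => H.Pr_sub hy) H.Pr_dom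
    (fun y hy z hz => H.not_out_of hy hz) ht hm
  exact ⟨h4, fun v w x h h' => h5 v w x h (H.kl_kl h')⟩

/-! ### triangles near the strip -/

theorem tri_small {t : ℂ × ℂ × ℂ} (ht : t ∈ delT (Sr S z0 a b)) {p : ℂ} (hp : p ∈ cT t)
    (hd : ‖p - z0‖ ≤ 3 / 4 * Lr a b) :
    (‖t.1 - p‖ < 2 * d ∧ ‖t.2.1 - p‖ < 2 * d ∧ ‖t.2.2 - p‖ < 2 * d) ∧ dm t ≤ 2 * d := by
  have hW : p ∈ {w | ‖w - z0‖ ≤ Lr a b - 2 * d} := hd.trans H.deep_hol
  have hDel : Del (Sr S z0 a b : Set ℂ) t.1 t.2.1 t.2.2 := mem_delT.1 ht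
  have hD := Locx922.InT.inD hDel.2.2.2.1 hp
  obtain ⟨o, h1, h2, h3, h4, h5, ga, gb, gc⟩ := Locx922.del_small H.dp H.hol hW hD hDel
  obtain ⟨k1, k2, k3⟩ := Locx922.del_side H.dp H.hol hW hD hDel
  exact ⟨⟨ga, gb, gc⟩, max_le (max_le k1.le k2.le) k3.le⟩

theorem vert_small {x y w p : ℂ} (ht : (x, y, w) ∈ delT (Sr S z0 a b)) (hp : p ∈ cT (x, y, w))
    (hd : ‖p - z0‖ ≤ 3 / 4 * Lr a b) :
    (‖x - p‖ < 2 * d ∧ ‖y - p‖ < 2 * d ∧ ‖w - p‖ < 2 * d) ∧
      x ∈ Sr S z0 a b ∧ y ∈ Sr S z0 a b ∧ w ∈ Sr S z0 a b := by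
  obtain ⟨m1, m2, m3, -⟩ := mem_delT.1 ht
  exact ⟨(H.tri_small ht hp hd).1, m1, m2, m3⟩

/-- points of the strip are deep -/
theorem strip_deep {p : ℂ} (h1 : |((p - z0) / u).re| ≤ a1 a b + 3 * d)
    (h2 : |((p - z0) / u).im| ≤ b1 b / 2) : ‖p - z0‖ ≤ 3 / 4 * Lr a b := by
  rw [← H.ndiv]
  refine (Complex.norm_le_abs_re_add_abs_im _).trans ?_
  have := H.a1p
  have := H.b1p
  have := H.d_small
  have hb : b = 2 * b1 b := by unfold b1; ring
  unfold Lr LL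
  linarith

/-- class of a site near a point of the strip -/
theorem strip_cls {i : ZMod 4} {p v : ℂ} (h1 : |((p - z0) / u).re| ≤ a1 a b + 3 * d)
    (h2 : |((p - z0) / u).im| ≤ b1 b / 2) (hv : ‖v - p‖ < 2 * d)
    (hi : v ∈ (Cr z0 u a b).cls (Sr S z0 a b) i) : i = 0 ∨ i = 2 := by
  have hd := H.dp
  have hds := H.d_small
  have hb : b = 2 * b1 b := by unfold b1; ring
  have h3 := abs_le.1 (H.re_diff v p)
  have h4 := abs_le.1 (H.im_diff v p)
  have h1' := abs_le.1 h1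
  have h2' := abs_le.1 h2
  have ha1 := H.a1p
  have hb1 := H.b1p
  have hdeep : ‖v - z0‖ ≤ 3 / 4 * Lr a b := by
    rw [← H.ndiv]
    refine (Complex.norm_le_abs_re_add_abs_im _).trans ?_
    have e1 : |((v - z0) / u).re| ≤ a1 a b + 5 * d := abs_le.2 ⟨by linarith, by linarith⟩
    have e2 : |((v - z0) / u).im| ≤ b1 b / 2 + 2 * d := abs_le.2 ⟨by linarith, by linarith⟩
    unfold Lr LL
    linarith
  obtain ⟨z, hz1, hz2⟩ := H.cls_deep hdeep hi
  have h5 := abs_le.1 (H.im_diff z v)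
  rcases z4 i with rfl | rfl | rfl | rfl
  · exact Or.inl rfl
  · rw [Rg1] at hz2; have := hz2.1; linarith
  · exact Or.inr rfl
  · rw [Rg3] at hz2; have := hz2.1; linarith

/-- sites near the left end of the strip -/
theorem left_cls {p v : ℂ} (h1 : ((p - z0) / u).re = -(a1 a b + 3 * d))
    (h2 : |((p - z0) / u).im| ≤ b1 b / 2) (hv : ‖v - p‖ < 2 * d) (hS : v ∈ Sr S z0 a b) :
    v ∈ (Cr z0 u a b).cls (Sr S z0 a b) 0 := by
  apply H.cls_of_mem hS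
  have hd := H.dp
  have hds := H.d_small
  have hb : b = 2 * b1 b := by unfold b1; ring
  have h3 := abs_le.1 (H.re_diff v p)
  have h4 := abs_le.1 (H.im_diff v p)
  have h2' := abs_le.1 h2
  have ha1 := H.a1p
  have hb1 := H.b1p
  set w := (v - z0) / u with hw
  have r1 : w.re < -(a1 a b + d) := by linarith
  have r2 : |w.im| ≤ b1 b / 2 + 2 * d := abs_le.2 ⟨by linarith, by linarith⟩
  have r3 : -(a1 a b + 5 * d) ≤ w.re := by linarith
  have hr := rd_pos (b := b1 b) ha1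
  have hrl := rd_le ha1 hb1
  have hM : M (a1 a b) (b1 b) w * rd (a1 a b) (b1 b) ≤ a1 a b * b1 b / 8 := by
    rw [M_near ha1 hb1 (by
      refine (Complex.norm_le_abs_re_add_abs_im _).trans ?_
      rw [abs_of_neg (by linarith)]
      unfold LL
      linarith)]
    have e1 : dl (a1 a b) (b1 b) / 2 * (a1 a b + b1 b) = min (a1 a b) (b1 b) ^ 2 / 8 := by
      unfold dl; field_simp; ring
    have e2 : dl (a1 a b) (b1 b) / 2 * rd (a1 a b) (b1 b) ≤ min (a1 a b) (b1 b) ^ 2 / 8 := by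
      rw [← e1]
      exact mul_le_mul_of_nonneg_left hrl (by have := dl_pos ha1 hb1; positivity)
    have e3 : min (a1 a b) (b1 b) ^ 2 ≤ a1 a b * b1 b := by
      have m0 := min_pos' ha1 hb1
      have m1 := min_le_left (a1 a b) (b1 b)
      have m2 := min_le_right (a1 a b) (b1 b)
      nlinarith
    linarith
  have r4 := abs_le.1 r2
  have hab := mul_pos ha1 hb1
  have k1 : a1 a b * -(b1 b / 2 + 2 * d) ≤ a1 a b * w.im := mul_le_mul_of_nonneg_left r4.1 ha1.le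
  have k2 : a1 a b * w.im ≤ a1 a b * (b1 b / 2 + 2 * d) := mul_le_mul_of_nonneg_left r4.2 ha1.le
  have k3 : b1 b * w.re ≤ b1 b * -(a1 a b + d) := mul_le_mul_of_nonneg_left r1.le hb1.le
  have k4 : a1 a b * (2 * d) ≤ a1 a b * (b1 b / 4) := mul_le_mul_of_nonneg_left (by linarith) ha1.le
  have k5 : 0 < b1 b * d := mul_pos hb1 hd
  rw [Rg0]
  refine ⟨by linarith, ?_, ?_⟩
  · unfold X; rw [lt_div_iff₀ hr]; nlinarith
  · unfold Y; rw [div_lt_iff₀ hr]; nlinarith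

/-- sites near the right end of the strip -/
theorem right_cls {p v : ℂ} (h1 : ((p - z0) / u).re = a1 a b + 3 * d)
    (h2 : |((p - z0) / u).im| ≤ b1 b / 2) (hv : ‖v - p‖ < 2 * d) (hS : v ∈ Sr S z0 a b) :
    v ∈ (Cr z0 u a b).cls (Sr S z0 a b) 2 := by
  apply H.cls_of_mem hS
  have hd := H.dp
  have hds := H.d_small
  have hb : b = 2 * b1 b := by unfold b1; ring
  have h3 := abs_le.1 (H.re_diff v p)
  have h4 := abs_le.1 (H.im_diff v p)
  have h2' := abs_le.1 h2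
  have ha1 := H.a1p
  have hb1 := H.b1p
  set w := (v - z0) / u with hw
  have r1 : a1 a b + d < w.re := by linarith
  have r2 : |w.im| ≤ b1 b / 2 + 2 * d := abs_le.2 ⟨by linarith, by linarith⟩
  have r3 : w.re ≤ a1 a b + 5 * d := by linarith
  have hr := rd_pos (b := b1 b) ha1
  have hrl := rd_le ha1 hb1
  have hM : M (a1 a b) (b1 b) w * rd (a1 a b) (b1 b) ≤ a1 a b * b1 b / 8 := by
    rw [M_near ha1 hb1 (by
      refine (Complex.norm_le_abs_re_add_abs_im _).trans ?_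
      rw [abs_of_pos (by linarith)]
      unfold LL
      linarith)]
    have e1 : dl (a1 a b) (b1 b) / 2 * (a1 a b + b1 b) = min (a1 a b) (b1 b) ^ 2 / 8 := by
      unfold dl; field_simp; ring
    have e2 : dl (a1 a b) (b1 b) / 2 * rd (a1 a b) (b1 b) ≤ min (a1 a b) (b1 b) ^ 2 / 8 := by
      rw [← e1]
      exact mul_le_mul_of_nonneg_left hrl (by have := dl_pos ha1 hb1; positivity)
    have e3 : min (a1 a b) (b1 b) ^ 2 ≤ a1 a b * b1 b := by
      have m0 := min_pos' ha1 hb1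
      have m1 := min_le_left (a1 a b) (b1 b)
      have m2 := min_le_right (a1 a b) (b1 b)
      nlinarith
    linarith
  have r4 := abs_le.1 r2
  have hab := mul_pos ha1 hb1
  have k1 : a1 a b * -(b1 b / 2 + 2 * d) ≤ a1 a b * w.im := mul_le_mul_of_nonneg_left r4.1 ha1.le
  have k2 : a1 a b * w.im ≤ a1 a b * (b1 b / 2 + 2 * d) := mul_le_mul_of_nonneg_left r4.2 ha1.le
  have k3 : b1 b * (a1 a b + d) ≤ b1 b * w.re := mul_le_mul_of_nonneg_left r1.le hb1.le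
  have k4 : a1 a b * (2 * d) ≤ a1 a b * (b1 b / 4) := mul_le_mul_of_nonneg_left (by linarith) ha1.le
  have k5 : 0 < b1 b * d := mul_pos hb1 hd
  rw [Rg2]
  refine ⟨by linarith, ?_, ?_⟩
  · unfold X; rw [div_lt_iff₀ hr]; nlinarith
  · unfold Y; rw [lt_div_iff₀ hr]; nlinarith

/-! ### walks along a half of a horizontal -/

theorem cover {p : ℂ} (hp : ‖p - z0‖ ≤ 3 / 4 * Lr a b) : ∃ t ∈ delT (Sr S z0 a b), p ∈ cT t := by
  obtain ⟨x, y, w, h1, h2⟩ := Locx922.exists_tri_W H.gp' H.dp H.hol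
    (show p ∈ {w | ‖w - z0‖ ≤ Lr a b - 2 * d} from hp.trans H.deep_hol)
  exact ⟨(x, y, w), h1, h2⟩

/-- **from the middle to the class `i`** -/
theorem half {i : ZMod 4} {C C' : Set ℂ} {A : Finset (ℂ × ℂ × ℂ)}
    (hAT : ∀ t ∈ A, t ∈ delT (Sr S z0 a b)) (hC' : IsPreconnected C') (hCC : C' ⊆ C)
    (hA : ∀ t ∈ delT (Sr S z0 a b), (cT t ∩ C).Nonempty → ∃ t' ∈ A, t' ∈ rots t)
    (hoff : ∀ x ∈ C, x ∉ Sr S z0 a b) (hdeep : ∀ x ∈ C', ‖x - z0‖ ≤ 3 / 4 * Lr a b)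
    (hcls : ∀ p ∈ C', ∀ v, ‖v - p‖ < 2 * d → ∀ j, v ∈ (Cr z0 u a b).cls (Sr S z0 a b) j → j = i)
    {q : ℂ} (hq : q ∈ C')
    (hend : ∀ v, ‖v - q‖ < 2 * d → v ∈ Sr S z0 a b → v ∈ (Cr z0 u a b).cls (Sr S z0 a b) i)
    {t : ℂ × ℂ × ℂ} (ht : t ∈ delT (Sr S z0 a b)) (hm : (cT t ∩ C').Nonempty)
    (hex : ExM (Nr S z0 u a b) t) {e : ℂ × ℂ} (he : LSide (Nr S z0 u a b) t e) :
    ∃ (f : ℂ × ℂ) (c : ℂ), (f.1, f.2, c) ∈ delT (Sr S z0 a b) ∧
      ExM (Nr S z0 u a b) (f.1, f.2, c) ∧ f ∉ (Nr S z0 u a b).kl ∧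
      (f.1 ∈ (Cr z0 u a b).cls (Sr S z0 a b) i ∨ f.2 ∈ (Cr z0 u a b).cls (Sr S z0 a b) i) ∧
      Conn (Nr S z0 u a b) A e f := by
  have hT := H.Nr_T
  have hAT' : ∀ t ∈ A, t ∈ (Nr S z0 u a b).T := fun t h => by rw [hT]; exact hAT t h
  -- a positively oriented live side of a triangle
  have orient : ∀ s ∈ delT (Sr S z0 a b), (∃ f, LSide (Nr S z0 u a b) s f) →
      (∀ f, LSide (Nr S z0 u a b) s f → Conn (Nr S z0 u a b) A e f) →
      ∃ (f : ℂ × ℂ) (c : ℂ), (f.1, f.2, c) ∈ rots s ∧ (f.1, f.2, c) ∈ delT (Sr S z0 a b) ∧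
        ExM (Nr S z0 u a b) (f.1, f.2, c) ∧ f ∉ (Nr S z0 u a b).kl ∧
        Conn (Nr S z0 u a b) A e f := by
    rintro s hs ⟨f0, hf0⟩ hall
    have key : ∀ x y c, (x, y, c) ∈ rots s → (x, y) ∉ (Nr S z0 u a b).kl →
        ∃ (f : ℂ × ℂ) (c : ℂ), (f.1, f.2, c) ∈ rots s ∧ (f.1, f.2, c) ∈ delT (Sr S z0 a b) ∧
        ExM (Nr S z0 u a b) (f.1, f.2, c) ∧ f ∉ (Nr S z0 u a b).kl ∧
        Conn (Nr S z0 u a b) A e f := by
      intro x y c h1 h2
      have hL : LSide (Nr S z0 u a b) s (x, y) := LSide_of h1 h2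
      have hc := hall _ hL
      have hE := T6Dx697.exM_conn hAT' hex he hc s (by rw [hT]; exact hs) hL
      exact ⟨(x, y), c, h1, delT_rots H.gp' h1 hs, Exx395.exM_rot hE h1, h2, hc⟩
    rcases T6Dx697.side_cases hf0 with ⟨c, hc⟩ | ⟨c, hc⟩
    · exact key _ _ _ hc hf0.1
    · exact key _ _ _ hc (fun h => hf0.1 ((Nr S z0 u a b).klsym _ _ h))
  rcases conn_alt (N := Nr S z0 u a b) H.gp' hC' (fun x hx => H.cover (hdeep x hx))
      (fun x hx => hoff x (hCC hx))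
      (fun t ht h => hA t ht (h.mono (inter_subset_inter_right _ hCC))) ht hm he with h | h
  · obtain ⟨s, hs, hsC, hex', hall, x, y, w, hr, hk, p, hp, hseg⟩ := h
    obtain ⟨f, c, hfr, hfd, hfE, hfk, hfc⟩ := orient s hs hex' hall
    have hxy : (x, y, w) ∈ delT (Sr S z0 a b) := delT_rots H.gp' hr hs
    obtain ⟨o, hTri⟩ := mem_delT_iff.1 hxy
    have hpT : p ∈ cT (x, y, w) := seg_sub_cT hTri.pos hseg
    obtain ⟨⟨g1, g2, -⟩, -⟩ := H.vert_small hxy hpT (hdeep p hp)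
    obtain ⟨j, hj1, hj2⟩ := H.out.kill x y ⟨w, Or.inl hxy⟩ (H.kl_kl hk)
    have hji := hcls p hp x g1 j hj1
    subst hji
    refine ⟨f, c, hfd, hfE, hfk, ?_, hfc⟩
    have h1 : (f.1, f.2, c) ∈ rots (x, y, w) := by
      rw [rots_eq hr]; exact hfr
    simp only [rots, Set.mem_insert_iff, Set.mem_singleton_iff, Prod.mk.injEq] at h1
    rcases h1 with ⟨h1, h2, -⟩ | ⟨h1, h2, -⟩ | ⟨h1, h2, -⟩
    · left; rw [h1]; exact hj1
    · left; rw [h1]; exact hj2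
    · right; rw [h2]; exact hj1
  · obtain ⟨s, hs, hqs⟩ := H.cover (hdeep q hq)
    obtain ⟨hex', hall⟩ := h s hs ⟨q, hqs, hq⟩
    obtain ⟨f, c, hfr, hfd, hfE, hfk, hfc⟩ := orient s hs hex' hall
    refine ⟨f, c, hfd, hfE, hfk, Or.inl ?_, hfc⟩
    have hqf : q ∈ cT (f.1, f.2, c) := by rw [cT_rots hfr]; exact hqs
    obtain ⟨⟨g1, -, -⟩, m1, -⟩ := H.vert_small hfd hqf (hdeep q hq)
    exact hend _ g1 m1

theorem conn_symm' {N : Net ℂ} {A : Finset (ℂ × ℂ × ℂ)} {e f : ℂ × ℂ} (h : Conn N A e f) :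
    Conn N A f e := by
  induction h with
  | refl => exact Relation.ReflTransGen.refl
  | tail _ h ih =>
    obtain ⟨t, ht, h1, h2⟩ := h
    exact Relation.ReflTransGen.head ⟨t, ht, h2, h1⟩ ih

/-! ### the family of horizontals -/

/-- corner of the strip -/
def cor (z0 u : ℂ) (a b d : ℝ) : ℂ :=
  z0 + u * (((-(a1 a b + 3 * d) : ℝ) : ℂ) + ((-(b1 b / 2) : ℝ) : ℂ) * Complex.I)

theorem cor_re (s h : ℝ) :
    ((cor z0 u a b d + u * ((s : ℂ) + (h : ℂ) * Complex.I) - z0) / u).re = s - (a1 a b + 3 * d) := by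
  have hu0 := H.u0
  have e : (cor z0 u a b d + u * ((s : ℂ) + (h : ℂ) * Complex.I) - z0) / u =
      ((s - (a1 a b + 3 * d) : ℝ) : ℂ) + ((h - b1 b / 2 : ℝ) : ℂ) * Complex.I := by
    unfold cor
    field_simp
    push_cast
    ring
  rw [e]
  simp

theorem cor_im (s h : ℝ) :
    ((cor z0 u a b d + u * ((s : ℂ) + (h : ℂ) * Complex.I) - z0) / u).im = h - b1 b / 2 := by
  have hu0 := H.u0
  have e : (cor z0 u a b d + u * ((s : ℂ) + (h : ℂ) * Complex.I) - z0) / u =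
      ((s - (a1 a b + 3 * d) : ℝ) : ℂ) + ((h - b1 b / 2 : ℝ) : ℂ) * Complex.I := by
    unfold cor
    field_simp
    push_cast
    ring
  rw [e]
  simp

theorem par_strip {y : ℂ} {h : ℝ} (hh : h ∈ Icc 0 (b1 b))
    (hy : y ∈ par (cor z0 u a b d) u (2 * (a1 a b + 3 * d)) h) :
    |((y - z0) / u).re| ≤ a1 a b + 3 * d ∧ |((y - z0) / u).im| ≤ b1 b / 2 := by
  obtain ⟨s, ⟨hs0, hs1⟩, rfl⟩ := hy
  simp only
  rw [H.cor_re, H.cor_im, abs_le, abs_le]
  obtain ⟨hh0, hh1⟩ := hh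
  refine ⟨⟨?_, ?_⟩, ?_, ?_⟩ <;> linarith

/-- **the weighted family of horizontals** -/
theorem fam {k C4 : ℝ} (hk : a ≤ k * b) (hC4 : 0 ≤ C4) (hM : Mesh S z0 (Lr a b) b C4) :
    ∃ (U : Finset (ℂ × ℂ × ℂ)) (J : Finset (Finset (ℂ × ℂ × ℂ)))
      (lam : Finset (ℂ × ℂ × ℂ) → ℝ) (e e' : Finset (ℂ × ℂ × ℂ) → ℂ × ℂ),
      U ⊆ delT (Sr S z0 a b) ∧ (∀ s ∈ U, ∀ t ∈ U, s ≠ t → t ∉ rots s) ∧
      (∀ t ∈ U, RelAt (Nr S z0 u a b) t) ∧
      (∀ hh Q : ℂ × ℂ × ℂ → ℂ, Fam U hh Q J lam (fun s => s)) ∧ J.Nonempty ∧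
      (∀ t ∈ U, cw J lam (fun s => s) t ≤ 1 / 800) ∧
      ∑ t ∈ U, cw J lam (fun s => s) t ^ 2 ≤ C4 * (16 * k + 12) ∧
      ∀ s ∈ J, Conn (Nr S z0 u a b) s (e s) (e' s) ∧
        ((∃ c, ((e s).1, (e s).2, c) ∈ delT (Sr S z0 a b) ∧
          ExM (Nr S z0 u a b) ((e s).1, (e s).2, c)) ∧ e s ∉ (Nr S z0 u a b).kl ∧
          ((e s).1 ∈ (Cr z0 u a b).cls (Sr S z0 a b) 0 ∨
            (e s).2 ∈ (Cr z0 u a b).cls (Sr S z0 a b) 0)) ∧
        ((∃ c, ((e' s).1, (e' s).2, c) ∈ delT (Sr S z0 a b) ∧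
          ExM (Nr S z0 u a b) ((e' s).1, (e' s).2, c)) ∧ e' s ∉ (Nr S z0 u a b).kl ∧
          ((e' s).1 ∈ (Cr z0 u a b).cls (Sr S z0 a b) 2 ∨
            (e' s).2 ∈ (Cr z0 u a b).cls (Sr S z0 a b) 2)) := by
  have hd := H.dp
  have hds := H.d_small
  have hb := H.hb
  have ha := H.ha
  have ha1 := H.a1p
  have hb1 := H.b1p
  have hbb : b = 2 * b1 b := by unfold b1; ring
  have hbL := H.b_L
  obtain ⟨U0, hU0, hRep, hrep⟩ := FamRx930.exists_rep H.gp'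
  set zz := cor z0 u a b d with hzz
  set l := 2 * (a1 a b + 3 * d) with hl
  set U := U0.filter (fun t => ∃ h ∈ Icc 0 (b1 b), (cT t ∩ par zz u l h).Nonempty) with hU
  have hUS : U ⊆ delT (Sr S z0 a b) := (Finset.filter_subset _ _).trans hU0
  obtain ⟨J, lam, p, hG, hcw⟩ := par_fam U hUS zz H.u1 l H.b1p
  have hUd : ∀ t ∈ U, ∃ y ∈ cT t, ‖y - z0‖ ≤ 3 / 4 * Lr a b := by
    intro t ht
    obtain ⟨-, h, hh, y, hy1, hy2⟩ := Finset.mem_filter.1 ht
    obtain ⟨h1, h2⟩ := H.par_strip hh hy2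
    exact ⟨y, hy1, H.strip_deep h1 h2⟩
  have hsum : ∑ t ∈ U, cw J lam (fun s => s) t ^ 2 ≤ 4 * C4 * (l / b1 b + 1) := by
    refine par_sq H.u1 H.b1p (by positivity) (by positivity) hG hcw fun s hs => ?_
    set c : ℂ := zz + u * ((s : ℂ) + ((b1 b / 2 : ℝ) : ℂ) * Complex.I) with hc
    have hcn : ‖c - z0‖ ≤ a1 a b + 3 * d := by
      rw [← H.ndiv]
      refine (Complex.norm_le_abs_re_add_abs_im _).trans ?_
      rw [hc, hzz, H.cor_re, H.cor_im, sub_self, abs_zero, add_zero, abs_le]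
      obtain ⟨hs0, hs1⟩ := hs
      constructor <;> linarith
    have hLr : Lr a b = 4 * (a1 a b + b1 b) := rfl
    have h1 := hM c (by linarith)
    have h2 : U.filter (fun t => (cT t ∩ Metric.closedBall c (b1 b)).Nonempty) ⊆
        (delT S).filter (fun t => (cT t ∩ Metric.closedBall c b).Nonempty) := by
      intro t ht
      rw [Finset.mem_filter] at ht ⊢
      obtain ⟨ht, y, hy1, hy2⟩ := ht
      have hy3 : ‖y - c‖ ≤ b1 b := by rwa [Metric.mem_closedBall, dist_eq_norm] at hy2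
      have hy4 : ‖y - z0‖ ≤ Lr a b - 2 * d := by
        have := Locx922.norm_tri y c z0
        linarith
      constructor
      · exact (Locx922.delT_local (a := t.1) (b := t.2.1) (c := t.2.2) H.dp H.hol H.agr hy4 hy1).1
          (hUS ht)
      · refine ⟨y, hy1, ?_⟩
        rw [Metric.mem_closedBall, dist_eq_norm]
        linarith
    calc _ ≤ ∑ t ∈ (delT S).filter (fun t => (cT t ∩ Metric.closedBall c b).Nonempty), dm t ^ 2 :=
          Finset.sum_le_sum_of_subset_of_nonneg h2 fun t _ _ => sq_nonneg _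
      _ ≤ C4 * b ^ 2 := h1
      _ = 4 * C4 * b1 b ^ 2 := by rw [hbb]; unfold b1; ring
  have hlw : l / b1 b + 1 ≤ 4 * k + 3 := by
    rw [← le_sub_iff_add_le, div_le_iff₀ hb1, hl]
    have : a1 a b = a + b1 b / 2 := by unfold a1 b1; ring
    nlinarith
  have hwalk : ∀ s ∈ J, ∃ e e' : ℂ × ℂ, Conn (Nr S z0 u a b) s e e' ∧
        ((∃ c, (e.1, e.2, c) ∈ delT (Sr S z0 a b) ∧
          ExM (Nr S z0 u a b) (e.1, e.2, c)) ∧ e ∉ (Nr S z0 u a b).kl ∧
          (e.1 ∈ (Cr z0 u a b).cls (Sr S z0 a b) 0 ∨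
            e.2 ∈ (Cr z0 u a b).cls (Sr S z0 a b) 0)) ∧
        ((∃ c, (e'.1, e'.2, c) ∈ delT (Sr S z0 a b) ∧
          ExM (Nr S z0 u a b) (e'.1, e'.2, c)) ∧ e' ∉ (Nr S z0 u a b).kl ∧
          (e'.1 ∈ (Cr z0 u a b).cls (Sr S z0 a b) 2 ∨
            e'.2 ∈ (Cr z0 u a b).cls (Sr S z0 a b) 2)) := by
    intro s hs
    set h := p s with hh
    have hh' : h ∈ Icc 0 (b1 b) := hG.mem s hs
    have hl0 : 0 ≤ a1 a b + 3 * d := by positivity
    have hA : ∀ t ∈ delT (Sr S z0 a b), (cT t ∩ par zz u l h).Nonempty → ∃ t' ∈ s, t' ∈ rots t := by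
      intro t ht hm
      obtain ⟨t', ht', hr⟩ := hRep t ht
      have hm' : (cT t' ∩ par zz u l h).Nonempty := by rwa [cT_rots hr]
      exact ⟨t', hG.hit s hs t' (Finset.mem_filter.2 ⟨ht', h, hh', hm'⟩) hm', hr⟩
    have hAT : ∀ t ∈ s, t ∈ delT (Sr S z0 a b) := fun t ht => hUS (hG.sub s hs ht)
    -- the middle
    set m : ℂ := zz + u * (((a1 a b + 3 * d : ℝ) : ℂ) + (h : ℂ) * Complex.I) with hm
    have hmre : ((m - z0) / u).re = 0 := by rw [hm, hzz, H.cor_re, sub_self]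
    have hmim : ((m - z0) / u).im = h - b1 b / 2 := by rw [hm, hzz, H.cor_im]
    have hmP : m ∈ Pr z0 u a b := by
      right
      refine ⟨hmre, ?_⟩
      rw [hmim, abs_le]
      constructor <;> linarith [hh'.1, hh'.2]
    obtain ⟨t, ht, hmt⟩ := H.cover (H.Pr_sub hmP)
    obtain ⟨hex, hlive⟩ := H.exm ht ⟨m, hmt, hmP⟩
    have hside : LSide (Nr S z0 u a b) t (t.1, t.2.1) :=
      LSide_of (w := t.2.2) (Circx63.mem_rots_self _) (hlive _ _ t.2.2 (Circx63.mem_rots_self _))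
    -- left half
    have hL : par zz u (a1 a b + 3 * d) h ⊆ par zz u l h := by
      rintro _ ⟨r, ⟨hr0, hr1⟩, rfl⟩
      exact ⟨r, ⟨hr0, by linarith⟩, rfl⟩
    obtain ⟨f, c, f1, f2, f3, f4, f5⟩ := H.half (i := 0) hAT (par_conn zz u (a1 a b + 3 * d) h) hL hA
      (hG.off s hs)
      (fun y hy => by
        obtain ⟨h1, h2⟩ := H.par_strip hh' (hL hy)
        exact H.strip_deep h1 h2)
      (by
        intro y hy v hv j hj
        obtain ⟨h1, h2⟩ := H.par_strip hh' (hL hy)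
        rcases H.strip_cls h1 h2 hv hj with h3 | h3
        · exact h3
        · subst h3
          exfalso
          obtain ⟨r, ⟨hr0, hr1⟩, rfl⟩ := hy
          have h4 := H.cls2_right hj
          have h5 := abs_le.1 (H.re_diff v (zz + u * ((r : ℂ) + (h : ℂ) * Complex.I)))
          rw [hzz, H.cor_re] at h5
          simp only at hv
          rw [hzz] at hv
          linarith)
      (q := zz + u * (((0 : ℝ) : ℂ) + (h : ℂ) * Complex.I)) ⟨0, ⟨le_rfl, hl0⟩, rfl⟩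
      (fun v hv hvS => H.left_cls (p := zz + u * (((0 : ℝ) : ℂ) + (h : ℂ) * Complex.I))
        (by rw [hzz, H.cor_re]; ring)
        (by rw [hzz, H.cor_im, abs_le]; constructor <;> linarith [hh'.1, hh'.2]) hv hvS)
      ht ⟨m, hmt, ⟨a1 a b + 3 * d, ⟨hl0, le_rfl⟩, rfl⟩⟩ hex hside
    -- right half
    set zr := zz + u * (((a1 a b + 3 * d : ℝ) : ℂ)) with hzr
    have hpt : ∀ r : ℝ, zr + u * ((r : ℂ) + (h : ℂ) * Complex.I) =
        zz + u * (((a1 a b + 3 * d + r : ℝ) : ℂ) + (h : ℂ) * Complex.I) := by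
      intro r
      rw [hzr]; push_cast; ring
    have hR : par zr u (a1 a b + 3 * d) h ⊆ par zz u l h := by
      rintro _ ⟨r, ⟨hr0, hr1⟩, rfl⟩
      exact ⟨a1 a b + 3 * d + r, ⟨by linarith, by linarith⟩, (hpt r).symm⟩
    obtain ⟨g, c', g1, g2, g3, g4, g5⟩ := H.half (i := 2) hAT (par_conn zr u (a1 a b + 3 * d) h) hR hA
      (hG.off s hs)
      (fun y hy => by
        obtain ⟨h1, h2⟩ := H.par_strip hh' (hR hy)
        exact H.strip_deep h1 h2)
      (by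
        intro y hy v hv j hj
        obtain ⟨h1, h2⟩ := H.par_strip hh' (hR hy)
        rcases H.strip_cls h1 h2 hv hj with h3 | h3
        · subst h3
          exfalso
          obtain ⟨r, ⟨hr0, hr1⟩, rfl⟩ := hy
          simp only at hv
          rw [hpt] at hv
          have h4 := H.cls0_left hj
          have h5 := abs_le.1 (H.re_diff v (zz + u * (((a1 a b + 3 * d + r : ℝ) : ℂ) +
            (h : ℂ) * Complex.I)))
          rw [hzz, H.cor_re] at h5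
          rw [hzz] at hv
          linarith
        · exact h3)
      (q := zr + u * (((a1 a b + 3 * d : ℝ) : ℂ) + (h : ℂ) * Complex.I))
      ⟨a1 a b + 3 * d, ⟨hl0, le_rfl⟩, rfl⟩
      (fun v hv hvS => H.right_cls
        (p := zz + u * (((a1 a b + 3 * d + (a1 a b + 3 * d) : ℝ) : ℂ) + (h : ℂ) * Complex.I))
        (by rw [hzz, H.cor_re]; ring)
        (by rw [hzz, H.cor_im, abs_le]; constructor <;> linarith [hh'.1, hh'.2])
        (by rw [← hpt]; exact hv) hvS)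
      ht ⟨m, hmt, ⟨0, ⟨le_rfl, hl0⟩, by simp only; rw [hpt, add_zero]⟩⟩ hex hside
    refine ⟨f, g, ?_, ⟨⟨c, f1, f2⟩, f3, f4⟩, ⟨⟨c', g1, g2⟩, g3, g4⟩⟩
    exact Relation.ReflTransGen.trans (H.conn_symm' f5) g5
  choose! e e' hee using hwalk
  refine ⟨U, J, lam, e, e', hUS, ?_, ?_, fun hh Q => hG.fam hh Q, hG.ne, ?_, ?_, hee⟩
  · intro s hs t ht hst
    exact hrep s (Finset.mem_filter.1 hs).1 t (Finset.mem_filter.1 ht).1 hst
  · intro t ht
    obtain ⟨y, hy, hyd⟩ := hUd t ht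
    obtain ⟨⟨k1, k2, k3⟩, -⟩ := H.tri_small (hUS ht) hy hyd
    have hW : ∀ v, ‖v - y‖ < 2 * d → v ∈ {w | ‖w - z0‖ ≤ Lr a b - 2 * d} := by
      intro v hv
      show ‖v - z0‖ ≤ _
      have := Locx922.norm_tri v y z0
      linarith
    refine Rel2x63.relAt H.hnet (hUS ht) (Or.inr ⟨?_, ?_, ?_⟩)
    · rintro ⟨j, hj⟩
      exact (Locx922.mark_W H.dp H.hnet H.hol (hW _ k1) j).1 hj
    · rintro ⟨j, hj⟩
      exact (Locx922.mark_W H.dp H.hnet H.hol (hW _ k2) j).1 hj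
    · rintro ⟨j, hj⟩
      exact (Locx922.mark_W H.dp H.hnet H.hol (hW _ k3) j).1 hj
  · intro t ht
    obtain ⟨y, hy, hyd⟩ := hUd t ht
    have h1 := (H.tri_small (hUS ht) hy hyd).2
    refine (hcw t ht).trans ?_
    rw [div_le_iff₀ hb1]
    linarith
  · refine hsum.trans ?_
    calc 4 * C4 * (l / b1 b + 1) ≤ 4 * C4 * (4 * k + 3) :=
          mul_le_mul_of_nonneg_left hlw (by positivity)
      _ = _ := by ring

end RH

end Crest.Agent.R143.Rect2x723
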