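import Crest.Agent.R143.B0D_346
import Crest.Agent.R143.CovB_126

/-!
# R143 (helper309), leaf Y7 / B-D7: the reference domain

`refD c L δ q0` : body = closed disc of radius `L / 4` around `c`, three straight tentacles in the
directions `q0`, `q0 om`, `q0 om ^ 2` (half width `δ / 2` inside the disc of radius `L / 2`, cones of
slope `δ / L` outside).

* `ok` : `Dom.OK` for `0 < δ ≤ L / 4`
* `free_ball`, `free_ray` : the body and the tentacles miss the outside with a margin
* `hit`, `miss` : the rays from a point near the centre in a sector of directions of opening `1`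
  reach the outside region `R i` and stay away from the two others
* `OK_mv` : `Dom.OK` is invariant under rigid motions
* `refD_mv` : the moved reference domain is a reference domain
-/

set_option autoImplicit false

noncomputable section

open scoped Classical

namespace Crest.Agent.R143.RefDx309

open Crest.ProbabilityR.Voronoi
open Crest.Agent.R143.B0x346 Crest.Agent.R143.B0Dx346 Crest.Agent.R143.CovBx126

/-! ### third roots of unity -/

theorem om_re : om.re = -1 / 2 := by
  have h : Real.cos (2 * Real.pi / 3) = -1 / 2 := by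
    have h1 : (2 * Real.pi / 3) = Real.pi - Real.pi / 3 := by ring
    rw [h1, Real.cos_pi_sub, Real.cos_pi_div_three]
    norm_num
  unfold om
  rw [Complex.exp_ofReal_mul_I_re, h]

theorem om_im : om.im = Real.sqrt 3 / 2 := by
  have h : Real.sin (2 * Real.pi / 3) = Real.sqrt 3 / 2 := by
    have h1 : (2 * Real.pi / 3) = Real.pi - Real.pi / 3 := by ring
    rw [h1, Real.sin_pi_sub, Real.sin_pi_div_three]
  unfold om
  rw [Complex.exp_ofReal_mul_I_im, h]

theorem norm_om : ‖om‖ = 1 := Complex.norm_exp_ofReal_mul_I _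

theorem s3 : Real.sqrt 3 * Real.sqrt 3 = 3 := Real.mul_self_sqrt (by norm_num)

theorem s3_pos : 0 < Real.sqrt 3 := Real.sqrt_pos.2 (by norm_num)

theorem s3_gt : 1.7 < Real.sqrt 3 := by
  rw [show (1.7 : ℝ) = Real.sqrt (1.7 ^ 2) by rw [Real.sqrt_sq]; norm_num]
  exact Real.sqrt_lt_sqrt (by norm_num) (by norm_num)

theorem s3_lt : Real.sqrt 3 < 1.8 := by
  rw [show (1.8 : ℝ) = Real.sqrt (1.8 ^ 2) by rw [Real.sqrt_sq]; norm_num]
  exact Real.sqrt_lt_sqrt (by norm_num) (by norm_num)

theorem om_sq : om ^ 2 = (starRingEnd ℂ) om := by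
  apply Complex.ext
  · rw [pow_two, Complex.mul_re, Complex.conj_re, om_re, om_im]
    have := s3
    nlinarith
  · rw [pow_two, Complex.mul_im, Complex.conj_im, om_re, om_im]
    ring

theorem om_cube : om ^ 3 = 1 := by
  have h : om ^ 3 = om * om ^ 2 := by ring
  rw [h, om_sq, Complex.mul_conj]
  rw [Complex.normSq_apply, om_re, om_im]
  have := s3
  have h2 : (-1 / 2 : ℝ) * (-1 / 2) + Real.sqrt 3 / 2 * (Real.sqrt 3 / 2) = 1 := by nlinarith
  rw [h2]; simp

theorem omz_succ (k : ZMod 3) : omz (k + 1) = omz k * om := by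
  have h := om_cube
  fin_cases k
  · show om ^ 1 = om ^ 0 * om
    ring
  · show om ^ 2 = om ^ 1 * om
    ring
  · show om ^ 0 = om ^ 2 * om
    rw [pow_zero]
    exact h.symm.trans (by ring)

theorem norm_omz (k : ZMod 3) : ‖omz k‖ = 1 := by
  unfold omz
  rw [norm_pow, norm_om, one_pow]

/-! ### coordinates -/

/-- coordinate of `w` along the direction `q` -/
def X (q w : ℂ) : ℝ := (w * (starRingEnd ℂ) q).re

/-- coordinate of `w` orthogonal to the direction `q` (positive on the left) -/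
def Y (q w : ℂ) : ℝ := (w * (starRingEnd ℂ) q).im

theorem X_om (q w : ℂ) : X (q * om) w = -(1 / 2) * X q w + Real.sqrt 3 / 2 * Y q w := by
  unfold X Y
  rw [map_mul, ← mul_assoc, Complex.mul_re (w * _), Complex.conj_re, Complex.conj_im, om_re, om_im]
  ring

theorem Y_om (q w : ℂ) : Y (q * om) w = -(Real.sqrt 3 / 2) * X q w - 1 / 2 * Y q w := by
  unfold X Y
  rw [map_mul, ← mul_assoc, Complex.mul_im (w * _), Complex.conj_re, Complex.conj_im, om_re, om_im]
  ring

theorem XY (q w : ℂ) (hq : ‖q‖ = 1) : X q w ^ 2 + Y q w ^ 2 = ‖w‖ ^ 2 := by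
  unfold X Y
  have h : ‖w * (starRingEnd ℂ) q‖ = ‖w‖ := by rw [norm_mul, Complex.norm_conj, hq, mul_one]
  rw [← h, Complex.sq_norm, Complex.normSq_apply]
  ring

theorem X_add (q w v : ℂ) : X q (w + v) = X q w + X q v := by
  unfold X; rw [add_mul, Complex.add_re]

theorem Y_add (q w v : ℂ) : Y q (w + v) = Y q w + Y q v := by
  unfold Y; rw [add_mul, Complex.add_im]

theorem Y_sub (q w v : ℂ) : Y q (w - v) = Y q w - Y q v := by
  unfold Y; rw [sub_mul, Complex.sub_im]

theorem X_smul (q w : ℂ) (t : ℝ) : X q (t * w) = t * X q w := by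
  unfold X; rw [mul_assoc, Complex.re_ofReal_mul]

theorem Y_smul (q w : ℂ) (t : ℝ) : Y q (t * w) = t * Y q w := by
  unfold Y; rw [mul_assoc, Complex.im_ofReal_mul]

theorem abs_Y_le (q w : ℂ) (hq : ‖q‖ = 1) : |Y q w| ≤ ‖w‖ := by
  have := XY q w hq
  exact abs_le_of_sq_le_sq (by nlinarith [sq_nonneg (X q w)]) (norm_nonneg w)

theorem mul_conj_self {q : ℂ} (hq : ‖q‖ = 1) : q * (starRingEnd ℂ) q = 1 := by
  rw [Complex.mul_conj, Complex.normSq_eq_norm_sq, hq]; simp

theorem X_polar {q : ℂ} (hq : ‖q‖ = 1) (u : ℂ) : X q (q * u) = u.re := by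
  unfold X
  rw [mul_right_comm, mul_conj_self hq, one_mul]

theorem Y_polar {q : ℂ} (hq : ‖q‖ = 1) (u : ℂ) : Y q (q * u) = u.im := by
  unfold Y
  rw [mul_right_comm, mul_conj_self hq, one_mul]

theorem X_self {q : ℂ} (hq : ‖q‖ = 1) : X q q = 1 := by
  unfold X; rw [mul_conj_self hq, Complex.one_re]

theorem Y_self {q : ℂ} (hq : ‖q‖ = 1) : Y q q = 0 := by
  unfold Y; rw [mul_conj_self hq, Complex.one_im]

theorem X_rot {e : ℂ} (he : ‖e‖ = 1) (q w : ℂ) : X (e * q) (e * w) = X q w := by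
  unfold X
  rw [map_mul, show e * w * ((starRingEnd ℂ) e * (starRingEnd ℂ) q) =
    (e * (starRingEnd ℂ) e) * (w * (starRingEnd ℂ) q) by ring, mul_conj_self he, one_mul]

theorem Y_rot {e : ℂ} (he : ‖e‖ = 1) (q w : ℂ) : Y (e * q) (e * w) = Y q w := by
  unfold Y
  rw [map_mul, show e * w * ((starRingEnd ℂ) e * (starRingEnd ℂ) q) =
    (e * (starRingEnd ℂ) e) * (w * (starRingEnd ℂ) q) by ring, mul_conj_self he, one_mul]

theorem continuous_Y (q c : ℂ) : Continuous fun z : ℂ => Y q (z - c) := by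
  unfold Y
  fun_prop

/-! ### the domain -/

/-- half width of the tentacle at `w` -/
def hw (L δ : ℝ) (w : ℂ) : ℝ := δ / L * max ‖w‖ (L / 2)

theorem hw_ge {L δ : ℝ} (hL : 0 < L) (hδ : 0 < δ) (w : ℂ) : δ / 2 ≤ hw L δ w := by
  unfold hw
  have h1 : L / 2 ≤ max ‖w‖ (L / 2) := le_max_right _ _
  have h2 : 0 < δ / L := by positivity
  calc δ / 2 = δ / L * (L / 2) := by field_simp
    _ ≤ _ := mul_le_mul_of_nonneg_left h1 h2.le

theorem hw_in {L δ : ℝ} (hL : 0 < L) {w : ℂ} (hw' : ‖w‖ ≤ L / 2) : hw L δ w = δ / 2 := by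
  unfold hw
  rw [max_eq_right hw']
  field_simp

theorem hw_out {L δ : ℝ} {w : ℂ} (hw' : L / 2 < ‖w‖) : hw L δ w = δ / L * ‖w‖ := by
  unfold hw
  rw [max_eq_left hw'.le]

/-- the region between the tentacles with directions `q` and `q om` -/
def reg (c : ℂ) (L δ : ℝ) (q : ℂ) : Set ℂ :=
  {z | L / 4 < ‖z - c‖ ∧ hw L δ (z - c) < Y q (z - c) ∧ Y (q * om) (z - c) < -hw L δ (z - c)}

theorem mem_reg {c : ℂ} {L δ : ℝ} {q z : ℂ} : z ∈ reg c L δ q ↔
    L / 4 < ‖z - c‖ ∧ hw L δ (z - c) < Y q (z - c) ∧ Y (q * om) (z - c) < -hw L δ (z - c) :=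
  Iff.rfl

/-- **the reference domain** -/
def refD (c : ℂ) (L δ : ℝ) (q0 : ℂ) : Dom where
  c := c
  L := L
  R k := reg c L δ (q0 * omz k)
  q k := q0 * omz k

section basic

variable {c : ℂ} {L δ : ℝ} {q0 : ℂ}

theorem refD_c : (refD c L δ q0).c = c := rfl

theorem refD_L : (refD c L δ q0).L = L := rfl

theorem refD_q (k : ZMod 3) : (refD c L δ q0).q k = q0 * omz k := rfl

theorem refD_R (k : ZMod 3) : (refD c L δ q0).R k = reg c L δ ((refD c L δ q0).q k) := rfl

theorem q_succ (k : ZMod 3) : (refD c L δ q0).q (k + 1) = (refD c L δ q0).q k * om := by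
  rw [refD_q, refD_q, omz_succ, mul_assoc]

theorem norm_q (h0 : ‖q0‖ = 1) (k : ZMod 3) : ‖(refD c L δ q0).q k‖ = 1 := by
  rw [refD_q, norm_mul, h0, norm_omz, one_mul]

theorem zmod_cases : ∀ i k : ZMod 3, i = k ∨ i = k + 1 ∨ i = k - 1 := by decide

theorem mem_out {D : Dom} {z : ℂ} : z ∈ D.out ↔ ∃ i, z ∈ D.R i := Set.mem_iUnion

/-- a point on the left of the tentacle `k`, in the right half plane -/
theorem mem_left {k : ZMod 3} {z : ℂ} (h1 : L / 4 < ‖z - c‖)
    (h2 : hw L δ (z - c) < Y ((refD c L δ q0).q k) (z - c))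
    (h3 : Y ((refD c L δ q0).q k) (z - c) ≤ Real.sqrt 3 * X ((refD c L δ q0).q k) (z - c)) :
    z ∈ (refD c L δ q0).R k := by
  rw [refD_R]
  refine ⟨h1, h2, ?_⟩
  rw [Y_om]
  linarith

/-- a point on the right of the tentacle `k`, in the right half plane -/
theorem mem_right {k : ZMod 3} {z : ℂ} (h1 : L / 4 < ‖z - c‖)
    (h2 : Y ((refD c L δ q0).q k) (z - c) < -hw L δ (z - c))
    (h3 : -Y ((refD c L δ q0).q k) (z - c) ≤ Real.sqrt 3 * X ((refD c L δ q0).q k) (z - c)) :
    z ∈ (refD c L δ q0).R (k - 1) := by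
  have hk : (refD c L δ q0).q k = (refD c L δ q0).q (k - 1) * om := by
    rw [← q_succ, sub_add_cancel]
  rw [refD_R]
  rw [hk] at h2 h3
  refine ⟨h1, ?_, h2⟩
  rw [X_om] at h3
  rw [Y_om] at h2 h3
  set x := X ((refD c L δ q0).q (k - 1)) (z - c)
  set y := Y ((refD c L δ q0).q (k - 1)) (z - c)
  have e : Real.sqrt 3 * (-(1 / 2) * x + Real.sqrt 3 / 2 * y) =
      -(Real.sqrt 3 / 2) * x + 3 / 2 * y := by linear_combination (y / 2) * s3
  rw [e] at h3
  linarith

/-- a point close to the ray `k` is not in the outside -/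
theorem notMem_of_near (h0 : ‖q0‖ = 1) {k : ZMod 3} {z : ℂ} {t : ℝ} (ht : 0 ≤ t)
    (h : ‖z - (c + t * (refD c L δ q0).q k)‖ ≤ hw L δ (z - c)) (i : ZMod 3) :
    z ∉ (refD c L δ q0).R i := by
  set q := (refD c L δ q0).q k with hq
  have hq1 : ‖q‖ = 1 := norm_q h0 k
  have e1 : z - c = (z - (c + t * q)) + t * q := by ring
  have h1 : |Y q (z - (c + t * q))| ≤ hw L δ (z - c) := (abs_Y_le q _ hq1).trans h
  have h2 : |Y (q * om) (z - (c + t * q))| ≤ hw L δ (z - c) :=
    (abs_Y_le (q * om) _ (by rw [norm_mul, hq1, norm_om, one_mul])).trans h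
  have h3 : Y q (z - c) = Y q (z - (c + t * q)) := by
    conv_lhs => rw [e1]
    rw [Y_add, Y_smul, Y_self hq1, mul_zero, add_zero]
  have h4 : Y (q * om) (z - c) = Y (q * om) (z - (c + t * q)) - t * (Real.sqrt 3 / 2) := by
    conv_lhs => rw [e1]
    rw [Y_add, Y_smul, Y_om q q, Y_self hq1, X_self hq1]
    ring
  intro hz
  rw [abs_le] at h1 h2
  rcases zmod_cases i k with rfl | rfl | rfl
  · rw [refD_R] at hz
    have := hz.2.1
    rw [← hq] at this
    linarith
  · rw [refD_R, q_succ, ← hq] at hz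
    have := hz.2.1
    have h5 := s3_pos
    nlinarith
  · rw [refD_R] at hz
    have := hz.2.2
    rw [← q_succ, sub_add_cancel, ← hq] at this
    linarith

theorem notMem_of_ball {z : ℂ} (h : ‖z - c‖ ≤ L / 4) (i : ZMod 3) : z ∉ (refD c L δ q0).R i := by
  intro hz
  rw [refD_R] at hz
  exact absurd hz.1 (not_lt.2 h)

/-- **the body** -/
theorem free_ball {z : ℂ} {ρ : ℝ} (h : ‖z - c‖ + ρ ≤ L / 4) :
    Disjoint (Metric.closedBall z ρ) (refD c L δ q0).out := by
  rw [Set.disjoint_left]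
  intro y hy hy2
  obtain ⟨i, hi⟩ := mem_out.1 hy2
  refine notMem_of_ball ?_ i hi
  rw [Metric.mem_closedBall, dist_eq_norm] at hy
  have : ‖y - c‖ ≤ ‖y - z‖ + ‖z - c‖ := by
    have := norm_add_le (y - z) (z - c)
    rwa [sub_add_sub_cancel] at this
  linarith

/-- **the tentacles** -/
theorem free_ray (hL : 0 < L) (hδ : 0 < δ) (h0 : ‖q0‖ = 1) {ρ t : ℝ} (ht : 0 ≤ t) (hρ : ρ ≤ δ / 2)
    (k : ZMod 3) :
    Disjoint (Metric.closedBall (c + t * (refD c L δ q0).q k) ρ) (refD c L δ q0).out := by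
  rw [Set.disjoint_left]
  intro y hy hy2
  obtain ⟨i, hi⟩ := mem_out.1 hy2
  rw [Metric.mem_closedBall, dist_eq_norm] at hy
  exact notMem_of_near h0 ht (hy.trans (hρ.trans (hw_ge hL hδ _))) i hi

/-! ### `Dom.OK` -/

theorem reg_open (q : ℂ) : IsOpen (reg c L δ q) := by
  have h1 : Continuous fun z : ℂ => ‖z - c‖ := by fun_prop
  have h2 : Continuous fun z : ℂ => hw L δ (z - c) := by unfold hw; fun_prop
  have h3 := continuous_Y q c
  have h4 := continuous_Y (q * om) c
  exact (isOpen_lt continuous_const h1).inter ((isOpen_lt h2 h3).inter (isOpen_lt h4 h2.neg))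

/-- the middle direction of the region -/
def dd (q : ℂ) : ℂ := -(q * om ^ 2)

theorem X_dd {q : ℂ} (hq : ‖q‖ = 1) : X q (dd q) = 1 / 2 := by
  have : dd q = q * (-(om ^ 2)) := by unfold dd; ring
  rw [this, X_polar hq, om_sq, Complex.neg_re, Complex.conj_re, om_re]; norm_num

theorem Y_dd {q : ℂ} (hq : ‖q‖ = 1) : Y q (dd q) = Real.sqrt 3 / 2 := by
  have : dd q = q * (-(om ^ 2)) := by unfold dd; ring
  rw [this, Y_polar hq, om_sq, Complex.neg_im, Complex.conj_im, om_im]; ring

theorem Y'_dd {q : ℂ} (hq : ‖q‖ = 1) : Y (q * om) (dd q) = -(Real.sqrt 3 / 2) := by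
  rw [Y_om, X_dd hq, Y_dd hq]; ring

theorem norm_dd {q : ℂ} (hq : ‖q‖ = 1) : ‖dd q‖ = 1 := by
  unfold dd
  rw [norm_neg, norm_mul, norm_pow, hq, norm_om]; norm_num

/-- the region is invariant under translations in the middle direction -/
theorem reg_up (hL : 0 < L) (hδ : 0 < δ) (hδL : δ ≤ L / 4) {q : ℂ} (hq : ‖q‖ = 1) {z : ℂ}
    (hz : z ∈ reg c L δ q) {s : ℝ} (hs : 0 ≤ s) : z + s * dd q ∈ reg c L δ q := by
  obtain ⟨h1, h2, h3⟩ := hz
  have e1 : z + s * dd q - c = (z - c) + s * dd q := by ring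
  set w := z - c with hwd
  have ha : δ / L ≤ 1 / 4 := by rw [div_le_iff₀ hL]; linarith
  have ha0 : 0 < δ / L := by positivity
  have h5 : ‖w + s * dd q‖ ≤ ‖w‖ + s := by
    refine (norm_add_le _ _).trans ?_
    rw [norm_mul, norm_dd hq, mul_one, Complex.norm_real, Real.norm_eq_abs, abs_of_nonneg hs]
  have h6 : hw L δ (w + s * dd q) ≤ hw L δ w + s / 4 := by
    unfold hw
    have h7 : max ‖w + s * dd q‖ (L / 2) ≤ max ‖w‖ (L / 2) + s := by
      refine max_le (h5.trans ?_) ?_
      · linarith [le_max_left ‖w‖ (L / 2)]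
      · linarith [le_max_right ‖w‖ (L / 2)]
    calc δ / L * max ‖w + s * dd q‖ (L / 2) ≤ δ / L * (max ‖w‖ (L / 2) + s) :=
          mul_le_mul_of_nonneg_left h7 ha0.le
      _ = δ / L * max ‖w‖ (L / 2) + δ / L * s := by ring
      _ ≤ δ / L * max ‖w‖ (L / 2) + s / 4 := by
          have := mul_le_mul_of_nonneg_right ha hs
          linarith
  have hs3 := s3_gt
  have hp : 0 < hw L δ w := lt_of_lt_of_le (by positivity) (hw_ge hL hδ w)
  rw [mem_reg, e1]
  refine ⟨?_, ?_, ?_⟩
  · -- the norm increases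
    have hY : 0 < Y q w := hp.trans h2
    have hX : 0 < Real.sqrt 3 * X q w + Y q w := by
      rw [Y_om] at h3
      linarith
    have hX2 : 0 < X q w + Real.sqrt 3 * Y q w := by
      have e : Real.sqrt 3 * (X q w + Real.sqrt 3 * Y q w) =
        (Real.sqrt 3 * X q w + Y q w) + 2 * Y q w := by linear_combination (Y q w) * s3
      have : 0 < Real.sqrt 3 * (X q w + Real.sqrt 3 * Y q w) := by rw [e]; linarith
      exact pos_of_mul_pos_right this s3_pos.le
    have e2 := XY q (w + s * dd q) hq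
    have e3 := XY q w hq
    rw [X_add, X_smul, Y_add, Y_smul, X_dd hq, Y_dd hq] at e2
    have e4 : ‖w‖ ^ 2 ≤ ‖w + s * dd q‖ ^ 2 := by
      rw [← e2, ← e3]
      have h8 : 0 ≤ s * (X q w + Real.sqrt 3 * Y q w) := mul_nonneg hs hX2.le
      nlinarith [s3, sq_nonneg s]
    have e5 : ‖w‖ ≤ ‖w + s * dd q‖ := by
      by_contra hcon
      push Not at hcon
      have := pow_lt_pow_left₀ hcon (norm_nonneg _) (two_ne_zero)
      linarith
    linarith
  · rw [Y_add, Y_smul, Y_dd hq]
    nlinarith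
  · rw [Y_add, Y_smul, Y'_dd hq]
    nlinarith

/-- far points -/
theorem reg_far (hL : 0 < L) (hδ : 0 < δ) (hδL : δ ≤ L / 4) {q : ℂ} (hq : ‖q‖ = 1) {z : ℂ} {M s : ℝ}
    (hM : ‖z - c‖ ≤ M) (hs : 4 * M + 4 * L ≤ s) : z + s * dd q ∈ reg c L δ q := by
  have hM0 : 0 ≤ M := (norm_nonneg _).trans hM
  have hs0 : 0 ≤ s := by linarith
  have e1 : z + s * dd q - c = (z - c) + s * dd q := by ring
  set w := z - c with hwd
  have ha : δ / L ≤ 1 / 4 := by rw [div_le_iff₀ hL]; linarith
  have ha0 : 0 < δ / L := by positivity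
  have hn : ‖(s : ℂ) * dd q‖ = s := by
    rw [norm_mul, norm_dd hq, mul_one, Complex.norm_real, Real.norm_eq_abs, abs_of_nonneg hs0]
  have h5 : ‖w + s * dd q‖ ≤ ‖w‖ + s := by
    refine (norm_add_le _ _).trans ?_
    rw [hn]
  have h6 : hw L δ (w + s * dd q) ≤ (M + s) / 4 := by
    unfold hw
    have h7 : max ‖w + s * dd q‖ (L / 2) ≤ M + s := max_le (by linarith) (by linarith)
    calc δ / L * max ‖w + s * dd q‖ (L / 2) ≤ 1 / 4 * (M + s) :=
          mul_le_mul ha h7 ((norm_nonneg _).trans (le_max_left _ _)) (by norm_num)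
      _ = (M + s) / 4 := by ring
  have hs3 := s3_gt
  have h8 := abs_le.1 (abs_Y_le q w hq)
  have h9 := abs_le.1 (abs_Y_le (q * om) w (by rw [norm_mul, hq, norm_om, one_mul]))
  rw [mem_reg, e1]
  refine ⟨?_, ?_, ?_⟩
  · have : ‖(s : ℂ) * dd q‖ ≤ ‖w + s * dd q‖ + ‖w‖ := by
      have := norm_sub_le (w + s * dd q) w
      rwa [add_sub_cancel_left] at this
    rw [hn] at this
    linarith
  · rw [Y_add, Y_smul, Y_dd hq]
    nlinarith
  · rw [Y_add, Y_smul, Y'_dd hq]
    nlinarith

theorem segment_up (u x y : ℂ) : (fun z => z + u) '' segment ℝ x y = segment ℝ (x + u) (y + u) := by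
  have := segment_translate_image ℝ u x y
  rw [add_comm x u, add_comm y u, ← this]
  congr 1
  funext z
  exact add_comm z u

theorem reg_conn (hL : 0 < L) (hδ : 0 < δ) (hδL : δ ≤ L / 4) {q : ℂ} (hq : ‖q‖ = 1) :
    IsConnected (reg c L δ q) := by
  refine ⟨⟨c + ((4 * L : ℝ) : ℂ) * dd q, ?_⟩, ?_⟩
  · exact reg_far hL hδ hδL hq (z := c) (M := 0) (by simp) (by linarith)
  · refine isPreconnected_of_forall_pair fun x hx y hy => ?_
    set M := max ‖x - c‖ ‖y - c‖ with hM
    set s : ℝ := 4 * M + 4 * L with hs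
    have hM0 : 0 ≤ M := (norm_nonneg _).trans (le_max_left _ _)
    have hs0 : 0 ≤ s := by positivity
    have up : ∀ z ∈ reg c L δ q, segment ℝ z (z + s * dd q) ⊆ reg c L δ q := by
      intro z hz u hu
      obtain ⟨a, b, ha, hb, hab, rfl⟩ := hu
      have e : a • z + b • (z + s * dd q) = z + ((b * s : ℝ) : ℂ) * dd q := by
        simp only [Complex.real_smul]
        have : (a : ℂ) + b = 1 := by exact_mod_cast hab
        push_cast
        linear_combination z * this
      rw [e]
      exact reg_up hL hδ hδL hq hz (mul_nonneg hb hs0)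
    have mid : segment ℝ (x + s * dd q) (y + s * dd q) ⊆ reg c L δ q := by
      rw [← segment_up]
      rintro _ ⟨z, hz, rfl⟩
      refine reg_far hL hδ hδL hq (M := M) ?_ le_rfl
      have h1 : z ∈ Metric.closedBall c M := by
        refine (convex_closedBall c M).segment_subset ?_ ?_ hz
        · rw [Metric.mem_closedBall, dist_eq_norm]; exact le_max_left _ _
        · rw [Metric.mem_closedBall, dist_eq_norm]; exact le_max_right _ _
      rwa [Metric.mem_closedBall, dist_eq_norm] at h1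
    refine ⟨(segment ℝ x (x + s * dd q) ∪ segment ℝ (x + s * dd q) (y + s * dd q)) ∪
      segment ℝ y (y + s * dd q), ?_, ?_, ?_, ?_⟩
    · exact Set.union_subset (Set.union_subset (up x hx) mid) (up y hy)
    · exact Or.inl (Or.inl (left_mem_segment ℝ _ _))
    · exact Or.inr (left_mem_segment ℝ _ _)
    · refine IsPreconnected.union (y + s * dd q) (Or.inr (right_mem_segment ℝ _ _))
        (right_mem_segment ℝ _ _) ?_ (convex_segment _ _).isPreconnected
      exact IsPreconnected.union (x + s * dd q) (right_mem_segment ℝ _ _) (left_mem_segment ℝ _ _)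
        (convex_segment _ _).isPreconnected (convex_segment _ _).isPreconnected

theorem far_succ (hL : 0 < L) (hδ : 0 < δ) (h0 : ‖q0‖ = 1) {k : ZMod 3} {z w : ℂ}
    (hz : z ∈ (refD c L δ q0).R k) (hw' : w ∈ (refD c L δ q0).R (k + 1)) : δ ≤ ‖z - w‖ := by
  rw [refD_R] at hz hw'
  rw [q_succ] at hw'
  set q := (refD c L δ q0).q k
  have hq : ‖q * om‖ = 1 := by rw [norm_mul, norm_q h0, norm_om, one_mul]
  have h1 := hz.2.2
  have h2 := hw'.2.1
  have h3 := hw_ge hL hδ (z - c)
  have h4 := hw_ge hL hδ (w - c)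
  have h5 := abs_le.1 (abs_Y_le (q * om) (z - w) hq)
  have e : z - w = (z - c) - (w - c) := by ring
  rw [e, Y_sub, ← e] at h5
  linarith

/-- **the reference domain is admissible** -/
theorem ok (hL : 0 < L) (hδ : 0 < δ) (hδL : δ ≤ L / 4) (h0 : ‖q0‖ = 1) :
    (refD c L δ q0).OK δ where
  Lpos := hL
  dpos := hδ
  opn i := reg_open _
  con i := reg_conn hL hδ hδL (norm_q (c := c) (L := L) (δ := δ) h0 i)
  qn k := norm_q (c := c) (L := L) (δ := δ) h0 k
  far i j hij z hz w hw' := by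
    rcases zmod_cases j i with rfl | rfl | rfl
    · exact absurd rfl hij
    · exact far_succ hL hδ h0 hz hw'
    · rw [norm_sub_rev]
      refine far_succ hL hδ h0 hw' ?_
      rwa [sub_add_cancel]
  tent z hz := by
    have hz' : L / 2 < ‖z - c‖ := hz
    have e0 : hw L δ (z - c) = δ / L * ‖z - c‖ := hw_out hz'
    constructor
    · intro hR
      obtain ⟨k, hk⟩ := Finite.exists_max fun k : ZMod 3 => X ((refD c L δ q0).q k) (z - c)
      set q := (refD c L δ q0).q k with hq
      have hq1 : ‖q‖ = 1 := norm_q h0 k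
      have h1 : Real.sqrt 3 * Y q (z - c) ≤ 3 * X q (z - c) := by
        have := hk (k + 1)
        rw [q_succ, X_om, ← hq] at this
        linarith
      have h2 : -(Real.sqrt 3 * Y q (z - c)) ≤ 3 * X q (z - c) := by
        have h3 := hk (k - 1)
        have e1 : q = (refD c L δ q0).q (k - 1) * om := by rw [← q_succ, sub_add_cancel]
        have e2 : X ((refD c L δ q0).q (k - 1)) (z - c) =
            -(1 / 2) * X q (z - c) - Real.sqrt 3 / 2 * Y q (z - c) := by
          rw [e1, X_om, Y_om]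
          linear_combination (-(1 : ℝ) / 4 * X ((refD c L δ q0).q (k - 1)) (z - c)) * s3
        rw [e2] at h3
        linarith
      have h1' : Y q (z - c) ≤ Real.sqrt 3 * X q (z - c) := by
        have : Real.sqrt 3 * Y q (z - c) ≤ Real.sqrt 3 * (Real.sqrt 3 * X q (z - c)) := by
          rw [← mul_assoc, s3]; exact h1
        exact le_of_mul_le_mul_left this s3_pos
      have h2' : -Y q (z - c) ≤ Real.sqrt 3 * X q (z - c) := by
        have : Real.sqrt 3 * -Y q (z - c) ≤ Real.sqrt 3 * (Real.sqrt 3 * X q (z - c)) := by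
          rw [← mul_assoc, s3]; linarith
        exact le_of_mul_le_mul_left this s3_pos
      have hx0 : 0 ≤ X q (z - c) := by
        have := s3_pos
        nlinarith
      have hb : |Y q (z - c)| ≤ hw L δ (z - c) := by
        rw [abs_le]
        constructor
        · by_contra hcon
          push Not at hcon
          exact hR (k - 1) (mem_right (by linarith) hcon h2')
        · by_contra hcon
          push Not at hcon
          exact hR k (mem_left (by linarith) hcon h1')
      refine ⟨k, X q (z - c), hx0, ?_⟩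
      show ‖z - (c + X q (z - c) * q)‖ ≤ δ / L * ‖z - c‖
      rw [← e0]
      refine le_trans (le_of_eq ?_) hb
      have e3 : z - (c + X q (z - c) * q) = (z - c) - X q (z - c) * q := by ring
      have e4 := XY q ((z - c) - X q (z - c) * q) hq1
      have e5 : X q ((z - c) - X q (z - c) * q) = 0 := by
        have : X q ((z - c) - X q (z - c) * q) = X q (z - c) - X q (X q (z - c) * q) := by
          rw [sub_eq_add_neg, X_add]
          have : X q (-(↑(X q (z - c)) * q)) = -X q (↑(X q (z - c)) * q) := by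
            unfold X; rw [neg_mul, Complex.neg_re]
          rw [this]; ring
        rw [this, X_smul, X_self hq1]; ring
      have e6 : Y q ((z - c) - X q (z - c) * q) = Y q (z - c) := by
        rw [Y_sub, Y_smul, Y_self hq1]; ring
      rw [e5, e6] at e4
      rw [e3, ← Real.sqrt_sq (norm_nonneg _), ← e4, ← Real.sqrt_sq_eq_abs]
      congr 1
      ring
    · rintro ⟨k, t, ht, h⟩ i
      refine notMem_of_near h0 ht (k := k) ?_ i
      rw [e0]
      exact h
  sect k r hr := by
    have hr' : L / 2 < r := hr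
    have hr0 : 0 < r := by linarith
    have ha : δ / L ≤ 1 / 4 := by rw [div_le_iff₀ hL]; linarith
    have ha0 : 0 < δ / L := by positivity
    set a := δ / L with had
    have hpi := Real.pi_pos
    have has : Real.arcsin a ≤ Real.pi / 6 := by
      rw [Real.arcsin_le_iff_le_sin ⟨by linarith, by linarith⟩ ⟨by linarith, by linarith⟩,
        Real.sin_pi_div_six]
      linarith
    refine ⟨Real.pi / 6, by positivity, fun φ h1 h2 => ?_⟩
    have h1' : Real.arcsin a < φ := h1
    have h2' : φ < Real.arcsin a + Real.pi / 6 := h2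
    have hs0 : 0 ≤ Real.arcsin a := Real.arcsin_nonneg.2 ha0.le
    have hsin : a < Real.sin φ := by
      rwa [← Real.arcsin_lt_iff_lt_sin ⟨by linarith, by linarith⟩ ⟨by linarith, by linarith⟩]
    have hcs : Real.sin φ ≤ Real.sqrt 3 * Real.cos φ := by
      have : 0 ≤ Real.sin (Real.pi / 3 - φ) :=
        Real.sin_nonneg_of_nonneg_of_le_pi (by linarith) (by linarith)
      rw [Real.sin_sub, Real.sin_pi_div_three, Real.cos_pi_div_three] at this
      linarith
    set q := (refD c L δ q0).q k with hq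
    have hq1 : ‖q‖ = 1 := norm_q h0 k
    have key : ∀ ψ : ℝ, ‖c + r * (q * Complex.exp (ψ * Complex.I)) - c‖ = r ∧
        X q (c + r * (q * Complex.exp (ψ * Complex.I)) - c) = r * Real.cos ψ ∧
        Y q (c + r * (q * Complex.exp (ψ * Complex.I)) - c) = r * Real.sin ψ := by
      intro ψ
      rw [add_sub_cancel_left]
      refine ⟨?_, ?_, ?_⟩
      · rw [norm_mul, norm_mul, hq1, Complex.norm_exp_ofReal_mul_I, Complex.norm_real,
          Real.norm_eq_abs, abs_of_pos hr0]
        ring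
      · rw [X_smul, X_polar hq1, Complex.exp_ofReal_mul_I_re]
      · rw [Y_smul, Y_polar hq1, Complex.exp_ofReal_mul_I_im]
    constructor
    · obtain ⟨k1, k2, k3⟩ := key φ
      show c + r * (q * Complex.exp (φ * Complex.I)) ∈ _
      refine mem_left (k := k) (by rw [k1]; linarith) ?_ ?_
      · rw [hw_out (by rw [k1]; linarith), ← hq, k3, k1]
        nlinarith
      · rw [← hq, k2, k3]
        nlinarith
    · have e : Complex.exp (-(φ * Complex.I)) = Complex.exp (((-φ : ℝ) : ℂ) * Complex.I) := by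
        push_cast
        ring_nf
      obtain ⟨k1, k2, k3⟩ := key (-φ)
      show c + r * (q * Complex.exp (-(φ * Complex.I))) ∈ _
      rw [e]
      refine mem_right (k := k) (by rw [k1]; linarith) ?_ ?_
      · rw [hw_out (by rw [k1]; linarith), ← hq, k3, k1, Real.sin_neg]
        nlinarith
      · rw [← hq, k2, k3, Real.sin_neg, Real.cos_neg]
        nlinarith

/-! ### sectors of rays towards the three outside regions -/

/-- the rays in the directions `q k exp (i ψ)`, `|ψ - π / 3| ≤ 1 / 2`, starting near the centre reach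
the region `R k` at distance `3 L / 8` -/
theorem hit (hL : 0 < L) (hδL : δ ≤ L / 4) (h0 : ‖q0‖ = 1) {z : ℂ}
    (hz : ‖z - c‖ ≤ L / 32) (k : ZMod 3) {ψ : ℝ} (h1 : Real.pi / 3 - 1 / 2 ≤ ψ)
    (h2 : ψ ≤ Real.pi / 3 + 1 / 2) :
    Metric.ball (z + (3 * L / 8 : ℝ) * ((refD c L δ q0).q k * Complex.exp (ψ * Complex.I))) (L / 32)
      ⊆ (refD c L δ q0).R k := by
  intro y hy
  rw [Metric.mem_ball, dist_eq_norm] at hy
  set q := (refD c L δ q0).q k with hq
  have hq1 : ‖q‖ = 1 := norm_q h0 k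
  have hq2 : ‖q * om‖ = 1 := by rw [norm_mul, hq1, norm_om, one_mul]
  have hpi := Real.pi_gt_three
  have hpi2 := Real.pi_lt_four
  set v : ℂ := y - (z + (3 * L / 8 : ℝ) * (q * Complex.exp (ψ * Complex.I))) + (z - c) with hv
  have e1 : y - c = (3 * L / 8 : ℝ) * (q * Complex.exp (ψ * Complex.I)) + v := by rw [hv]; ring
  have hvn : ‖v‖ < L / 16 := by
    refine (norm_add_le _ _).trans_lt ?_
    linarith
  have hs1 : 1 / 2 ≤ Real.sin ψ := by
    rw [← Real.sin_pi_div_six]
    have : Real.sin ψ = Real.sin (Real.pi / 2 - |Real.pi / 2 - ψ|) := by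
      rcases le_total ψ (Real.pi / 2) with h | h
      · rw [abs_of_nonneg (by linarith)]; congr 1; ring
      · rw [abs_of_nonpos (by linarith), ← Real.sin_pi_sub]; congr 1; ring
    rw [this]
    apply Real.sin_le_sin_of_le_of_le_pi_div_two
    · linarith
    · linarith [abs_nonneg (Real.pi / 2 - ψ)]
    · have : |Real.pi / 2 - ψ| ≤ Real.pi / 3 := by rw [abs_le]; constructor <;> linarith
      linarith
  have hs2 : 1 / 2 ≤ Real.sin (2 * Real.pi / 3 - ψ) := by
    rw [← Real.sin_pi_div_six]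
    set χ := 2 * Real.pi / 3 - ψ with hχ
    have : Real.sin χ = Real.sin (Real.pi / 2 - |Real.pi / 2 - χ|) := by
      rcases le_total χ (Real.pi / 2) with h | h
      · rw [abs_of_nonneg (by linarith)]; congr 1; ring
      · rw [abs_of_nonpos (by linarith), ← Real.sin_pi_sub]; congr 1; ring
    rw [this]
    apply Real.sin_le_sin_of_le_of_le_pi_div_two
    · linarith
    · linarith [abs_nonneg (Real.pi / 2 - χ)]
    · have : |Real.pi / 2 - χ| ≤ Real.pi / 3 := by rw [abs_le]; constructor <;> linarith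
      linarith
  have hn : ‖((3 * L / 8 : ℝ) : ℂ) * (q * Complex.exp (ψ * Complex.I))‖ = 3 * L / 8 := by
    rw [norm_mul, norm_mul, hq1, Complex.norm_exp_ofReal_mul_I, Complex.norm_real,
      Real.norm_eq_abs, abs_of_pos (by positivity)]
    ring
  have hup : ‖y - c‖ ≤ 3 * L / 8 + ‖v‖ := by
    rw [e1]; refine (norm_add_le _ _).trans ?_; rw [hn]
  have hlo : 3 * L / 8 ≤ ‖y - c‖ + ‖v‖ := by
    have := norm_sub_le (y - c) v
    have e2 : y - c - v = (3 * L / 8 : ℝ) * (q * Complex.exp (ψ * Complex.I)) := by rw [e1]; ring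
    rwa [e2, hn] at this
  have hw1 : hw L δ (y - c) = δ / 2 := hw_in hL (by linarith)
  have hY : Y q (y - c) = 3 * L / 8 * Real.sin ψ + Y q v := by
    rw [e1, Y_add, Y_smul, Y_polar hq1, Complex.exp_ofReal_mul_I_im]
  have hY' : Y (q * om) (y - c) = -(3 * L / 8 * Real.sin (2 * Real.pi / 3 - ψ)) + Y (q * om) v := by
    rw [e1, Y_add, Y_smul, Y_om q (q * _), X_polar hq1, Y_polar hq1, Complex.exp_ofReal_mul_I_im,
      Complex.exp_ofReal_mul_I_re, Real.sin_sub]
    have a1 : Real.sin (2 * Real.pi / 3) = Real.sqrt 3 / 2 := by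
      rw [show (2 * Real.pi / 3) = Real.pi - Real.pi / 3 by ring, Real.sin_pi_sub,
        Real.sin_pi_div_three]
    have a2 : Real.cos (2 * Real.pi / 3) = -(1 / 2) := by
      rw [show (2 * Real.pi / 3) = Real.pi - Real.pi / 3 by ring, Real.cos_pi_sub,
        Real.cos_pi_div_three]
    rw [a1, a2]
    ring
  have b1 := abs_le.1 (abs_Y_le q v hq1)
  have b2 := abs_le.1 (abs_Y_le (q * om) v hq2)
  rw [refD_R, ← hq, mem_reg, hw1, hY, hY']
  refine ⟨by linarith, ?_, ?_⟩
  · nlinarith
  · nlinarith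

/-- on the way they stay away from the other regions -/
theorem miss (hL : 0 < L) (hδ : 0 < δ) (h0 : ‖q0‖ = 1) {z : ℂ}
    (hz : ‖z - c‖ ≤ L / 32) (k : ZMod 3) {ψ s : ℝ} (h1 : Real.pi / 3 - 1 / 2 ≤ ψ)
    (h2 : ψ ≤ Real.pi / 3 + 1 / 2) (hs : 0 ≤ s) {j : ZMod 3} (hj : j ≠ k) :
    Disjoint (Metric.ball (z + s * ((refD c L δ q0).q k * Complex.exp (ψ * Complex.I))) (L / 32))
      ((refD c L δ q0).R j) := by
  rw [Set.disjoint_left]
  intro y hy hyR
  rw [Metric.mem_ball, dist_eq_norm] at hy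
  set q := (refD c L δ q0).q k with hq
  have hq1 : ‖q‖ = 1 := norm_q h0 k
  have hq2 : ‖q * om‖ = 1 := by rw [norm_mul, hq1, norm_om, one_mul]
  have hpi := Real.pi_gt_three
  have hpi2 := Real.pi_lt_four
  set v : ℂ := y - (z + s * (q * Complex.exp (ψ * Complex.I))) + (z - c) with hv
  have e1 : y - c = s * (q * Complex.exp (ψ * Complex.I)) + v := by rw [hv]; ring
  have hvn : ‖v‖ < L / 16 := by
    refine (norm_add_le _ _).trans_lt ?_
    linarith
  have hs1 : 1 / 2 ≤ Real.sin ψ := by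
    rw [← Real.sin_pi_div_six]
    have : Real.sin ψ = Real.sin (Real.pi / 2 - |Real.pi / 2 - ψ|) := by
      rcases le_total ψ (Real.pi / 2) with h | h
      · rw [abs_of_nonneg (by linarith)]; congr 1; ring
      · rw [abs_of_nonpos (by linarith), ← Real.sin_pi_sub]; congr 1; ring
    rw [this]
    apply Real.sin_le_sin_of_le_of_le_pi_div_two
    · linarith
    · linarith [abs_nonneg (Real.pi / 2 - ψ)]
    · have : |Real.pi / 2 - ψ| ≤ Real.pi / 3 := by rw [abs_le]; constructor <;> linarith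
      linarith
  have hs2 : 1 / 2 ≤ Real.sin (2 * Real.pi / 3 - ψ) := by
    rw [← Real.sin_pi_div_six]
    set χ := 2 * Real.pi / 3 - ψ with hχ
    have : Real.sin χ = Real.sin (Real.pi / 2 - |Real.pi / 2 - χ|) := by
      rcases le_total χ (Real.pi / 2) with h | h
      · rw [abs_of_nonneg (by linarith)]; congr 1; ring
      · rw [abs_of_nonpos (by linarith), ← Real.sin_pi_sub]; congr 1; ring
    rw [this]
    apply Real.sin_le_sin_of_le_of_le_pi_div_two
    · linarith
    · linarith [abs_nonneg (Real.pi / 2 - χ)]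
    · have : |Real.pi / 2 - χ| ≤ Real.pi / 3 := by rw [abs_le]; constructor <;> linarith
      linarith
  have hn : ‖(s : ℂ) * (q * Complex.exp (ψ * Complex.I))‖ = s := by
    rw [norm_mul, norm_mul, hq1, Complex.norm_exp_ofReal_mul_I, Complex.norm_real,
      Real.norm_eq_abs, abs_of_nonneg hs]
    ring
  have hup : ‖y - c‖ ≤ s + ‖v‖ := by
    rw [e1]; refine (norm_add_le _ _).trans ?_; rw [hn]
  have hY : Y q (y - c) = s * Real.sin ψ + Y q v := by
    rw [e1, Y_add, Y_smul, Y_polar hq1, Complex.exp_ofReal_mul_I_im]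
  have hY' : Y (q * om) (y - c) = -(s * Real.sin (2 * Real.pi / 3 - ψ)) + Y (q * om) v := by
    rw [e1, Y_add, Y_smul, Y_om q (q * _), X_polar hq1, Y_polar hq1, Complex.exp_ofReal_mul_I_im,
      Complex.exp_ofReal_mul_I_re, Real.sin_sub]
    have a1 : Real.sin (2 * Real.pi / 3) = Real.sqrt 3 / 2 := by
      rw [show (2 * Real.pi / 3) = Real.pi - Real.pi / 3 by ring, Real.sin_pi_sub,
        Real.sin_pi_div_three]
    have a2 : Real.cos (2 * Real.pi / 3) = -(1 / 2) := by
      rw [show (2 * Real.pi / 3) = Real.pi - Real.pi / 3 by ring, Real.cos_pi_sub,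
        Real.cos_pi_div_three]
    rw [a1, a2]
    ring
  have b1 := abs_le.1 (abs_Y_le q v hq1)
  have b2 := abs_le.1 (abs_Y_le (q * om) v hq2)
  have hwp : 0 < hw L δ (y - c) := lt_of_lt_of_le (by positivity) (hw_ge hL hδ _)
  have hbig : L / 4 < ‖y - c‖ := by rw [refD_R] at hyR; exact hyR.1
  have hsb : 3 * L / 16 < s := by linarith
  rcases zmod_cases j k with rfl | rfl | rfl
  · exact hj rfl
  · rw [refD_R, q_succ, ← hq] at hyR
    have := hyR.2.1
    rw [hY'] at this
    nlinarith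
  · rw [refD_R] at hyR
    have := hyR.2.2
    rw [← q_succ, sub_add_cancel, ← hq, hY] at this
    nlinarith

end basic

/-! ### rigid motions -/

section motion

variable {φ : ℂ ≃ ℂ} {e : ℂ}

theorem mo_isometry (h : Mo φ e) : Isometry φ := Isometry.of_dist_eq fun z w => by
  rw [dist_eq_norm, dist_eq_norm, h.norm]

/-- the motion as a homeomorphism -/
def homeo (h : Mo φ e) : ℂ ≃ₜ ℂ := (IsometryEquiv.mk φ (mo_isometry h)).toHomeomorph

theorem homeo_apply (h : Mo φ e) (z : ℂ) : homeo h z = φ z := rfl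

/-- **`Dom.OK` is invariant under rigid motions** -/
theorem OK_mv (h : Mo φ e) {D : Dom} {δ : ℝ} (hD : D.OK δ) : (D.mv φ e).OK δ where
  Lpos := hD.Lpos
  dpos := hD.dpos
  opn i := (homeo h).isOpenMap _ (hD.opn i)
  con i := (hD.con i).image _ (mo_isometry h).continuous.continuousOn
  qn k := by
    show ‖e * D.q k‖ = 1
    rw [norm_mul, h.ne, hD.qn, one_mul]
  far i j hij z hz w hw' := by
    obtain ⟨z, hz, rfl⟩ := hz
    obtain ⟨w, hw', rfl⟩ := hw'
    rw [h.norm]
    exact hD.far i j hij z hz w hw'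
  tent z hz := by
    obtain ⟨z, rfl⟩ := φ.surjective z
    have hz1 : D.L / 2 < ‖φ z - φ D.c‖ := hz
    rw [h.norm] at hz1
    have h1 : (∀ i, φ z ∉ (D.mv φ e).R i) ↔ ∀ i, z ∉ D.R i :=
      forall_congr' fun i => not_congr φ.injective.mem_set_image
    rw [h1, hD.tent z hz1]
    refine exists_congr fun k => exists_congr fun t => and_congr_right fun _ => ?_
    show _ ↔ ‖φ z - (φ D.c + t * (e * D.q k))‖ ≤ δ / D.L * ‖φ z - φ D.c‖
    rw [← h.ray, h.norm, h.norm]
  sect k r hr := by
    obtain ⟨ε, hε, h1⟩ := hD.sect k r hr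
    refine ⟨ε, hε, fun ψ h2 h3 => ?_⟩
    obtain ⟨h4, h5⟩ := h1 ψ h2 h3
    constructor
    · refine ⟨_, h4, ?_⟩
      show φ (D.c + r * (D.q k * Complex.exp (ψ * Complex.I))) =
        φ D.c + r * (e * D.q k * Complex.exp (ψ * Complex.I))
      rw [h.ray, mul_assoc]
    · refine ⟨_, h5, ?_⟩
      show φ (D.c + r * (D.q k * Complex.exp (-(ψ * Complex.I)))) =
        φ D.c + r * (e * D.q k * Complex.exp (-(ψ * Complex.I)))
      rw [h.ray, mul_assoc]

/-- **the moved reference domain is a reference domain** -/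
theorem refD_mv (h : Mo φ e) (c : ℂ) (L δ : ℝ) (q0 : ℂ) :
    (refD c L δ q0).mv φ e = refD (φ c) L δ (e * q0) := by
  have hR : ∀ k : ZMod 3, φ '' reg c L δ (q0 * omz k) = reg (φ c) L δ (e * q0 * omz k) := by
    intro k
    ext z
    obtain ⟨z, rfl⟩ := φ.surjective z
    rw [φ.injective.mem_set_image, mem_reg, mem_reg]
    have e1 : hw L δ (φ z - φ c) = hw L δ (z - c) := by unfold hw; rw [h.norm]
    have e2 : Y (e * q0 * omz k) (φ z - φ c) = Y (q0 * omz k) (z - c) := by
      rw [h.sub, mul_assoc, Y_rot h.ne]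
    have e3 : Y (e * q0 * omz k * om) (φ z - φ c) = Y (q0 * omz k * om) (z - c) := by
      rw [h.sub, mul_assoc e, mul_assoc e, Y_rot h.ne]
    rw [e1, e2, e3, h.norm]
  unfold Dom.mv refD
  simp only [Dom.mk.injEq]
  refine ⟨trivial, trivial, funext hR, funext fun k => ?_⟩
  ring

/-- rotation by `om` moves the reference domain to itself with shifted marks -/
theorem refD_om (c : ℂ) (L δ : ℝ) (q0 : ℂ) (k : ZMod 3) :
    (refD c L δ (q0 * om)).R k = (refD c L δ q0).R (k + 1) ∧
      (refD c L δ (q0 * om)).q k = (refD c L δ q0).q (k + 1) := by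
  have h : q0 * om * omz k = q0 * omz (k + 1) := by rw [omz_succ]; ring
  exact ⟨by show reg c L δ _ = reg c L δ _; rw [h], h⟩

end motion

end Crest.Agent.R143.RefDx309
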