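import Crest.Agent.R143.RefD_309
import Crest.Agent.R143.Spine_422
import Crest.Agent.R143.Sec0_697

/-!
# R143 (helper309), leaf Y7 / B-D7: the reference domain, `Room`, `Linked`, `Sector`

* `room` : `‖z - c‖ + ρ ≤ L / 4 → Room (refD c L δ q0) ρ z`
* `linked` : `‖z - c‖ + η ≤ L / 4 → η ≤ δ / 2 → Linked (refD c L δ q0) η z`
* `room_mv`, `linked_mv` : invariance under rigid motions (any domain)
* `sector` : `Sector` of 697 for `‖z - c‖ ≤ L / 32`
-/

set_option autoImplicit false

noncomputable section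

open scoped Classical

namespace Crest.Agent.R143.RefSx309

open Crest.ProbabilityR.Voronoi
open Crest.Agent.R143.B0x346 Crest.Agent.R143.B0Dx346 Crest.Agent.R143.CovBx126
open Crest.Agent.R143.RefDx309 Crest.Agent.R143.Spinex422 Crest.Agent.R143.Sec0x697

variable {c : ℂ} {L δ : ℝ} {q0 : ℂ}

theorem room (hL : 0 < L) {z : ℂ} {ρ : ℝ} (h : ‖z - c‖ + ρ ≤ L / 4) :
    Room (refD c L δ q0) ρ z := by
  refine ⟨free_ball h, Metric.closedBall_subset_closedBall' ?_⟩
  rw [dist_eq_norm]
  show ρ + ‖z - c‖ ≤ L / 2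
  linarith

theorem linked (hL : 0 < L) (hδ : 0 < δ) (h0 : ‖q0‖ = 1) {z : ℂ} {η : ℝ} (hη : 0 ≤ η)
    (hη2 : η ≤ δ / 2) (h : ‖z - c‖ + η ≤ L / 4) : Linked (refD c L δ q0) η z := by
  set D := refD c L δ q0 with hD
  set e : ZMod 3 → ℂ := fun k => c + ((3 / 4 * L : ℝ) : ℂ) * D.q k with he
  have hpc : ∀ k : ZMod 3, IsPreconnected (segment ℝ c (e k)) := fun k =>
    (convex_segment _ _).isPreconnected
  have hn : ∀ k, ‖e k - c‖ = 3 / 4 * L := by
    intro k
    rw [he]
    simp only [add_sub_cancel_left]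
    rw [norm_mul, norm_q h0 k, mul_one, Complex.norm_real, Real.norm_eq_abs,
      abs_of_pos (by positivity)]
  refine ⟨segment ℝ z c ∪ ⋃ k : ZMod 3, segment ℝ c (e k), ?_, Or.inl (left_mem_segment ℝ _ _),
    ?_, fun k => Or.inr (Set.mem_iUnion.2 ⟨k, right_mem_segment ℝ _ _⟩), ?_⟩
  · refine IsPreconnected.union c (right_mem_segment ℝ _ _)
      (Set.mem_iUnion.2 ⟨0, left_mem_segment ℝ _ _⟩) (convex_segment _ _).isPreconnected ?_
    exact isPreconnected_iUnion ⟨c, Set.mem_iInter.2 fun k => left_mem_segment ℝ _ _⟩ hpc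
  · have hc : c ∈ Metric.closedBall c (3 / 4 * L) := Metric.mem_closedBall_self (by positivity)
    refine Set.union_subset ((convex_closedBall _ _).segment_subset ?_ hc)
      (Set.iUnion_subset fun k => (convex_closedBall _ _).segment_subset hc ?_)
    · rw [Metric.mem_closedBall, dist_eq_norm]
      show ‖z - c‖ ≤ 3 / 4 * L
      linarith
    · rw [Metric.mem_closedBall, dist_eq_norm]
      show ‖e k - c‖ ≤ 3 / 4 * L
      rw [hn k]
  · rintro y (hy | hy)
    · have h1 : y ∈ Metric.closedBall c ‖z - c‖ := by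
        refine (convex_closedBall _ _).segment_subset ?_ ?_ hy
        · rw [Metric.mem_closedBall, dist_eq_norm]
        · exact Metric.mem_closedBall_self (norm_nonneg _)
      rw [Metric.mem_closedBall, dist_eq_norm] at h1
      exact (free_ball (by linarith)).mono_left Metric.ball_subset_closedBall
    · obtain ⟨k, hk⟩ := Set.mem_iUnion.1 hy
      obtain ⟨a, b, ha, hb, hab, rfl⟩ := hk
      have e1 : a • c + b • e k = c + ((b * (3 / 4 * L) : ℝ) : ℂ) * D.q k := by
        have : (a : ℂ) + b = 1 := by exact_mod_cast hab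
        rw [he]
        simp only [Complex.real_smul]
        push_cast
        linear_combination c * this
      rw [e1]
      exact (free_ray hL hδ h0 (by positivity) hη2 k).mono_left Metric.ball_subset_closedBall

/-! ### motions -/

section motion

variable {φ : ℂ ≃ ℂ} {e : ℂ}

theorem image_closedBall (h : Mo φ e) (z : ℂ) (r : ℝ) :
    φ '' Metric.closedBall z r = Metric.closedBall (φ z) r :=
  (IsometryEquiv.mk φ (mo_isometry h)).image_closedBall z r

theorem image_ball (h : Mo φ e) (z : ℂ) (r : ℝ) :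
    φ '' Metric.ball z r = Metric.ball (φ z) r :=
  (IsometryEquiv.mk φ (mo_isometry h)).image_ball z r

theorem room_mv (h : Mo φ e) {D : Dom} {ρ : ℝ} {z : ℂ} (H : Room D ρ z) :
    Room (D.mv φ e) ρ (φ z) := by
  refine ⟨?_, ?_⟩
  · rw [← image_closedBall h, mv_out]
    exact (Set.disjoint_image_iff φ.injective).2 H.1
  · rw [← image_closedBall h]
    show _ ⊆ Metric.closedBall (φ D.c) (D.L / 2)
    rw [← image_closedBall h]
    exact Set.image_mono H.2

theorem linked_mv (h : Mo φ e) {D : Dom} {η : ℝ} {z : ℂ} (H : Linked D η z) :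
    Linked (D.mv φ e) η (φ z) := by
  obtain ⟨C, h1, h2, h3, h4, h5⟩ := H
  refine ⟨φ '' C, h1.image _ (mo_isometry h).continuous.continuousOn, ⟨z, h2, rfl⟩, ?_, ?_, ?_⟩
  · show _ ⊆ Metric.closedBall (φ D.c) (3 / 4 * D.L)
    rw [← image_closedBall h]
    exact Set.image_mono h3
  · intro k
    refine ⟨_, h4 k, ?_⟩
    exact h.ray _ _ _
  · rintro _ ⟨y, hy, rfl⟩
    rw [← image_ball h, mv_out]
    exact (Set.disjoint_image_iff φ.injective).2 (h5 y hy)

end motion

/-! ### sectors -/

/-- **the three sectors** (`θ = 1`, `ρ = 3 L / 8`, `m = L / 32`) -/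
theorem sector (hL : 0 < L) (hδ : 0 < δ) (hδL : δ ≤ L / 4) (h0 : ‖q0‖ = 1) {z : ℂ}
    (hz : ‖z - c‖ ≤ L / 32) (k : ZMod 3) :
    Sector (refD c L δ q0) z k (((refD c L δ q0).q k).arg + (Real.pi / 3 - 1 / 2)) 1
      (3 * L / 8) (L / 32) := by
  set q := (refD c L δ q0).q k with hq
  have hq1 : ‖q‖ = 1 := norm_q h0 k
  have e1 : ∀ x : ℝ, Complex.exp (x * Complex.I) =
      q * Complex.exp (((x - q.arg : ℝ) : ℂ) * Complex.I) := by
    intro x
    have h1 : q = Complex.exp (q.arg * Complex.I) := by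
      have := Complex.norm_mul_exp_arg_mul_I q
      rw [hq1] at this
      simpa using this.symm
    conv_rhs => rw [h1]
    rw [← Complex.exp_add]
    congr 1
    push_cast
    rw [← h1]
    ring
  refine ⟨one_pos, le_rfl, by positivity, by positivity, ?_, ?_, ?_⟩
  · intro x hx
    rw [e1 x]
    exact hit hL hδL h0 hz k (by linarith [hx.1]) (by linarith [hx.2])
  · intro x hx s hs j hj
    rw [e1 x]
    exact miss hL hδ h0 hz k (by linarith [hx.1]) (by linarith [hx.2]) hs.1 hj
  · show ‖z - c‖ + 3 * L / 8 + L / 32 ≤ L / 2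
    linarith

end Crest.Agent.R143.RefSx309
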