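import Crest.Agent.R143.RefD_309
import Crest.Agent.R143.Y8D_831

/-!
# R143 (helper309), leaf Y7: the free disc of the reference domain in the sense of `Y8D_831`
-/

set_option autoImplicit false

noncomputable section

open scoped Classical

namespace Crest.Agent.R143.RefYx309

open Crest.Agent.R143.B0x346 Crest.Agent.R143.B0Dx346 Crest.Agent.R143.RefDx309
open Crest.Agent.R143.Y8Dx831

theorem free1 {c : ℂ} {L δ : ℝ} {q0 : ℂ} {R1 : ℝ} (h0 : 0 < R1) (h : 16 * R1 ≤ L) :
    Free1 (refD c L δ q0) R1 where
  pos := h0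
  out := Set.disjoint_iff_inter_eq_empty.1 (free_ball (by
    show ‖c - c‖ + 4 * R1 ≤ L / 4
    rw [sub_self, norm_zero]; linarith))
  le := by
    show 8 * R1 ≤ L
    linarith

end Crest.Agent.R143.RefYx309
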