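import Crest.Agent.R143.RegS_523
import Crest.Agent.R143.CorL_765
import Crest.Agent.R143.MeasP_609

/-!
# Row 143 (S0194), CORE-C, RIG: the corridor region and the windows of the polygon (helper523)

* `rall_eq` : 765's `Rall` is `Cor`
* `cor_Wn`, `rall_Wn` : disjoint from 609's window `Wn u ε` as soon as `100 √ε < h - A`
* `rall_P`, `rall_thick` : disjoint from `u.P` and from its open thickenings
* `rall_near`, `rall_infDist` : the corridor is within `3/2 (h + B)` of `u.P`
-/

set_option autoImplicit false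

noncomputable section

open scoped Classical

namespace Crest.Agent.R143.RegFx523

open Set
open Crest.Agent.R143.TileRx228 (U4 cz cen gz ge Arm RR FPath)
open Crest.Agent.R143.RegBx523 Crest.Agent.R143.RegEx523 Crest.Agent.R143.RegSx523
open Crest.Agent.R143.PolyUx346
open Crest.Agent.R143.Layx416 Crest.Agent.R143.LayUx416
open Crest.Agent.R143.MeasPx609 (Wn isCompact_P P_nonempty)
open Crest.Agent.R143.CorNx765 (Rall)

variable {u : Poly} {mm M : ℕ} {p W : ℤ → ℤ × ℤ} {aa e : ℤ → ℤ} {h A B : ℝ}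

theorem rall_eq : Rall A B h W = Cor A B h W := rfl

/-- **disjoint from the window** -/
theorem cor_Wn (H : LayU u mm M p W aa e) (hh : (mm : ℝ) * h = u.s) (hB : 0 ≤ B) (hBh : B ≤ h)
    {ε : ℝ} (hε : 100 * √ε < h - A) : Disjoint (Cor A B h W) (Wn u ε) := by
  rw [Set.disjoint_left]
  intro s hs hw
  obtain ⟨y, hy, he⟩ := (isCompact_P u).exists_infDist_eq_dist (P_nonempty u) s
  have h1 : dist s y ≤ 100 * √ε := by rw [← he]; exact hw
  have hy' : y ∈ Tenx416.Pg (mm * h) (Brkx478.cells (u.U : Set Brkx478.Bk)) := by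
    rw [← LayU.P_eq u hh]; exact hy
  have h2 := cor_dist H.fine (by have := H.m_pos; omega) (H.h_pos hh) hB hBh hs hy'
  rw [← dist_eq_norm] at h2
  linarith

theorem rall_Wn (H : LayU u mm M p W aa e) (hh : (mm : ℝ) * h = u.s) (hB : 0 ≤ B) (hBh : B ≤ h)
    {ε : ℝ} (hε : 100 * √ε < h - A) : Disjoint (Rall A B h W) (Wn u ε) :=
  cor_Wn H hh hB hBh hε

/-- **disjoint from the thickening** -/
theorem rall_thick (H : LayU u mm M p W aa e) (hh : (mm : ℝ) * h = u.s) (hB : 0 ≤ B)
    (hBh : B ≤ h) {r : ℝ} (hr : r ≤ h - A) :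
    Disjoint (Rall A B h W) (Metric.thickening r u.P) := by
  rw [LayU.P_eq u hh]
  exact cor_thickening H.fine (by have := H.m_pos; omega) (H.h_pos hh) hB hBh hr

theorem rall_P (H : LayU u mm M p W aa e) (hh : (mm : ℝ) * h = u.s) (hB : 0 ≤ B)
    (hBh : B ≤ h) (hA : A < h) : Disjoint (Rall A B h W) u.P := by
  rw [LayU.P_eq u hh, Set.disjoint_left]
  intro s hs
  exact cor_off H.fine (by have := H.m_pos; omega) (H.h_pos hh) hB hBh hA hs

/-- **the corridor is near the polygon** -/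
theorem rall_near (H : LayU u mm M p W aa e) (hh : (mm : ℝ) * h = u.s) (hAB : A ≤ B) {s : ℂ}
    (hs : s ∈ Rall A B h W) : ∃ x ∈ u.P, ‖s - x‖ ≤ 3 / 2 * (h + B) := by
  rw [LayU.P_eq u hh]
  exact cor_near_dist H.fine (H.h_pos hh) hAB hs

theorem rall_infDist (H : LayU u mm M p W aa e) (hh : (mm : ℝ) * h = u.s) (hAB : A ≤ B) {s : ℂ}
    (hs : s ∈ Rall A B h W) : Metric.infDist s u.P ≤ 3 / 2 * (h + B) := by
  obtain ⟨x, hx, h1⟩ := rall_near H hh hAB hs
  refine (Metric.infDist_le_dist_of_mem hx).trans ?_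
  rw [dist_eq_norm]
  exact h1

/-- the window of the polygon in the standard numbers: `h = 100 η`, `A = 12 η` -/
theorem rall_Wn_std (H : LayU u mm M p W aa e) {η : ℝ} (hh : (mm : ℝ) * (100 * η) = u.s) {ε : ℝ}
    (hε : √ε < 88 / 100 * η) :
    Disjoint (Rall (12 * η) (52 * η) (100 * η) W) (Wn u ε) := by
  have h0 := H.h_pos hh
  exact rall_Wn H hh (by linarith) (by linarith) (by linarith)

/-- small `ε` -/
theorem rall_Wn_ev (H : LayU u mm M p W aa e) {η : ℝ} (hh : (mm : ℝ) * (100 * η) = u.s) :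
    ∀ᶠ ε : ℝ in nhdsWithin 0 (Set.Ioi 0),
      Disjoint (Rall (12 * η) (52 * η) (100 * η) W) (Wn u ε) := by
  have h0 := H.h_pos hh
  have h1 : Filter.Tendsto (fun ε : ℝ => √ε) (nhdsWithin 0 (Set.Ioi 0)) (nhds 0) := by
    have := Real.continuous_sqrt.tendsto 0
    rw [Real.sqrt_zero] at this
    exact this.mono_left nhdsWithin_le_nhds
  filter_upwards [h1.eventually (gt_mem_nhds (show (0 : ℝ) < 88 / 100 * η by linarith))] with ε hε
  exact rall_Wn_std H hh hε

end Crest.Agent.R143.RegFx523
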