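import Crest.Agent.R143.GateA_838
import Mathlib.Analysis.Convex.Gauge
import Mathlib.Analysis.Normed.Module.Connected

/-!
# Row 143: regions of the tiles (helper633)

* `fr_pre` : finitely many open bounded convex sets of the plane with a common point: the frontier
  of the union is preconnected
* `pick` : an increasing family of open sets has a member whose frontier avoids a finite set
* `rc z0 e a1 a2 b1 b2` : open rectangle in the coordinates `X`, `Y`
* `region` : union of enlarged rectangles with a good frontier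
-/

set_option autoImplicit false

noncomputable section

open scoped Classical Topology

namespace Crest.Agent.R143.Regx633

open Crest.Agent.R143.Gatex838 (X Y)

section general

variable {ι : Type*} [Fintype ι] [Nonempty ι]

/-- minimum of the gauges -/
def gm (C : ι → Set ℂ) (x : ℂ) : ℝ := Finset.univ.inf' Finset.univ_nonempty fun i => gauge (C i) x

theorem gm_cont {C : ι → Set ℂ} (hc : ∀ i, Convex ℝ (C i)) (h0 : ∀ i, C i ∈ 𝓝 (0 : ℂ)) :
    Continuous (gm C) := by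
  unfold gm
  exact Continuous.finset_inf'_apply _ fun i _ => continuous_gauge (hc i) (h0 i)

theorem gm_smul (C : ι → Set ℂ) {t : ℝ} (ht : 0 ≤ t) (x : ℂ) : gm C (t • x) = t * gm C x := by
  unfold gm
  have h1 : ∀ i, gauge (C i) (t • x) = t * gauge (C i) x := fun i => by
    rw [gauge_smul_of_nonneg ht, smul_eq_mul]
  simp only [h1]
  exact (Finset.apply_inf'_eq_inf'_comp (s := Finset.univ) Finset.univ_nonempty
    (fun y : ℝ => t * y) (fun a b => mul_min_of_nonneg a b ht)).symm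

theorem gm_pos {C : ι → Set ℂ} (h0 : ∀ i, C i ∈ 𝓝 (0 : ℂ)) (hb : ∀ i, Bornology.IsBounded (C i))
    {x : ℂ} (hx : x ≠ 0) : 0 < gm C x := by
  unfold gm
  rw [Finset.lt_inf'_iff]
  intro i _
  exact (gauge_pos (absorbent_nhds_zero (h0 i)) (NormedSpace.isVonNBounded_iff ℝ |>.2 (hb i))).2 hx

theorem gm_lt {C : ι → Set ℂ} (hc : ∀ i, Convex ℝ (C i)) (ho : ∀ i, IsOpen (C i))
    (h0 : ∀ i, (0 : ℂ) ∈ C i) (x : ℂ) : gm C x < 1 ↔ ∃ i, x ∈ C i := by
  unfold gm
  rw [Finset.inf'_lt_iff]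
  constructor
  · rintro ⟨i, -, h⟩
    refine ⟨i, ?_⟩
    rw [← setOfPred_gauge_lt_one_eq_self_of_isOpen (hc i) (h0 i) (ho i)]
    exact h
  · rintro ⟨i, h⟩
    refine ⟨i, Finset.mem_univ _, ?_⟩
    rw [← setOfPred_gauge_lt_one_eq_self_of_isOpen (hc i) (h0 i) (ho i)] at h
    exact h

/-- **the frontier of the union, common point `0`** -/
theorem fr_pre0 {C : ι → Set ℂ} (hc : ∀ i, Convex ℝ (C i)) (ho : ∀ i, IsOpen (C i))
    (hb : ∀ i, Bornology.IsBounded (C i)) (h0 : ∀ i, (0 : ℂ) ∈ C i) :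
    IsPreconnected (frontier (⋃ i, C i)) := by
  have hn : ∀ i, C i ∈ 𝓝 (0 : ℂ) := fun i => (ho i).mem_nhds (h0 i)
  have hcont := gm_cont hc hn
  have hU : (⋃ i, C i) = {x | gm C x < 1} := by
    ext x
    rw [Set.mem_iUnion, Set.mem_ofPred_eq, gm_lt hc ho h0]
  have hfr : frontier (⋃ i, C i) = {x | gm C x = 1} := by
    rw [hU]
    apply Set.Subset.antisymm
    · exact frontier_lt_subset_eq hcont continuous_const
    · intro x hx
      have hx1 : gm C x = 1 := hx
      have hopen : IsOpen {x | gm C x < 1} := isOpen_lt hcont continuous_const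
      rw [hopen.frontier_eq]
      refine ⟨?_, fun h => ?_⟩
      · rw [mem_closure_iff_seq_limit]
        refine ⟨fun n : ℕ => (1 - 1 / ((n : ℝ) + 1)) • x, fun n => ?_, ?_⟩
        · have hn1 : (0 : ℝ) < 1 / ((n : ℝ) + 1) := by positivity
          have hn2 : 1 / ((n : ℝ) + 1) ≤ 1 := by
            rw [div_le_one (by positivity)]
            linarith [(Nat.cast_nonneg n : (0 : ℝ) ≤ (n : ℝ))]
          show gm C _ < 1
          rw [gm_smul C (by linarith), hx1, mul_one]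
          linarith
        · have h1 : Filter.Tendsto (fun n : ℕ => 1 - 1 / ((n : ℝ) + 1)) Filter.atTop (𝓝 1) := by
            have := tendsto_one_div_add_atTop_nhds_zero_nat (𝕜 := ℝ)
            simpa using this.const_sub 1
          have h2 := h1.smul_const x
          rwa [one_smul] at h2
      · have h' : gm C x < 1 := h
        linarith
  have himg : frontier (⋃ i, C i) =
      (fun x : ℂ => (gm C x)⁻¹ • x) '' Metric.sphere (0 : ℂ) 1 := by
    rw [hfr]
    ext y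
    constructor
    · intro hy
      have hy1 : gm C y = 1 := hy
      have hy0 : y ≠ 0 := by
        rintro rfl
        have h2 := gm_smul C (le_refl (0 : ℝ)) (0 : ℂ)
        rw [zero_smul, zero_mul, hy1] at h2
        norm_num at h2
      have hny : 0 < ‖y‖ := norm_pos_iff.2 hy0
      refine ⟨(‖y‖)⁻¹ • y, ?_, ?_⟩
      · rw [mem_sphere_zero_iff_norm, norm_smul, norm_inv, norm_norm, inv_mul_cancel₀ hny.ne']
      · show (gm C ((‖y‖)⁻¹ • y))⁻¹ • (‖y‖)⁻¹ • y = y
        rw [gm_smul C (by positivity), hy1, mul_one, inv_inv, smul_smul,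
          mul_inv_cancel₀ hny.ne', one_smul]
    · rintro ⟨x, hx, rfl⟩
      have hx1 : ‖x‖ = 1 := by simpa using hx
      have hx0 : x ≠ 0 := by
        rintro rfl
        simp at hx1
      have hp := gm_pos hn hb hx0
      show gm C ((gm C x)⁻¹ • x) = 1
      rw [gm_smul C (by positivity), inv_mul_cancel₀ hp.ne']
  rw [himg]
  refine IsPreconnected.image (isPreconnected_sphere (by
    rw [Complex.rank_real_complex]; exact Nat.one_lt_ofNat) _ _) _ ?_
  intro x hx
  have hx1 : ‖x‖ = 1 := by simpa using hx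
  have hx0 : x ≠ 0 := by
    rintro rfl
    simp at hx1
  have hp := gm_pos hn hb hx0
  exact ((hcont.continuousAt.inv₀ hp.ne').smul continuousAt_id).continuousWithinAt

/-- **the frontier of a finite union of open bounded convex sets with a common point** -/
theorem fr_pre {C : ι → Set ℂ} (hc : ∀ i, Convex ℝ (C i)) (ho : ∀ i, IsOpen (C i))
    (hb : ∀ i, Bornology.IsBounded (C i)) {p : ℂ} (hp : ∀ i, p ∈ C i) :
    IsPreconnected (frontier (⋃ i, C i)) := by
  have hh : ∀ i, (Homeomorph.addRight p : ℂ ≃ₜ ℂ) ⁻¹' (C i) = (fun x => x + p) ⁻¹' (C i) :=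
    fun i => rfl
  have h1 := fr_pre0 (C := fun i => (Homeomorph.addRight p : ℂ ≃ₜ ℂ) ⁻¹' (C i))
    (fun i => (hc i).translate_preimage_left p) (fun i => (ho i).preimage (Homeomorph.continuous _))
    (fun i => ?_) (fun i => by
      show (0 : ℂ) + p ∈ C i
      rw [zero_add]
      exact hp i)
  · rw [← Set.preimage_iUnion, ← Homeomorph.preimage_frontier] at h1
    have h2 := h1.image (Homeomorph.addRight p : ℂ ≃ₜ ℂ) (Homeomorph.continuous _).continuousOn
    rwa [Set.image_preimage_eq _ (Homeomorph.surjective _)] at h2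
  · obtain ⟨R, hR⟩ := (hb i).exists_norm_le
    refine (isBounded_iff_forall_norm_le).2 ⟨R + ‖p‖, fun x hx => ?_⟩
    have h3 := hR (x + p) hx
    calc ‖x‖ = ‖(x + p) - p‖ := by rw [add_sub_cancel_right]
      _ ≤ ‖x + p‖ + ‖p‖ := norm_sub_le _ _
      _ ≤ R + ‖p‖ := by linarith

/-- **choice of the size**: the frontier avoids a finite set -/
theorem pick {R : ℝ → Set ℂ} {e1 e2 : ℝ} (h : e1 < e2) (ho : ∀ t, IsOpen (R t))
    (hR : ∀ s t, s < t → closure (R s) ⊆ R t) (S : Finset ℂ) :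
    ∃ t, e1 < t ∧ t < e2 ∧ ∀ s ∈ S, s ∉ frontier (R t) := by
  by_contra hc
  push Not at hc
  have hinf : (Set.Ioo e1 e2).Infinite := Set.Ioo_infinite h
  have hf : ∀ t : Set.Ioo e1 e2, ∃ s : S, (s : ℂ) ∈ frontier (R t) := fun t => by
    obtain ⟨s, hs, hs'⟩ := hc t.1 t.2.1 t.2.2
    exact ⟨⟨s, hs⟩, hs'⟩
  choose f hf using hf
  have : Infinite (Set.Ioo e1 e2) := hinf.to_subtype
  obtain ⟨a, b, hab, e⟩ := Finite.exists_ne_map_eq_of_infinite f
  have key : ∀ a b : Set.Ioo e1 e2, (a : ℝ) < b → f a = f b → False := by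
    intro a b hl e
    have h1 := hf a
    have h2 := hf b
    rw [← e] at h2
    have h3 : (f a : ℂ) ∈ R b := hR a b hl (frontier_subset_closure h1)
    rw [(ho b).frontier_eq] at h2
    exact h2.2 h3
  rcases lt_or_gt_of_ne (fun h' => hab (Subtype.ext h') : (a : ℝ) ≠ b) with hl | hl
  · exact key a b hl e
  · exact key b a hl e.symm

end general

/-! ### rectangles -/

variable {z0 e : ℂ}

/-- open rectangle -/
def rc (z0 e : ℂ) (a1 a2 b1 b2 : ℝ) : Set ℂ :=
  {s | a1 < X z0 e s ∧ X z0 e s < a2 ∧ b1 < Y z0 e s ∧ Y z0 e s < b2}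

theorem X_cont (z0 e : ℂ) : Continuous (X z0 e) := by
  unfold X
  exact Complex.continuous_re.comp ((continuous_id.sub continuous_const).div_const e)

theorem Y_cont (z0 e : ℂ) : Continuous (Y z0 e) := by
  unfold Y
  exact Complex.continuous_im.comp ((continuous_id.sub continuous_const).div_const e)

theorem rc_open (a1 a2 b1 b2 : ℝ) : IsOpen (rc z0 e a1 a2 b1 b2) := by
  unfold rc
  exact (isOpen_lt continuous_const (X_cont z0 e)).inter
    ((isOpen_lt (X_cont z0 e) continuous_const).inter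
      ((isOpen_lt continuous_const (Y_cont z0 e)).inter
        (isOpen_lt (Y_cont z0 e) continuous_const)))

theorem X_comb {a b : ℝ} (h : a + b = 1) (u v : ℂ) :
    X z0 e (a • u + b • v) = a * X z0 e u + b * X z0 e v := by
  unfold X
  have h1 : ((a • u + b • v) - z0) / e = ((a : ℂ)) * ((u - z0) / e) + (b : ℂ) * ((v - z0) / e) := by
    have h2 : (a : ℂ) + (b : ℂ) = 1 := by exact_mod_cast h
    rw [Complex.real_smul, Complex.real_smul]
    have h3 : (a : ℂ) * u + (b : ℂ) * v - z0 = (a : ℂ) * (u - z0) + (b : ℂ) * (v - z0) := by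
      linear_combination (z0) * h2
    rw [h3]
    ring
  rw [h1, Complex.add_re, Complex.re_ofReal_mul, Complex.re_ofReal_mul]

theorem Y_comb {a b : ℝ} (h : a + b = 1) (u v : ℂ) :
    Y z0 e (a • u + b • v) = a * Y z0 e u + b * Y z0 e v := by
  unfold Y
  have h1 : ((a • u + b • v) - z0) / e = ((a : ℂ)) * ((u - z0) / e) + (b : ℂ) * ((v - z0) / e) := by
    have h2 : (a : ℂ) + (b : ℂ) = 1 := by exact_mod_cast h
    rw [Complex.real_smul, Complex.real_smul]
    have h3 : (a : ℂ) * u + (b : ℂ) * v - z0 = (a : ℂ) * (u - z0) + (b : ℂ) * (v - z0) := by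
      linear_combination (z0) * h2
    rw [h3]
    ring
  rw [h1, Complex.add_im, Complex.im_ofReal_mul, Complex.im_ofReal_mul]

theorem rc_convex (a1 a2 b1 b2 : ℝ) : Convex ℝ (rc z0 e a1 a2 b1 b2) := by
  rintro u ⟨u1, u2, u3, u4⟩ v ⟨v1, v2, v3, v4⟩ a b ha hb hab
  have key : ∀ x y c : ℝ, c < x → c < y → c < a * x + b * y := by
    intro x y c h1 h2
    have hc : a * c + b * c = c := by rw [← add_mul, hab, one_mul]
    rcases ha.eq_or_lt with rfl | ha'
    · rw [zero_add] at hab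
      subst hab
      linarith
    · have h3 := mul_lt_mul_of_pos_left h1 ha'
      have h4 := mul_le_mul_of_nonneg_left h2.le hb
      linarith
  have key' : ∀ x y c : ℝ, x < c → y < c → a * x + b * y < c := by
    intro x y c h1 h2
    have hc : a * c + b * c = c := by rw [← add_mul, hab, one_mul]
    rcases ha.eq_or_lt with rfl | ha'
    · rw [zero_add] at hab
      subst hab
      linarith
    · have h3 := mul_lt_mul_of_pos_left h1 ha'
      have h4 := mul_le_mul_of_nonneg_left h2.le hb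
      linarith
  refine ⟨?_, ?_, ?_, ?_⟩
  · rw [X_comb hab]; exact key _ _ _ u1 v1
  · rw [X_comb hab]; exact key' _ _ _ u2 v2
  · rw [Y_comb hab]; exact key _ _ _ u3 v3
  · rw [Y_comb hab]; exact key' _ _ _ u4 v4

theorem rc_bdd (he : e ≠ 0) (a1 a2 b1 b2 : ℝ) : Bornology.IsBounded (rc z0 e a1 a2 b1 b2) := by
  refine (isBounded_iff_forall_norm_le).2
    ⟨‖z0‖ + (|a1| + |a2| + |b1| + |b2|) * ‖e‖, fun s hs => ?_⟩
  obtain ⟨h1, h2, h3, h4⟩ := hs
  have e1 : s = z0 + ((s - z0) / e) * e := by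
    rw [div_mul_cancel₀ _ he]; ring
  have e2 : ‖(s - z0) / e‖ ≤ |a1| + |a2| + |b1| + |b2| := by
    have h5 := Complex.norm_le_abs_re_add_abs_im ((s - z0) / e)
    have h6 : |((s - z0) / e).re| ≤ |a1| + |a2| := by
      unfold X at h1 h2
      rw [abs_le]
      constructor
      · linarith [neg_abs_le a1, abs_nonneg a2]
      · linarith [le_abs_self a2, abs_nonneg a1]
    have h7 : |((s - z0) / e).im| ≤ |b1| + |b2| := by
      unfold Y at h3 h4
      rw [abs_le]
      constructor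
      · linarith [neg_abs_le b1, abs_nonneg b2]
      · linarith [le_abs_self b2, abs_nonneg b1]
    linarith
  calc ‖s‖ = ‖z0 + ((s - z0) / e) * e‖ := by rw [← e1]
    _ ≤ ‖z0‖ + ‖((s - z0) / e) * e‖ := norm_add_le _ _
    _ = ‖z0‖ + ‖(s - z0) / e‖ * ‖e‖ := by rw [norm_mul]
    _ ≤ _ := by gcongr

theorem rc_closure (a1 a2 b1 b2 : ℝ) {s t : ℝ} (h : s < t) :
    closure (rc z0 e (a1 - s) (a2 + s) (b1 - s) (b2 + s)) ⊆
      rc z0 e (a1 - t) (a2 + t) (b1 - t) (b2 + t) := by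
  have hcl : IsClosed {p | a1 - s ≤ X z0 e p ∧ X z0 e p ≤ a2 + s ∧ b1 - s ≤ Y z0 e p ∧
      Y z0 e p ≤ b2 + s} :=
    (isClosed_le continuous_const (X_cont z0 e)).inter
      ((isClosed_le (X_cont z0 e) continuous_const).inter
        ((isClosed_le continuous_const (Y_cont z0 e)).inter
          (isClosed_le (Y_cont z0 e) continuous_const)))
  intro p hp
  have h1 := closure_minimal (s := rc z0 e (a1 - s) (a2 + s) (b1 - s) (b2 + s))
    (fun q (hq : q ∈ rc z0 e _ _ _ _) =>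
      (⟨hq.1.le, hq.2.1.le, hq.2.2.1.le, hq.2.2.2.le⟩ : _ ∧ _ ∧ _ ∧ _)) hcl hp
  obtain ⟨h2, h3, h4, h5⟩ := h1
  exact ⟨by linarith, by linarith, by linarith, by linarith⟩

variable {ι : Type*}

/-- union of enlarged rectangles, `q i = (a1, a2, b1, b2)` -/
def Rg (z0 e : ℂ) (q : ι → ℝ × ℝ × ℝ × ℝ) (t : ℝ) : Set ℂ :=
  ⋃ i, rc z0 e ((q i).1 - t) ((q i).2.1 + t) ((q i).2.2.1 - t) ((q i).2.2.2 + t)

theorem Rg_open (q : ι → ℝ × ℝ × ℝ × ℝ) (t : ℝ) : IsOpen (Rg z0 e q t) :=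
  isOpen_iUnion fun _ => rc_open _ _ _ _

variable [Fintype ι]

theorem Rg_mono (q : ι → ℝ × ℝ × ℝ × ℝ) {s t : ℝ} (h : s < t) :
    closure (Rg z0 e q s) ⊆ Rg z0 e q t := by
  unfold Rg
  rw [closure_iUnion_of_finite]
  exact Set.iUnion_mono fun i => rc_closure _ _ _ _ h

theorem Rg_sub (q : ι → ℝ × ℝ × ℝ × ℝ) {s t : ℝ} (h : s ≤ t) : Rg z0 e q s ⊆ Rg z0 e q t := by
  rcases h.eq_or_lt with rfl | h
  · exact subset_rfl
  · exact subset_closure.trans (Rg_mono q h)

theorem Rg_bdd (he : e ≠ 0) (q : ι → ℝ × ℝ × ℝ × ℝ) (t : ℝ) :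
    Bornology.IsBounded (Rg z0 e q t) := by
  unfold Rg
  rw [Bornology.isBounded_iUnion]
  exact fun i => rc_bdd he _ _ _ _

variable [Nonempty ι]

theorem Rg_fr (he : e ≠ 0) (q : ι → ℝ × ℝ × ℝ × ℝ) {t0 t : ℝ} (h : t0 ≤ t) {p : ℂ}
    (hp : ∀ i, p ∈ rc z0 e ((q i).1 - t0) ((q i).2.1 + t0) ((q i).2.2.1 - t0)
      ((q i).2.2.2 + t0)) : IsPreconnected (frontier (Rg z0 e q t)) := by
  refine fr_pre (fun i => rc_convex _ _ _ _) (fun i => rc_open _ _ _ _)
    (fun i => rc_bdd he _ _ _ _) (p := p) fun i => ?_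
  obtain ⟨h1, h2, h3, h4⟩ := hp i
  exact ⟨by linarith, by linarith, by linarith, by linarith⟩

/-- **regions with a good frontier**: `q` = rectangles with a common point -/
theorem region (he : e ≠ 0) (q : ι → ℝ × ℝ × ℝ × ℝ) {p : ℂ}
    (hp : ∀ i, p ∈ rc z0 e (q i).1 (q i).2.1 (q i).2.2.1 (q i).2.2.2) (S : Finset ℂ)
    {e1 e2 : ℝ} (h0 : 0 ≤ e1) (h : e1 < e2) :
    ∃ t, e1 < t ∧ t < e2 ∧ IsOpen (Rg z0 e q t) ∧ Rg z0 e q 0 ⊆ Rg z0 e q t ∧
      Bornology.IsBounded (Rg z0 e q t) ∧ IsPreconnected (frontier (Rg z0 e q t)) ∧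
      ∀ s ∈ S, s ∉ frontier (Rg z0 e q t) := by
  obtain ⟨t, h1, h2, h3⟩ := pick (R := Rg z0 e q) h (fun t => Rg_open q t)
    (fun s t hst => Rg_mono q hst) S
  refine ⟨t, h1, h2, Rg_open q t, Rg_sub q (by linarith), Rg_bdd he q t,
    Rg_fr he q (t0 := 0) (by linarith) (p := p) fun i => ?_, h3⟩
  simpa using hp i

/-- one rectangle -/
theorem region1 (he : e ≠ 0) {a1 a2 b1 b2 : ℝ} (ha : a1 < a2) (hb : b1 < b2) (S : Finset ℂ)
    {e1 e2 : ℝ} (h0 : 0 ≤ e1) (h : e1 < e2) :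
    ∃ t, e1 < t ∧ t < e2 ∧ IsPreconnected (frontier (rc z0 e (a1 - t) (a2 + t) (b1 - t) (b2 + t))) ∧
      ∀ s ∈ S, s ∉ frontier (rc z0 e (a1 - t) (a2 + t) (b1 - t) (b2 + t)) := by
  have hm : ∀ i : Unit, z0 + (⟨(a1 + a2) / 2, (b1 + b2) / 2⟩ : ℂ) * e ∈
      rc z0 e ((fun _ : Unit => (a1, a2, b1, b2)) i).1 ((fun _ : Unit => (a1, a2, b1, b2)) i).2.1
        ((fun _ : Unit => (a1, a2, b1, b2)) i).2.2.1
        ((fun _ : Unit => (a1, a2, b1, b2)) i).2.2.2 := by
    intro i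
    have e3 : (z0 + (⟨(a1 + a2) / 2, (b1 + b2) / 2⟩ : ℂ) * e - z0) / e =
        ⟨(a1 + a2) / 2, (b1 + b2) / 2⟩ := by
      rw [add_sub_cancel_left, mul_div_cancel_right₀ _ he]
    unfold rc X Y
    simp only [Set.mem_ofPred_eq, e3]
    exact ⟨by linarith, by linarith, by linarith, by linarith⟩
  obtain ⟨t, h1, h2, -, -, -, h3, h4⟩ := region (z0 := z0) he (fun _ : Unit => (a1, a2, b1, b2))
    hm S h0 h
  have e4 : Rg z0 e (fun _ : Unit => (a1, a2, b1, b2)) t =
      rc z0 e (a1 - t) (a2 + t) (b1 - t) (b2 + t) := by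
    unfold Rg
    exact Set.iUnion_const _
  rw [e4] at h3 h4
  exact ⟨t, h1, h2, h3, h4⟩

/-- union of two rectangles with a common point -/
theorem region2 (he : e ≠ 0) {a1 a2 b1 b2 c1 c2 d1 d2 : ℝ} {p : ℂ}
    (hp : p ∈ rc z0 e a1 a2 b1 b2) (hp' : p ∈ rc z0 e c1 c2 d1 d2) (S : Finset ℂ)
    {e1 e2 : ℝ} (h0 : 0 ≤ e1) (h : e1 < e2) :
    ∃ t, e1 < t ∧ t < e2 ∧
      IsPreconnected (frontier (rc z0 e (a1 - t) (a2 + t) (b1 - t) (b2 + t) ∪
        rc z0 e (c1 - t) (c2 + t) (d1 - t) (d2 + t))) ∧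
      ∀ s ∈ S, s ∉ frontier (rc z0 e (a1 - t) (a2 + t) (b1 - t) (b2 + t) ∪
        rc z0 e (c1 - t) (c2 + t) (d1 - t) (d2 + t)) := by
  set q : Bool → ℝ × ℝ × ℝ × ℝ := fun i => if i then (a1, a2, b1, b2) else (c1, c2, d1, d2)
    with hq
  obtain ⟨t, h1, h2, -, -, -, h3, h4⟩ := region (z0 := z0) he q (p := p)
    (fun i => by
      cases i
      · simpa [hq] using hp'
      · simpa [hq] using hp) S h0 h
  have e4 : Rg z0 e q t = rc z0 e (a1 - t) (a2 + t) (b1 - t) (b2 + t) ∪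
      rc z0 e (c1 - t) (c2 + t) (d1 - t) (d2 + t) := by
    unfold Rg
    rw [Set.union_comm]
    ext s
    simp [hq]
  rw [e4] at h3 h4
  exact ⟨t, h1, h2, h3, h4⟩

end Crest.Agent.R143.Regx633
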