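import Crest.Agent.R143.Rel_352
import Crest.Agent.R143.Dens2_311

/-!
# Row 143 (S0194), block H, leaf P2, first entrance form (helper126)

352's `part_wt`, `p2` with 311's `Dens2x311.part2` (note 3970 (R-f)) in place of `Partx778.part`: the
explored part `K σ` is a stopping set contained in `O σ`, the other revealed cells `O σ \ K σ` are in
the fixed set `T` (tiles around the window), the weight `g₁ ≥ g` does not see the colours in `T`.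

* `part_wt2` : `∑ wt O g Y ≤ 2^m / 4 ∑ g₁ ∑ ‖a‖²`
* `onL2` : the blocks of the loop of `p'`
* `p2b` : **PARTIAL SECTORS**
-/

set_option autoImplicit false
set_option linter.unusedSectionVars false

noncomputable section

open scoped Classical

namespace Crest.Agent.R143.Rel2x126

open Crest.Agent.R143.Frame1x395 Crest.Agent.R143.Frame2x395 Crest.Agent.R143.Frame3x395
  Crest.Agent.R143.Frame4x395 Crest.Agent.R143.Frame8x395 Crest.Agent.R143.NonXx592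
  Crest.Agent.R143.Coarsex166 Crest.Agent.R143.Giantx46 Crest.Agent.R143.Resax778
  Crest.Agent.R143.Partx778 Crest.Agent.R143.Chordx355 Crest.Agent.R143.ChordCx357
  Crest.Agent.R143.Chord2x355 Crest.Agent.R143.H2x355 Crest.Agent.R143.Dens2x311
  Crest.Agent.R143.Relx352

variable {D C : Type} [Fintype D] [Fintype C] {M : CMap D C}

/-- **PARTIAL SECTORS, weighted form of 311's `part2`** -/
theorem part_wt2 {w : ℂ} (w3 : w ^ 3 = 1) (w1 : w ≠ 1) (wc : (starRingEnd ℂ) w = w ^ 2)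
    {O K : (C → ZMod 2) → Finset C} (hO : StopSet O) (hK : StopSet K) {T : Finset C} {R : Type}
    {r : (C → ZMod 2) → R} (hr : ∀ σ τ, (∀ s ∈ K σ, τ s = σ s) → r τ = r σ)
    {g g₁ : (C → ZMod 2) → ℝ} (hg0 : ∀ σ, 0 ≤ g σ) (hgg : ∀ σ, g σ ≤ g₁ σ)
    (hg₁ : ∀ σ τ, (∀ s, s ∉ T → τ s = σ s) → g₁ τ = g₁ σ)
    (hKO : ∀ σ, g σ ≠ 0 → K σ ⊆ O σ) (hT : ∀ σ, g σ ≠ 0 → O σ \ K σ ⊆ T)
    {C' : R → Type} [∀ q, Fintype (C' q)] {π : ∀ q, C → C' q} {hπ : ∀ q, ClsCon M (π q)}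
    {A : ∀ q, Finset (C' q)} {v : ∀ q, C' q → ZMod 2} {m : ℕ} (hA : ∀ q, (A q).card ≤ m)
    (HG : ∀ σ, g σ ≠ 0 → Gts (π (r σ)) (K σ) σ (A (r σ)) (v (r σ)))
    {a : R → D → ℂ} (ha : ∀ q, Spin M w (a q)) {Y : (C → ZMod 2) → ℝ}
    (hY : ∀ σ τ, g σ ≠ 0 → Y (mix O σ τ) ≤
      ∑ β ∈ blks (coarse M (π (r σ)) (hπ (r σ))) (cfg M (mix O σ τ)), ‖∑ k ∈ β, a (r σ) k‖ ^ 2) :
    ∑ μ, wt O g μ * Y μ ≤ (2 : ℝ) ^ m / 4 * ∑ σ, g₁ σ * ∑ k, ‖a (r σ) k‖ ^ 2 := by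
  have hN : ((Fintype.card (ZMod 2) ^ Fintype.card C : ℕ) : ℝ) =
      (Fintype.card (C → ZMod 2) : ℝ) := by rw [Fintype.card_fun]
  have hpos : (0 : ℝ) < (Fintype.card (C → ZMod 2) : ℝ) := by
    exact_mod_cast Fintype.card_pos
  rw [sum_wt_gen hO, hN, div_le_iff₀ hpos]
  obtain ⟨G', hG'⟩ : ∃ G' : (C → ZMod 2) → Prop, ∀ σ, G' σ ↔ g σ ≠ 0 := ⟨_, fun _ => Iff.rfl⟩
  have h1 : ∑ σ, ∑ τ, g σ * Y (mix O σ τ) ≤ ∑ σ, ∑ τ, (if G' σ then g₁ σ *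
      ∑ β ∈ blks (coarse M (π (r σ)) (hπ (r σ))) (cfg M (mix O σ τ)),
        ‖∑ k ∈ β, a (r σ) k‖ ^ 2 else 0) := by
    refine Finset.sum_le_sum fun σ _ => Finset.sum_le_sum fun τ _ => ?_
    by_cases h : g σ = 0
    · rw [h, zero_mul, if_neg fun h' => (hG' σ).1 h' h]
    · rw [if_pos ((hG' σ).2 h)]
      have hX : (0 : ℝ) ≤ ∑ β ∈ blks (coarse M (π (r σ)) (hπ (r σ))) (cfg M (mix O σ τ)),
          ‖∑ k ∈ β, a (r σ) k‖ ^ 2 := Finset.sum_nonneg fun _ _ => by positivity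
      exact (mul_le_mul_of_nonneg_left (hY σ τ h) (hg0 σ)).trans
        (mul_le_mul_of_nonneg_right (hgg σ) hX)
  refine h1.trans ?_
  have h2 := part2 (M := M) w3 w1 wc hO hK hr (G := G') (fun σ h => hKO σ ((hG' σ).1 h))
    (fun σ h => hT σ ((hG' σ).1 h)) (g := g₁) (fun σ => (hg0 σ).trans (hgg σ)) hg₁ (hπ := hπ) hA
    (fun σ h => HG σ ((hG' σ).1 h)) ha
    (X := fun σ τ => ∑ β ∈ blks (coarse M (π (r σ)) (hπ (r σ))) (cfg M (mix O σ τ)),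
        ‖∑ k ∈ β, a (r σ) k‖ ^ 2) fun _ _ _ => le_rfl
  refine h2.trans (le_of_eq ?_)
  ring

/-- **the blocks of the loop of `p'`**, field `φ` which vanishes off `Q` -/
theorem onL2 {O K : (C → ZMod 2) → Finset C} (hO : StopSet O) (hK : StopSet K) {T : Finset C}
    {R : Type} {r : (C → ZMod 2) → R} (hr : ∀ σ τ, (∀ s ∈ K σ, τ s = σ s) → r τ = r σ)
    {g g₁ : (C → ZMod 2) → ℝ} (hg0 : ∀ σ, 0 ≤ g σ) (hgg : ∀ σ, g σ ≤ g₁ σ)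
    (hg₁ : ∀ σ τ, (∀ s, s ∉ T → τ s = σ s) → g₁ τ = g₁ σ)
    (hKO : ∀ σ, g σ ≠ 0 → K σ ⊆ O σ) (hT : ∀ σ, g σ ≠ 0 → O σ \ K σ ⊆ T)
    {C' : R → Type} [∀ q, Fintype (C' q)] {π : ∀ q, C → C' q} {hπ : ∀ q, ClsCon M (π q)}
    {A : ∀ q, Finset (C' q)} {v : ∀ q, C' q → ZMod 2} {m : ℕ} (hA : ∀ q, (A q).card ≤ m)
    (HG : ∀ σ, g σ ≠ 0 → Gts (π (r σ)) (K σ) σ (A (r σ)) (v (r σ)))
    {z : ℂ} (z3 : z ^ 3 = 1) (z1 : z ≠ 1) (zc : (starRingEnd ℂ) z = z ^ 2)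
    {φ : D → ℂ} (hφ : Spin M z φ) {Q : D → Prop} (hQ : ∀ k, ¬ Q k → φ k = 0)
    {p' : (C → ZMod 2) → D}
    (hH : ∀ σ τ, g σ ≠ 0 → cfg M (mix O σ τ) (p' (mix O σ τ)) = 1 ∧
      ∀ c', Harm M (π (r σ)) (cfg M (mix O σ τ)) (p' (mix O σ τ)) Q c') :
    ∑ μ, wt O g μ * ∑ β ∈ onL M (cfg M μ) (p' μ), ‖∑ h ∈ β, φ h‖ ^ 2 ≤
      (2 : ℝ) ^ m / 4 * ((∑ k, ‖φ k‖ ^ 2) * ∑ σ, g₁ σ) := by
  have h4 := part_wt2 (M := M) z3 z1 zc hO hK hr hg0 hgg hg₁ hKO hT (hπ := hπ) hA HG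
    (a := fun _ => φ) (fun _ => hφ)
    (Y := fun μ => ∑ β ∈ onL M (cfg M μ) (p' μ), ‖∑ h ∈ β, φ h‖ ^ 2) ?_
  · refine h4.trans (le_of_eq ?_)
    congr 1
    rw [Finset.mul_sum]
    refine Finset.sum_congr rfl fun σ _ => ?_
    rw [mul_comm]
  · intro σ τ hσ
    obtain ⟨h5, h6⟩ := hH σ τ hσ
    refine onL_le (hπ := hπ (r σ)) (Gts_isC (HG σ hσ) fun c hc => ?_) h5 hQ h6
    exact mix_on (hKO σ hσ hc)

/-- **P2 = PARTIAL SECTORS, first entrance form** -/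
theorem p2b {α : Type} {V : Finset α} {χ : Finset α → C → ZMod 2} {K₀ : C → Finset α}
    {R1 : Finset α → Finset α} {p₀ : Finset α → D} {len : Finset α → ℕ} {Rv : Finset α → Set C}
    {w : Finset α → ℝ} (E : Ex M V χ K₀ R1 p₀ len Rv w)
    {G : Finset α → D → ℕ → Prop} (hGd : GDec M V χ K₀ R1 p₀ len Rv G)
    (I : Finset (D × ℕ)) {c : ℝ} {Tb : D × ℕ → Finset α → Prop} (hc : ∀ i ∈ I, c ≤ Harx315.pr V (Tb i))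
    (hTb : ∀ i ∈ I, ∀ b b', b ⊆ V → b' ⊆ V → w b ≠ 0 →
      Cd M (cfg M (χ b)) (p₀ b) (len b) (Rv b) i.1 i.2 → G b i.1 i.2 → Tb i b' →
      Frame11x395.Con M (cfg M (χ (b' \ R2 M χ K₀ R1 p₀ len i.1 b ∪ b ∩ R2 M χ K₀ R1 p₀ len i.1 b)))
        (M.cell (M.rho (p₀ b))) (M.cell (M.rho (M.rho i.1))))
    {O K : (C → ZMod 2) → Finset C} (hO : StopSet O) (hK : StopSet K) {T : Finset C}
    {R : Type} {r : (C → ZMod 2) → R} (hr : ∀ σ τ, (∀ s ∈ K σ, τ s = σ s) → r τ = r σ)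
    {g g₁ : (C → ZMod 2) → ℝ} (hg0 : ∀ σ, 0 ≤ g σ) (hgg : ∀ σ, g σ ≤ g₁ σ)
    (hg₁ : ∀ σ τ, (∀ s, s ∉ T → τ s = σ s) → g₁ τ = g₁ σ)
    (hKO : ∀ σ, g σ ≠ 0 → K σ ⊆ O σ) (hT : ∀ σ, g σ ≠ 0 → O σ \ K σ ⊆ T)
    {C' : R → Type} [∀ q, Fintype (C' q)] {π : ∀ q, C → C' q} {hπ : ∀ q, ClsCon M (π q)}
    {A : ∀ q, Finset (C' q)} {v : ∀ q, C' q → ZMod 2} {m : ℕ} (hA : ∀ q, (A q).card ≤ m)
    (HG : ∀ σ, g σ ≠ 0 → Gts (π (r σ)) (K σ) σ (A (r σ)) (v (r σ)))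
    {z : ℂ} (z3 : z ^ 3 = 1) (z1 : z ≠ 1) (zc : (starRingEnd ℂ) z = z ^ 2)
    {φ : D → ℂ} (hφ : Spin M z φ) {Q : D → Prop} (hQ : ∀ k, ¬ Q k → φ k = 0)
    {p' : (C → ZMod 2) → D}
    (hH : ∀ σ τ, g σ ≠ 0 → cfg M (mix O σ τ) (p' (mix O σ τ)) = 1 ∧
      ∀ c', Harm M (π (r σ)) (cfg M (mix O σ τ)) (p' (mix O σ τ)) Q c')
    (hw : ∀ b, b ⊆ V → w b = wt O g (χ b))
    (hp : ∀ b, b ⊆ V → w b ≠ 0 → p₀ b = p' (χ b)) {N : ℝ}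
    (hN : ∀ F : (C → ZMod 2) → ℝ, (∀ μ, 0 ≤ F μ) → ∑ b ∈ V.powerset, F (χ b) ≤ N * ∑ μ, F μ)
    (hN0 : 0 ≤ N) :
    c * ∑ b ∈ V.powerset, ∑ i ∈ I, Fk M χ p₀ len Rv w G φ i b ≤
      N * ((2 : ℝ) ^ m / 4 * ((∑ k, ‖φ k‖ ^ 2) * ∑ σ, g₁ σ)) := by
  have h1 := h2 E hGd φ I hc hTb (fun b => onL M (cfg M (χ b)) (p₀ b)) fun b hb hwb i hi hj _ =>
    blk_onL (E.oa b hb hwb) hj
  refine h1.trans ?_
  set Y : (C → ZMod 2) → ℝ := fun μ => ∑ β ∈ onL M (cfg M μ) (p' μ), ‖∑ h ∈ β, φ h‖ ^ 2 with hYd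
  have hY0 : ∀ μ, 0 ≤ Y μ := fun μ => Finset.sum_nonneg fun _ _ => by positivity
  have h3 : ∑ b ∈ V.powerset, w b * ∑ β ∈ onL M (cfg M (χ b)) (p₀ b), ‖∑ h ∈ β, φ h‖ ^ 2 =
      ∑ b ∈ V.powerset, (fun μ => wt O g μ * Y μ) (χ b) := by
    refine Finset.sum_congr rfl fun b hb => ?_
    have hb' := Finset.mem_powerset.1 hb
    dsimp only
    by_cases hwb : w b = 0
    · rw [hwb, ← hw b hb', hwb, zero_mul, zero_mul]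
    · rw [hw b hb', hYd, hp b hb' hwb]
  rw [h3]
  refine (hN _ fun μ => mul_nonneg (wt_nonneg hg0 μ) (hY0 μ)).trans ?_
  refine mul_le_mul_of_nonneg_left ?_ hN0
  exact onL2 (M := M) hO hK hr hg0 hgg hg₁ hKO hT (hπ := hπ) hA HG z3 z1 zc hφ hQ hH

end Crest.Agent.R143.Rel2x126
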