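import Crest.Agent.R143.Rel_352
import Crest.Agent.R143.Dens2_311

/-!
# Row 143 (S0194), block H, leaf P2 in first entrance form (helper352)

* `rel_frame` : 311's `dens2` + 535's `cyl_frame`, existential form: `Σ_μ E[g | O] μ * Y μ ≤
  2 ^ m / 8 * Σ ‖a‖² * Σ_σ go σ` if `g ≤ go`, `go` does not depend on the colours in `T`, all revealed
  cells `O σ` except `K σ` are in `T`, and on every cylinder of `K` the energy `Y` is bounded by the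
  energy of the coarse map with `m` giants
* `p2d` : **PARTIAL TILES**: 355's chords (field `φ` of one tile), relative to the weight `go` of the
  gates and tiles which do not meet `T`
-/

set_option autoImplicit false
set_option linter.unusedSectionVars false

noncomputable section

open scoped Classical

namespace Crest.Agent.R143.Rel2x352

open Crest.Agent.R143.Frame1x395 Crest.Agent.R143.Frame2x395 Crest.Agent.R143.Frame3x395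
  Crest.Agent.R143.Frame4x395 Crest.Agent.R143.Frame8x395 Crest.Agent.R143.NonXx592
  Crest.Agent.R143.Coarsex166 Crest.Agent.R143.Giantx46 Crest.Agent.R143.Resax778
  Crest.Agent.R143.Partx778 Crest.Agent.R143.Chordx355 Crest.Agent.R143.ChordCx357
  Crest.Agent.R143.Chord2x355 Crest.Agent.R143.H2x355 Crest.Agent.R143.CFramex358
  Crest.Agent.R143.Runx535 Crest.Agent.R143.Dens2x311 Crest.Agent.R143.Relx352

variable {D C : Type} [Fintype D] [Fintype C] {M : CMap D C}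

/-- **relative frame**, first entrance form -/
theorem rel_frame {w : ℂ} (w3 : w ^ 3 = 1) (w1 : w ≠ 1) (wc : (starRingEnd ℂ) w = w ^ 2)
    {a : D → ℂ} (ha : Spin M w a)
    {O K : (C → ZMod 2) → Finset C} (hO : StopSet O) (hK : StopSet K) {T : Finset C}
    {g go : (C → ZMod 2) → ℝ} (hg0 : ∀ σ, 0 ≤ g σ) (hgo : ∀ σ, g σ ≤ go σ)
    (hgT : ∀ σ τ, (∀ s, s ∉ T → τ s = σ s) → go τ = go σ)
    (hKO : ∀ σ, g σ ≠ 0 → K σ ⊆ O σ) (hOT : ∀ σ, g σ ≠ 0 → O σ \ K σ ⊆ T)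
    {Y : (C → ZMod 2) → ℝ} (hY0 : ∀ μ, 0 ≤ Y μ) (ev : (C → ZMod 2) → Prop)
    (hev : ∀ σ τ, g σ ≠ 0 → ev (mix O σ τ)) {m : ℕ}
    (H : ∀ ρ, g ρ ≠ 0 → ∃ (C' : Type) (_ : Fintype C') (π : C → C') (hπ : ClsCon M π),
      Ctr π (K ρ) ρ ∧ (K ρ).Nonempty ∧ ((K ρ).image π).card ≤ m ∧
      ∀ μ ∈ Prs (K ρ) ρ, ev μ → Y μ ≤ En (coarse M π hπ) a (cfg M μ)) :
    ∑ μ, wt O g μ * Y μ ≤ (2 : ℝ) ^ m / 8 * (∑ k, ‖a k‖ ^ 2) * ∑ σ, go σ := by
  have hN : ((Fintype.card (ZMod 2) ^ Fintype.card C : ℕ) : ℝ) =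
      (Fintype.card (C → ZMod 2) : ℝ) := by rw [Fintype.card_fun]
  have hpos : (0 : ℝ) < (Fintype.card (C → ZMod 2) : ℝ) := by
    exact_mod_cast Fintype.card_pos
  have hgo0 : ∀ σ, 0 ≤ go σ := fun σ => (hg0 σ).trans (hgo σ)
  obtain ⟨G, hG⟩ : ∃ G : (C → ZMod 2) → Prop, ∀ σ, G σ ↔ g σ ≠ 0 := ⟨_, fun _ => Iff.rfl⟩
  obtain ⟨G', hG'⟩ : ∃ G' : (C → ZMod 2) → Prop, ∀ σ, G' σ ↔ ∃ ρ, G ρ ∧ ∀ s ∈ K ρ, σ s = ρ s :=
    ⟨_, fun _ => Iff.rfl⟩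
  have hG'c : ∀ σ τ, (∀ s ∈ K σ, τ s = σ s) → (G' τ ↔ G' σ) := by
    intro σ τ h
    have e : K τ = K σ := hK σ τ h
    rw [hG', hG']
    constructor
    · rintro ⟨ρ, h1, h2⟩
      have e2 : K τ = K ρ := hK ρ τ h2
      refine ⟨ρ, h1, fun s hs => ?_⟩
      rw [← h2 s hs]
      exact (h s (by rw [← e, e2]; exact hs)).symm
    · rintro ⟨ρ, h1, h2⟩
      have e2 : K σ = K ρ := hK ρ σ h2
      refine ⟨ρ, h1, fun s hs => ?_⟩
      rw [← h2 s hs]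
      exact h s (by rw [e2]; exact hs)
  set F : (C → ZMod 2) → (C → ZMod 2) → ℝ := fun σ μ => if G' σ ∧ ev μ then Y μ else 0 with hF
  have hF0 : ∀ σ μ, 0 ≤ F σ μ := by
    intro σ μ
    show 0 ≤ if G' σ ∧ ev μ then Y μ else 0
    split_ifs
    · exact hY0 μ
    · exact le_rfl
  rw [sum_wt_gen hO, hN, div_le_iff₀ hpos]
  have h1 : ∑ σ, ∑ τ, g σ * Y (mix O σ τ) ≤
      ∑ σ, ∑ τ, (if G σ then go σ * F σ (mix O σ τ) else 0) := by
    refine Finset.sum_le_sum fun σ _ => Finset.sum_le_sum fun τ _ => ?_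
    by_cases h : g σ = 0
    · rw [h, zero_mul, if_neg fun h' => (hG σ).1 h' h]
    · have hGσ : G σ := (hG σ).2 h
      rw [if_pos hGσ]
      have e1 : F σ (mix O σ τ) = Y (mix O σ τ) :=
        if_pos ⟨(hG' σ).2 ⟨σ, hGσ, fun _ _ => rfl⟩, hev σ τ h⟩
      rw [e1]
      exact mul_le_mul_of_nonneg_right (hgo σ) (hY0 _)
  have h2 := dens2 (S := C) (B := ZMod 2) hO hK (G := G) (fun σ h => hKO σ ((hG σ).1 h))
    (fun σ h => hOT σ ((hG σ).1 h)) hgo0 hgT (F := F) hF0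
    (fun σ τ μ h => by
      have e' := hG'c σ τ h
      show (if G' τ ∧ ev μ then Y μ else 0) = if G' σ ∧ ev μ then Y μ else 0
      by_cases h' : G' σ ∧ ev μ
      · rw [if_pos h', if_pos ⟨e'.2 h'.1, h'.2⟩]
      · rw [if_neg h', if_neg fun h'' => h' ⟨e'.1 h''.1, h''.2⟩])
  refine (h1.trans h2).trans ?_
  have hE : 0 ≤ ∑ k, ‖a k‖ ^ 2 := Finset.sum_nonneg fun k _ => by positivity
  have key : ∀ σ, ∑ τ, F σ (glue (K σ) σ τ) ≤
      (Fintype.card (C → ZMod 2) : ℝ) * ((2 : ℝ) ^ m / 8 * ∑ k, ‖a k‖ ^ 2) := by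
    intro σ
    by_cases hσ : G' σ
    · obtain ⟨ρ, hρ, hs⟩ := (hG' σ).1 hσ
      have eK : K σ = K ρ := hK ρ σ hs
      obtain ⟨C', _, π, hπ, c1, c2, c3, c4⟩ := H ρ ((hG ρ).1 hρ)
      rw [eK, sum_glue (K ρ) σ fun μ => F σ μ, nsmul_eq_mul]
      have e1 : ∑ μ ∈ pre (K ρ) σ, F σ μ ≤ ∑ μ ∈ Prs (K ρ) ρ, En (coarse M π hπ) a (cfg M μ) := by
        have e2 : pre (K ρ) σ = Prs (K ρ) ρ := by
          ext μ
          unfold pre
          rw [mem_Prs, Finset.mem_filter]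
          constructor
          · rintro ⟨-, h⟩ s hs'
            rw [h s hs', hs s hs']
          · intro h
            exact ⟨Finset.mem_univ _, fun s hs' => by rw [h s hs', hs s hs']⟩
        rw [e2]
        refine Finset.sum_le_sum fun μ hμ => ?_
        show (if G' σ ∧ ev μ then Y μ else 0) ≤ _
        split_ifs with h
        · exact c4 μ hμ h.2
        · exact En_nonneg (M := coarse M π hπ) a _
      have e3 := c1.cyl_frame hπ c2 w3 w1 wc ha c3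
      have e4 : (2 : ℝ) ^ (K ρ).card * (Prs (K ρ) ρ).card = Fintype.card (C → ZMod 2) := by
        have h5 := card_pre (K ρ) ρ
        have h6 : pre (K ρ) ρ = Prs (K ρ) ρ := by
          unfold pre Prs
          rfl
        rw [h6] at h5
        rw [← h5]
        push_cast
        ring
      push_cast
      calc (2 : ℝ) ^ (K ρ).card * ∑ μ ∈ pre (K ρ) σ, F σ μ
          ≤ (2 : ℝ) ^ (K ρ).card * ((Prs (K ρ) ρ).card * (2 ^ m / 8 * ∑ g, ‖a g‖ ^ 2)) :=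
            mul_le_mul_of_nonneg_left (e1.trans e3) (by positivity)
        _ = _ := by rw [← mul_assoc, e4]
    · have e4 : ∀ τ, F σ (glue (K σ) σ τ) = 0 := fun τ => if_neg fun h => hσ h.1
      rw [Finset.sum_congr rfl fun τ _ => e4 τ, Finset.sum_const_zero]
      positivity
  calc ∑ σ, ∑ τ, go σ * F σ (glue (K σ) σ τ)
      = ∑ σ, go σ * ∑ τ, F σ (glue (K σ) σ τ) :=
        Finset.sum_congr rfl fun σ _ => (Finset.mul_sum _ _ _).symm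
    _ ≤ ∑ σ, go σ * ((Fintype.card (C → ZMod 2) : ℝ) * ((2 : ℝ) ^ m / 8 * ∑ k, ‖a k‖ ^ 2)) :=
        Finset.sum_le_sum fun σ _ => mul_le_mul_of_nonneg_left (key σ) (hgo0 σ)
    _ = _ := by rw [← Finset.sum_mul]; ring

/-- **P2 = PARTIAL TILES**, first entrance form -/
theorem p2d {α : Type} {V : Finset α} {χ : Finset α → C → ZMod 2} {K₀ : C → Finset α}
    {R1 : Finset α → Finset α} {p₀ : Finset α → D} {len : Finset α → ℕ} {Rv : Finset α → Set C}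
    {w : Finset α → ℝ} (E : Ex M V χ K₀ R1 p₀ len Rv w)
    {G : Finset α → D → ℕ → Prop} (hGd : GDec M V χ K₀ R1 p₀ len Rv G)
    (I : Finset (D × ℕ)) {c : ℝ} {Tb : D × ℕ → Finset α → Prop}
    (hc : ∀ i ∈ I, c ≤ Harx315.pr V (Tb i))
    (hT : ∀ i ∈ I, ∀ b b', b ⊆ V → b' ⊆ V → w b ≠ 0 →
      Cd M (cfg M (χ b)) (p₀ b) (len b) (Rv b) i.1 i.2 → G b i.1 i.2 → Tb i b' →
      Frame11x395.Con M (cfg M (χ (b' \ R2 M χ K₀ R1 p₀ len i.1 b ∪ b ∩ R2 M χ K₀ R1 p₀ len i.1 b)))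
        (M.cell (M.rho (p₀ b))) (M.cell (M.rho (M.rho i.1))))
    {z : ℂ} (z3 : z ^ 3 = 1) (z1 : z ≠ 1) (zc : (starRingEnd ℂ) z = z ^ 2)
    {φ : D → ℂ} (hφ : Spin M z φ)
    {O K : (C → ZMod 2) → Finset C} (hO : StopSet O) (hK : StopSet K) {T : Finset C}
    {g go : (C → ZMod 2) → ℝ} (hg0 : ∀ σ, 0 ≤ g σ) (hgo : ∀ σ, g σ ≤ go σ)
    (hgT : ∀ σ τ, (∀ s, s ∉ T → τ s = σ s) → go τ = go σ)
    (hKO : ∀ σ, g σ ≠ 0 → K σ ⊆ O σ) (hOT : ∀ σ, g σ ≠ 0 → O σ \ K σ ⊆ T)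
    {p' : (C → ZMod 2) → D} (ev : (C → ZMod 2) → Prop)
    (hev : ∀ σ τ, g σ ≠ 0 → ev (mix O σ τ)) {Q : D → Prop} (hQ : ∀ k, ¬ Q k → φ k = 0) {m : ℕ}
    (H : ∀ ρ, g ρ ≠ 0 → ∃ (C' : Type) (_ : Fintype C') (π : C → C') (_ : ClsCon M π),
      Ctr π (K ρ) ρ ∧ (K ρ).Nonempty ∧ ((K ρ).image π).card ≤ m ∧
      ∀ μ ∈ Prs (K ρ) ρ, ev μ → cfg M μ (p' μ) = 1 ∧ ∀ c', Harm M π (cfg M μ) (p' μ) Q c')
    (hw : ∀ b, b ⊆ V → w b = wt O g (χ b))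
    (hp : ∀ b, b ⊆ V → w b ≠ 0 → p₀ b = p' (χ b)) {N : ℝ}
    (hN : ∀ F : (C → ZMod 2) → ℝ, (∀ μ, 0 ≤ F μ) → ∑ b ∈ V.powerset, F (χ b) ≤ N * ∑ μ, F μ)
    (hN0 : 0 ≤ N) :
    c * ∑ b ∈ V.powerset, ∑ i ∈ I, Fk M χ p₀ len Rv w G φ i b ≤
      N * ((2 : ℝ) ^ m / 8 * (∑ k, ‖φ k‖ ^ 2) * ∑ σ, go σ) := by
  have h1 := h2 E hGd φ I hc hT (fun b => onL M (cfg M (χ b)) (p₀ b)) fun b hb hwb i hi hj _ =>
    blk_onL (E.oa b hb hwb) hj
  refine h1.trans ?_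
  set Y : (C → ZMod 2) → ℝ := fun μ => ∑ β ∈ onL M (cfg M μ) (p' μ), ‖∑ h ∈ β, φ h‖ ^ 2 with hYd
  have hY0 : ∀ μ, 0 ≤ Y μ := fun μ => Finset.sum_nonneg fun _ _ => by positivity
  have h3 : ∑ b ∈ V.powerset, w b * ∑ β ∈ onL M (cfg M (χ b)) (p₀ b), ‖∑ h ∈ β, φ h‖ ^ 2 =
      ∑ b ∈ V.powerset, (fun μ => wt O g μ * Y μ) (χ b) := by
    refine Finset.sum_congr rfl fun b hb => ?_
    have hb' := Finset.mem_powerset.1 hb
    dsimp only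
    by_cases hwb : w b = 0
    · rw [hwb, ← hw b hb', hwb, zero_mul, zero_mul]
    · rw [hw b hb', hYd, hp b hb' hwb]
  rw [h3]
  refine (hN _ fun μ => mul_nonneg (wt_nonneg hg0 μ) (hY0 μ)).trans ?_
  refine mul_le_mul_of_nonneg_left ?_ hN0
  refine rel_frame z3 z1 zc hφ hO hK hg0 hgo hgT hKO hOT hY0 ev hev fun ρ hρ => ?_
  obtain ⟨C', i', π, hπ, c1, c2, c3, c4⟩ := H ρ hρ
  refine ⟨C', i', π, hπ, c1, c2, c3, fun μ hμ hv => ?_⟩
  obtain ⟨h5, h6⟩ := c4 μ hμ hv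
  exact onL_le (hπ := hπ) (c1.isC hπ hμ) h5 hQ h6

end Crest.Agent.R143.Rel2x352
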