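import Crest.Agent.R143.Strand_535
import Crest.Agent.R143.StrB_117

/-!
# Row 143 (S0194), CORE-C, box R4: the arc of a strand is a function of the strand (helper535)

* `Rd M Rt` : the states with both cells in `Rt`
* `IsArc M x Rt e n` : `e` occupied, the states of the times `0, .., n` are in `Rd`, the state before
  and the state after are not
* `IsArc.iff`, `IsArc.uniq`, `IsArc.sd` : the strand of every state of the arc is the arc; two arcs on
  one strand are equal; the revealed cells are the left and the right cells of the arc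
* `ex_arc` : a strand with a state with `¬ fc` has an arc
* `st`, `ln` : start and length of the arc of the strand of `d`; `st_eq`, `st_arc`
* `IsArc.agree` : everything is decided by the revealed cells: the arc, the states, the left cells,
  the gaps, `InK`; `rt0`, `rt0_spec`, `rt0_agree` : the root gap (least block gap of the arc with left
  cell in `J`)
* `of117` : a strand of 117 is an arc
-/

set_option autoImplicit false

noncomputable section

open scoped Classical

namespace Crest.Agent.R143.StrUx535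

open Crest.Agent.R143.Frame1x395 Crest.Agent.R143.Frame2x395 Crest.Agent.R143.Frame3x395
  Crest.Agent.R143.Frame4x395 Crest.Agent.R143.Frame8x395 Crest.Agent.R143.NonXx592
  Crest.Agent.R143.Coarsex166 Crest.Agent.R143.CFramex358 Crest.Agent.R143.Runx535
  Crest.Agent.R143.Gntx535 Crest.Agent.R143.Strandx535

variable {D C : Type} {M : CMap D C} {x : D → ZMod 2} {Rt : Set C}

/-! ### states inside `Rt` -/

/-- the states with both cells in `Rt` -/
def Rd (M : CMap D C) (Rt : Set C) : Set D := {q | M.cell q ∈ Rt ∧ Rc M q ∈ Rt}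

theorem fc_iff (h : IsC M ∅ x) {q : D} (hq : x q = 1) :
    fc M Rt q ↔ q ∈ Rd M Rt ∧ stp M x q ∈ Rd M Rt := by
  unfold fc Rd
  simp only [Set.mem_ofPred_eq]
  rcases stp_cases h hq (Set.notMem_empty _) with ⟨h1, -, e⟩ | ⟨-, h2, e⟩
  · have e1 : M.cell (stp M x q) = M.cell (M.rho (M.rho q)) := by
      rw [e, M.cell_iota _ (h.lv h1)]
    have e2 : Rc M (stp M x q) = M.cell (M.rho q) := by
      show M.cell (M.rho (stp M x q)) = _
      rw [e]
      exact cell_rho_iota M (h.lv h1)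
    rw [e1, e2]
    show M.cell q ∈ Rt ∧ M.cell (M.rho q) ∈ Rt ∧ M.cell (M.rho (M.rho q)) ∈ Rt ↔
      (M.cell q ∈ Rt ∧ M.cell (M.rho q) ∈ Rt) ∧ M.cell (M.rho (M.rho q)) ∈ Rt ∧
        M.cell (M.rho q) ∈ Rt
    tauto
  · have e1 : M.cell (stp M x q) = M.cell q := by
      rw [e, M.cell_iota _ (h.lv h2), M.rho3]
    have e2 : Rc M (stp M x q) = M.cell (M.rho (M.rho q)) := by
      show M.cell (M.rho (stp M x q)) = _
      rw [e]
      exact cell_rho_iota M (h.lv h2)
    rw [e1, e2]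
    show M.cell q ∈ Rt ∧ M.cell (M.rho q) ∈ Rt ∧ M.cell (M.rho (M.rho q)) ∈ Rt ↔
      (M.cell q ∈ Rt ∧ M.cell (M.rho q) ∈ Rt) ∧ M.cell q ∈ Rt ∧
        M.cell (M.rho (M.rho q)) ∈ Rt
    tauto

/-- the reversed state -/
theorem rd_iota (h : IsC M ∅ x) {q : D} (hq : x q = 1) : M.iota q ∈ Rd M Rt ↔ q ∈ Rd M Rt := by
  unfold Rd
  simp only [Set.mem_ofPred_eq]
  rw [cell_iota' h hq, rc_iota h hq]
  exact and_comm

/-- the state before `q` -/
def pv (M : CMap D C) (x : D → ZMod 2) (q : D) : D := M.iota (stp M x (M.iota q))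

theorem pv_stp (h : IsC M ∅ x) {q : D} (hq : x q = 1) : pv M x (stp M x q) = q := by
  unfold pv
  rw [stp_rev h hq (Set.notMem_empty _), M.iota2]

theorem stp_pv (h : IsC M ∅ x) {q : D} (hq : x q = 1) : stp M x (pv M x q) = q := by
  unfold pv
  have h1 : x (M.iota q) = 1 := by rw [h.iot]; exact hq
  rw [stp_rev h h1 (Set.notMem_empty _), M.iota2]

theorem pv_occ (h : IsC M ∅ x) {q : D} (hq : x q = 1) : x (pv M x q) = 1 := by
  unfold pv
  rw [h.iot]
  exact stp_occ h (by rw [h.iot]; exact hq) (Set.notMem_empty _)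

theorem pv_succ (h : IsC M ∅ x) {e : D} (he : x e = 1) (j : ℕ) :
    pv M x (P M x e (j + 1)) = P M x e j := by
  rw [P_succ, pv_stp h (P_occ h he j)]

/-! ### arcs -/

/-- the arc: states of the times `0, .., n` in `Rd`, not the state before, not the state after -/
structure IsArc (M : CMap D C) (x : D → ZMod 2) (Rt : Set C) (e : D) (n : ℕ) : Prop where
  even : IsC M ∅ x
  occ : x e = 1
  mem : ∀ j ≤ n, P M x e j ∈ Rd M Rt
  bef : pv M x e ∉ Rd M Rt
  aft : P M x e (n + 1) ∉ Rd M Rt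

variable {e e' d : D} {n n' : ℕ}

theorem IsArc.fc (A : IsArc M x Rt e n) {j : ℕ} (hj : j < n) : fc M Rt (P M x e j) := by
  rw [fc_iff A.even (P_occ A.even A.occ j)]
  refine ⟨A.mem j hj.le, ?_⟩
  rw [← P_succ]
  exact A.mem (j + 1) hj

theorem IsArc.nfc (A : IsArc M x Rt e n) : ¬ Strandx535.fc M Rt (P M x e n) := by
  rw [fc_iff A.even (P_occ A.even A.occ n)]
  rintro ⟨-, h⟩
  rw [← P_succ] at h
  exact A.aft h

theorem IsArc.iocc (A : IsArc M x Rt e n) : x (M.iota e) = 1 := by rw [A.even.iot]; exact A.occ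

theorem IsArc.nfc' (A : IsArc M x Rt e n) : ¬ Strandx535.fc M Rt (M.iota e) := by
  rw [fc_iff A.even A.iocc]
  rintro ⟨-, h⟩
  apply A.bef
  unfold pv
  rw [rd_iota A.even (stp_occ A.even A.iocc (Set.notMem_empty _))]
  exact h

theorem isArc_of (h : IsC M ∅ x) (he : x e = 1) (hl : M.cell e ∈ Rt) (hr : Rc M e ∈ Rt)
    (h1 : ∀ j < n, Strandx535.fc M Rt (P M x e j)) (h2 : ¬ Strandx535.fc M Rt (P M x e n))
    (h3 : ¬ Strandx535.fc M Rt (M.iota e)) : IsArc M x Rt e n := by
  have hm : ∀ j ≤ n, P M x e j ∈ Rd M Rt := by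
    intro j hj
    rcases Nat.eq_zero_or_pos j with rfl | h0
    · exact ⟨hl, hr⟩
    · have := ((fc_iff h (P_occ h he (j - 1))).1 (h1 (j - 1) (by omega))).2
      rwa [← P_succ, show j - 1 + 1 = j by omega] at this
  refine ⟨h, he, hm, ?_, ?_⟩
  · intro h4
    apply h3
    have hi : x (M.iota e) = 1 := by rw [h.iot]; exact he
    rw [fc_iff h hi]
    refine ⟨(rd_iota h he).2 ⟨hl, hr⟩, ?_⟩
    unfold pv at h4
    rwa [rd_iota h (stp_occ h hi (Set.notMem_empty _))] at h4
  · intro h4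
    apply h2
    rw [fc_iff h (P_occ h he n)]
    exact ⟨hm n le_rfl, by rw [← P_succ]; exact h4⟩

/-- the states reachable from a state of the arc -/
theorem IsArc.rch (A : IsArc M x Rt e n) {j : ℕ} (hj : j ≤ n) {r : D} :
    Rch M x Rt (P M x e j) r ↔ ∃ i, j ≤ i ∧ i ≤ n ∧ P M x e i = r := by
  constructor
  · rintro ⟨k, h1, rfl⟩
    refine ⟨k + j, by omega, ?_, P_add _ _ _⟩
    by_contra hc
    have h2 := h1 (n - j) (by omega)
    rw [← P_add, show n - j + j = n by omega] at h2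
    exact A.nfc h2
  · rintro ⟨i, h1, h2, rfl⟩
    refine ⟨i - j, fun k hk => ?_, ?_⟩
    · rw [← P_add]
      exact A.fc (by omega)
    · rw [← P_add, show i - j + j = i by omega]

/-- the states reachable from the reversed states of the arc -/
theorem IsArc.rch' (A : IsArc M x Rt e n) {j : ℕ} (hj : j ≤ n) {r : D} :
    Rch M x Rt (M.iota (P M x e j)) (M.iota r) ↔ ∃ i ≤ j, P M x e i = r := by
  constructor
  · rintro ⟨k, h1, h2⟩
    rcases le_or_gt k j with hk | hk
    · refine ⟨j - k, by omega, ?_⟩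
      have h3 := P_rev (M := M) A.even A.occ (n := j) (j := k) hk
      rw [h3] at h2
      have := congrArg M.iota h2
      rwa [M.iota2, M.iota2] at this
    · exfalso
      have h3 := h1 j hk
      rw [P_rev (M := M) A.even A.occ (n := j) (j := j) le_rfl, Nat.sub_self] at h3
      exact A.nfc' h3
  · rintro ⟨i, h1, rfl⟩
    refine ⟨j - i, fun k hk => ?_, ?_⟩
    · rw [P_rev (M := M) A.even A.occ (n := j) (j := k) (by omega),
        show j - k = (j - k - 1) + 1 by omega, P_succ,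
        fc_rev A.even (P_occ A.even A.occ _)]
      exact A.fc (by omega)
    · rw [P_rev (M := M) A.even A.occ (n := j) (j := j - i) (by omega),
        show j - (j - i) = i by omega]

/-- **the strand of a state of the arc is the arc** -/
theorem IsArc.iff (A : IsArc M x Rt e n) {j : ℕ} (hj : j ≤ n) {r : D} :
    Str M x Rt (P M x e j) r ↔ ∃ i ≤ n, P M x e i = r := by
  unfold Str
  rw [A.rch hj, A.rch' hj]
  constructor
  · rintro (⟨i, -, h1, h2⟩ | ⟨i, h1, h2⟩)
    · exact ⟨i, h1, h2⟩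
    · exact ⟨i, by omega, h2⟩
  · rintro ⟨i, h1, h2⟩
    rcases le_total j i with h | h
    · exact Or.inl ⟨i, h, h1, h2⟩
    · exact Or.inr ⟨i, h, h2⟩

theorem IsArc.iff0 (A : IsArc M x Rt e n) {r : D} :
    Str M x Rt e r ↔ ∃ i ≤ n, P M x e i = r := A.iff (Nat.zero_le n)

/-- the strand of `d` is the arc -/
theorem IsArc.iff' (A : IsArc M x Rt e n) (hd : x d = 1) (h : Str M x Rt d e) {r : D} :
    Str M x Rt d r ↔ ∃ i ≤ n, P M x e i = r := by
  rw [← A.iff0]
  constructor
  · exact fun h1 => str_trans A.even A.occ (str_symm A.even hd h) h1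
  · exact fun h1 => str_trans A.even hd h h1

/-- every state of the arc is at one time -/
theorem IsArc.inj (A : IsArc M x Rt e n) {i j : ℕ} (hij : i < j) (hj : j ≤ n) :
    P M x e i ≠ P M x e j := by
  intro h
  -- the state before `e` would be in `Rd`
  have key : ∀ k ≤ i, P M x e (i - k) = P M x e (j - k) := by
    intro k hk
    induction k with
    | zero => exact h
    | succ k ih =>
      have h1 := congrArg (pv M x) (ih (by omega))
      rw [show i - k = (i - (k + 1)) + 1 by omega, show j - k = (j - (k + 1)) + 1 by omega,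
        pv_succ A.even A.occ, pv_succ A.even A.occ] at h1
      exact h1
  have h1 := key i le_rfl
  rw [Nat.sub_self] at h1
  apply A.bef
  have h2 : pv M x e = P M x e (j - i - 1) := by
    have h3 : pv M x (P M x e 0) = pv M x (P M x e (j - i)) := by rw [h1]
    rw [show j - i = (j - i - 1) + 1 by omega, pv_succ A.even A.occ] at h3
    exact h3
  rw [h2]
  exact A.mem _ (by omega)

/-- **two arcs on one strand are equal** -/
theorem IsArc.uniq (A : IsArc M x Rt e n) (A' : IsArc M x Rt e' n') (h : Str M x Rt e e') :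
    e' = e ∧ n' = n := by
  obtain ⟨i, hi, h1⟩ := A.iff0.1 h
  have h0 : i = 0 := by
    by_contra hc
    apply A'.bef
    rw [← h1, show i = (i - 1) + 1 by omega, pv_succ A.even A.occ]
    exact A.mem _ (by omega)
  subst h0
  have h1 : e = e' := h1
  subst h1
  refine ⟨rfl, ?_⟩
  rcases lt_trichotomy n' n with h2 | h2 | h2
  · exact absurd (A.mem (n' + 1) (by omega)) A'.aft
  · exact h2
  · exact absurd (A'.mem (n + 1) (by omega)) A.aft

/-- **existence**: the strand of `d` has a state with a cell of its face outside `Rt` -/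
theorem ex_arc [Finite D] (h : IsC M ∅ x) (hd : x d = 1) (hl : M.cell d ∈ Rt) (hr : Rc M d ∈ Rt)
    (ho : ∃ q, Str M x Rt d q ∧ ¬ Strandx535.fc M Rt q) :
    ∃ e n, IsArc M x Rt e n ∧ Str M x Rt d e := by
  obtain ⟨e, n, h1, h2, h3, h4, h5, h6⟩ := str_list h hd ho
  obtain ⟨j, hj, hj'⟩ := (h2 d).1 (str_refl d)
  have he : M.cell e ∈ Rt ∧ Rc M e ∈ Rt := by
    rcases Nat.eq_zero_or_pos j with rfl | h0
    · have hj' : e = d := hj'
      rw [hj']
      exact ⟨hl, hr⟩
    · have := (fc_iff h h1).1 (h3 0 (by omega))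
      exact this.1
  exact ⟨e, n, isArc_of h h1 he.1 he.2 h3 h4 h5, (h2 e).2 ⟨0, Nat.zero_le _, rfl⟩⟩

/-! ### start and length -/

/-- start of the arc of the strand of `d` (`d` if there is none) -/
def st (M : CMap D C) (x : D → ZMod 2) (Rt : Set C) (d : D) : D :=
  if h : ∃ e n, IsArc M x Rt e n ∧ Str M x Rt d e then h.choose else d

/-- length of the arc of the strand of `d` (`0` if there is none) -/
def ln (M : CMap D C) (x : D → ZMod 2) (Rt : Set C) (d : D) : ℕ :=
  if h : ∃ e n, IsArc M x Rt e n ∧ Str M x Rt d e then h.choose_spec.choose else 0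

theorem st_spec (h : ∃ e n, IsArc M x Rt e n ∧ Str M x Rt d e) :
    IsArc M x Rt (st M x Rt d) (ln M x Rt d) ∧ Str M x Rt d (st M x Rt d) := by
  unfold st ln
  rw [dif_pos h, dif_pos h]
  exact h.choose_spec.choose_spec

theorem st_eq (hd : x d = 1) (A : IsArc M x Rt e n) (h : Str M x Rt d e) :
    st M x Rt d = e ∧ ln M x Rt d = n := by
  obtain ⟨h1, h2⟩ := st_spec ⟨e, n, A, h⟩
  exact A.uniq h1 (str_trans A.even A.occ (str_symm A.even hd h) h2)

/-- the start and the length do not depend on the state of the strand -/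
theorem st_str (h : IsC M ∅ x) (hd : x d = 1) {q : D} (hq : Str M x Rt d q)
    (hex : ∃ e n, IsArc M x Rt e n ∧ Str M x Rt d e) :
    st M x Rt q = st M x Rt d ∧ ln M x Rt q = ln M x Rt d := by
  obtain ⟨h1, h2⟩ := st_spec hex
  exact st_eq (str_occ h hd hq) h1 (str_trans h (str_occ h hd hq) (str_symm h hd hq) h2)

/-! ### the root gap -/

open Splx117 (InK)

/-- the root gap: the least block gap of the arc `[0, n]` with left cell in `J` (`0` if none) -/
def rt0 (M : CMap D C) (x : D → ZMod 2) (e : D) (n : ℕ) (J : Set C) : ℕ :=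
  if h : ∃ r, InK M x e 0 n r ∧ Splx117.lc M x e r ∈ J then Nat.find h else 0

theorem rt0_spec {J : Set C} (h : ∃ r, InK M x e 0 n r ∧ Splx117.lc M x e r ∈ J) :
    InK M x e 0 n (rt0 M x e n J) ∧ Splx117.lc M x e (rt0 M x e n J) ∈ J := by
  unfold rt0
  rw [dif_pos h]
  exact Nat.find_spec h

theorem rt0_congr {y : D → ZMod 2} {J : Set C} (h1 : ∀ r, InK M y e 0 n r ↔ InK M x e 0 n r)
    (h2 : ∀ r ≤ n, Splx117.lc M y e r = Splx117.lc M x e r) : rt0 M y e n J = rt0 M x e n J := by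
  have h3 : ∀ r, (InK M y e 0 n r ∧ Splx117.lc M y e r ∈ J) ↔
      (InK M x e 0 n r ∧ Splx117.lc M x e r ∈ J) := by
    intro r
    rw [h1 r]
    constructor
    · rintro ⟨a, b⟩
      exact ⟨a, by rw [← h2 r a.hi.le]; exact b⟩
    · rintro ⟨a, b⟩
      exact ⟨a, by rw [h2 r a.hi.le]; exact b⟩
  have h4 : (fun r => InK M y e 0 n r ∧ Splx117.lc M y e r ∈ J) =
      fun r => InK M x e 0 n r ∧ Splx117.lc M x e r ∈ J := funext fun r => propext (h3 r)
  unfold rt0
  simp only [h4]

/-- the third cell of the last face is outside `Rt` -/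
theorem IsArc.third (A : IsArc M x Rt e n) : M.cell (M.rho (M.rho (P M x e n))) ∉ Rt := by
  intro h
  exact A.nfc ⟨(A.mem n le_rfl).1, (A.mem n le_rfl).2, h⟩

theorem IsArc.third' (A : IsArc M x Rt e n) : M.cell (M.rho (M.rho (M.iota e))) ∉ Rt := by
  intro h
  have h1 := (rd_iota A.even A.occ).2 (A.mem 0 (Nat.zero_le n))
  exact A.nfc' ⟨h1.1, h1.2, h⟩

/-! ### everything is decided by the revealed cells -/

section agree

variable [Fintype D] {χ χ' : C → ZMod 2}

/-- the revealed cells of the strand of a state of the arc -/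
theorem IsArc.sd (A : IsArc M (cfg M χ) Rt e n) (hd : cfg M χ d = 1)
    (h : Str M (cfg M χ) Rt d e) :
    Sd M d Rt χ = wl M (cfg M χ) e n ∪ wr M (cfg M χ) e n :=
  Sd_list hd fun _ => A.iff' hd h

theorem IsArc.sd0 (A : IsArc M (cfg M χ) Rt e n) {j : ℕ} (hj : j ≤ n) :
    Sd M (P M (cfg M χ) e j) Rt χ = wl M (cfg M χ) e n ∪ wr M (cfg M χ) e n :=
  A.sd (P_occ A.even A.occ j)
    (str_symm A.even A.occ (A.iff0.2 ⟨j, hj, rfl⟩))

/-- **the arc is decided by its cells** -/
theorem IsArc.agree (A : IsArc M (cfg M χ) Rt e n)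
    (ha : ∀ c ∈ wl M (cfg M χ) e n ∪ wr M (cfg M χ) e n, χ' c = χ c) :
    IsArc M (cfg M χ') Rt e n ∧ ∀ j ≤ n, P M (cfg M χ') e j = P M (cfg M χ) e j := by
  obtain ⟨h1, h2⟩ := walk_agree A.occ ha
  refine ⟨?_, h2⟩
  have hl := (A.mem 0 (Nat.zero_le n)).1
  have hr := (A.mem 0 (Nat.zero_le n)).2
  refine isArc_of (cfg_isC χ') h1 hl hr (fun j hj => ?_) ?_ A.nfc'
  · rw [h2 j hj.le]
    exact A.fc hj
  · rw [h2 n le_rfl]
    exact A.nfc

variable (A : IsArc M (cfg M χ) Rt e n)
  (ha : ∀ c ∈ wl M (cfg M χ) e n ∪ wr M (cfg M χ) e n, χ' c = χ c)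

include A ha

theorem IsArc.lc_agree {j : ℕ} (hj : j ≤ n) :
    Splx117.lc M (cfg M χ') e j = Splx117.lc M (cfg M χ) e j := by
  unfold Splx117.lc
  rw [show (stp M (cfg M χ'))^[j] e = (stp M (cfg M χ))^[j] e from (A.agree ha).2 j hj]

theorem IsArc.gp_agree {j : ℕ} (hj : j ≤ n) :
    Splx117.gp M (cfg M χ') e j = Splx117.gp M (cfg M χ) e j := by
  unfold Splx117.gp
  rw [show (stp M (cfg M χ'))^[j] e = (stp M (cfg M χ))^[j] e from (A.agree ha).2 j hj]

/-- the gaps of the times `< n` are decided -/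
theorem IsArc.gap_agree {j : ℕ} (hj : j < n) :
    cfg M χ' (Splx117.gp M (cfg M χ') e j) = cfg M χ (Splx117.gp M (cfg M χ) e j) := by
  rw [A.gp_agree ha hj.le]
  have h1 : χ' (M.cell (Splx117.gp M (cfg M χ) e j)) = χ (M.cell (Splx117.gp M (cfg M χ) e j)) := by
    apply ha
    have h2 := third_mem (M := M) A.even A.occ j
    rw [Finset.mem_union] at h2 ⊢
    rcases h2 with h2 | h2
    · left
      obtain ⟨i, hi, e1⟩ := mem_wl.1 h2
      exact mem_wl.2 ⟨i, by omega, e1⟩
    · right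
      obtain ⟨i, hi, e1⟩ := mem_wr.1 h2
      exact mem_wr.2 ⟨i, by omega, e1⟩
  have h2 : χ' (M.cell (M.rho (Splx117.gp M (cfg M χ) e j))) =
      χ (M.cell (M.rho (Splx117.gp M (cfg M χ) e j))) := by
    apply ha
    rw [Splx117.rho_gp]
    exact Finset.mem_union.2 (Or.inl (mem_wl.2 ⟨j, hj.le, rfl⟩))
  show χ' (M.cell (Splx117.gp M (cfg M χ) e j)) + χ' (M.cell (M.rho (Splx117.gp M (cfg M χ) e j))) =
    χ (M.cell (Splx117.gp M (cfg M χ) e j)) + χ (M.cell (M.rho (Splx117.gp M (cfg M χ) e j)))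
  rw [h1, h2]

/-- **the block gaps of the arc are decided** -/
theorem IsArc.ink_agree (r : ℕ) : InK M (cfg M χ') e 0 n r ↔ InK M (cfg M χ) e 0 n r := by
  constructor
  · intro h
    refine ⟨h.lo, h.hi, ?_, fun j l a1 a2 a3 a4 => ?_⟩
    · rw [← A.gap_agree ha h.hi]; exact h.gap
    · have hi := h.hi
      rw [← A.lc_agree ha (show j ≤ n by omega), ← A.lc_agree ha a4]
      exact h.sep j l a1 a2 a3 a4
  · intro h
    refine ⟨h.lo, h.hi, ?_, fun j l a1 a2 a3 a4 => ?_⟩
    · rw [A.gap_agree ha h.hi]; exact h.gap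
    · have hi := h.hi
      rw [A.lc_agree ha (show j ≤ n by omega), A.lc_agree ha a4]
      exact h.sep j l a1 a2 a3 a4

/-- **the root gap is decided** -/
theorem IsArc.rt0_agree (J : Set C) : rt0 M (cfg M χ') e n J = rt0 M (cfg M χ) e n J :=
  rt0_congr (A.ink_agree ha) fun _ hr => A.lc_agree ha hr

end agree

/-! ### from the base dart -/

section base

variable [Fintype D] {χ χ' : C → ZMod 2}

/-- **the start and the length are decided by `Sd`**; the states, the left cells, the block gaps and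
the root gap as well -/
theorem st_agree (hd : cfg M χ d = 1)
    (hex : ∃ e n, IsArc M (cfg M χ) Rt e n ∧ Str M (cfg M χ) Rt d e)
    (ha : ∀ c ∈ Sd M d Rt χ, χ' c = χ c) :
    (IsArc M (cfg M χ') Rt (st M (cfg M χ) Rt d) (ln M (cfg M χ) Rt d) ∧
      Str M (cfg M χ') Rt d (st M (cfg M χ) Rt d)) ∧
    st M (cfg M χ') Rt d = st M (cfg M χ) Rt d ∧ ln M (cfg M χ') Rt d = ln M (cfg M χ) Rt d ∧
    (∀ j ≤ ln M (cfg M χ) Rt d, P M (cfg M χ') (st M (cfg M χ) Rt d) j =
      P M (cfg M χ) (st M (cfg M χ) Rt d) j) ∧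
    (∀ j ≤ ln M (cfg M χ) Rt d, Splx117.gp M (cfg M χ') (st M (cfg M χ) Rt d) j =
      Splx117.gp M (cfg M χ) (st M (cfg M χ) Rt d) j) ∧
    (∀ r, InK M (cfg M χ') (st M (cfg M χ) Rt d) 0 (ln M (cfg M χ) Rt d) r ↔
      InK M (cfg M χ) (st M (cfg M χ) Rt d) 0 (ln M (cfg M χ) Rt d) r) ∧
    ∀ J : Set C, rt0 M (cfg M χ') (st M (cfg M χ) Rt d) (ln M (cfg M χ) Rt d) J =
      rt0 M (cfg M χ) (st M (cfg M χ) Rt d) (ln M (cfg M χ) Rt d) J := by
  obtain ⟨A, h⟩ := st_spec hex
  have e1 := A.sd hd h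
  have ha' : ∀ c ∈ wl M (cfg M χ) (st M (cfg M χ) Rt d) (ln M (cfg M χ) Rt d) ∪
      wr M (cfg M χ) (st M (cfg M χ) Rt d) (ln M (cfg M χ) Rt d), χ' c = χ c := by
    intro c hc
    exact ha c (by rw [e1]; exact hc)
  obtain ⟨h1, h2⟩ := str_agree hd ha
  obtain ⟨h3, h4⟩ := A.agree ha'
  have h5 : Str M (cfg M χ') Rt d (st M (cfg M χ) Rt d) := (h2 _).2 h
  obtain ⟨h6, h7⟩ := st_eq h1 h3 h5
  exact ⟨⟨h3, h5⟩, h6, h7, h4, fun j hj => A.gp_agree ha' hj, A.ink_agree ha', A.rt0_agree ha'⟩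

end base

/-! ### 117's strand -/

/-- **a strand of 117 with `Rs = Rd` is an arc** -/
theorem of117 {m : ℕ} {p : ℕ → D} {R : ℕ → Set D} {q : D} {N : ℕ} {T : ℕ → ℕ}
    (A : StrBx117.Str M x m (Rd M Rt) p R q N T) : IsArc M x Rt q (T m) where
  even := A.lp.even
  occ := A.lp.occ
  mem := A.mem
  bef := by
    have hN := A.lp.pos
    have h1 : stp M x ((stp M x)^[N - 1] q) = q := by
      have h2 := A.lp.per
      rw [show N = (N - 1) + 1 by omega, Function.iterate_succ_apply'] at h2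
      exact h2
    have h2 : pv M x q = (stp M x)^[N - 1] q := by
      have h3 := pv_stp A.lp.even (A.lp.st (N - 1))
      rwa [h1] at h3
    rw [h2]
    exact A.bef
  aft := A.aft

end Crest.Agent.R143.StrUx535
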