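import Crest.Agent.R143.Rel2_126
import Crest.Agent.R143.StrU_535

/-!
# Row 143 (S0194), block H, leaf P2: the explored ends of the strand are the giants (helper126)

* `Fam M ι` : disjoint connected sets of cells with a colour each; `Fam.gts` : `Gts` for `gq`
* `fam_part` : `Rel2x126.onL2` with the giants of a family `F σ`
* `Sa`, `gd`, `arcF` : the left and the right cells of finitely many arcs of walkers
* `arcs_part` : **the blocks of the loop of `p'` relative to a weight `g₁` which does not see `T`**;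
  the explored part `K σ` = left and right cells of the arcs `e σ i` (`n σ i` steps), all on the
  loop of `p'`, and every gap in `Q` is outside the arcs
* `gd_arc`, `outP_fc` : 535's arcs `IsArc` in disjoint regions; **`arcs_reg`** : `arcs_part` for them
* `p2_of`, **`p2c`** : partial sectors (352's `p2`) with these giants
-/

set_option autoImplicit false
set_option linter.unusedSectionVars false

noncomputable section

open scoped Classical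

namespace Crest.Agent.R143.Rel3x126

open Crest.Agent.R143.Frame1x395 Crest.Agent.R143.Frame2x395 Crest.Agent.R143.Frame3x395
  Crest.Agent.R143.Frame4x395 Crest.Agent.R143.Frame8x395 Crest.Agent.R143.NonXx592
  Crest.Agent.R143.Coarsex166 Crest.Agent.R143.Giantx46 Crest.Agent.R143.Resax778
  Crest.Agent.R143.Partx778 Crest.Agent.R143.Chordx355 Crest.Agent.R143.ChordCx357
  Crest.Agent.R143.Chord2x355 Crest.Agent.R143.H2x355 Crest.Agent.R143.Dens2x311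
  Crest.Agent.R143.Relx352 Crest.Agent.R143.Rel2x126 Crest.Agent.R143.Gntx535
  Crest.Agent.R143.CFramex358 Crest.Agent.R143.Runx535 Crest.Agent.R143.Strandx535
  Crest.Agent.R143.StrUx535

variable {D C : Type} {M : CMap D C}

/-! ### families of giants -/

/-- disjoint connected sets of cells with a colour each -/
structure Fam (M : CMap D C) (ι : Type) where
  S : ι → Finset C
  col : ι → ZMod 2
  dis : ∀ i j c, c ∈ S i → c ∈ S j → i = j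
  con : ∀ i, ∀ c ∈ S i, ∀ c' ∈ S i, Relation.EqvGen (AdjS M (S i)) c c'

variable {ι : Type} [Fintype ι]

/-- the cells of the family -/
def Fam.uni (F : Fam M ι) : Finset C := Finset.univ.biUnion F.S

theorem Fam.mem_uni {F : Fam M ι} {c : C} : c ∈ F.uni ↔ ∃ i, c ∈ F.S i := by
  unfold Fam.uni
  rw [Finset.mem_biUnion]
  constructor
  · rintro ⟨i, -, h⟩
    exact ⟨i, h⟩
  · rintro ⟨i, h⟩
    exact ⟨i, Finset.mem_univ i, h⟩

/-- the giants -/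
def Fam.A (F : Fam M ι) : Finset (GQ F.S F.dis) := F.uni.image (gq F.S F.dis)

/-- their colours -/
def Fam.v (F : Fam M ι) (a : GQ F.S F.dis) : ZMod 2 :=
  if h : ∃ i, ∃ c ∈ F.S i, gq F.S F.dis c = a then F.col h.choose else 0

theorem Fam.v_eq (F : Fam M ι) {i : ι} {c : C} (hc : c ∈ F.S i) :
    F.v (gq F.S F.dis c) = F.col i := by
  have h : ∃ i, ∃ c' ∈ F.S i, gq F.S F.dis c' = gq F.S F.dis c := ⟨i, c, hc, rfl⟩
  unfold Fam.v
  rw [dif_pos h]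
  obtain ⟨c', h1, h2⟩ := h.choose_spec
  rcases gq_eq.1 h2 with e | ⟨k, h3, h4⟩
  · subst e
    rw [F.dis _ _ _ h1 hc]
  · rw [F.dis _ _ _ h1 h3, F.dis _ _ _ h4 hc]

theorem Fam.card_A (F : Fam M ι) : F.A.card ≤ Fintype.card ι := gq_card

theorem Fam.gts (F : Fam M ι) {χ : C → ZMod 2} (h : ∀ i, ∀ c ∈ F.S i, χ c = F.col i) :
    Gts (gq F.S F.dis) F.uni χ F.A F.v := by
  refine ⟨Quotient.mk_surjective, ?_, ?_, ?_, ?_⟩
  · intro c c' hc e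
    rcases gq_eq.1 e with h | ⟨i, h1, -⟩
    · exact h
    · exact absurd (Fam.mem_uni.2 ⟨i, h1⟩) hc
  · intro c hc
    exact Finset.mem_image_of_mem _ hc
  · intro a ha
    obtain ⟨c, hc, e⟩ := Finset.mem_image.1 ha
    exact ⟨c, hc, e⟩
  · intro c hc
    obtain ⟨i, hi⟩ := Fam.mem_uni.1 hc
    rw [h i c hi, F.v_eq hi]

instance [Fintype C] (F : Fam M ι) : Fintype (GQ F.S F.dis) :=
  @Quotient.fintype C _ (gs F.S F.dis) (Classical.decRel _)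

section part

variable [Fintype D] [Fintype C]

/-- **the blocks of the loop of `p'`**, the giants are a family -/
theorem fam_part {O K : (C → ZMod 2) → Finset C} (hO : StopSet O) (hK : StopSet K) {T : Finset C}
    {F : (C → ZMod 2) → Fam M ι} (hF : ∀ σ τ, (∀ s ∈ K σ, τ s = σ s) → F τ = F σ)
    {g g₁ : (C → ZMod 2) → ℝ} (hg0 : ∀ σ, 0 ≤ g σ) (hgg : ∀ σ, g σ ≤ g₁ σ)
    (hg₁ : ∀ σ τ, (∀ s, s ∉ T → τ s = σ s) → g₁ τ = g₁ σ)
    (hKF : ∀ σ, g σ ≠ 0 → K σ = (F σ).uni)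
    (hKO : ∀ σ, g σ ≠ 0 → K σ ⊆ O σ) (hT : ∀ σ, g σ ≠ 0 → O σ \ K σ ⊆ T)
    (hc : ∀ σ, g σ ≠ 0 → ∀ i, ∀ c ∈ (F σ).S i, σ c = (F σ).col i)
    {z : ℂ} (z3 : z ^ 3 = 1) (z1 : z ≠ 1) (zc : (starRingEnd ℂ) z = z ^ 2)
    {φ : D → ℂ} (hφ : Spin M z φ) {Q : D → Prop} (hQ : ∀ k, ¬ Q k → φ k = 0)
    {p' : (C → ZMod 2) → D}
    (hH : ∀ σ τ, g σ ≠ 0 → cfg M (mix O σ τ) (p' (mix O σ τ)) = 1 ∧
      ∀ i, (∀ n, M.cell (P M (cfg M (mix O σ τ)) (p' (mix O σ τ)) n) ∉ (F σ).S i) ∨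
        ∃ p n, (∃ a, P M (cfg M (mix O σ τ)) (p' (mix O σ τ)) a = p) ∧
          (∀ k, Q k → OutP M (cfg M (mix O σ τ)) p n k) ∧
          ∀ j, M.cell (P M (cfg M (mix O σ τ)) (p' (mix O σ τ)) j) ∈ (F σ).S i →
            ∃ j', j' ≤ n ∧ M.cell (P M (cfg M (mix O σ τ)) p j') =
              M.cell (P M (cfg M (mix O σ τ)) (p' (mix O σ τ)) j)) :
    ∑ μ, wt O g μ * ∑ β ∈ onL M (cfg M μ) (p' μ), ‖∑ h ∈ β, φ h‖ ^ 2 ≤
      (2 : ℝ) ^ Fintype.card ι / 4 * ((∑ k, ‖φ k‖ ^ 2) * ∑ σ, g₁ σ) :=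
  onL2 (M := M) (R := Fam M ι) (r := F) (C' := fun q => GQ q.S q.dis)
    (π := fun q => gq q.S q.dis) (hπ := fun q => gq_con q.con) (A := fun q => q.A)
    (v := fun q => q.v) hO hK hF hg0 hgg hg₁ hKO hT (fun q => q.card_A)
    (fun σ h => by rw [hKF σ h]; exact (F σ).gts (hc σ h)) z3 z1 zc hφ hQ
    fun σ τ h => ⟨(hH σ τ h).1, fun c' => harm_gq (hH σ τ h).2 c'⟩

/-! ### arcs of walkers -/

/-- left (`true`) and right (`false`) cells of the arcs -/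
def Sa (M : CMap D C) (x : D → ZMod 2) (e : ι → D) (n : ι → ℕ) (a : ι × Bool) : Finset C :=
  if a.2 = true then wl M x (e a.1) (n a.1) else wr M x (e a.1) (n a.1)

/-- the arcs are arcs, with disjoint sets of cells -/
def gd (M : CMap D C) (χ : C → ZMod 2) (e : ι → D) (n : ι → ℕ) : Prop :=
  (∀ i, cfg M χ (e i) = 1) ∧ ∀ a b c, c ∈ Sa M (cfg M χ) e n a → c ∈ Sa M (cfg M χ) e n b → a = b

/-- the family of the arcs -/
def arcF (M : CMap D C) (χ : C → ZMod 2) (e : ι → D) (n : ι → ℕ) : Fam M (ι × Bool) :=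
  if h : gd M χ e n then
    { S := Sa M (cfg M χ) e n
      col := fun a => if a.2 = true then χ (M.cell (e a.1)) else χ (M.cell (e a.1)) + 1
      dis := h.2
      con := fun a c hc c' hc' => by
        unfold Sa at hc hc' ⊢
        by_cases ha : a.2 = true
        · rw [if_pos ha] at hc hc' ⊢
          exact wl_con (cfg_isC χ) (h.1 a.1) hc hc'
        · rw [if_neg ha] at hc hc' ⊢
          exact wr_con (cfg_isC χ) (h.1 a.1) hc hc' }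
  else
    { S := fun _ => ∅
      col := fun _ => 0
      dis := fun _ _ c h => absurd h (Finset.notMem_empty c)
      con := fun _ c h => absurd h (Finset.notMem_empty c) }

/-- the cells of the arcs -/
def Ua (M : CMap D C) (x : D → ZMod 2) (e : ι → D) (n : ι → ℕ) : Finset C :=
  Finset.univ.biUnion (Sa M x e n)

theorem mem_Ua {x : D → ZMod 2} {e : ι → D} {n : ι → ℕ} {c : C} :
    c ∈ Ua M x e n ↔ ∃ i, c ∈ wl M x (e i) (n i) ∪ wr M x (e i) (n i) := by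
  unfold Ua
  rw [Finset.mem_biUnion]
  constructor
  · rintro ⟨⟨i, b⟩, -, h⟩
    refine ⟨i, Finset.mem_union.2 ?_⟩
    cases b
    · exact Or.inr (by simpa [Sa] using h)
    · exact Or.inl (by simpa [Sa] using h)
  · rintro ⟨i, h⟩
    rcases Finset.mem_union.1 h with h | h
    · exact ⟨(i, true), Finset.mem_univ _, by simpa [Sa] using h⟩
    · exact ⟨(i, false), Finset.mem_univ _, by simpa [Sa] using h⟩

variable {χ : C → ZMod 2} {e : ι → D} {n : ι → ℕ}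

theorem arcF_S (h : gd M χ e n) : (arcF M χ e n).S = Sa M (cfg M χ) e n := by
  unfold arcF
  rw [dif_pos h]

theorem arcF_uni (h : gd M χ e n) : (arcF M χ e n).uni = Ua M (cfg M χ) e n := by
  unfold Fam.uni Ua
  rw [arcF_S h]

theorem arcF_col (h : gd M χ e n) (a : ι × Bool) : (arcF M χ e n).col a =
    if a.2 = true then χ (M.cell (e a.1)) else χ (M.cell (e a.1)) + 1 := by
  unfold arcF
  rw [dif_pos h]

/-- colourings which agree on the cells of the arcs have the same arcs -/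
theorem arc_agree {χ' : C → ZMod 2} (he : ∀ i, cfg M χ (e i) = 1)
    (h : ∀ c ∈ Ua M (cfg M χ) e n, χ' c = χ c) (i : ι) :
    cfg M χ' (e i) = 1 ∧ ∀ j ≤ n i, P M (cfg M χ') (e i) j = P M (cfg M χ) (e i) j :=
  walk_agree (he i) fun c hc => h c (mem_Ua.2 ⟨i, hc⟩)

theorem Sa_agree {χ' : C → ZMod 2} (he : ∀ i, cfg M χ (e i) = 1)
    (h : ∀ c ∈ Ua M (cfg M χ) e n, χ' c = χ c) : Sa M (cfg M χ') e n = Sa M (cfg M χ) e n := by
  funext a
  have h1 := (arc_agree he h a.1).2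
  have e1 : wl M (cfg M χ') (e a.1) (n a.1) = wl M (cfg M χ) (e a.1) (n a.1) := by
    unfold wl
    refine Finset.image_congr fun j hj => ?_
    have := Finset.mem_range.1 (Finset.mem_coe.1 hj)
    show M.cell _ = M.cell _
    rw [h1 j (by omega)]
  have e2 : wr M (cfg M χ') (e a.1) (n a.1) = wr M (cfg M χ) (e a.1) (n a.1) := by
    unfold wr
    refine Finset.image_congr fun j hj => ?_
    have := Finset.mem_range.1 (Finset.mem_coe.1 hj)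
    show Rc M _ = Rc M _
    rw [h1 j (by omega)]
  unfold Sa
  rw [e1, e2]

theorem arcF_agree {χ' : C → ZMod 2} (hg : gd M χ e n)
    (h : ∀ c ∈ Ua M (cfg M χ) e n, χ' c = χ c) : arcF M χ' e n = arcF M χ e n := by
  have e0 := Sa_agree hg.1 h
  have hg' : gd M χ' e n := by
    refine ⟨fun i => (arc_agree hg.1 h i).1, ?_⟩
    rw [e0]
    exact hg.2
  have hcell : ∀ i, χ' (M.cell (e i)) = χ (M.cell (e i)) := fun i =>
    h _ (mem_Ua.2 ⟨i, Finset.mem_union.2 (Or.inl (mem_wl.2 ⟨0, Nat.zero_le _, rfl⟩))⟩)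
  unfold arcF
  rw [dif_pos hg, dif_pos hg']
  congr 1
  funext a
  rw [hcell]

/-- **ARCS**: partial sectors, plane blocks, relative to the weight `g₁` -/
theorem arcs_part {O : (C → ZMod 2) → Finset C} (hO : StopSet O) {T : Finset C}
    {Gd : (C → ZMod 2) → Prop} {e : (C → ZMod 2) → ι → D} {n : (C → ZMod 2) → ι → ℕ}
    (h1 : ∀ σ, Gd σ → gd M σ (e σ) (n σ))
    (h2 : ∀ σ τ, Gd σ → (∀ s ∈ Ua M (cfg M σ) (e σ) (n σ), τ s = σ s) →
      Gd τ ∧ e τ = e σ ∧ n τ = n σ)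
    {g g₁ : (C → ZMod 2) → ℝ} (hg0 : ∀ σ, 0 ≤ g σ) (hgg : ∀ σ, g σ ≤ g₁ σ)
    (hg₁ : ∀ σ τ, (∀ s, s ∉ T → τ s = σ s) → g₁ τ = g₁ σ)
    (hgG : ∀ σ, g σ ≠ 0 → Gd σ)
    (hKO : ∀ σ, g σ ≠ 0 → Ua M (cfg M σ) (e σ) (n σ) ⊆ O σ)
    (hT : ∀ σ, g σ ≠ 0 → O σ \ Ua M (cfg M σ) (e σ) (n σ) ⊆ T)
    {z : ℂ} (z3 : z ^ 3 = 1) (z1 : z ≠ 1) (zc : (starRingEnd ℂ) z = z ^ 2)
    {φ : D → ℂ} (hφ : Spin M z φ) {Q : D → Prop} (hQ : ∀ k, ¬ Q k → φ k = 0)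
    {p' : (C → ZMod 2) → D}
    (hp : ∀ σ τ, g σ ≠ 0 → cfg M (mix O σ τ) (p' (mix O σ τ)) = 1)
    (hL : ∀ σ τ, g σ ≠ 0 → ∀ i, ∃ a, P M (cfg M (mix O σ τ)) (p' (mix O σ τ)) a = e σ i)
    (hQo : ∀ σ τ, g σ ≠ 0 → ∀ i k, Q k → OutP M (cfg M (mix O σ τ)) (e σ i) (n σ i) k) :
    ∑ μ, wt O g μ * ∑ β ∈ onL M (cfg M μ) (p' μ), ‖∑ h ∈ β, φ h‖ ^ 2 ≤
      (2 : ℝ) ^ (2 * Fintype.card ι) / 4 * ((∑ k, ‖φ k‖ ^ 2) * ∑ σ, g₁ σ) := by
  have hcard : Fintype.card (ι × Bool) = 2 * Fintype.card ι := by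
    rw [Fintype.card_prod, Fintype.card_bool, mul_comm]
  rw [← hcard]
  refine fam_part (K := fun σ => if Gd σ then Ua M (cfg M σ) (e σ) (n σ) else Finset.univ)
    (F := fun σ => arcF M σ (e σ) (n σ)) hO ?_ ?_ hg0 hgg hg₁ ?_ ?_ ?_ ?_ z3 z1 zc hφ hQ ?_
  · intro σ τ h
    by_cases hG : Gd σ
    · simp only [if_pos hG] at h
      obtain ⟨a, b, c⟩ := h2 σ τ hG h
      simp only [if_pos hG, if_pos a]
      rw [b, c]
      unfold Ua
      rw [Sa_agree (h1 σ hG).1 h]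
    · simp only [if_neg hG] at h
      have : τ = σ := funext fun s => h s (Finset.mem_univ s)
      rw [this]
  · intro σ τ h
    by_cases hG : Gd σ
    · simp only [if_pos hG] at h
      obtain ⟨a, b, c⟩ := h2 σ τ hG h
      rw [b, c]
      exact arcF_agree (h1 σ hG) h
    · simp only [if_neg hG] at h
      have : τ = σ := funext fun s => h s (Finset.mem_univ s)
      rw [this]
  · intro σ h
    simp only [if_pos (hgG σ h)]
    rw [arcF_uni (h1 σ (hgG σ h))]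
  · intro σ h
    simp only [if_pos (hgG σ h)]
    exact hKO σ h
  · intro σ h
    simp only [if_pos (hgG σ h)]
    exact hT σ h
  · intro σ h a c hc
    have hgd := h1 σ (hgG σ h)
    rw [arcF_S hgd] at hc
    rw [arcF_col hgd]
    unfold Sa at hc
    by_cases ha : a.2 = true
    · rw [if_pos ha] at hc ⊢
      exact wl_col (hgd.1 a.1) hc
    · rw [if_neg ha] at hc ⊢
      exact wr_col (hgd.1 a.1) hc
  · intro σ τ h
    have hgd := h1 σ (hgG σ h)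
    refine ⟨hp σ τ h, fun a => ?_⟩
    rw [arcF_S hgd]
    set μ := mix O σ τ with hμ
    have hag : ∀ c ∈ Ua M (cfg M σ) (e σ) (n σ), μ c = σ c := fun c hc => mix_on (hKO σ h hc)
    rw [← Sa_agree hgd.1 hag]
    have hei := arc_agree hgd.1 hag a.1
    obtain ⟨t, ht⟩ := hL σ τ h a.1
    have hpo := hp σ τ h
    rw [← hμ] at hpo ht
    have hcolE : ∀ j, μ (M.cell (P M (cfg M μ) (p' μ) j)) = μ (M.cell (e σ a.1)) := by
      intro j
      have e1 := it_col (cfg_isC μ) hpo (fun d hd => cfg_zero.1 hd) j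
      have e2 := it_col (cfg_isC μ) hpo (fun d hd => cfg_zero.1 hd) t
      change μ (M.cell (P M (cfg M μ) (p' μ) t)) = _ at e2
      rw [ht] at e2
      exact e1.trans e2.symm
    unfold Sa
    by_cases ha : a.2 = true
    · right
      rw [if_pos ha]
      refine ⟨e σ a.1, n σ a.1, ⟨t, ht⟩, fun k hk => hQo σ τ h a.1 k hk, fun j hj => ?_⟩
      obtain ⟨j', hj', e'⟩ := mem_wl.1 hj
      exact ⟨j', hj', e'⟩
    · left
      rw [if_neg ha]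
      intro j hj
      have e3 := wr_col hei.1 hj
      rw [hcolE j] at e3
      have : ∀ a : ZMod 2, a ≠ a + 1 := by decide
      exact this _ e3

/-! ### 535's arcs in disjoint regions -/

omit [Fintype D] [Fintype C] in
/-- the gaps with a cell off `Rt` in their face are outside a piece of faces inside `Rt` -/
theorem outP_fc {x : D → ZMod 2} {Rt : Set C} {p : D} {m : ℕ}
    (h : ∀ j < m, Strandx535.fc M Rt (P M x p j)) {k : D} (hk : ¬ Strandx535.fc M Rt k) :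
    OutP M x p m k := by
  intro j hj e
  have := h j hj
  rw [e, Strandx535.fc_rho] at this
  exact hk this

omit [Fintype C] in
/-- arcs in disjoint regions are good -/
theorem gd_arc {Rg : ι → Set C} (hR : ∀ i j c, c ∈ Rg i → c ∈ Rg j → i = j)
    (A : ∀ i, IsArc M (cfg M χ) (Rg i) (e i) (n i)) : gd M χ e n := by
  have mem : ∀ a c, c ∈ Sa M (cfg M χ) e n a → c ∈ Rg a.1 := by
    intro a c hc
    unfold Sa at hc
    by_cases ha : a.2 = true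
    · rw [if_pos ha] at hc
      obtain ⟨j, hj, rfl⟩ := mem_wl.1 hc
      exact ((A a.1).mem j hj).1
    · rw [if_neg ha] at hc
      obtain ⟨j, hj, rfl⟩ := mem_wr.1 hc
      exact ((A a.1).mem j hj).2
  refine ⟨fun i => (A i).occ, ?_⟩
  rintro ⟨i, b⟩ ⟨j, b'⟩ c h1 h2
  obtain rfl : i = j := hR _ _ c (mem _ _ h1) (mem _ _ h2)
  have key : ∀ a : ZMod 2, a ≠ a + 1 := by decide
  cases b <;> cases b'
  · rfl
  · exfalso
    have e1 := wr_col (A i).occ (by simpa [Sa] using h1)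
    have e2 := wl_col (A i).occ (by simpa [Sa] using h2)
    rw [e1] at e2
    exact key _ e2.symm
  · exfalso
    have e1 := wl_col (A i).occ (by simpa [Sa] using h1)
    have e2 := wr_col (A i).occ (by simpa [Sa] using h2)
    rw [e1] at e2
    exact key _ e2
  · rfl

/-- **ARCS IN DISJOINT REGIONS** -/
theorem arcs_reg {O : (C → ZMod 2) → Finset C} (hO : StopSet O) {T : Finset C}
    {Gd : (C → ZMod 2) → Prop} {e : (C → ZMod 2) → ι → D} {n : (C → ZMod 2) → ι → ℕ}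
    {Rg : ι → Set C} (hR : ∀ i j c, c ∈ Rg i → c ∈ Rg j → i = j)
    (hA : ∀ σ, Gd σ → ∀ i, IsArc M (cfg M σ) (Rg i) (e σ i) (n σ i))
    (h2 : ∀ σ τ, Gd σ → (∀ s ∈ Ua M (cfg M σ) (e σ) (n σ), τ s = σ s) →
      Gd τ ∧ e τ = e σ ∧ n τ = n σ)
    {g g₁ : (C → ZMod 2) → ℝ} (hg0 : ∀ σ, 0 ≤ g σ) (hgg : ∀ σ, g σ ≤ g₁ σ)
    (hg₁ : ∀ σ τ, (∀ s, s ∉ T → τ s = σ s) → g₁ τ = g₁ σ)
    (hgG : ∀ σ, g σ ≠ 0 → Gd σ)
    (hKO : ∀ σ, g σ ≠ 0 → Ua M (cfg M σ) (e σ) (n σ) ⊆ O σ)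
    (hT : ∀ σ, g σ ≠ 0 → O σ \ Ua M (cfg M σ) (e σ) (n σ) ⊆ T)
    {z : ℂ} (z3 : z ^ 3 = 1) (z1 : z ≠ 1) (zc : (starRingEnd ℂ) z = z ^ 2)
    {φ : D → ℂ} (hφ : Spin M z φ) (hQ : ∀ i k, Strandx535.fc M (Rg i) k → φ k = 0)
    {p' : (C → ZMod 2) → D}
    (hp : ∀ σ τ, g σ ≠ 0 → cfg M (mix O σ τ) (p' (mix O σ τ)) = 1)
    (hL : ∀ σ τ, g σ ≠ 0 → ∀ i, ∃ a, P M (cfg M (mix O σ τ)) (p' (mix O σ τ)) a = e σ i) :
    ∑ μ, wt O g μ * ∑ β ∈ onL M (cfg M μ) (p' μ), ‖∑ h ∈ β, φ h‖ ^ 2 ≤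
      (2 : ℝ) ^ (2 * Fintype.card ι) / 4 * ((∑ k, ‖φ k‖ ^ 2) * ∑ σ, g₁ σ) := by
  refine arcs_part (Q := fun k => ∀ i, ¬ Strandx535.fc M (Rg i) k) hO
    (fun σ h => gd_arc hR (hA σ h)) h2 hg0 hgg hg₁ hgG hKO hT z3 z1 zc hφ ?_ hp hL ?_
  · intro k hk
    simp only [not_forall, not_not] at hk
    obtain ⟨i, hi⟩ := hk
    exact hQ i k hi
  · intro σ τ h i k hk
    have hgd := gd_arc hR (hA σ (hgG σ h))
    have hag : ∀ c ∈ Ua M (cfg M σ) (e σ) (n σ), mix O σ τ c = σ c :=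
      fun c hc => mix_on (hKO σ h hc)
    obtain ⟨-, h3⟩ := arc_agree hgd.1 hag i
    refine outP_fc (fun j hj => ?_) (hk i)
    rw [h3 j hj.le]
    exact (hA σ (hgG σ h) i).fc hj

/-- 352's `p2` from any bound of the plane blocks of the loop of `p'` -/
theorem p2_of {α : Type} {V : Finset α} {χ : Finset α → C → ZMod 2} {K₀ : C → Finset α}
    {R1 : Finset α → Finset α} {p₀ : Finset α → D} {len : Finset α → ℕ} {Rv : Finset α → Set C}
    {w : Finset α → ℝ} (E : Ex M V χ K₀ R1 p₀ len Rv w)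
    {G : Finset α → D → ℕ → Prop} (hGd : GDec M V χ K₀ R1 p₀ len Rv G)
    (I : Finset (D × ℕ)) {c : ℝ} {Tb : D × ℕ → Finset α → Prop} (hc : ∀ i ∈ I, c ≤ Harx315.pr V (Tb i))
    (hTb : ∀ i ∈ I, ∀ b b', b ⊆ V → b' ⊆ V → w b ≠ 0 →
      Cd M (cfg M (χ b)) (p₀ b) (len b) (Rv b) i.1 i.2 → G b i.1 i.2 → Tb i b' →
      Frame11x395.Con M (cfg M (χ (b' \ R2 M χ K₀ R1 p₀ len i.1 b ∪ b ∩ R2 M χ K₀ R1 p₀ len i.1 b)))
        (M.cell (M.rho (p₀ b))) (M.cell (M.rho (M.rho i.1))))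
    {O : (C → ZMod 2) → Finset C} {g : (C → ZMod 2) → ℝ} (hg0 : ∀ σ, 0 ≤ g σ)
    {φ : D → ℂ} {p' : (C → ZMod 2) → D}
    (hw : ∀ b, b ⊆ V → w b = wt O g (χ b))
    (hp : ∀ b, b ⊆ V → w b ≠ 0 → p₀ b = p' (χ b)) {N : ℝ}
    (hN : ∀ F : (C → ZMod 2) → ℝ, (∀ μ, 0 ≤ F μ) → ∑ b ∈ V.powerset, F (χ b) ≤ N * ∑ μ, F μ)
    (hN0 : 0 ≤ N) {Bd : ℝ}
    (hB : ∑ μ, wt O g μ * ∑ β ∈ onL M (cfg M μ) (p' μ), ‖∑ h ∈ β, φ h‖ ^ 2 ≤ Bd) :
    c * ∑ b ∈ V.powerset, ∑ i ∈ I, Fk M χ p₀ len Rv w G φ i b ≤ N * Bd := by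
  have h1 := h2 E hGd φ I hc hTb (fun b => onL M (cfg M (χ b)) (p₀ b)) fun b hb hwb i hi hj _ =>
    blk_onL (E.oa b hb hwb) hj
  refine h1.trans ?_
  set Y : (C → ZMod 2) → ℝ := fun μ => ∑ β ∈ onL M (cfg M μ) (p' μ), ‖∑ h ∈ β, φ h‖ ^ 2 with hYd
  have hY0 : ∀ μ, 0 ≤ Y μ := fun μ => Finset.sum_nonneg fun _ _ => by positivity
  have h3 : ∑ b ∈ V.powerset, w b * ∑ β ∈ onL M (cfg M (χ b)) (p₀ b), ‖∑ h ∈ β, φ h‖ ^ 2 =
      ∑ b ∈ V.powerset, (fun μ => wt O g μ * Y μ) (χ b) := by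
    refine Finset.sum_congr rfl fun b hb => ?_
    have hb' := Finset.mem_powerset.1 hb
    dsimp only
    by_cases hwb : w b = 0
    · rw [hwb, ← hw b hb', hwb, zero_mul, zero_mul]
    · rw [hw b hb', hYd, hp b hb' hwb]
  rw [h3]
  refine (hN _ fun μ => mul_nonneg (wt_nonneg hg0 μ) (hY0 μ)).trans ?_
  exact mul_le_mul_of_nonneg_left hB hN0

/-- **P2 = PARTIAL SECTORS**, the giants are 535's arcs in disjoint regions -/
theorem p2c {α : Type} {V : Finset α} {χ : Finset α → C → ZMod 2} {K₀ : C → Finset α}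
    {R1 : Finset α → Finset α} {p₀ : Finset α → D} {len : Finset α → ℕ} {Rv : Finset α → Set C}
    {w : Finset α → ℝ} (E : Ex M V χ K₀ R1 p₀ len Rv w)
    {G : Finset α → D → ℕ → Prop} (hGd : GDec M V χ K₀ R1 p₀ len Rv G)
    (I : Finset (D × ℕ)) {c : ℝ} {Tb : D × ℕ → Finset α → Prop} (hc : ∀ i ∈ I, c ≤ Harx315.pr V (Tb i))
    (hTb : ∀ i ∈ I, ∀ b b', b ⊆ V → b' ⊆ V → w b ≠ 0 →
      Cd M (cfg M (χ b)) (p₀ b) (len b) (Rv b) i.1 i.2 → G b i.1 i.2 → Tb i b' →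
      Frame11x395.Con M (cfg M (χ (b' \ R2 M χ K₀ R1 p₀ len i.1 b ∪ b ∩ R2 M χ K₀ R1 p₀ len i.1 b)))
        (M.cell (M.rho (p₀ b))) (M.cell (M.rho (M.rho i.1))))
    {O : (C → ZMod 2) → Finset C} (hO : StopSet O) {T : Finset C}
    {Gd : (C → ZMod 2) → Prop} {e : (C → ZMod 2) → ι → D} {n : (C → ZMod 2) → ι → ℕ}
    {Rg : ι → Set C} (hR : ∀ i j c, c ∈ Rg i → c ∈ Rg j → i = j)
    (hA : ∀ σ, Gd σ → ∀ i, IsArc M (cfg M σ) (Rg i) (e σ i) (n σ i))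
    (h2 : ∀ σ τ, Gd σ → (∀ s ∈ Ua M (cfg M σ) (e σ) (n σ), τ s = σ s) →
      Gd τ ∧ e τ = e σ ∧ n τ = n σ)
    {g g₁ : (C → ZMod 2) → ℝ} (hg0 : ∀ σ, 0 ≤ g σ) (hgg : ∀ σ, g σ ≤ g₁ σ)
    (hg₁ : ∀ σ τ, (∀ s, s ∉ T → τ s = σ s) → g₁ τ = g₁ σ)
    (hgG : ∀ σ, g σ ≠ 0 → Gd σ)
    (hKO : ∀ σ, g σ ≠ 0 → Ua M (cfg M σ) (e σ) (n σ) ⊆ O σ)
    (hT : ∀ σ, g σ ≠ 0 → O σ \ Ua M (cfg M σ) (e σ) (n σ) ⊆ T)
    {z : ℂ} (z3 : z ^ 3 = 1) (z1 : z ≠ 1) (zc : (starRingEnd ℂ) z = z ^ 2)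
    {φ : D → ℂ} (hφ : Spin M z φ) (hQ : ∀ i k, Strandx535.fc M (Rg i) k → φ k = 0)
    {p' : (C → ZMod 2) → D}
    (hpo : ∀ σ τ, g σ ≠ 0 → cfg M (mix O σ τ) (p' (mix O σ τ)) = 1)
    (hL : ∀ σ τ, g σ ≠ 0 → ∀ i, ∃ a, P M (cfg M (mix O σ τ)) (p' (mix O σ τ)) a = e σ i)
    (hw : ∀ b, b ⊆ V → w b = wt O g (χ b))
    (hp : ∀ b, b ⊆ V → w b ≠ 0 → p₀ b = p' (χ b)) {N : ℝ}
    (hN : ∀ F : (C → ZMod 2) → ℝ, (∀ μ, 0 ≤ F μ) → ∑ b ∈ V.powerset, F (χ b) ≤ N * ∑ μ, F μ)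
    (hN0 : 0 ≤ N) :
    c * ∑ b ∈ V.powerset, ∑ i ∈ I, Fk M χ p₀ len Rv w G φ i b ≤
      N * ((2 : ℝ) ^ (2 * Fintype.card ι) / 4 * ((∑ k, ‖φ k‖ ^ 2) * ∑ σ, g₁ σ)) :=
  p2_of E hGd I hc hTb hg0 hw hp hN hN0
    (arcs_reg hO hR hA h2 hg0 hgg hg₁ hgG hKO hT z3 z1 zc hφ hQ hpo hL)

end part

end Crest.Agent.R143.Rel3x126
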