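import Crest.Agent.R143.Rel3_126
import Crest.Agent.R143.O_355
import Crest.Agent.R143.RevC_389

/-!
# Row 143 (S0194), block H, box [E2], REL1 (helper126): from the full exploration to one window

`μ`, `μ'` two colourings which agree off the giant `{π = o}` and on the cells of the outer arc.
* `gc_states` : a chord of the giant net of `μ` is a walk with the same states in `μ'`
* `cd_tr`, `gd_tr`, `cv_tr` : the same chord, the same value
* `XG` / `XC` : sum of `‖cv‖²` over the chords of the giant net / over all chords of the outer arc;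
  **`xg_le`** : `XG μ ≤ XC μ'`
* **`rel1`** : `Oc σ ⊆ O σ`: `Σ_σ Σ_τ g σ * XG (mix O σ τ) ≤ 2 ^ #C * Σ_μ wt Oc g μ * XC μ`
* `rel_p2` : with `p2c`
-/

set_option autoImplicit false
set_option linter.unusedSectionVars false

noncomputable section

open scoped Classical

namespace Crest.Agent.R143.Rel4x126

open Crest.Agent.R143.Frame1x395 Crest.Agent.R143.Frame2x395 Crest.Agent.R143.Frame3x395
  Crest.Agent.R143.Frame8x395 Crest.Agent.R143.Frame9x395 Crest.Agent.R143.Frame11x395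
  Crest.Agent.R143.NonXx592 Crest.Agent.R143.Coarsex166 Crest.Agent.R143.Budx432
  Crest.Agent.R143.Bud2x432
  Crest.Agent.R143.Chordx355 Crest.Agent.R143.ChordCx357 Crest.Agent.R143.Chord2x355
  Crest.Agent.R143.H2x355 Crest.Agent.R143.Ox355 Crest.Agent.R143.RevCx389
  Crest.Agent.R143.Gntx535 Crest.Agent.R143.Resax778

variable {D C C' : Type} [Fintype D] {M : CMap D C} {μ μ' : C → ZMod 2} {π : C → C'} {o : C'}

/-- **a chord of the giant net sees only its end cells and cells off the giant** -/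
theorem gc_states (R : Rim M π o μ) {k : D} {m : ℕ} (H : Gc M π o (cfg M (fil π o μ)) k m)
    (hoff : ∀ c, π c ≠ o → μ' c = μ c)
    (h0 : μ' (M.cell (M.rho k)) = μ (M.cell (M.rho k)))
    (h1 : μ' (M.cell (P M (cfg M μ) (M.rho k) m)) = μ (M.cell (P M (cfg M μ) (M.rho k) m))) :
    Gp M (cfg M μ') k ∧ ∀ u, u ≤ m →
      P M (cfg M μ') (M.rho k) u = P M (cfg M μ) (M.rho k) u := by
  have H' := H.real R
  have hx := cfg_isC (M := M) μ
  have hx' := cfg_isC (M := M) μ'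
  obtain ⟨h2, h3⟩ := walk_agree (M := M) (χ := μ) (χ' := μ') (p := M.rho k) H'.gp.2 (n := m) (by
    intro c hc
    rcases Finset.mem_union.1 hc with hc | hc
    · obtain ⟨j, hj, rfl⟩ := mem_wl.1 hc
      rcases Nat.eq_zero_or_pos j with c0 | c0
      · rw [c0]; exact h0
      · rcases lt_or_eq_of_le hj with c1 | c1
        · exact hoff _ (H'.int j c0 c1)
        · rw [c1]; exact h1
    · obtain ⟨j, hj, rfl⟩ := mem_wr.1 hc
      refine hoff _ ?_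
      have := H.right j
      rw [← Rim.P R H.gp.2 j] at this
      exact this)
  refine ⟨?_, h3⟩
  have hm := H'.pos
  have e1 := out_eq hx H'.gp (p := M.rho k) (a := 0) rfl
  refine gp_of_out hx' h2 (p := M.rho k) rfl ?_
  rw [e1]
  have e2 : P M (cfg M μ') (M.rho k) (0 + 1) = P M (cfg M μ) (M.rho k) (0 + 1) := h3 1 hm
  rw [← e2, P_succ]
  rfl

/-- the outer arc has the same states -/
def Arc (M : CMap D C) (μ μ' : C → ZMod 2) (p₀ : D) (b : ℕ) : Prop :=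
  cfg M μ p₀ = 1 ∧ cfg M μ' p₀ = 1 ∧ ∀ a, a < b → P M (cfg M μ') p₀ a = P M (cfg M μ) p₀ a

variable {p₀ : D} {b : ℕ} {Rv Rv' : Set C} {k : D} {m : ℕ}

/-- **the same chord** -/
theorem cd_tr (A : Arc M μ μ' p₀ b) (hK : ∀ c ∈ Kc M (cfg M μ) p₀ b, μ' c = μ c)
    (hoff : ∀ c, π c ≠ o → μ' c = μ c) (hR : ∀ c ∈ Rv', π c = o ∨ c ∈ Rv)
    (R : Rim M π o μ) (H : Gc M π o (cfg M (fil π o μ)) k m) (hc : Cd M (cfg M μ) p₀ b Rv k m) :
    Cd M (cfg M μ') p₀ b Rv' k m ∧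
      ∀ u, u ≤ m → P M (cfg M μ') (M.rho k) u = P M (cfg M μ) (M.rho k) u := by
  obtain ⟨h1, h2⟩ := gc_states R H hoff (hK _ hc.c0) (hK _ hc.c1)
  have e := kc_congr (M := M) (x := cfg M μ) (x' := cfg M μ') A.2.2
  refine ⟨⟨h1, hc.pos, ?_, ?_, fun u a1 a2 => ?_, fun u a1 h => ?_⟩, h2⟩
  · rw [e]; exact hc.c0
  · rw [e]
    unfold lc
    rw [h2 m le_rfl]
    exact hc.c1
  · rw [e]
    unfold lc
    rw [h2 u a2.le]
    exact hc.int u a1 a2
  · rw [h2 u a1] at h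
    rcases hR _ h with h' | h'
    · rw [Rim.P R H.gp.2 u] at h'
      exact H.right u h'
    · exact hc.new u a1 h'

/-- the same value -/
theorem cv_tr (A : Arc M μ μ' p₀ b) (φ : D → ℂ)
    (h2 : ∀ u, u ≤ m → P M (cfg M μ') (M.rho k) u = P M (cfg M μ) (M.rho k) u) :
    cv M (cfg M μ') p₀ b φ k m = cv M (cfg M μ) p₀ b φ k m :=
  cv_congr φ (cfg_isC μ) (cfg_isC μ') A.1 A.2.1 A.2.2 h2

/-- the same good chord -/
theorem gd_tr {G : Rg D C} {Co : Set C} (ep : p0 M G μ' = p0 M G μ) (el : ln M G μ' = ln M G μ)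
    (A : Arc M μ μ' (p0 M G μ) (ln M G μ))
    (h2 : ∀ u, u ≤ m → P M (cfg M μ') (M.rho k) u = P M (cfg M μ) (M.rho k) u)
    (hg : gd M G Co μ k m) : gd M G Co μ' k m := by
  have hst2 : ∀ a, a < ln M G μ → lc M (cfg M μ') (p0 M G μ') a = lc M (cfg M μ) (p0 M G μ) a := by
    intro a ha
    unfold lc
    rw [ep, A.2.2 a ha]
  have hst1 : ∀ u, u ≤ m → lc M (cfg M μ') (M.rho k) u = lc M (cfg M μ) (M.rho k) u := by
    intro u hu
    unfold lc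
    rw [h2 u hu]
  obtain ⟨g1, g2, u, g3, g4⟩ := hg
  refine ⟨by rw [hst1 m le_rfl]; exact g1, ?_, u, g3, by rw [hst1 u g3]; exact g4⟩
  intro j hj e
  rw [el] at hj
  rw [hst2 j hj, hst1 m le_rfl] at e
  obtain ⟨j', h3, h4, h5⟩ := g2 j hj e
  exact ⟨j', h3, by rw [el]; exact h4, by rw [hst2 j' h4]; exact h5⟩

/-! ### the two sums -/

/-- chords of the giant net -/
def XG (M : CMap D C) (G : Rg D C) (Co : Set C) (I : Finset (D × ℕ)) (π : C → C') (o : C')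
    (φ : D → ℂ) (ψ : C → ZMod 2) : ℝ :=
  ∑ q ∈ I, if Gc M π o (cfg M (fil π o ψ)) q.1 q.2 ∧
      Cd M (cfg M ψ) (p0 M G ψ) (ln M G ψ) (Cw M G ψ) q.1 q.2 ∧ gd M G Co ψ q.1 q.2 then
    ‖cv M (cfg M ψ) (p0 M G ψ) (ln M G ψ) φ q.1 q.2‖ ^ 2 else 0

/-- all chords of the outer arc -/
def XC (M : CMap D C) (G : Rg D C) (Co : Set C) (I : Finset (D × ℕ))
    (φ : D → ℂ) (ψ : C → ZMod 2) : ℝ :=
  ∑ q ∈ I, if Cd M (cfg M ψ) (p0 M G ψ) (ln M G ψ) (Cw M G ψ) q.1 q.2 ∧ gd M G Co ψ q.1 q.2 then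
    ‖cv M (cfg M ψ) (p0 M G ψ) (ln M G ψ) φ q.1 q.2‖ ^ 2 else 0

theorem xc_nonneg {G : Rg D C} {Co : Set C} {I : Finset (D × ℕ)} {φ : D → ℂ} {ψ : C → ZMod 2} :
    0 ≤ XC M G Co I φ ψ :=
  Finset.sum_nonneg fun q _ => by split_ifs <;> positivity

theorem xg_nonneg {G : Rg D C} {Co : Set C} {I : Finset (D × ℕ)} {φ : D → ℂ} {ψ : C → ZMod 2} :
    0 ≤ XG M G Co I π o φ ψ :=
  Finset.sum_nonneg fun q _ => by split_ifs <;> positivity

/-- **REL1, pointwise** -/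
theorem xg_le {G : Rg D C} {Co : Set C} {I : Finset (D × ℕ)} {φ : D → ℂ} (R : Rim M π o μ)
    (hoff : ∀ c, π c ≠ o → μ' c = μ c)
    (ep : p0 M G μ' = p0 M G μ) (el : ln M G μ' = ln M G μ)
    (A : Arc M μ μ' (p0 M G μ) (ln M G μ))
    (hK : ∀ c ∈ Kc M (cfg M μ) (p0 M G μ) (ln M G μ), μ' c = μ c)
    (hR : ∀ c ∈ Cw M G μ', π c = o ∨ c ∈ Cw M G μ) :
    XG M G Co I π o φ μ ≤ XC M G Co I φ μ' := by
  unfold XG XC
  refine Finset.sum_le_sum fun q _ => ?_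
  by_cases h : Gc M π o (cfg M (fil π o μ)) q.1 q.2 ∧
      Cd M (cfg M μ) (p0 M G μ) (ln M G μ) (Cw M G μ) q.1 q.2 ∧ gd M G Co μ q.1 q.2
  · obtain ⟨h1, h2, h3⟩ := h
    obtain ⟨h4, h5⟩ := cd_tr A hK hoff hR R h1 h2
    have h6 := gd_tr (Co := Co) ep el A h5 h3
    rw [if_pos ⟨h1, h2, h3⟩, ep, el, if_pos ⟨h4, h6⟩, cv_tr A φ h5]
  · rw [if_neg h]
    split_ifs <;> positivity

/-- **REL1** : from the full exploration `O` to the exploration `Oc` of the window -/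
theorem rel1 [Fintype C] {G : Rg D C} {Co : Set C} {I : Finset (D × ℕ)} {φ : D → ℂ}
    {O Oc : (C → ZMod 2) → Finset C} (hOc : StopSet Oc) {g : (C → ZMod 2) → ℝ}
    (hg0 : ∀ σ, 0 ≤ g σ) {π : (C → ZMod 2) → C → C'} {o : (C → ZMod 2) → C'}
    (hsub : ∀ σ, g σ ≠ 0 → Oc σ ⊆ O σ)
    (hO : ∀ σ τ, g σ ≠ 0 → ∀ c ∈ O σ, π (mix O σ τ) c = o (mix O σ τ))
    (hrim : ∀ σ τ, g σ ≠ 0 → Rim M (π (mix O σ τ)) (o (mix O σ τ)) (mix O σ τ))
    (hp : ∀ σ τ, g σ ≠ 0 → p0 M G (mix Oc σ τ) = p0 M G (mix O σ τ))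
    (hl : ∀ σ τ, g σ ≠ 0 → ln M G (mix Oc σ τ) = ln M G (mix O σ τ))
    (hA : ∀ σ τ, g σ ≠ 0 →
      Arc M (mix O σ τ) (mix Oc σ τ) (p0 M G (mix O σ τ)) (ln M G (mix O σ τ)))
    (hK : ∀ σ τ, g σ ≠ 0 → ∀ c ∈ Kc M (cfg M (mix O σ τ)) (p0 M G (mix O σ τ))
      (ln M G (mix O σ τ)), c ∈ Oc σ)
    (hC : ∀ σ τ, g σ ≠ 0 → ∀ c ∈ Cw M G (mix Oc σ τ), c ∈ O σ ∨ c ∈ Cw M G (mix O σ τ)) :
    ∑ σ, ∑ τ, g σ * XG M G Co I (π (mix O σ τ)) (o (mix O σ τ)) φ (mix O σ τ) ≤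
      (2 : ℝ) ^ Fintype.card C * ∑ ν, wt Oc g ν * XC M G Co I φ ν := by
  have h2 : ((Fintype.card (ZMod 2) ^ Fintype.card C : ℕ) : ℝ) = (2 : ℝ) ^ Fintype.card C := by
    rw [ZMod.card]
    push_cast
    rfl
  rw [sum_wt_gen hOc, h2, mul_div_cancel₀ _ (by positivity)]
  refine Finset.sum_le_sum fun σ _ => Finset.sum_le_sum fun τ _ => ?_
  by_cases h : g σ = 0
  · rw [h, zero_mul, zero_mul]
  · refine mul_le_mul_of_nonneg_left ?_ (hg0 σ)
    refine xg_le (hrim σ τ h) ?_ (hp σ τ h) (hl σ τ h) (hA σ τ h) ?_ ?_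
    · intro c hc
      have h3 : c ∉ O σ := fun h' => hc (hO σ τ h c h')
      rw [mix_off h3, mix_off fun h' => h3 (hsub σ h h')]
    · intro c hc
      have h3 := hK σ τ h c hc
      rw [mix_on h3, mix_on (hsub σ h h3)]
    · intro c hc
      rcases hC σ τ h c hc with h3 | h3
      · exact Or.inl (hO σ τ h c h3)
      · exact Or.inr h3

end Crest.Agent.R143.Rel4x126
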