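import Crest.Agent.R143.Rel3_126
import Crest.Agent.R143.Rel2_352
import Crest.Agent.R143.Tube_389
import Crest.Agent.R143.Bud_432

/-!
# Row 143 (S0194), block H, leaf P2 (helper352): the explored outside is one more giant

The explored outside `X` (cells of any colour, also unrevealed ones; every neighbour of `X` off `X` is
a white cell of `F`) is recoloured white: the loop of `p'` does not see it (389's `ext_same`).
* `ext_sameF` : `cfg M ψ` agrees with `cfg M (rc ψ X)` on the faces of the loops of the latter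
* `onL_same` : same blocks on the loop
* `rel_frameE` : relative frame, the energy of the coarse map is taken after a recolouring of the
  giants
* `arcsW` : **blocks of the loop of `p'` relative to `g₁`**, giants: `X ∪ F` and the left / right cells
  of 535's arcs; `p2W` : partial tiles
-/

set_option autoImplicit false
set_option linter.unusedSectionVars false

noncomputable section

open scoped Classical

namespace Crest.Agent.R143.Rel5x352

open Crest.Agent.R143.Frame1x395 Crest.Agent.R143.Frame2x395 Crest.Agent.R143.Frame3x395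
  Crest.Agent.R143.Frame4x395 Crest.Agent.R143.Frame8x395 Crest.Agent.R143.NonXx592
  Crest.Agent.R143.Coarsex166 Crest.Agent.R143.Giantx46 Crest.Agent.R143.Resax778
  Crest.Agent.R143.Partx778 Crest.Agent.R143.Chordx355 Crest.Agent.R143.ChordCx357
  Crest.Agent.R143.Chord2x355 Crest.Agent.R143.H2x355 Crest.Agent.R143.Dens2x311
  Crest.Agent.R143.Relx352 Crest.Agent.R143.Gntx535
  Crest.Agent.R143.CFramex358 Crest.Agent.R143.Runx535

open Crest.Agent.R143.StrUx535 (IsArc)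
open Crest.Agent.R143.Rel3x126 (Sa Ua mem_Ua arc_agree Sa_agree outP_fc p2_of)
open Crest.Agent.R143.Tubex389 (Ext rc rc_off rc_on nb_rho nb_rho2)
open Crest.Agent.R143.Budx432 (SameF)

variable {D C : Type} {M : CMap D C}

/-! ### the outside is not seen -/

section same

variable {ψ : C → ZMod 2} {X F : Set C}

theorem ext_sameF (E : Ext M ψ X F) : SameF M (cfg M (rc ψ X)) (cfg M ψ) := by
  intro d hd
  have z : ∀ a : ZMod 2, a = 0 ∨ a = 1 := by decide
  -- both cells of the dart are off `X`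
  have key : M.cell d ∉ X ∧ M.cell (M.rho d) ∉ X := by
    by_cases h1 : M.cell d ∈ X
    · exfalso
      have e1 : rc ψ X (M.cell d) = 0 := rc_on h1
      by_cases h2 : M.cell (M.rho d) ∈ X
      · have e2 : rc ψ X (M.cell (M.rho d)) = 0 := rc_on h2
        unfold cfg at hd
        rw [e1, e2] at hd
        exact absurd hd (by decide)
      · have e2 : rc ψ X (M.cell (M.rho d)) = ψ (M.cell (M.rho d)) := rc_off h2
        unfold cfg at hd
        rw [e1, e2] at hd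
        rcases E.nb _ _ h1 (nb_rho d) with h3 | h3
        · exact h2 h3
        · rw [E.wh _ h3] at hd
          exact absurd hd (by decide)
    · refine ⟨h1, fun h2 => ?_⟩
      have e1 : rc ψ X (M.cell d) = ψ (M.cell d) := rc_off h1
      have e2 : rc ψ X (M.cell (M.rho d)) = 0 := rc_on h2
      unfold cfg at hd
      rw [e1, e2] at hd
      rcases E.nb _ _ h2 (Exitx707.nb_symm (nb_rho d)) with h3 | h3
      · exact h1 h3
      · rw [E.wh _ h3] at hd
        exact absurd hd (by decide)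
  obtain ⟨k1, k2⟩ := key
  have e1 : rc ψ X (M.cell d) = ψ (M.cell d) := rc_off k1
  have e2 : rc ψ X (M.cell (M.rho d)) = ψ (M.cell (M.rho d)) := rc_off k2
  -- the third cell
  have k3 : M.cell (M.rho (M.rho d)) ∉ X := by
    intro h3
    unfold cfg at hd
    rw [e1, e2] at hd
    rcases z (ψ (M.cell d)) with h4 | h4
    · have h5 : ψ (M.cell (M.rho d)) = 1 := by
        rw [h4, zero_add] at hd; exact hd
      exact E.off h5 k2 (nb_rho (M.rho d)) h3
    · exact E.off h4 k1 (nb_rho2 d) h3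
  have e3 : rc ψ X (M.cell (M.rho (M.rho d))) = ψ (M.cell (M.rho (M.rho d))) := rc_off k3
  constructor
  · unfold cfg at hd ⊢
    rw [← e1, ← e2]
    exact hd
  · unfold cfg
    rw [e2, e3]

theorem onL_same [Fintype D] {x y : D → ZMod 2} (S : SameF M x y) (hx : IsC M ∅ x)
    (hy : IsC M ∅ y) {p : D} (hp : x p = 1) : onL M y p ⊆ onL M x p := by
  intro β hβ
  obtain ⟨-, g, hg, e, a, ha⟩ := Finset.mem_filter.1 hβ
  -- `out g` and `rho g` are on the loop of `p`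
  have e1 : P M x p a = out M g := by
    rw [← ha]
    exact (S.it hx hp a).symm
  obtain ⟨N, hN, per⟩ := periodic hx hp
  have per' : P M x p N = p := per
  have ho : x (M.rho g) = 1 := by
    have h1 : P M x p (a + N) = out M g := by rw [P_add, per', e1]
    have h2 : P M y p (a + N) = out M g := by rw [← h1]; exact S.it hx hp _
    have h3 : stp M y (P M y p (a + N - 1)) = out M g := by
      rw [← h2, ← P_succ]
      congr 1
      omega
    have h4 : stp M y (M.rho g) = out M g := hg.stp hy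
    have hy1 : y (P M y p (a + N - 1)) = 1 := P_occ hy ((S p hp).1) _
    have h5 : M.rho g = P M y p (a + N - 1) := by
      have r1 := stp_rev hy hg.2 (Set.notMem_empty (M.rho g))
      have r2 := stp_rev hy hy1 (Set.notMem_empty _)
      rw [h4] at r1
      rw [h3] at r2
      have r3 := r1.symm.trans r2
      have r4 := congrArg M.iota r3
      rwa [M.iota2, M.iota2] at r4
    have h6 : P M y p (a + N - 1) = P M x p (a + N - 1) := S.it hx hp _
    rw [h5, h6]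
    exact P_occ hx hp _
  have hgx : Gp M x g := (S.gp hx hy ho).1 hg
  refine Finset.mem_filter.2 ⟨?_, g, hgx, ?_, a, e1⟩
  · rw [e, S.blk hx hy hgx]
    exact Finset.mem_image_of_mem _ (mem_gaps.2 hgx)
  · rw [e, S.blk hx hy hgx]

end same

/-! ### the relative frame -/

section frame

variable [Fintype D] [Fintype C]

/-- **relative frame** with recoloured giants -/
theorem rel_frameE {w : ℂ} (w3 : w ^ 3 = 1) (w1 : w ≠ 1) (wc : (starRingEnd ℂ) w = w ^ 2)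
    {a : D → ℂ} (ha : Spin M w a)
    {O K : (C → ZMod 2) → Finset C} (hO : StopSet O) (hK : StopSet K) {T : Finset C}
    {g go : (C → ZMod 2) → ℝ} (hg0 : ∀ σ, 0 ≤ g σ) (hgo : ∀ σ, g σ ≤ go σ)
    (hgT : ∀ σ τ, (∀ s, s ∉ T → τ s = σ s) → go τ = go σ)
    (hKO : ∀ σ, g σ ≠ 0 → K σ ⊆ O σ) (hOT : ∀ σ, g σ ≠ 0 → O σ \ K σ ⊆ T)
    {Y : (C → ZMod 2) → ℝ} (hY0 : ∀ μ, 0 ≤ Y μ) (ev : (C → ZMod 2) → Prop)
    (hev : ∀ σ τ, g σ ≠ 0 → ev (mix O σ τ)) {m : ℕ}
    (H : ∀ ρ, g ρ ≠ 0 → ∃ (C' : Type) (_ : Fintype C') (π : C → C') (hπ : ClsCon M π)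
      (E : Finset C) (χ₀ : C → ZMod 2), K ρ ⊆ E ∧ E.Nonempty ∧ Ctr π E χ₀ ∧
      (E.image π).card ≤ m ∧
      ∀ μ ∈ Prs (K ρ) ρ, ev μ → Y μ ≤ En (coarse M π hπ) a (cfg M (glue E χ₀ μ))) :
    ∑ μ, wt O g μ * Y μ ≤ (2 : ℝ) ^ m / 8 * (∑ k, ‖a k‖ ^ 2) * ∑ σ, go σ := by
  have hN : ((Fintype.card (ZMod 2) ^ Fintype.card C : ℕ) : ℝ) =
      (Fintype.card (C → ZMod 2) : ℝ) := by rw [Fintype.card_fun]
  have hpos : (0 : ℝ) < (Fintype.card (C → ZMod 2) : ℝ) := by
    exact_mod_cast Fintype.card_pos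
  have hgo0 : ∀ σ, 0 ≤ go σ := fun σ => (hg0 σ).trans (hgo σ)
  obtain ⟨G, hG⟩ : ∃ G : (C → ZMod 2) → Prop, ∀ σ, G σ ↔ g σ ≠ 0 := ⟨_, fun _ => Iff.rfl⟩
  obtain ⟨G', hG'⟩ : ∃ G' : (C → ZMod 2) → Prop, ∀ σ, G' σ ↔ ∃ ρ, G ρ ∧ ∀ s ∈ K ρ, σ s = ρ s :=
    ⟨_, fun _ => Iff.rfl⟩
  have hG'c : ∀ σ τ, (∀ s ∈ K σ, τ s = σ s) → (G' τ ↔ G' σ) := by
    intro σ τ h
    have e : K τ = K σ := hK σ τ h
    rw [hG', hG']
    constructor
    · rintro ⟨ρ, h1, h2⟩
      have e2 : K τ = K ρ := hK ρ τ h2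
      refine ⟨ρ, h1, fun s hs => ?_⟩
      rw [← h2 s hs]
      exact (h s (by rw [← e, e2]; exact hs)).symm
    · rintro ⟨ρ, h1, h2⟩
      have e2 : K σ = K ρ := hK ρ σ h2
      refine ⟨ρ, h1, fun s hs => ?_⟩
      rw [← h2 s hs]
      exact h s (by rw [e2]; exact hs)
  set F : (C → ZMod 2) → (C → ZMod 2) → ℝ := fun σ μ => if G' σ ∧ ev μ then Y μ else 0 with hF
  have hF0 : ∀ σ μ, 0 ≤ F σ μ := by
    intro σ μ
    show 0 ≤ if G' σ ∧ ev μ then Y μ else 0
    split_ifs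
    · exact hY0 μ
    · exact le_rfl
  rw [sum_wt_gen hO, hN, div_le_iff₀ hpos]
  have h1 : ∑ σ, ∑ τ, g σ * Y (mix O σ τ) ≤
      ∑ σ, ∑ τ, (if G σ then go σ * F σ (mix O σ τ) else 0) := by
    refine Finset.sum_le_sum fun σ _ => Finset.sum_le_sum fun τ _ => ?_
    by_cases h : g σ = 0
    · rw [h, zero_mul, if_neg fun h' => (hG σ).1 h' h]
    · have hGσ : G σ := (hG σ).2 h
      rw [if_pos hGσ]
      have e1 : F σ (mix O σ τ) = Y (mix O σ τ) :=
        if_pos ⟨(hG' σ).2 ⟨σ, hGσ, fun _ _ => rfl⟩, hev σ τ h⟩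
      rw [e1]
      exact mul_le_mul_of_nonneg_right (hgo σ) (hY0 _)
  have h2 := dens2 (S := C) (B := ZMod 2) hO hK (G := G) (fun σ h => hKO σ ((hG σ).1 h))
    (fun σ h => hOT σ ((hG σ).1 h)) hgo0 hgT (F := F) hF0
    (fun σ τ μ h => by
      have e' := hG'c σ τ h
      show (if G' τ ∧ ev μ then Y μ else 0) = if G' σ ∧ ev μ then Y μ else 0
      by_cases h' : G' σ ∧ ev μ
      · rw [if_pos h', if_pos ⟨e'.2 h'.1, h'.2⟩]
      · rw [if_neg h', if_neg fun h'' => h' ⟨e'.1 h''.1, h''.2⟩])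
  refine (h1.trans h2).trans ?_
  have hE : 0 ≤ ∑ k, ‖a k‖ ^ 2 := Finset.sum_nonneg fun k _ => by positivity
  have key : ∀ σ, ∑ τ, F σ (glue (K σ) σ τ) ≤
      (Fintype.card (C → ZMod 2) : ℝ) * ((2 : ℝ) ^ m / 8 * ∑ k, ‖a k‖ ^ 2) := by
    intro σ
    by_cases hσ : G' σ
    · obtain ⟨ρ, hρ, hs⟩ := (hG' σ).1 hσ
      have eK : K σ = K ρ := hK ρ σ hs
      obtain ⟨C', _, π, hπ, E, χ₀, c0, c2, c1, c3, c4⟩ := H ρ ((hG ρ).1 hρ)
      have e1 : ∑ τ, F σ (glue (K σ) σ τ) ≤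
          ∑ τ, (fun μ => En (coarse M π hπ) a (cfg M μ)) (glue E χ₀ τ) := by
        refine Finset.sum_le_sum fun τ _ => ?_
        dsimp only
        have e5 : glue E χ₀ (glue (K σ) σ τ) = glue E χ₀ τ := by
          funext c
          by_cases hc : c ∈ E
          · rw [glue_on hc, glue_on hc]
          · rw [glue_off hc, glue_off hc, glue_off (fun h => hc (c0 (eK ▸ h)))]
        rw [← e5]
        show (if G' σ ∧ ev (glue (K σ) σ τ) then Y (glue (K σ) σ τ) else 0) ≤ _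
        split_ifs with h
        · refine c4 _ (mem_Prs.2 fun c hc => ?_) h.2
          rw [glue_on (by rw [eK]; exact hc), hs c hc]
        · exact En_nonneg (M := coarse M π hπ) a _
      refine e1.trans ?_
      rw [sum_glue E χ₀ fun μ => En (coarse M π hπ) a (cfg M μ), nsmul_eq_mul]
      have e3 := c1.cyl_frame hπ c2 w3 w1 wc ha c3
      have h6 : pre E χ₀ = Prs E χ₀ := by
        unfold pre Prs
        rfl
      have e4 : (2 : ℝ) ^ E.card * (Prs E χ₀).card = Fintype.card (C → ZMod 2) := by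
        have h5 := card_pre E χ₀
        rw [h6] at h5
        rw [← h5]
        push_cast
        ring
      rw [h6]
      push_cast
      calc (2 : ℝ) ^ E.card * ∑ μ ∈ Prs E χ₀, En (coarse M π hπ) a (cfg M μ)
          ≤ (2 : ℝ) ^ E.card * ((Prs E χ₀).card * (2 ^ m / 8 * ∑ g, ‖a g‖ ^ 2)) :=
            mul_le_mul_of_nonneg_left e3 (by positivity)
        _ = _ := by rw [← mul_assoc, e4]
    · have e4 : ∀ τ, F σ (glue (K σ) σ τ) = 0 := fun τ => if_neg fun h => hσ h.1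
      rw [Finset.sum_congr rfl fun τ _ => e4 τ, Finset.sum_const_zero]
      positivity
  calc ∑ σ, ∑ τ, go σ * F σ (glue (K σ) σ τ)
      = ∑ σ, go σ * ∑ τ, F σ (glue (K σ) σ τ) :=
        Finset.sum_congr rfl fun σ _ => (Finset.mul_sum _ _ _).symm
    _ ≤ ∑ σ, go σ * ((Fintype.card (C → ZMod 2) : ℝ) * ((2 : ℝ) ^ m / 8 * ∑ k, ‖a k‖ ^ 2)) :=
        Finset.sum_le_sum fun σ _ => mul_le_mul_of_nonneg_left (key σ) (hgo0 σ)
    _ = _ := by rw [← Finset.sum_mul]; ring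

variable {ι : Type} [Fintype ι]

/-- the giants of the arcs and the outside -/
def SW (M : CMap D C) (x : D → ZMod 2) (e : ι → D) (n : ι → ℕ) (W : Finset C) :
    Option (ι × Bool) → Finset C
  | none => W
  | some a => Sa M x e n a

/-- data of the giants: `LX` revealed cells of the outside, `X` outside, `F` its white frontier,
`e i, n i` arcs in the disjoint regions `Rg i` -/
structure Gia (M : CMap D C) (Rg : ι → Set C) (LX X F : (C → ZMod 2) → Finset C)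
    (e : (C → ZMod 2) → ι → D) (n : (C → ZMod 2) → ι → ℕ) (Gd : (C → ZMod 2) → Prop) : Prop where
  dec : ∀ σ τ, Gd σ → (∀ s ∈ LX σ ∪ Ua M (cfg M σ) (e σ) (n σ), τ s = σ s) →
    Gd τ ∧ LX τ = LX σ ∧ X τ = X σ ∧ F τ = F σ ∧ e τ = e σ ∧ n τ = n σ
  fl : ∀ σ, Gd σ → F σ ⊆ LX σ
  lx : ∀ σ, Gd σ → LX σ ⊆ X σ ∪ F σ
  nb : ∀ σ, Gd σ → ∀ a c, a ∈ X σ → Exitx707.Nb M a c → c ∈ X σ ∨ c ∈ F σ
  wh : ∀ σ, Gd σ → ∀ c ∈ F σ, σ c = 0
  con : ∀ σ, Gd σ → ∀ c ∈ X σ ∪ F σ, ∀ c' ∈ X σ ∪ F σ,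
    Relation.EqvGen (AdjS M (X σ ∪ F σ)) c c'
  ne : ∀ σ, Gd σ → (X σ ∪ F σ).Nonempty
  reg : ∀ i j c, c ∈ Rg i → c ∈ Rg j → i = j
  off : ∀ σ, Gd σ → ∀ c ∈ X σ ∪ F σ, ∀ i, c ∉ Rg i
  arc : ∀ σ, Gd σ → ∀ i, IsArc M (cfg M σ) (Rg i) (e σ i) (n σ i)

variable {Rg : ι → Set C} {LX X F : (C → ZMod 2) → Finset C}
  {e : (C → ZMod 2) → ι → D} {n : (C → ZMod 2) → ι → ℕ} {Gd : (C → ZMod 2) → Prop}

/-- the explored part -/
def KK (M : CMap D C) (LX : (C → ZMod 2) → Finset C) (e : (C → ZMod 2) → ι → D)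
    (n : (C → ZMod 2) → ι → ℕ) (σ : C → ZMod 2) : Finset C :=
  LX σ ∪ Ua M (cfg M σ) (e σ) (n σ)

/-- **the blocks of the loop of `p'`**, giants: outside and arcs -/
theorem arcsW (D' : Gia M Rg LX X F e n Gd) {O : (C → ZMod 2) → Finset C} (hO : StopSet O)
    {T : Finset C} {g go : (C → ZMod 2) → ℝ} (hg0 : ∀ σ, 0 ≤ g σ) (hgo : ∀ σ, g σ ≤ go σ)
    (hgT : ∀ σ τ, (∀ s, s ∉ T → τ s = σ s) → go τ = go σ)
    (hgG : ∀ σ, g σ ≠ 0 → Gd σ)
    (hKO : ∀ σ, g σ ≠ 0 → KK M LX e n σ ⊆ O σ) (hOT : ∀ σ, g σ ≠ 0 → O σ \ KK M LX e n σ ⊆ T)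
    {z : ℂ} (z3 : z ^ 3 = 1) (z1 : z ≠ 1) (zc : (starRingEnd ℂ) z = z ^ 2)
    {φ : D → ℂ} (hφ : Spin M z φ) (hQ : ∀ i k, Strandx535.fc M (Rg i) k → φ k = 0)
    {p' : (C → ZMod 2) → D}
    (hp : ∀ σ τ, g σ ≠ 0 → cfg M (mix O σ τ) (p' (mix O σ τ)) = 1 ∧
      mix O σ τ (M.cell (p' (mix O σ τ))) = 1 ∧ M.cell (p' (mix O σ τ)) ∉ X σ)
    (hL : ∀ σ τ, g σ ≠ 0 → ∀ i, ∃ a, P M (cfg M (mix O σ τ)) (p' (mix O σ τ)) a = e σ i) :
    ∑ μ, wt O g μ * ∑ β ∈ onL M (cfg M μ) (p' μ), ‖∑ h ∈ β, φ h‖ ^ 2 ≤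
      (2 : ℝ) ^ (2 * Fintype.card ι + 1) / 8 * (∑ k, ‖φ k‖ ^ 2) * ∑ σ, go σ := by
  -- the stopping set
  set K : (C → ZMod 2) → Finset C := fun σ => if Gd σ then KK M LX e n σ else Finset.univ with hKd
  have hKp : ∀ σ, Gd σ → K σ = KK M LX e n σ := fun σ h => if_pos h
  have ag : ∀ σ τ, Gd σ → (∀ s ∈ KK M LX e n σ, τ s = σ s) →
      KK M LX e n τ = KK M LX e n σ := by
    intro σ τ h h1
    obtain ⟨a1, a2, a3, a4, a5, a6⟩ := D'.dec σ τ h h1
    have h2 : ∀ c ∈ Ua M (cfg M σ) (e σ) (n σ), τ c = σ c := fun c hc =>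
      h1 c (Finset.mem_union_right _ hc)
    unfold KK
    rw [a2, a5, a6]
    congr 1
    unfold Rel3x126.Ua
    rw [Sa_agree (fun i => (D'.arc σ h i).occ) h2]
  have hK : StopSet K := by
    intro σ τ h
    by_cases hG : Gd σ
    · rw [hKp σ hG] at h
      rw [hKp σ hG, hKp τ (D'.dec σ τ hG h).1]
      exact ag σ τ hG h
    · have e1 : K σ = Finset.univ := if_neg hG
      rw [e1] at h
      have : τ = σ := funext fun s => h s (Finset.mem_univ s)
      rw [this]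
  refine rel_frameE z3 z1 zc hφ hO hK hg0 hgo hgT ?_ ?_
    (Y := fun μ => ∑ β ∈ onL M (cfg M μ) (p' μ), ‖∑ h ∈ β, φ h‖ ^ 2)
    (fun μ => Finset.sum_nonneg fun _ _ => by positivity)
    (fun μ => ∃ σ τ, g σ ≠ 0 ∧ μ = mix O σ τ) (fun σ τ h => ⟨σ, τ, h, rfl⟩)
    (m := 2 * Fintype.card ι + 1) ?_
  · intro σ h
    rw [hKp σ (hgG σ h)]
    exact hKO σ h
  · intro σ h
    rw [hKp σ (hgG σ h)]
    exact hOT σ h
  intro ρ hρ
  have hGρ := hgG ρ hρ
  rw [hKp ρ hGρ]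
  set W : Finset C := X ρ ∪ F ρ with hWd
  set x₀ := cfg M ρ with hx₀
  set S : Option (ι × Bool) → Finset C := SW M x₀ (e ρ) (n ρ) W with hS
  have smem : ∀ a c, c ∈ Sa M x₀ (e ρ) (n ρ) a → c ∈ Rg a.1 := by
    intro a c hc
    unfold Rel3x126.Sa at hc
    by_cases ha : a.2 = true
    · rw [if_pos ha] at hc
      obtain ⟨j, hj, rfl⟩ := mem_wl.1 hc
      exact ((D'.arc ρ hGρ a.1).mem j hj).1
    · rw [if_neg ha] at hc
      obtain ⟨j, hj, rfl⟩ := mem_wr.1 hc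
      exact ((D'.arc ρ hGρ a.1).mem j hj).2
  have hgd := Rel3x126.gd_arc (χ := ρ) D'.reg (D'.arc ρ hGρ)
  have hdis : ∀ i j c, c ∈ S i → c ∈ S j → i = j := by
    intro i j c h1 h2
    cases i with
    | none =>
      cases j with
      | none => rfl
      | some b => exact absurd (smem b c h2) (D'.off ρ hGρ c h1 b.1)
    | some a =>
      cases j with
      | none => exact absurd (smem a c h1) (D'.off ρ hGρ c h2 a.1)
      | some b => rw [hgd.2 a b c h1 h2]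
  have hcon : ∀ i, ∀ c ∈ S i, ∀ c' ∈ S i, Relation.EqvGen (AdjS M (S i)) c c' := by
    intro i c hc c' hc'
    cases i with
    | none => exact D'.con ρ hGρ c hc c' hc'
    | some a =>
      show Relation.EqvGen (AdjS M (Sa M x₀ (e ρ) (n ρ) a)) c c'
      have hc1 : c ∈ Sa M x₀ (e ρ) (n ρ) a := hc
      have hc2 : c' ∈ Sa M x₀ (e ρ) (n ρ) a := hc'
      unfold Rel3x126.Sa at hc1 hc2 ⊢
      by_cases ha : a.2 = true
      · rw [if_pos ha] at hc1 hc2 ⊢
        exact wl_con (cfg_isC ρ) (hgd.1 a.1) hc1 hc2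
      · rw [if_neg ha] at hc1 hc2 ⊢
        exact wr_con (cfg_isC ρ) (hgd.1 a.1) hc1 hc2
  set χ₀ : C → ZMod 2 := rc ρ (X ρ : Set C) with hχ₀
  have hoffX : ∀ c a, c ∈ Sa M x₀ (e ρ) (n ρ) a → c ∉ X ρ := fun c a h1 h2 =>
    D'.off ρ hGρ c (Finset.mem_union_left _ h2) a.1 (smem a c h1)
  have hWw : ∀ c ∈ W, χ₀ c = 0 := by
    intro c hc
    by_cases h : c ∈ X ρ
    · exact rc_on (Finset.mem_coe.2 h)
    · rw [hχ₀, rc_off (fun h' => h (Finset.mem_coe.1 h'))]
      rcases Finset.mem_union.1 hc with h1 | h1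
      · exact absurd h1 h
      · exact D'.wh ρ hGρ c h1
  have hmono : ∀ i, ∀ c ∈ S i, ∀ c' ∈ S i, χ₀ c = χ₀ c' := by
    intro i c hc c' hc'
    cases i with
    | none => rw [hWw c hc, hWw c' hc']
    | some a =>
      have hc1 : c ∈ Sa M x₀ (e ρ) (n ρ) a := hc
      have hc2 : c' ∈ Sa M x₀ (e ρ) (n ρ) a := hc'
      rw [hχ₀, rc_off (fun h' => hoffX c a hc1 (Finset.mem_coe.1 h')),
        rc_off (fun h' => hoffX c' a hc2 (Finset.mem_coe.1 h'))]
      unfold Rel3x126.Sa at hc1 hc2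
      by_cases ha : a.2 = true
      · rw [if_pos ha] at hc1 hc2
        rw [wl_col (hgd.1 a.1) hc1, wl_col (hgd.1 a.1) hc2]
      · rw [if_neg ha] at hc1 hc2
        rw [wr_col (hgd.1 a.1) hc1, wr_col (hgd.1 a.1) hc2]
  set E : Finset C := Finset.univ.biUnion S with hEd
  have hWE : W ⊆ E := fun c hc => Finset.mem_biUnion.2 ⟨none, Finset.mem_univ _, hc⟩
  have hUE : Ua M x₀ (e ρ) (n ρ) ⊆ E := by
    intro c hc
    obtain ⟨a, -, ha⟩ := Finset.mem_biUnion.1 hc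
    exact Finset.mem_biUnion.2 ⟨some a, Finset.mem_univ _, ha⟩
  have hEm : ∀ c ∈ E, c ∈ W ∨ c ∈ Ua M x₀ (e ρ) (n ρ) := by
    intro c hc
    obtain ⟨i, -, hi⟩ := Finset.mem_biUnion.1 hc
    cases i with
    | none => exact Or.inl hi
    | some a => exact Or.inr (Finset.mem_biUnion.2 ⟨a, Finset.mem_univ _, hi⟩)
  have hcard : Fintype.card (Option (ι × Bool)) = 2 * Fintype.card ι + 1 := by
    rw [Fintype.card_option, Fintype.card_prod, Fintype.card_bool, mul_comm]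
  refine ⟨GQ S hdis, @Quotient.fintype C _ (gs S hdis) (Classical.decRel _), gq S hdis,
    gq_con hcon, E, χ₀, ?_, ?_, gq_ctr hmono, ?_, ?_⟩
  · intro c hc
    rcases Finset.mem_union.1 hc with h | h
    · exact hWE (D'.lx ρ hGρ h)
    · exact hUE h
  · obtain ⟨c, hc⟩ := D'.ne ρ hGρ
    exact ⟨c, hWE hc⟩
  · have h1 := gq_card (ι := Option (ι × Bool)) (S := S) (hS := hdis)
    rw [hcard] at h1
    convert h1 using 3
  rintro μ hμ ⟨σ, τ, hσ, rfl⟩
  set μ := mix O σ τ with hμd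
  have hGσ := hgG σ hσ
  have hμρ : ∀ c ∈ KK M LX e n ρ, μ c = ρ c := mem_Prs.1 hμ
  have hμσ : ∀ c ∈ KK M LX e n σ, μ c = σ c := fun c hc => mix_on (hKO σ hσ hc)
  obtain ⟨-, b2, b3, b4, b5, b6⟩ := D'.dec ρ μ hGρ hμρ
  obtain ⟨-, d2, d3, d4, d5, d6⟩ := D'.dec σ μ hGσ hμσ
  have eX : X σ = X ρ := d3.symm.trans b3
  have eE : e σ = e ρ := d5.symm.trans b5
  -- the outside in `μ`
  have hext : Ext M μ (X ρ : Set C) (F ρ : Set C) := by
    refine ⟨fun a c ha h => ?_, fun c hc => ?_⟩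
    · rcases D'.nb ρ hGρ a c (Finset.mem_coe.1 ha) h with h1 | h1
      · exact Or.inl (Finset.mem_coe.2 h1)
      · exact Or.inr (Finset.mem_coe.2 h1)
    · rw [hμρ c (Finset.mem_union_left _ (D'.fl ρ hGρ (Finset.mem_coe.1 hc)))]
      exact D'.wh ρ hGρ c (Finset.mem_coe.1 hc)
  have hsame := ext_sameF hext
  set x := cfg M (rc μ (X ρ : Set C)) with hx
  have hxc : IsC M ∅ x := cfg_isC _
  obtain ⟨hp1, hp2, hp3⟩ := hp σ τ hσ
  rw [← hμd] at hp1 hp2 hp3
  rw [eX] at hp3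
  have hBl : Tubex389.Bl M μ (X ρ : Set C) (p' μ) :=
    ⟨hp1, hp2, fun h => hp3 (Finset.mem_coe.1 h)⟩
  have hpx : x (p' μ) = 1 := by
    rw [hx, hBl.cfg_eq hext (fa0 M _)]
    exact hp1
  -- recolouring = glue
  have eglue : glue E χ₀ μ = rc μ (X ρ : Set C) := by
    funext c
    by_cases hc : c ∈ E
    · rw [glue_on hc]
      by_cases h1 : c ∈ X ρ
      · rw [hχ₀, rc_on (Finset.mem_coe.2 h1), rc_on (Finset.mem_coe.2 h1)]
      · rw [hχ₀, rc_off (fun h => h1 (Finset.mem_coe.1 h)),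
          rc_off (fun h => h1 (Finset.mem_coe.1 h))]
        symm
        apply hμρ
        rcases hEm c hc with h2 | h2
        · rcases Finset.mem_union.1 h2 with h3 | h3
          · exact absurd h3 h1
          · exact Finset.mem_union_left _ (D'.fl ρ hGρ h3)
        · exact Finset.mem_union_right _ h2
    · rw [glue_off hc, rc_off]
      intro h
      exact hc (hWE (Finset.mem_union_left _ (Finset.mem_coe.1 h)))
  rw [eglue]
  have hxcoarse : IsC (coarse M (gq S hdis) (gq_con hcon)) ∅ x := by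
    have h1 : rc μ (X ρ : Set C) ∈ Prs E χ₀ := by
      rw [← eglue]
      exact mem_Prs.2 fun c hc => glue_on hc
    exact (gq_ctr hmono).isC (gq_con hcon) h1
  -- arcs in `x`
  have hUμ : ∀ c ∈ Ua M x₀ (e ρ) (n ρ), μ c = ρ c := fun c hc =>
    hμρ c (Finset.mem_union_right _ hc)
  have hUx : ∀ c ∈ Ua M x₀ (e ρ) (n ρ), rc μ (X ρ : Set C) c = ρ c := by
    intro c hc
    rw [← hUμ c hc, rc_off]
    intro h
    obtain ⟨a, -, ha⟩ := Finset.mem_biUnion.1 hc
    exact hoffX c a ha (Finset.mem_coe.1 h)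
  have hax : ∀ i, x (e ρ i) = 1 ∧ ∀ j ≤ n ρ i, P M x (e ρ i) j = P M x₀ (e ρ i) j := fun i =>
    arc_agree hgd.1 hUx i
  have hQ' : ∀ k, ¬ (∀ i, ¬ Strandx535.fc M (Rg i) k) → φ k = 0 := by
    intro k hk
    simp only [not_forall, not_not] at hk
    obtain ⟨i, hi⟩ := hk
    exact hQ i k hi
  -- colours on the loop of `p'` in `x`
  have hsm : ∀ d, x d = 0 → rc μ (X ρ : Set C) (M.cell d) = rc μ (X ρ : Set C) (M.cell (M.rho d)) :=
    fun d hd => cfg_zero.1 hd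
  have hcl : ∀ j, rc μ (X ρ : Set C) (M.cell (P M x (p' μ) j)) = 1 := by
    intro j
    have h1 := it_col hxc hpx hsm j
    have h2 : rc μ (X ρ : Set C) (M.cell (p' μ)) = 1 := by
      rw [rc_off (fun h => hp3 (Finset.mem_coe.1 h))]
      exact hp2
    exact h1.trans h2
  refine (Finset.sum_le_sum_of_subset_of_nonneg (onL_same hsame hxc (cfg_isC μ) hpx)
    fun _ _ _ => by positivity).trans ?_
  refine onL_le (hπ := gq_con hcon) hxcoarse hpx hQ' fun c' => harm_gq (fun i => ?_) c'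
  cases i with
  | none =>
    left
    intro j hj
    have h1 := hcl j
    have h2 : rc μ (X ρ : Set C) (M.cell (P M x (p' μ) j)) = 0 := by
      rw [← eglue, glue_on (hWE hj)]
      exact hWw _ hj
    rw [h2] at h1
    exact absurd h1 (by decide)
  | some a =>
    have hSx : Sa M x (e ρ) (n ρ) = Sa M x₀ (e ρ) (n ρ) := Sa_agree hgd.1 hUx
    by_cases ha : a.2 = true
    · right
      obtain ⟨t, ht⟩ := hL σ τ hσ a.1
      rw [← hμd, eE] at ht
      refine ⟨e ρ a.1, n ρ a.1, ⟨t, ?_⟩, fun k hk => ?_, fun j hj => ?_⟩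
      · rw [← ht]
        exact (hsame.it hxc hpx t).symm
      · refine outP_fc (Rt := Rg a.1) (fun j hj => ?_) (hk a.1)
        rw [(hax a.1).2 j hj.le]
        exact (D'.arc ρ hGρ a.1).fc hj
      · have hj' : M.cell (P M x (p' μ) j) ∈ Sa M x (e ρ) (n ρ) a := by
          rw [hSx]; exact hj
        unfold Rel3x126.Sa at hj'
        rw [if_pos ha] at hj'
        obtain ⟨j', h1, h2⟩ := mem_wl.1 hj'
        exact ⟨j', h1, h2⟩
    · left
      intro j hj
      have hj' : M.cell (P M x (p' μ) j) ∈ Sa M x (e ρ) (n ρ) a := by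
        rw [hSx]; exact hj
      unfold Rel3x126.Sa at hj'
      rw [if_neg ha] at hj'
      have h1 := wr_col (hax a.1).1 hj'
      rw [hcl j] at h1
      -- the left cell of the arc is black
      obtain ⟨t, ht⟩ := hL σ τ hσ a.1
      rw [← hμd, eE] at ht
      have ht' : P M x (p' μ) t = e ρ a.1 := by
        rw [← ht]
        exact (hsame.it hxc hpx t).symm
      have h2 := hcl t
      rw [ht'] at h2
      rw [h2] at h1
      exact absurd h1 (by decide)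

end frame

end Crest.Agent.R143.Rel5x352
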