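import Crest.Agent.R143.Rel4_126

/-!
# Row 143 (S0194), block H, box [E2] (helper126): REL1 for an arbitrary explored arc, sum over the
first states

* `gdp`, `XP` : good chords and their sum for an arc `p`, `L` with revealed right cells `Rv`
* `xg_le'`, **`rel1'`** : chords of the giant net (389's arc) against the chords of the arc `p', l', Rv'`
  which is decided by a smaller exploration
* `ind`, `sum_ind` : subsets of the cells = colourings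
* `xp_fk` : `Σ_ν wt O g ν * XP ν = Σ_b Σ_q Fk`
* **`rel_sum`** : REL1 + `h2` (355) + a bound of the plane blocks for every first state `d`, summed
  over `d` : `c * Σ_σ Σ_τ g σ * XG (mix O σ τ) ≤ 2 ^ #C * B * Σ_σ go σ`
-/

set_option autoImplicit false
set_option linter.unusedSectionVars false

noncomputable section

open scoped Classical

namespace Crest.Agent.R143.Rel6x126

open Crest.Agent.R143.Frame1x395 Crest.Agent.R143.Frame2x395 Crest.Agent.R143.Frame3x395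
  Crest.Agent.R143.Frame8x395 Crest.Agent.R143.Frame9x395 Crest.Agent.R143.Frame11x395
  Crest.Agent.R143.NonXx592 Crest.Agent.R143.Coarsex166 Crest.Agent.R143.Budx432
  Crest.Agent.R143.Bud2x432 Crest.Agent.R143.Histx389
  Crest.Agent.R143.Chordx355 Crest.Agent.R143.ChordCx357 Crest.Agent.R143.Chord2x355
  Crest.Agent.R143.H2x355 Crest.Agent.R143.Ox355 Crest.Agent.R143.RevCx389
  Crest.Agent.R143.Gntx535 Crest.Agent.R143.Resax778 Crest.Agent.R143.Relx352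
  Crest.Agent.R143.Rel3x126 Crest.Agent.R143.Rel4x126

variable {D C C' : Type} [Fintype D] {M : CMap D C} {μ μ' : C → ZMod 2} {π : C → C'} {o : C'}

/-- good chords of the arc `p`, `L` -/
def gdp (M : CMap D C) (p : D) (L : ℕ) (Co : Set C) (ψ : C → ZMod 2) (k : D) (n : ℕ) : Prop :=
  M.cell (M.rho k) ≠ lc M (cfg M ψ) (M.rho k) n ∧
  (∀ j, j < L → lc M (cfg M ψ) p j = lc M (cfg M ψ) (M.rho k) n →
    ∃ j', j ≤ j' ∧ j' < L ∧ lc M (cfg M ψ) p j' = M.cell (M.rho k)) ∧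
  ∃ u, u ≤ n ∧ lc M (cfg M ψ) (M.rho k) u ∈ Co

theorem gdp_gd {G : Rg D C} {Co : Set C} {ψ : C → ZMod 2} {k : D} {n : ℕ} :
    gdp M (p0 M G ψ) (ln M G ψ) Co ψ k n ↔ gd M G Co ψ k n := Iff.rfl

/-- the chords of the arc `p`, `L` -/
def XP (M : CMap D C) (p : D) (L : ℕ) (Rv Co : Set C) (I : Finset (D × ℕ))
    (φ : D → ℂ) (ψ : C → ZMod 2) : ℝ :=
  ∑ q ∈ I, if Cd M (cfg M ψ) p L Rv q.1 q.2 ∧ gdp M p L Co ψ q.1 q.2 then
    ‖cv M (cfg M ψ) p L φ q.1 q.2‖ ^ 2 else 0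

variable {p : D} {L : ℕ} {Rv Rv' Co : Set C} {I : Finset (D × ℕ)} {φ : D → ℂ} {ψ : C → ZMod 2}

theorem xp_nonneg : 0 ≤ XP M p L Rv Co I φ ψ :=
  Finset.sum_nonneg fun q _ => by split_ifs <;> positivity

/-- the chords of the giant net with ends on the arc `p`, `L` -/
def XGp (M : CMap D C) (p : D) (L : ℕ) (Rv Co : Set C) (I : Finset (D × ℕ)) (π : C → C') (o : C')
    (φ : D → ℂ) (ψ : C → ZMod 2) : ℝ :=
  ∑ q ∈ I, if Gc M π o (cfg M (fil π o ψ)) q.1 q.2 ∧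
      Cd M (cfg M ψ) p L Rv q.1 q.2 ∧ gdp M p L Co ψ q.1 q.2 then
    ‖cv M (cfg M ψ) p L φ q.1 q.2‖ ^ 2 else 0

theorem xgp_nonneg : 0 ≤ XGp M p L Rv Co I π o φ ψ :=
  Finset.sum_nonneg fun q _ => by split_ifs <;> positivity

theorem gdp_tr {k : D} {m : ℕ} (A : Arc M μ μ' p L)
    (h2 : ∀ u, u ≤ m → P M (cfg M μ') (M.rho k) u = P M (cfg M μ) (M.rho k) u)
    (hg : gdp M p L Co μ k m) : gdp M p L Co μ' k m := by
  have hst2 : ∀ a, a < L → lc M (cfg M μ') p a = lc M (cfg M μ) p a := by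
    intro a ha
    unfold lc
    rw [A.2.2 a ha]
  have hst1 : ∀ u, u ≤ m → lc M (cfg M μ') (M.rho k) u = lc M (cfg M μ) (M.rho k) u := by
    intro u hu
    unfold lc
    rw [h2 u hu]
  obtain ⟨g1, g2, u, g3, g4⟩ := hg
  refine ⟨by rw [hst1 m le_rfl]; exact g1, ?_, u, g3, by rw [hst1 u g3]; exact g4⟩
  intro j hj e
  rw [hst2 j hj, hst1 m le_rfl] at e
  obtain ⟨j', h3, h4, h5⟩ := g2 j hj e
  exact ⟨j', h3, h4, by rw [hst2 j' h4]; exact h5⟩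

/-- **REL1, pointwise** -/
theorem xg_le' (R : Rim M π o μ) (hoff : ∀ c, π c ≠ o → μ' c = μ c) (A : Arc M μ μ' p L)
    (hK : ∀ c ∈ Kc M (cfg M μ) p L, μ' c = μ c) (hR : ∀ c ∈ Rv', π c = o ∨ c ∈ Rv) :
    XGp M p L Rv Co I π o φ μ ≤ XP M p L Rv' Co I φ μ' := by
  unfold XGp XP
  refine Finset.sum_le_sum fun q _ => ?_
  by_cases h : Gc M π o (cfg M (fil π o μ)) q.1 q.2 ∧
      Cd M (cfg M μ) p L Rv q.1 q.2 ∧ gdp M p L Co μ q.1 q.2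
  · obtain ⟨h1, h2, h3⟩ := h
    obtain ⟨h4, h5⟩ := cd_tr A hK hoff hR R h1 h2
    have h6 := gdp_tr A h5 h3
    rw [if_pos ⟨h1, h2, h3⟩, if_pos ⟨h4, h6⟩, cv_tr A φ h5]
  · rw [if_neg h]
    split_ifs <;> positivity

/-- **REL1** : from the full exploration `O` (arc `p₁`, `l₁`, `Rv₁`) to the exploration `Oc` with the
arc `p'`, `l'`, `Rv'` -/
theorem rel1' [Fintype C] {O Oc : (C → ZMod 2) → Finset C} (hOc : StopSet Oc)
    {g : (C → ZMod 2) → ℝ} (hg0 : ∀ σ, 0 ≤ g σ) {π : (C → ZMod 2) → C → C'}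
    {o : (C → ZMod 2) → C'} {p₁ p' : (C → ZMod 2) → D} {l₁ l' : (C → ZMod 2) → ℕ}
    {Rv₁ Rv' : (C → ZMod 2) → Set C}
    (hsub : ∀ σ, g σ ≠ 0 → Oc σ ⊆ O σ)
    (hO : ∀ σ τ, g σ ≠ 0 → ∀ c ∈ O σ, π (mix O σ τ) c = o (mix O σ τ))
    (hrim : ∀ σ τ, g σ ≠ 0 → Rim M (π (mix O σ τ)) (o (mix O σ τ)) (mix O σ τ))
    (hp : ∀ σ τ, g σ ≠ 0 → p' (mix Oc σ τ) = p₁ (mix O σ τ))
    (hl : ∀ σ τ, g σ ≠ 0 → l' (mix Oc σ τ) = l₁ (mix O σ τ))
    (hA : ∀ σ τ, g σ ≠ 0 → Arc M (mix O σ τ) (mix Oc σ τ) (p₁ (mix O σ τ)) (l₁ (mix O σ τ)))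
    (hK : ∀ σ τ, g σ ≠ 0 → ∀ c ∈ Kc M (cfg M (mix O σ τ)) (p₁ (mix O σ τ)) (l₁ (mix O σ τ)),
      c ∈ Oc σ)
    (hC : ∀ σ τ, g σ ≠ 0 → ∀ c ∈ Rv' (mix Oc σ τ), c ∈ O σ ∨ c ∈ Rv₁ (mix O σ τ)) :
    ∑ σ, ∑ τ, g σ * XGp M (p₁ (mix O σ τ)) (l₁ (mix O σ τ)) (Rv₁ (mix O σ τ)) Co I
        (π (mix O σ τ)) (o (mix O σ τ)) φ (mix O σ τ) ≤
      (2 : ℝ) ^ Fintype.card C * ∑ ν, wt Oc g ν * XP M (p' ν) (l' ν) (Rv' ν) Co I φ ν := by
  have h2 : ((Fintype.card (ZMod 2) ^ Fintype.card C : ℕ) : ℝ) = (2 : ℝ) ^ Fintype.card C := by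
    rw [ZMod.card]
    push_cast
    rfl
  rw [sum_wt_gen hOc, h2, mul_div_cancel₀ _ (by positivity)]
  refine Finset.sum_le_sum fun σ _ => Finset.sum_le_sum fun τ _ => ?_
  by_cases h : g σ = 0
  · rw [h, zero_mul, zero_mul]
  · refine mul_le_mul_of_nonneg_left ?_ (hg0 σ)
    rw [hp σ τ h, hl σ τ h]
    refine xg_le' (hrim σ τ h) ?_ (hA σ τ h) ?_ ?_
    · intro c hc
      have h3 : c ∉ O σ := fun h' => hc (hO σ τ h c h')
      rw [mix_off h3, mix_off fun h' => h3 (hsub σ h h')]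
    · intro c hc
      have h3 := hK σ τ h c hc
      rw [mix_on h3, mix_on (hsub σ h h3)]
    · intro c hc
      rcases hC σ τ h c hc with h3 | h3
      · exact Or.inl (hO σ τ h c h3)
      · exact Or.inr h3

/-! ### subsets = colourings -/

section ind

variable [Fintype C]

/-- the colouring of a set of black cells -/
def ind (b : Finset C) (c : C) : ZMod 2 := if c ∈ b then 1 else 0

theorem sum_ind {A : Type} [AddCommMonoid A] (F : (C → ZMod 2) → A) :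
    ∑ b ∈ (Finset.univ : Finset C).powerset, F (ind b) = ∑ ν, F ν := by
  refine Finset.sum_bij' (fun b _ => ind b) (fun ν _ => Finset.univ.filter fun c => ν c = 1)
    (fun _ _ => Finset.mem_univ _) (fun _ _ => by simp) ?_ ?_ fun _ _ => rfl
  · intro b _
    ext c
    simp [ind]
  · intro ν _
    funext c
    unfold ind
    by_cases h : ν c = 1
    · simp [h]
    · have : ∀ a : ZMod 2, a ≠ 1 → a = 0 := by decide
      simp [this _ h]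

theorem coins_ind : Coins (Finset.univ : Finset C) ind (fun c => ({c} : Finset C)) := by
  intro c b b' _ _ h
  have h1 : c ∈ b ↔ c ∈ b' := by
    have h2 : c ∈ b ∩ {c} ↔ c ∈ b' ∩ {c} := by rw [h]
    simpa using h2
  unfold ind
  by_cases h2 : c ∈ b
  · rw [if_pos h2, if_pos (h1.1 h2)]
  · rw [if_neg h2, if_neg fun h3 => h2 (h1.2 h3)]

/-- **the sum over the colourings of `XP` is 355's sum `Fk`** -/
theorem xp_fk (w : (C → ZMod 2) → ℝ) (p' : (C → ZMod 2) → D) (l' : (C → ZMod 2) → ℕ)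
    (Rv' : (C → ZMod 2) → Set C) :
    ∑ ν, w ν * XP M (p' ν) (l' ν) (Rv' ν) Co I φ ν =
      ∑ b ∈ (Finset.univ : Finset C).powerset, ∑ q ∈ I, Fk M ind (fun b => p' (ind b))
        (fun b => l' (ind b)) (fun b => Rv' (ind b)) (fun b => w (ind b))
        (fun b k n => gdp M (p' (ind b)) (l' (ind b)) Co (ind b) k n) φ q b := by
  rw [← sum_ind]
  refine Finset.sum_congr rfl fun b _ => ?_
  unfold XP
  rw [Finset.mul_sum]
  refine Finset.sum_congr rfl fun q _ => ?_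
  unfold Fk
  by_cases hw : w (ind b) = 0
  · rw [hw, zero_mul, if_neg fun h => h.1 hw]
  · by_cases h : Cd M (cfg M (ind b)) (p' (ind b)) (l' (ind b)) (Rv' (ind b)) q.1 q.2 ∧
      gdp M (p' (ind b)) (l' (ind b)) Co (ind b) q.1 q.2
    · rw [if_pos h, if_pos ⟨hw, h⟩]
    · rw [if_neg h, if_neg fun h' => h h'.2, mul_zero]

/-- **`h2` for colourings** -/
theorem xp_h2 {K₀ : C → Finset C} {R1 : Finset C → Finset C} {p' : (C → ZMod 2) → D}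
    {l' : (C → ZMod 2) → ℕ} {Rv' : (C → ZMod 2) → Set C} {w : (C → ZMod 2) → ℝ}
    (E : Ex M (Finset.univ : Finset C) ind K₀ R1 (fun b => p' (ind b)) (fun b => l' (ind b))
      (fun b => Rv' (ind b)) (fun b => w (ind b)))
    (hGd : GDec M (Finset.univ : Finset C) ind K₀ R1 (fun b => p' (ind b)) (fun b => l' (ind b))
      (fun b => Rv' (ind b)) (fun b k n => gdp M (p' (ind b)) (l' (ind b)) Co (ind b) k n))
    {c : ℝ} {Tb : D × ℕ → Finset C → Prop}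
    (hc : ∀ i ∈ I, c ≤ Harx315.pr (Finset.univ : Finset C) (Tb i))
    (hTb : ∀ i ∈ I, ∀ b b', w (ind b) ≠ 0 →
      Cd M (cfg M (ind b)) (p' (ind b)) (l' (ind b)) (Rv' (ind b)) i.1 i.2 →
      gdp M (p' (ind b)) (l' (ind b)) Co (ind b) i.1 i.2 → Tb i b' →
      Frame11x395.Con M (cfg M (ind (b' \ R2 M ind K₀ R1 (fun b => p' (ind b))
          (fun b => l' (ind b)) i.1 b ∪ b ∩ R2 M ind K₀ R1 (fun b => p' (ind b))
          (fun b => l' (ind b)) i.1 b)))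
        (M.cell (M.rho (p' (ind b)))) (M.cell (M.rho (M.rho i.1)))) :
    c * ∑ ν, w ν * XP M (p' ν) (l' ν) (Rv' ν) Co I φ ν ≤
      ∑ ν, w ν * ∑ β ∈ onL M (cfg M ν) (p' ν), ‖∑ h ∈ β, φ h‖ ^ 2 := by
  rw [xp_fk]
  have h1 := h2 E hGd φ I hc (fun i hi b b' _ _ => hTb i hi b b')
    (fun b => onL M (cfg M (ind b)) (p' (ind b))) fun b hb hwb i hi hj _ =>
    blk_onL (E.oa b hb hwb) hj
  refine h1.trans (le_of_eq ?_)
  exact sum_ind fun ν => w ν * ∑ β ∈ onL M (cfg M ν) (p' ν), ‖∑ h ∈ β, φ h‖ ^ 2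

/-- **one first state** : REL1, `h2` and a bound of the plane blocks of the loop -/
theorem one_d {O Oc : (C → ZMod 2) → Finset C} (hOc : StopSet Oc)
    {g : (C → ZMod 2) → ℝ} (hg0 : ∀ σ, 0 ≤ g σ) {π : (C → ZMod 2) → C → C'}
    {o : (C → ZMod 2) → C'} {p₁ p' : (C → ZMod 2) → D} {l₁ l' : (C → ZMod 2) → ℕ}
    {Rv₁ Rv' : (C → ZMod 2) → Set C}
    (hsub : ∀ σ, g σ ≠ 0 → Oc σ ⊆ O σ)
    (hO : ∀ σ τ, g σ ≠ 0 → ∀ c ∈ O σ, π (mix O σ τ) c = o (mix O σ τ))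
    (hrim : ∀ σ τ, g σ ≠ 0 → Rim M (π (mix O σ τ)) (o (mix O σ τ)) (mix O σ τ))
    (hp : ∀ σ τ, g σ ≠ 0 → p' (mix Oc σ τ) = p₁ (mix O σ τ))
    (hl : ∀ σ τ, g σ ≠ 0 → l' (mix Oc σ τ) = l₁ (mix O σ τ))
    (hA : ∀ σ τ, g σ ≠ 0 → Arc M (mix O σ τ) (mix Oc σ τ) (p₁ (mix O σ τ)) (l₁ (mix O σ τ)))
    (hK : ∀ σ τ, g σ ≠ 0 → ∀ c ∈ Kc M (cfg M (mix O σ τ)) (p₁ (mix O σ τ)) (l₁ (mix O σ τ)),
      c ∈ Oc σ)
    (hC : ∀ σ τ, g σ ≠ 0 → ∀ c ∈ Rv' (mix Oc σ τ), c ∈ O σ ∨ c ∈ Rv₁ (mix O σ τ))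
    {K₀ : C → Finset C} {R1 : Finset C → Finset C}
    (E : Ex M (Finset.univ : Finset C) ind K₀ R1 (fun b => p' (ind b)) (fun b => l' (ind b))
      (fun b => Rv' (ind b)) (fun b => wt Oc g (ind b)))
    (hGd : GDec M (Finset.univ : Finset C) ind K₀ R1 (fun b => p' (ind b)) (fun b => l' (ind b))
      (fun b => Rv' (ind b)) (fun b k n => gdp M (p' (ind b)) (l' (ind b)) Co (ind b) k n))
    {c : ℝ} {Tb : D × ℕ → Finset C → Prop} (hc0 : 0 ≤ c)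
    (hc : ∀ i ∈ I, c ≤ Harx315.pr (Finset.univ : Finset C) (Tb i))
    (hTb : ∀ i ∈ I, ∀ b b', wt Oc g (ind b) ≠ 0 →
      Cd M (cfg M (ind b)) (p' (ind b)) (l' (ind b)) (Rv' (ind b)) i.1 i.2 →
      gdp M (p' (ind b)) (l' (ind b)) Co (ind b) i.1 i.2 → Tb i b' →
      Frame11x395.Con M (cfg M (ind (b' \ R2 M ind K₀ R1 (fun b => p' (ind b))
          (fun b => l' (ind b)) i.1 b ∪ b ∩ R2 M ind K₀ R1 (fun b => p' (ind b))
          (fun b => l' (ind b)) i.1 b)))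
        (M.cell (M.rho (p' (ind b)))) (M.cell (M.rho (M.rho i.1))))
    {Bd : ℝ} (hB : ∑ ν, wt Oc g ν * ∑ β ∈ onL M (cfg M ν) (p' ν), ‖∑ h ∈ β, φ h‖ ^ 2 ≤ Bd) :
    c * ∑ σ, ∑ τ, g σ * XGp M (p₁ (mix O σ τ)) (l₁ (mix O σ τ)) (Rv₁ (mix O σ τ)) Co I
        (π (mix O σ τ)) (o (mix O σ τ)) φ (mix O σ τ) ≤ (2 : ℝ) ^ Fintype.card C * Bd := by
  have h1 := rel1' (M := M) (φ := φ) (I := I) (Co := Co) hOc hg0 hsub hO hrim hp hl hA hK hC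
  have h2 := xp_h2 (φ := φ) (I := I) E hGd hc hTb
  calc _ ≤ c * ((2 : ℝ) ^ Fintype.card C *
        ∑ ν, wt Oc g ν * XP M (p' ν) (l' ν) (Rv' ν) Co I φ ν) := mul_le_mul_of_nonneg_left h1 hc0
    _ = (2 : ℝ) ^ Fintype.card C *
        (c * ∑ ν, wt Oc g ν * XP M (p' ν) (l' ν) (Rv' ν) Co I φ ν) := by ring
    _ ≤ _ := mul_le_mul_of_nonneg_left (h2.trans hB) (by positivity)

omit [Fintype D] in
/-- **sum over the first states** : at most one of them is good where `go ≠ 0` -/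
theorem rel_sum {ι : Type} (Δ : Finset ι) {g go : (C → ZMod 2) → ℝ} {gs : ι → (C → ZMod 2) → ℝ}
    (hgs : ∀ σ, g σ ≤ ∑ d ∈ Δ, gs d σ) (hgo0 : ∀ σ, 0 ≤ go σ)
    {Y : (C → ZMod 2) → (C → ZMod 2) → ℝ} (hY : ∀ σ τ, 0 ≤ Y σ τ) {c B : ℝ} (hc0 : 0 ≤ c)
    (hB0 : 0 ≤ B) {Gd : ι → (C → ZMod 2) → Prop}
    (hB : ∀ d ∈ Δ, c * ∑ σ, ∑ τ, gs d σ * Y σ τ ≤ B * ∑ σ, (if Gd d σ then go σ else 0))
    (hu : ∀ σ, go σ ≠ 0 → ∀ d ∈ Δ, ∀ d' ∈ Δ, Gd d σ → Gd d' σ → d = d') :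
    c * ∑ σ, ∑ τ, g σ * Y σ τ ≤ B * ∑ σ, go σ := by
  have h1 : ∑ σ, ∑ τ, g σ * Y σ τ ≤ ∑ d ∈ Δ, ∑ σ, ∑ τ, gs d σ * Y σ τ := by
    rw [Finset.sum_comm (s := Δ)]
    refine Finset.sum_le_sum fun σ _ => ?_
    rw [Finset.sum_comm (s := Δ)]
    refine Finset.sum_le_sum fun τ _ => ?_
    rw [← Finset.sum_mul]
    exact mul_le_mul_of_nonneg_right (hgs σ) (hY σ τ)
  have h2 : ∑ d ∈ Δ, ∑ σ, (if Gd d σ then go σ else 0) ≤ ∑ σ, go σ := by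
    rw [Finset.sum_comm]
    refine Finset.sum_le_sum fun σ _ => ?_
    by_cases h0 : go σ = 0
    · rw [h0]
      simp
    · by_cases h3 : ∃ d ∈ Δ, Gd d σ
      · obtain ⟨d, hd, h4⟩ := h3
        rw [Finset.sum_eq_single_of_mem d hd, if_pos h4]
        intro d' hd' hne
        exact if_neg fun h5 => hne (hu σ h0 d' hd' d hd h5 h4)
      · push Not at h3
        rw [Finset.sum_eq_zero fun d hd => if_neg (h3 d hd)]
        exact hgo0 σ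
  calc _ ≤ c * ∑ d ∈ Δ, ∑ σ, ∑ τ, gs d σ * Y σ τ := mul_le_mul_of_nonneg_left h1 hc0
    _ = ∑ d ∈ Δ, c * ∑ σ, ∑ τ, gs d σ * Y σ τ := Finset.mul_sum _ _ _
    _ ≤ ∑ d ∈ Δ, B * ∑ σ, (if Gd d σ then go σ else 0) := Finset.sum_le_sum hB
    _ = B * ∑ d ∈ Δ, ∑ σ, (if Gd d σ then go σ else 0) := (Finset.mul_sum _ _ _).symm
    _ ≤ _ := mul_le_mul_of_nonneg_left h2 hB0

end ind

end Crest.Agent.R143.Rel6x126
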