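import Crest.Agent.R143.Asm4_414
import Crest.Agent.R143.PW_978

/-!
# Row 143 (S0194), block H: the weight of the ring as one functional (helper445)

* `cap B G` : `G` cut to the box `B`, at most `1`, `0` at infinite configurations;
  `cap_local`, `cap_fm`, `cap_le_one`, `cap_eq`
* `lint_cap`, `Mg_eq` : means of local functionals in the box
* `WD` : data of the weight: inner net `gi` (local on `Ui`), outer net `go` (local on `Uo`), arms `F`,
  environment `e`; `wt` = the weight `g = cap B (gi * go * F * e)`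
* `WD.mass_le` : `E gi * E go ≤ 2 K * E g` from `E gi * E go ≤ K * E[gi go F]` and `P(e ≠ 1)` small
* `WD.trans`, `WD.trans_in`, `WD.trans_out` : transfer `E[gi X] ≤ C E gi ⟹ E[g X] ≤ 2 K C E g`, with
  measurable majorants (`Maj`, `MajQ`)
-/

set_option autoImplicit false

noncomputable section

open scoped Classical

namespace Crest.Agent.R143.WgtHx445

open MeasureTheory Set Filter Topology
open Crest.ProbabilityR.Voronoi
open Crest.Agent.R143.PP0x831 Crest.Agent.R143.Poisx304 Crest.Agent.R143.Janx304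
open Crest.Agent.R143.IndLocx279 Crest.Agent.R143.PWx978
open Crest.Agent.R143.Dblx609 Crest.Agent.R143.Dbl2x609 Crest.Agent.R143.HGluex136 Crest.Agent.R143.Asm3x414
  Crest.Agent.R143.Asm4x414 Crest.Agent.R143.JColx54
open scoped ENNReal

variable {ε : ℝ} {B U U' : Set ℂ} {G F : Cf → ℝ≥0∞}

/-! ### cut functionals -/

/-- `G` cut to the box `B`, at most `1`, `0` at infinite configurations -/
def cap (B : Set ℂ) (G : Cf → ℝ≥0∞) (X : Cf) : ℝ≥0∞ :=
  if (X ∩ ovr B).Finite then min 1 (G (X ∩ ovr B)) else 0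

theorem cap_le_one (X : Cf) : cap B G X ≤ 1 := by
  unfold cap
  split_ifs
  · exact min_le_left _ _
  · exact zero_le

theorem cap_le (hG : LocalOn B G) (X : Cf) : cap B G X ≤ G X := by
  unfold cap
  split_ifs
  · rw [hG X]; exact min_le_right _ _
  · exact zero_le

theorem cap_local : LocalOn B (cap B G) := by
  refine localOn_of fun S T h => ?_
  unfold cap
  rw [h]

theorem cap_fm (hB : MeasurableSet B) (hG : FM G) : FM (cap B G) := by
  intro n
  have h1 : (fun z : Fin n → ℂ × Bool => cap B G (range z)) =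
      fun z => min 1 (G (range z ∩ ovr B)) := by
    funext z
    unfold cap
    rw [if_pos ((finite_range z).subset inter_subset_left)]
  rw [h1]
  exact measurable_const.min (fm_inter (F := G) hG hB n)

theorem cap_eq (hG : LocalOn B G) {X : Cf} (hX : (X ∩ ovr B).Finite) (h1 : G X ≤ 1) :
    cap B G X = G X := by
  unfold cap
  rw [if_pos hX, ← show G X = G (X ∩ ovr B) from hG X, min_eq_right h1]

theorem cap_ne {X : Cf} (h : cap B G X ≠ 0) : (X ∩ ovr B).Finite ∧ G (X ∩ ovr B) ≠ 0 := by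
  unfold cap at h
  split_ifs at h with h1
  · exact ⟨h1, fun h2 => h (by rw [h2, min_eq_right zero_le])⟩
  · exact absurd rfl h

/-- the value at a painted configuration -/
theorem cap_paint {A β : Finset ℂ} (hA : (A : Set ℂ) ⊆ B) :
    cap B G (paint A β) = min 1 (G (paint A β)) := by
  have h : paint A β ∩ ovr B = paint A β := by
    refine inter_eq_left.2 fun p hp => hA hp.1
  unfold cap
  rw [h, if_pos (paint_fin A β)]

/-- the mean of a functional which is local on the box -/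
theorem Mg_eq (hG : LocalOn B G) : Mg ε B G = ∫⁻ ω, G (cfg ε ω) ∂sampleLaw := by
  unfold Mg
  refine lintegral_congr fun ω => ?_
  rw [hG (cfg ε ω)]
  rfl

/-- the mean of a product of functionals which are local on disjoint sets -/
theorem Mg_mul (hε : 0 < ε) (hb : Bornology.IsBounded B)
    (hU : MeasurableSet U) (hU' : MeasurableSet U') (h1 : U ⊆ B) (h2 : U' ⊆ B)
    (hd : Disjoint U U') (hF : LocalOn U F) (hG : LocalOn U' G) (mF : FM F) (mG : FM G) :
    Mg ε B (fun X => F X * G X) = (∫⁻ ω, F (cfg ε ω) ∂sampleLaw) * ∫⁻ ω, G (cfg ε ω) ∂sampleLaw := by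
  rw [Mg_eq (LocalOn.mul (LocalOn.mono h1 hF) (LocalOn.mono h2 hG))]
  exact lint_mul hε hU (hb.subset h1) hU' (hb.subset h2) hd hF hG mF mG

/-- mean of a functional of the whole configuration -/
abbrev Ex (ε : ℝ) (G : Cf → ℝ≥0∞) : ℝ≥0∞ := ∫⁻ ω, G (cfg ε ω) ∂sampleLaw

/-! ### the weight -/

/-- data of the weight: box `B`; inner net `gi`, local on `Ui`; outer net `go`, local on `Uo`; arms
`F`; environment `e`; the arms cost the factor `K`; the bad environments are rare -/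
structure WD (ε : ℝ) (B Ui Uo : Set ℂ) (gi go F e : Cf → ℝ≥0∞) (K : ℝ≥0∞) : Prop where
  eps : 0 < ε
  Bm : MeasurableSet B
  Bb : Bornology.IsBounded B
  im : MeasurableSet Ui
  om : MeasurableSet Uo
  iB : Ui ⊆ B
  oB : Uo ⊆ B
  io : Disjoint Ui Uo
  il : LocalOn Ui gi
  ol : LocalOn Uo go
  Fl : LocalOn B F
  el : LocalOn B e
  ifm : FM gi
  ofm : FM go
  Ffm : FM F
  efm : FM e
  i1 : ∀ X : Cf, X.Finite → gi X ≤ 1
  o1 : ∀ X : Cf, X.Finite → go X ≤ 1
  F1 : ∀ X : Cf, X.Finite → F X ≤ 1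
  e1 : ∀ X : Cf, X.Finite → e X ≤ 1
  K1 : K ≠ ∞
  arm : Ex ε gi * Ex ε go ≤ K * Ex ε fun X => gi X * go X * F X
  bad : 2 * K * (Ex ε fun X => 1 - e X) ≤ Ex ε gi * Ex ε go

/-- the weight -/
def wt (B : Set ℂ) (gi go F e : Cf → ℝ≥0∞) : Cf → ℝ≥0∞ :=
  cap B fun X => gi X * go X * F X * e X

namespace WD

variable {Ui Uo : Set ℂ} {gi go F e : Cf → ℝ≥0∞} {K : ℝ≥0∞}

theorem w_le_one (X : Cf) : wt B gi go F e X ≤ 1 := cap_le_one X

theorem w_local : LocalOn B (wt B gi go F e) := cap_local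

theorem fin (H : WD ε B Ui Uo gi go F e K) (ω : Sample) : (cfg ε ω ∩ ovr B).Finite :=
  cfg_finite H.eps H.Bb ω

theorem gil (H : WD ε B Ui Uo gi go F e K) : LocalOn B gi := LocalOn.mono H.iB H.il

theorem gol (H : WD ε B Ui Uo gi go F e K) : LocalOn B go := LocalOn.mono H.oB H.ol

theorem prodl (H : WD ε B Ui Uo gi go F e K) : LocalOn B fun X => gi X * go X * F X * e X :=
  LocalOn.mul (LocalOn.mul (LocalOn.mul H.gil H.gol) H.Fl) H.el

theorem w_fm (H : WD ε B Ui Uo gi go F e K) : FM (wt B gi go F e) :=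
  cap_fm H.Bm (fm_mul (fm_mul (fm_mul H.ifm H.ofm) H.Ffm) H.efm)

theorem p3 (H : WD ε B Ui Uo gi go F e K) {X : Cf} (hX : X.Finite) :
    gi X * go X * F X ≤ 1 := by
  calc gi X * go X * F X ≤ 1 * 1 * 1 := by
        gcongr
        · exact H.i1 X hX
        · exact H.o1 X hX
        · exact H.F1 X hX
    _ = 1 := by norm_num

theorem p4 (H : WD ε B Ui Uo gi go F e K) {X : Cf} (hX : X.Finite) :
    gi X * go X * F X * e X ≤ 1 := by
  calc gi X * go X * F X * e X ≤ 1 * 1 := by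
        gcongr
        · exact H.p3 hX
        · exact H.e1 X hX
    _ = 1 := by norm_num

/-- the weight at a finite configuration in the box -/
theorem w_eq (H : WD ε B Ui Uo gi go F e K) {X : Cf} (hX : (X ∩ ovr B).Finite) :
    wt B gi go F e X = gi X * go X * F X * e X := by
  refine cap_eq H.prodl hX ?_
  have e1 : gi X * go X * F X * e X = _ := H.prodl X
  rw [e1]
  exact H.p4 hX

theorem w_cfg (H : WD ε B Ui Uo gi go F e K) (ω : Sample) :
    wt B gi go F e (cfg ε ω) = gi (cfg ε ω) * go (cfg ε ω) * F (cfg ε ω) * e (cfg ε ω) :=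
  H.w_eq (H.fin ω)

theorem w_paint (H : WD ε B Ui Uo gi go F e K) {A β : Finset ℂ} :
    wt B gi go F e (paint A β) = gi (paint A β) * go (paint A β) * F (paint A β) * e (paint A β) :=
  H.w_eq ((paint_fin A β).subset inter_subset_left)

/-- `g ≤ gi * go` at finite configurations -/
theorem w_le (H : WD ε B Ui Uo gi go F e K) {X : Cf} (hX : X.Finite) :
    wt B gi go F e X ≤ gi X * go X := by
  rw [H.w_eq (hX.subset inter_subset_left)]
  calc gi X * go X * F X * e X ≤ gi X * go X * 1 * 1 := by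
        gcongr
        · exact H.F1 X hX
        · exact H.e1 X hX
    _ = _ := by rw [mul_one, mul_one]

/-- where `g ≠ 0` all factors are non zero -/
theorem w_ne (H : WD ε B Ui Uo gi go F e K) {X : Cf} (hX : (X ∩ ovr B).Finite)
    (h : wt B gi go F e X ≠ 0) : gi X ≠ 0 ∧ go X ≠ 0 ∧ F X ≠ 0 ∧ e X ≠ 0 := by
  rw [H.w_eq hX] at h
  refine ⟨?_, ?_, ?_, ?_⟩ <;> intro h0 <;> exact h (by simp [h0])

theorem Mg_w (_H : WD ε B Ui Uo gi go F e K) :
    Mg ε B (wt B gi go F e) = Ex ε (wt B gi go F e) := Mg_eq cap_local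

theorem meas (H : WD ε B Ui Uo gi go F e K) {G : Cf → ℝ≥0∞} (hl : LocalOn B G) (hm : FM G) :
    Measurable fun ω => G (cfg ε ω) :=
  meas_fun H.eps H.Bm H.Bb hl hm

/-- **LOWER BOUND**: `E gi * E go ≤ 2 K * E g` -/
theorem mass_le (H : WD ε B Ui Uo gi go F e K) :
    Ex ε gi * Ex ε go ≤ 2 * K * Mg ε B (wt B gi go F e) := by
  rw [H.Mg_w]
  have h1 : (Ex ε fun X => gi X * go X * F X) ≤
      Ex ε (wt B gi go F e) + Ex ε fun X => 1 - e X := by
    have hm : Measurable fun ω => wt B gi go F e (cfg ε ω) := H.meas cap_local H.w_fm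
    rw [Ex, Ex, Ex, ← lintegral_add_left hm]
    refine lintegral_mono fun ω => ?_
    change gi (cfg ε ω) * go (cfg ε ω) * F (cfg ε ω) ≤ wt B gi go F e (cfg ε ω) + (1 - e (cfg ε ω))
    rw [H.w_cfg ω]
    have hl3 : LocalOn B fun X => gi X * go X * F X := LocalOn.mul (LocalOn.mul H.gil H.gol) H.Fl
    have h3 : gi (cfg ε ω) * go (cfg ε ω) * F (cfg ε ω) ≤ 1 := by
      have := H.p3 (H.fin ω)
      have e3 : gi (cfg ε ω) * go (cfg ε ω) * F (cfg ε ω) = _ := hl3 (cfg ε ω)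
      rw [e3]
      exact this
    have h4 : e (cfg ε ω) ≤ 1 := by
      rw [H.el (cfg ε ω)]
      exact H.e1 _ (H.fin ω)
    set x := gi (cfg ε ω) * go (cfg ε ω) * F (cfg ε ω) with hx
    calc x = x * (e (cfg ε ω) + (1 - e (cfg ε ω))) := by
          rw [add_tsub_cancel_of_le h4, mul_one]
      _ = x * e (cfg ε ω) + x * (1 - e (cfg ε ω)) := mul_add _ _ _
      _ ≤ x * e (cfg ε ω) + 1 * (1 - e (cfg ε ω)) := by gcongr
      _ = _ := by rw [one_mul]
  set Q := Ex ε gi * Ex ε go with hQ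
  set W := Ex ε (wt B gi go F e) with hW
  set b := Ex ε fun X => 1 - e X with hb
  have h2 : Q ≤ K * W + K * b := by
    calc Q ≤ K * Ex ε fun X => gi X * go X * F X := H.arm
      _ ≤ K * (W + b) := by gcongr
      _ = _ := mul_add _ _ _
  have h3 : 2 * K * b ≤ Q := H.bad
  have hQt : Q ≠ ∞ := by
    have hi : Ex ε gi ≤ 1 := by
      calc Ex ε gi ≤ ∫⁻ _, 1 ∂sampleLaw := lintegral_mono fun ω => by
            change gi (cfg ε ω) ≤ 1
            rw [H.gil (cfg ε ω)]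
            exact H.i1 _ (H.fin ω)
        _ = 1 := by
            have : IsProbabilityMeasure sampleLaw := by unfold sampleLaw; infer_instance
            simp
    have ho : Ex ε go ≤ 1 := by
      calc Ex ε go ≤ ∫⁻ _, 1 ∂sampleLaw := lintegral_mono fun ω => by
            change go (cfg ε ω) ≤ 1
            rw [H.gol (cfg ε ω)]
            exact H.o1 _ (H.fin ω)
        _ = 1 := by
            have : IsProbabilityMeasure sampleLaw := by unfold sampleLaw; infer_instance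
            simp
    exact ne_top_of_le_ne_top ENNReal.one_ne_top ((mul_le_mul' hi ho).trans (by norm_num))
  have h4 : 2 * Q ≤ 2 * K * W + Q := by
    calc 2 * Q ≤ 2 * (K * W + K * b) := by gcongr
      _ = 2 * K * W + 2 * K * b := by ring
      _ ≤ _ := by gcongr
  have h5 : Q + Q ≤ 2 * K * W + Q := by rwa [two_mul] at h4
  exact (ENNReal.add_le_add_iff_right hQt).1 h5

/-- the weight has positive mean -/
theorem pos (H : WD ε B Ui Uo gi go F e K) (h0 : Ex ε gi ≠ 0) (h0' : Ex ε go ≠ 0) :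
    Mg ε B (wt B gi go F e) ≠ 0 := by
  intro h
  have := H.mass_le
  rw [h, mul_zero] at this
  rcases mul_eq_zero.1 (le_zero_iff.1 this) with h1 | h1
  · exact h0 h1
  · exact h0' h1

/-- explicit lower bound -/
theorem low (H : WD ε B Ui Uo gi go F e K) {ci co c : ℝ} (hci : 0 ≤ ci)
    (hi : ENNReal.ofReal ci ≤ Ex ε gi) (ho : ENNReal.ofReal co ≤ Ex ε go)
    (hc : 2 * K * ENNReal.ofReal c ≤ ENNReal.ofReal (ci * co)) (hK : K ≠ 0) :
    ENNReal.ofReal c ≤ Mg ε B (wt B gi go F e) := by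
  have h1 : 2 * K * ENNReal.ofReal c ≤ 2 * K * Mg ε B (wt B gi go F e) := by
    refine hc.trans ?_
    rw [ENNReal.ofReal_mul hci]
    exact (mul_le_mul' hi ho).trans H.mass_le
  have h2 : 2 * K ≠ 0 := mul_ne_zero two_ne_zero hK
  have h3 : 2 * K ≠ ∞ := ENNReal.mul_ne_top ENNReal.ofNat_ne_top H.K1
  exact (ENNReal.mul_le_mul_iff_right h2 h3).1 h1

/-! ### transfer -/

/-- a measurable functional which dominates `g * X` gives a majorant -/
theorem maj_of (H : WD ε B Ui Uo gi go F e K) {X T : Cf → ℝ≥0∞} (hT : FM T)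
    (h : ∀ Z : Cf, Z.Finite → wt B gi go F e Z ≠ 0 → wt B gi go F e Z * X Z ≤ T Z) :
    Maj ε B (wt B gi go F e) X (mq ε B T) := by
  refine ⟨mq_meas H.eps H.Bm H.Bb hT, Eventually.of_forall fun ω => mq_mono fun β _ => ?_⟩
  by_cases h0 : wt B gi go F e (paint (Ap ε B ω) β) = 0
  · rw [h0, zero_mul]; exact zero_le
  · exact h _ (paint_fin _ β) h0

/-- the same for functions of (sites, black sites) -/
theorem majQ_of (H : WD ε B Ui Uo gi go F e K) {Ψ : Finset ℂ → Finset ℂ → ℝ≥0∞} {T : Cf → ℝ≥0∞}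
    (hT : FM T) (h : ∀ A β : Finset ℂ, β ⊆ A → wt B gi go F e (paint A β) ≠ 0 →
      wt B gi go F e (paint A β) * Ψ A β ≤ T (paint A β)) :
    MajQ ε B (wt B gi go F e) Ψ (mq ε B T) := by
  refine ⟨mq_meas H.eps H.Bm H.Bb hT, Eventually.of_forall fun ω => ?_⟩
  unfold mq
  rw [pow_inv_mul]
  refine Finset.sum_le_sum fun β hβ => ?_
  by_cases h0 : wt B gi go F e (paint (Ap ε B ω) β) = 0
  · rw [h0, zero_mul]; exact zero_le
  · exact h _ β (Finset.mem_powerset.1 hβ) h0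

/-- the integral of a majorant -/
theorem lint_T (H : WD ε B Ui Uo gi go F e K) {T : Cf → ℝ≥0∞} (hT : FM T) :
    ∫⁻ ω, mq ε B T ω ∂sampleLaw = Mg ε B T := lint_eq_mq H.eps H.Bm H.Bb hT

/-- the integral of a product majorant -/
theorem lint_PQ (H : WD ε B Ui Uo gi go F e K) {U U' : Set ℂ} (hU : MeasurableSet U)
    (hU' : MeasurableSet U') (h1 : U ⊆ B) (h2 : U' ⊆ B) (hd : Disjoint U U') {P Q : Cf → ℝ≥0∞}
    (hP : LocalOn U P) (hQ : LocalOn U' Q) (mP : FM P) (mQ : FM Q) {C1 C2 : ℝ≥0∞}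
    (bP : Ex ε P ≤ C1 * Ex ε gi) (bQ : Ex ε Q ≤ C2 * Ex ε go) :
    ∫⁻ ω, mq ε B (fun X => P X * Q X) ω ∂sampleLaw ≤
      C1 * C2 * (2 * K) * Mg ε B (wt B gi go F e) := by
  rw [H.lint_T (T := fun X => P X * Q X) (fm_mul mP mQ), Mg_mul H.eps H.Bb hU hU' h1 h2 hd hP hQ mP mQ]
  calc Ex ε P * Ex ε Q ≤ (C1 * Ex ε gi) * (C2 * Ex ε go) := by gcongr
    _ = C1 * C2 * (Ex ε gi * Ex ε go) := by ring
    _ ≤ C1 * C2 * (2 * K * Mg ε B (wt B gi go F e)) := mul_le_mul_right H.mass_le _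
    _ = _ := by ring

/-- **TRANSFER**: `g X ≤ P Q`, `P`, `Q` local on disjoint sets, `E P ≤ C1 E gi`, `E Q ≤ C2 E go` -/
theorem trans (H : WD ε B Ui Uo gi go F e K) {U U' : Set ℂ} (hU : MeasurableSet U)
    (hU' : MeasurableSet U') (h1 : U ⊆ B) (h2 : U' ⊆ B) (hd : Disjoint U U') {P Q X : Cf → ℝ≥0∞}
    (hP : LocalOn U P) (hQ : LocalOn U' Q) (mP : FM P) (mQ : FM Q) {C1 C2 : ℝ≥0∞}
    (bP : Ex ε P ≤ C1 * Ex ε gi) (bQ : Ex ε Q ≤ C2 * Ex ε go)
    (h : ∀ Z : Cf, Z.Finite → wt B gi go F e Z ≠ 0 → wt B gi go F e Z * X Z ≤ P Z * Q Z) :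
    Maj ε B (wt B gi go F e) X (mq ε B fun Z => P Z * Q Z) ∧
      ∫⁻ ω, mq ε B (fun Z => P Z * Q Z) ω ∂sampleLaw ≤
        C1 * C2 * (2 * K) * Mg ε B (wt B gi go F e) :=
  ⟨H.maj_of (fm_mul mP mQ) h, H.lint_PQ hU hU' h1 h2 hd hP hQ mP mQ bP bQ⟩

/-- **TRANSFER**, functions of (sites, black sites) -/
theorem transQ (H : WD ε B Ui Uo gi go F e K) {U U' : Set ℂ} (hU : MeasurableSet U)
    (hU' : MeasurableSet U') (h1 : U ⊆ B) (h2 : U' ⊆ B) (hd : Disjoint U U') {P Q : Cf → ℝ≥0∞}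
    {Ψ : Finset ℂ → Finset ℂ → ℝ≥0∞}
    (hP : LocalOn U P) (hQ : LocalOn U' Q) (mP : FM P) (mQ : FM Q) {C1 C2 : ℝ≥0∞}
    (bP : Ex ε P ≤ C1 * Ex ε gi) (bQ : Ex ε Q ≤ C2 * Ex ε go)
    (h : ∀ A β : Finset ℂ, β ⊆ A → wt B gi go F e (paint A β) ≠ 0 →
      wt B gi go F e (paint A β) * Ψ A β ≤ P (paint A β) * Q (paint A β)) :
    MajQ ε B (wt B gi go F e) Ψ (mq ε B fun Z => P Z * Q Z) ∧
      ∫⁻ ω, mq ε B (fun Z => P Z * Q Z) ω ∂sampleLaw ≤
        C1 * C2 * (2 * K) * Mg ε B (wt B gi go F e) :=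
  ⟨H.majQ_of (fm_mul mP mQ) h, H.lint_PQ hU hU' h1 h2 hd hP hQ mP mQ bP bQ⟩

/-- **inner functionals**: `E[gi X] ≤ C E gi` ⟹ `E[g X] ≤ 2 K C E g` -/
theorem trans_in (H : WD ε B Ui Uo gi go F e K) {X : Cf → ℝ≥0∞} (hX : LocalOn Ui X) (mX : FM X)
    {C : ℝ≥0∞} (b : Ex ε (fun Z => gi Z * X Z) ≤ C * Ex ε gi) :
    Maj ε B (wt B gi go F e) X (mq ε B fun Z => gi Z * X Z * go Z) ∧
      ∫⁻ ω, mq ε B (fun Z => gi Z * X Z * go Z) ω ∂sampleLaw ≤
        C * (2 * K) * Mg ε B (wt B gi go F e) := by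
  have h := H.trans (P := fun Z => gi Z * X Z) (Q := go) (X := X) (C1 := C) (C2 := 1) H.im H.om
    H.iB H.oB H.io (LocalOn.mul H.il hX) H.ol (fm_mul H.ifm mX) H.ofm b (one_mul _).ge ?_
  · simpa only [mul_one] using h
  · intro Z hZ _
    calc wt B gi go F e Z * X Z ≤ gi Z * go Z * X Z := by
          gcongr
          exact H.w_le hZ
      _ = gi Z * X Z * go Z := by ring

/-- **inner functions of (sites, black sites)** which are dominated by an inner functional -/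
theorem transQ_in (H : WD ε B Ui Uo gi go F e K) {X : Cf → ℝ≥0∞} (hX : LocalOn Ui X) (mX : FM X)
    {C : ℝ≥0∞} (b : Ex ε (fun Z => gi Z * X Z) ≤ C * Ex ε gi) {Ψ : Finset ℂ → Finset ℂ → ℝ≥0∞}
    (h : ∀ A β : Finset ℂ, β ⊆ A → wt B gi go F e (paint A β) ≠ 0 → Ψ A β ≤ X (paint A β)) :
    MajQ ε B (wt B gi go F e) Ψ (mq ε B fun Z => gi Z * X Z * go Z) ∧
      ∫⁻ ω, mq ε B (fun Z => gi Z * X Z * go Z) ω ∂sampleLaw ≤
        C * (2 * K) * Mg ε B (wt B gi go F e) := by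
  refine ⟨H.majQ_of (fm_mul (fm_mul H.ifm mX) H.ofm) fun A β hβ h0 => ?_, (H.trans_in hX mX b).2⟩
  calc wt B gi go F e (paint A β) * Ψ A β ≤
        gi (paint A β) * go (paint A β) * X (paint A β) := by
        gcongr
        · exact H.w_le (paint_fin A β)
        · exact h A β hβ h0
    _ = _ := by ring

/-- **outer functionals** -/
theorem trans_out (H : WD ε B Ui Uo gi go F e K) {X : Cf → ℝ≥0∞} (hX : LocalOn Uo X) (mX : FM X)
    {C : ℝ≥0∞} (b : Ex ε (fun Z => go Z * X Z) ≤ C * Ex ε go) :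
    Maj ε B (wt B gi go F e) X (mq ε B fun Z => gi Z * (go Z * X Z)) ∧
      ∫⁻ ω, mq ε B (fun Z => gi Z * (go Z * X Z)) ω ∂sampleLaw ≤
        C * (2 * K) * Mg ε B (wt B gi go F e) := by
  have h := H.trans (P := gi) (Q := fun Z => go Z * X Z) (X := X) (C1 := 1) (C2 := C) H.im H.om
    H.iB H.oB H.io H.il (LocalOn.mul H.ol hX) H.ifm (fm_mul H.ofm mX) (one_mul _).ge b ?_
  · simpa only [one_mul] using h
  · intro Z hZ _
    calc wt B gi go F e Z * X Z ≤ gi Z * go Z * X Z := by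
          gcongr
          exact H.w_le hZ
      _ = gi Z * (go Z * X Z) := by ring

/-- **functionals independent of the weight**: `X` local on `U`, disjoint from a set `V` on which
the factor `G ≥ g` is local, `E G ≤ C E gi E go` -/
theorem trans_off (H : WD ε B Ui Uo gi go F e K) {U V : Set ℂ} (hU : MeasurableSet U)
    (hV : MeasurableSet V) (h1 : U ⊆ B) (h2 : V ⊆ B) (hd : Disjoint U V) {X G : Cf → ℝ≥0∞}
    (hX : LocalOn U X) (hG : LocalOn V G) (mX : FM X) (mG : FM G) {C : ℝ≥0∞}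
    (bG : Ex ε G ≤ C * (Ex ε gi * Ex ε go))
    (h : ∀ Z : Cf, Z.Finite → wt B gi go F e Z ≤ G Z) :
    Maj ε B (wt B gi go F e) X (mq ε B fun Z => X Z * G Z) ∧
      ∫⁻ ω, mq ε B (fun Z => X Z * G Z) ω ∂sampleLaw ≤
        Ex ε X * C * (2 * K) * Mg ε B (wt B gi go F e) := by
  refine ⟨H.maj_of (fm_mul mX mG) fun Z hZ _ => ?_, ?_⟩
  · rw [mul_comm]
    gcongr
    exact h Z hZ
  · rw [H.lint_T (T := fun Z => X Z * G Z) (fm_mul mX mG), Mg_mul H.eps H.Bb hU hV h1 h2 hd hX hG mX mG]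
    calc Ex ε X * Ex ε G ≤ Ex ε X * (C * (2 * K * Mg ε B (wt B gi go F e))) := by
          gcongr
          exact bG.trans (mul_le_mul_right H.mass_le _)
      _ = _ := by ring

end WD

/-! ### quantifiers -/

/-- the environment is good with high probability: the field `bad` -/
theorem bad_ev {gi go e : ℝ → Cf → ℝ≥0∞} {K : ℝ≥0∞} (hK : K ≠ ∞) {ci co : ℝ} (hci : 0 < ci)
    (hco : 0 < co) (hi : ∀ᶠ ε : ℝ in 𝓝[>] 0, ENNReal.ofReal ci ≤ Ex ε (gi ε))
    (ho : ∀ᶠ ε : ℝ in 𝓝[>] 0, ENNReal.ofReal co ≤ Ex ε (go ε))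
    (he : Tendsto (fun ε => Ex ε fun X => 1 - e ε X) (𝓝[>] 0) (𝓝 0)) :
    ∀ᶠ ε : ℝ in 𝓝[>] 0, 2 * K * (Ex ε fun X => 1 - e ε X) ≤ Ex ε (gi ε) * Ex ε (go ε) := by
  have h1 : Tendsto (fun ε => 2 * K * Ex ε fun X => 1 - e ε X) (𝓝[>] 0) (𝓝 0) := by
    have := ENNReal.Tendsto.const_mul (a := 2 * K) he (Or.inr (ENNReal.mul_ne_top
      ENNReal.ofNat_ne_top hK))
    rwa [mul_zero] at this
  have h2 : (0 : ℝ≥0∞) < ENNReal.ofReal ci * ENNReal.ofReal co :=
    ENNReal.mul_pos (ENNReal.ofReal_pos.2 hci).ne' (ENNReal.ofReal_pos.2 hco).ne'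
  filter_upwards [hi, ho, h1.eventually (ge_mem_nhds h2)] with ε a b c
  exact c.trans (mul_le_mul' a b)

end Crest.Agent.R143.WgtHx445
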