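import Crest.Agent.R143.BriA_126
import Crest.Agent.R143.WgtH_445
import Crest.Agent.R143.TileR_176

/-!
# Row 143 (S0194), block H, box [E2] (helper126): partial tiles in majorant form

* `inn_of_local` : a functional which is local off the hull sites sees the inner colours only
* `WinM` : region `D` of centres, `W` its neighbourhood, weight `go` local off `W` with mean at most `A`;
  `WinM.lint` : `∫ mean of go * Hd D ≤ A * C s²`
* `quench` : the inequality for pairs of colourings of the cells in the form of `MajQ`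
* **`majE2`** : `MajQ` with a majorant of integral `≤ K * #L * A * C s²`
-/

set_option autoImplicit false
set_option linter.unusedSectionVars false

noncomputable section

open scoped Classical

namespace Crest.Agent.R143.RelMx126

open MeasureTheory Set Filter Topology
open Crest.ProbabilityR.Voronoi
open Crest.Agent.R143.PP0x831 Crest.Agent.R143.Poisx304 Crest.Agent.R143.Janx304
open Crest.Agent.R143.IndLocx279 Crest.Agent.R143.PWx978
open Crest.Agent.R143.Dblx609 Crest.Agent.R143.Dbl2x609 Crest.Agent.R143.HGluex136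
  Crest.Agent.R143.Asm3x414 Crest.Agent.R143.Asm4x414 Crest.Agent.R143.JColx54
  Crest.Agent.R143.WgtHx445 Crest.Agent.R143.TilePx176 Crest.Agent.R143.TileRx176
open Crest.Agent.R143.SumScx302 (sq)
open Crest.Agent.R143.B0x346 Crest.Agent.R143.Mass1x302 Crest.Agent.R143.DelGx806
  Crest.Agent.R143.FinCx811 Crest.Agent.R143.Engx490 Crest.Agent.R143.SmallAx304
  Crest.Agent.R143.Resax778 Crest.Agent.R143.BriAx126 Crest.Agent.R143.Frame1x395
  Crest.Agent.R143.Frame2x395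
open Crest.Agent.R143.Frame10x395
open Crest.Agent.R143.Frame5x395 (sd mem_sd th th_spec)
open Crest.Agent.R143.FinMx609 (cen3 rad3)
open scoped ENNReal

/-! ### inner colours -/

/-- a functional which is local off the hull sites sees the inner colours only -/
theorem inn_of_local {S : Finset ℂ} {U : Set ℂ} {R : Type*} {F : Set (ℂ × Bool) → R}
    (hF : ∀ X : Set (ℂ × Bool), F X = F (X ∩ ovr U)) (hU : ∀ v ∈ S, v ∈ U → ¬ OnHull S v) :
    Inn S F := by
  intro b c hb hc h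
  rw [hF (paint S b), hF (paint S c)]
  congr 1
  ext ⟨v, x⟩
  constructor
  · rintro ⟨⟨h1, h2⟩, h3⟩
    exact ⟨⟨h1, h2.trans (h v h1 (hU v h1 h3))⟩, h3⟩
  · rintro ⟨⟨h1, h2⟩, h3⟩
    exact ⟨⟨h1, h2.trans (h v h1 (hU v h1 h3)).symm⟩, h3⟩

/-! ### windows of a general weight -/

/-- region `D` of centres, `W` its neighbourhood, weight `go` local off `W`, mean at most `A` -/
structure WinM (ε : ℝ) (B : Set ℂ) (s d : ℝ) (A : ℝ≥0∞) (z : ℂ) (D W U : Set ℂ)
    (go : Cf → ℝ≥0∞) : Prop where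
  Dm : MeasurableSet D
  Wm : MeasurableSet W
  WB : W ⊆ B
  Ws : W ⊆ sq z s
  DW : ∀ o ∈ D, Metric.closedBall o d ⊆ W
  Um : MeasurableSet U
  UB : U ⊆ B
  dis : Disjoint U W
  loc : LocalOn U go
  fm : Poisx304.FM go
  mass : Ex ε go ≤ A

variable {ε s d : ℝ} {B D W U : Set ℂ} {A : ℝ≥0∞} {z : ℂ} {go : Cf → ℝ≥0∞}

theorem WinM.fmH (H : WinM ε B s d A z D W U go) : Poisx304.FM fun X => go X * Hd D d X :=
  fun n => (H.fm n).mul (Hd_meas H.Dm d n)

/-- the energy of the window -/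
theorem WinM.lint (H : WinM ε B s d A z D W U go) (hε : 0 < ε)
    (hBm : MeasurableSet B) (hBb : Bornology.IsBounded B) {E : ℝ≥0∞}
    (hE : ∫⁻ ω, Hd D d (cfg ε ω) ∂sampleLaw ≤ E) :
    ∫⁻ ω, mq ε B (fun X => go X * Hd D d X) ω ∂sampleLaw ≤ A * E := by
  rw [lint_eq_mq hε hBm hBb H.fmH]
  have h1 := Mg_mul (ε := ε) (B := B) hε hBb H.Um H.Wm H.UB H.WB H.dis H.loc (Hd_local H.DW)
    H.fm (Hd_meas H.Dm d)
  change Mg ε B (fun X => go X * Hd D d X) ≤ A * E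
  rw [h1]
  exact mul_le_mul' H.mass hE

/-- **PARTIAL TILES, majorant form** -/
theorem majE2 : ∃ C : ℝ≥0∞, C ≠ ∞ ∧ ∀ {ε s d : ℝ} {B : Set ℂ}, 0 < ε → ε ≤ s → MeasurableSet B →
    Bornology.IsBounded B → ∀ {Λ : Type} (L : Finset Λ) (z : Λ → ℂ) (D W U : Λ → Set ℂ)
      (go : Λ → Cf → ℝ≥0∞) (A : ℝ≥0∞),
    (∀ l ∈ L, WinM ε B s d A (z l) (D l) (W l) (U l) (go l)) →
    ∀ (g : Set (ℂ × Bool) → ℝ≥0∞) (Ψ : Finset ℂ → Finset ℂ → ℝ≥0∞) (K : ℝ≥0∞),
    (∀ᵐ ω ∂sampleLaw, ∑ β ∈ (Ap ε B ω).powerset, g (paint (Ap ε B ω) β) * Ψ (Ap ε B ω) β ≤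
      K * ∑ β ∈ (Ap ε B ω).powerset, ∑ l ∈ L,
        go l (paint (Ap ε B ω) β) * Hd (D l) d (paint (Ap ε B ω) β)) →
    ∃ R : Sample → ℝ≥0∞, MajQ ε B g Ψ R ∧
      ∫⁻ ω, R ω ∂sampleLaw ≤ K * (L.card * (A * (C * ENNReal.ofReal (s ^ 2)))) := by
  obtain ⟨C, hC, hm⟩ := Hd_mean
  refine ⟨C, hC, ?_⟩
  intro ε s d B hε hs hBm hBb Λ L z D W U go A H g Ψ K hq
  have hme : ∀ l ∈ L, AEMeasurable (mq ε B fun X => go l X * Hd (D l) d X) sampleLaw :=
    fun l hl => mq_meas hε hBm hBb (H l hl).fmH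
  have hsum : AEMeasurable (fun ω => ∑ l ∈ L, mq ε B (fun X => go l X * Hd (D l) d X) ω)
      sampleLaw := Finset.aemeasurable_fun_sum L hme
  refine ⟨fun ω => K * ∑ l ∈ L, mq ε B (fun X => go l X * Hd (D l) d X) ω,
    ⟨hsum.const_mul K, ?_⟩, ?_⟩
  · filter_upwards [hq] with ω h1
    refine h1.trans (le_of_eq ?_)
    have e1 : ∑ β ∈ (Ap ε B ω).powerset, ∑ l ∈ L,
        go l (paint (Ap ε B ω) β) * Hd (D l) d (paint (Ap ε B ω) β) =
        (2 : ℝ≥0∞) ^ (Ap ε B ω).card * ∑ l ∈ L, mq ε B (fun X => go l X * Hd (D l) d X) ω := by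
      rw [Finset.sum_comm, Finset.mul_sum]
      refine Finset.sum_congr rfl fun l _ => ?_
      unfold mq
      rw [pow_inv_mul]
    rw [e1, mul_left_comm]
  · rw [lintegral_const_mul'' _ hsum, lintegral_finsetSum' L hme]
    gcongr
    refine (Finset.sum_le_sum fun l hl => (H l hl).lint hε hBm hBb
      (hm ε s hε hs (z l) (D l) d fun o ho => ((H l hl).DW o ho).trans (H l hl).Ws)).trans
      (le_of_eq ?_)
    rw [Finset.sum_const, nsmul_eq_mul]

/-! ### the quenched inequality -/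

/-- **one window** : the inequality for pairs of colourings of the cells in terms of the black sites -/
theorem quench {S : Finset ℂ} {hS : GP (S : Set ℂ)} {h3 : 3 ≤ S.card}
    {g go : Set (ℂ × Bool) → ℝ≥0∞} (hg : Inn S g) (hgo : Inn S go)
    (hgt : ∀ b, b ⊆ S → g (paint S b) ≠ ∞) (hgot : ∀ b, b ⊆ S → go (paint S b) ≠ ∞)
    {O : (Cs hS → ZMod 2) → Finset (Cs hS)} {R : Finset ℂ → Finset ℂ}
    (hR : ∀ b, b ⊆ S → g (paint S b) ≠ 0 → R b = img hS h3 (O (chiS hS h3 b)))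
    {H : (Cs hS → ZMod 2) → ℝ} (hH : ∀ μ, 0 ≤ H μ) {K : ℝ} (hK : 0 ≤ K) {φ : D0 S → ℂ}
    {D : Set ℂ} {d : ℝ} (hφ : ∀ g : D0 S, ‖φ g‖ ≤ ‖Nn (g.1.2, th S g.1, g.1.1)‖)
    (hs : ∀ g : D0 S, φ g ≠ 0 → cen3 (fc S g) ∈ D ∧ rad3 (fc S g) ≤ d)
    (h : ∑ σ, ∑ τ, (g (paint S (bk hS h3 σ))).toReal * H (mix O σ τ) ≤
      (2 : ℝ) ^ Fintype.card (Cs hS) * (K * (∑ k, ‖φ k‖ ^ 2) *
        ∑ σ, (go (paint S (bk hS h3 σ))).toReal)) :
    ∑ b ∈ S.powerset, g (paint S b) *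
        av S (R b) (fun b => ENNReal.ofReal (H (chiS hS h3 b))) b ≤
      (9 * ENNReal.ofReal K) * ∑ b ∈ S.powerset, go (paint S b) * Hd D d (paint S b) := by
  have h1 := bri_av (hS := hS) (h3 := h3) (γ := fun b => g (paint S b))
    (γo := fun b => go (paint S b)) hg hgo hgt hgot hR hH
    (K := K * ∑ k, ‖φ k‖ ^ 2) (mul_nonneg hK (Finset.sum_nonneg fun _ _ => by positivity)) h
  refine h1.trans ?_
  rw [ENNReal.ofReal_mul hK, Finset.mul_sum, Finset.mul_sum]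
  refine Finset.sum_le_sum fun b _ => ?_
  have h2 := energy (S := S) (A := D) (d := d) (X := paint S b) (ps_paint S b) hφ hs
  calc ENNReal.ofReal K * ENNReal.ofReal (∑ k, ‖φ k‖ ^ 2) * go (paint S b)
      ≤ ENNReal.ofReal K * (9 * Hd D d (paint S b)) * go (paint S b) := by gcongr
    _ = _ := by ring

/-- finitely many windows: the functional `Ψ` is at most the sum of the means -/
theorem quench_sum {S : Finset ℂ} {g : Set (ℂ × Bool) → ℝ≥0∞} {Ψ : Finset ℂ → ℝ≥0∞}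
    {Λ : Type} (L : Finset Λ) {F : Λ → Finset ℂ → ℝ≥0∞} {G : Λ → Finset ℂ → ℝ≥0∞} {c K : ℝ≥0∞}
    (hΨ : ∀ b ∈ S.powerset, g (paint S b) ≠ 0 → Ψ b ≤ c * ∑ l ∈ L, F l b)
    (hF : ∀ l ∈ L, ∑ b ∈ S.powerset, g (paint S b) * F l b ≤ K * ∑ b ∈ S.powerset, G l b) :
    ∑ b ∈ S.powerset, g (paint S b) * Ψ b ≤ (c * K) * ∑ b ∈ S.powerset, ∑ l ∈ L, G l b := by
  have h1 : ∑ b ∈ S.powerset, g (paint S b) * Ψ b ≤
      c * ∑ l ∈ L, ∑ b ∈ S.powerset, g (paint S b) * F l b := by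
    rw [Finset.sum_comm, Finset.mul_sum]
    refine Finset.sum_le_sum fun b hb => ?_
    rw [← Finset.mul_sum]
    by_cases h0 : g (paint S b) = 0
    · rw [h0, zero_mul, zero_mul, mul_zero]
    · calc g (paint S b) * Ψ b ≤ g (paint S b) * (c * ∑ l ∈ L, F l b) := by
            gcongr
            exact hΨ b hb h0
        _ = _ := by ring
  refine h1.trans ?_
  rw [mul_assoc]
  gcongr
  rw [Finset.sum_comm (s := S.powerset) (t := L), Finset.mul_sum]
  exact Finset.sum_le_sum hF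

end Crest.Agent.R143.RelMx126
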