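import Crest.Agent.R143.TileQ_176

/-!
# Row 143 (S0194), block H, box [E], partial tiles, model half (helper126)

The quenched inequality of 352's `Relx352.p2` (fixed points, sums over the colourings) is turned into
a bound on the sample, relative to the mass of the ring weight.

* `Win` : window of the net; `off` : `c^#J₁ ∏ E a_i · E[g_off Hd] ≤ C s² E[g]`, one `C` for all nets,
  windows, scales
* `boxes`, `boxes1` : a finite family of windows `l ∈ L`, `p ≤ c^#J₁ ∏ E a_i` for all of them; if for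
  almost all points the sum over the colourings of `g X` is at most `K` times the sum of
  `∑_l g_off,l Hd_l`, then `p · E[g X] ≤ K #L C s² E[g]` (two colourings, one colouring)
* `boxG`, `boxG1` : one window
-/

set_option autoImplicit false

noncomputable section

namespace Crest.Agent.R143.RelPx126

open MeasureTheory Set Filter Topology
open Crest.ProbabilityR.Voronoi
open Crest.Agent.R143.PP0x831 Crest.Agent.R143.Poisx304 Crest.Agent.R143.Janx304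
open Crest.Agent.R143.Prodx609 Crest.Agent.R143.ColSumx304 Crest.Agent.R143.Lawx831
open Crest.Agent.R143.Dblx609 Crest.Agent.R143.Dbl2x609
open Crest.Agent.R143.IndLocx279 Crest.Agent.R143.PWx978 Crest.Agent.R143.TilePx176
open Crest.Agent.R143.TileQx176
open Crest.Agent.R143.SumScx302 (sq)
open scoped ENNReal

/-- a window of a net: gates `I₁`, tubes `J₁` (all the tubes which see a gate of `I₁`), a region `D`
of centres, `W` its neighbourhood inside the square `sq z s` -/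
structure Win {ε : ℝ} {ι κ : Type} [DecidableEq ι] [DecidableEq κ] (M : Net ε ι κ)
    (I : Finset ι) (J : Finset κ) (I₁ : Finset ι) (J₁ : Finset κ) (s : ℝ) (z : ℂ) (D W : Set ℂ)
    (d : ℝ) : Prop where
  hI : I₁ ⊆ I
  hJ : J₁ ⊆ J
  hN₁ : ∀ k ∈ J \ J₁, M.N k ⊆ I \ I₁
  hD : MeasurableSet D
  hW : MeasurableSet W
  hWs : W ⊆ sq z s
  hDW : ∀ o ∈ D, Metric.closedBall o d ⊆ W
  hd : Disjoint (M.reg (I \ I₁) (J \ J₁)) W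

theorem bdd_sq (z : ℂ) (s : ℝ) : Bornology.IsBounded (sq z s) := by
  refine (Metric.isBounded_closedBall (x := z) (r := 2 * |s|)).subset ?_
  rintro w ⟨a1, a2, a3, a4⟩
  rw [Metric.mem_closedBall, dist_eq_norm]
  have h1 := Complex.norm_le_abs_re_add_abs_im (w - z)
  have h2 : |(w - z).re| ≤ |s| := by
    rw [Complex.sub_re, abs_of_nonneg (by linarith), abs_of_nonneg (by linarith)]
    linarith
  have h3 : |(w - z).im| ≤ |s| := by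
    rw [Complex.sub_im, abs_of_nonneg (by linarith), abs_of_nonneg (by linarith)]
    linarith
  linarith

/-- **the energy of a box relative to the weight off the window** -/
theorem off : ∃ C : ℝ≥0∞, C ≠ ∞ ∧ ∀ {ε s : ℝ} {ι κ : Type} [DecidableEq ι] [DecidableEq κ]
    (M : Net ε ι κ) (I I₁ : Finset ι) (J J₁ : Finset κ), ε ≤ s → (∀ k ∈ J, M.N k ⊆ I) →
    ∀ (z : ℂ) (D W : Set ℂ) (d : ℝ), Win M I J I₁ J₁ s z D W d →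
    (M.c ^ J₁.card * ∏ i ∈ I₁, ∫⁻ ω, M.a i (cfg ε ω) ∂sampleLaw) *
        ∫⁻ ω, M.gw (I \ I₁) (J \ J₁) (cfg ε ω) * Hd D d (cfg ε ω) ∂sampleLaw ≤
      C * ENNReal.ofReal (s ^ 2) * ∫⁻ ω, M.gw I J (cfg ε ω) ∂sampleLaw := by
  obtain ⟨C, hC, h⟩ := Hd_mean
  refine ⟨C, hC, ?_⟩
  intro ε s ι κ _ _ M I I₁ J J₁ hs hN z D W d H
  have hb : Bornology.IsBounded W := (bdd_sq z s).subset H.hWs
  rw [lint_mul M.eps (M.reg_meas _ _) (M.reg_bdd _ _) H.hW hb H.hd (M.gw_local H.hN₁)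
    (Hd_local H.hDW) (M.gw_meas _ _) (Hd_meas H.hD d)]
  have h1 := h ε s M.eps hs z D d fun o ho => (H.hDW o ho).trans H.hWs
  calc (M.c ^ J₁.card * ∏ i ∈ I₁, ∫⁻ ω, M.a i (cfg ε ω) ∂sampleLaw) *
        ((∫⁻ ω, M.gw (I \ I₁) (J \ J₁) (cfg ε ω) ∂sampleLaw) * ∫⁻ ω, Hd D d (cfg ε ω) ∂sampleLaw)
      = (∫⁻ ω, Hd D d (cfg ε ω) ∂sampleLaw) *
          ((M.c ^ J₁.card * ∏ i ∈ I₁, ∫⁻ ω, M.a i (cfg ε ω) ∂sampleLaw) *
            ∫⁻ ω, M.gw (I \ I₁) (J \ J₁) (cfg ε ω) ∂sampleLaw) := by ring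
    _ = (∫⁻ ω, Hd D d (cfg ε ω) ∂sampleLaw) * ∫⁻ ω, M.gw I J (cfg ε ω) ∂sampleLaw := by
        rw [mass_off M H.hI H.hJ hN H.hN₁]
    _ ≤ _ := by gcongr

section box

variable {ε s : ℝ} {ι κ : Type} [DecidableEq ι] [DecidableEq κ] {M : Net ε ι κ}
  {I I₁ : Finset ι} {J J₁ : Finset κ} {z : ℂ} {D W B : Set ℂ} {d : ℝ}

theorem gw_offB (H : Win M I J I₁ J₁ s z D W d) (hregB : M.reg I J ⊆ B) :
    LocalOn B (M.gw (I \ I₁) (J \ J₁)) :=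
  LocalOn.mono ((M.reg_mono Finset.sdiff_subset Finset.sdiff_subset).trans hregB)
    (M.gw_local H.hN₁)

/-- the energy of a window with the weight off the window -/
def En (M : Net ε ι κ) (I I₁ : Finset ι) (J J₁ : Finset κ) (D : Set ℂ) (d : ℝ) (Y : Cf) : ℝ≥0∞ :=
  M.gw (I \ I₁) (J \ J₁) Y * Hd D d Y

theorem En_meas (H : Win M I J I₁ J₁ s z D W d) : FMe (En M I I₁ J J₁ D d) :=
  fun n => (M.gw_meas _ _ n).mul (Hd_meas H.hD d n)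

theorem En_local (H : Win M I J I₁ J₁ s z D W d) (hWB : W ⊆ B) (hregB : M.reg I J ⊆ B) :
    LocalOn B (En M I I₁ J J₁ D d) :=
  LocalOn.mul (gw_offB H hregB) (LocalOn.mono hWB (Hd_local H.hDW))

end box

theorem fme_sum' {Λ : Type} (L : Finset Λ) {F : Λ → Cf → ℝ≥0∞} (h : ∀ l ∈ L, FMe (F l)) :
    FMe fun Y => ∑ l ∈ L, F l Y :=
  fun n => Finset.measurable_fun_sum L fun l hl => h l hl n

theorem local_sum' {Λ : Type} (L : Finset Λ) {F : Λ → Cf → ℝ≥0∞} {B : Set ℂ}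
    (h : ∀ l ∈ L, LocalOn B (F l)) : LocalOn B fun Y => ∑ l ∈ L, F l Y :=
  fun S => Finset.sum_congr rfl fun l hl => h l hl S

/-- the mean of a local sum -/
theorem lint_sum' {ε : ℝ} (hε : 0 < ε) {Λ : Type} (L : Finset Λ) {F : Λ → Cf → ℝ≥0∞} {B : Set ℂ}
    (hB : MeasurableSet B) (hb : Bornology.IsBounded B) (h : ∀ l ∈ L, LocalOn B (F l))
    (hm : ∀ l ∈ L, FMe (F l)) :
    ∫⁻ ω, ∑ l ∈ L, F l (cfg ε ω) ∂sampleLaw = ∑ l ∈ L, ∫⁻ ω, F l (cfg ε ω) ∂sampleLaw :=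
  lintegral_finsetSum L fun l hl => meas_fun hε hB hb (h l hl) (hm l hl)

/-- the last step of `boxes` -/
theorem boxes_aux {C : ℝ≥0∞}
    (h : ∀ {ε s : ℝ} {ι κ : Type} [DecidableEq ι] [DecidableEq κ]
      (M : Net ε ι κ) (I I₁ : Finset ι) (J J₁ : Finset κ), ε ≤ s → (∀ k ∈ J, M.N k ⊆ I) →
      ∀ (z : ℂ) (D W : Set ℂ) (d : ℝ), Win M I J I₁ J₁ s z D W d →
      (M.c ^ J₁.card * ∏ i ∈ I₁, ∫⁻ ω, M.a i (cfg ε ω) ∂sampleLaw) *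
          ∫⁻ ω, M.gw (I \ I₁) (J \ J₁) (cfg ε ω) * Hd D d (cfg ε ω) ∂sampleLaw ≤
        C * ENNReal.ofReal (s ^ 2) * ∫⁻ ω, M.gw I J (cfg ε ω) ∂sampleLaw)
    {ε s : ℝ} {ι κ : Type} [DecidableEq ι] [DecidableEq κ] (M : Net ε ι κ) {I : Finset ι}
    {J : Finset κ} (hs : ε ≤ s) (hN : ∀ k ∈ J, M.N k ⊆ I) {Λ : Type} (L : Finset Λ)
    {I₁ : Λ → Finset ι} {J₁ : Λ → Finset κ} {z : Λ → ℂ} {D W : Λ → Set ℂ} {d : ℝ}
    (H : ∀ l ∈ L, Win M I J (I₁ l) (J₁ l) s (z l) (D l) (W l) d) {p : ℝ≥0∞}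
    (hp : ∀ l ∈ L, p ≤ M.c ^ (J₁ l).card * ∏ i ∈ I₁ l, ∫⁻ ω, M.a i (cfg ε ω) ∂sampleLaw)
    {E K : ℝ≥0∞}
    (hE : E ≤ K * ∑ l ∈ L, ∫⁻ ω, En M I (I₁ l) J (J₁ l) (D l) d (cfg ε ω) ∂sampleLaw) :
    p * E ≤ K * ((L.card : ℝ≥0∞) * (C * ENNReal.ofReal (s ^ 2))) *
      ∫⁻ ω, M.gw I J (cfg ε ω) ∂sampleLaw := by
  have h1 : ∑ l ∈ L, p * ∫⁻ ω, En M I (I₁ l) J (J₁ l) (D l) d (cfg ε ω) ∂sampleLaw ≤
      ∑ _l ∈ L, C * ENNReal.ofReal (s ^ 2) * ∫⁻ ω, M.gw I J (cfg ε ω) ∂sampleLaw := by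
    refine Finset.sum_le_sum fun l hl => ?_
    refine le_trans ?_ (h M I (I₁ l) J (J₁ l) hs hN (z l) (D l) (W l) d (H l hl))
    exact mul_le_mul' (hp l hl) le_rfl
  calc p * E ≤ p * (K * ∑ l ∈ L, ∫⁻ ω, En M I (I₁ l) J (J₁ l) (D l) d (cfg ε ω) ∂sampleLaw) := by
        gcongr
    _ = K * ∑ l ∈ L, p * ∫⁻ ω, En M I (I₁ l) J (J₁ l) (D l) d (cfg ε ω) ∂sampleLaw := by
        rw [← Finset.mul_sum]; ring
    _ ≤ K * ∑ _l ∈ L, C * ENNReal.ofReal (s ^ 2) * ∫⁻ ω, M.gw I J (cfg ε ω) ∂sampleLaw := by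
        gcongr
    _ = _ := by
        rw [Finset.sum_const, nsmul_eq_mul]; ring

/-- **BOXES, two colourings** -/
theorem boxes : ∃ C : ℝ≥0∞, C ≠ ∞ ∧ ∀ {ε s : ℝ} {ι κ : Type} [DecidableEq ι] [DecidableEq κ]
    (M : Net ε ι κ) (I : Finset ι) (J : Finset κ), ε ≤ s → (∀ k ∈ J, M.N k ⊆ I) →
    ∀ {Λ : Type} (L : Finset Λ) (I₁ : Λ → Finset ι) (J₁ : Λ → Finset κ) (z : Λ → ℂ)
      (D W : Λ → Set ℂ) (d : ℝ) (B : Set ℂ),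
    (∀ l ∈ L, Win M I J (I₁ l) (J₁ l) s (z l) (D l) (W l) d) → MeasurableSet B →
    Bornology.IsBounded B → (∀ l ∈ L, W l ⊆ B) → M.reg I J ⊆ B → ∀ p : ℝ≥0∞,
    (∀ l ∈ L, p ≤ M.c ^ (J₁ l).card * ∏ i ∈ I₁ l, ∫⁻ ω, M.a i (cfg ε ω) ∂sampleLaw) →
    ∀ (X : Set (ℂ × (Bool × Bool)) → ℝ≥0∞) (K : ℝ≥0∞), K ≠ ∞ →
    (∀ᵐ ω ∂sampleLaw, ∑ β ∈ (Ap ε B ω).powerset, ∑ β' ∈ (Ap ε B ω).powerset,
        M.gw I J (paint (Ap ε B ω) β) * X (paint2 (Ap ε B ω) β β') ≤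
      K * ∑ β ∈ (Ap ε B ω).powerset, ∑ _β' ∈ (Ap ε B ω).powerset,
        ∑ l ∈ L, En M I (I₁ l) J (J₁ l) (D l) d (paint (Ap ε B ω) β)) →
    p * ∫⁻ ω, M.gw I J (cfg ε ω) * X (dcf ε ω ∩ ovM (Bool × Bool) B) ∂sampleLaw ≤
      K * ((L.card : ℝ≥0∞) * (C * ENNReal.ofReal (s ^ 2))) *
        ∫⁻ ω, M.gw I J (cfg ε ω) ∂sampleLaw := by
  obtain ⟨C, hC, h⟩ := off
  refine ⟨C, hC, ?_⟩
  intro ε s ι κ _ _ M I J hs hN Λ L I₁ J₁ z D W d B H hB hBb hWB hregB p hp X K hK hX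
  refine boxes_aux (fun M I I₁ J J₁ a b z D W d e => h M I I₁ J J₁ a b z D W d e) M hs hN L H hp
    (E := ∫⁻ ω, M.gw I J (cfg ε ω) * X (dcf ε ω ∩ ovM (Bool × Bool) B) ∂sampleLaw) ?_
  have g1 : LocalOn B (M.gw I J) := LocalOn.mono hregB (M.gw_local hN)
  have hl : ∀ l ∈ L, LocalOn B (En M I (I₁ l) J (J₁ l) (D l) d) := fun l hl =>
    En_local (H l hl) (hWB l hl) hregB
  have hm : ∀ l ∈ L, FMe (En M I (I₁ l) J (J₁ l) (D l) d) := fun l hl => En_meas (H l hl)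
  have key := quench (ε := ε) (B := B) M.eps hB hBb
    (Φ := fun Z => M.gw I J (p1 Z) * X Z)
    (Ψ := fun Z => ∑ l ∈ L, En M I (I₁ l) J (J₁ l) (D l) d (p1 Z))
    (fme_p1 (fme_sum' L hm)) hK (by
      filter_upwards [hX] with ω hω
      simpa only [p1_paint2] using hω)
  rw [← lint_sum' M.eps L hB hBb hl hm]
  have hs' := local_sum' L hl
  simpa only [local_dcf g1, local_dcf hs'] using key

/-- **BOXES, one colouring** -/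
theorem boxes1 : ∃ C : ℝ≥0∞, C ≠ ∞ ∧ ∀ {ε s : ℝ} {ι κ : Type} [DecidableEq ι] [DecidableEq κ]
    (M : Net ε ι κ) (I : Finset ι) (J : Finset κ), ε ≤ s → (∀ k ∈ J, M.N k ⊆ I) →
    ∀ {Λ : Type} (L : Finset Λ) (I₁ : Λ → Finset ι) (J₁ : Λ → Finset κ) (z : Λ → ℂ)
      (D W : Λ → Set ℂ) (d : ℝ) (B : Set ℂ),
    (∀ l ∈ L, Win M I J (I₁ l) (J₁ l) s (z l) (D l) (W l) d) → MeasurableSet B →
    Bornology.IsBounded B → (∀ l ∈ L, W l ⊆ B) → M.reg I J ⊆ B → ∀ p : ℝ≥0∞,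
    (∀ l ∈ L, p ≤ M.c ^ (J₁ l).card * ∏ i ∈ I₁ l, ∫⁻ ω, M.a i (cfg ε ω) ∂sampleLaw) →
    ∀ (X : Set (ℂ × Bool) → ℝ≥0∞) (K : ℝ≥0∞), K ≠ ∞ →
    (∀ᵐ ω ∂sampleLaw, ∑ β ∈ (Ap ε B ω).powerset,
        M.gw I J (paint (Ap ε B ω) β) * X (paint (Ap ε B ω) β) ≤
      K * ∑ β ∈ (Ap ε B ω).powerset,
        ∑ l ∈ L, En M I (I₁ l) J (J₁ l) (D l) d (paint (Ap ε B ω) β)) →
    p * ∫⁻ ω, M.gw I J (cfg ε ω) * X (cfg ε ω ∩ ovr B) ∂sampleLaw ≤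
      K * ((L.card : ℝ≥0∞) * (C * ENNReal.ofReal (s ^ 2))) *
        ∫⁻ ω, M.gw I J (cfg ε ω) ∂sampleLaw := by
  obtain ⟨C, hC, h⟩ := off
  refine ⟨C, hC, ?_⟩
  intro ε s ι κ _ _ M I J hs hN Λ L I₁ J₁ z D W d B H hB hBb hWB hregB p hp X K hK hX
  refine boxes_aux (fun M I I₁ J J₁ a b z D W d e => h M I I₁ J J₁ a b z D W d e) M hs hN L H hp
    (E := ∫⁻ ω, M.gw I J (cfg ε ω) * X (cfg ε ω ∩ ovr B) ∂sampleLaw) ?_
  have g1 : LocalOn B (M.gw I J) := LocalOn.mono hregB (M.gw_local hN)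
  have hl : ∀ l ∈ L, LocalOn B (En M I (I₁ l) J (J₁ l) (D l) d) := fun l hl =>
    En_local (H l hl) (hWB l hl) hregB
  have hm : ∀ l ∈ L, FMe (En M I (I₁ l) J (J₁ l) (D l) d) := fun l hl => En_meas (H l hl)
  have key := quench1 (ε := ε) (B := B) M.eps hB hBb
    (Φ := fun Y => M.gw I J Y * X Y)
    (Ψ := fun Y => ∑ l ∈ L, En M I (I₁ l) J (J₁ l) (D l) d Y) (fme_sum' L hm) hK hX
  rw [← lint_sum' M.eps L hB hBb hl hm]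
  have e1 : ∀ ω, M.gw I J (cfg ε ω ∩ ovr B) = M.gw I J (cfg ε ω) := fun ω => (g1 _).symm
  have e2 : ∀ ω, ∑ l ∈ L, En M I (I₁ l) J (J₁ l) (D l) d (cfg ε ω ∩ ovr B) =
      ∑ l ∈ L, En M I (I₁ l) J (J₁ l) (D l) d (cfg ε ω) := fun ω => (local_sum' L hl _).symm
  simpa only [e1, e2] using key

/-- **BOX, two colourings** -/
theorem boxG : ∃ C : ℝ≥0∞, C ≠ ∞ ∧ ∀ {ε s : ℝ} {ι κ : Type} [DecidableEq ι] [DecidableEq κ]
    (M : Net ε ι κ) (I I₁ : Finset ι) (J J₁ : Finset κ), ε ≤ s → (∀ k ∈ J, M.N k ⊆ I) →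
    ∀ (z : ℂ) (D W B : Set ℂ) (d : ℝ), Win M I J I₁ J₁ s z D W d → MeasurableSet B →
    Bornology.IsBounded B → W ⊆ B → M.reg I J ⊆ B →
    ∀ (X : Set (ℂ × (Bool × Bool)) → ℝ≥0∞) (K : ℝ≥0∞), K ≠ ∞ →
    (∀ᵐ ω ∂sampleLaw, ∑ β ∈ (Ap ε B ω).powerset, ∑ β' ∈ (Ap ε B ω).powerset,
        M.gw I J (paint (Ap ε B ω) β) * X (paint2 (Ap ε B ω) β β') ≤
      K * ∑ β ∈ (Ap ε B ω).powerset, ∑ _β' ∈ (Ap ε B ω).powerset,
        M.gw (I \ I₁) (J \ J₁) (paint (Ap ε B ω) β) * Hd D d (paint (Ap ε B ω) β)) →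
    (M.c ^ J₁.card * ∏ i ∈ I₁, ∫⁻ ω, M.a i (cfg ε ω) ∂sampleLaw) *
        ∫⁻ ω, M.gw I J (cfg ε ω) * X (dcf ε ω ∩ ovM (Bool × Bool) B) ∂sampleLaw ≤
      K * (C * ENNReal.ofReal (s ^ 2)) * ∫⁻ ω, M.gw I J (cfg ε ω) ∂sampleLaw := by
  obtain ⟨C, hC, h⟩ := boxes
  refine ⟨C, hC, ?_⟩
  intro ε s ι κ _ _ M I I₁ J J₁ hs hN z D W B d H hB hBb hWB hregB X K hK hX
  have h1 := h M I J hs hN (Finset.univ : Finset Unit) (fun _ => I₁) (fun _ => J₁) (fun _ => z)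
    (fun _ => D) (fun _ => W) d B (fun _ _ => H) hB hBb (fun _ _ => hWB) hregB _
    (fun _ _ => le_rfl) X K hK (by simpa [En] using hX)
  simpa using h1

/-- **BOX, one colouring** -/
theorem boxG1 : ∃ C : ℝ≥0∞, C ≠ ∞ ∧ ∀ {ε s : ℝ} {ι κ : Type} [DecidableEq ι] [DecidableEq κ]
    (M : Net ε ι κ) (I I₁ : Finset ι) (J J₁ : Finset κ), ε ≤ s → (∀ k ∈ J, M.N k ⊆ I) →
    ∀ (z : ℂ) (D W B : Set ℂ) (d : ℝ), Win M I J I₁ J₁ s z D W d → MeasurableSet B →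
    Bornology.IsBounded B → W ⊆ B → M.reg I J ⊆ B →
    ∀ (X : Set (ℂ × Bool) → ℝ≥0∞) (K : ℝ≥0∞), K ≠ ∞ →
    (∀ᵐ ω ∂sampleLaw, ∑ β ∈ (Ap ε B ω).powerset,
        M.gw I J (paint (Ap ε B ω) β) * X (paint (Ap ε B ω) β) ≤
      K * ∑ β ∈ (Ap ε B ω).powerset,
        M.gw (I \ I₁) (J \ J₁) (paint (Ap ε B ω) β) * Hd D d (paint (Ap ε B ω) β)) →
    (M.c ^ J₁.card * ∏ i ∈ I₁, ∫⁻ ω, M.a i (cfg ε ω) ∂sampleLaw) *
        ∫⁻ ω, M.gw I J (cfg ε ω) * X (cfg ε ω ∩ ovr B) ∂sampleLaw ≤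
      K * (C * ENNReal.ofReal (s ^ 2)) * ∫⁻ ω, M.gw I J (cfg ε ω) ∂sampleLaw := by
  obtain ⟨C, hC, h⟩ := boxes1
  refine ⟨C, hC, ?_⟩
  intro ε s ι κ _ _ M I I₁ J J₁ hs hN z D W B d H hB hBb hWB hregB X K hK hX
  have h1 := h M I J hs hN (Finset.univ : Finset Unit) (fun _ => I₁) (fun _ => J₁) (fun _ => z)
    (fun _ => D) (fun _ => W) d B (fun _ _ => H) hB hBb (fun _ _ => hWB) hregB _
    (fun _ _ => le_rfl) X K hK (by simpa [En] using hX)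
  simpa using h1

end Crest.Agent.R143.RelPx126
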