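import Crest.Agent.R143.H2_355
import Crest.Agent.R143.Part_778
import Crest.Agent.R143.Gnt_535

/-!
# Row 143 (S0194), block H, leaf P2 (helper352): partial sectors, relative to the ring weight

* `blks_pieces` : 778's `blk_pieces` for a family of blocks: the energy of different fine blocks is at
  most the energy of the coarse map
* `harm_loop`, `harm_gq` : harmless classes: change of the base point, 535's contraction `gq`
* `chords_coarse` : the joined chords of the outer arc (355's `Jc`) are paid by the coarse map in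
  which the explored pieces of the outer arc off a window are giants
* `part_fam` : relative frame for the joined chords, coupling form of 778 (`mix`, `dens`)
* `sum_cols`, `stop_cols` : colourings of the cells = coins (`α = C`, `V = univ`)
* `p2` : **PARTIAL SECTORS**: `c * Σ_b Σ_chords w b ‖cv φ‖² ≤ 2 ^ m / 4 * Σ ‖φ‖² * Σ_σ g (σ off T)`
  with `w = E[g | revealed]`
-/

set_option autoImplicit false
set_option linter.unusedSectionVars false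

noncomputable section

open scoped Classical

namespace Crest.Agent.R143.Relx352

open Crest.Agent.R143.Frame1x395 Crest.Agent.R143.Frame2x395 Crest.Agent.R143.Frame3x395
  Crest.Agent.R143.Frame4x395 Crest.Agent.R143.Frame8x395 Crest.Agent.R143.NonXx592
  Crest.Agent.R143.Coarsex166 Crest.Agent.R143.Giantx46 Crest.Agent.R143.Resax778
  Crest.Agent.R143.Partx778 Crest.Agent.R143.Chordx355 Crest.Agent.R143.ChordCx357
  Crest.Agent.R143.Chord2x355 Crest.Agent.R143.H2x355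

section det

variable {D C C' : Type} {M : CMap D C} {x : D → ZMod 2} {π : C → C'} {hπ : ClsCon M π}

/-- **several blocks** -/
theorem blks_pieces [Fintype D] (hx : IsC (coarse M π hπ) ∅ x) {Q : D → Prop} {a : D → ℂ}
    (Big : Finset (Finset D))
    (hB : ∀ β ∈ Big, ∃ g, Gp M x g ∧ β = blk M x g ∧ (∀ c', Harm M π x (out M g) Q c') ∧
      ∀ k ∈ β, ¬ Q k → a k = 0) :
    ∑ β ∈ Big, ‖∑ k ∈ β, a k‖ ^ 2 ≤ ∑ β ∈ blks (coarse M π hπ) x, ‖∑ k ∈ β, a k‖ ^ 2 := by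
  have hxM : IsC M ∅ x := IsC.of_coarse hx
  have key : ∀ β ∈ Big, (∃ k, k ∈ β ∧ Q k) → ∃ β', β' ∈ blks (coarse M π hπ) x ∧
      β' ⊆ β ∧ β'.Nonempty ∧ ∑ k ∈ β, a k = ∑ k ∈ β', a k := by
    rintro β hβ ⟨k₀, hk, qk⟩
    obtain ⟨g, hg, rfl, H, hQ⟩ := hB β hβ
    obtain ⟨gk, rk⟩ := mem_blk.1 hk
    have e0 : blk M x k₀ = blk M x g := blk_eq hxM hg hk
    have loop : ∀ {k : D}, k ∈ blk M x g → ∃ n, P M x (out M g) n = M.rho k := by
      intro k hk'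
      obtain ⟨g1, r1⟩ := mem_blk.1 hk'
      rcases r1 (M.cell g) with e | ⟨n, e, -⟩ | ⟨n, e, -⟩
      · subst e
        obtain ⟨N, N0, per, -, last⟩ := exists_period hxM hg
        exact ⟨N - 1, last.symm⟩
      · exact ⟨n, e⟩
      · exact come_back hxM g1 hg e
    refine ⟨blk (coarse M π hπ) x k₀, Finset.mem_image_of_mem _ (mem_gaps.2 gk), ?_,
      ⟨k₀, self_mem (M := coarse M π hπ) gk⟩, ?_⟩
    · rw [← e0]; exact blk_coarse_sub
    · symm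
      refine Finset.sum_subset ?_ ?_
      · rw [← e0]; exact blk_coarse_sub
      · intro k hk1 hk2
        by_contra hne
        have qk' : Q k := by
          by_contra hq
          exact hne (hQ k hk1 hq)
        have hk1' : k ∈ blk M x k₀ := by rwa [e0]
        obtain ⟨g1, r1⟩ := mem_blk.1 hk1'
        exact hk2 (mem_blk.2 ⟨g1, rel_pieces hx (hg.out hxM) gk g1 qk qk' (loop hk) H r1⟩)
  have e1 : ∑ β ∈ Big, ‖∑ k ∈ β, a k‖ ^ 2 =
      ∑ β ∈ Big.filter (fun β => ∃ k, k ∈ β ∧ Q k), ‖∑ k ∈ β, a k‖ ^ 2 := by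
    rw [Finset.sum_filter]
    refine Finset.sum_congr rfl fun β hβ => ?_
    by_cases h : ∃ k, k ∈ β ∧ Q k
    · rw [if_pos h]
    · rw [if_neg h]
      push Not at h
      obtain ⟨g, -, -, -, hQ⟩ := hB β hβ
      rw [Finset.sum_eq_zero fun k hk => hQ k hk (h k hk), norm_zero]
      norm_num
  rw [e1]
  have ch : ∀ β : Finset D, ∃ β' : Finset D, β ∈ Big.filter (fun β => ∃ k, k ∈ β ∧ Q k) →
      β' ∈ blks (coarse M π hπ) x ∧ β' ⊆ β ∧ β'.Nonempty ∧ ∑ k ∈ β, a k = ∑ k ∈ β', a k := by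
    intro β
    by_cases h : β ∈ Big.filter (fun β => ∃ k, k ∈ β ∧ Q k)
    · obtain ⟨h1, h2⟩ := Finset.mem_filter.1 h
      obtain ⟨β', h3⟩ := key β h1 h2
      exact ⟨β', fun _ => h3⟩
    · exact ⟨∅, fun h' => absurd h' h⟩
  choose f hf using ch
  have hinj : Set.InjOn f (Big.filter (fun β => ∃ k, k ∈ β ∧ Q k) : Set (Finset D)) := by
    intro β hβ β' hβ' e
    obtain ⟨-, h2, ⟨k, hk⟩, -⟩ := hf β hβ
    obtain ⟨-, h2', -, -⟩ := hf β' hβ'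
    have k1 : k ∈ β := h2 hk
    have k2 : k ∈ β' := h2' (by rw [← show f β = f β' from e]; exact hk)
    obtain ⟨g, hg, rfl, -⟩ := hB β (Finset.mem_filter.1 hβ).1
    obtain ⟨g', hg', rfl, -⟩ := hB β' (Finset.mem_filter.1 hβ').1
    rw [← blk_eq hxM hg k1, ← blk_eq hxM hg' k2]
  have e2 : ∑ β ∈ Big.filter (fun β => ∃ k, k ∈ β ∧ Q k), ‖∑ k ∈ β, a k‖ ^ 2 =
      ∑ β' ∈ (Big.filter (fun β => ∃ k, k ∈ β ∧ Q k)).image f, ‖∑ k ∈ β', a k‖ ^ 2 := by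
    rw [Finset.sum_image fun a ha c hc e => hinj ha hc e]
    refine Finset.sum_congr rfl fun β hβ => ?_
    rw [(hf β hβ).2.2.2]
  rw [e2]
  refine Finset.sum_le_sum_of_subset_of_nonneg ?_ (fun _ _ _ => by positivity)
  intro β' h
  obtain ⟨β, hβ, rfl⟩ := Finset.mem_image.1 h
  exact (hf β hβ).1

/-- change of the base point of the loop -/
theorem harm_loop [Finite D] (hx : IsC M ∅ x) {p₀ p₁ : D} (h0 : x p₀ = 1)
    (h : ∃ n, P M x p₀ n = p₁) {Q : D → Prop} {c' : C'} (H : Harm M π x p₀ Q c') :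
    Harm M π x p₁ Q c' := by
  obtain ⟨n, rfl⟩ := h
  obtain ⟨N, N0, per⟩ := periodic hx h0
  have sh : ∀ i, P M x (P M x p₀ n) i = P M x p₀ (i + n) := fun i => (P_add _ _ _).symm
  rcases H with H | H | ⟨p, m, ⟨a, ha⟩, h1, h2⟩
  · exact Or.inl H
  · right; left
    intro i
    rw [sh]
    exact H _
  · right; right
    refine ⟨p, m, ⟨a + N * n - n, ?_⟩, h1, fun i hi => ?_⟩
    · rw [sh, Nat.sub_add_cancel, ← ha]
      · exact per_q per a n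
      · have : n ≤ N * n := Nat.le_mul_of_pos_left n N0
        omega
    · rw [sh] at hi ⊢
      exact h2 _ hi

/-- **535's contraction**: every giant is harmless if the loop does not see it on the left, or sees
only cells of one piece of the loop, with the gaps of `Q` outside this piece -/
theorem harm_gq {ι : Type} {S : ι → Finset C} {hS : ∀ i j c, c ∈ S i → c ∈ S j → i = j} {p₀ : D}
    {Q : D → Prop}
    (H : ∀ i, (∀ n, M.cell (P M x p₀ n) ∉ S i) ∨ ∃ p n, (∃ a, P M x p₀ a = p) ∧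
      (∀ k, Q k → OutP M x p n k) ∧ ∀ j, M.cell (P M x p₀ j) ∈ S i →
        ∃ j', j' ≤ n ∧ M.cell (P M x p j') = M.cell (P M x p₀ j))
    (c' : Gntx535.GQ S hS) : Harm M (Gntx535.gq S hS) x p₀ Q c' := by
  obtain ⟨c, rfl⟩ : ∃ c, Gntx535.gq S hS c = c' := Quotient.exists_rep c'
  by_cases h : ∃ i, c ∈ S i
  · obtain ⟨i, hi⟩ := h
    have key : ∀ c₁, Gntx535.gq S hS c₁ = Gntx535.gq S hS c → c₁ ∈ S i := by
      intro c₁ e
      rcases Gntx535.gq_eq.1 e with e1 | ⟨j, h1, h2⟩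
      · rw [e1]; exact hi
      · rw [hS i j c hi h2]; exact h1
    rcases H i with h1 | ⟨p, n, h1, h2, h3⟩
    · right; left
      intro j e
      exact h1 j (key _ e)
    · right; right
      refine ⟨p, n, h1, h2, fun j e => ?_⟩
      obtain ⟨j', h4, h5⟩ := h3 j (key _ e)
      exact ⟨j', h4, h5⟩
  · left
    intro c₁ c₂ e1 e2
    have key : ∀ c₁, Gntx535.gq S hS c₁ = Gntx535.gq S hS c → c₁ = c := by
      intro c₁ e
      rcases Gntx535.gq_eq.1 e with e1 | ⟨j, h1, h2⟩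
      · exact e1
      · exact absurd ⟨j, h2⟩ h
    rw [key c₁ e1, key c₂ e2]

variable {p₀ : D} {m : ℕ} {Rv : Set C}

/-- the start gap of a joined chord is on the loop of the outer arc -/
theorem Jc_loop [Finite D] (O : Oa M x p₀ m Rv) {k : D} {n : ℕ} (J : Jc M x p₀ m Rv k n) :
    ∃ a, P M x p₀ a = out M k := by
  obtain ⟨N, L⟩ := exists_lp O.ev O.occ
  obtain ⟨t, ht, -⟩ := J.ch O L
  refine ⟨t + 1, ?_⟩
  rw [P_succ, ← ht]
  exact J.gp.stp O.ev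

/-- **the joined chords are paid by the coarse map**: the explored pieces off the window are giants -/
theorem chords_coarse [Fintype D] (hx : IsC (coarse M π hπ) ∅ x) (O : Oa M x p₀ m Rv)
    (Γ : Finset (D × ℕ)) (hΓ : ∀ i ∈ Γ, Jc M x p₀ m Rv i.1 i.2) {Q : D → Prop} {φ : D → ℂ}
    (hQ : ∀ k, ¬ Q k → φ k = 0) (H : ∀ c', Harm M π x p₀ Q c') :
    ∑ i ∈ Γ, ‖cv M x p₀ m φ i.1 i.2‖ ^ 2 ≤
      ∑ β ∈ blks (coarse M π hπ) x, ‖∑ k ∈ β, φ k‖ ^ 2 := by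
  refine (sum_joined' O Γ hΓ φ (Γ.image fun i => blk M x i.1) fun i hi =>
    Finset.mem_image_of_mem _ hi).trans ?_
  refine blks_pieces (Q := Q) hx _ fun β hβ => ?_
  obtain ⟨i, hi, rfl⟩ := Finset.mem_image.1 hβ
  exact ⟨i.1, (hΓ i hi).gp, rfl, fun c' => harm_loop O.ev O.occ (Jc_loop O (hΓ i hi)) (H c'),
    fun k _ hk => hQ k hk⟩

/-- the blocks on the loop of the state `p` -/
def onL [Fintype D] (M : CMap D C) (x : D → ZMod 2) (p : D) : Finset (Finset D) :=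
  (blks M x).filter fun β => ∃ g, Gp M x g ∧ β = blk M x g ∧ ∃ a, P M x p a = out M g

theorem onL_le [Fintype D] (hx : IsC (coarse M π hπ) ∅ x) (h0 : x p₀ = 1) {Q : D → Prop}
    {φ : D → ℂ} (hQ : ∀ k, ¬ Q k → φ k = 0) (H : ∀ c', Harm M π x p₀ Q c') :
    ∑ β ∈ onL M x p₀, ‖∑ k ∈ β, φ k‖ ^ 2 ≤ ∑ β ∈ blks (coarse M π hπ) x, ‖∑ k ∈ β, φ k‖ ^ 2 := by
  refine blks_pieces (Q := Q) hx _ fun β hβ => ?_
  obtain ⟨g, hg, e, ha⟩ := (Finset.mem_filter.1 hβ).2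
  exact ⟨g, hg, e, fun c' => harm_loop (IsC.of_coarse hx) h0 ha (H c'), fun k _ hk => hQ k hk⟩

theorem blk_onL [Fintype D] (O : Oa M x p₀ m Rv) {k : D} {n : ℕ} (J : Jc M x p₀ m Rv k n) :
    blk M x k ∈ onL M x p₀ :=
  Finset.mem_filter.2 ⟨Finset.mem_image_of_mem _ (mem_gaps.2 J.gp), k, J.gp, rfl, Jc_loop O J⟩

end det

section wtd

variable {D C : Type} [Fintype D] [Fintype C] {M : CMap D C}

theorem Gts_isC {C' : Type} [Fintype C'] {π : C → C'} {hπ : ClsCon M π} {E : Finset C}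
    {χ₀ μ : C → ZMod 2} {A : Finset C'} {v : C' → ZMod 2} (H : Gts π E χ₀ A v)
    (hμ : ∀ c ∈ E, μ c = χ₀ c) : IsC (coarse M π hπ) ∅ (cfg M μ) := by
  have key : ∀ c c', π c = π c' → μ c = μ c' := by
    intro c c' e
    by_cases h1 : c ∈ E
    · by_cases h2 : c' ∈ E
      · rw [hμ c h1, hμ c' h2, H.col c h1, H.col c' h2, e]
      · rw [H.inj c' c h2 e.symm]
    · rw [H.inj c c' h1 e]
  have e1 : (fun c => μ ((H.surj (π c)).choose)) = μ :=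
    funext fun c => key _ _ (H.surj (π c)).choose_spec
  rw [← e1]
  exact cfg_isC (M := coarse M π hπ) fun c' => μ ((H.surj c').choose)

/-- **PARTIAL SECTORS, weighted form of 778's `part`**: `wt O g = E[g | revealed]` -/
theorem part_wt {w : ℂ} (w3 : w ^ 3 = 1) (w1 : w ≠ 1) (wc : (starRingEnd ℂ) w = w ^ 2)
    {O : (C → ZMod 2) → Finset C} (hO : StopSet O) {T : Finset C} {R : Type}
    {r : (C → ZMod 2) → R} (hr : ∀ σ τ, (∀ s, s ∉ T → τ s = σ s) → r τ = r σ)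
    {K : R → Finset C} (hKT : ∀ σ, Disjoint (K (r σ)) T)
    {g : (C → ZMod 2) → ℝ} (hg0 : ∀ σ, 0 ≤ g σ) (hG : ∀ σ, g σ ≠ 0 → O σ \ T = K (r σ))
    {g' : R → ℝ} (hg' : ∀ σ, g σ ≤ g' (r σ)) (hg'0 : ∀ σ, 0 ≤ g' (r σ))
    {C' : R → Type} [∀ q, Fintype (C' q)] {π : ∀ q, C → C' q} {hπ : ∀ q, ClsCon M (π q)}
    {A : ∀ q, Finset (C' q)} {v : ∀ q, C' q → ZMod 2} {m : ℕ} (hA : ∀ q, (A q).card ≤ m)
    (HG : ∀ σ, g' (r σ) ≠ 0 → Gts (π (r σ)) (K (r σ)) σ (A (r σ)) (v (r σ)))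
    {a : R → D → ℂ} (ha : ∀ q, Spin M w (a q)) {Y : (C → ZMod 2) → ℝ}
    (hY : ∀ σ τ, g σ ≠ 0 → g' (r σ) ≠ 0 → Y (mix O σ τ) ≤
      ∑ β ∈ blks (coarse M (π (r σ)) (hπ (r σ))) (cfg M (mix O σ τ)), ‖∑ k ∈ β, a (r σ) k‖ ^ 2) :
    ∑ μ, wt O g μ * Y μ ≤ (2 : ℝ) ^ m / 4 * ∑ σ, g' (r σ) * ∑ k, ‖a (r σ) k‖ ^ 2 := by
  have hN : ((Fintype.card (ZMod 2) ^ Fintype.card C : ℕ) : ℝ) =
      (Fintype.card (C → ZMod 2) : ℝ) := by rw [Fintype.card_fun]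
  have hpos : (0 : ℝ) < (Fintype.card (C → ZMod 2) : ℝ) := by
    exact_mod_cast Fintype.card_pos
  rw [sum_wt_gen hO, hN, div_le_iff₀ hpos]
  obtain ⟨G', hG'⟩ : ∃ G' : (C → ZMod 2) → Prop, ∀ σ, G' σ ↔ g σ ≠ 0 := ⟨_, fun _ => Iff.rfl⟩
  have h1 : ∑ σ, ∑ τ, g σ * Y (mix O σ τ) ≤ ∑ σ, ∑ τ, (if G' σ then g' (r σ) *
      ∑ β ∈ blks (coarse M (π (r σ)) (hπ (r σ))) (cfg M (mix O σ τ)),
        ‖∑ k ∈ β, a (r σ) k‖ ^ 2 else 0) := by
    refine Finset.sum_le_sum fun σ _ => Finset.sum_le_sum fun τ _ => ?_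
    by_cases h : g σ = 0
    · rw [h, zero_mul, if_neg fun h' => (hG' σ).1 h' h]
    · rw [if_pos ((hG' σ).2 h)]
      have hne : g' (r σ) ≠ 0 := by
        intro h'
        have h2 := hg' σ
        rw [h'] at h2
        exact h (le_antisymm h2 (hg0 σ))
      have hX : (0 : ℝ) ≤ ∑ β ∈ blks (coarse M (π (r σ)) (hπ (r σ))) (cfg M (mix O σ τ)),
          ‖∑ k ∈ β, a (r σ) k‖ ^ 2 := Finset.sum_nonneg fun _ _ => by positivity
      exact (mul_le_mul_of_nonneg_left (hY σ τ h hne) (hg0 σ)).trans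
        (mul_le_mul_of_nonneg_right (hg' σ) hX)
  refine h1.trans ?_
  have h2 := part (M := M) w3 w1 wc hO hr hKT (G := G') (fun σ h => hG σ ((hG' σ).1 h))
    (g := g') hg'0 (hπ := hπ) hA HG ha
    (X := fun σ τ => ∑ β ∈ blks (coarse M (π (r σ)) (hπ (r σ))) (cfg M (mix O σ τ)),
        ‖∑ k ∈ β, a (r σ) k‖ ^ 2) fun _ _ _ _ => le_rfl
  refine h2.trans (le_of_eq ?_)
  ring

/-- **P2 = PARTIAL SECTORS**: the values of the chords for the field `φ` of a window, relative to the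
weight of the other tiles -/
theorem p2 {α : Type} {V : Finset α} {χ : Finset α → C → ZMod 2} {K₀ : C → Finset α}
    {R1 : Finset α → Finset α} {p₀ : Finset α → D} {len : Finset α → ℕ} {Rv : Finset α → Set C}
    {w : Finset α → ℝ} (E : Ex M V χ K₀ R1 p₀ len Rv w)
    {G : Finset α → D → ℕ → Prop} (hGd : GDec M V χ K₀ R1 p₀ len Rv G)
    (I : Finset (D × ℕ)) {c : ℝ} {Tb : D × ℕ → Finset α → Prop} (hc : ∀ i ∈ I, c ≤ Harx315.pr V (Tb i))
    (hT : ∀ i ∈ I, ∀ b b', b ⊆ V → b' ⊆ V → w b ≠ 0 →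
      Cd M (cfg M (χ b)) (p₀ b) (len b) (Rv b) i.1 i.2 → G b i.1 i.2 → Tb i b' →
      Frame11x395.Con M (cfg M (χ (b' \ R2 M χ K₀ R1 p₀ len i.1 b ∪ b ∩ R2 M χ K₀ R1 p₀ len i.1 b)))
        (M.cell (M.rho (p₀ b))) (M.cell (M.rho (M.rho i.1))))
    {O : (C → ZMod 2) → Finset C} (hO : StopSet O) {T : Finset C} {R : Type}
    {r : (C → ZMod 2) → R} (hr : ∀ σ τ, (∀ s, s ∉ T → τ s = σ s) → r τ = r σ)
    {K : R → Finset C} (hKT : ∀ σ, Disjoint (K (r σ)) T)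
    {g : (C → ZMod 2) → ℝ} (hg0 : ∀ σ, 0 ≤ g σ) (hG : ∀ σ, g σ ≠ 0 → O σ \ T = K (r σ))
    {g' : R → ℝ} (hg' : ∀ σ, g σ ≤ g' (r σ)) (hg'0 : ∀ σ, 0 ≤ g' (r σ))
    {C' : R → Type} [∀ q, Fintype (C' q)] {π : ∀ q, C → C' q} {hπ : ∀ q, ClsCon M (π q)}
    {A : ∀ q, Finset (C' q)} {v : ∀ q, C' q → ZMod 2} {m : ℕ} (hA : ∀ q, (A q).card ≤ m)
    (HG : ∀ σ, g' (r σ) ≠ 0 → Gts (π (r σ)) (K (r σ)) σ (A (r σ)) (v (r σ)))
    {z : ℂ} (z3 : z ^ 3 = 1) (z1 : z ≠ 1) (zc : (starRingEnd ℂ) z = z ^ 2)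
    {φ : D → ℂ} (hφ : Spin M z φ) {Q : D → Prop} (hQ : ∀ k, ¬ Q k → φ k = 0)
    {p' : (C → ZMod 2) → D}
    (hH : ∀ σ τ, g σ ≠ 0 → cfg M (mix O σ τ) (p' (mix O σ τ)) = 1 ∧
      ∀ c', Harm M (π (r σ)) (cfg M (mix O σ τ)) (p' (mix O σ τ)) Q c')
    (hw : ∀ b, b ⊆ V → w b = wt O g (χ b))
    (hp : ∀ b, b ⊆ V → w b ≠ 0 → p₀ b = p' (χ b)) {N : ℝ}
    (hN : ∀ F : (C → ZMod 2) → ℝ, (∀ μ, 0 ≤ F μ) → ∑ b ∈ V.powerset, F (χ b) ≤ N * ∑ μ, F μ)
    (hN0 : 0 ≤ N) :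
    c * ∑ b ∈ V.powerset, ∑ i ∈ I, Fk M χ p₀ len Rv w G φ i b ≤
      N * ((2 : ℝ) ^ m / 4 * ((∑ k, ‖φ k‖ ^ 2) * ∑ σ, g' (r σ))) := by
  have h1 := h2 E hGd φ I hc hT (fun b => onL M (cfg M (χ b)) (p₀ b)) fun b hb hwb i hi hj _ =>
    blk_onL (E.oa b hb hwb) hj
  refine h1.trans ?_
  set Y : (C → ZMod 2) → ℝ := fun μ => ∑ β ∈ onL M (cfg M μ) (p' μ), ‖∑ h ∈ β, φ h‖ ^ 2 with hYd
  have hY0 : ∀ μ, 0 ≤ Y μ := fun μ => Finset.sum_nonneg fun _ _ => by positivity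
  have h3 : ∑ b ∈ V.powerset, w b * ∑ β ∈ onL M (cfg M (χ b)) (p₀ b), ‖∑ h ∈ β, φ h‖ ^ 2 =
      ∑ b ∈ V.powerset, (fun μ => wt O g μ * Y μ) (χ b) := by
    refine Finset.sum_congr rfl fun b hb => ?_
    have hb' := Finset.mem_powerset.1 hb
    dsimp only
    by_cases hwb : w b = 0
    · rw [hwb, ← hw b hb', hwb, zero_mul, zero_mul]
    · rw [hw b hb', hYd, hp b hb' hwb]
  rw [h3]
  refine (hN _ fun μ => mul_nonneg (wt_nonneg hg0 μ) (hY0 μ)).trans ?_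
  refine mul_le_mul_of_nonneg_left ?_ hN0
  have h4 := part_wt (M := M) z3 z1 zc hO hr hKT hg0 hG hg' hg'0 (hπ := hπ) hA HG
    (a := fun _ => φ) (fun _ => hφ) (Y := Y) ?_
  · refine h4.trans (le_of_eq ?_)
    congr 1
    rw [Finset.mul_sum]
    refine Finset.sum_congr rfl fun σ _ => ?_
    ring
  · intro σ τ hσ hσ'
    obtain ⟨h5, h6⟩ := hH σ τ hσ
    refine onL_le (hπ := hπ (r σ)) (Gts_isC (HG σ hσ') fun c hc => ?_) h5 hQ h6
    have h7 : c ∈ O σ := by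
      have := hG σ hσ
      rw [← this] at hc
      exact (Finset.mem_sdiff.1 hc).1
    exact mix_on h7

end wtd

end Crest.Agent.R143.Relx352
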