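import Crest.Agent.R143.J1_872
import Crest.Agent.R143.Rsw_63

/-!
# Row 143 (S0194): the relations `RelAt` (hypothesis of T3, T4) from `J1_872` (helper63)
-/

set_option autoImplicit false

noncomputable section

open scoped Classical

namespace Crest.Agent.R143.Relx63

open Crest.Agent.R143.B0x346 Crest.Agent.R143.J1x872 Crest.Agent.R143.Oscx63

/-- any network -/
theorem relAt_gen {V : Type} {N : Net V} (hg : Good N) {t : V × V × V} (ht : t ∈ N.T)
    (hP : P1 N t) (hne : (N.tj t).Nonempty ∨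
      ((t.1, t.2.1) ∉ N.exS ∧ (t.2.1, t.2.2) ∉ N.exS ∧ (t.2.2, t.1) ∉ N.exS)) : RelAt N t := by
  obtain ⟨a, b, c⟩ := t
  simp only at hne
  constructor
  · intro h1 h2 h3
    exact j1_gen hg ht hP h1 h2 h3 hne
  · intro x y z hx h1 h2 h3
    simp only [rots, Set.mem_insert_iff, Set.mem_singleton_iff, Prod.mk.injEq] at hx
    rcases hx with ⟨rfl, rfl, rfl⟩ | ⟨rfl, rfl, rfl⟩ | ⟨rfl, rfl, rfl⟩
    · exact j2_gen hg ht hP h1 h2 h3 (by tauto)
    · exact j2_gen hg (N.rot ht) (p1_rot _ _ _ hP) h1 h2 h3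
        (by rw [Crest.Agent.R143.J1x872.tj_rot]; tauto)
    · exact j2_gen hg (N.rot (N.rot ht)) (p1_rot _ _ _ (p1_rot _ _ _ hP)) h1 h2 h3
        (by rw [Crest.Agent.R143.J1x872.tj_rot, Crest.Agent.R143.J1x872.tj_rot]; tauto)

/-- networks on Delaunay triangulations -/
theorem relAt_of (hP : P1all) {S : Finset ℂ} {N : Net ℂ} (hN : HNet S N) {t : ℂ × ℂ × ℂ}
    (ht : t ∈ delT S) (hne : (N.tj t).Nonempty ∨
      ((t.1, t.2.1) ∉ N.exS ∧ (t.2.1, t.2.2) ∉ N.exS ∧ (t.2.2, t.1) ∉ N.exS)) : RelAt N t :=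
  relAt_gen (good_of_hnet hN) (by rw [hN.tri]; exact ht) (hP N S hN t ht) hne

end Crest.Agent.R143.Relx63
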