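import Crest.Agent.R143.Hist_389
import Crest.Agent.R143.Chord_355

/-!
# Row 143 (S0194), hedge block H, leaf H2d, part 2 (helper389)

* `Cl A Dm χ w Z` : cluster of colour `w` of the seeds `Z` inside the region `Dm`; `clus_stop`,
  `dec_cl` : exploring it (with its neighbours in `Dm`) after a first exploration is an exploration
* `coins V K X` : the coins of the cells of `X`; `agree` : same coins, same colours
* `cfg_fa`, `gp_hist` : occupied darts and gaps of the visited faces are decided by the history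
* `P_hist`, `lc_hist`, `chs_hist`, `fo_hist` : 355's chord sum and outer potential are decided
-/

set_option autoImplicit false

noncomputable section

open scoped Classical

namespace Crest.Agent.R143.RevAx389

open Finset Crest.Agent.R143.Harx315 Crest.Agent.R143.Frame1x395 Crest.Agent.R143.Frame2x395
  Crest.Agent.R143.Frame3x395 Crest.Agent.R143.Frame8x395 Crest.Agent.R143.NonXx592
  Crest.Agent.R143.Chordx355 Crest.Agent.R143.Histx389

variable {D C : Type} {M : CMap D C} {α : Type*} {V : Finset α}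

/-! ### clusters -/

/-- cluster of colour `w` of the seeds `Z` in the region `Dm` -/
def Cl (A : C → C → Prop) (Dm : Set C) (χ : C → ZMod 2) (w : ZMod 2) (Z : Set C) : Set C :=
  {c | ∃ z ∈ Z, Relation.ReflTransGen (fun a a' => A a a' ∧ a' ∈ Dm ∧ χ a' = w) z c}

/-- the neighbours of `X` in the region -/
def Lk (A : C → C → Prop) (Dm : Set C) (X : Set C) : Set C := {c | c ∈ Dm ∧ ∃ a ∈ X, A a c}

variable {A : C → C → Prop} {Dm Dm' : Set C} {χ χ' : C → ZMod 2} {w : ZMod 2} {Z Z' : Set C}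

theorem seed_cl : Z ⊆ Cl A Dm χ w Z := fun z hz => ⟨z, hz, Relation.ReflTransGen.refl⟩

theorem cl_step {a c : C} (ha : a ∈ Cl A Dm χ w Z) (h : A a c) (hc : c ∈ Dm) (hw : χ c = w) :
    c ∈ Cl A Dm χ w Z := by
  obtain ⟨z, hz, h1⟩ := ha
  exact ⟨z, hz, h1.tail ⟨h, hc, hw⟩⟩

theorem cl_ind {Q : C → Prop} (h0 : ∀ z ∈ Z, Q z)
    (hs : ∀ a c, a ∈ Cl A Dm χ w Z → Q a → A a c → c ∈ Dm → χ c = w → Q c) :
    ∀ c ∈ Cl A Dm χ w Z, Q c := by
  rintro c ⟨z, hz, h⟩
  induction h with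
  | refl => exact h0 z hz
  | @tail a c h1 h2 ih => exact hs a c ⟨z, hz, h1⟩ ih h2.1 h2.2.1 h2.2.2

theorem cl_col {c : C} (hc : c ∈ Cl A Dm χ w Z) : c ∈ Z ∨ (c ∈ Dm ∧ χ c = w) := by
  obtain ⟨z, hz, h⟩ := hc
  rcases Relation.ReflTransGen.cases_tail h with h1 | ⟨a, -, h1⟩
  · left; rw [h1]; exact hz
  · exact Or.inr ⟨h1.2.1, h1.2.2⟩

theorem cl_mono (hD : Dm ⊆ Dm') (hZ : Z ⊆ Z') : Cl A Dm χ w Z ⊆ Cl A Dm' χ w Z' := by
  rintro c ⟨z, hz, h⟩
  refine ⟨z, hZ hz, ?_⟩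
  induction h with
  | refl => exact Relation.ReflTransGen.refl
  | tail _ h1 ih => exact ih.tail ⟨h1.1, hD h1.2.1, h1.2.2⟩

theorem cl_lk {c : C} (hc : c ∈ Cl A Dm χ w Z) : c ∈ Z ∨ c ∈ Lk A Dm (Cl A Dm χ w Z) := by
  obtain ⟨z, hz, h⟩ := hc
  rcases Relation.ReflTransGen.cases_tail h with h1 | ⟨a, h0, h1⟩
  · left; rw [h1]; exact hz
  · exact Or.inr ⟨h1.2.1, a, ⟨z, hz, h0⟩, h1.1⟩

/-- the frontier has the other colour -/
theorem lk_col {c : C} (hc : c ∈ Lk A Dm (Cl A Dm χ w Z)) (hn : c ∉ Cl A Dm χ w Z) : χ c ≠ w := by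
  obtain ⟨h1, a, h2, h3⟩ := hc
  exact fun h => hn (cl_step h2 h3 h1 h)

theorem cl_congr (h : ∀ c ∈ Lk A Dm (Cl A Dm χ w Z), χ' c = χ c) :
    Cl A Dm χ' w Z = Cl A Dm χ w Z := by
  apply Set.Subset.antisymm
  · refine cl_ind (fun z hz => seed_cl hz) fun a c _ h2 h3 h4 h5 => ?_
    exact cl_step h2 h3 h4 ((h c ⟨h4, a, h2, h3⟩).symm.trans h5)
  · refine fun c hc => ?_
    refine cl_ind (Q := fun c => c ∈ Cl A Dm χ' w Z) (fun z hz => seed_cl hz)
      (fun a c h1 h2 h3 h4 h5 => ?_) c hc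
    exact cl_step h2 h3 h4 ((h c ⟨h4, a, h1, h3⟩).trans h5)

/-- the coins of the cells of `X` -/
def coins (V : Finset α) (K : C → Finset α) (X : Set C) : Finset α :=
  V.filter fun y => ∃ c ∈ X, y ∈ K c

variable {cl : Finset α → C → ZMod 2} {K : C → Finset α} {R0 : Finset α → Finset α}
  {b b' : Finset α}

theorem agree {X : Set C} (hχ : Coins V cl K) (hK : ∀ c, K c ⊆ V) (hb : b ⊆ V) (hb' : b' ⊆ V)
    (h : b ∩ coins V K X = b' ∩ coins V K X) : ∀ c ∈ X, cl b' c = cl b c := by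
  intro c hc
  exact (hχ c b b' hb hb' (inter_sub h fun y hy => mem_filter.2 ⟨hK c hy, c, hc, hy⟩)).symm

/-- **cluster exploration after a first exploration** -/
theorem clus_stop (hχ : Coins V cl K) (hK : ∀ c, K c ⊆ V) (h0 : IsStop V R0)
    {Z : Finset α → Set C} (hZ : DecF V R0 Z) :
    IsStop V fun b => R0 b ∪ coins V K (Lk A Dm (Cl A Dm (cl b) w (Z b))) where
  sub b hb := union_subset (h0.sub b hb) (filter_subset _ _)
  stop b b' hb hb' h := by
    have h2 : b ∩ R0 b = b' ∩ R0 b := inter_sub h subset_union_left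
    have h3 := agree hχ hK hb hb' (inter_sub h subset_union_right)
    rw [h0.stop b b' hb hb' h2, ← hZ b b' hb hb' h2, cl_congr h3]

theorem dec_cl (hχ : Coins V cl K) (hK : ∀ c, K c ⊆ V)
    {Z : Finset α → Set C} (hZ : DecF V R0 Z) :
    DecF V (fun b => R0 b ∪ coins V K (Lk A Dm (Cl A Dm (cl b) w (Z b))))
      fun b => Cl A Dm (cl b) w (Z b) := by
  intro b b' hb hb' h
  have h2 : b ∩ R0 b = b' ∩ R0 b := inter_sub h subset_union_left
  have h3 := agree hχ hK hb hb' (inter_sub h subset_union_right)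
  dsimp only
  rw [← hZ b b' hb hb' h2, cl_congr h3]

/-- the exploration of a fixed set of cells -/
theorem coins_stop (X : Set C) : IsStop V fun _ => coins V K X where
  sub _ _ := filter_subset _ _
  stop _ _ _ _ _ := rfl

/-- the colours on a fixed set of cells are decided by its exploration -/
theorem coins_dec (hχ : Coins V cl K) (hK : ∀ c, K c ⊆ V) (X : Set C) :
    DecF V (fun _ => coins V K X) fun b => {c | c ∈ X ∧ cl b c = w} := by
  intro b b' hb hb' h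
  have h3 := agree hχ hK hb hb' h
  ext c
  constructor
  · rintro ⟨h4, h5⟩; exact ⟨h4, (h3 c h4).trans h5⟩
  · rintro ⟨h4, h5⟩; exact ⟨h4, (h3 c h4).symm.trans h5⟩

/-! ### what the history of a walk decides -/

variable [Fintype D] {B : Set D} {p0 : D}

/-- occupied darts of the faces left by the walker -/
theorem cfg_fa (hχ : Coins V cl K) (hb : b ⊆ V) (hb' : b' ⊆ V)
    (h : b ∩ hist M K (cfg M (cl b)) B p0 = b' ∩ hist M K (cfg M (cl b)) B p0) {p : D}
    (hp : p ∈ Tr M (cfg M (cl b)) B p0) (hB : p ∉ B) {d : D} (hd : d ∈ Fa M p) :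
    cfg M (cl b') d = cfg M (cl b) d := by
  have h1 := inter_sub h (fc_hist (K := K) hp hB)
  have key : ∀ c, K c ⊆ fc M K p → cl b' c = cl b c := fun c hc =>
    (hχ c b b' hb hb' (inter_sub h1 hc)).symm
  have e1 := key (M.cell p) fun y hy => by
    unfold fc; exact mem_union_left _ (mem_union_left _ hy)
  have e2 := key (M.cell (M.rho p)) fun y hy => by
    unfold fc; exact mem_union_left _ (mem_union_right _ hy)
  have e3 := key (M.cell (M.rho (M.rho p))) fun y hy => by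
    unfold fc; exact mem_union_right _ hy
  unfold cfg
  rcases hd with rfl | rfl | rfl
  · rw [e1, e2]
  · rw [e2, e3]
  · rw [e3, M.rho3, e1]

/-- states -/
theorem P_hist (hχ : Coins V cl K) (hb : b ⊆ V) (hb' : b' ⊆ V)
    (h : b ∩ hist M K (cfg M (cl b)) B p0 = b' ∩ hist M K (cfg M (cl b)) B p0) {n : ℕ}
    (hn : ∀ k < n, P M (cfg M (cl b)) p0 k ∉ B) {m : ℕ} (hm : m ≤ n) :
    P M (cfg M (cl b')) p0 m = P M (cfg M (cl b)) p0 m :=
  it_hist hχ hb hb' h m fun k hk => hn k (by omega)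

/-- gaps -/
theorem gp_hist (hχ : Coins V cl K) (hb : b ⊆ V) (hb' : b' ⊆ V)
    (h : b ∩ hist M K (cfg M (cl b)) B p0 = b' ∩ hist M K (cfg M (cl b)) B p0) {n : ℕ}
    (hn : ∀ k < n, P M (cfg M (cl b)) p0 k ∉ B) {m : ℕ} (hm : m < n) :
    Gp M (cfg M (cl b')) (gt M (cfg M (cl b')) p0 m) ↔
      Gp M (cfg M (cl b)) (gt M (cfg M (cl b)) p0 m) := by
  have h1 := P_hist hχ hb hb' h hn hm.le
  have h2 : P M (cfg M (cl b)) p0 m ∈ Tr M (cfg M (cl b)) B p0 :=
    ⟨m, rfl, fun k hk => hn k (by omega)⟩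
  have h3 := fun d => cfg_fa (d := d) hχ hb hb' h h2 (hn m hm)
  unfold gt
  rw [h1]
  unfold Gp
  rw [h3 _ (fa2 M _), M.rho3, h3 _ (fa0 M _)]

theorem lc_hist (hχ : Coins V cl K) (hb : b ⊆ V) (hb' : b' ⊆ V)
    (h : b ∩ hist M K (cfg M (cl b)) B p0 = b' ∩ hist M K (cfg M (cl b)) B p0) {n : ℕ}
    (hn : ∀ k < n, P M (cfg M (cl b)) p0 k ∉ B) {m : ℕ} (hm : m ≤ n) :
    lc M (cfg M (cl b')) p0 m = lc M (cfg M (cl b)) p0 m :=
  congrArg M.cell (P_hist hχ hb hb' h hn hm)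

theorem vl_hist {S : Type*} [AddCommMonoid S] (φ : D → S) (hχ : Coins V cl K) (hb : b ⊆ V)
    (hb' : b' ⊆ V)
    (h : b ∩ hist M K (cfg M (cl b)) B p0 = b' ∩ hist M K (cfg M (cl b)) B p0) {n : ℕ}
    (hn : ∀ k < n, P M (cfg M (cl b)) p0 k ∉ B) {m : ℕ} (hm : m < n) :
    vl M (cfg M (cl b')) p0 φ m = vl M (cfg M (cl b)) p0 φ m := by
  unfold vl
  rw [if_congr (gp_hist hχ hb hb' h hn hm) rfl rfl]
  unfold gt
  rw [P_hist hχ hb hb' h hn hm.le]

/-- the lobes inside a window -/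
theorem nl_congr {c c' : ℕ → C} {n : ℕ} (h : ∀ m < n, c' m = c m) {m : ℕ} (hm : m < n) :
    NL c' 0 n m ↔ NL c 0 n m := by
  constructor
  · intro H u h1 h2 v h3 h4
    rw [← h u (by omega), ← h v h4]
    exact H u h1 h2 v h3 h4
  · intro H u h1 h2 v h3 h4
    rw [h u (by omega), h v h4]
    exact H u h1 h2 v h3 h4

theorem no_congr {c c' : ℕ → C} {n : ℕ} (h : ∀ m < n, c' m = c m) {m : ℕ} :
    NO c' n m ↔ NO c n m := by
  constructor
  · intro H u h1 h2 v h3
    rw [← h u h2, ← h v (by omega)]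
    exact H u h1 h2 v h3
  · intro H u h1 h2 v h3
    rw [h u h2, h v (by omega)]
    exact H u h1 h2 v h3

/-- **355's chord sum is decided** -/
theorem chs_hist {S : Type*} [AddCommMonoid S] (φ : D → S) (hχ : Coins V cl K) (hb : b ⊆ V)
    (hb' : b' ⊆ V)
    (h : b ∩ hist M K (cfg M (cl b)) B p0 = b' ∩ hist M K (cfg M (cl b)) B p0) {n : ℕ}
    (hn : ∀ k < n, P M (cfg M (cl b)) p0 k ∉ B) :
    chs M (cfg M (cl b')) p0 n φ = chs M (cfg M (cl b)) p0 n φ := by
  unfold chs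
  apply sum_congr rfl
  intro m hm
  rw [mem_range] at hm
  rw [if_congr (nl_congr (fun k hk => lc_hist hχ hb hb' h hn hk.le) hm) rfl rfl,
    vl_hist φ hχ hb hb' h hn hm]

/-- **355's outer potential is decided** -/
theorem fo_hist {S : Type*} [AddCommMonoid S] (φ : D → S) (hχ : Coins V cl K) (hb : b ⊆ V)
    (hb' : b' ⊆ V)
    (h : b ∩ hist M K (cfg M (cl b)) B p0 = b' ∩ hist M K (cfg M (cl b)) B p0) {n : ℕ}
    (hn : ∀ k < n, P M (cfg M (cl b)) p0 k ∉ B) {i : ℕ} (hi : i ≤ n) :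
    Fo M (cfg M (cl b')) p0 n φ i = Fo M (cfg M (cl b)) p0 n φ i := by
  unfold Fo
  apply sum_congr rfl
  intro m hm
  rw [mem_range] at hm
  rw [if_congr (no_congr (fun k hk => lc_hist hχ hb hb' h hn hk.le)) rfl rfl,
    vl_hist φ hχ hb hb' h hn (by omega)]

end Crest.Agent.R143.RevAx389
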