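import Crest.Agent.R143.RevC_389
import Crest.Agent.R143.StrU_535
import Crest.Agent.R143.Rel2_352

/-!
# Row 143 (S0194), block H, leaf P2 (helper352): the exploration for the partial tiles

Regions `G : Rg` (389) with a small `G.Dw` (one arm box), `Rt` the tiles off the window, `d` a dart of
the ring.
* `OX` : revealed cells of the outside and of the white cluster in the arm box; `OP = OX ∪ Sd d Rt`
  (535's strand): stopping set
* `Gd`, `pq`, `pP`, `lP`, `RvP` : the outer arc = part of the strand between the first dart of the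
  chain `La` and the first dart of the chain `Lb` on it; decided
* `exP` : 355's `Ex`
* `OwP` : ring event; `con_glueP` : 355's `hT` from 389's location statement `Meet`
* `p2w` : partial tiles for one window
-/

set_option autoImplicit false
set_option linter.unusedSectionVars false

noncomputable section

open scoped Classical

namespace Crest.Agent.R143.RevPx352

open Crest.Agent.R143.Harx315 Crest.Agent.R143.Frame1x395 Crest.Agent.R143.Frame2x395
  Crest.Agent.R143.Frame3x395 Crest.Agent.R143.Frame4x395 Crest.Agent.R143.Frame8x395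
  Crest.Agent.R143.Frame9x395 Crest.Agent.R143.Frame11x395 Crest.Agent.R143.NonXx592
  Crest.Agent.R143.Coarsex166 Crest.Agent.R143.Giantx46 Crest.Agent.R143.Resax778
  Crest.Agent.R143.Partx778 Crest.Agent.R143.Chordx355 Crest.Agent.R143.ChordCx357
  Crest.Agent.R143.Chord2x355 Crest.Agent.R143.H2x355 Crest.Agent.R143.CFramex358
  Crest.Agent.R143.Runx535 Crest.Agent.R143.Gntx535

open Crest.Agent.R143.Histx389 (DecF Coins hist mem_hist inter_sub)
open Crest.Agent.R143.RevAx389 (Cl Lk coins agree cl_congr cl_col cl_lk seed_cl cl_step)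
open Crest.Agent.R143.RevCx389 (Rg Xs Fs Cw xs_congr fs_congr lk_xs cw_white h0_xs xs_far xs_ann
  xs_ind Meet rtg_chain)
open Crest.Agent.R143.Tubex389 (Ext Bl Dat tube_join z_cases nb_rho nb_rho2)
open Crest.Agent.R143.Exitx707 (Nb nb_symm)
open Crest.Agent.R143.Strandx535 (Sd Str str_agree Sd_stp str_symm str_trans str_refl str_occ mem_Sd)
open Crest.Agent.R143.StrUx535 (IsArc Rd)

variable {D C : Type} {M : CMap D C} {G : Rg D C} {Rt : Set C} {d : D} {ψ ψ' : C → ZMod 2}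

theorem mem_coins {α : Type} {V : Finset α} {K : C → Finset α} {X : Set C} {y : α} :
    y ∈ coins V K X ↔ y ∈ V ∧ ∃ c ∈ X, y ∈ K c := by
  unfold RevAx389.coins
  exact Finset.mem_filter

/-! ### the outside and the arm box -/

/-- the revealed cells of the outside and of the white cluster -/
def OX [Fintype C] (M : CMap D C) (G : Rg D C) (ψ : C → ZMod 2) : Finset C :=
  Finset.univ.filter fun c => c ∈ Lk (Nb M) G.Ann (Xs M G ψ) ∨ c ∈ Lk (Nb M) G.Dw (Cw M G ψ)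

theorem mem_ox [Fintype C] {c : C} : c ∈ OX M G ψ ↔
    c ∈ Lk (Nb M) G.Ann (Xs M G ψ) ∨ c ∈ Lk (Nb M) G.Dw (Cw M G ψ) := by
  unfold OX
  rw [Finset.mem_filter]
  exact ⟨fun h => h.2, fun h => ⟨Finset.mem_univ _, h⟩⟩

theorem ox_agree [Fintype C] (h : ∀ c ∈ OX M G ψ, ψ' c = ψ c) :
    Xs M G ψ' = Xs M G ψ ∧ Fs M G ψ' = Fs M G ψ ∧ Cw M G ψ' = Cw M G ψ := by
  have h1 : ∀ c ∈ Lk (Nb M) G.Ann (Xs M G ψ), ψ' c = ψ c := fun c hc =>
    h c (mem_ox.2 (Or.inl hc))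
  refine ⟨xs_congr h1, fs_congr h1, ?_⟩
  have h2 : Cl (Nb M) G.Dw ψ' 0 (Fs M G ψ) = Cl (Nb M) G.Dw ψ 0 (Fs M G ψ) :=
    cl_congr fun c hc => h c (mem_ox.2 (Or.inr hc))
  unfold RevCx389.Cw
  rw [fs_congr h1, h2]

theorem ox_stop [Fintype C] : StopSet (OX M G) := by
  intro ψ ψ' h
  obtain ⟨h1, -, h3⟩ := ox_agree h
  unfold OX
  rw [h1, h3]

variable [Fintype D]

/-! ### the arc of a strand -/

/-- `e, n` is the arc of the strand of `d` in `Rt` -/
structure Arc (M : CMap D C) (Rt : Set C) (d : D) (ψ : C → ZMod 2) (e : D) (n : ℕ) : Prop where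
  occ : cfg M ψ d = 1
  arc : IsArc M (cfg M ψ) Rt e n
  str : Str M (cfg M ψ) Rt d e

/-- the states of the strand of `d` -/
def Ss (M : CMap D C) (Rt : Set C) (d : D) (ψ : C → ZMod 2) : Set D :=
  {q | Str M (cfg M ψ) Rt d q}

variable {e e' : D} {n n' : ℕ}

theorem Arc.sd (A : Arc M Rt d ψ e n) :
    Sd M d Rt ψ = wl M (cfg M ψ) e n ∪ wr M (cfg M ψ) e n := A.arc.sd A.occ A.str

theorem Arc.ss (A : Arc M Rt d ψ e n) {q : D} :
    q ∈ Ss M Rt d ψ ↔ ∃ i ≤ n, P M (cfg M ψ) e i = q := A.arc.iff' A.occ A.str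

theorem Arc.agree (A : Arc M Rt d ψ e n) (h : ∀ c ∈ Sd M d Rt ψ, ψ' c = ψ c) :
    Arc M Rt d ψ' e n ∧ (∀ j ≤ n, P M (cfg M ψ') e j = P M (cfg M ψ) e j) ∧
      Ss M Rt d ψ' = Ss M Rt d ψ := by
  have h1 := h
  rw [A.sd] at h1
  obtain ⟨h2, h3⟩ := A.arc.agree h1
  obtain ⟨h4, h5⟩ := str_agree A.occ h
  refine ⟨⟨h4, h2, (h5 e).2 A.str⟩, h3, ?_⟩
  ext q
  exact h5 q

theorem Arc.uniq (A : Arc M Rt d ψ e n) (A' : Arc M Rt d ψ e' n') : e' = e ∧ n' = n :=
  A.arc.uniq A'.arc (str_trans A.arc.even A.arc.occ (str_symm A.arc.even A.occ A.str) A'.str)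

/-- colours of the cells of the arc -/
theorem Arc.lcol (A : Arc M Rt d ψ e n) (h : ∀ c ∈ Sd M d Rt ψ, ψ' c = ψ c) {j : ℕ} (hj : j ≤ n) :
    ψ' (M.cell (P M (cfg M ψ) e j)) = ψ (M.cell (P M (cfg M ψ) e j)) := by
  apply h
  rw [A.sd]
  exact Finset.mem_union_left _ (mem_wl.2 ⟨j, hj, rfl⟩)

/-- good arc: the first darts of the two chains are at the times `i ≤ j` -/
structure Gd (M : CMap D C) (G : Rg D C) (Rt : Set C) (d : D) (ψ : C → ZMod 2) (e : D)
    (n i j : ℕ) : Prop where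
  arc : Arc M Rt d ψ e n
  ij : i ≤ j
  jn : j ≤ n
  pi : P M (cfg M ψ) e i = G.La (sInf {k | G.La k ∈ Ss M Rt d ψ})
  pj : P M (cfg M ψ) e j = G.Lb (sInf {k | G.Lb k ∈ Ss M Rt d ψ})

variable {i i' j j' : ℕ}

theorem Gd.uniq (A : Gd M G Rt d ψ e n i j) (A' : Gd M G Rt d ψ e' n' i' j') :
    e' = e ∧ n' = n ∧ i' = i ∧ j' = j := by
  obtain ⟨rfl, rfl⟩ := A.arc.uniq A'.arc
  have key : ∀ {a b : ℕ}, a ≤ n' → b ≤ n' → P M (cfg M ψ) e' a = P M (cfg M ψ) e' b → a = b := by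
    intro a b ha hb h
    rcases lt_trichotomy a b with h1 | h1 | h1
    · exact absurd h (A.arc.arc.inj h1 hb)
    · exact h1
    · exact absurd h.symm (A.arc.arc.inj h1 ha)
  have h1 := A.ij
  have h2 := A.jn
  have h3 := A'.ij
  have h4 := A'.jn
  exact ⟨rfl, rfl, key (by omega) (by omega) (A'.pi.trans A.pi.symm),
    key (by omega) (by omega) (A'.pj.trans A.pj.symm)⟩

theorem Gd.agree (A : Gd M G Rt d ψ e n i j) (h : ∀ c ∈ Sd M d Rt ψ, ψ' c = ψ c) :
    Gd M G Rt d ψ' e n i j := by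
  obtain ⟨h1, h2, h3⟩ := A.arc.agree h
  have h4 := A.ij
  have h5 := A.jn
  refine ⟨h1, A.ij, A.jn, ?_, ?_⟩
  · rw [h2 i (by omega), h3]; exact A.pi
  · rw [h2 j (by omega), h3]; exact A.pj

/-- start and length of the outer arc -/
def pq (M : CMap D C) (G : Rg D C) (Rt : Set C) (d : D) (ψ : C → ZMod 2) : D × ℕ :=
  if h : ∃ z : D × ℕ × ℕ × ℕ, Gd M G Rt d ψ z.1 z.2.1 z.2.2.1 z.2.2.2 then
    (P M (cfg M ψ) h.choose.1 h.choose.2.2.1, h.choose.2.2.2 - h.choose.2.2.1 + 1)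
  else (d, 0)

/-- start of the outer arc -/
def pP (M : CMap D C) (G : Rg D C) (Rt : Set C) (d : D) (ψ : C → ZMod 2) : D := (pq M G Rt d ψ).1

/-- length of the outer arc -/
def lP (M : CMap D C) (G : Rg D C) (Rt : Set C) (d : D) (ψ : C → ZMod 2) : ℕ := (pq M G Rt d ψ).2

theorem Gd.eq (A : Gd M G Rt d ψ e n i j) :
    pP M G Rt d ψ = P M (cfg M ψ) e i ∧ lP M G Rt d ψ = j - i + 1 := by
  have h : ∃ z : D × ℕ × ℕ × ℕ, Gd M G Rt d ψ z.1 z.2.1 z.2.2.1 z.2.2.2 := ⟨(e, n, i, j), A⟩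
  obtain ⟨h1, h2, h3, h4⟩ := A.uniq h.choose_spec
  unfold pP lP pq
  rw [dif_pos h]
  dsimp only
  rw [h1, h3, h4]
  exact ⟨rfl, rfl⟩

theorem lP_gd (h : lP M G Rt d ψ ≠ 0) : ∃ e n i j, Gd M G Rt d ψ e n i j := by
  by_contra hc
  apply h
  unfold lP pq
  rw [dif_neg]
  rintro ⟨z, hz⟩
  exact hc ⟨_, _, _, _, hz⟩

/-- the states of the outer arc -/
theorem Gd.st (A : Gd M G Rt d ψ e n i j) (a : ℕ) :
    P M (cfg M ψ) (pP M G Rt d ψ) a = P M (cfg M ψ) e (a + i) := by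
  rw [A.eq.1, P_add]

/-- **the outer arc is decided by the strand** -/
theorem pq_agree (h : ∀ c ∈ Sd M d Rt ψ, ψ' c = ψ c) :
    pP M G Rt d ψ' = pP M G Rt d ψ ∧ lP M G Rt d ψ' = lP M G Rt d ψ ∧
      (∀ a, a < lP M G Rt d ψ →
        P M (cfg M ψ') (pP M G Rt d ψ) a = P M (cfg M ψ) (pP M G Rt d ψ) a) ∧
      ∀ a, a < lP M G Rt d ψ → ψ' (M.cell (P M (cfg M ψ) (pP M G Rt d ψ) a)) =
        ψ (M.cell (P M (cfg M ψ) (pP M G Rt d ψ) a)) := by
  by_cases hex : ∃ z : D × ℕ × ℕ × ℕ, Gd M G Rt d ψ z.1 z.2.1 z.2.2.1 z.2.2.2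
  · obtain ⟨⟨e, n, i, j⟩, A⟩ := hex
    dsimp only at A
    have A' := A.agree h
    obtain ⟨-, h2, -⟩ := A.arc.agree h
    have h4 := A.ij
    have h5 := A.jn
    have e1 : pP M G Rt d ψ' = pP M G Rt d ψ := by
      rw [A'.eq.1, A.eq.1, h2 i (by omega)]
    refine ⟨e1, by rw [A'.eq.2, A.eq.2], fun a ha => ?_, fun a ha => ?_⟩
    · rw [A.eq.2] at ha
      rw [← e1, A'.st, e1, A.st, h2 (a + i) (by omega)]
    · rw [A.eq.2] at ha
      rw [A.st]
      exact A.arc.lcol h (by omega)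
  · have hex' : ¬ ∃ z : D × ℕ × ℕ × ℕ, Gd M G Rt d ψ' z.1 z.2.1 z.2.2.1 z.2.2.2 := by
      rintro ⟨z, hz⟩
      apply hex
      refine ⟨z, hz.agree fun c hc => ?_⟩
      rw [Sd_stp d Rt ψ ψ' h] at hc
      exact (h c hc).symm
    have e1 : pq M G Rt d ψ = (d, 0) := dif_neg hex
    have e2 : pq M G Rt d ψ' = (d, 0) := dif_neg hex'
    unfold pP lP
    rw [e1, e2]
    exact ⟨rfl, rfl, fun a ha => absurd ha (Nat.not_lt_zero a),
      fun a ha => absurd ha (Nat.not_lt_zero a)⟩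

/-- right cells of the outer arc -/
def RvP (M : CMap D C) (G : Rg D C) (Rt : Set C) (d : D) (ψ : C → ZMod 2) : Set C :=
  {c | ∃ a, a < lP M G Rt d ψ ∧ c = M.cell (M.rho (P M (cfg M ψ) (pP M G Rt d ψ) a))}

theorem rvP_agree (h : ∀ c ∈ Sd M d Rt ψ, ψ' c = ψ c) : RvP M G Rt d ψ' = RvP M G Rt d ψ := by
  obtain ⟨h1, h2, h3, -⟩ := pq_agree (G := G) h
  ext c
  unfold RvP
  rw [h1, h2]
  constructor
  · rintro ⟨a, ha, e⟩
    exact ⟨a, ha, by rw [← h3 a ha]; exact e⟩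
  · rintro ⟨a, ha, e⟩
    exact ⟨a, ha, by rw [h3 a ha]; exact e⟩

/-- the outer arc is an outer arc -/
theorem Gd.oa (A : Gd M G Rt d ψ e n i j) :
    Oa M (cfg M ψ) (pP M G Rt d ψ) (lP M G Rt d ψ) (RvP M G Rt d ψ) :=
  ⟨cfg_isC _, by rw [A.eq.1]; exact P_occ A.arc.arc.even A.arc.arc.occ i, fun a ha => ⟨a, ha, rfl⟩⟩

/-! ### the exploration -/

variable [Fintype C]

/-- the exploration -/
def OP (M : CMap D C) (G : Rg D C) (Rt : Set C) (d : D) (ψ : C → ZMod 2) : Finset C :=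
  OX M G ψ ∪ Sd M d Rt ψ

theorem op_stop : StopSet (OP M G Rt d) := Stp.union (R := OX M G) ox_stop (Sd_stp d Rt)

theorem op_x (h : ∀ c ∈ OP M G Rt d ψ, ψ' c = ψ c) : ∀ c ∈ OX M G ψ, ψ' c = ψ c :=
  fun c hc => h c (Finset.mem_union_left _ hc)

theorem op_s (h : ∀ c ∈ OP M G Rt d ψ, ψ' c = ψ c) : ∀ c ∈ Sd M d Rt ψ, ψ' c = ψ c :=
  fun c hc => h c (Finset.mem_union_right _ hc)

variable {α : Type} {V : Finset α} {χ : Finset α → C → ZMod 2} {K : C → Finset α} {b b' : Finset α}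

/-- the coins of the exploration -/
def RP (M : CMap D C) (G : Rg D C) (Rt : Set C) (d : D) (V : Finset α)
    (χ : Finset α → C → ZMod 2) (K : C → Finset α) (b : Finset α) : Finset α :=
  coins V K {c | c ∈ OP M G Rt d (χ b)}

theorem rp_agree (hχ : Coins V χ K) (hK : ∀ c, K c ⊆ V) (hb : b ⊆ V) (hb' : b' ⊆ V)
    (h : b ∩ RP M G Rt d V χ K b = b' ∩ RP M G Rt d V χ K b) :
    ∀ c ∈ OP M G Rt d (χ b), χ b' c = χ b c := fun c hc => agree hχ hK hb hb' h c hc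

theorem rp_stop (hχ : Coins V χ K) (hK : ∀ c, K c ⊆ V) : IsStop V (RP M G Rt d V χ K) where
  sub b _ := by
    intro y hy
    exact (mem_coins.1 hy).1
  stop b b' hb hb' h := by
    unfold RP
    rw [op_stop _ _ (rp_agree hχ hK hb hb' h)]

/-- adapted functions are decided -/
theorem rp_dec {β : Type*} {F : (C → ZMod 2) → β}
    (hF : ∀ ψ ψ', (∀ c ∈ OP M G Rt d ψ, ψ' c = ψ c) → F ψ' = F ψ)
    (hχ : Coins V χ K) (hK : ∀ c, K c ⊆ V) : DecF V (RP M G Rt d V χ K) fun b => F (χ b) :=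
  fun _ _ hb hb' h => (hF _ _ (rp_agree hχ hK hb hb' h)).symm

theorem wt_le_one {O : (C → ZMod 2) → Finset C} {g : (C → ZMod 2) → ℝ} (hg : ∀ σ, g σ ≤ 1)
    (ψ : C → ZMod 2) : wt O g ψ ≤ 1 := by
  unfold wt
  rw [div_le_one (by exact_mod_cast pow_pos Fintype.card_pos _)]
  refine (Finset.sum_le_sum fun τ _ => hg _).trans (le_of_eq ?_)
  rw [Finset.sum_const, Finset.card_univ, nsmul_eq_mul, mul_one, Fintype.card_fun]

/-- a representative with `g ≠ 0` -/
theorem wt_rep {O : (C → ZMod 2) → Finset C} {g : (C → ZMod 2) → ℝ} (h : wt O g ψ ≠ 0) :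
    ∃ σ, g σ ≠ 0 ∧ ∀ c ∈ O ψ, σ c = ψ c := by
  unfold wt at h
  have h1 : ∑ τ, g (mix O ψ τ) ≠ 0 := fun h2 => h (by rw [h2, zero_div])
  obtain ⟨τ, -, h2⟩ := Finset.exists_ne_zero_of_sum_ne_zero h1
  exact ⟨_, h2, fun c hc => mix_on hc⟩

variable {w : Finset α → ℝ} {g : (C → ZMod 2) → ℝ}

/-- **355's `Ex`** -/
theorem exP (hχ : Coins V χ K) (hK : ∀ c, K c ⊆ V) (g0 : ∀ σ, 0 ≤ g σ) (g1 : ∀ σ, g σ ≤ 1)
    (hw : ∀ b, b ⊆ V → w b = wt (OP M G Rt d) g (χ b))
    (ho : ∀ σ, g σ ≠ 0 → ∃ e n i j, Gd M G Rt d σ e n i j) :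
    Ex M V χ K (RP M G Rt d V χ K) (fun b => pP M G Rt d (χ b)) (fun b => lP M G Rt d (χ b))
      (fun b => RvP M G Rt d (χ b)) w where
  coins := hχ
  sub := hK
  stop := rp_stop hχ hK
  dp := rp_dec (fun _ _ h => (pq_agree (op_s h)).1) hχ hK
  dl := rp_dec (fun _ _ h => (pq_agree (op_s h)).2.1) hχ hK
  dr := rp_dec (fun _ _ h => rvP_agree (op_s h)) hχ hK
  dw b b' hb hb' h := by
    rw [hw b hb, hw b' hb']
    exact (wt_adp op_stop g _ _ (rp_agree hχ hK hb hb' h)).symm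
  w0 b hb := by rw [hw b hb]; exact wt_nonneg g0 _
  w1 b hb := by rw [hw b hb]; exact wt_le_one g1 _
  st b b' hb hb' h a ha := (pq_agree (op_s (rp_agree hχ hK hb hb' h))).2.2.1 a ha
  co b b' hb hb' h a ha := (pq_agree (op_s (rp_agree hχ hK hb hb' h))).2.2.2 a ha
  oa b hb hw' := by
    rw [hw b hb] at hw'
    obtain ⟨σ, h1, h2⟩ := wt_rep hw'
    obtain ⟨e, n, i, j, A⟩ := ho σ h1
    have h3 : ∀ c ∈ OP M G Rt d σ, χ b c = σ c := by
      intro c hc
      rw [op_stop (χ b) σ h2] at hc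
      exact (h2 c hc).symm
    exact (A.agree (op_s h3)).oa


/-! ### good chords -/

/-- good chords: different end cells, order, reaches `Co` -/
def gdG (M : CMap D C) (Co : Set C) (x : D → ZMod 2) (p₀ : D) (len : ℕ) (k : D) (n : ℕ) : Prop :=
  M.cell (M.rho k) ≠ lc M x (M.rho k) n ∧
  (∀ j, j < len → lc M x p₀ j = lc M x (M.rho k) n →
    ∃ j', j ≤ j' ∧ j' < len ∧ lc M x p₀ j' = M.cell (M.rho k)) ∧
  ∃ u, u ≤ n ∧ lc M x (M.rho k) u ∈ Co

theorem gdG_dec {R1 : Finset α → Finset α} {p₀ : Finset α → D} {len : Finset α → ℕ}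
    {Rv : Finset α → Set C} {Co : Set C} (E : Ex M V χ K R1 p₀ len Rv w) :
    GDec M V χ K R1 p₀ len Rv
      (fun b k n => gdG M Co (cfg M (χ b)) (p₀ b) (len b) k n) := by
  intro b b' k n hb hb' h hc hg
  have hst := (E.cd hb hb' h hc).2
  have h2 : b ∩ R1 b = b' ∩ R1 b := inter_sub h Finset.subset_union_left
  have el := E.dl b b' hb hb' h2
  have ep := E.dp b b' hb hb' h2
  have hst2 : ∀ a, a < len b →
      lc M (cfg M (χ b')) (p₀ b') a = lc M (cfg M (χ b)) (p₀ b) a := by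
    intro a ha
    unfold lc
    rw [← ep, E.st b b' hb hb' h2 a ha]
  have hst1 : ∀ u, u ≤ n → lc M (cfg M (χ b')) (M.rho k) u = lc M (cfg M (χ b)) (M.rho k) u := by
    intro u hu
    unfold lc
    rw [hst u hu]
  obtain ⟨g1, g2, u, g3, g4⟩ := hg
  refine ⟨by rw [hst1 n le_rfl]; exact g1, ?_, u, g3, by rw [hst1 u g3]; exact g4⟩
  intro j hj e
  rw [← el] at hj
  rw [hst2 j hj, hst1 n le_rfl] at e
  obtain ⟨j', h3, h4, h5⟩ := g2 j hj e
  exact ⟨j', h3, by rw [← el]; exact h4, by rw [hst2 j' h4]; exact h5⟩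

/-! ### the event -/

omit [Fintype C] in
/-- the ring event for the partial tiles -/
structure OwP (M : CMap D C) (G : Rg D C) (Rt : Set C) (d : D) (ψ : C → ZMod 2) : Prop where
  gd : ∃ e n i j, Gd M G Rt d ψ e n i j
  x1 : ∀ a ∈ Xs M G ψ, ∀ c, Nb M a c → c ∈ G.Far ∨ c ∈ G.Ann
  bl : ψ (M.cell (pP M G Rt d ψ)) = 1
  lx : ∀ a, a < lP M G Rt d ψ → M.cell (P M (cfg M ψ) (pP M G Rt d ψ) a) ∉ Xs M G ψ
  ac : ∃ a, a < lP M G Rt d ψ ∧
    M.cell (M.rho (P M (cfg M ψ) (pP M G Rt d ψ) a)) ∈ Cw M G ψ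
  sd : ∀ c ∈ Sd M d Rt ψ, c ∉ G.Th ∧ c ∉ G.Dp
  dp : ∀ c ∈ Lk (Nb M) G.Dw (Cw M G ψ), c ∉ G.Dp

theorem OwP.agree (H : OwP M G Rt d ψ) (h : ∀ c ∈ OP M G Rt d ψ, ψ' c = ψ c) :
    OwP M G Rt d ψ' := by
  obtain ⟨h1, h2, h3⟩ := ox_agree (op_x h)
  obtain ⟨h4, h5, h6, h7⟩ := pq_agree (G := G) (op_s h)
  have h8 : Sd M d Rt ψ' = Sd M d Rt ψ := Sd_stp d Rt ψ ψ' (op_s h)
  obtain ⟨e, n, i, j, A⟩ := H.gd
  have hpos : 0 < lP M G Rt d ψ := by rw [A.eq.2]; exact Nat.succ_pos _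
  refine ⟨⟨e, n, i, j, A.agree (op_s h)⟩, ?_, ?_, ?_, ?_, ?_, ?_⟩
  · rw [h1]; exact H.x1
  · rw [h4]
    exact (h7 0 hpos).trans H.bl
  · intro a ha
    rw [h5] at ha
    rw [h4, h6 a ha, h1]
    exact H.lx a ha
  · obtain ⟨a, ha, h9⟩ := H.ac
    exact ⟨a, by rw [h5]; exact ha, by rw [h4, h6 a ha, h3]; exact h9⟩
  · rw [h8]; exact H.sd
  · rw [h3]; exact H.dp

omit [Fintype C] in
theorem OwP.pos (H : OwP M G Rt d ψ) : 0 < lP M G Rt d ψ := by
  obtain ⟨e, n, i, j, A⟩ := H.gd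
  rw [A.eq.2]
  exact Nat.succ_pos _

omit [Fintype C] in
/-- the cells of the outer arc are cells of the strand -/
theorem OwP.mem (H : OwP M G Rt d ψ) {a : ℕ} (ha : a < lP M G Rt d ψ) :
    M.cell (P M (cfg M ψ) (pP M G Rt d ψ) a) ∈ Sd M d Rt ψ ∧
      M.cell (M.rho (P M (cfg M ψ) (pP M G Rt d ψ) a)) ∈ Sd M d Rt ψ := by
  obtain ⟨e, n, i, j, A⟩ := H.gd
  rw [A.eq.2] at ha
  have h1 := A.ij
  have h2 := A.jn
  rw [A.arc.sd, A.st]
  exact ⟨Finset.mem_union_left _ (mem_wl.2 ⟨a + i, by omega, rfl⟩),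
    Finset.mem_union_right _ (mem_wr.2 ⟨a + i, by omega, rfl⟩)⟩

/-- **the good chords are joined in the glued configuration** -/
theorem con_glueP {Co : Set C} (hχ : Coins V χ K) (hK : ∀ c, K c ⊆ V)
    (hdis : ∀ c c' y, y ∈ K c → y ∈ K c' → c = c')
    (hTh : ∀ c, c ∈ G.Dw → c ∉ G.Th)
    (hgen : ∀ d, M.cell d ≠ G.h0 → Gen M (M.cell d))
    (E : Ex M V χ K (RP M G Rt d V χ K) (fun b => pP M G Rt d (χ b)) (fun b => lP M G Rt d (χ b))
      (fun b => RvP M G Rt d (χ b)) w)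
    (hb : b ⊆ V) (hb' : b' ⊆ V) (H : OwP M G Rt d (χ b)) {k : D} {n : ℕ}
    (hc : Cd M (cfg M (χ b)) (pP M G Rt d (χ b)) (lP M G Rt d (χ b)) (RvP M G Rt d (χ b)) k n)
    (hg : gdG M Co (cfg M (χ b)) (pP M G Rt d (χ b)) (lP M G Rt d (χ b)) k n)
    (hm : Meet M G χ b b' k n) {R : Finset α}
    (hR : R = R2 M χ K (RP M G Rt d V χ K) (fun b => pP M G Rt d (χ b))
      (fun b => lP M G Rt d (χ b)) k b) :
    Con M (cfg M (χ (b' \ R ∪ b ∩ R))) (M.cell (M.rho (pP M G Rt d (χ b))))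
      (M.cell (M.rho (M.rho k))) := by
  set g := b' \ R ∪ b ∩ R with hgdef
  have hgV : g ⊆ V := Finset.union_subset (Finset.sdiff_subset.trans hb')
    (Finset.inter_subset_left.trans hb)
  have hgR : b ∩ R = g ∩ R := by
    ext y
    simp only [hgdef, Finset.mem_inter, Finset.mem_union, Finset.mem_sdiff]
    constructor
    · rintro ⟨h1, h2⟩; exact ⟨Or.inr ⟨h1, h2⟩, h2⟩
    · rintro ⟨⟨-, h1⟩ | h1, h2⟩
      · exact absurd h2 h1
      · exact h1
  have hgR' := hgR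
  rw [hR] at hgR'
  obtain ⟨hcg, hst⟩ := E.cd hb hgV hgR' hc
  have h1 : b ∩ RP M G Rt d V χ K b = g ∩ RP M G Rt d V χ K b :=
    inter_sub hgR' Finset.subset_union_left
  have hag := rp_agree hχ hK hb hgV h1
  obtain ⟨eX, eF, eC⟩ := ox_agree (op_x hag)
  obtain ⟨ep, el, hsa, hco⟩ := pq_agree (G := G) (op_s hag)
  have Hg := H.agree hag
  have hpos := H.pos
  obtain ⟨ea, na, ia, ja, A⟩ := H.gd
  set ψ := χ g with hψ
  set x := cfg M ψ with hx
  have hxc : IsC M ∅ x := cfg_isC ψ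
  set r0 := pP M G Rt d (χ b) with hr0
  set L := lP M G Rt d (χ b) with hL
  have hlX : ∀ a, a < L → M.cell (P M x r0 a) ∉ Xs M G ψ := by
    intro a ha
    rw [hsa a ha, eX]
    exact H.lx a ha
  have hlt : ∀ a, a < L → M.cell (P M x r0 a) ∉ G.Th ∧ M.cell (P M x r0 a) ∉ G.Dp := by
    intro a ha
    rw [hsa a ha]
    exact H.sd _ (H.mem ha).1
  -- black left cells
  have hbl0 : ψ (M.cell r0) = 1 := (hco 0 hpos).trans H.bl
  have hocc : x r0 = 1 := by
    have h2 := (Hg.gd.choose_spec.choose_spec.choose_spec.choose_spec).oa.occ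
    rw [ep] at h2
    exact h2
  have hsame : ∀ d, x d = 0 → ψ (M.cell d) = ψ (M.cell (M.rho d)) := by
    intro d hd
    have : ψ (M.cell d) + ψ (M.cell (M.rho d)) = 0 := hd
    revert this
    generalize ψ (M.cell d) = a
    generalize ψ (M.cell (M.rho d)) = c
    revert a c; decide
  have hbla : ∀ a, ψ (M.cell (P M x r0 a)) = 1 := fun a =>
    (it_col hxc hocc hsame a).trans hbl0
  -- the outside
  have hext : Ext M ψ (Xs M G ψ) (Fs M G ψ) := by
    refine ⟨fun a c ha hn => ?_, fun c hc => hc.2.1⟩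
    rcases Hg.x1 a ha c hn with h2 | h2
    · exact Or.inl (xs_far ha hn h2)
    · exact lk_xs ⟨h2, a, ha, hn⟩
  have hkc : ∀ c, c ∈ Kc M x r0 L → ψ c = 1 ∧ c ∉ Xs M G ψ ∧ Gen M c := by
    rintro c ⟨a, ha, rfl⟩
    have h2 : M.cell (P M x r0 a) ∉ Xs M G ψ := hlX a ha
    exact ⟨hbla a, h2, hgen _ fun e => h2 (e ▸ h0_xs)⟩
  have ecd : Cd M x r0 L (RvP M G Rt d ψ) k n := by
    have h2 : Cd M x (pP M G Rt d (χ g)) (lP M G Rt d (χ g)) (RvP M G Rt d (χ g)) k n := hcg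
    rw [ep, el] at h2
    exact h2
  have bp : Bl M ψ (Xs M G ψ) (M.rho k) := ⟨ecd.gp.2, (hkc _ ecd.c0).1, (hkc _ ecd.c0).2.1⟩
  have br : Bl M ψ (Xs M G ψ) r0 := ⟨hocc, hbl0, hlX 0 hpos⟩
  have elc : ∀ u, u ≤ n → lc M x (M.rho k) u = lc M (cfg M (χ b)) (M.rho k) u := by
    intro u hu
    unfold lc
    rw [hst u hu]
  have ela : ∀ u, u < L → lc M x r0 u = lc M (cfg M (χ b)) r0 u := by
    intro u hu
    unfold lc
    rw [hsa u hu]
  have hdat : Dat M ψ (Xs M G ψ) (Fs M G ψ) (M.rho k) r0 n (L - 1) := by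
    refine ⟨hext, bp, br, ?_, ?_, ?_, ?_, ?_, (hkc _ ecd.c0).2.2, (hkc _ ecd.c1).2.2⟩
    · -- the states are distinct
      intro i j hij hj e
      have h2 := A.eq.2
      have h3 := A.ij
      have h4 := A.jn
      have e2 : P M (cfg M (χ b)) r0 i = P M (cfg M (χ b)) r0 j := by
        rw [← hsa i (by omega), ← hsa j (by omega)]; exact e
      rw [hr0, A.st, A.st] at e2
      exact A.arc.arc.inj (i := i + ia) (j := j + ia) (by omega) (by omega) e2
    · intro u h2 h3 j hj e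
      apply ecd.int u h2 h3
      exact ⟨j, by omega, e.symm⟩
    · obtain ⟨a, ha, e⟩ := ecd.c1
      exact ⟨a, by omega, e⟩
    · intro j hj e
      obtain ⟨j', h2, h3, h4⟩ := hg.2.1 j (by omega) (by
        rw [← ela j (by omega), ← elc n le_rfl]; exact e)
      refine ⟨j', h2, by omega, ?_⟩
      have h5 := ela j' (by omega)
      rw [h4] at h5
      exact h5
    · have := hg.1
      rw [← elc n le_rfl] at this
      exact this
  -- connectivity of the outside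
  have hconn : ∀ c ∈ Xs M G ψ ∪ Fs M G ψ, Relation.ReflTransGen
      (fun a a' => a ∈ Xs M G ψ ∪ Fs M G ψ ∧ a' ∈ Xs M G ψ ∪ Fs M G ψ ∧ Nb M a a') G.h0 c := by
    have key : ∀ c ∈ Xs M G ψ, Relation.ReflTransGen
      (fun a a' => a ∈ Xs M G ψ ∪ Fs M G ψ ∧ a' ∈ Xs M G ψ ∪ Fs M G ψ ∧ Nb M a a') G.h0 c := by
      refine xs_ind Relation.ReflTransGen.refl fun a c h2 ih h3 h4 => ?_
      have h5 : c ∈ Xs M G ψ := Relation.ReflTransGen.tail h2 ⟨h3, h4⟩
      exact ih.tail ⟨Or.inl h2, Or.inl h5, h3⟩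
    intro c hc
    rcases hc with hc | hc
    · exact key c hc
    · obtain ⟨h2, h3, a, h4, h5⟩ := hc
      exact (key a h4).tail ⟨Or.inl h4, Or.inr ⟨h2, h3, a, h4, h5⟩, h5⟩
  -- the chain from the right of the outer arc to the outside
  obtain ⟨a0, ha0, hz0⟩ := Hg.ac
  rw [el] at ha0
  rw [ep] at hz0
  obtain ⟨z, hz, hpath⟩ := hz0
  obtain ⟨u, ku, hu0, huk, hur⟩ := rtg_chain hpath
  obtain ⟨v, m, hv0, hvadj, hvcol, jn, hjn, hvm⟩ := hm
  rw [← eX, ← eF] at hv0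
  -- colours along the tube
  have hvcol' : ∀ i, i ≤ m → v i ∈ Xs M G ψ ∪ Fs M G ψ ∨
      ((v i ∈ G.Th ∨ v i ∈ G.Dp) ∧ χ b' (v i) = 0) := by
    intro i hi
    have := hvcol i hi
    rw [← eX, ← eF] at this
    exact this
  have hrw : ∀ j, ψ (M.cell (M.rho (P M x (M.rho k) j))) = 0 := by
    intro j
    have h2 := (bp.it hext j)
    have h3 : ψ (M.cell (P M x (M.rho k) j)) + ψ (M.cell (M.rho (P M x (M.rho k) j))) = 1 := h2.occ
    rw [h2.bl] at h3
    revert h3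
    generalize ψ (M.cell (M.rho (P M x (M.rho k) j))) = a
    revert a; decide
  have hcol : ∀ i, i ≤ m → v i ∈ Xs M G ψ ∪ Fs M G ψ ∨ ψ (v i) = 0 ∨
      ∃ j, j ≤ n ∧ v i = M.cell (P M x (M.rho k) j) := by
    intro i hi
    rcases hvcol' i hi with h2 | ⟨h2, h3⟩
    · exact Or.inl h2
    by_cases hXF : v i ∈ Xs M G ψ ∪ Fs M G ψ
    · exact Or.inl hXF
    right
    by_cases hex : ∃ y, y ∈ K (v i) ∧ y ∈ R
    · obtain ⟨y, hy1, hy2⟩ := hex
      rw [hR] at hy2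
      rcases Finset.mem_union.1 hy2 with hy | hy
      · exfalso
        obtain ⟨c, hc1, hc2⟩ := (mem_coins.1 hy).2
        obtain rfl := hdis _ _ _ hy1 hc2
        rcases Finset.mem_union.1 hc1 with h4 | h4
        · rcases mem_ox.1 h4 with h5 | h5
          · apply hXF
            rw [eX, eF]
            exact lk_xs h5
          · rcases h2 with h2 | h2
            · exact hTh _ h5.1 h2
            · exact H.dp _ h5 h2
        · rcases h2 with h2 | h2
          · exact (H.sd _ h4).1 h2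
          · exact (H.sd _ h4).2 h2
      · obtain ⟨p, ⟨j, rfl, hjB⟩, hp2⟩ := mem_hist.1 hy
        -- the state `out k` after `j` steps is the state `j + 1` of the chord
        have hgpb : Gp M (cfg M (χ b)) k := hc.gp
        have hsh : ∀ j, P M (cfg M (χ b)) (out M k) j = P M (cfg M (χ b)) (M.rho k) (j + 1) := by
          intro j
          rw [P_add]
          congr 1
          exact (hgpb.stp (cfg_isC _)).symm
        have hjn : j + 1 ≤ n := by
          by_contra hlt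
          apply hjB (n - 1) (by have := hc.pos; omega)
          show M.cell ((stp M (cfg M (χ b)))^[n - 1] (out M k)) ∈
            Kc M (cfg M (χ b)) (pP M G Rt d (χ b)) (lP M G Rt d (χ b))
          have h4 := hsh (n - 1)
          rw [Nat.sub_add_cancel hc.pos] at h4
          rw [show (stp M (cfg M (χ b)))^[n - 1] (out M k) = P M (cfg M (χ b)) (M.rho k) n from h4]
          exact hc.c1
        have h5 : (stp M (cfg M (χ b)))^[j] (out M k) = P M x (M.rho k) (j + 1) := by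
          rw [hst (j + 1) hjn]; exact hsh j
        rw [h5] at hp2
        rcases hp2 with h6 | h6 | ⟨h7, h6⟩
        · exact Or.inr ⟨j + 1, hjn, hdis _ _ _ hy1 h6⟩
        · left
          rw [hdis _ _ _ hy1 h6]
          exact hrw (j + 1)
        · -- third cell
          have hjn2 : j + 1 < n := by
            rcases Nat.lt_or_ge (j + 1) n with h8 | h8
            · exact h8
            · exfalso
              apply h7
              have : n = j + 1 := by omega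
              show M.cell (P M x (M.rho k) (j + 1)) ∈
                Kc M (cfg M (χ b)) (pP M G Rt d (χ b)) (lP M G Rt d (χ b))
              rw [← this, hst n le_rfl]
              exact hc.c1
          have e6 := hdis _ _ _ hy1 h6
          rcases stp_cases hxc (P_occ hxc bp.occ (j + 1)) (Set.notMem_empty _) with
            ⟨h8, -, h9⟩ | ⟨-, h8, h9⟩
          · right
            refine ⟨j + 2, by omega, ?_⟩
            rw [P_succ, h9, M.cell_iota _ (hxc.lv h8)]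
            exact e6
          · left
            have h10 := hrw (j + 2)
            rw [P_succ, h9, cell_rho_iota M (hxc.lv h8)] at h10
            rw [e6]; exact h10
    · left
      push Not at hex
      have h4 : b' ∩ K (v i) = g ∩ K (v i) := by
        ext y
        simp only [hgdef, Finset.mem_inter, Finset.mem_union, Finset.mem_sdiff]
        constructor
        · rintro ⟨h5, h6⟩; exact ⟨Or.inl ⟨h5, hex y h6⟩, h6⟩
        · rintro ⟨⟨h5, -⟩ | ⟨-, h5⟩, h6⟩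
          · exact ⟨h5, h6⟩
          · exact absurd h5 (hex y h6)
      rw [hψ, ← hχ (v i) b' g hb' hgV h4]
      exact h3
  have hwK : ∀ i, i ≤ m → ∀ j, j ≤ L - 1 → v i ≠ M.cell (P M x r0 j) := by
    intro i hi j hj e
    have hlt' := hlt j (by omega)
    rcases hvcol' i hi with h2 | ⟨h2 | h2, -⟩
    · rcases h2 with h2 | h2
      · exact hlX j (by omega) (e ▸ h2)
      · have h3 := h2.2.1
        rw [e, hbla j] at h3
        exact absurd h3 (by decide)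
    · exact hlt'.1 (e ▸ h2)
    · exact hlt'.2 (e ▸ h2)
  have hwn : ∃ j, j ≤ n ∧ (v m = M.cell (P M x (M.rho k) j) ∨
      v m = M.cell (M.rho (P M x (M.rho k) j))) := by
    refine ⟨jn, hjn, ?_⟩
    rw [hst jn hjn]
    exact hvm
  have hucol : ∀ i, i ≤ ku → u i ∈ Xs M G ψ ∪ Fs M G ψ ∨ ψ (u i) = 0 := by
    intro i hi
    right
    rcases Nat.lt_or_ge i ku with h2 | h2
    · exact (hur i h2).2.2
    · have : i = ku := by omega
      rw [this, huk]; exact hz.2.1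
  obtain ⟨t, ht⟩ : ∃ t, P M x r0 t = M.rho k :=
    tube_join (M := M) (ψ := ψ) hdat (h0 := G.h0) (Or.inl h0_xs) hconn
      (u := u) (k := ku) ⟨a0, by omega, hu0⟩ (fun i hi => nb_symm (hur i hi).1)
      hucol (by rw [huk]; exact Or.inr hz) (w := v) (n := m) hv0 hvadj hcol hwK hwn
  have h2 := con_right hxc hocc t
  rw [ht] at h2
  exact h2

end Crest.Agent.R143.RevPx352
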