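import Crest.Agent.R143.RevP_352
import Crest.Agent.R143.Rel5_352

/-!
# Row 143 (S0194), block H, leaf P2 (helper352): partial tiles for one window, from ring facts

* `str_mono`, `sd_mono` : strands in a smaller region
* `StP` : static facts of the regions; `RgP` : facts of a configuration with `g ≠ 0`
* `gia` : the giants (outside; left and right cells of the arcs in `Rg i`)
* `p2w` : **PARTIAL TILES for one window**
-/

set_option autoImplicit false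
set_option linter.unusedSectionVars false

noncomputable section

open scoped Classical

namespace Crest.Agent.R143.RevQx352

open Crest.Agent.R143.Harx315 Crest.Agent.R143.Frame1x395 Crest.Agent.R143.Frame2x395
  Crest.Agent.R143.Frame3x395 Crest.Agent.R143.Frame4x395 Crest.Agent.R143.Frame8x395
  Crest.Agent.R143.Frame9x395 Crest.Agent.R143.Frame11x395 Crest.Agent.R143.NonXx592
  Crest.Agent.R143.Coarsex166 Crest.Agent.R143.Giantx46 Crest.Agent.R143.Resax778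
  Crest.Agent.R143.Partx778 Crest.Agent.R143.Chordx355 Crest.Agent.R143.ChordCx357
  Crest.Agent.R143.Chord2x355 Crest.Agent.R143.H2x355 Crest.Agent.R143.CFramex358
  Crest.Agent.R143.Runx535 Crest.Agent.R143.Gntx535 Crest.Agent.R143.Relx352

open Crest.Agent.R143.Histx389 (DecF Coins hist mem_hist inter_sub)
open Crest.Agent.R143.RevAx389 (Cl Lk coins agree)
open Crest.Agent.R143.RevCx389 (Rg Xs Fs Cw xs_congr fs_congr lk_xs cw_white h0_xs xs_far xs_ann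
  xs_ind Meet rtg_chain)
open Crest.Agent.R143.Exitx707 (Nb nb_symm)
open Crest.Agent.R143.Strandx535 (Sd Str Rch fc str_agree Sd_stp str_symm str_trans str_refl
  str_occ mem_Sd)
open Crest.Agent.R143.StrUx535 (IsArc Rd)
open Crest.Agent.R143.Rel3x126 (Ua mem_Ua p2_of)
open Crest.Agent.R143.Rel5x352 (Gia KK arcsW)
open Crest.Agent.R143.RevPx352

variable {D C : Type} {M : CMap D C} {G : Rg D C} {Rt Rt' : Set C} {d : D} {ψ ψ' : C → ZMod 2}

/-! ### strands in a smaller region -/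

theorem fc_mono (h : Rt' ⊆ Rt) {q : D} (hq : fc M Rt' q) : fc M Rt q := ⟨h hq.1, h hq.2.1, h hq.2.2⟩

theorem rch_mono (h : Rt' ⊆ Rt) {x : D → ZMod 2} {q r : D} (H : Rch M x Rt' q r) :
    Rch M x Rt q r := by
  obtain ⟨j, h1, h2⟩ := H
  exact ⟨j, fun i hi => fc_mono h (h1 i hi), h2⟩

theorem str_mono (h : Rt' ⊆ Rt) {x : D → ZMod 2} {q r : D} (H : Str M x Rt' q r) :
    Str M x Rt q r := H.imp (rch_mono h) (rch_mono h)

variable [Fintype D]

/-- the strand of a dart of the strand in a smaller region -/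
theorem sd_mono (h : Rt' ⊆ Rt) (hd : cfg M ψ d = 1) {q : D} (hq : q ∈ Ss M Rt d ψ) :
    Sd M q Rt' ψ ⊆ Sd M d Rt ψ := by
  intro c hc
  have hqo : cfg M ψ q = 1 := str_occ (cfg_isC ψ) hd hq
  obtain ⟨r, hr, e⟩ := (mem_Sd hqo).1 hc
  exact (mem_Sd hd).2 ⟨r, str_trans (cfg_isC ψ) hd hq (str_mono h hr), e⟩

/-! ### facts -/

variable [Fintype C] {ι : Type} [Fintype ι] {Rr : ι → Set C} {dd : ι → D} {T : Finset C}

omit [Fintype D] [Fintype C] [Fintype ι] in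
/-- static facts: `Rr i` regions of the pieces, `T` forbidden set of the weight -/
structure StP (G : Rg D C) (Rt : Set C) (Rr : ι → Set C) (T : Finset C) : Prop where
  h0 : G.h0 ∈ G.Far
  off : ∀ i, ∀ c ∈ Rr i, c ∉ G.Far ∧ c ∉ G.Ann
  reg : ∀ i j c, c ∈ Rr i → c ∈ Rr j → i = j
  sub : ∀ i, Rr i ⊆ Rt
  dw : ∀ c ∈ G.Dw, c ∈ T
  th : ∀ c, c ∈ G.Dw → c ∉ G.Th

omit [Fintype C] [Fintype ι] in
/-- facts of a configuration with `g ≠ 0` -/
structure RgP (M : CMap D C) (G : Rg D C) (Rt : Set C) (d : D) (Rr : ι → Set C) (dd : ι → D)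
    (T : Finset C) (ψ : C → ZMod 2) : Prop where
  ow : OwP M G Rt d ψ
  arc : ∀ i, ∃ e n, Arc M (Rr i) (dd i) ψ e n
  str : ∀ i, dd i ∈ Ss M Rt d ψ
  cov : ∀ c ∈ Sd M d Rt ψ, (∃ i, c ∈ Sd M (dd i) (Rr i) ψ) ∨ c ∈ T

/-- start of the arc in `Rr i` -/
def eA (M : CMap D C) (Rr : ι → Set C) (dd : ι → D) (ψ : C → ZMod 2) (i : ι) : D :=
  StrUx535.st M (cfg M ψ) (Rr i) (dd i)

/-- length of the arc in `Rr i` -/
def nA (M : CMap D C) (Rr : ι → Set C) (dd : ι → D) (ψ : C → ZMod 2) (i : ι) : ℕ :=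
  StrUx535.ln M (cfg M ψ) (Rr i) (dd i)

omit [Fintype ι] [Fintype C] in
theorem arc_eA {i : ι} (h : ∃ e n, Arc M (Rr i) (dd i) ψ e n) :
    Arc M (Rr i) (dd i) ψ (eA M Rr dd ψ i) (nA M Rr dd ψ i) := by
  obtain ⟨e, n, A⟩ := h
  obtain ⟨h1, h2⟩ := StrUx535.st_eq A.occ A.arc A.str
  unfold eA nA
  rw [h1, h2]
  exact A

omit [Fintype ι] [Fintype C] in
theorem eA_eq {i : ι} {e : D} {n : ℕ} (A : Arc M (Rr i) (dd i) ψ e n) :
    eA M Rr dd ψ i = e ∧ nA M Rr dd ψ i = n := StrUx535.st_eq A.occ A.arc A.str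

/-- the outside as finite sets -/
def fX (M : CMap D C) (G : Rg D C) (ψ : C → ZMod 2) : Finset C :=
  Finset.univ.filter fun c => c ∈ Xs M G ψ

def fF (M : CMap D C) (G : Rg D C) (ψ : C → ZMod 2) : Finset C :=
  Finset.univ.filter fun c => c ∈ Fs M G ψ

def fL (M : CMap D C) (G : Rg D C) (ψ : C → ZMod 2) : Finset C :=
  Finset.univ.filter fun c => c ∈ Lk (Nb M) G.Ann (Xs M G ψ)

theorem mem_fX {c : C} : c ∈ fX M G ψ ↔ c ∈ Xs M G ψ := by
  unfold fX; rw [Finset.mem_filter]; exact ⟨fun h => h.2, fun h => ⟨Finset.mem_univ _, h⟩⟩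

theorem mem_fF {c : C} : c ∈ fF M G ψ ↔ c ∈ Fs M G ψ := by
  unfold fF; rw [Finset.mem_filter]; exact ⟨fun h => h.2, fun h => ⟨Finset.mem_univ _, h⟩⟩

theorem mem_fL {c : C} : c ∈ fL M G ψ ↔ c ∈ Lk (Nb M) G.Ann (Xs M G ψ) := by
  unfold fL; rw [Finset.mem_filter]; exact ⟨fun h => h.2, fun h => ⟨Finset.mem_univ _, h⟩⟩

omit [Fintype D] [Fintype ι] in
theorem eqv_of_nb {W : Finset C} {a c : C} (ha : a ∈ W) (hc : c ∈ W) (h : Nb M a c) :
    Relation.EqvGen (AdjS M W) a c := by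
  obtain ⟨q, rfl, rfl⟩ := h
  by_cases hq : q ∈ M.live
  · exact Relation.EqvGen.rel _ _ ⟨ha, hc, q, hq, rfl, rfl⟩
  · rw [← M.dead q hq]
    exact Relation.EqvGen.refl _

/-- the good configurations -/
def GdP (M : CMap D C) (G : Rg D C) (Rr : ι → Set C) (dd : ι → D) (ψ : C → ZMod 2) : Prop :=
  (∀ i, ∃ e n, Arc M (Rr i) (dd i) ψ e n) ∧ ∀ a ∈ Xs M G ψ, ∀ c, Nb M a c → c ∈ G.Far ∨ c ∈ G.Ann

/-- the union of the arcs -/
theorem ua_eq (h : ∀ i, ∃ e n, Arc M (Rr i) (dd i) ψ e n) {c : C} :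
    c ∈ Ua M (cfg M ψ) (eA M Rr dd ψ) (nA M Rr dd ψ) ↔ ∃ i, c ∈ Sd M (dd i) (Rr i) ψ := by
  rw [mem_Ua]
  constructor
  · rintro ⟨i, hi⟩
    exact ⟨i, by rw [(arc_eA (h i)).sd]; exact hi⟩
  · rintro ⟨i, hi⟩
    exact ⟨i, by rw [← (arc_eA (h i)).sd]; exact hi⟩

/-- **the giants** -/
theorem gia (S : StP G Rt Rr T) :
    Gia M Rr (fL M G) (fX M G) (fF M G) (eA M Rr dd) (nA M Rr dd) (GdP M G Rr dd) := by
  have nbr : ∀ ψ, GdP M G Rr dd ψ → ∀ a c, a ∈ fX M G ψ → Nb M a c →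
      c ∈ fX M G ψ ∨ c ∈ fF M G ψ := by
    intro ψ h a c ha hn
    rw [mem_fX] at ha
    rw [mem_fX, mem_fF]
    rcases h.2 a ha c hn with h2 | h2
    · exact Or.inl (xs_far ha hn h2)
    · exact lk_xs ⟨h2, a, ha, hn⟩
  refine ⟨?_, ?_, ?_, nbr, ?_, ?_, ?_, S.reg, ?_, ?_⟩
  · -- decided
    intro σ τ h h1
    have h2 : ∀ c ∈ Lk (Nb M) G.Ann (Xs M G σ), τ c = σ c := fun c hc =>
      h1 c (Finset.mem_union_left _ (mem_fL.2 hc))
    have h3 : ∀ i, ∀ c ∈ Sd M (dd i) (Rr i) σ, τ c = σ c := fun i c hc =>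
      h1 c (Finset.mem_union_right _ ((ua_eq h.1).2 ⟨i, hc⟩))
    have eX := xs_congr h2
    have eF := fs_congr h2
    have hA : ∀ i, Arc M (Rr i) (dd i) τ (eA M Rr dd σ i) (nA M Rr dd σ i) := fun i =>
      ((arc_eA (h.1 i)).agree (h3 i)).1
    refine ⟨⟨fun i => ⟨_, _, hA i⟩, by rw [eX]; exact h.2⟩, ?_, ?_, ?_, ?_, ?_⟩
    · unfold fL; rw [eX]
    · unfold fX; rw [eX]
    · unfold fF; rw [eF]
    · funext i; exact (eA_eq (hA i)).1
    · funext i; exact (eA_eq (hA i)).2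
  · intro σ _ c hc
    obtain ⟨h2, -, a, h4, h5⟩ := mem_fF.1 hc
    exact mem_fL.2 ⟨h2, a, h4, h5⟩
  · intro σ _ c hc
    rcases lk_xs (mem_fL.1 hc) with h2 | h2
    · exact Finset.mem_union_left _ (mem_fX.2 h2)
    · exact Finset.mem_union_right _ (mem_fF.2 h2)
  · intro σ _ c hc
    exact (mem_fF.1 hc).2.1
  · intro σ h c hc c' hc'
    have hx0 : G.h0 ∈ fX M G σ ∪ fF M G σ := Finset.mem_union_left _ (mem_fX.2 h0_xs)
    have key : ∀ c ∈ Xs M G σ,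
        Relation.EqvGen (AdjS M (fX M G σ ∪ fF M G σ)) G.h0 c := by
      intro c hc
      refine (xs_ind (Q := fun c => c ∈ fX M G σ ∪ fF M G σ ∧
        Relation.EqvGen (AdjS M (fX M G σ ∪ fF M G σ)) G.h0 c)
        ⟨hx0, Relation.EqvGen.refl _⟩ ?_ c hc).2
      intro a c h2 ih h3 h4
      have h5 : c ∈ Xs M G σ := Relation.ReflTransGen.tail h2 ⟨h3, h4⟩
      have h6 : c ∈ fX M G σ ∪ fF M G σ := Finset.mem_union_left _ (mem_fX.2 h5)
      exact ⟨h6, ih.2.trans _ _ _ (eqv_of_nb ih.1 h6 h3)⟩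
    have key2 : ∀ c ∈ fX M G σ ∪ fF M G σ,
        Relation.EqvGen (AdjS M (fX M G σ ∪ fF M G σ)) G.h0 c := by
      intro c hc
      rcases Finset.mem_union.1 hc with h2 | h2
      · exact key c (mem_fX.1 h2)
      · obtain ⟨h3, h4, a, h5, h6⟩ := mem_fF.1 h2
        exact (key a h5).trans _ _ _ (eqv_of_nb (Finset.mem_union_left _ (mem_fX.2 h5)) hc h6)
    exact (key2 c hc).symm.trans _ _ _ (key2 c' hc')
  · intro σ _
    exact ⟨G.h0, Finset.mem_union_left _ (mem_fX.2 h0_xs)⟩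
  · intro σ _ c hc i hi
    obtain ⟨h1, h2⟩ := S.off i c hi
    rcases Finset.mem_union.1 hc with h3 | h3
    · have h4 : c ∈ G.Far ∨ (c ∈ G.Ann ∧ σ c = 1) := by
        refine xs_ind (Q := fun c => c ∈ G.Far ∨ (c ∈ G.Ann ∧ σ c = 1)) (Or.inl S.h0) ?_ c
          (mem_fX.1 h3)
        intro a c _ _ _ h
        exact h
      rcases h4 with h4 | h4
      · exact h1 h4
      · exact h2 h4.1
    · exact h2 (mem_fF.1 h3).1
  · intro σ h i
    exact (arc_eA (h.1 i)).arc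

omit [Fintype C] in
/-- every state of the strand is on the loop of the outer arc -/
theorem loop_of (H : OwP M G Rt d ψ) {q : D} (hq : q ∈ Ss M Rt d ψ) :
    ∃ a, P M (cfg M ψ) (pP M G Rt d ψ) a = q := by
  obtain ⟨e, n, i, j, A⟩ := H.gd
  obtain ⟨t, -, rfl⟩ := A.arc.ss.1 hq
  obtain ⟨N, hN, per⟩ := periodic A.arc.arc.even A.arc.arc.occ
  have per' : ∀ k, P M (cfg M ψ) e (k * N) = e := by
    intro k
    induction k with
    | zero => rw [zero_mul]; rfl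
    | succ k ih =>
      rw [show (k + 1) * N = k * N + N by ring, P_add,
        show P M (cfg M ψ) e N = e from per]
      exact ih
  refine ⟨t + i * N - i, ?_⟩
  have h1 : i ≤ i * N := Nat.le_mul_of_pos_right i hN
  rw [A.st, show t + i * N - i + i = t + i * N by omega, P_add, per' i]

variable {α : Type} {V : Finset α} {χ : Finset α → C → ZMod 2} {K : C → Finset α}
  {w : Finset α → ℝ} {g go : (C → ZMod 2) → ℝ} {Co : Set C}

/-- **PARTIAL TILES for one window** -/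
theorem p2w (hχ : Coins V χ K) (hK : ∀ c, K c ⊆ V)
    (hdis : ∀ c c' y, y ∈ K c → y ∈ K c' → c = c')
    (hgen : ∀ d, M.cell d ≠ G.h0 → Gen M (M.cell d))
    (S : StP G Rt Rr T) (g0 : ∀ σ, 0 ≤ g σ) (g1 : ∀ σ, g σ ≤ 1) (hgo : ∀ σ, g σ ≤ go σ)
    (hgT : ∀ σ τ, (∀ s, s ∉ T → τ s = σ s) → go τ = go σ)
    (hg : ∀ σ, g σ ≠ 0 → RgP M G Rt d Rr dd T σ)
    (hw : ∀ b, b ⊆ V → w b = wt (OP M G Rt d) g (χ b))
    (I : Finset (D × ℕ)) {c : ℝ} {Tb : Finset α → Prop} (hc : c ≤ Harx315.pr V Tb)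
    (hm : ∀ b b', b ⊆ V → b' ⊆ V → OwP M G Rt d (χ b) → Tb b' → ∀ k n,
      Cd M (cfg M (χ b)) (pP M G Rt d (χ b)) (lP M G Rt d (χ b)) (RvP M G Rt d (χ b)) k n →
      gdG M Co (cfg M (χ b)) (pP M G Rt d (χ b)) (lP M G Rt d (χ b)) k n → Meet M G χ b b' k n)
    {z : ℂ} (z3 : z ^ 3 = 1) (z1 : z ≠ 1) (zc : (starRingEnd ℂ) z = z ^ 2)
    {φ : D → ℂ} (hφ : Spin M z φ) (hQ : ∀ i k, fc M (Rr i) k → φ k = 0)
    {N : ℝ} (hN : ∀ F : (C → ZMod 2) → ℝ, (∀ μ, 0 ≤ F μ) →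
      ∑ b ∈ V.powerset, F (χ b) ≤ N * ∑ μ, F μ) (hN0 : 0 ≤ N) :
    c * ∑ b ∈ V.powerset, ∑ i ∈ I, Fk M χ (fun b => pP M G Rt d (χ b))
        (fun b => lP M G Rt d (χ b)) (fun b => RvP M G Rt d (χ b)) w
        (fun b k n => gdG M Co (cfg M (χ b)) (pP M G Rt d (χ b)) (lP M G Rt d (χ b)) k n) φ i b ≤
      N * ((2 : ℝ) ^ (2 * Fintype.card ι + 1) / 8 * (∑ k, ‖φ k‖ ^ 2) * ∑ σ, go σ) := by
  have E : Ex M V χ K (RP M G Rt d V χ K) (fun b => pP M G Rt d (χ b))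
      (fun b => lP M G Rt d (χ b)) (fun b => RvP M G Rt d (χ b)) w :=
    exP hχ hK g0 g1 hw fun σ h => (hg σ h).ow.gd
  have how : ∀ b, b ⊆ V → w b ≠ 0 → OwP M G Rt d (χ b) := by
    intro b hb hwb
    rw [hw b hb] at hwb
    obtain ⟨σ, h1, h2⟩ := wt_rep hwb
    refine (hg σ h1).ow.agree fun c hc => ?_
    rw [op_stop (χ b) σ h2] at hc
    exact (h2 c hc).symm
  have hmix : ∀ σ τ, g σ ≠ 0 → OwP M G Rt d (mix (OP M G Rt d) σ τ) ∧
      Xs M G (mix (OP M G Rt d) σ τ) = Xs M G σ ∧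
      Ss M Rt d (mix (OP M G Rt d) σ τ) = Ss M Rt d σ := by
    intro σ τ h
    have h1 : ∀ c ∈ OP M G Rt d σ, mix (OP M G Rt d) σ τ c = σ c := fun c hc => mix_on hc
    refine ⟨(hg σ h).ow.agree h1, (ox_agree (op_x h1)).1, ?_⟩
    obtain ⟨e, n, i, j, A⟩ := (hg σ h).ow.gd
    exact (A.arc.agree (op_s h1)).2.2
  refine p2_of E (gdG_dec E) I (fun _ _ => hc) (Tb := fun _ => Tb) ?_ g0
    (p' := fun μ => pP M G Rt d μ) hw (fun _ _ _ => rfl) hN hN0 ?_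
  · intro i _ b b' hb hb' hwb hcd hg' hT
    exact con_glueP hχ hK hdis S.th hgen E hb hb' (how b hb hwb) hcd hg'
      (hm b b' hb hb' (how b hb hwb) hT i.1 i.2 hcd hg') rfl
  · refine arcsW (gia (dd := dd) S) op_stop g0 hgo hgT (fun σ h => ⟨(hg σ h).arc, (hg σ h).ow.x1⟩)
      ?_ ?_ z3 z1 zc hφ hQ ?_ ?_
    · intro σ h c hc
      rcases Finset.mem_union.1 hc with h1 | h1
      · exact Finset.mem_union_left _ (mem_ox.2 (Or.inl (mem_fL.1 h1)))
      · obtain ⟨i, hi⟩ := (ua_eq (hg σ h).arc).1 h1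
        obtain ⟨e, n, i', j', A⟩ := (hg σ h).ow.gd
        exact Finset.mem_union_right _ (sd_mono (S.sub i) A.arc.occ ((hg σ h).str i) hi)
    · intro σ h c hc
      obtain ⟨h1, h2⟩ := Finset.mem_sdiff.1 hc
      rcases Finset.mem_union.1 h1 with h3 | h3
      · rcases mem_ox.1 h3 with h4 | h4
        · exact absurd (Finset.mem_union_left _ (mem_fL.2 h4)) h2
        · exact S.dw c h4.1
      · rcases (hg σ h).cov c h3 with h4 | h4
        · exact absurd (Finset.mem_union_right _ ((ua_eq (hg σ h).arc).2 h4)) h2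
        · exact h4
    · intro σ τ h
      obtain ⟨h1, h2, -⟩ := hmix σ τ h
      have h3 := h1.gd.choose_spec.choose_spec.choose_spec.choose_spec.oa.occ
      refine ⟨h3, h1.bl, fun h4 => ?_⟩
      apply h1.lx 0 h1.pos
      rw [h2]
      exact mem_fX.1 h4
    · intro σ τ h i
      obtain ⟨h1, -, h3⟩ := hmix σ τ h
      have hA := arc_eA ((hg σ h).arc i)
      apply loop_of h1
      rw [h3]
      obtain ⟨e, n, i', j', A⟩ := (hg σ h).ow.gd
      exact str_trans (cfg_isC σ) A.arc.occ ((hg σ h).str i) (str_mono (S.sub i) hA.str)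

end Crest.Agent.R143.RevQx352
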