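import Crest.Agent.R143.RevQ_352
import Crest.Agent.R143.RingW_389

/-!
# Row 143 (S0194), block H, leaf P2 (helper352): facts of the ring loop imply `RgP`

* `gU` : 389's regions with the white cluster in `U` only; `RtB B m` : the tiles off the window
* `ex_run` : arc of a strand from one later state of the loop outside; `str_run`
* `StR` : static facts of the tiles; `RV` : 389's ring data `RX` of one configuration, one white arm
  in `U`, one gate dart in every piece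
* `RV.gd`, **`RV.pP`** : the outer arc of the strand is 389's outer arc `p0`, `ln`; `RV.rv`
* **`RV.rgp`** : `RgP`
-/

set_option autoImplicit false
set_option linter.unusedSectionVars false

noncomputable section

open scoped Classical

namespace Crest.Agent.R143.RevRx352

open Crest.Agent.R143.Harx315 Crest.Agent.R143.Frame1x395 Crest.Agent.R143.Frame2x395
  Crest.Agent.R143.Frame3x395 Crest.Agent.R143.Frame4x395 Crest.Agent.R143.Frame8x395
  Crest.Agent.R143.Frame9x395 Crest.Agent.R143.Frame11x395 Crest.Agent.R143.NonXx592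
  Crest.Agent.R143.Coarsex166 Crest.Agent.R143.Resax778
  Crest.Agent.R143.Chordx355 Crest.Agent.R143.CFramex358
  Crest.Agent.R143.Runx535 Crest.Agent.R143.Gntx535 Crest.Agent.R143.Relx352

open Crest.Agent.R143.RevAx389 (Cl Lk cl_step seed_cl)
open Crest.Agent.R143.RevCx389 (Rg Xs Fs Cw xs_far xs_ann h0_xs p0 q0 fst' ln)
open Crest.Agent.R143.Exitx707 (Nb nb_symm)
open Crest.Agent.R143.Tubex389 (nb_rho z_cases)
open Crest.Agent.R143.Strandx535 (Sd Str Rch fc str_agree str_symm str_trans str_refl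
  str_occ mem_Sd)
open Crest.Agent.R143.StrUx535 (IsArc Rd fc_iff ex_arc)
open Crest.Agent.R143.RingWx389 (RX xs_sub)
open Crest.Agent.R143.RevPx352 Crest.Agent.R143.RevQx352

variable {D C : Type} {M : CMap D C} {G₀ : Rg D C} {U : Set C} {ψ : C → ZMod 2} {Rt : Set C}

/-- the regions with the white cluster in `U` only -/
def gU (G₀ : Rg D C) (U : Set C) : Rg D C := { G₀ with Dw := U }

/-- the tiles off the window -/
def RtB (B : ℕ → Set C) (m : ℕ) : Set C := {c | ∃ k, k < m ∧ c ∈ B k}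

/-! ### strands of a loop -/

section run

variable {x : D → ZMod 2} {r : D}

/-- a run of states in `Rd` is in one strand -/
theorem str_run (h : IsC M ∅ x) (hr : x r = 1) {a b : ℕ} (hab : a ≤ b)
    (H : ∀ s, a ≤ s → s ≤ b → P M x r s ∈ Rd M Rt) : Str M x Rt (P M x r a) (P M x r b) := by
  left
  refine ⟨b - a, fun i hi => ?_, ?_⟩
  · show fc M Rt (P M x (P M x r a) i)
    rw [← P_add]
    rw [fc_iff h (P_occ h hr _)]
    refine ⟨H _ (by omega) (by omega), ?_⟩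
    rw [← P_succ]
    exact H _ (by omega) (by omega)
  · show P M x (P M x r a) (b - a) = _
    rw [← P_add]
    congr 1
    omega

theorem str_run' (h : IsC M ∅ x) (hr : x r = 1) {a b : ℕ}
    (H : ∀ s, (a ≤ s ∧ s ≤ b) ∨ (b ≤ s ∧ s ≤ a) → P M x r s ∈ Rd M Rt) :
    Str M x Rt (P M x r a) (P M x r b) := by
  rcases Nat.le_total a b with h1 | h1
  · exact str_run h hr h1 fun s h2 h3 => H s (Or.inl ⟨h2, h3⟩)
  · exact str_symm h (P_occ h hr b) (str_run h hr h1 fun s h2 h3 => H s (Or.inr ⟨h2, h3⟩))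

/-- **the arc of a strand**, from one later state outside -/
theorem ex_run [Finite D] (h : IsC M ∅ x) (hr : x r = 1) {a t : ℕ}
    (ha : P M x r a ∈ Rd M Rt) (hat : a ≤ t) (ht : P M x r t ∉ Rd M Rt) :
    ∃ e n, IsArc M x Rt e n ∧ Str M x Rt (P M x r a) e := by
  have hex : ∃ u, P M x r (a + u) ∉ Rd M Rt := ⟨t - a, by
    rw [Nat.add_sub_cancel' hat]; exact ht⟩
  set u := Nat.find hex with hu
  have h1 : P M x r (a + u) ∉ Rd M Rt := Nat.find_spec hex
  have h2 : ∀ v, v < u → P M x r (a + v) ∈ Rd M Rt := fun v hv => by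
    have := Nat.find_min hex hv
    exact not_not.1 this
  have h3 : u ≠ 0 := by
    intro h0
    rw [h0, add_zero] at h1
    exact h1 ha
  refine ex_arc h (P_occ h hr a) ha.1 ha.2 ⟨P M x r (a + (u - 1)), ?_, ?_⟩
  · refine str_run h hr (by omega) fun s h4 h5 => ?_
    have := h2 (s - a) (by omega)
    rwa [Nat.add_sub_cancel' h4] at this
  · rw [fc_iff h (P_occ h hr _)]
    rintro ⟨-, h4⟩
    rw [← P_succ, show a + (u - 1) + 1 = a + u by omega] at h4
    exact h1 h4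

end run

/-! ### facts -/

variable {ι : Type} {Rr : ι → Set C} {dd : ι → D} {al be : ι → ℕ} {Tt : Finset C} {r : D}
  {T : ℕ → ℕ} {m n : ℕ} {B : ℕ → Set C} {B' : Set C}

/-- static facts of the tiles: the pieces `Rr i` contain the tiles `al i, .., be i`, the other tiles
are in `Tt` (off the window) -/
structure StR (G₀ : Rg D C) (U : Set C) (Rr : ι → Set C) (al be : ι → ℕ) (Tt : Finset C)
    (m n : ℕ) (B : ℕ → Set C) : Prop where
  h0 : G₀.h0 ∈ G₀.Far
  off : ∀ i, ∀ c ∈ Rr i, c ∉ G₀.Far ∧ c ∉ G₀.Ann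
  reg : ∀ i j c, c ∈ Rr i → c ∈ Rr j → i = j
  sub : ∀ i, Rr i ⊆ RtB B m
  ab : ∀ i, al i ≤ be i ∧ be i < m
  inn : ∀ i k, al i ≤ k → k ≤ be i → ∀ c ∈ B k, c ∈ Rr i
  oth : ∀ k, k < n → (∃ i, al i ≤ k ∧ k ≤ be i) ∨ ∀ c ∈ B k, c ∈ RtB B m → c ∈ Tt
  dw : ∀ c ∈ U, c ∈ Tt
  dp : ∀ c ∈ U, c ∉ G₀.Dp
  th : ∀ c ∈ U, c ∉ G₀.Th

theorem StR.st (S : StR G₀ U Rr al be Tt m n B) : StP (gU G₀ U) (RtB B m) Rr Tt :=
  ⟨S.h0, S.off, S.reg, S.sub, S.dw, S.th⟩

/-- facts of one configuration: ring data of the window, a state of the loop outside `RtB`, a white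
arm in `U`, one gate dart in every piece -/
structure RV (M : CMap D C) (G₀ : Rg D C) (U : Set C) (dd : ι → D) (al be : ι → ℕ)
    (ψ : C → ZMod 2) (r : D) (T : ℕ → ℕ) (m n : ℕ) (B : ℕ → Set C) (B' : Set C) : Prop where
  rx : RX M G₀ ψ r T m n B B'
  nt : ∃ t, P M (cfg M ψ) r t ∉ Rd M (RtB B m)
  dt : ∀ i, ∃ t, T (al i) ≤ t ∧ t ≤ T (be i + 1) ∧ P M (cfg M ψ) r t = dd i
  ac : ∃ t, T 3 ≤ t ∧ t ≤ T (m - 3) ∧
    M.cell (M.rho (P M (cfg M ψ) r t)) ∈ Cw M (gU G₀ U) ψ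

variable [Fintype D]

/-- consecutive right cells -/
theorem rstep' {x : D → ZMod 2} (h : IsC M ∅ x) {e : D} (he : x e = 1) (t : ℕ) :
    M.cell (M.rho (P M x e (t + 1))) = M.cell (M.rho (P M x e t)) ∨
      Nb M (M.cell (M.rho (P M x e t))) (M.cell (M.rho (P M x e (t + 1)))) := by
  rw [P_succ]
  rcases stp_cases h (P_occ h he t) (Set.notMem_empty _) with ⟨h1, h2, e⟩ | ⟨h1, h2, e⟩
  · left
    rw [e, cell_rho_iota M (h.lv h1)]
  · right
    rw [e, cell_rho_iota M (h.lv h2)]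
    exact nb_rho _

namespace RV

variable (H : RV M G₀ U dd al be ψ r T m n B B')

include H

theorem occ : cfg M ψ r = 1 := H.rx.toRY.occ

/-- the states up to `T m` are in the tiles off the window -/
theorem rd {t : ℕ} (ht : t ≤ T m) : P M (cfg M ψ) r t ∈ Rd M (RtB B m) := by
  have h7 := H.rx.m7
  obtain ⟨k, h1, h2, h3⟩ := H.rx.toRY.tile_le H.rx.mn (by omega) ht
  obtain ⟨h4, h5⟩ := H.rx.tile k (lt_of_lt_of_le h1 H.rx.mn) t h2 h3
  exact ⟨⟨k, h1, h4⟩, ⟨k, h1, h5⟩⟩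

/-- a late state outside -/
theorem late (a : ℕ) : ∃ t, a ≤ t ∧ P M (cfg M ψ) r t ∉ Rd M (RtB B m) := by
  obtain ⟨t, ht⟩ := H.nt
  refine ⟨t + a * T n, ?_, ?_⟩
  · have := Nat.le_mul_of_pos_right a H.rx.toRY.tn_pos
    omega
  · rw [H.rx.toRY.per_mul]
    exact ht

/-- the arc of the strand, with the time of `r` -/
theorem arcs {t : ℕ} (ht : t ≤ T m) : ∃ e N i0, IsArc M (cfg M ψ) (RtB B m) e N ∧
    Str M (cfg M ψ) (RtB B m) (P M (cfg M ψ) r t) e ∧ P M (cfg M ψ) e i0 = r ∧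
    ∀ s, s ≤ T m → i0 + s ≤ N ∧ P M (cfg M ψ) e (i0 + s) = P M (cfg M ψ) r s := by
  have hc : IsC M ∅ (cfg M ψ) := cfg_isC ψ
  obtain ⟨u, hu, hu'⟩ := H.late t
  obtain ⟨e, N, A, hs⟩ := ex_run hc H.occ (H.rd ht) hu hu'
  have hocc : cfg M ψ (P M (cfg M ψ) r t) = 1 := P_occ hc H.occ t
  have h0 : Str M (cfg M ψ) (RtB B m) (P M (cfg M ψ) r t) (P M (cfg M ψ) r 0) :=
    str_run' hc H.occ fun s hs => H.rd (by omega)
  obtain ⟨i0, hi0, e0⟩ := (A.iff' hocc hs).1 h0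
  have e0' : P M (cfg M ψ) e i0 = r := e0
  have key : ∀ s, P M (cfg M ψ) e (i0 + s) = P M (cfg M ψ) r s := by
    intro s
    rw [add_comm, P_add, e0']
  refine ⟨e, N, i0, A, hs, e0', fun s hs' => ⟨?_, key s⟩⟩
  by_contra hlt
  apply A.aft
  have h1 := key (N + 1 - i0)
  rw [show i0 + (N + 1 - i0) = N + 1 by omega] at h1
  rw [h1]
  exact H.rd (by omega)

/-- **the right cells of the strand are in 389's white cluster** -/
theorem right {e : D} {N i0 : ℕ} (A : IsArc M (cfg M ψ) (RtB B m) e N)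
    (e0 : P M (cfg M ψ) e i0 = r) (hi0 : i0 ≤ N) {j : ℕ} (hj : j ≤ N) :
    M.cell (M.rho (P M (cfg M ψ) e j)) ∈ Cw M G₀ ψ := by
  have hc : IsC M ∅ (cfg M ψ) := cfg_isC ψ
  have hsame : ∀ d, cfg M ψ d = 0 → ψ (M.cell d) = ψ (M.cell (M.rho d)) :=
    fun d hd => RingWx389.RY.same ψ d hd
  have hb : ∀ j, ψ (M.cell (P M (cfg M ψ) e j)) = 1 := by
    intro j
    have h1 := it_col hc A.occ hsame j
    have h2 := it_col hc A.occ hsame i0
    rw [show (stp M (cfg M ψ))^[i0] e = r from e0, H.rx.bl] at h2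
    exact h1.trans h2.symm
  have hw : ∀ j, ψ (M.cell (M.rho (P M (cfg M ψ) e j))) = 0 := by
    intro j
    have h1 : ψ (M.cell (P M (cfg M ψ) e j)) + ψ (M.cell (M.rho (P M (cfg M ψ) e j))) = 1 :=
      P_occ hc A.occ j
    rw [hb j] at h1
    have h3 : ∀ a : ZMod 2, 1 + a = 1 → a = 0 := by decide
    exact h3 _ h1
  have hdw : ∀ j, j ≤ N → M.cell (M.rho (P M (cfg M ψ) e j)) ∈ G₀.Dw := by
    intro j hj
    obtain ⟨k, hk, h1⟩ := (A.mem j hj).2
    exact (H.rx.out k hk _ h1).1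
  have h00 : M.cell (M.rho (P M (cfg M ψ) e i0)) ∈ Cw M G₀ ψ := by
    rw [e0]
    exact H.rx.rcw (t := 0) (Nat.zero_le _)
  have up : ∀ u, i0 + u ≤ N → M.cell (M.rho (P M (cfg M ψ) e (i0 + u))) ∈ Cw M G₀ ψ := by
    intro u
    induction u with
    | zero => exact fun _ => h00
    | succ u ih =>
      intro hu
      have h2 := ih (by omega)
      rcases rstep' hc A.occ (i0 + u) with h | h
      · rw [← add_assoc, h]; exact h2
      · rw [← add_assoc]
        exact cl_step h2 h (hdw _ (by omega)) (hw _)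
  have dn : ∀ u, u ≤ i0 → M.cell (M.rho (P M (cfg M ψ) e (i0 - u))) ∈ Cw M G₀ ψ := by
    intro u
    induction u with
    | zero => exact fun _ => h00
    | succ u ih =>
      intro hu
      have h2 := ih (by omega)
      have e1 : i0 - u = (i0 - (u + 1)) + 1 := by omega
      rw [e1] at h2
      rcases rstep' hc A.occ (i0 - (u + 1)) with h | h
      · rw [← h]; exact h2
      · exact cl_step h2 (nb_symm h) (hdw _ (by omega)) (hw _)
  rcases Nat.le_total i0 j with h | h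
  · obtain ⟨u, rfl⟩ := Nat.exists_eq_add_of_le h
    exact up u hj
  · have := dn (i0 - j) (by omega)
    rwa [Nat.sub_sub_self h] at this

/-- **the good arc** and 389's canonical states -/
theorem gd {t : ℕ} (ht : t ≤ T m) : ∃ e N i0 tp tq,
    Gd M (gU G₀ U) (RtB B m) (P M (cfg M ψ) r t) ψ e N (i0 + tp) (i0 + tq) ∧
    tp < T 3 ∧ T (m - 3) ≤ tq ∧ tq < T m ∧ tp < tq ∧
    P M (cfg M ψ) e (i0 + tp) = p0 M G₀ ψ ∧ p0 M G₀ ψ = P M (cfg M ψ) r tp ∧
    ln M G₀ ψ = tq - tp + 1 ∧ (∀ s, P M (cfg M ψ) e (i0 + s) = P M (cfg M ψ) r s) := by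
  have hc : IsC M ∅ (cfg M ψ) := cfg_isC ψ
  obtain ⟨e, N, i0, A, hs, e0, hall⟩ := H.arcs ht
  obtain ⟨tp, tq, h1, h2, h3, h4, h5, h6, h7⟩ := H.rx.pq
  have hmn := H.rx.mn
  have h7' := H.rx.m7
  have hocc : cfg M ψ (P M (cfg M ψ) r t) = 1 := P_occ hc H.occ t
  have hi0 : i0 ≤ N := by have := (hall 0 (Nat.zero_le _)).1; omega
  have hss : ∀ s, s ≤ T m → P M (cfg M ψ) r s ∈ Ss M (RtB B m) (P M (cfg M ψ) r t) ψ := by
    intro s hs'
    exact (A.iff' hocc hs).2 ⟨i0 + s, (hall s hs').1, (hall s hs').2⟩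
  have hcw : ∀ q, q ∈ Ss M (RtB B m) (P M (cfg M ψ) r t) ψ → M.cell (M.rho q) ∈ Cw M G₀ ψ := by
    intro q hq
    obtain ⟨j, hj, rfl⟩ := (A.iff' hocc hs).1 hq
    exact H.right A e0 hi0 hj
  have hinf : ∀ L : ℕ → D, (∃ s, s ≤ T m ∧ fst' M L (Cw M G₀ ψ) = P M (cfg M ψ) r s) →
      L (sInf {k | L k ∈ Ss M (RtB B m) (P M (cfg M ψ) r t) ψ}) = fst' M L (Cw M G₀ ψ) := by
    intro L hL
    obtain ⟨s, hs', es⟩ := hL
    have hin : sInf {i | M.cell (M.rho (L i)) ∈ Cw M G₀ ψ} ∈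
        {k | L k ∈ Ss M (RtB B m) (P M (cfg M ψ) r t) ψ} := by
      show fst' M L (Cw M G₀ ψ) ∈ Ss M (RtB B m) (P M (cfg M ψ) r t) ψ
      rw [es]
      exact hss s hs'
    have hle : sInf {k | L k ∈ Ss M (RtB B m) (P M (cfg M ψ) r t) ψ} =
        sInf {i | M.cell (M.rho (L i)) ∈ Cw M G₀ ψ} := by
      apply le_antisymm
      · exact Nat.sInf_le hin
      · apply Nat.sInf_le
        exact hcw _ (Nat.sInf_mem ⟨_, hin⟩)
    rw [hle]
    rfl
  have m1 : T 3 ≤ T m := H.rx.toRY.mono' (by omega) hmn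
  refine ⟨e, N, i0, tp, tq, ⟨⟨hocc, A, hs⟩, by omega, ?_, ?_, ?_⟩, h1, h2, h3, h4, ?_, h5, h7,
    fun s => ?_⟩
  · exact (hall tq (by omega)).1
  · rw [(hall tp (by omega)).2]
    have := hinf G₀.La ⟨tp, by omega, h5⟩
    exact h5.symm.trans this.symm
  · rw [(hall tq (by omega)).2]
    have := hinf G₀.Lb ⟨tq, by omega, h6⟩
    exact h6.symm.trans this.symm
  · rw [(hall tp (by omega)).2, h5]
  · rw [add_comm, P_add, e0]

/-- **the outer arc of the strand is 389's outer arc** -/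
theorem pP {t : ℕ} (ht : t ≤ T m) :
    pP M (gU G₀ U) (RtB B m) (P M (cfg M ψ) r t) ψ = p0 M G₀ ψ ∧
    lP M (gU G₀ U) (RtB B m) (P M (cfg M ψ) r t) ψ = ln M G₀ ψ := by
  obtain ⟨e, N, i0, tp, tq, A, h1, h2, h3, h4, h5, h6, h7, -⟩ := H.gd ht
  obtain ⟨e1, e2⟩ := A.eq
  rw [e1, e2, h5, h7]
  exact ⟨rfl, by omega⟩

/-- the states of the outer arc -/
theorem pst {t : ℕ} (ht : t ≤ T m) : ∃ tp, tp < T 3 ∧ T (m - 3) < tp + ln M G₀ ψ ∧
    tp + ln M G₀ ψ ≤ T m ∧ ∀ a,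
    P M (cfg M ψ) (RevPx352.pP M (gU G₀ U) (RtB B m) (P M (cfg M ψ) r t) ψ) a =
      P M (cfg M ψ) r (tp + a) := by
  obtain ⟨tp, tq, h1, h2, h3, h4, h5, h6, h7⟩ := H.rx.pq
  refine ⟨tp, h1, by omega, by omega, fun a => ?_⟩
  rw [(H.pP ht).1, h5, ← P_add, add_comm]

/-- **the right cells of the outer arc are in 389's white cluster** -/
theorem rv {t : ℕ} (ht : t ≤ T m) :
    RvP M (gU G₀ U) (RtB B m) (P M (cfg M ψ) r t) ψ ⊆ Cw M G₀ ψ := by
  rintro c ⟨a, ha, rfl⟩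
  obtain ⟨tp, h1, h2, h3, h4⟩ := H.pst ht
  rw [(H.pP ht).2] at ha
  rw [h4]
  exact H.rx.rcw (by omega)

/-- the ring event of the partial tiles -/
theorem owp [Fintype C] [Fintype ι] (S : StR G₀ U Rr al be Tt m n B) {t : ℕ} (ht : t ≤ T m) :
    OwP M (gU G₀ U) (RtB B m) (P M (cfg M ψ) r t) ψ := by
  have hmn := H.rx.mn
  have h7' := H.rx.m7
  have m1 : T 3 ≤ T (m - 3) := H.rx.toRY.mono' (by omega) (by omega)
  obtain ⟨tp, h1, h2, h3, h4⟩ := H.pst ht
  have hl := (H.pP ht).2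
  obtain ⟨e, N, i0, tp', tq', A, -⟩ := H.gd ht
  refine ⟨⟨e, N, _, _, A⟩, H.rx.x1, ?_, ?_, ?_, ?_, ?_⟩
  · have := h4 0
    rw [show P M (cfg M ψ) (RevPx352.pP M (gU G₀ U) (RtB B m) (P M (cfg M ψ) r t) ψ) 0 =
      RevPx352.pP M (gU G₀ U) (RtB B m) (P M (cfg M ψ) r t) ψ from rfl] at this
    rw [this]
    exact H.rx.toRY.lbl _
  · intro a ha hx
    rw [hl] at ha
    rw [h4] at hx
    obtain ⟨k, hk, g1⟩ := (H.rd (t := tp + a) (by omega)).1
    have g3 := H.rx.off k (lt_of_lt_of_le hk hmn) _ g1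
    rcases xs_sub H.rx.h0 hx with g4 | g4
    · exact g3.1 g4
    · exact g3.2 g4.1
  · obtain ⟨s, s1, s2, s3⟩ := H.ac
    refine ⟨s - tp, by rw [hl]; omega, ?_⟩
    rw [h4, show tp + (s - tp) = s by omega]
    exact s3
  · intro c hc
    obtain ⟨q, hq, e1⟩ := (mem_Sd A.arc.occ).1 hc
    obtain ⟨j, hj, rfl⟩ := A.arc.ss.1 hq
    have hin : c ∈ RtB B m := by
      rcases e1 with e1 | e1
      · rw [e1]; exact (A.arc.arc.mem j hj).1
      · rw [e1]; exact (A.arc.arc.mem j hj).2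
    obtain ⟨k, hk, g1⟩ := hin
    exact (H.rx.out k hk c g1).2
  · intro c hc
    exact S.dp c hc.1

/-- **all facts of the configuration** -/
theorem rgp [Fintype C] [Fintype ι] (S : StR G₀ U Rr al be Tt m n B) {t : ℕ} (ht : t ≤ T m) :
    RgP M (gU G₀ U) (RtB B m) (P M (cfg M ψ) r t) Rr dd Tt ψ := by
  have hc : IsC M ∅ (cfg M ψ) := cfg_isC ψ
  have hmn := H.rx.mn
  have h7' := H.rx.m7
  have hocc : cfg M ψ (P M (cfg M ψ) r t) = 1 := P_occ hc H.occ t
  -- states of a piece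
  have hpc : ∀ i s, T (al i) ≤ s → s ≤ T (be i + 1) → P M (cfg M ψ) r s ∈ Rd M (Rr i) := by
    intro i s h1 h2
    obtain ⟨a1, a2⟩ := S.ab i
    obtain ⟨k, g1, g2, g3⟩ := H.rx.toRY.tile_le (j := be i + 1) (by omega) (by omega) h2
    by_cases hk : al i ≤ k
    · obtain ⟨g4, g5⟩ := H.rx.tile k (by omega) s g2 g3
      exact ⟨S.inn i k hk (by omega) _ g4, S.inn i k hk (by omega) _ g5⟩
    · have h3 : T (k + 1) ≤ T (al i) := H.rx.toRY.mono' (by omega) (by omega)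
      have h4 : s = T (al i) := by omega
      have h5 := H.rx.mono (al i) (by omega)
      obtain ⟨g4, g5⟩ := H.rx.tile (al i) (by omega) s (by omega) (by omega)
      exact ⟨S.inn i (al i) le_rfl a1 _ g4, S.inn i (al i) le_rfl a1 _ g5⟩
  refine ⟨H.owp S ht, fun i => ?_, fun i => ?_, fun c hcc => ?_⟩
  · obtain ⟨s, s1, s2, s3⟩ := H.dt i
    obtain ⟨u, hu, hu'⟩ := H.late s
    have h1 : P M (cfg M ψ) r u ∉ Rd M (Rr i) := by
      rintro ⟨g1, g2⟩
      exact hu' ⟨S.sub i g1, S.sub i g2⟩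
    obtain ⟨e, N, A, hs⟩ := ex_run hc H.occ (hpc i s s1 s2) hu h1
    rw [s3] at hs
    exact ⟨e, N, by rw [← s3]; exact P_occ hc H.occ s, A, hs⟩
  · obtain ⟨s, s1, s2, s3⟩ := H.dt i
    obtain ⟨a1, a2⟩ := S.ab i
    have h1 : T (be i + 1) ≤ T m := H.rx.toRY.mono' (by omega) hmn
    show Str M (cfg M ψ) (RtB B m) (P M (cfg M ψ) r t) (dd i)
    rw [← s3]
    exact str_run' hc H.occ fun v hv => H.rd (by omega)
  · obtain ⟨e, N, i0, A, hs, e0, hall⟩ := H.arcs ht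
    obtain ⟨q, hq, e1⟩ := (mem_Sd hocc).1 hcc
    have hq' : q ∈ Ss M (RtB B m) (P M (cfg M ψ) r t) ψ := hq
    obtain ⟨j, hj, rfl⟩ := (A.iff' hocc hs).1 hq'
    -- the time of the state
    have hst : ∃ u, u < T n ∧ P M (cfg M ψ) r u = P M (cfg M ψ) e j := by
      obtain ⟨N', hN', per⟩ := periodic hc A.occ
      have per' : P M (cfg M ψ) e N' = e := per
      have hm : ∀ k, P M (cfg M ψ) e (k * N') = e := by
        intro k
        induction k with
        | zero => rw [zero_mul]; rfl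
        | succ k ih =>
          rw [show (k + 1) * N' = k * N' + N' by ring, P_add, per', ih]
      have h2 : i0 ≤ i0 * N' := Nat.le_mul_of_pos_right i0 hN'
      refine ⟨(j + i0 * N' - i0) % T n, Nat.mod_lt _ H.rx.toRY.tn_pos, ?_⟩
      rw [H.rx.toRY.mod]
      have h3 : P M (cfg M ψ) e (i0 + (j + i0 * N' - i0)) =
          P M (cfg M ψ) r (j + i0 * N' - i0) := by
        rw [add_comm, P_add, e0]
      rw [← h3, show i0 + (j + i0 * N' - i0) = j + i0 * N' by omega, P_add, hm]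
    obtain ⟨u, hu, eu⟩ := hst
    obtain ⟨k, hk, g2, g3⟩ := H.rx.toRY.tile_of le_rfl hu
    obtain ⟨g4, g5⟩ := H.rx.tile k hk u g2 g3.le
    have hrd := A.mem j hj
    rcases S.oth k hk with ⟨i, i1, i2⟩ | ho
    · left
      refine ⟨i, ?_⟩
      obtain ⟨s, s1, s2, s3⟩ := H.dt i
      obtain ⟨a1, a2⟩ := S.ab i
      have b1 : T (al i) ≤ T k := H.rx.toRY.mono' i1 hk.le
      have b2 : T (k + 1) ≤ T (be i + 1) := H.rx.toRY.mono' (by omega) (by omega)
      have hd' : cfg M ψ (dd i) = 1 := by rw [← s3]; exact P_occ hc H.occ s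
      rw [mem_Sd hd']
      refine ⟨P M (cfg M ψ) e j, ?_, e1⟩
      rw [← eu, ← s3]
      exact str_run' hc H.occ fun v hv => hpc i v (by omega) (by omega)
    · right
      rcases e1 with e1 | e1
      · rw [e1]
        refine ho _ ?_ hrd.1
        rw [← eu]; exact g4
      · rw [e1]
        refine ho _ ?_ hrd.2
        show M.cell (M.rho (P M (cfg M ψ) e j)) ∈ B k
        rw [← eu]; exact g5

end RV

end Crest.Agent.R143.RevRx352
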