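import Crest.Agent.R143.RevR_352
import Crest.Agent.R143.Meet2_707
import Crest.Agent.R143.Rel6_126

/-!
# Row 143 (S0194), block H, leaf P2 (helper352): partial tiles for one window, at the sites

* `xp_fk'` : the sum of 355's `Fk` is 126's `XP`
* `p2x` : `p2w` in the form `c * Σ_ν wt ν * XP ν ≤ ..`, any family of coins
* `meet_P` : 707's location statement for the outer arc of a strand
* **`p2s`** : partial tiles for one window at the sites (304's colourings), from 389's ring data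
-/

set_option autoImplicit false
set_option linter.unusedSectionVars false
set_option maxHeartbeats 400000

noncomputable section

open scoped Classical

namespace Crest.Agent.R143.RevSx352

open Crest.Agent.R143.Harx315 Crest.Agent.R143.Frame1x395 Crest.Agent.R143.Frame2x395
  Crest.Agent.R143.Frame3x395 Crest.Agent.R143.Frame4x395 Crest.Agent.R143.Frame8x395
  Crest.Agent.R143.Frame9x395 Crest.Agent.R143.Frame11x395 Crest.Agent.R143.NonXx592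
  Crest.Agent.R143.Coarsex166 Crest.Agent.R143.Resax778
  Crest.Agent.R143.Chordx355 Crest.Agent.R143.ChordCx357 Crest.Agent.R143.Chord2x355
  Crest.Agent.R143.H2x355 Crest.Agent.R143.CFramex358
  Crest.Agent.R143.Runx535 Crest.Agent.R143.Gntx535 Crest.Agent.R143.Relx352

open Crest.Agent.R143.Histx389 (Coins)
open Crest.Agent.R143.RevCx389 (Rg Xs Fs Cw Meet p0 ln h0_xs)
open Crest.Agent.R143.Strandx535 (Sd Str fc)
open Crest.Agent.R143.StrUx535 (IsArc Rd)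
open Crest.Agent.R143.RevPx352 Crest.Agent.R143.RevQx352 Crest.Agent.R143.RevRx352
open Crest.Agent.R143.Rel6x126 (gdp XP xp_nonneg)

/-! ### coins -/

section coins

variable {D C : Type} {M : CMap D C} {G : Rg D C} {Rt : Set C} {d : D}

variable [Fintype D] [Fintype C] {ι : Type} [Fintype ι] {Rr : ι → Set C} {dd : ι → D} {T : Finset C}

variable {α : Type} {V : Finset α} {χ : Finset α → C → ZMod 2} {K : C → Finset α}
  {g go : (C → ZMod 2) → ℝ} {Co : Set C}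

/-- **the sum of `Fk` is `XP`** -/
theorem xp_fk' {I : Finset (D × ℕ)} {φ : D → ℂ} (w : (C → ZMod 2) → ℝ) (b : Finset α) :
    ∑ i ∈ I, Fk M χ (fun b => pP M G Rt d (χ b)) (fun b => lP M G Rt d (χ b))
        (fun b => RvP M G Rt d (χ b)) (fun b => w (χ b))
        (fun b k n => gdG M Co (cfg M (χ b)) (pP M G Rt d (χ b)) (lP M G Rt d (χ b)) k n) φ i b =
      w (χ b) * XP M (pP M G Rt d (χ b)) (lP M G Rt d (χ b)) (RvP M G Rt d (χ b)) Co I φ (χ b) := by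
  unfold XP
  rw [Finset.mul_sum]
  refine Finset.sum_congr rfl fun q _ => ?_
  unfold Fk
  by_cases hw : w (χ b) = 0
  · rw [hw, zero_mul, if_neg fun h => h.1 hw]
  · by_cases h : Cd M (cfg M (χ b)) (pP M G Rt d (χ b)) (lP M G Rt d (χ b))
        (RvP M G Rt d (χ b)) q.1 q.2 ∧
      gdp M (pP M G Rt d (χ b)) (lP M G Rt d (χ b)) Co (χ b) q.1 q.2
    · rw [if_pos h, if_pos ⟨hw, h⟩]
    · rw [if_neg h, if_neg fun h' => h h'.2, mul_zero]

/-- **partial tiles for one window**, `XP` form -/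
theorem p2x (hχ : Coins V χ K) (hK : ∀ c, K c ⊆ V)
    (hdis : ∀ c c' y, y ∈ K c → y ∈ K c' → c = c')
    (hgen : ∀ d, M.cell d ≠ G.h0 → Gen M (M.cell d))
    (S : StP G Rt Rr T) (g0 : ∀ σ, 0 ≤ g σ) (g1 : ∀ σ, g σ ≤ 1) (hgo : ∀ σ, g σ ≤ go σ)
    (hgT : ∀ σ τ, (∀ s, s ∉ T → τ s = σ s) → go τ = go σ)
    (hg : ∀ σ, g σ ≠ 0 → RgP M G Rt d Rr dd T σ)
    (I : Finset (D × ℕ)) {c : ℝ} {Tb : Finset α → Prop} (hc : c ≤ Harx315.pr V Tb)
    (hm : ∀ b b', b ⊆ V → b' ⊆ V → OwP M G Rt d (χ b) → Tb b' → ∀ k n,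
      Cd M (cfg M (χ b)) (pP M G Rt d (χ b)) (lP M G Rt d (χ b)) (RvP M G Rt d (χ b)) k n →
      gdG M Co (cfg M (χ b)) (pP M G Rt d (χ b)) (lP M G Rt d (χ b)) k n → Meet M G χ b b' k n)
    {z : ℂ} (z3 : z ^ 3 = 1) (z1 : z ≠ 1) (zc : (starRingEnd ℂ) z = z ^ 2)
    {φ : D → ℂ} (hφ : Spin M z φ) (hQ : ∀ i k, fc M (Rr i) k → φ k = 0)
    {N : ℝ} (hN : ∀ F : (C → ZMod 2) → ℝ, ∑ b ∈ V.powerset, F (χ b) = N * ∑ μ, F μ)
    (hN0 : 0 < N) :
    c * ∑ ν, wt (OP M G Rt d) g ν *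
        XP M (pP M G Rt d ν) (lP M G Rt d ν) (RvP M G Rt d ν) Co I φ ν ≤
      (2 : ℝ) ^ (2 * Fintype.card ι + 1) / 8 * (∑ k, ‖φ k‖ ^ 2) * ∑ σ, go σ := by
  have h1 := p2w (M := M) (w := fun b => wt (OP M G Rt d) g (χ b)) (Co := Co) (φ := φ)
    hχ hK hdis hgen S g0 g1 hgo hgT hg (fun b _ => rfl) I hc hm z3 z1 zc hφ hQ
    (N := N) (fun F _ => (hN F).le) hN0.le
  have h2 : ∑ b ∈ V.powerset, ∑ i ∈ I, Fk M χ (fun b => pP M G Rt d (χ b))
        (fun b => lP M G Rt d (χ b)) (fun b => RvP M G Rt d (χ b))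
        (fun b => wt (OP M G Rt d) g (χ b))
        (fun b k n => gdG M Co (cfg M (χ b)) (pP M G Rt d (χ b)) (lP M G Rt d (χ b)) k n) φ i b =
      N * ∑ ν, wt (OP M G Rt d) g ν *
        XP M (pP M G Rt d ν) (lP M G Rt d ν) (RvP M G Rt d ν) Co I φ ν := by
    rw [← hN fun ν => wt (OP M G Rt d) g ν *
        XP M (pP M G Rt d ν) (lP M G Rt d ν) (RvP M G Rt d ν) Co I φ ν]
    exact Finset.sum_congr rfl fun b _ => xp_fk' (wt (OP M G Rt d) g) b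
  rw [h2] at h1
  have h3 : N * (c * ∑ ν, wt (OP M G Rt d) g ν *
        XP M (pP M G Rt d ν) (lP M G Rt d ν) (RvP M G Rt d ν) Co I φ ν) ≤
      N * ((2 : ℝ) ^ (2 * Fintype.card ι + 1) / 8 * (∑ k, ‖φ k‖ ^ 2) * ∑ σ, go σ) := by
    refine le_trans (le_of_eq ?_) h1
    ring
  exact le_of_mul_le_mul_left h3 hN0

end coins

/-! ### sites -/

open Crest.Agent.R143.B0x346 Crest.Agent.R143.DelGx806 Crest.Agent.R143.DelRx806
open Crest.Agent.R143.ToolWx838 Crest.Agent.R143.Blkx838 Crest.Agent.R143.ToolW2x838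
open Crest.Agent.R143.ToolW3x838 Crest.Agent.R143.Circ4x838
open Crest.Agent.R143.RB0x838 Crest.Agent.R143.CircPx838 Crest.Agent.R143.Gatex838
open Crest.Agent.R143.CBx838 Crest.Agent.R143.Multix838 Crest.Agent.R143.RBmx838
open Crest.Agent.R143.JColx54
open Crest.Agent.R143.Frame5x395 (sd mem_sd th th_spec)
open Crest.Agent.R143.Frame10x395
open Crest.Agent.R143.Tubex707 Crest.Agent.R143.Exitx707 Crest.Agent.R143.TubeWx707
open Crest.Agent.R143.Meetx707 Crest.Agent.R143.Meet2x707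
open Crest.Agent.R143.FinCx811 (Cs rc0 cs cs_inj cs_hull cell_mem)
open Crest.Agent.R143.SmallAx304 (chiS sum_chiS)

section sites

variable {S : Finset ℂ} {C : Type} {M : CMap (D0 S) C} {σ : ℂ → C} {hS : GP (S : Set ℂ)}
  {V : Finset ℂ} {χ : Finset ℂ → C → ZMod 2} {b b' : Finset ℂ} {z1 z2 : ℂ} {r1 r2 : ℝ}
  {q : Rect} {G : Rg (D0 S) C} {Rt : Set C} {d : D0 S}

/-- **the location statement** for the outer arc of a strand -/
theorem meet_P (H : Pl hS M σ) (h3 : 3 ≤ S.card) (h0 : ∀ s, OnHull S s → σ s = G.h0)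
    (F : Fre S V σ χ) (hG : Geo S V σ G z1 z2 r1 r2 q) (hO : OwP M G Rt d (χ b))
    (hT : TW S V z1 r1 q b') {k : D0 S} {n : ℕ}
    (hc : Cd M (cfg M (χ b)) (pP M G Rt d (χ b)) (lP M G Rt d (χ b)) (RvP M G Rt d (χ b)) k n)
    (hg : gdG M (core S σ z1 r1) (cfg M (χ b)) (pP M G Rt d (χ b)) (lP M G Rt d (χ b)) k n) :
    Meet M G χ b b' k n := by
  refine meet_tw' H h3 h0 F hG.far hG.td ?_ hG.out hG.inn hT hc.gp.2 ?_ hg.2.2
  · intro s hs _ h2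
    exact hG.dp ⟨s, F.sub hs, F.inn s hs, h2, rfl⟩
  · by_contra hlt
    push Not at hlt
    obtain ⟨a, ha, e⟩ := hc.c0
    have e' : M.cell (P M (cfg M (χ b)) (pP M G Rt d (χ b)) a) = M.cell (M.rho k) := e
    have h1 : M.cell (M.rho k) ∉ G.Dp := by
      have h2 := (hO.sd _ (hO.mem ha).1).2
      rw [e'] at h2
      exact h2
    have h2 : M.cell (M.rho k) ∉ Xs M G (χ b) := by
      have h2 := hO.lx a ha
      rw [e'] at h2
      exact h2
    have h5 : ¬ OnHull S (ls (M.rho k)) := fun h => h2 (by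
      rw [H.cell]
      rw [show σ (M.rho k).1.1 = G.h0 from h0 _ h]
      exact h0_xs)
    exact h1 (hG.dp ⟨ls (M.rho k), ls_mem _, h5, hlt, by rw [H.cell]; rfl⟩)

variable {h3 : 3 ≤ S.card} {ι : Type} [Fintype ι] {G₀ : Rg (D0 S) (Cs hS)} {U : Set (Cs hS)}
  {Rr : ι → Set (Cs hS)} {dd : ι → D0 S} {al be : ι → ℕ} {Tt : Finset (Cs hS)}
  {m n : ℕ} {B : ℕ → Set (Cs hS)} {g go : (Cs hS → ZMod 2) → ℝ}

/-- ring data of a configuration with the dart `d` on the ring, off the window -/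
def RVd (M : CMap (D0 S) C) (G₀ : Rg (D0 S) C) (U : Set C) (dd : ι → D0 S) (al be : ι → ℕ)
    (m n : ℕ) (B : ℕ → Set C) (d : D0 S) (ψ : C → ZMod 2) : Prop :=
  ∃ (r : D0 S) (T : ℕ → ℕ) (B' : Set C), RV M G₀ U dd al be ψ r T m n B B' ∧
    ∃ t, t ≤ T m ∧ P M (cfg M ψ) r t = d

theorem geo_gU (hG : Geo S V (sr hS h3) G₀ z1 z2 r1 r2 q) :
    Geo S V (sr hS h3) (gU G₀ U) z1 z2 r1 r2 q :=
  ⟨hG.far, hG.td, hG.dp, hG.out, hG.inn⟩

/-- **PARTIAL TILES for one window at the sites** -/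
theorem p2s (h0 : ∀ s, OnHull S s → sr hS h3 s = G₀.h0) (hV : V ⊆ S)
    (hVi : ∀ s ∈ V, ¬ OnHull S s) (hG : Geo S V (sr hS h3) G₀ z1 z2 r1 r2 q)
    (hst : StR G₀ U Rr al be Tt m n B) (g0 : ∀ σ, 0 ≤ g σ) (g1 : ∀ σ, g σ ≤ 1)
    (hgo : ∀ σ, g σ ≤ go σ)
    (hgT : ∀ σ τ, (∀ s, s ∉ Tt → τ s = σ s) → go τ = go σ)
    (hg : ∀ σ, g σ ≠ 0 → RVd (rc0 hS) G₀ U dd al be m n B d σ)
    (I : Finset (D0 S × ℕ)) {c : ℝ} (hc : c ≤ pr V (TW S V z1 r1 q))
    {z : ℂ} (z3 : z ^ 3 = 1) (z1' : z ≠ 1) (zc : (starRingEnd ℂ) z = z ^ 2)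
    {φ : D0 S → ℂ} (hφ : Spin (rc0 hS) z φ) (hQ : ∀ i k, fc (rc0 hS) (Rr i) k → φ k = 0) :
    c * ∑ ν, wt (OP (rc0 hS) (gU G₀ U) (RtB B m) d) g ν *
        XP (rc0 hS) (pP (rc0 hS) (gU G₀ U) (RtB B m) d ν) (lP (rc0 hS) (gU G₀ U) (RtB B m) d ν)
          (RvP (rc0 hS) (gU G₀ U) (RtB B m) d ν) (core S (sr hS h3) z1 r1) I φ ν ≤
      (2 : ℝ) ^ (2 * Fintype.card ι + 1) / 8 * (∑ k, ‖φ k‖ ^ 2) * ∑ σ, go σ := by
  have H := pl_rc0 hS h3
  have h0' : ∀ s, OnHull S s → sr hS h3 s = (gU G₀ U).h0 := h0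
  refine p2x (V := S) (χ := chiS hS h3) (K := cnS hS h3) (dd := dd) (Rr := Rr) (T := Tt)
    coins_chiS csub_chiS cdis_chiS (fun d hd => H.gen h0' hd) hst.st g0 g1 hgo hgT ?_ I
    (Tb := TW S V z1 r1 q) (hc.trans (pr_tw hV).ge) ?_ z3 z1' zc hφ hQ
    (N := 2 ^ (S.card - Fintype.card (Cs hS))) (fun F => ?_) (by positivity)
  · intro σ hσ
    obtain ⟨r, T, B', HV, t, ht, e⟩ := hg σ hσ
    rw [← e]
    exact HV.rgp hst ht
  · intro b b' hb hb' hO hT k n hcd hgd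
    exact meet_P H h3 h0' (fre_chiS hV hVi) (geo_gU hG) hO hT hcd hgd
  · rw [sum_chiS, nsmul_eq_mul]
    push_cast
    rfl

end sites

end Crest.Agent.R143.RevSx352
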