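import Crest.Agent.R143.ES_831

/-!
# R143 (helper831, BC8): the level-one revealment inequality for stopping sets

`J : configurations → sets of coordinates` is a stopping set for `f` if configurations that agree
on `J x` have the same `J` and the same `f`. No decision tree is needed:
`∑_{i ∈ F} (E f s_i)^2 ≤ max_{i ∈ F} P(i ∈ J) * E f^2` for centred `s_i(x_i)`, `|s_i| ≤ 1`.
-/

set_option autoImplicit false
set_option linter.unusedSectionVars false

open MeasureTheory ProbabilityTheory Filter Topology
open scoped ENNReal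

namespace Crest.Agent.R143.Revx831

open Crest.Agent.R143.ESx831

variable {I : Type*} [DecidableEq I] {X : I → Type*} [∀ i, MeasurableSpace (X i)]
  (μ : ∀ i, Measure (X i)) [∀ i, IsProbabilityMeasure (μ i)]

/-- a function that does not depend on the coordinate `i` is orthogonal to centred functions of the
coordinate `i` -/
theorem integral_mul_eq_zero (i : I) {φ : (∀ j, X j) → ℝ} (hφ : Measurable φ) {C : ℝ}
    (hφb : ∀ x, |φ x| ≤ C) (hφi : ∀ x t, φ (Function.update x i t) = φ x) {s : X i → ℝ}
    (hs : Measurable s) (hsb : ∀ t, |s t| ≤ 1) (hs0 : ∫ t, s t ∂(μ i) = 0) :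
    ∫ x, φ x * s (x i) ∂(Measure.infinitePi μ) = 0 := by
  have hmp := mp_update μ i
  have hm : Measurable (fun x : (∀ j, X j) => φ x * s (x i)) :=
    hφ.mul (hs.comp (measurable_pi_apply i))
  have e1 := integral_map (μ := (Measure.infinitePi μ).prod (μ i))
    (φ := fun p : (∀ j, X j) × X i => Function.update p.1 i p.2)
    hmp.measurable.aemeasurable (f := fun x : (∀ j, X j) => φ x * s (x i))
    (by rw [hmp.map_eq]; exact hm.aestronglyMeasurable)
  rw [hmp.map_eq] at e1
  rw [e1]
  simp only [hφi, Function.update_self]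
  have hint : Integrable (fun p : (∀ j, X j) × X i => φ p.1 * s p.2)
      ((Measure.infinitePi μ).prod (μ i)) := by
    refine integrable_of_bound (C := C * 1) _ ((hφ.comp measurable_fst).mul
      (hs.comp measurable_snd)) (fun p => ?_)
    rw [abs_mul]
    exact mul_le_mul (hφb _) (hsb _) (abs_nonneg _) ((abs_nonneg _).trans (hφb p.1))
  rw [integral_prod _ hint]
  simp only [integral_const_mul, hs0, mul_zero, integral_zero]

section stopping

variable {J : (∀ i, X i) → Set I}

/-- the event `i ∉ J` does not depend on the coordinate `i` -/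
lemma notMem_update (hJ : ∀ x y, (∀ i ∈ J x, x i = y i) → J y = J x) {i : I} {x : ∀ i, X i}
    (hi : i ∉ J x) (t : X i) : J (Function.update x i t) = J x := by
  apply hJ
  intro j hj
  rw [Function.update_of_ne]
  rintro rfl
  exact hi hj

lemma notMem_update_iff (hJ : ∀ x y, (∀ i ∈ J x, x i = y i) → J y = J x) {i : I} (x : ∀ i, X i)
    (t : X i) : i ∉ J (Function.update x i t) ↔ i ∉ J x := by
  constructor
  · intro h
    have h2 := notMem_update hJ h (x i)
    rw [Function.update_idem, Function.update_eq_self] at h2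
    rw [h2]; exact h
  · intro h
    rw [notMem_update hJ h t]; exact h

open Classical in
/-- indicator of a set of configurations -/
noncomputable def ind (A : Set (∀ i, X i)) (x : ∀ i, X i) : ℝ := if x ∈ A then 1 else 0

lemma measurable_ind {A : Set (∀ i, X i)} (hA : MeasurableSet A) : Measurable (ind A) :=
  Measurable.ite hA measurable_const measurable_const

lemma abs_ind_le (A : Set (∀ i, X i)) (x : ∀ i, X i) : |ind A x| ≤ 1 := by
  unfold ind; split_ifs <;> simp

lemma ind_congr {A : Set (∀ i, X i)} {x y : ∀ i, X i} (h : x ∈ A ↔ y ∈ A) :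
    ind A x = ind A y := by
  unfold ind
  by_cases hx : x ∈ A
  · rw [if_pos hx, if_pos (h.1 hx)]
  · rw [if_neg hx, if_neg (fun hy => hx (h.2 hy))]

lemma ind_of_notMem {A : Set (∀ i, X i)} {x : ∀ i, X i} (h : x ∉ A) : ind A x = 0 := by
  unfold ind
  rw [if_neg h]

lemma ind_nonneg (A : Set (∀ i, X i)) (x : ∀ i, X i) : 0 ≤ ind A x := by
  unfold ind; split_ifs <;> simp

/-- **Level-one revealment inequality** (Schramm-Steif for level 1) for a stopping set. -/
theorem level_one (s : ∀ i, X i → ℝ) (hs : ∀ i, Measurable (s i)) (hsb : ∀ i t, |s i t| ≤ 1)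
    (hs0 : ∀ i, ∫ t, s i t ∂(μ i) = 0) {f : (∀ i, X i) → ℝ} (hf : Measurable f) {C : ℝ}
    (hfb : ∀ x, |f x| ≤ C) (hJm : ∀ i, MeasurableSet {x | i ∈ J x})
    (hJ : ∀ x y, (∀ i ∈ J x, x i = y i) → J y = J x)
    (hfJ : ∀ x y, (∀ i ∈ J x, x i = y i) → f y = f x) (F : Finset I) {δ : ℝ}
    (hδ0 : 0 ≤ δ) (hδ : ∀ i ∈ F, (Measure.infinitePi μ).real {x | i ∈ J x} ≤ δ) :
    ∑ i ∈ F, (∫ x, f x * s i (x i) ∂(Measure.infinitePi μ)) ^ 2 ≤
      δ * ∫ x, f x ^ 2 ∂(Measure.infinitePi μ) := by
  set P := Measure.infinitePi μ with hP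
  set a : I → ℝ := fun i => ∫ x, f x * s i (x i) ∂P with ha
  -- the events
  set N : I → Set (∀ i, X i) := fun i => {x | i ∉ J x} with hN
  have hNm : ∀ i, MeasurableSet (N i) := fun i => (hJm i).compl
  set K : I → Set (∀ i, X i) := fun i => {x | i ∈ J x} with hK
  have hKm : ∀ i, MeasurableSet (K i) := hJm
  have hKN : ∀ i x, ind (K i) x = 1 - ind (N i) x := by
    intro i x
    unfold ind
    by_cases h : i ∈ J x
    · simp [hK, hN, h]
    · simp [hK, hN, h]
  have hsm : ∀ i, Measurable (fun x : (∀ i, X i) => s i (x i)) := fun i =>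
    (hs i).comp (measurable_pi_apply i)
  have hPp : IsProbabilityMeasure P := by rw [hP]; infer_instance
  obtain ⟨x0⟩ : Nonempty (∀ i, X i) := nonempty_of_isProbabilityMeasure P
  have hC : 0 ≤ C := (abs_nonneg _).trans (hfb x0)
  -- (1) `f 1_{i ∉ J}` does not see the coordinate `i`
  have h1 : ∀ i, ∫ x, f x * ind (N i) x * s i (x i) ∂P = 0 := by
    intro i
    refine integral_mul_eq_zero μ i (φ := fun x => f x * ind (N i) x)
      (hf.mul (measurable_ind (hNm i))) (C := C) ?_ ?_ (hs i) (hsb i) (hs0 i)
    · intro x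
      rw [abs_mul]
      calc |f x| * |ind (N i) x| ≤ C * 1 :=
            mul_le_mul (hfb x) (abs_ind_le _ _) (abs_nonneg _) hC
        _ = C := mul_one C
    · intro x t
      by_cases h : i ∉ J x
      · have h2 := notMem_update hJ h t
        have h3 : f (Function.update x i t) = f x := by
          apply hfJ
          intro j hj
          rw [Function.update_of_ne]
          rintro rfl
          exact h hj
        have h4 : ind (N i) (Function.update x i t) = ind (N i) x :=
          ind_congr (notMem_update_iff hJ x t)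
        rw [h3, h4]
      · have h5 : ind (N i) x = 0 := by
          unfold ind
          simp only [hN, Set.mem_ofPred_eq, h, if_false]
        have h6 : ind (N i) (Function.update x i t) = 0 := by
          unfold ind
          simp only [hN, Set.mem_ofPred_eq, notMem_update_iff hJ, h, if_false]
        rw [h5, h6, mul_zero, mul_zero]
  -- (2) orthogonality on the revealed coordinates
  have h2 : ∀ i j, i ≠ j → ∫ x, s i (x i) * ind (K i) x * (s j (x j) * ind (K j) x) ∂P = 0 := by
    intro i j hij
    have b1 : ∀ x : (∀ i, X i), |s i (x i)| ≤ 1 := fun x => hsb i (x i)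
    have b2 : ∀ x : (∀ i, X i), |s j (x j)| ≤ 1 := fun x => hsb j (x j)
    have q0 : ∫ x, s i (x i) * s j (x j) ∂P = 0 := by
      refine integral_mul_eq_zero μ j (φ := fun x => s i (x i)) (hsm i) (C := 1) b1 ?_ (hs j)
        (hsb j) (hs0 j)
      intro x t
      rw [Function.update_of_ne hij]
    have q1 : ∫ x, (s j (x j) * ind (N i) x) * s i (x i) ∂P = 0 := by
      refine integral_mul_eq_zero μ i (φ := fun x => s j (x j) * ind (N i) x)
        ((hsm j).mul (measurable_ind (hNm i))) (C := 1) ?_ ?_ (hs i) (hsb i) (hs0 i)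
      · intro x
        rw [abs_mul]
        calc |s j (x j)| * |ind (N i) x| ≤ 1 * 1 :=
              mul_le_mul (b2 x) (abs_ind_le _ _) (abs_nonneg _) zero_le_one
          _ = 1 := mul_one 1
      · intro x t
        rw [Function.update_of_ne hij.symm]
        congr 1
        exact ind_congr (notMem_update_iff hJ x t)
    have q2 : ∫ x, (s i (x i) * ind (N j) x) * s j (x j) ∂P = 0 := by
      refine integral_mul_eq_zero μ j (φ := fun x => s i (x i) * ind (N j) x)
        ((hsm i).mul (measurable_ind (hNm j))) (C := 1) ?_ ?_ (hs j) (hsb j) (hs0 j)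
      · intro x
        rw [abs_mul]
        calc |s i (x i)| * |ind (N j) x| ≤ 1 * 1 :=
              mul_le_mul (b1 x) (abs_ind_le _ _) (abs_nonneg _) zero_le_one
          _ = 1 := mul_one 1
      · intro x t
        rw [Function.update_of_ne hij]
        congr 1
        exact ind_congr (notMem_update_iff hJ x t)
    have q3 : ∫ x, (s j (x j) * ind (N i) x * ind (N j) x) * s i (x i) ∂P = 0 := by
      refine integral_mul_eq_zero μ i (φ := fun x => s j (x j) * ind (N i) x * ind (N j) x)
        (((hsm j).mul (measurable_ind (hNm i))).mul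
        (measurable_ind (hNm j))) (C := 1) ?_ ?_ (hs i) (hsb i) (hs0 i)
      · intro x
        rw [abs_mul, abs_mul]
        calc |s j (x j)| * |ind (N i) x| * |ind (N j) x| ≤ 1 * 1 * 1 :=
              mul_le_mul (mul_le_mul (b2 x) (abs_ind_le _ _) (abs_nonneg _) zero_le_one)
                (abs_ind_le _ _) (abs_nonneg _) (by norm_num)
          _ = 1 := by norm_num
      · intro x t
        rw [Function.update_of_ne hij.symm]
        by_cases h : i ∉ J x
        · have h2 := notMem_update hJ h t
          have h3 : ind (N i) (Function.update x i t) = ind (N i) x :=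
            ind_congr (notMem_update_iff hJ x t)
          have h4 : ind (N j) (Function.update x i t) = ind (N j) x := by
            apply ind_congr
            change j ∉ J (Function.update x i t) ↔ j ∉ J x
            rw [h2]
          rw [h3, h4]
        · have h5 : ind (N i) x = 0 := by
            unfold ind
            simp only [hN, Set.mem_ofPred_eq, h, if_false]
          have h6 : ind (N i) (Function.update x i t) = 0 := by
            unfold ind
            simp only [hN, Set.mem_ofPred_eq, notMem_update_iff hJ, h, if_false]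
          rw [h5, h6]; simp
    have bm : ∀ {g : (∀ i, X i) → ℝ}, Measurable g → (∀ x, |g x| ≤ 1) → Integrable g P :=
      fun hg hb => integrable_of_bound P hg hb
    have i0 : Integrable (fun x => s i (x i) * s j (x j)) P := by
      refine bm ((hsm i).mul (hsm j)) (fun x => ?_)
      rw [abs_mul]; exact mul_le_one₀ (b1 x) (abs_nonneg _) (b2 x)
    have i1 : Integrable (fun x => (s j (x j) * ind (N i) x) * s i (x i)) P := by
      refine bm (((hsm j).mul (measurable_ind (hNm i))).mul (hsm i)) (fun x => ?_)
      rw [abs_mul, abs_mul]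
      exact mul_le_one₀ (mul_le_one₀ (b2 x) (abs_nonneg _) (abs_ind_le _ _)) (abs_nonneg _) (b1 x)
    have i2 : Integrable (fun x => (s i (x i) * ind (N j) x) * s j (x j)) P := by
      refine bm (((hsm i).mul (measurable_ind (hNm j))).mul (hsm j)) (fun x => ?_)
      rw [abs_mul, abs_mul]
      exact mul_le_one₀ (mul_le_one₀ (b1 x) (abs_nonneg _) (abs_ind_le _ _)) (abs_nonneg _) (b2 x)
    have i3 : Integrable (fun x => (s j (x j) * ind (N i) x * ind (N j) x) * s i (x i)) P := by
      refine bm ((((hsm j).mul (measurable_ind (hNm i))).mul (measurable_ind (hNm j))).mul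
        (hsm i)) (fun x => ?_)
      rw [abs_mul, abs_mul, abs_mul]
      exact mul_le_one₀ (mul_le_one₀ (mul_le_one₀ (b2 x) (abs_nonneg _) (abs_ind_le _ _))
        (abs_nonneg _) (abs_ind_le _ _)) (abs_nonneg _) (b1 x)
    have e : ∀ x, s i (x i) * ind (K i) x * (s j (x j) * ind (K j) x) =
        (s i (x i) * s j (x j) - (s j (x j) * ind (N i) x) * s i (x i)) -
          ((s i (x i) * ind (N j) x) * s j (x j) -
            (s j (x j) * ind (N i) x * ind (N j) x) * s i (x i)) := by
      intro x
      rw [hKN, hKN]; ring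
    have i01 : Integrable (fun x => s i (x i) * s j (x j) -
        (s j (x j) * ind (N i) x) * s i (x i)) P := i0.sub i1
    have i23 : Integrable (fun x => (s i (x i) * ind (N j) x) * s j (x j) -
        (s j (x j) * ind (N i) x * ind (N j) x) * s i (x i)) P := i2.sub i3
    rw [integral_congr_ae (Eventually.of_forall e), integral_sub i01 i23,
      integral_sub i0 i1, integral_sub i2 i3, q0, q1, q2, q3]
    ring
  -- (3) the projection
  set g : (∀ i, X i) → ℝ := fun x => ∑ i ∈ F, a i * (s i (x i) * ind (K i) x) with hg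
  have hgm : Measurable g := Finset.measurable_sum F fun i _ =>
    ((hsm i).mul (measurable_ind (hKm i))).const_mul (a i)
  have hsK : ∀ i x, |s i (x i) * ind (K i) x| ≤ 1 := fun i x => by
    rw [abs_mul]; exact mul_le_one₀ (hsb i _) (abs_nonneg _) (abs_ind_le _ _)
  have hgb : ∀ x, |g x| ≤ ∑ i ∈ F, |a i| := by
    intro x
    refine (Finset.abs_sum_le_sum_abs _ _).trans (Finset.sum_le_sum fun i _ => ?_)
    rw [abs_mul]
    exact mul_le_of_le_one_right (abs_nonneg _) (hsK i x)
  have hint1 : ∀ i, Integrable (fun x => f x * s i (x i)) P := fun i => by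
    refine integrable_of_bound (C := C * 1) P (hf.mul (hsm i)) (fun x => ?_)
    rw [abs_mul]
    exact mul_le_mul (hfb _) (hsb _ _) (abs_nonneg _) hC
  have hint2 : ∀ i, Integrable (fun x => f x * ind (N i) x * s i (x i)) P := fun i => by
    refine integrable_of_bound (C := C * 1 * 1) P ((hf.mul (measurable_ind (hNm i))).mul (hsm i))
      (fun x => ?_)
    rw [abs_mul, abs_mul]
    exact mul_le_mul (mul_le_mul (hfb _) (abs_ind_le _ _) (abs_nonneg _) hC) (hsb _ _)
      (abs_nonneg _) (by positivity)
  have hint3 : ∀ i, Integrable (fun x => f x * (s i (x i) * ind (K i) x)) P := fun i => by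
    refine integrable_of_bound (C := C * 1) P (hf.mul ((hsm i).mul (measurable_ind (hKm i))))
      (fun x => ?_)
    rw [abs_mul]
    exact mul_le_mul (hfb _) (hsK i x) (abs_nonneg _) hC
  have e3 : ∀ i, ∫ x, f x * (s i (x i) * ind (K i) x) ∂P = a i := by
    intro i
    have : ∀ x, f x * (s i (x i) * ind (K i) x) = f x * s i (x i) - f x * ind (N i) x * s i (x i) := by
      intro x; rw [hKN]; ring
    rw [integral_congr_ae (Eventually.of_forall this), integral_sub (hint1 i) (hint2 i), h1 i,
      sub_zero]
  have e4 : ∫ x, f x * g x ∂P = ∑ i ∈ F, a i ^ 2 := by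
    have : ∀ x, f x * g x = ∑ i ∈ F, a i * (f x * (s i (x i) * ind (K i) x)) := by
      intro x
      rw [hg]
      simp only
      rw [Finset.mul_sum]
      exact Finset.sum_congr rfl fun i _ => by ring
    rw [integral_congr_ae (Eventually.of_forall this),
      integral_finsetSum F (fun i _ => (hint3 i).const_mul (a i))]
    refine Finset.sum_congr rfl fun i _ => ?_
    rw [integral_const_mul, e3 i]; ring
  have hintK : ∀ i j, Integrable (fun x => s i (x i) * ind (K i) x * (s j (x j) * ind (K j) x)) P :=
    fun i j => by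
      refine integrable_of_bound (C := 1) P (((hsm i).mul (measurable_ind (hKm i))).mul
        ((hsm j).mul (measurable_ind (hKm j)))) (fun x => ?_)
      rw [abs_mul]
      exact mul_le_one₀ (hsK i x) (abs_nonneg _) (hsK j x)
  have e5 : ∫ x, g x ^ 2 ∂P ≤ δ * ∑ i ∈ F, a i ^ 2 := by
    have e6 : ∀ x, g x ^ 2 = ∑ i ∈ F, ∑ j ∈ F, a i * a j *
        (s i (x i) * ind (K i) x * (s j (x j) * ind (K j) x)) := by
      intro x
      rw [sq, hg]
      simp only
      rw [Finset.sum_mul_sum]
      exact Finset.sum_congr rfl fun i _ => Finset.sum_congr rfl fun j _ => by ring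
    rw [integral_congr_ae (Eventually.of_forall e6), integral_finsetSum F (fun i _ =>
      integrable_finsetSum F fun j _ => (hintK i j).const_mul _), Finset.mul_sum]
    refine Finset.sum_le_sum fun i hi => ?_
    rw [integral_finsetSum F (fun j _ => (hintK i j).const_mul _)]
    have e7 : ∀ j ∈ F, j ≠ i → ∫ x, a i * a j *
        (s i (x i) * ind (K i) x * (s j (x j) * ind (K j) x)) ∂P = 0 := by
      intro j _ hji
      rw [integral_const_mul, h2 i j (Ne.symm hji), mul_zero]
    rw [Finset.sum_eq_single_of_mem i hi e7, integral_const_mul]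
    have e8 : ∫ x, s i (x i) * ind (K i) x * (s i (x i) * ind (K i) x) ∂P ≤ δ := by
      have hle : ∀ x, s i (x i) * ind (K i) x * (s i (x i) * ind (K i) x) ≤
          (K i).indicator (fun _ => (1 : ℝ)) x := by
        intro x
        by_cases hx : x ∈ K i
        · rw [Set.indicator_of_mem hx]
          have := hsK i x
          rw [abs_le] at this
          nlinarith [this.1, this.2]
        · rw [Set.indicator_of_notMem hx]
          have : ind (K i) x = 0 := by unfold ind; simp only [hx, if_false]
          rw [this]; simp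
      calc ∫ x, s i (x i) * ind (K i) x * (s i (x i) * ind (K i) x) ∂P
          ≤ ∫ x, (K i).indicator (fun _ => (1 : ℝ)) x ∂P := by
            apply integral_mono (hintK i i) _ hle
            exact (integrable_const 1).indicator (hKm i)
        _ = P.real (K i) := by
            rw [integral_indicator_const _ (hKm i)]; simp
        _ ≤ δ := hδ i hi
    have : a i * a i = a i ^ 2 := (sq _).symm
    rw [this, mul_comm]
    exact mul_le_mul_of_nonneg_right e8 (sq_nonneg _)
  -- (4) Cauchy-Schwarz
  have hfi : Integrable (fun x => f x ^ 2) P := by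
    refine integrable_of_bound (C := C ^ 2) P (hf.pow_const 2) (fun x => ?_)
    rw [abs_pow]; exact pow_le_pow_left₀ (abs_nonneg _) (hfb x) 2
  have hgi : Integrable (fun x => g x ^ 2) P := by
    refine integrable_of_bound (C := (∑ i ∈ F, |a i|) ^ 2) P (hgm.pow_const 2) (fun x => ?_)
    rw [abs_pow]; exact pow_le_pow_left₀ (abs_nonneg _) (hgb x) 2
  have hfgi : Integrable (fun x => f x * g x) P := by
    refine integrable_of_bound (C := C * (∑ i ∈ F, |a i|)) P (hf.mul hgm) (fun x => ?_)
    rw [abs_mul]
    exact mul_le_mul (hfb _) (hgb _) (abs_nonneg _) hC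
  set S := ∑ i ∈ F, a i ^ 2 with hS
  have hS0 : 0 ≤ S := Finset.sum_nonneg fun i _ => sq_nonneg _
  have hf20 : 0 ≤ ∫ x, f x ^ 2 ∂P := integral_nonneg fun x => sq_nonneg _
  -- discriminant form: `2 t S ≤ t² ∫ f² + ∫ g²` for every `t`
  have hcs : ∀ t : ℝ, 2 * t * S ≤ t ^ 2 * ∫ x, f x ^ 2 ∂P + δ * S := by
    intro t
    have h0 : 0 ≤ ∫ x, (t * f x - g x) ^ 2 ∂P := integral_nonneg fun x => sq_nonneg _
    have e9 : ∀ x, (t * f x - g x) ^ 2 = t ^ 2 * f x ^ 2 - 2 * t * (f x * g x) + g x ^ 2 := by
      intro x; ring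
    have i9 : Integrable (fun x => t ^ 2 * f x ^ 2 - 2 * t * (f x * g x)) P :=
      (hfi.const_mul _).sub (hfgi.const_mul _)
    rw [integral_congr_ae (Eventually.of_forall e9), integral_add i9 hgi,
      integral_sub (hfi.const_mul _) (hfgi.const_mul _), integral_const_mul, integral_const_mul,
      e4] at h0
    linarith
  rcases hδ0.lt_or_eq with hδ1 | hδ1
  · have := hcs δ
    have h10 : δ * S ≤ δ * (δ * ∫ x, f x ^ 2 ∂P) := by nlinarith
    exact le_of_mul_le_mul_left h10 hδ1
  · subst hδ1
    rw [zero_mul]
    by_contra hSn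
    push Not at hSn
    by_cases hf2 : (∫ x, f x ^ 2 ∂P) = 0
    · have := hcs 1
      rw [hf2] at this
      linarith
    · have hf2' : 0 < ∫ x, f x ^ 2 ∂P := lt_of_le_of_ne hf20 (Ne.symm hf2)
      have := hcs (S / ∫ x, f x ^ 2 ∂P)
      have h12 : (S / ∫ x, f x ^ 2 ∂P) ^ 2 * ∫ x, f x ^ 2 ∂P = S ^ 2 / ∫ x, f x ^ 2 ∂P := by
        field_simp
      rw [h12] at this
      have h13 : 2 * (S / ∫ x, f x ^ 2 ∂P) * S = 2 * (S ^ 2 / ∫ x, f x ^ 2 ∂P) := by ring
      rw [h13] at this
      have h14 : 0 < S ^ 2 / ∫ x, f x ^ 2 ∂P := by positivity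
      linarith

end stopping

end Crest.Agent.R143.Revx831
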