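import Crest.Agent.R143.UniQ_357
import Crest.Agent.R143.RevR_352

/-!
# Row 143 (S0194), block H, P2 (helper357): 352's `RgP` from the ring

* `RWd` : 355's ring loop `RLW` and 389's `RX` for one window at the gate `s`; `gU G U` : 352's data
* `rcw_st` : the right cells of the strand off the window are in the white cluster of `G'`
* **`gd_ring`** : 352's `Gd`; **`pP_eq`** : 352's outer arc = 389's outer arc (`p0`, `ln`)
* **`rgp`** : `RgP`; `stp` : `StP`
-/

set_option autoImplicit false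
set_option linter.unusedSectionVars false

noncomputable section

open scoped Classical

namespace Crest.Agent.R143.RgPx357

open Crest.Agent.R143.Frame1x395 Crest.Agent.R143.Frame2x395 Crest.Agent.R143.Frame3x395
  Crest.Agent.R143.Frame4x395 Crest.Agent.R143.Frame8x395 Crest.Agent.R143.NonXx592
  Crest.Agent.R143.Coarsex166 Crest.Agent.R143.CFramex358 Crest.Agent.R143.Runx535
  Crest.Agent.R143.Gntx535 Crest.Agent.R143.StrUx535
  Crest.Agent.R143.Winx355 Crest.Agent.R143.RWrx355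

open Crest.Agent.R143.Exitx707 (Nb nb_symm)
open Crest.Agent.R143.Strandx535 (Sd mem_Sd str_refl str_symm str_trans Str)
open Crest.Agent.R143.RevAx389 (Cl Lk cl_step cl_mono)
open Crest.Agent.R143.RevCx389 (Rg Xs Fs Cw p0 q0 ln fst' cw_white)
open Crest.Agent.R143.RingWx389 (RX xs_sub)
open Crest.Agent.R143.RevPx352 (Arc Ss Gd pP lP OwP)
open Crest.Agent.R143.RevQx352 (StP RgP)
open Crest.Agent.R143.RevRx352 (gU RtB)
open Crest.Agent.R143.UniQx357

variable {D C : Type} [Fintype D] {M : CMap D C} {ψ : C → ZMod 2} {P₀ : D} {N n : ℕ} {T : ℕ → ℕ}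
  {Reg : ℕ → Set C} {G' : Rg D C} {U B' : Set C} {s m : ℕ}

/-- 352's `RtB` is a run -/
theorem rtb_eq : RtB (fun k => Reg (s + k)) m = run Reg s (s + m) := by
  ext c
  constructor
  · rintro ⟨k, h1, h2⟩
    exact ⟨s + k, by omega, by omega, h2⟩
  · rintro ⟨k, h1, h2, h3⟩
    obtain ⟨j, rfl⟩ := Nat.exists_eq_add_of_le h1
    exact ⟨j, by omega, h3⟩

/-- the ring and one window with `m` tiles off the window, base = the gate `s` -/
structure RWd (M : CMap D C) (ψ : C → ZMod 2) (P₀ : D) (N n : ℕ) (T : ℕ → ℕ) (Reg : ℕ → Set C)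
    (G' : Rg D C) (s m : ℕ) (B' : Set C) : Prop where
  R : RLW M ψ P₀ N n T Reg
  X : RX M G' ψ (P M (cfg M ψ) P₀ (T s)) (fun k => T (s + k) - T s) m n (fun k => Reg (s + k)) B'
  s1 : 1 ≤ s
  mn : m + 3 ≤ n

namespace RWd

variable (H : RWd M ψ P₀ N n T Reg G' s m B')
include H

theorem Ts (k : ℕ) : T s ≤ T (s + k) := H.R.mono.monotone (Nat.le_add_right _ _)

/-- the right cells of times in `[T s, T (s + m)]` are in the white cluster -/
theorem rcw {t : ℕ} (h1 : T s ≤ t) (h2 : t ≤ T (s + m)) :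
    M.cell (M.rho (P M (cfg M ψ) P₀ t)) ∈ Cw M G' ψ := by
  have h3 := H.X.rcw (t := t - T s) (by show t - T s ≤ T (s + m) - T s; omega)
  rwa [← P_add, Nat.sub_add_cancel h1] at h3

theorem in_dw {c : C} (hc : c ∈ run Reg s (s + m)) :
    c ∈ G'.Dw ∧ c ∉ G'.Th ∧ c ∉ G'.Dp ∧ c ∉ G'.Far ∧ c ∉ G'.Ann := by
  obtain ⟨k, k1, k2, k3⟩ := hc
  obtain ⟨j, rfl⟩ := Nat.exists_eq_add_of_le k1
  have h1 := H.X.out j (by omega) c k3
  have h2 := H.X.off j (by have := H.mn; omega) c k3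
  exact ⟨h1.1, h1.2.1, h1.2.2, h2.1, h2.2⟩

/-- **the right cells of the strand off the window are in the white cluster** -/
theorem rcw_st {a z : ℕ} (h1 : a ≤ T s) (h2 : T (s + m) ≤ z)
    (A : IsArc M (cfg M ψ) (run Reg s (s + m)) (P M (cfg M ψ) P₀ a) (z - a)) {v : ℕ}
    (h3 : a ≤ v) (h4 : v ≤ z) : M.cell (M.rho (P M (cfg M ψ) P₀ v)) ∈ Cw M G' ψ := by
  have hx : IsC M ∅ (cfg M ψ) := cfg_isC ψ
  have hTs := H.Ts m
  have mem : ∀ v, a ≤ v → v ≤ z → M.cell (M.rho (P M (cfg M ψ) P₀ v)) ∈ run Reg s (s + m) := by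
    intro v h3 h4
    have h5 := (A.mem (v - a) (by omega)).2
    rwa [← P_add, Nat.sub_add_cancel h3] at h5
  have wh := fun v => right_zero H.R v
  have step : ∀ v, M.cell (M.rho (P M (cfg M ψ) P₀ (v + 1))) = M.cell (M.rho (P M (cfg M ψ) P₀ v)) ∨
      Nb M (M.cell (M.rho (P M (cfg M ψ) P₀ v))) (M.cell (M.rho (P M (cfg M ψ) P₀ (v + 1)))) := by
    intro v
    rw [P_succ]
    rcases stp_cases hx (P_occ hx H.R.L.occ v) (Set.notMem_empty _) with ⟨h1, h2, e⟩ | ⟨h1, h2, e⟩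
    · left
      rw [e, cell_rho_iota M (hx.lv h1)]
    · right
      rw [e, cell_rho_iota M (hx.lv h2)]
      exact Tubex389.nb_rho _
  rcases le_or_gt v (T s) with h5 | h5
  · -- downwards from `T s`
    have key : ∀ u, u ≤ T s - a → M.cell (M.rho (P M (cfg M ψ) P₀ (T s - u))) ∈ Cw M G' ψ := by
      intro u
      induction u with
      | zero => exact fun _ => H.rcw le_rfl hTs
      | succ u ih =>
        intro hu
        have h6 := ih (by omega)
        have e : T s - u = (T s - (u + 1)) + 1 := by omega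
        rw [e] at h6
        rcases step (T s - (u + 1)) with h | h
        · rw [← h]; exact h6
        · exact cl_step h6 (nb_symm h) (H.in_dw (mem _ (by omega) (by omega))).1 (wh _)
    have := key (T s - v) (by omega)
    rwa [Nat.sub_sub_self h5] at this
  · rcases le_or_gt v (T (s + m)) with h6 | h6
    · exact H.rcw h5.le h6
    · have key : ∀ u, T (s + m) + u ≤ z →
          M.cell (M.rho (P M (cfg M ψ) P₀ (T (s + m) + u))) ∈ Cw M G' ψ := by
        intro u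
        induction u with
        | zero => exact fun _ => H.rcw hTs le_rfl
        | succ u ih =>
          intro hu
          have h7 := ih (by omega)
          rcases step (T (s + m) + u) with h | h
          · rw [← add_assoc, h]; exact h7
          · rw [← add_assoc]
            exact cl_step h7 h (H.in_dw (mem _ (by omega) (by omega))).1 (wh _)
      have := key (v - T (s + m)) (by omega)
      rwa [Nat.add_sub_cancel' h6.le] at this

/-- first dart of a chain on the strand = first dart with outer cell in the white cluster -/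
theorem fst_eq {a z : ℕ} {d : D} (h1 : a ≤ T s) (h2 : T (s + m) ≤ z)
    (A : Arc M (run Reg s (s + m)) d ψ (P M (cfg M ψ) P₀ a) (z - a)) (L : ℕ → D) {v : ℕ}
    (h3 : a ≤ v) (h4 : v ≤ z) (h5 : fst' M L (Cw M G' ψ) = P M (cfg M ψ) P₀ v) :
    L (sInf {k | L k ∈ Ss M (run Reg s (s + m)) d ψ}) = P M (cfg M ψ) P₀ v := by
  have haz : a ≤ z := by omega
  have hmem : sInf {i | M.cell (M.rho (L i)) ∈ Cw M G' ψ} ∈
      {k | L k ∈ Ss M (run Reg s (s + m)) d ψ} := by
    show L (sInf {i | M.cell (M.rho (L i)) ∈ Cw M G' ψ}) ∈ Ss M (run Reg s (s + m)) d ψ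
    have h6 : L (sInf {i | M.cell (M.rho (L i)) ∈ Cw M G' ψ}) = P M (cfg M ψ) P₀ v := h5
    rw [h6]
    exact (mem_ss A haz).2 ⟨v, h3, h4, rfl⟩
  have e : sInf {k | L k ∈ Ss M (run Reg s (s + m)) d ψ} =
      sInf {i | M.cell (M.rho (L i)) ∈ Cw M G' ψ} := by
    apply le_antisymm
    · exact Nat.sInf_le hmem
    · have h7 : L (sInf {k | L k ∈ Ss M (run Reg s (s + m)) d ψ}) ∈
          Ss M (run Reg s (s + m)) d ψ := Nat.sInf_mem ⟨_, hmem⟩
      apply Nat.sInf_le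
      obtain ⟨w, w1, w2, w3⟩ := (mem_ss A haz).1 h7
      show M.cell (M.rho (L _)) ∈ Cw M G' ψ
      rw [← w3]
      exact H.rcw_st h1 h2 A.arc w1 w2
  rw [e]
  exact h5

/-- the times of the ends of the outer arc -/
theorem ends : ∃ tp tq, T s ≤ tp ∧ tp < T (s + 3) ∧ T (s + m - 3) ≤ tq ∧ tq < T (s + m) ∧
    tp < tq ∧ p0 M G' ψ = P M (cfg M ψ) P₀ tp ∧ q0 M G' ψ = P M (cfg M ψ) P₀ tq ∧
    ln M G' ψ = tq - tp + 1 := by
  obtain ⟨tp, tq, h1, h2, h3, h4, h5, h6, h7⟩ := H.X.pq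
  have m7 := H.X.m7
  have e1 := H.Ts 3
  have e2 := H.Ts (m - 3)
  have e3 := H.Ts m
  have g1 : tp < T (s + 3) - T s := h1
  have g2 : T (s + (m - 3)) - T s ≤ tq := h2
  have g3 : tq < T (s + m) - T s := h3
  have e4 : s + m - 3 = s + (m - 3) := by omega
  refine ⟨tp + T s, tq + T s, by omega, by omega, by rw [e4]; omega, by omega, by omega, ?_, ?_,
    by omega⟩
  · rw [P_add]; exact h5
  · rw [P_add]; exact h6

variable {d : D} {u₀ : ℕ}

/-- **352's `Gd`** -/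
theorem gd_ring (U : Set C) (h1 : T s ≤ u₀) (h2 : u₀ ≤ T (s + m)) :
    ∃ a z tp tq, T (s - 1) < a ∧ a ≤ T s ∧ T (s + m) ≤ z ∧ z < T (s + m + 1) ∧
      T s ≤ tp ∧ tp < T (s + 3) ∧ T (s + m - 3) ≤ tq ∧ tq < T (s + m) ∧
      Arc M (run Reg s (s + m)) (P M (cfg M ψ) P₀ u₀) ψ (P M (cfg M ψ) P₀ a) (z - a) ∧
      Gd M (gU G' U) (run Reg s (s + m)) (P M (cfg M ψ) P₀ u₀) ψ (P M (cfg M ψ) P₀ a) (z - a)
        (tp - a) (tq - a) ∧
      p0 M G' ψ = P M (cfg M ψ) P₀ tp ∧ ln M G' ψ = tq - tp + 1 := by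
  have m7 := H.X.m7
  have hmn := H.mn
  obtain ⟨a, z, s1, s2, s3, s4, az, A⟩ := arc_st H.R H.s1 (show s < s + m by omega)
    (by omega) h1 h2
  obtain ⟨tp, tq, g1, g2, g3, g4, g5, g6, g7, g8⟩ := H.ends
  have e3 := H.Ts m
  refine ⟨a, z, tp, tq, s1, s2, s3, s4, g1, g2, g3, g4, A, ⟨A, by omega, by omega, ?_, ?_⟩,
    g6, g8⟩
  · rw [← P_add, Nat.sub_add_cancel (by omega)]
    exact (H.fst_eq s2 s3 A G'.La (by omega) (by omega) g6).symm
  · rw [← P_add, Nat.sub_add_cancel (by omega)]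
    exact (H.fst_eq s2 s3 A G'.Lb (by omega) (by omega) g7).symm

/-- **352's outer arc is 389's outer arc** -/
theorem pP_eq (U : Set C) (h1 : T s ≤ u₀) (h2 : u₀ ≤ T (s + m)) :
    pP M (gU G' U) (run Reg s (s + m)) (P M (cfg M ψ) P₀ u₀) ψ = p0 M G' ψ ∧
      lP M (gU G' U) (run Reg s (s + m)) (P M (cfg M ψ) P₀ u₀) ψ = ln M G' ψ := by
  obtain ⟨a, z, tp, tq, k1, k2, k3, k4, k5, k6, k7, k8, A, A', e1, e2⟩ := H.gd_ring U h1 h2
  have m7 := H.X.m7
  have h3 := H.R.mono.monotone (show s + 3 ≤ s + m - 3 by omega)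
  constructor
  · rw [A'.eq.1, e1, ← P_add, Nat.sub_add_cancel (by omega)]
  · rw [A'.eq.2, e2]
    omega

variable [Fintype C]

/-- **352's ring event** -/
theorem owp (hdp : ∀ c ∈ U, c ∉ G'.Dp) (h1 : T s ≤ u₀) (h2 : u₀ ≤ T (s + m))
    (hac : ∃ t, T (s + 3) ≤ t ∧ t ≤ T (s + m - 3) ∧
      M.cell (M.rho (P M (cfg M ψ) P₀ t)) ∈ Cw M (gU G' U) ψ) :
    OwP M (gU G' U) (run Reg s (s + m)) (P M (cfg M ψ) P₀ u₀) ψ := by
  obtain ⟨a, z, tp, tq, k1, k2, k3, k4, k5, k6, k7, k8, A, A', e1, e2⟩ := H.gd_ring U h1 h2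
  have m7 := H.X.m7
  have hT := H.Ts m
  have st : ∀ v, P M (cfg M ψ) (pP M (gU G' U) (run Reg s (s + m)) (P M (cfg M ψ) P₀ u₀) ψ) v =
      P M (cfg M ψ) P₀ (v + tp) := by
    intro v
    rw [A'.st, ← P_add]
    congr 1
    omega
  have el : lP M (gU G' U) (run Reg s (s + m)) (P M (cfg M ψ) P₀ u₀) ψ = tq - tp + 1 := by
    rw [A'.eq.2]
    have h3 := A'.ij
    omega
  have hq : tp < tq := by
    have h3 := H.R.mono.monotone (show s + 3 ≤ s + m - 3 by omega)
    omega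
  refine ⟨⟨_, _, _, _, A'⟩, ?_, ?_, ?_, ?_, ?_, ?_⟩
  · exact H.X.x1
  · have := left_one H.R tp
    have e : pP M (gU G' U) (run Reg s (s + m)) (P M (cfg M ψ) P₀ u₀) ψ = P M (cfg M ψ) P₀ tp := by
      have := st 0
      rw [zero_add] at this
      exact this
    rw [e]
    exact left_one H.R tp
  · intro v hv hx
    rw [st] at hx
    rw [el] at hv
    have h3 := rd_mem H.R (show s < s + m by omega) (t := v + tp) (by omega) (by omega)
    have h4 := H.in_dw h3.1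
    rcases xs_sub H.X.h0 hx with h5 | h5
    · exact h4.2.2.2.1 h5
    · exact h4.2.2.2.2 h5.1
  · obtain ⟨t, t1, t2, t3⟩ := hac
    refine ⟨t - tp, by rw [el]; omega, ?_⟩
    rw [st, Nat.sub_add_cancel (by omega)]
    exact t3
  · intro c hc
    obtain ⟨v, v1, v2, v3⟩ := (mem_sd A (by omega)).1 hc
    have h3 := A.arc.mem (v - a) (by omega)
    rw [← P_add, Nat.sub_add_cancel v1] at h3
    have h4 : c ∈ run Reg s (s + m) := by
      rcases v3 with e | e
      · rw [← e]; exact h3.1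
      · rw [← e]; exact h3.2
    have h5 := H.in_dw h4
    exact ⟨h5.2.1, h5.2.2.1⟩
  · rintro c ⟨h3, -⟩
    exact hdp c h3

variable {ι : Type} {a b u : ι → ℕ} {Tf : Finset C}

/-- **352's `RgP`** -/
theorem rgp (hdp : ∀ c ∈ U, c ∉ G'.Dp) (h1 : T s ≤ u₀) (h2 : u₀ ≤ T (s + m))
    (hac : ∃ t, T (s + 3) ≤ t ∧ t ≤ T (s + m - 3) ∧
      M.cell (M.rho (P M (cfg M ψ) P₀ t)) ∈ Cw M (gU G' U) ψ)
    (ia : ∀ i, s ≤ a i) (hab : ∀ i, a i < b i) (ib : ∀ i, b i ≤ s + m)
    (hu1 : ∀ i, T (a i) ≤ u i) (hu2 : ∀ i, u i ≤ T (b i))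
    (hT : ∀ k, s ≤ k → k < s + m → (∀ i, ¬ (a i ≤ k ∧ k < b i)) → ∀ c ∈ Reg k, c ∈ Tf) :
    RgP M (gU G' U) (run Reg s (s + m)) (P M (cfg M ψ) P₀ u₀) (fun i => run Reg (a i) (b i))
      (fun i => P M (cfg M ψ) P₀ (u i)) Tf ψ := by
  have m7 := H.X.m7
  have hmn := H.mn
  have hs1 := H.s1
  refine ⟨H.owp hdp h1 h2 hac, fun i => ?_, fun i => ?_, fun c hc => ?_⟩
  · have := ia i
    have := ib i
    obtain ⟨x, y, -, -, -, -, -, A⟩ := arc_st H.R (show 1 ≤ a i by omega) (hab i) (by omega)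
      (hu1 i) (hu2 i)
    exact ⟨_, _, A⟩
  · obtain ⟨x, y, x1, x2, x3, x4, xy, A⟩ := arc_st H.R H.s1 (show s < s + m by omega) (by omega)
      h1 h2
    have g1 := H.R.mono.monotone (ia i)
    have g2 := H.R.mono.monotone (ib i)
    have g3 := hu1 i
    have g4 := hu2 i
    exact (mem_ss A xy).2 ⟨u i, by omega, by omega, rfl⟩
  · rcases cov H.R hab hu1 hu2 H.s1 (show s < s + m by omega) (by omega) h1 h2 ia ib hc with
      h3 | ⟨k, k1, k2, k3, k4⟩
    · exact Or.inl h3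
    · exact Or.inr (hT k k1 k2 k3 c k4)

end RWd

/-- **352's static facts** -/
theorem stp {ι : Type} {a b : ι → ℕ} {Tf : Finset C} (mn : m + 3 ≤ n)
    (dis : ∀ k j, 2 ≤ j → j + 2 ≤ n → Disjoint (Reg k) (Reg (k + j)))
    (h0 : G'.h0 ∈ G'.Far)
    (off : ∀ k, s ≤ k → k < s + m → ∀ c ∈ Reg k, c ∉ G'.Far ∧ c ∉ G'.Ann)
    (hTh : ∀ c ∈ U, c ∉ G'.Th) (hdw : ∀ c ∈ U, c ∈ Tf)
    (ia : ∀ i, s ≤ a i) (ib : ∀ i, b i ≤ s + m)
    (sep : ∀ i j, i ≠ j → b i < a j ∨ b j < a i) :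
    StP (gU G' U) (run Reg s (s + m)) (fun i => run Reg (a i) (b i)) Tf where
  h0 := h0
  off := by
    rintro i c ⟨k, k1, k2, k3⟩
    have := ia i
    have := ib i
    exact off k (by omega) (by omega) c k3
  reg := by
    rintro i j c ⟨k, k1, k2, k3⟩ ⟨k', j1, j2, j3⟩
    by_contra hne
    have h1 := ia i
    have h2 := ib i
    have h3 := ia j
    have h4 := ib j
    rcases sep i j hne with h | h
    · have h5 := dis k (k' - k) (by omega) (by omega)
      rw [Nat.add_sub_cancel' (show k ≤ k' by omega)] at h5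
      exact Set.disjoint_left.1 h5 k3 j3
    · have h5 := dis k' (k - k') (by omega) (by omega)
      rw [Nat.add_sub_cancel' (show k' ≤ k by omega)] at h5
      exact Set.disjoint_left.1 h5 j3 k3
  sub := fun i => run_mono (ia i) (ib i)
  dw := hdw
  th := hTh

end Crest.Agent.R143.RgPx357
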