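import Crest.Agent.R143.PolyM_346
import Crest.Agent.R143.RigC_654
import Crest.Agent.R143.FinC_894

/-!
# Row 143 (S0194): RIG for the frozen totals, from 654's corridor identities (helper346)

* `T_sum`, `T'_sum` : `u.T = 3 Σ omz i m i`, `u.T' = 3 Σ omz i conj (m i)` (`m` = `PolyMx346.m`)
* **`rig_of_lx`, `rig_of_env`** : 654's `poly_ends` / `poly_env` for `m` = mean end points of `Poly`
  give `FinCx894.Rig` literally
-/

set_option autoImplicit false

noncomputable section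

open scoped Classical

namespace Crest.Agent.R143.RigTx346

open Complex Set Filter Topology MeasureTheory
open scoped ENNReal
open Crest.ProbabilityR.Voronoi
open Crest.Agent.R143.B0x346 Crest.Agent.R143.NetUx346 Crest.Agent.R143.NetVx346
open Crest.Agent.R143.PolyUx346 Crest.Agent.R143.PolyMx346
open Crest.Agent.R143.Alg4x133 (omz_cube)
open Crest.Agent.R143.AsmNx758 (POLY)
open Crest.Agent.R143.PolySx854
open Crest.Agent.R143.RigCx654 (Lx EnvX tI dI poly_ends poly_env)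

variable {u : Poly}

theorem T_sum (ε : ℝ) (ω : Sample) : u.T ε ω = 3 * ∑ i, omz i * m u ε ω i := by
  rw [T_eq, a]
  ring

theorem T'_sum (ε : ℝ) (ω : Sample) :
    u.T' ε ω = 3 * ∑ i, omz i * (starRingEnd ℂ) (m u ε ω i) := by
  have h := congrArg (starRingEnd ℂ) (T'_eq (u := u) ε ω)
  rw [Complex.conj_conj] at h
  rw [h, b, map_mul, map_neg, map_neg, map_sum, Complex.conj_ofNat]
  have e : ∀ i : ZMod 3, (starRingEnd ℂ) (omz i ^ 2 * m u ε ω i) =
      omz i * (starRingEnd ℂ) (m u ε ω i) := by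
    intro i
    rw [map_mul, ← conj_omz, Complex.conj_conj]
  rw [Finset.sum_congr rfl fun i _ => e i]
  ring

/-- **RIG from the corridor identities** (654's `poly_ends`) -/
theorem rig_of_lx {I : Type} {𝓁 : Filter I} [𝓁.NeBot] {κ : I → ℝ → ℂ}
    {e : Poly → I → ℝ → ℝ} (he : ∀ u, DL 𝓁 (e u))
    (h : ∀ u : Poly, ∀ᶠ N in 𝓁, ∀ᶠ ε : ℝ in 𝓝[>] 0, ∀ i : ZMod 3,
      Lx om (κ N ε) (fun ω => tI (m u ε ω) i) (fun ω => dI (m u ε ω) i) (e u N ε)) :
    FinCx894.Rig := by
  have h1 := poly_ends he h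
  have eT : (fun (u : Poly) ε ω => 3 * ∑ i, omz i * m u ε ω i) = Poly.T := by
    funext u ε ω
    rw [T_sum]
  have eT' : (fun (u : Poly) ε ω => 3 * ∑ i, omz i * (starRingEnd ℂ) (m u ε ω i)) = Poly.T' := by
    funext u ε ω
    rw [T'_sum]
  rw [eT, eT'] at h1
  exact h1

/-- **RIG from 970's corridor data** (654's `poly_env`) -/
theorem rig_of_env {I : Type} {𝓁 : Filter I} [𝓁.NeBot] {κ : I → ℝ → ℂ}
    {e : Poly → I → ℝ → ℝ} (he : ∀ u, DL 𝓁 (e u))
    (h : ∀ u : Poly, ∀ᶠ N in 𝓁, ∀ᶠ ε : ℝ in 𝓝[>] 0, ∀ i : ZMod 3,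
      EnvX om (κ N ε) (fun ω => tI (m u ε ω) i) (fun ω => dI (m u ε ω) i) (e u N ε)) :
    FinCx894.Rig := by
  refine rig_of_lx (κ := κ) he fun u => ?_
  filter_upwards [h u] with N h1
  filter_upwards [h1] with ε h2 i
  exact (h2 i).lx

end Crest.Agent.R143.RigTx346
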