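import Crest.Agent.R143.RigZ_609
import Crest.Agent.R143.R10U_930

/-!
# Row 143 (S0194), RIG: bad sets and numbers of the last instance (helper609)

* `CEs u ε L ω` : 133's `CorEnv` for a finite list of parameters; **`bad_CEs`** : its complement has
  small probability
* `th0 C c K u h η = C ((16 h / η) ^ c + (h / Du u K) ^ c)` (930); `th0_t3` (`η = e0`),
  `a2N`, `a2N_t3` (`η = √h`)
-/

set_option autoImplicit false

noncomputable section

open scoped Classical

namespace Crest.Agent.R143.RigYx609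

open MeasureTheory Set Filter Topology
open scoped ENNReal
open Crest.ProbabilityR.Voronoi
open Crest.Agent.R143.PolyUx346 (Poly)
open Crest.Agent.R143.PolySx854 Crest.Agent.R143.PolyEx854
open Crest.Agent.R143.RigPx854
open Crest.Agent.R143.CorEx133
open Crest.Agent.R143.LimSx133
open Crest.Agent.R143.R10Nx930 (Du Du_pos r10_lim)

/-! ### bad sets -/

/-- 133's environment for a finite list of parameters `(K1, c2, ρ0)` -/
def CEs (u : Poly) (ε : ℝ) (L : List (ℝ × ℝ × ℝ)) (ω : Sample) : Prop :=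
  ∀ t ∈ L, CorEnv u ε √ε t.1 t.2.1 t.2.2 ω

/-- admissible parameters -/
def OkT (t : ℝ × ℝ × ℝ) : Prop := 0 ≤ t.1 ∧ 0 < t.2.1 ∧ 0 < t.2.2

theorem bad_CEs (u : Poly) {L : List (ℝ × ℝ × ℝ)} (hL : ∀ t ∈ L, OkT t) : ∀ η > 0,
    ∀ᶠ ε : ℝ in 𝓝[>] 0, sampleLaw {ω | ¬ CEs u ε L ω} ≤ ENNReal.ofReal η := by
  induction L with
  | nil =>
    intro η _
    refine Eventually.of_forall fun ε => ?_
    have e : {ω | ¬ CEs u ε [] ω} = ∅ := by
      rw [Set.eq_empty_iff_forall_notMem]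
      intro ω hω
      exact hω fun t ht => absurd ht List.not_mem_nil
    rw [e]
    simp
  | cons t L ih =>
    obtain ⟨h1, h2, h3⟩ := hL t List.mem_cons_self
    have h4 : ∀ η > 0, ∀ᶠ ε : ℝ in 𝓝[>] 0,
        sampleLaw {ω | ¬ CorEnv u ε √ε t.1 t.2.1 t.2.2 ω} ≤ ENNReal.ofReal η := by
      refine bad_rate one_pos (bad := fun ε => {ω | ¬ CorEnv u ε √ε t.1 t.2.1 t.2.2 ω}) ?_
      filter_upwards [cor_env_sqrt u 1 t.1 1 t.2.1 t.2.2 h1 one_pos h2 h3] with ε h
      exact h.2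
    have h5 := bad_union (B := fun ε => {ω | ¬ CorEnv u ε √ε t.1 t.2.1 t.2.2 ω})
      (B' := fun ε => {ω | ¬ CEs u ε L ω}) h4 (ih fun s hs => hL s (List.mem_cons_of_mem _ hs))
    intro η hη
    filter_upwards [h5 η hη] with ε h6
    refine (measure_mono fun ω hω => ?_).trans h6
    by_cases h7 : CorEnv u ε √ε t.1 t.2.1 t.2.2 ω
    · right
      intro h8
      refine hω fun s hs => ?_
      rcases List.mem_cons.1 hs with rfl | hs
      · exact h7
      · exact h8 s hs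
    · exact Or.inl h7

/-! ### numbers -/

/-- the bound of R10 at the precision `η` -/
def th0 (C c K : ℝ) (u : Poly) (h η : ℝ) : ℝ := C * ((16 * h / η) ^ c + (h / Du u K) ^ c)

section num

variable {C c K : ℝ} {u : Poly}

theorem th0_nonneg (hC : 0 ≤ C) (hK : 0 ≤ K) {h η : ℝ} (hh : 0 ≤ h) (_hη : 0 ≤ η) :
    0 ≤ th0 C c K u h η := by
  have := (Du_pos u hK).le
  unfold th0
  positivity

theorem hN_within : Tendsto hN atTop (𝓝[>] 0) :=
  tendsto_nhdsWithin_iff.2 ⟨hN_tendsto, Eventually.of_forall fun N => hN_pos N⟩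

/-- fixed precision -/
theorem th0_lim (hc : 0 < c) (hK : 0 ≤ K) {η : ℝ} (hη : 0 < η) :
    Tendsto (fun h : ℝ => th0 C c K u h η) (𝓝[>] 0) (𝓝 0) := by
  have hD := Du_pos u hK
  have hi : Tendsto (fun h : ℝ => h) (𝓝[>] 0) (𝓝 0) := nhdsWithin_le_nhds
  have h1 : Tendsto (fun h : ℝ => 16 * h / η) (𝓝[>] 0) (𝓝 0) := by
    have := (hi.const_mul 16).div_const η
    rwa [mul_zero, zero_div] at this
  have h2 : Tendsto (fun h : ℝ => h / Du u K) (𝓝[>] 0) (𝓝 0) := by
    have := hi.div_const (Du u K)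
    rwa [zero_div] at this
  have h3 := (Real.continuousAt_rpow_const 0 c (Or.inr hc.le)).tendsto.comp h1
  have h4 := (Real.continuousAt_rpow_const 0 c (Or.inr hc.le)).tendsto.comp h2
  rw [Real.zero_rpow hc.ne'] at h3 h4
  have := (h3.add h4).const_mul C
  rw [add_zero, mul_zero] at this
  exact this

/-- `θ0` at the precision `e0` -/
theorem th0_t3 (hc : 0 < c) (hK : 0 ≤ K) :
    T3 atTop fun e0 N _ => th0 C c K u (hN N) e0 := by
  refine t3_of_dl ?_
  filter_upwards [self_mem_nhdsWithin] with e0 (he : 0 < e0)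
  exact dl_width ((th0_lim (C := C) (u := u) hc hK he).comp hN_within)

/-- error of the means: `3 (√h + 2 b θ0 (√h))` -/
def a2N (C c K : ℝ) (u : Poly) (b : ℝ) (N : ℕ) : ℝ :=
  3 * (√(hN N) + 2 * b * th0 C c K u (hN N) √(hN N))

theorem a2N_lim (hc : 0 < c) (hK : 0 ≤ K) (b : ℝ) :
    Tendsto (a2N C c K u b) atTop (𝓝 0) := by
  have h1 : Tendsto (fun N : ℕ => √(hN N)) atTop (𝓝 0) := by
    have := (Real.continuous_sqrt.tendsto 0).comp hN_tendsto
    rwa [Real.sqrt_zero] at this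
  have h2 : Tendsto (fun N : ℕ => th0 C c K u (hN N) √(hN N)) atTop (𝓝 0) :=
    (r10_lim C c K hc hK u).comp hN_within
  have h3 := (h1.add (h2.const_mul (2 * b))).const_mul 3
  rw [mul_zero, add_zero, mul_zero] at h3
  exact h3

theorem a2N_t3 (hc : 0 < c) (hK : 0 ≤ K) (b : ℝ) :
    T3 atTop fun _ N _ => a2N C c K u b N := DL.t3 (dl_width (a2N_lim hc hK b))

theorem a2N_nonneg (hC : 0 ≤ C) (hK : 0 ≤ K) {b : ℝ} (hb : 0 ≤ b) (N : ℕ) :
    0 ≤ a2N C c K u b N := by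
  have := th0_nonneg (c := c) (u := u) hC hK (hN_pos N).le (Real.sqrt_nonneg (hN N))
  unfold a2N
  positivity

/-- `√h` is an admissible precision for large `N` -/
theorem sqrt_ok (u : Poly) {K : ℝ} (hK : 0 ≤ K) : ∀ᶠ N : ℕ in atTop,
    16 * hN N ≤ √(hN N) ∧ √(hN N) ≤ Du u K := by
  have h1 : Tendsto (fun N : ℕ => √(hN N)) atTop (𝓝 0) := by
    have := (Real.continuous_sqrt.tendsto 0).comp hN_tendsto
    rwa [Real.sqrt_zero] at this
  filter_upwards [h1.eventually_lt_const (show (0 : ℝ) < 1 / 16 by norm_num),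
    h1.eventually_lt_const (Du_pos u hK)] with N h2 h3
  refine ⟨?_, h3.le⟩
  have h4 := Real.mul_self_sqrt (hN_pos N).le
  have h5 := Real.sqrt_nonneg (hN N)
  nlinarith

/-- the scale conditions of R10 -/
theorem scale_ok (u : Poly) {K : ℝ} (hK : 0 ≤ K) : ∀ᶠ N : ℕ in atTop, 100 * hN N ≤ Du u K := by
  have h1 := (hN_tendsto.const_mul 100)
  rw [mul_zero] at h1
  filter_upwards [h1.eventually_lt_const (Du_pos u hK)] with N h2
  exact h2.le

/-- the mesh conditions -/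
theorem mesh_ok {x c1 : ℝ} (hx : 0 < x) (hc1 : 0 < c1) : ∀ᶠ ε : ℝ in 𝓝[>] 0,
    √ε ≤ c1 * x ∧ 5000 * √ε ≤ x ∧ 10000 * √ε ≤ x / 100 := by
  filter_upwards [sqrt_small (mul_pos hc1 hx), sqrt_small (div_pos hx (show (0 : ℝ) < 1000000 by
    norm_num))] with ε h1 h2
  refine ⟨h1, ?_, ?_⟩
  · rw [le_div_iff₀ (by norm_num)] at h2
    nlinarith [Real.sqrt_nonneg ε]
  · rw [le_div_iff₀ (by norm_num)] at h2 ⊢
    linarith

end num

end Crest.Agent.R143.RigYx609
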