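import Crest.Agent.R143.SepL_686
import Crest.Agent.R143.SqP_503
import Crest.Agent.R143.RingP_503
import Crest.Agent.R143.FarEk_88

/-!
# Row 143 (S0194), block H: the box inside the ring is not in the giant (helper312; second hand of
503's RingI2)

* `LL` : the left sites of a loop; `arc_lk` : the left sites of an arc
* **`left_ring`** : the left sites of the loop of a ring of tiles contain a closed Delaunay chain
  (`RingP`)
* `sq_strip`, `Kin` : the tiles along the square, the inner square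
* **`sq_index`** : a closed chain through the tiles of the square has index `-2 π` on the inner square
* **`box_not_eg`** : the sites of the inner square are not in the giant
-/

set_option autoImplicit false

noncomputable section

open scoped Classical

namespace Crest.Agent.R143.RingBx312

open Crest.Agent.R143.B0x346 Crest.Agent.R143.DelGx806 Crest.Agent.R143.DelRx806
open Crest.Agent.R143.ToolWx838 Crest.Agent.R143.Blkx838
open Crest.Agent.R143.Gatex838 (X Y)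
open Crest.Agent.R143.Frame1x395 Crest.Agent.R143.Frame2x395 Crest.Agent.R143.Frame3x395
  Crest.Agent.R143.Frame8x395 Crest.Agent.R143.Frame10x395 Crest.Agent.R143.Frame11x395
open Crest.Agent.R143.Frame5x395 (sd mem_sd th th_spec)
open Crest.Agent.R143.Splx117 Crest.Agent.R143.WLocx713 Crest.Agent.R143.RingDx117
  Crest.Agent.R143.Neckx921
open Crest.Agent.R143.Idxx927 (RingP cyc wl X_wl Y_wl)
open Crest.Agent.R143.TileRx228 Crest.Agent.R143.SqPx503 Crest.Agent.R143.Sepx686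

variable {S : Finset ℂ} {χ : ℂ → ZMod 2}

/-! ### the left sites of a loop -/

/-- the left sites of the walk from `p₀` -/
def LL (hS : GP (S : Set ℂ)) (hχ : HullC S χ) (p₀ : D0 S) : Set ℂ :=
  {s | ∃ i : ℕ, s = ((stp (cm0 hS) (xc hS hχ))^[i] p₀).1.1}

theorem ll_S (hS : GP (S : Set ℂ)) (hχ : HullC S χ) {p₀ : D0 S} {s : ℂ} (h : s ∈ LL hS hχ p₀) :
    s ∈ S := by
  obtain ⟨i, rfl⟩ := h
  exact (mem_delT.1 (th_spec ((stp (cm0 hS) (xc hS hχ))^[i] p₀).2)).1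

/-- **the left sites of an arc are a chain** -/
theorem arc_lk (hS : GP (S : Set ℂ)) (hχ : HullC S χ) {B : Set ℂ} {p₀ p q : D0 S}
    (hp : χ p.1.1 + χ p.1.2 = 1) (hi : ∃ i : ℕ, (stp (cm0 hS) (xc hS hχ))^[i] p₀ = p)
    (h : FA (cm0 hS) (xc hS hχ) (RD S B) p q) :
    Lk S {s | s ∈ LL hS hχ p₀ ∧ s ∈ B} p.1.1 q.1.1 := by
  obtain ⟨hO, m, h1, h2, h3, -⟩ := fa_sets hS hχ hp h
  have h4 := (left_lk hS hχ hO m).1
  rw [h2] at h4
  refine h4.mono ?_
  intro s hs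
  refine ⟨?_, h3 hs⟩
  obtain ⟨i, -, rfl⟩ := hs
  obtain ⟨i0, hi0⟩ := hi
  refine ⟨i + i0, ?_⟩
  rw [Function.iterate_add_apply, hi0]
  have := it_eq hS hχ (p := p) hp i
  exact (congrArg Prod.fst this).symm

variable {h A B m : ℝ} {M : ℕ} {W : ℤ → ℤ × ℤ} {y : ℤ → ℂ} {p : ℤ → D0 S}

/-- **the closed chain of the left sites of the loop of a ring of tiles** -/
theorem left_ring (hS : GP (S : Set ℂ)) (hχ : HullC S χ) (F : FPath M W) (M3 : 3 ≤ M)
    (hy : ∀ a, y (a + M) = y a) (hp : ∀ a, (p a).1.1 = y a)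
    (hc : ∀ a, χ (p a).1.1 + χ (p a).1.2 = 1) {p₀ : D0 S}
    (hi : ∀ a, ∃ i : ℕ, (stp (cm0 hS) (xc hS hχ))^[i] p₀ = p a)
    (arc : ∀ a, FA (cm0 hS) (xc hS hχ) (RD S (RR A B h W a)) (p a) (p (a + 1)) ∨
      FA (cm0 hS) (xc hS hχ) (RD S (RR A B h W a)) (p (a + 1)) (p a))
    (step : ∀ a, ∀ u v, DE S u v → u ∈ RR A B h W a → v ∈ RR A B h W a → ‖u - v‖ ≤ m) (o : ℤ) :
    ∃ P : ℕ → List ℂ, RingP M (fun j => y (o + j)) P (fun j => RR (A + m) (B + m) h W (o + j)) ∧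
      Loop S (cyc M P) ∧ (∀ s ∈ cyc M P, s ∈ LL hS hχ p₀) ∧
      ∀ j, j < M → ∀ s ∈ P j, s ∈ RR A B h W (o + j) := by
  have ec : ∀ j : ℕ, o + ((j + 1 : ℕ) : ℤ) = o + j + 1 := fun j => by push_cast; ring
  have hl : ∀ a, Lk S {s | s ∈ LL hS hχ p₀ ∧ s ∈ RR A B h W a} (y a) (y (a + 1)) := by
    intro a
    rcases arc a with h1 | h1
    · have := arc_lk hS hχ (hc a) (hi a) h1
      rwa [hp, hp] at this
    · have := arc_lk hS hχ (hc (a + 1)) (hi (a + 1)) h1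
      rw [hp, hp] at this
      exact this.symm
  obtain ⟨P, h1, h2, h3, h4⟩ := exists_pieces (S := S) (N := M) M3 (x := fun j : ℕ => y (o + j))
    (by intro j; show y (o + ((j + M : ℕ) : ℤ)) = _; rw [show o + ((j + M : ℕ) : ℤ) = o + j + M by
      push_cast; ring, hy])
    (Q := fun j => {s | s ∈ LL hS hχ p₀ ∧ s ∈ RR A B h W (o + j)})
    (RR := fun j => RR (A + m) (B + m) h W (o + j))
    (by
      intro j _
      have := hl (o + j)
      rw [← ec] at this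
      exact this)
    (by
      intro j _ u v huv hu hv
      have := step (o + j) u v huv hu.2 hv.2
      rw [norm_sub_rev] at this
      exact SepLx686.seg_RR F hu.2 this)
  refine ⟨P, h1, h2, ?_, ?_⟩
  · intro s hs
    obtain ⟨j, hj, h5⟩ := h3 s hs
    exact h5.1
  · intro j hj s hs
    exact (h4 j hj s hs).2

/-! ### the square -/

variable {K : ℕ} {v : ℤ × ℤ}

theorem sq0_rng {K r : ℤ} (hK : 1 ≤ K) (h0 : 0 ≤ r) (h1 : r < 4 * K) :
    (0 ≤ (sq0 K r).1 ∧ (sq0 K r).1 ≤ K) ∧ 0 ≤ (sq0 K r).2 ∧ (sq0 K r).2 ≤ K := by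
  unfold sq0
  split_ifs <;> simp only <;> omega

theorem sq0_side {K r t : ℤ} (hK : 1 ≤ K) (h0 : 0 ≤ r) (h1 : r < 4 * K)
    (ht : (r + 1 = 4 * K ∧ t = 0) ∨ (r + 1 < 4 * K ∧ t = r + 1)) :
    ((sq0 K r).1 = 0 ∧ (sq0 K t).1 = 0) ∨ ((sq0 K r).1 = K ∧ (sq0 K t).1 = K) ∨
      ((sq0 K r).2 = 0 ∧ (sq0 K t).2 = 0) ∨ ((sq0 K r).2 = K ∧ (sq0 K t).2 = K) := by
  unfold sq0
  split_ifs <;> simp only [true_and, and_true, true_or, or_true, and_self] <;> omega

theorem sq_rng (hK : 1 ≤ K) (hW : ∀ a, W a = sqW K a + v) (a : ℤ) :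
    (v.1 ≤ (W a).1 ∧ (W a).1 ≤ v.1 + K) ∧ v.2 ≤ (W a).2 ∧ (W a).2 ≤ v.2 + K := by
  have hK' : (1 : ℤ) ≤ K := by exact_mod_cast hK
  have h0 := Int.emod_nonneg a (show (4 * K : ℤ) ≠ 0 by omega)
  have h1 := Int.emod_lt_of_pos a (show (0 : ℤ) < 4 * K by omega)
  have h2 := sq0_rng hK' h0 h1
  rw [hW, Prod.fst_add, Prod.snd_add]
  unfold sqW
  omega

theorem sq_side (hK : 1 ≤ K) (hW : ∀ a, W a = sqW K a + v) (a : ℤ) :
    ((W a).1 = v.1 ∧ (W (a + 1)).1 = v.1) ∨ ((W a).1 = v.1 + K ∧ (W (a + 1)).1 = v.1 + K) ∨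
      ((W a).2 = v.2 ∧ (W (a + 1)).2 = v.2) ∨ ((W a).2 = v.2 + K ∧ (W (a + 1)).2 = v.2 + K) := by
  have hK' : (1 : ℤ) ≤ K := by exact_mod_cast hK
  have h0 := Int.emod_nonneg a (show (4 * K : ℤ) ≠ 0 by omega)
  have h1 := Int.emod_lt_of_pos a (show (0 : ℤ) < 4 * K by omega)
  have h2 := sq0_side (t := if a % (4 * K : ℤ) + 1 = 4 * K then 0 else a % (4 * K : ℤ) + 1) hK' h0 h1
    (by split_ifs with h3 <;> omega)
  rw [hW, hW, Prod.fst_add, Prod.snd_add, Prod.fst_add, Prod.snd_add]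
  unfold sqW
  rw [next_emod (by omega)]
  omega

theorem cen_re (h : ℝ) (W : ℤ → ℤ × ℤ) (a : ℤ) : (cen h W a).re = h * (W a).1 := by
  unfold cen cz
  simp

theorem cen_im (h : ℝ) (W : ℤ → ℤ × ℤ) (a : ℤ) : (cen h W a).im = h * (W a).2 := by
  unfold cen cz
  simp

/-- the edges of the square -/
theorem seg_side (hK : 1 ≤ K) (hW : ∀ a, W a = sqW K a + v) (hh : 0 < h) (a : ℤ) {q : ℂ}
    (hq : q ∈ segment ℝ (cen h W a) (cen h W (a + 1))) :
    ((h * v.1 ≤ q.re ∧ q.re ≤ h * (v.1 + K)) ∧ h * v.2 ≤ q.im ∧ q.im ≤ h * (v.2 + K)) ∧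
      (q.re = h * v.1 ∨ q.re = h * (v.1 + K) ∨ q.im = h * v.2 ∨ q.im = h * (v.2 + K)) := by
  obtain ⟨r, s, hr, hs, hrs, rfl⟩ := hq
  have e1 : (r • cen h W a + s • cen h W (a + 1)).re = h * (r * (W a).1 + s * (W (a + 1)).1) := by
    rw [Complex.add_re, Complex.smul_re, Complex.smul_re, cen_re, cen_re]
    simp only [smul_eq_mul]; ring
  have e2 : (r • cen h W a + s • cen h W (a + 1)).im = h * (r * (W a).2 + s * (W (a + 1)).2) := by
    rw [Complex.add_im, Complex.smul_im, Complex.smul_im, cen_im, cen_im]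
    simp only [smul_eq_mul]; ring
  rw [e1, e2]
  have r1 := sq_rng hK hW a
  have r2 := sq_rng hK hW (a + 1)
  have s1 := sq_side hK hW a
  obtain ⟨a1, ha1⟩ : ∃ z, z = (W a).1 := ⟨_, rfl⟩
  obtain ⟨a2, ha2⟩ : ∃ z, z = (W a).2 := ⟨_, rfl⟩
  obtain ⟨b1, hb1⟩ : ∃ z, z = (W (a + 1)).1 := ⟨_, rfl⟩
  obtain ⟨b2, hb2⟩ : ∃ z, z = (W (a + 1)).2 := ⟨_, rfl⟩
  rw [← ha1, ← ha2] at r1
  rw [← hb1, ← hb2] at r2
  rw [← ha1, ← ha2, ← hb1, ← hb2] at s1
  rw [← ha1, ← ha2, ← hb1, ← hb2]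
  have es : r = 1 - s := by linarith
  have lo : ∀ {x z c : ℤ}, c ≤ x → c ≤ z → (c : ℝ) ≤ r * x + s * z := by
    intro x z c h1 h2
    have h1' : (c : ℝ) ≤ x := by exact_mod_cast h1
    have h2' : (c : ℝ) ≤ z := by exact_mod_cast h2
    have := mul_le_mul_of_nonneg_left h1' hr
    have := mul_le_mul_of_nonneg_left h2' hs
    have e : r * (c : ℝ) + s * c = c := by rw [← add_mul, hrs, one_mul]
    linarith
  have up : ∀ {x z c : ℤ}, x ≤ c → z ≤ c → r * (x : ℝ) + s * z ≤ c := by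
    intro x z c h1 h2
    have h1' : (x : ℝ) ≤ c := by exact_mod_cast h1
    have h2' : (z : ℝ) ≤ c := by exact_mod_cast h2
    have := mul_le_mul_of_nonneg_left h1' hr
    have := mul_le_mul_of_nonneg_left h2' hs
    have e : r * (c : ℝ) + s * c = c := by rw [← add_mul, hrs, one_mul]
    linarith
  have eq : ∀ {x z c : ℤ}, x = c → z = c → r * (x : ℝ) + s * z = c := by
    rintro x z c rfl rfl
    rw [← add_mul, hrs, one_mul]
  have c1 : ((v.1 + (K : ℤ) : ℤ) : ℝ) = (v.1 : ℝ) + K := by push_cast; ring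
  have c2 : ((v.2 + (K : ℤ) : ℤ) : ℝ) = (v.2 : ℝ) + K := by push_cast; ring
  have u1 := up (c := v.1 + K) r1.1.2 r2.1.2
  have u2 := up (c := v.2 + K) r1.2.2 r2.2.2
  rw [c1] at u1
  rw [c2] at u2
  refine ⟨⟨⟨mul_le_mul_of_nonneg_left (lo r1.1.1 r2.1.1) hh.le,
    mul_le_mul_of_nonneg_left u1 hh.le⟩, mul_le_mul_of_nonneg_left (lo r1.2.1 r2.2.1) hh.le,
    mul_le_mul_of_nonneg_left u2 hh.le⟩, ?_⟩
  rcases s1 with ⟨h1, h2⟩ | ⟨h1, h2⟩ | ⟨h1, h2⟩ | ⟨h1, h2⟩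
  · left; rw [eq h1 h2]
  · right; left; rw [eq h1 h2, c1]
  · right; right; left; rw [eq h1 h2]
  · right; right; right; rw [eq h1 h2, c2]

/-- **the tiles of the square are near its boundary** -/
theorem sq_strip (hK : 1 ≤ K) (hW : ∀ a, W a = sqW K a + v) (F : FPath (4 * K) W) (hA : 0 < A)
    (hB : B ≤ h) (hh : 0 < h) {a : ℤ} {z : ℂ} (hz : z ∈ RR A B h W a) :
    ((h * v.1 - A < z.re ∧ z.re < h * (v.1 + K) + A) ∧
      h * v.2 - A < z.im ∧ z.im < h * (v.2 + K) + A) ∧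
      (z.re < h * v.1 + A ∨ h * (v.1 + K) - A < z.re ∨ z.im < h * v.2 + A ∨
        h * (v.2 + K) - A < z.im) := by
  obtain ⟨q, hq, h1, h2⟩ := near_path F hA hB hz
  have hq' : ((h * v.1 ≤ q.re ∧ q.re ≤ h * (v.1 + K)) ∧ h * v.2 ≤ q.im ∧ q.im ≤ h * (v.2 + K)) ∧
      (q.re = h * v.1 ∨ q.re = h * (v.1 + K) ∨ q.im = h * v.2 ∨ q.im = h * (v.2 + K)) := by
    rcases hq with hq | hq
    · refine seg_side hK hW hh (a - 1) ?_
      rwa [sub_add_cancel]
    · exact seg_side hK hW hh a hq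
  rw [Complex.sub_re, abs_lt] at h1
  rw [Complex.sub_im, abs_lt] at h2
  obtain ⟨⟨⟨g1, g2⟩, g3, g4⟩, g5⟩ := hq'
  refine ⟨⟨⟨by linarith [h1.1], by linarith [h1.2]⟩, by linarith [h2.1], by linarith [h2.2]⟩, ?_⟩
  rcases g5 with g5 | g5 | g5 | g5
  · left; linarith [h1.2]
  · right; left; linarith [h1.1]
  · right; right; left; linarith [h2.2]
  · right; right; right; linarith [h2.1]

/-- the inner square -/
def Kin (h A : ℝ) (K : ℕ) (v : ℤ × ℤ) : Set ℂ :=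
  {z | (h * v.1 + A ≤ z.re ∧ z.re ≤ h * (v.1 + K) - A) ∧
    h * v.2 + A ≤ z.im ∧ z.im ≤ h * (v.2 + K) - A}

theorem kin_pre (h A : ℝ) (K : ℕ) (v : ℤ × ℤ) : IsPreconnected (Kin h A K v) := by
  apply Convex.isPreconnected
  intro a ha b hb s t hs ht hst
  obtain ⟨⟨a1, a2⟩, a3, a4⟩ := ha
  obtain ⟨⟨b1, b2⟩, b3, b4⟩ := hb
  have key : ∀ {c x w : ℝ}, c ≤ x → c ≤ w → c ≤ s * x + t * w := by
    intro c x w h1 h2
    have := mul_le_mul_of_nonneg_left h1 hs
    have := mul_le_mul_of_nonneg_left h2 ht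
    have e : s * c + t * c = c := by rw [← add_mul, hst, one_mul]
    linarith
  have key' : ∀ {c x w : ℝ}, x ≤ c → w ≤ c → s * x + t * w ≤ c := by
    intro c x w h1 h2
    have := mul_le_mul_of_nonneg_left h1 hs
    have := mul_le_mul_of_nonneg_left h2 ht
    have e : s * c + t * c = c := by rw [← add_mul, hst, one_mul]
    linarith
  have e1 : (s • a + t • b).re = s * a.re + t * b.re := by
    rw [Complex.add_re, Complex.smul_re, Complex.smul_re]; rfl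
  have e2 : (s • a + t • b).im = s * a.im + t * b.im := by
    rw [Complex.add_im, Complex.smul_im, Complex.smul_im]; rfl
  refine ⟨⟨?_, ?_⟩, ?_, ?_⟩
  · rw [e1]; exact key a1 b1
  · rw [e1]; exact key' a2 b2
  · rw [e2]; exact key a3 b3
  · rw [e2]; exact key' a4 b4

/-- the inner square is off the tiles -/
theorem kin_off (hK : 1 ≤ K) (hW : ∀ a, W a = sqW K a + v) (F : FPath (4 * K) W) (hA : 0 < A)
    (hB : B ≤ h) (hh : 0 < h) {z : ℂ} (hz : z ∈ Kin h A K v) (a : ℤ) : z ∉ RR A B h W a := by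
  intro h1
  obtain ⟨-, h2⟩ := sq_strip hK hW F hA hB hh h1
  obtain ⟨⟨a1, a2⟩, a3, a4⟩ := hz
  rcases h2 with h2 | h2 | h2 | h2 <;> linarith

/-- the pieces with a periodic index -/
theorem ring_all {N : ℕ} {x : ℕ → ℂ} {P : ℕ → List ℂ} {R : ℕ → Set ℂ} {h A1 B1 : ℝ} {o : ℤ}
    (H : RingP N x P R) (F : FPath N W)
    (hP : ∀ j, j < N → ∀ s ∈ P j, s ∈ RR A1 B1 h W (o + j)) (j : ℕ) :
    ∀ s ∈ P j, s ∈ RR A1 B1 h W (o + j) := by
  intro s hs
  rw [Idxx927.per_mod H] at hs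
  have h1 := hP (j % N) (Nat.mod_lt _ (by have := H.hN; omega)) s hs
  rwa [SepLx686.RR_mod F] at h1

/-- the points of the left side -/
theorem sq_pt (hW : ∀ a, W a = sqW K a + v) {g : ℤ} {r : ℤ} (h0 : 0 ≤ r) (h1 : r ≤ K)
    (hg : ∃ q : ℤ, g = r + 4 * K * q) (hK : 1 ≤ K) : W g = (0, r) + v := by
  obtain ⟨q, rfl⟩ := hg
  rw [hW]
  congr 1
  unfold sqW
  have hK' : (1 : ℤ) ≤ K := by exact_mod_cast hK
  rw [Int.add_mul_emod_self_left, Int.emod_eq_of_lt h0 (by omega)]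
  unfold sq0
  rcases h1.lt_or_eq with h2 | h2
  · rw [if_pos h2]
  · rw [if_neg (by omega), if_pos (by omega), h2, sub_self]

theorem exists_gate (K : ℕ) (hK : 1 ≤ K) (o : ℤ) :
    ∃ k : ℕ, k < 4 * K ∧ ∃ q : ℤ, o + k + 1 = 2 + 4 * K * q := by
  have hK' : (0 : ℤ) < 4 * K := by
    have : (1 : ℤ) ≤ K := by exact_mod_cast hK
    omega
  have h0 := Int.emod_nonneg (1 - o) hK'.ne'
  have h1 := Int.emod_lt_of_pos (1 - o) hK'
  refine ⟨((1 - o) % (4 * K : ℤ)).toNat, by omega, -((1 - o) / (4 * K : ℤ)), ?_⟩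
  have h2 := Int.emod_add_mul_ediv (1 - o) (4 * K : ℤ)
  rw [Int.toNat_of_nonneg h0]
  linarith

/-- **a closed chain through the tiles of the square has index `-2 π` on the inner square** -/
theorem sq_index (hK : 3 ≤ K) (hW : ∀ a, W a = sqW K a + v) (F : FPath (4 * K) W) (hA : 0 < A)
    (hAB : A ≤ B) (hB : h / 2 < B) (hh : A + B < h) {P : ℕ → List ℂ} {o : ℤ}
    (H : RingP (4 * K) (fun j => y (o + j)) P (fun j => RR A B h W (o + j)))
    (hP : ∀ j, j < 4 * K → ∀ s ∈ P j, s ∈ RR A B h W (o + j))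
    (hg : ∀ a, |X (gz h W a) (ge W a) (y a)| < h) {z : ℂ} (hz : z ∈ Kin h A K v) :
    asum z (cyc (4 * K) P) = -(2 * Real.pi) := by
  have hh0 : 0 < h := by linarith
  have hBh : B ≤ h := by linarith
  have hK1 : 1 ≤ K := by omega
  have hK' : (3 : ℤ) ≤ K := by exact_mod_cast hK
  have hKr : (3 : ℝ) ≤ K := by exact_mod_cast hK
  have hP' := ring_all H F hP
  obtain ⟨k, hk, q, hq⟩ := exists_gate K hK1 o
  -- the four points of the path
  have w0 : W (o + k + 1 - 1 - 1) = (0, 0) + v := sq_pt hW le_rfl (by omega) ⟨q, by linarith⟩ hK1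
  have w1 : W (o + k + 1 - 1) = (0, 1) + v := sq_pt hW (by omega) (by omega) ⟨q, by linarith⟩ hK1
  have w2 : W (o + k + 1) = (0, 2) + v := sq_pt hW (by omega) (by omega) ⟨q, by linarith⟩ hK1
  have w3 : W (o + k + 1 + 1) = (0, 3) + v := sq_pt hW (by omega) (by omega) ⟨q, by linarith⟩ hK1
  have g1 : ge W (o + k + 1) = Complex.I := by
    unfold ge
    rw [w2, w1]
    apply Complex.ext <;> simp [cz]
  have g0 : ge W (o + k + 1 - 1) = Complex.I := by
    unfold ge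
    rw [w1, w0]
    apply Complex.ext <;> simp [cz]
  have g2 : ge W (o + k + 1 + 1) = Complex.I := by
    unfold ge
    rw [add_sub_cancel_right, w3, w2]
    apply Complex.ext <;> simp [cz]
  have e0 : o + (k : ℤ) + 1 - 1 = o + k := by ring
  have hd0 : ge W (o + k + 1) = ge W (o + k) := by rw [g1, ← g0, e0]
  have hd1 : ge W (o + k + 1 + 1) = ge W (o + k + 1) := by rw [g1, g2]
  have he : ge W (o + k + 1) ≠ 0 := by rw [g1]; exact Complex.I_ne_zero
  -- the wall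
  have wre : ∀ t, (wl (gz h W (o + k + 1)) (ge W (o + k + 1)) t).re = h * v.1 - t := by
    intro t
    rw [g1]
    unfold wl gz
    rw [w1, w2]
    simp [cz]
    ring
  have wim : ∀ t, (wl (gz h W (o + k + 1)) (ge W (o + k + 1)) t).im = h * v.2 + 3 / 2 * h := by
    intro t
    rw [g1]
    unfold wl gz
    rw [w1, w2]
    simp [cz]
    ring
  have hk2 : ((k + 2 : ℕ) : ℤ) = k + 1 + 1 := by push_cast; ring
  refine H.index (z0 := gz h W (o + k + 1)) (e := ge W (o + k + 1)) he (y0 := -A) (y1 := A)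
    (by linarith) k ?_ ?_ ?_ ?_ ?_ (kin_pre h A K v) (fun w hw j _ => kin_off hK1 hW F hA hBh hh0 hw _)
    ?_ hz
  · rintro s (hs | hs)
    · have h1 := hP' k s hs
      have h2 := ((frame_S F hA hAB hd0).1 h1).2
      rw [← (next_S F hd0 h s).2, abs_lt] at h2
      exact h2
    · have h1 := hP' (k + 1) s hs
      rw [show o + ((k + 1 : ℕ) : ℤ) = o + k + 1 by push_cast; ring] at h1
      have h2 := ((frame_S F hA hAB hd1).1 h1).2
      rw [abs_lt] at h2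
      exact h2
  · show X (gz h W (o + k + 1)) (ge W (o + k + 1)) (y (o + k)) < 0
    rw [(next_S F hd0 h _).1]
    have := abs_lt.1 (hg (o + k))
    linarith [this.2]
  · show 0 < X (gz h W (o + k + 1)) (ge W (o + k + 1)) (y (o + (k + 2 : ℕ)))
    rw [hk2, show o + ((k : ℤ) + 1 + 1) = o + k + 1 + 1 by ring]
    have h1 := (next_S F hd1 h (y (o + k + 1 + 1))).1
    have := abs_lt.1 (hg (o + k + 1 + 1))
    linarith [this.1]
  · intro j h1 h2 t h3 h4
    rw [SepLx686.RR_mod F]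
    set δ := (h - A - B) / 3 with hδ
    have hδ0 : 0 < δ := by rw [hδ]; linarith
    have m0 : wl (gz h W (o + k + 1)) (ge W (o + k + 1)) t ∈ RR (A + δ) (B + δ) h W (o + k + 1 - 1) := by
      refine win_left F (by linarith) (by linarith) ?_ ?_
      · rw [sub_add_cancel, X_wl he, abs_zero]; linarith
      · rw [sub_add_cancel, Y_wl he, abs_lt]; exact ⟨by linarith, by linarith⟩
    have m1 : wl (gz h W (o + k + 1)) (ge W (o + k + 1)) t ∈ RR (A + δ) (B + δ) h W (o + k + 1) := by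
      refine win_right F (by linarith) (by linarith) ?_ ?_
      · rw [X_wl he, abs_zero]; linarith
      · rw [Y_wl he, abs_lt]; exact ⟨by linarith, by linarith⟩
    intro hc
    refine far F (b := o + k + 1) (a := o + j) (A := A + δ) (B := B + δ) (by linarith) (by linarith)
      (by rw [hδ]; linarith) ?_ ?_ m0 m1 (RR_mono (by linarith) (by linarith) h W _ hc)
    · refine SepLx686.ndvd ?_ ?_ ?_ <;> push_cast <;> omega
    · refine SepLx686.ndvd ?_ ?_ ?_ <;> push_cast <;> omega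
  · intro j hj t ht hc
    obtain ⟨⟨⟨h1, -⟩, -⟩, -⟩ := sq_strip hK1 hW F hA hBh hh0 hc
    rw [wre] at h1
    linarith
  · refine ⟨⟨?_, ?_⟩, ?_, ?_⟩
    · rw [wre]; linarith
    · rw [wre]; nlinarith
    · rw [wim]; linarith
    · rw [wim]; nlinarith

/-! ### the box is not in the giant -/

open Crest.Agent.R143.GiantEx197 (Ek Eg Lf not_ek hull_mem)

/-- **separation by a closed chain**: a site of nonzero index is not joined to the hull off the chain -/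
theorem not_eg_of (hS : GP (S : Set ℂ)) (h3 : 3 ≤ S.card) {l : List ℂ} (hl : Loop S l)
    (hlS : ∀ s ∈ l, s ∈ S) {Kc : Set (Quot (hullE S))} (hK : ∀ s ∈ l, Quot.mk _ s ∈ Kc) {u : ℂ}
    (hu : OnHull S u) (huK : Quot.mk _ u ∉ Kc) {w : ℂ} (hw : asum w l ≠ 0)
    (hwK : Quot.mk _ w ∉ Kc) : Quot.mk _ w ∉ Eg (cm0 hS) (Quot.mk _ u) Kc := by
  have hh : ∀ h, OnHull S h → asum h l = 0 := fun s hs =>
    asum_onHull hS hl hlS hs fun hsl => huK (hull_mem hS h3 hu hs ▸ hK s hsl)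
  rintro (h1 | h1)
  · refine not_ek (σ := SepEx927.iq hS hh) ?_ huK ?_ h1
    · rintro a c ⟨d, rfl, rfl⟩ ha hc
      show asum d.1.1 l = asum d.1.2 l
      refine asum_site hS hl (de_dart d) (fun h4 => ha ?_) (fun h4 => hc ?_)
      · exact hK _ h4
      · exact hK _ h4
    · show asum w l ≠ asum u l
      rw [hh u hu]
      exact hw
  · exact hwK h1

/-- the cells of a periodic walk -/
theorem ll_lf (hS : GP (S : Set ℂ)) (hχ : HullC S χ) {p₀ : D0 S} {N n : ℕ}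
    (hN : (stp (cm0 hS) (xc hS hχ))^[N] p₀ = p₀) (hNp : 0 < N) (hn : N ≤ n + 1) {s : ℂ}
    (hs : s ∈ LL hS hχ p₀) : Quot.mk _ s ∈ Lf (cm0 hS) (xc hS hχ) p₀ n := by
  obtain ⟨i, rfl⟩ := hs
  have key : ∀ q r, (stp (cm0 hS) (xc hS hχ))^[r + q * N] p₀ = (stp (cm0 hS) (xc hS hχ))^[r] p₀ := by
    intro q r
    induction q with
    | zero => simp
    | succ q ih =>
      rw [show r + (q + 1) * N = (r + q * N) + N by ring, Function.iterate_add_apply, hN, ih]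
  have h1 := key (i / N) (i % N)
  have h2 : i % N + i / N * N = i := by rw [mul_comm]; exact Nat.mod_add_div i N
  rw [h2] at h1
  have h3 := Nat.mod_lt i hNp
  refine ⟨i % N, by omega, ?_⟩
  rw [h1]
  rfl

/-- the cells of the walk are cells of inner sites in `R` -/
theorem lf_inner (hS : GP (S : Set ℂ)) (hχ : HullC S χ) {p₀ : D0 S} {n : ℕ} {R : Set ℂ}
    (hR : ∀ s ∈ LL hS hχ p₀, s ∈ R) (hin : ∀ s ∈ S, s ∈ R → ¬ OnHull S s) {w : ℂ}
    (hw : Quot.mk _ w ∈ Lf (cm0 hS) (xc hS hχ) p₀ n) : w ∈ R ∧ ¬ OnHull S w := by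
  obtain ⟨j, -, hj⟩ := hw
  have h1 : ((stp (cm0 hS) (xc hS hχ))^[j] p₀).1.1 ∈ LL hS hχ p₀ := ⟨j, rfl⟩
  have h2 := hR _ h1
  have h4 := hin _ (ll_S hS hχ h1) h2
  have e : w = ((stp (cm0 hS) (xc hS hχ))^[j] p₀).1.1 := quot_inner hS h4 hj
  rw [e]
  exact ⟨h2, h4⟩

end Crest.Agent.R143.RingBx312
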