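import Crest.Agent.R143.RingM_715

/-!
# Row 143 (S0194), block H, H5: the marked ring loop, marks between gates (helper715)

Marks = stopping times, not gates: the mark `t j` is between the gates `l j` and `u j` (`M3`).
* **`ring3_mk`** : 565's `Ring3`, marks `t 0 < t 1 < t 2`, `a j = T (u j + 1)`
* **`ring_mk`** : 43's `Ring`, marks `t₁ < t₂`
* **`rg3_mk`**, `mk_mk` : 828's `Rg3` and `Mk`, `r j` = first gap of the block at or after `t j`
* `ft_mark` : the first time in a set `X` which is seen only between the gates `l` and `u`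
* `kcell` : the cells of the block in `Gc j` (and all the cells of `Gc j`) are in the tiles of the arc `j`
-/

set_option autoImplicit false
set_option linter.unusedSectionVars false

noncomputable section

open scoped Classical

namespace Crest.Agent.R143.RingNx715

open Crest.Agent.R143.Frame1x395 Crest.Agent.R143.Frame2x395 Crest.Agent.R143.Frame3x395
  Crest.Agent.R143.Frame8x395 Crest.Agent.R143.Frame9x395 Crest.Agent.R143.Frame11x395
  Crest.Agent.R143.NonXx592 Crest.Agent.R143.Junx43 Crest.Agent.R143.Patx828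
  Crest.Agent.R143.HullKx715 Crest.Agent.R143.Jun3x565 Crest.Agent.R143.RingMx715
open Crest.Agent.R143.Chordx355 (lc gt rho_gt Sep)
open Crest.Agent.R143.Splx117 (gp)

variable {D C : Type} {M : CMap D C} {x : D → ZMod 2} {p : D} {N n : ℕ} {T : ℕ → ℕ}
  {Reg : ℕ → Set C} {c : C}

/-- three marks after the start; the mark `j` is between the gates `l j` and `u j` -/
structure M3 (n : ℕ) (T : ℕ → ℕ) (l u t : ZMod 3 → ℕ) : Prop where
  l0 : 0 < l 0
  lu : ∀ j, l j ≤ u j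
  u01 : u 0 + 1 ≤ l 1
  u12 : u 1 + 1 ≤ l 2
  u2 : u 2 + 1 < n
  lo : ∀ j, T (l j) ≤ t j
  hi : ∀ j, t j ≤ T (u j)

/-- marks at the gates -/
theorem m3_gate {k : ZMod 3 → ℕ} (k0 : 0 < k 0) (k01 : k 0 + 1 ≤ k 1) (k12 : k 1 + 1 ≤ k 2)
    (k2 : k 2 + 1 < n) : M3 n T k k fun j => T (k j) :=
  ⟨k0, fun _ => le_rfl, k01, k12, k2, fun _ => le_rfl, fun _ => le_rfl⟩

section one

variable {l₁ u₁ u₂ u₃ t₁ t₂ t₃ t : ℕ} {Q : Set C}

/-- **(o1)** -/
theorem oo1 (R : TL M x p N n T Reg) (h1 : 0 < u₁) (h13 : u₁ + 1 < u₃) (h3 : u₃ < n)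
    (ht₁ : t₁ ≤ T u₁) (ht : T (u₁ + 1) ≤ t) (ht' : t ≤ T u₃) (h : Tc M x p t c) :
    c ∉ Tch M x p t₁ := by
  rintro ⟨v, hv, hc⟩
  exact R.far (a := 0) h1 (Nat.lt_succ_self _) h13 (by omega)
    (by rw [R.zero]; exact Nat.zero_le _) (hv.trans ht₁) ht ht' hc h

/-- **(o2), (o3)** -/
theorem oo2 (R : TL M x p N n T Reg) (h1 : 0 < l₁) (h12 : l₁ < u₂) (h2 : u₂ + 1 < n)
    (ht₁ : T l₁ ≤ t₁) (ht₂ : t₂ ≤ T u₂) (ht : T (u₂ + 1) ≤ t) (ht' : t ≤ N)
    (h : Tc M x p t c) : c ∉ Ov M x p Q t₂ \ Ov M x p Q t₁ := by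
  rintro ⟨hc | ⟨v, hv, hc⟩, h'⟩
  · exact h' (Or.inl hc)
  · have h3 : t₁ < v := by
      by_contra h4
      exact h' (Or.inr ⟨v, by omega, hc⟩)
    rw [← R.top] at ht'
    exact R.far h12 (Nat.lt_succ_self _) h2 (by omega) (ht₁.trans h3.le) (hv.trans ht₂) ht ht'
      hc h

end one

variable [Fintype D] {χ : C → ZMod 2} {Q : Set C} {g₀ : D} {l u t : ZMod 3 → ℕ}

/-- **565's `Ring3`**, marks between gates -/
theorem ring3_mk (L : Chordx355.Lp M (cfg M χ) p N) (R : TL M (cfg M χ) p N n T Reg)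
    (hg : Gp M (cfg M χ) g₀) (G : GT n T (St M (cfg M χ) p N g₀)) (H : M3 n T l u t)
    (hQ : ∀ k, l 0 ≤ k → k < u 2 → Disjoint (Reg k) Q) :
    Ring3 M χ p N (t 0) (t 1) (t 2) (T (u 0 + 1)) (T (u 1 + 1)) (T (u 2 + 1))
      (St M (cfg M χ) p N g₀) Q := by
  have top := R.top
  have e0 := H.l0
  have e1 := H.u01
  have e2 := H.u12
  have e3 := H.u2
  have f0 := H.lu 0
  have f1 := H.lu 1
  have f2 := H.lu 2
  have q0 : ∀ s, t 0 ≤ s → s ≤ t 2 → ∀ c, Tc M (cfg M χ) p s c → c ∉ Q := by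
    intro s h4 h5 c hc hq
    obtain ⟨k, a1, a2, a3⟩ := R.breg (a := l 0) (b := u 2) (t := s) (by omega)
      ((H.lo 0).trans h4) (h5.trans (H.hi 2)) hc
    exact Set.disjoint_left.1 (hQ k a1 a2) a3 hq
  refine ⟨L, fun s hs => hs.1, fun s hs s' hs' h => St.sep L hg hs hs' h,
    fun s hs => St.prv L hg hs, ?_, ?_, ?_, ?_, ?_, ?_, ?_, ?_, ?_, ?_, ?_, ?_, ?_, ?_⟩
  · obtain ⟨s, a1, a2, a3⟩ := G 0 (by omega)
    exact ⟨s, a1, lt_of_lt_of_le a3 ((R.le (by omega)).trans (H.lo 0))⟩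
  · obtain ⟨s, a1, a2, a3⟩ := G (u 0) (by omega)
    exact ⟨s, a1, (H.hi 0).trans a2, lt_of_lt_of_le a3 ((R.le e1).trans (H.lo 1))⟩
  · obtain ⟨s, a1, a2, a3⟩ := G (u 1) (by omega)
    exact ⟨s, a1, (H.hi 1).trans a2, lt_of_lt_of_le a3 ((R.le e2).trans (H.lo 2))⟩
  · obtain ⟨s, a1, a2, a3⟩ := G (u 2) (by omega)
    exact ⟨s, a1, (H.hi 2).trans a2⟩
  · exact (H.hi 0).trans (R.le (by omega))
  · exact (R.le e1).trans (H.lo 1)
  · exact (H.hi 1).trans (R.le (by omega))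
  · exact (R.le e2).trans (H.lo 2)
  · exact (H.hi 2).trans (R.le (by omega))
  · rw [← top]
    exact R.le (by omega)
  · intro s h4 h5
    exact ⟨q0 s h4 h5 _ (Or.inl rfl), q0 s h4 h5 _ (Or.inr rfl)⟩
  · intro s h4 h5
    have key : ∀ c, Tc M (cfg M χ) p s c → c ∉ Tch M (cfg M χ) p (t 0) := fun c hc =>
      oo1 (u₃ := u 2) R (by omega) (by omega) (by omega) (H.hi 0) h4 (h5.trans (H.hi 2)) hc
    exact ⟨key _ (Or.inl rfl), key _ (Or.inr rfl)⟩
  · intro s h4 h5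
    have key : ∀ c, Tc M (cfg M χ) p s c →
        c ∉ Ov M (cfg M χ) p Q (t 1) \ Ov M (cfg M χ) p Q (t 0) := fun c hc =>
      oo2 (l₁ := l 0) (u₂ := u 1) R e0 (by omega) (by omega) (H.lo 0) (H.hi 1) h4 h5.le hc
    exact ⟨key _ (Or.inl rfl), key _ (Or.inr rfl)⟩
  · intro s h4 h5
    have key : ∀ c, Tc M (cfg M χ) p s c →
        c ∉ Ov M (cfg M χ) p Q (t 2) \ Ov M (cfg M χ) p Q (t 1) := fun c hc =>
      oo2 (l₁ := l 1) (u₂ := u 2) R (by omega) (by omega) (by omega) (H.lo 1) (H.hi 2) h4 h5.le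
        hc
    exact ⟨key _ (Or.inl rfl), key _ (Or.inr rfl)⟩

/-- **43's `Ring`**, marks `t₁`, `t₂` between the gates `l₁, u₁` and `l₂, u₂` -/
theorem ring_mk (L : Chordx355.Lp M (cfg M χ) p N) (R : TL M (cfg M χ) p N n T Reg)
    (hg : Gp M (cfg M χ) g₀) (G : GT n T (St M (cfg M χ) p N g₀)) {l₁ u₁ l₂ u₂ t₁ t₂ : ℕ}
    (h1 : 0 < l₁) (h1u : l₁ ≤ u₁) (h12 : u₁ + 1 ≤ l₂) (h2u : l₂ ≤ u₂) (h2 : u₂ + 2 ≤ n)
    (lo1 : T l₁ ≤ t₁) (hi1 : t₁ ≤ T u₁) (lo2 : T l₂ ≤ t₂) (hi2 : t₂ ≤ T u₂) :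
    Junx43.Ring M χ p N t₁ t₂ (T (u₁ + 1)) (T (u₂ + 1)) (T (n - 1))
      (St M (cfg M χ) p N g₀) := by
  have top := R.top
  refine ⟨L, fun s hs => hs.1, fun s hs s' hs' h => St.sep L hg hs hs' h,
    fun s hs => St.nxt L hg hs, fun s hs => St.prv L hg hs, ?_, ?_, ?_, ?_, ?_, ?_, ?_, ?_, ?_,
    ?_⟩
  · obtain ⟨s, a1, a2, a3⟩ := G 0 (by omega)
    exact ⟨s, a1, lt_of_lt_of_le a3 ((R.le (by omega)).trans lo1)⟩
  · obtain ⟨s, a1, a2, a3⟩ := G u₁ (by omega)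
    exact ⟨s, a1, hi1.trans a2, lt_of_lt_of_le a3 ((R.le h12).trans lo2)⟩
  · obtain ⟨s, a1, a2, a3⟩ := G u₂ (by omega)
    exact ⟨s, a1, hi2.trans a2, lt_of_lt_of_le a3 (R.le (by omega))⟩
  · obtain ⟨s, a1, a2, a3⟩ := G (u₂ + 1) (by omega)
    exact ⟨s, a1, a2⟩
  · exact hi1.trans (R.le (by omega))
  · exact (R.le h12).trans lo2
  · exact hi2.trans (R.le (by omega))
  · rw [← top]
    exact R.mono (by omega)
  · intro s h4 h5
    have key : ∀ c, Tc M (cfg M χ) p s c → c ∉ Tch M (cfg M χ) p t₁ := by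
      intro c hc
      rcases Nat.lt_or_ge (u₁ + 1) (n - 1) with h6 | h6
      · exact oo1 (u₃ := n - 1) R (by omega) h6 (by omega) hi1 h4 h5 hc
      · omega
    exact ⟨key _ (Or.inl rfl), key _ (Or.inr rfl)⟩
  · intro s h4 h5
    have key : ∀ c, Tc M (cfg M χ) p s c → c ∈ Tch M (cfg M χ) p t₂ →
        c ∈ Tch M (cfg M χ) p t₁ := by
      intro c hc h6
      by_contra h7
      exact oo2 (Q := ∅) (l₁ := l₁) (u₂ := u₂) R h1 (by omega) (by omega) lo1 hi2 h4 h5.le hc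
        ⟨Or.inr h6, fun h8 => h7 (h8.resolve_left fun h => h)⟩
    exact ⟨key _ (Or.inl rfl), key _ (Or.inr rfl)⟩

/-! ### 828's three patterns -/

/-- the first gap after a mark -/
theorem fg_mark {S : Set ℕ} (G : GT n T S) {k s : ℕ} (hk : k < n) (hs : s ≤ T k) :
    fg S s ∈ S ∧ s ≤ fg S s ∧ fg S s < T (k + 1) := by
  obtain ⟨v, a1, a2, a3⟩ := G k hk
  obtain ⟨h1, h2⟩ := fg_mem a1 (hs.trans a2)
  exact ⟨h1, h2, lt_of_le_of_lt (fg_le a1 (hs.trans a2)) a3⟩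

/-- **828's `Rg3`** : the first gaps of the block after the three marks -/
theorem rg3_mk (L : Chordx355.Lp M (cfg M χ) p N) (hcol : χ (M.cell p) = 1)
    (R : TL M (cfg M χ) p N n T Reg) (hg : Gp M (cfg M χ) g₀)
    (G : GT n T (St M (cfg M χ) p N g₀)) (H : M3 n T l u t) :
    Rg3 M χ p N fun j => fg (St M (cfg M χ) p N g₀) (t j) := by
  set S := St M (cfg M χ) p N g₀ with hS
  have e0 := H.u01
  have e1 := H.u12
  have e2 := H.u2
  have f1 := H.lu 1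
  have f2 := H.lu 2
  obtain ⟨a0, b0, c0⟩ := fg_mark G (k := u 0) (by omega) (H.hi 0)
  obtain ⟨a1, b1, c1⟩ := fg_mark G (k := u 1) (by omega) (H.hi 1)
  obtain ⟨a2, b2, c2⟩ := fg_mark G (k := u 2) (by omega) (H.hi 2)
  have g1 := (R.le e0).trans (H.lo 1)
  have g2 := (R.le e1).trans (H.lo 2)
  have hG : ∀ {s}, s ∈ S → Gp M (cfg M χ) (gp M (cfg M χ) p s) := fun h => h.2.1
  have hR : ∀ {s t}, s ∈ S → t ∈ S →
      Rel M (cfg M χ) (gp M (cfg M χ) p s) (gp M (cfg M χ) p t) := fun h h' =>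
    rel_trans L.ev h.2.1 hg h'.2.1 (rel_symm h.2.2) h'.2.2
  refine ⟨lp117 L, hcol, ?_, ?_, ?_, ?_, hR a0 a1, hR a1 a2⟩
  · show fg S (t 0) < fg S (t 1)
    omega
  · show fg S (t 1) < fg S (t 2)
    omega
  · exact a2.1
  · intro j
    rcases z3e j with rfl | rfl | rfl
    · exact (hG a0).1
    · exact (hG a1).1
    · exact (hG a2).1

/-- the first gaps are near the marks -/
theorem mk_mk {S : Set ℕ} (R : TL M x p N n T Reg) (G : GT n T S) (H : M3 n T l u t)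
    {q : ZMod 3 → ℕ} {s : ℕ} (ql : ∀ j, q j ≤ l j + s) (qu : ∀ j, u j + 1 ≤ q j + s)
    (q0 : s ≤ q 0) (q01 : q 0 + 2 * s < q 1) (q12 : q 1 + 2 * s < q 2)
    (q2 : q 2 + 2 * s < n) : Mk n T q s fun j => fg S (t j) := by
  have key : ∀ j, u j < n := by
    intro j
    have h1 := H.u01
    have h2 := H.u12
    have h3 := H.u2
    have f1 := H.lu 1
    have f2 := H.lu 2
    rcases z3e j with rfl | rfl | rfl <;> omega
  refine ⟨q0, q01, q12, q2, fun j => ?_, fun j => ?_⟩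
  · have h1 := ql j
    exact (R.le (show q j - s ≤ l j by omega)).trans
      ((H.lo j).trans (fg_mark G (key j) (H.hi j)).2.1)
  · exact (fg_mark G (key j) (H.hi j)).2.2.le.trans (R.le (qu j))

/-! ### marks as first times -/

/-- the first time at which the state is in `X` -/
def fx (M : CMap D C) (x : D → ZMod 2) (p : D) (X : Set D) : ℕ := sInf {s | P M x p s ∈ X}

omit [Fintype D] in
/-- **the first time in `X`**, if `X` is not seen before the gate `l` and is seen before the gate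
`v` -/
theorem ft_mark (R : TL M x p N n T Reg) {X : Set D} {l v s₀ : ℕ} (h0 : s₀ ≤ T v)
    (hX : P M x p s₀ ∈ X) (hl : ∀ s, s < T l → P M x p s ∉ X) :
    P M x p (fx M x p X) ∈ X ∧ T l ≤ fx M x p X ∧ fx M x p X ≤ T v ∧
      ∀ s, s < fx M x p X → P M x p s ∉ X := by
  have _ := R
  have h1 : P M x p (fx M x p X) ∈ X := Nat.sInf_mem (s := {s | P M x p s ∈ X}) ⟨s₀, hX⟩
  refine ⟨h1, ?_, (Nat.sInf_le (s := {s | P M x p s ∈ X}) hX).trans h0, fun s hs h => ?_⟩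
  · by_contra hc
    exact hl _ (by omega) h1
  · exact absurd (Nat.sInf_le (s := {s | P M x p s ∈ X}) h) (by
      have : fx M x p X = sInf {s | P M x p s ∈ X} := rfl
      omega)

end Crest.Agent.R143.RingNx715
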