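import Crest.Agent.R143.FlipQ_565
import Crest.Agent.R143.Two3_565
import Crest.Agent.R143.RingN_715
import Crest.Agent.R143.HRev_432

/-!
# Row 143 (S0194), block H, H5 (helper565; order 440, ruling 690): the pairs of explorations of the
three patterns

`Rb` = exploration which decides the start `p` (389's `Ra` of one arm box), `X`, `X'` = sets of states
past the two marks (decided by `Rb`, e.g. constant).
* `ta`, `ma`, `tb` : first time in `X`, the state then, first time `≥ ta` in `X'`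
* `Ra1 = Rb ∪` history until `ta`, `Ra2 = Ra1 ∪` history until `tb`; `ra1_stop`, `ra2_stop`; `flG`
* `ta_dec`, `ma_dec`, `tb_dec`, `st_dec` : decided; `p_keep`, `ta_keep`, .. : the same in the flipped
  configuration
* `mem_hist_tch` : the coins of the history = the coins of the touched cells
* `Ck χ κ` : the colour of the cell `c` is the coin `κ c` (`κ` injective); `Qb` = cells with coin in
  `Rb`; **`flk` : the flipped configuration is `FlK` of `Two3_565`**; `off` : cells not in `Dk` keep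
  their colours
* `next_tm` : the common mark of two patterns
* instance : `ck_rc`, `flk_rc` on `rc0 hS` with `chiS`
-/

set_option autoImplicit false
set_option linter.unusedSectionVars false

noncomputable section

open scoped Classical

namespace Crest.Agent.R143.RingFx565

open Finset Crest.Agent.R143.Harx315 Crest.Agent.R143.Histx389
open Crest.Agent.R143.Frame1x395 Crest.Agent.R143.Frame2x395 Crest.Agent.R143.Frame3x395
  Crest.Agent.R143.Frame8x395 Crest.Agent.R143.Frame9x395 Crest.Agent.R143.Frame11x395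
  Crest.Agent.R143.NonXx592 Crest.Agent.R143.Chordx355 Crest.Agent.R143.ChordCx357
  Crest.Agent.R143.Chord2x355
open Crest.Agent.R143.FlipQx565 (flf mem_flf gf FlG flG_sdiff flf_inter)
open Crest.Agent.R143.Junx43
open Crest.Agent.R143.Jun3x565 (Ov)
open Crest.Agent.R143.Two3x565 (Dk FlK)
open Crest.Agent.R143.RingNx715 (fx)

variable {α D C : Type} [Fintype D] {M : CMap D C} {V : Finset α}
  {χ : Finset α → C → ZMod 2} {K : C → Finset α}

/-! ### the first time in a set of states -/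

section first

variable {b b' : Finset α} {q : D} {B : Set D}

omit [Fintype D] in
theorem fx_not {x : D → ZMod 2} {k : ℕ} (hk : k < fx M x q B) : P M x q k ∉ B := fun h =>
  absurd (Nat.sInf_le (s := {s | P M x q s ∈ B}) h) (by
    have : fx M x q B = sInf {s | P M x q s ∈ B} := rfl
    omega)

omit [Fintype D] in
theorem fx_mem {x : D → ZMod 2} (h : ∃ n, P M x q n ∈ B) : P M x q (fx M x q B) ∈ B :=
  Nat.sInf_mem (s := {s | P M x q s ∈ B}) h

omit [Fintype D] in
theorem fx_le {x : D → ZMod 2} {n : ℕ} (h : P M x q n ∈ B) : fx M x q B ≤ n :=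
  Nat.sInf_le (s := {s | P M x q s ∈ B}) h

/-- the states up to the first one in `B` -/
theorem st_hist (hχ : Coins V χ K) (hb : b ⊆ V) (hb' : b' ⊆ V)
    (h : b ∩ hist M K (cfg M (χ b)) B q = b' ∩ hist M K (cfg M (χ b)) B q) {n : ℕ}
    (hn : n ≤ fx M (cfg M (χ b)) q B) :
    P M (cfg M (χ b')) q n = P M (cfg M (χ b)) q n :=
  it_hist hχ hb hb' h n fun _ hk => fx_not (by omega)

/-- the first time is decided -/
theorem fx_hist (hχ : Coins V χ K) (hb : b ⊆ V) (hb' : b' ⊆ V)
    (h : b ∩ hist M K (cfg M (χ b)) B q = b' ∩ hist M K (cfg M (χ b)) B q) :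
    fx M (cfg M (χ b')) q B = fx M (cfg M (χ b)) q B := by
  have key : ∀ n, (∀ k < n, P M (cfg M (χ b)) q k ∉ B) →
      P M (cfg M (χ b')) q n = P M (cfg M (χ b)) q n := fun n hn => it_hist hχ hb hb' h n hn
  by_cases he : ∃ n, P M (cfg M (χ b)) q n ∈ B
  · have h1 := fx_mem he
    have h2 : P M (cfg M (χ b')) q (fx M (cfg M (χ b)) q B) ∈ B := by
      rw [key _ fun k hk => fx_not hk]
      exact h1
    refine le_antisymm (fx_le h2) ?_
    by_contra hc
    have h3 : fx M (cfg M (χ b')) q B < fx M (cfg M (χ b)) q B := by omega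
    have h4 := fx_mem ⟨_, h2⟩
    rw [key _ fun k hk => fx_not (by omega)] at h4
    exact fx_not h3 h4
  · push Not at he
    have he' : ∀ n, P M (cfg M (χ b')) q n ∉ B := fun n hn => by
      rw [key n fun k _ => he k] at hn
      exact he n hn
    have e1 : {s | P M (cfg M (χ b')) q s ∈ B} = {s | P M (cfg M (χ b)) q s ∈ B} := by
      ext s
      exact ⟨fun hs => absurd hs (he' s), fun hs => absurd hs (he s)⟩
    unfold fx
    rw [e1]

/-- **the coins of the history are the coins of the touched cells** -/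
theorem mem_hist_tch {ψ : C → ZMod 2} (hocc : cfg M ψ q = 1) (hit : ∃ n, P M (cfg M ψ) q n ∈ B)
    {y : α} : y ∈ hist M K (cfg M ψ) B q ↔
      ∃ c ∈ Tch M (cfg M ψ) q (fx M (cfg M ψ) q B), y ∈ K c := by
  rw [mem_hist]
  have hin := fx_mem hit
  constructor
  · rintro ⟨_, ⟨n, rfl, hn⟩, hy⟩
    have hle : n ≤ fx M (cfg M ψ) q B := by
      by_contra hc
      exact hn _ (Nat.lt_of_not_le hc) hin
    rcases hy with hy | hy | ⟨hnB, hy⟩
    · exact ⟨_, Tch.l hle, hy⟩
    · exact ⟨_, Tch.r hle, hy⟩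
    · have hlt : n + 1 ≤ fx M (cfg M ψ) q B := by
        rcases Nat.lt_or_ge n (fx M (cfg M ψ) q B) with h | h
        · exact h
        · have : n = fx M (cfg M ψ) q B := le_antisymm hle h
          rw [this] at hnB
          exact absurd hin hnB
      have hy' : y ∈ K (M.cell (gt M (cfg M ψ) q n)) := by
        unfold gt
        exact hy
      rcases third (cfg_isC ψ) hocc n with e | e
      · rw [e] at hy'; exact ⟨_, Tch.l hlt, hy'⟩
      · rw [e] at hy'; exact ⟨_, Tch.r hlt, hy'⟩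
  · rintro ⟨c, ⟨u, hu, hc⟩, hy⟩
    refine ⟨P M (cfg M ψ) q u, ⟨u, rfl, fun k hk => fx_not (by omega)⟩, ?_⟩
    rcases hc with e | e
    · left
      rw [← e] at hy
      exact hy
    · right; left
      rw [← e] at hy
      exact hy

end first

/-! ### the two explorations -/

variable (M K) in
/-- first time in `X` -/
def ta (χ : Finset α → C → ZMod 2) (p : Finset α → D) (X : Finset α → Set D) (b : Finset α) : ℕ :=
  fx M (cfg M (χ b)) (p b) (X b)

/-- the state at the first mark -/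
def ma (M : CMap D C) (χ : Finset α → C → ZMod 2) (p : Finset α → D) (X : Finset α → Set D)
    (b : Finset α) : D := P M (cfg M (χ b)) (p b) (fx M (cfg M (χ b)) (p b) (X b))

/-- first time `≥ ta` in `X'` -/
def tb (M : CMap D C) (χ : Finset α → C → ZMod 2) (p : Finset α → D) (X X' : Finset α → Set D)
    (b : Finset α) : ℕ :=
  fx M (cfg M (χ b)) (p b) (X b) + fx M (cfg M (χ b)) (ma M χ p X b) (X' b)

/-- exploration until the first mark -/
def Ra1 (M : CMap D C) (χ : Finset α → C → ZMod 2) (K : C → Finset α) (Rb : Finset α → Finset α)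
    (p : Finset α → D) (X : Finset α → Set D) (b : Finset α) : Finset α :=
  Rb b ∪ hist M K (cfg M (χ b)) (X b) (p b)

/-- exploration until the second mark -/
def Ra2 (M : CMap D C) (χ : Finset α → C → ZMod 2) (K : C → Finset α) (Rb : Finset α → Finset α)
    (p : Finset α → D) (X X' : Finset α → Set D) (b : Finset α) : Finset α :=
  Ra1 M χ K Rb p X b ∪ hist M K (cfg M (χ b)) (X' b) (ma M χ p X b)

/-- the inputs: coins, start and marks decided by `Rb` -/
structure In (M : CMap D C) (V : Finset α) (χ : Finset α → C → ZMod 2) (K : C → Finset α)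
    (Rb : Finset α → Finset α) (p : Finset α → D) (X X' : Finset α → Set D) : Prop where
  coins : Coins V χ K
  sub : ∀ c, K c ⊆ V
  stop : IsStop V Rb
  dp : DecF V Rb p
  dx : DecF V Rb X
  dx' : DecF V Rb X'

section expl

variable {Rb : Finset α → Finset α} {p : Finset α → D} {X X' : Finset α → Set D}
  {b b' : Finset α}

theorem In.ra1_stop (I : In M V χ K Rb p X X') : IsStop V (Ra1 M χ K Rb p X) :=
  hist_stop I.coins I.sub I.stop I.dx I.dp

theorem In.up {β : Type*} (_I : In M V χ K Rb p X X') {F : Finset α → β} (hF : DecF V Rb F) :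
    DecF V (Ra1 M χ K Rb p X) F := hF.mono fun _ _ => subset_union_left

theorem In.up2 {β : Type*} (_I : In M V χ K Rb p X X') {F : Finset α → β}
    (hF : DecF V (Ra1 M χ K Rb p X) F) : DecF V (Ra2 M χ K Rb p X X') F :=
  hF.mono fun _ _ => subset_union_left

/-- the common facts of two colourings with the same outcome of `Ra1` -/
theorem In.core (I : In M V χ K Rb p X X') (hb : b ⊆ V) (hb' : b' ⊆ V)
    (h : b ∩ Ra1 M χ K Rb p X b = b' ∩ Ra1 M χ K Rb p X b) :
    p b' = p b ∧ X b' = X b ∧ X' b' = X' b ∧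
      b ∩ hist M K (cfg M (χ b)) (X b) (p b) = b' ∩ hist M K (cfg M (χ b)) (X b) (p b) := by
  have h2 : b ∩ Rb b = b' ∩ Rb b := inter_sub h subset_union_left
  exact ⟨(I.dp b b' hb hb' h2).symm, (I.dx b b' hb hb' h2).symm, (I.dx' b b' hb hb' h2).symm,
    inter_sub h subset_union_right⟩

/-- the first mark is decided -/
theorem In.ta_dec (I : In M V χ K Rb p X X') : DecF V (Ra1 M χ K Rb p X) (ta M χ p X) := by
  intro b b' hb hb' h
  obtain ⟨h1, h2, -, h4⟩ := I.core hb hb' h
  unfold ta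
  rw [h1, h2]
  exact (fx_hist I.coins hb hb' h4).symm

/-- the states up to the first mark -/
theorem In.st1 (I : In M V χ K Rb p X X') (hb : b ⊆ V) (hb' : b' ⊆ V)
    (h : b ∩ Ra1 M χ K Rb p X b = b' ∩ Ra1 M χ K Rb p X b) {n : ℕ} (hn : n ≤ ta M χ p X b) :
    P M (cfg M (χ b')) (p b') n = P M (cfg M (χ b)) (p b) n := by
  obtain ⟨h1, -, -, h4⟩ := I.core hb hb' h
  rw [h1]
  exact st_hist I.coins hb hb' h4 hn

/-- the state at the first mark is decided -/
theorem In.ma_dec (I : In M V χ K Rb p X X') : DecF V (Ra1 M χ K Rb p X) (ma M χ p X) := by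
  intro b b' hb hb' h
  have h1 := I.ta_dec b b' hb hb' h
  have h2 := I.st1 hb hb' h (n := ta M χ p X b) le_rfl
  unfold ta at h1 h2
  unfold ma
  rw [← h1]
  exact h2.symm

theorem In.ra2_stop (I : In M V χ K Rb p X X') : IsStop V (Ra2 M χ K Rb p X X') :=
  hist_stop I.coins I.sub I.ra1_stop (I.up I.dx') I.ma_dec

/-- **the flip between the two explorations** -/
theorem In.flG (I : In M V χ K Rb p X X') :
    FlG V (Ra1 M χ K Rb p X) (Ra2 M χ K Rb p X X') fun b => V \ Ra1 M χ K Rb p X b :=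
  flG_sdiff I.ra1_stop I.ra2_stop

/-- the second mark is decided -/
theorem In.tb_dec (I : In M V χ K Rb p X X') : DecF V (Ra2 M χ K Rb p X X') (tb M χ p X X') := by
  intro b b' hb hb' h
  have h0 : b ∩ Ra1 M χ K Rb p X b = b' ∩ Ra1 M χ K Rb p X b := inter_sub h subset_union_left
  have h1 := I.ta_dec b b' hb hb' h0
  have h2 := I.ma_dec b b' hb hb' h0
  obtain ⟨-, -, h3, -⟩ := I.core hb hb' h0
  have h4 : b ∩ hist M K (cfg M (χ b)) (X' b) (ma M χ p X b) =
    b' ∩ hist M K (cfg M (χ b)) (X' b) (ma M χ p X b) := inter_sub h subset_union_right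
  have h5 := fx_hist I.coins hb hb' h4
  unfold ta at h1
  unfold tb
  rw [← h1, ← h2, h3, h5]

/-- the states up to the second mark -/
theorem In.st2 (I : In M V χ K Rb p X X') (hb : b ⊆ V) (hb' : b' ⊆ V)
    (h : b ∩ Ra2 M χ K Rb p X X' b = b' ∩ Ra2 M χ K Rb p X X' b) {n : ℕ}
    (hn : n ≤ tb M χ p X X' b) :
    P M (cfg M (χ b')) (p b') n = P M (cfg M (χ b)) (p b) n := by
  have h0 : b ∩ Ra1 M χ K Rb p X b = b' ∩ Ra1 M χ K Rb p X b := inter_sub h subset_union_left
  rcases Nat.lt_or_ge (ta M χ p X b) n with h1 | h1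
  · obtain ⟨m, rfl⟩ := Nat.exists_eq_add_of_le h1.le
    have h2 := I.st1 hb hb' h0 (n := ta M χ p X b) le_rfl
    have h4 : b ∩ hist M K (cfg M (χ b)) (X' b) (ma M χ p X b) =
      b' ∩ hist M K (cfg M (χ b)) (X' b) (ma M χ p X b) := inter_sub h subset_union_right
    have h5 : m ≤ fx M (cfg M (χ b)) (ma M χ p X b) (X' b) := by
      unfold tb at hn
      unfold ta at hn
      omega
    rw [add_comm, P_add, P_add, h2]
    exact st_hist I.coins hb hb' h4 h5
  · exact I.st1 hb hb' h0 h1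

/-! ### the flipped configuration -/

/-- the flipped coins -/
def fl (M : CMap D C) (V : Finset α) (χ : Finset α → C → ZMod 2) (K : C → Finset α)
    (Rb : Finset α → Finset α) (p : Finset α → D) (X X' : Finset α → Set D) (b : Finset α) :
    Finset α := gf (Ra2 M χ K Rb p X X') (fun b => V \ Ra1 M χ K Rb p X b) b

/-- the flipped configuration -/
def flc (M : CMap D C) (V : Finset α) (χ : Finset α → C → ZMod 2) (K : C → Finset α)
    (Rb : Finset α → Finset α) (p : Finset α → D) (X X' : Finset α → Set D) (b : Finset α) :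
    Finset α := flf (gf (Ra2 M χ K Rb p X X') (fun b => V \ Ra1 M χ K Rb p X b)) b

theorem In.flc_sub (I : In M V χ K Rb p X X') (hb : b ⊆ V) : flc M V χ K Rb p X X' b ⊆ V :=
  I.flG.maps hb

theorem mem_fl {y : α} : y ∈ fl M V χ K Rb p X X' b ↔
    y ∈ Ra2 M χ K Rb p X X' b ∧ y ∈ V ∧ y ∉ Ra1 M χ K Rb p X b := by
  unfold fl gf
  rw [mem_inter, mem_sdiff]

/-- the outcome of the first exploration does not change -/
theorem In.keep1 (I : In M V χ K Rb p X X') (hb : b ⊆ V) :
    b ∩ Ra1 M χ K Rb p X b = flc M V χ K Rb p X X' b ∩ Ra1 M χ K Rb p X b :=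
  (flf_inter (I.flG.dj hb)).symm

theorem In.p_keep (I : In M V χ K Rb p X X') (hb : b ⊆ V) : p (flc M V χ K Rb p X X' b) = p b :=
  (I.core hb (I.flc_sub hb) (I.keep1 hb)).1

theorem In.ta_keep (I : In M V χ K Rb p X X') (hb : b ⊆ V) :
    ta M χ p X (flc M V χ K Rb p X X' b) = ta M χ p X b := I.flG.keep I.ta_dec hb

theorem In.ma_keep (I : In M V χ K Rb p X X') (hb : b ⊆ V) :
    ma M χ p X (flc M V χ K Rb p X X' b) = ma M χ p X b := I.flG.keep I.ma_dec hb

end expl

/-! ### the dictionary: one coin per cell -/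

/-- the colour of the cell `c` is the coin `κ c` -/
structure Ck (V : Finset α) (χ : Finset α → C → ZMod 2) (K : C → Finset α) (κ : C → α) : Prop where
  inj : Function.Injective κ
  mem : ∀ c, κ c ∈ V
  keq : ∀ c, K c = {κ c}
  col : ∀ b c, χ b c = if κ c ∈ b then 1 else 0

section dict

variable {κ : C → α} {b b' : Finset α}

theorem Ck.coins (H : Ck V χ K κ) : Coins V χ K := by
  intro c b b' _ _ h
  rw [H.col, H.col]
  refine if_congr ?_ rfl rfl
  rw [H.keq] at h
  have h1 : κ c ∈ b ∩ {κ c} ↔ κ c ∈ b' ∩ {κ c} := by rw [h]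
  rw [mem_inter, mem_inter] at h1
  exact ⟨fun h2 => (h1.1 ⟨h2, mem_singleton_self _⟩).1, fun h2 =>
    (h1.2 ⟨h2, mem_singleton_self _⟩).1⟩

theorem Ck.sub (H : Ck V χ K κ) (c : C) : K c ⊆ V := by
  rw [H.keq, singleton_subset_iff]
  exact H.mem c

theorem Ck.mk' (H : Ck V χ K κ) {y : α} {c : C} : y ∈ K c ↔ y = κ c := by
  rw [H.keq, mem_singleton]

/-- a flipped coin -/
theorem Ck.on (H : Ck V χ K κ) {G : Finset α → Finset α} {c : C} (h : κ c ∈ G b) :
    χ (flf G b) c = χ b c + 1 := by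
  rw [H.col, H.col]
  by_cases h1 : κ c ∈ b
  · rw [if_neg (by rw [mem_flf]; tauto), if_pos h1]
    decide
  · rw [if_pos (by rw [mem_flf]; tauto), if_neg h1, zero_add]

/-- a coin which is not flipped -/
theorem Ck.off (H : Ck V χ K κ) {G : Finset α → Finset α} {c : C} (h : κ c ∉ G b) :
    χ (flf G b) c = χ b c := by
  rw [H.col, H.col]
  refine if_congr ?_ rfl rfl
  rw [mem_flf]
  tauto

variable {Rb : Finset α → Finset α} {p : Finset α → D} {X X' : Finset α → Set D}

/-- the cells with a coin in `Rb` -/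
def Qb (κ : C → α) (Rb : Finset α → Finset α) (b : Finset α) : Set C := {c | κ c ∈ Rb b}

/-- a coin of the history is the coin of a touched cell -/
theorem Ck.hist_iff (H : Ck V χ K κ) {q : D} {B : Set D} (hocc : cfg M (χ b) q = 1)
    (hit : ∃ n, P M (cfg M (χ b)) q n ∈ B) {c : C} :
    κ c ∈ hist M K (cfg M (χ b)) B q ↔
      c ∈ Tch M (cfg M (χ b)) q (fx M (cfg M (χ b)) q B) := by
  rw [mem_hist_tch hocc hit]
  constructor
  · rintro ⟨c', h1, h2⟩
    rw [H.mk'] at h2
    rwa [H.inj h2]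
  · exact fun h => ⟨c, h, H.mk'.2 rfl⟩

omit [Fintype D] in
/-- touched cells from a later start -/
theorem tch_shift {x : D → ZMod 2} {q : D} {m n : ℕ} {c : C} :
    c ∈ Tch M x q m ∨ c ∈ Tch M x (P M x q m) n ↔ c ∈ Tch M x q (m + n) := by
  constructor
  · rintro (⟨u, h1, h2⟩ | ⟨u, h1, h2⟩)
    · exact ⟨u, by omega, h2⟩
    · rw [lc_shift, rc_shift] at h2
      exact ⟨m + u, by omega, h2⟩
  · rintro ⟨u, h1, h2⟩
    rcases Nat.lt_or_ge m u with h3 | h3
    · right
      obtain ⟨v, rfl⟩ := Nat.exists_eq_add_of_le h3.le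
      refine ⟨v, by omega, ?_⟩
      rw [lc_shift, rc_shift]
      exact h2
    · exact Or.inl ⟨u, h3, h2⟩

/-- the walk of `b` is a walk in the marks -/
structure Hit (M : CMap D C) (χ : Finset α → C → ZMod 2) (p : Finset α → D)
    (X X' : Finset α → Set D) (b : Finset α) : Prop where
  occ : cfg M (χ b) (p b) = 1
  h1 : ∃ n, P M (cfg M (χ b)) (p b) n ∈ X b
  h2 : ∃ n, P M (cfg M (χ b)) (ma M χ p X b) n ∈ X' b

/-- coins of the first exploration -/
theorem Ck.ra1 (H : Ck V χ K κ) (W : Hit M χ p X X' b) {c : C} :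
    κ c ∈ Ra1 M χ K Rb p X b ↔ c ∈ Ov M (cfg M (χ b)) (p b) (Qb κ Rb b) (ta M χ p X b) := by
  unfold Ra1 Ov
  rw [mem_union, H.hist_iff W.occ W.h1]
  rfl

/-- coins of the second exploration -/
theorem Ck.ra2 (H : Ck V χ K κ) (W : Hit M χ p X X' b) {c : C} :
    κ c ∈ Ra2 M χ K Rb p X X' b ↔
      c ∈ Ov M (cfg M (χ b)) (p b) (Qb κ Rb b) (tb M χ p X X' b) := by
  have hocc : cfg M (χ b) (ma M χ p X b) = 1 := P_occ (cfg_isC _) W.occ _
  unfold Ra2
  rw [mem_union, H.ra1 W, H.hist_iff hocc W.h2]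
  unfold Ov
  show (c ∈ Qb κ Rb b ∨ c ∈ Tch M (cfg M (χ b)) (p b) (ta M χ p X b)) ∨
      c ∈ Tch M (cfg M (χ b)) (ma M χ p X b) (fx M (cfg M (χ b)) (ma M χ p X b) (X' b)) ↔
    c ∈ Qb κ Rb b ∨ c ∈ Tch M (cfg M (χ b)) (p b) (tb M χ p X X' b)
  rw [or_assoc]
  unfold tb ta
  rw [← tch_shift]
  rfl

/-- **the flipped cells** -/
theorem Ck.fl_iff (H : Ck V χ K κ) (W : Hit M χ p X X' b) {c : C} :
    κ c ∈ gf (Ra2 M χ K Rb p X X') (fun b => V \ Ra1 M χ K Rb p X b) b ↔
      c ∈ Dk M (cfg M (χ b)) (p b) (Qb κ Rb b) (ta M χ p X b) (tb M χ p X X' b) := by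
  have h1 := mem_fl (M := M) (V := V) (χ := χ) (K := K) (Rb := Rb) (p := p) (X := X) (X' := X')
    (b := b) (y := κ c)
  unfold fl at h1
  rw [h1, H.ra1 W, H.ra2 W]
  unfold Dk
  constructor
  · exact fun h => ⟨h.1, h.2.2⟩
  · exact fun h => ⟨h.1, H.mem c, h.2⟩

/-- colours of the flipped configuration -/
theorem Ck.flip (H : Ck V χ K κ) (W : Hit M χ p X X' b) (c : C) :
    χ (flc M V χ K Rb p X X' b) c = χ b c +
      if c ∈ Dk M (cfg M (χ b)) (p b) (Qb κ Rb b) (ta M χ p X b) (tb M χ p X X' b)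
      then 1 else 0 := by
  unfold flc
  by_cases h : c ∈ Dk M (cfg M (χ b)) (p b) (Qb κ Rb b) (ta M χ p X b) (tb M χ p X X' b)
  · rw [if_pos h, H.on ((H.fl_iff W).2 h)]
  · rw [if_neg h, add_zero, H.off fun h' => h ((H.fl_iff W).1 h')]

/-- **`FlK` of `Two3_565`** -/
theorem Ck.flk (H : Ck V χ K κ) (W : Hit M χ p X X' b) :
    FlK M (χ b) (p b) (Qb κ Rb b) (ta M χ p X b) (tb M χ p X X' b)
      (χ (flc M V χ K Rb p X X' b)) := fun _ => ⟨H.flip W _, H.flip W _⟩

/-- cells without explored coin keep their colours (fresh cells) -/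
theorem Ck.fresh (H : Ck V χ K κ) (W : Hit M χ p X X' b) {c : C}
    (h : c ∉ Tch M (cfg M (χ b)) (p b) (tb M χ p X X' b)) :
    χ (flc M V χ K Rb p X X' b) c = χ b c := by
  rw [H.flip W, if_neg, add_zero]
  rintro ⟨h1 | h1, h2⟩
  · exact h2 (Or.inl h1)
  · exact h h1

end dict

/-! ### the common mark -/

omit [Fintype D] in
/-- **the common mark of two patterns**: the second start is the state at the time `m`, not before the
first mark `t`, and `X'` is not seen at the times `[t, m)` -/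
theorem next_tm {x : D → ZMod 2} {q q' : D} {X' : Set D} {t m : ℕ} (hq : q' = P M x q m)
    (htm : t ≤ m) (hno : ∀ n, t ≤ n → n < m → P M x q n ∉ X')
    (hit : ∃ n, P M x q' n ∈ X') :
    t + fx M x (P M x q t) X' = m + fx M x q' X' := by
  have h1 := fx_mem hit
  have h2 : P M x (P M x q t) (m - t + fx M x q' X') ∈ X' := by
    rw [← P_add, show m - t + fx M x q' X' + t = fx M x q' X' + m by omega, P_add, ← hq]
    exact h1
  have h3 := fx_le h2
  have h4 := fx_mem ⟨_, h2⟩
  have h5 : m ≤ t + fx M x (P M x q t) X' := by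
    by_contra hc
    refine hno (t + fx M x (P M x q t) X') (by omega) (by omega) ?_
    rw [add_comm, P_add]
    exact h4
  have h6 : P M x q' (t + fx M x (P M x q t) X' - m) ∈ X' := by
    rw [hq, ← P_add, show t + fx M x (P M x q t) X' - m + m = fx M x (P M x q t) X' + t by omega,
      P_add]
    exact h4
  have h7 := fx_le h6
  omega

/-! ### sites -/

section sites

open Crest.Agent.R143.B0x346 Crest.Agent.R143.SumScx302 Crest.Agent.R143.Mass1x302
  Crest.Agent.R143.Mass2x302 Crest.Agent.R143.Mass3x302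
  Crest.Agent.R143.Mass4x302 Crest.Agent.R143.Mass5x302 Crest.Agent.R143.DelGx806
  Crest.Agent.R143.DelRx806 Crest.Agent.R143.JColx54 Crest.Agent.R143.Frame10x395
  Crest.Agent.R143.FinCx811 Crest.Agent.R143.SmallAx304 Crest.Agent.R143.HRevx432
open Crest.Agent.R143.RevCx389 (Rg p0 Ra ra_stop p0_dec)

variable {S : Finset ℂ} {hS : GP (S : Set ℂ)} {h3 : 3 ≤ S.card}

/-- the coin of a cell -/
def kap (hS : GP (S : Set ℂ)) (h3 : 3 ≤ S.card) (c : Cs hS) : ℂ := (rp hS h3 c).1

theorem ck_rc : Ck S (chiS hS h3) (Kc hS h3) (kap hS h3) where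
  inj := fun _ _ e => rp_inj hS h3 (Subtype.ext e)
  mem := fun c => (rp hS h3 c).2
  keq := fun _ => rfl
  col := fun _ _ => rfl

/-- **389's exploration of one arm box, canonical state, two marks** -/
theorem in_rc (G : Rg (D0 S) (Cs hS)) (X X' : Set (D0 S)) :
    In (rc0 hS) S (chiS hS h3) (Kc hS h3) (Ra (rc0 hS) G S (chiS hS h3) (Kc hS h3))
      (fun b => p0 (rc0 hS) G (chiS hS h3 b)) (fun _ => X) (fun _ => X') where
  coins := coins_rc hS h3
  sub := kc_sub hS h3
  stop := ra_stop (coins_rc hS h3) (kc_sub hS h3)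
  dp := p0_dec (coins_rc hS h3) (kc_sub hS h3)
  dx := fun _ _ _ _ _ => rfl
  dx' := fun _ _ _ _ _ => rfl

/-- **`FlK` on `rc0 hS`**: `Q` = cells with explored coin -/
theorem flk_rc {G : Rg (D0 S) (Cs hS)} {X X' : Set (D0 S)} {b : Finset ℂ}
    (W : Hit (rc0 hS) (chiS hS h3) (fun b => p0 (rc0 hS) G (chiS hS h3 b)) (fun _ => X)
      (fun _ => X') b) :
    FlK (rc0 hS) (chiS hS h3 b) (p0 (rc0 hS) G (chiS hS h3 b))
      (Qb (kap hS h3) (Ra (rc0 hS) G S (chiS hS h3) (Kc hS h3)) b)
      (ta (rc0 hS) (chiS hS h3) (fun b => p0 (rc0 hS) G (chiS hS h3 b)) (fun _ => X) b)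
      (tb (rc0 hS) (chiS hS h3) (fun b => p0 (rc0 hS) G (chiS hS h3 b)) (fun _ => X)
        (fun _ => X') b)
      (chiS hS h3 (flc (rc0 hS) S (chiS hS h3) (Kc hS h3)
        (Ra (rc0 hS) G S (chiS hS h3) (Kc hS h3)) (fun b => p0 (rc0 hS) G (chiS hS h3 b))
        (fun _ => X) (fun _ => X') b)) := ck_rc.flk W

end sites

end Crest.Agent.R143.RingFx565
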