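import Crest.Agent.R143.Tent_820
import Crest.Agent.R143.StrU_535

/-!
# Row 143 (S0194), block H, box (P) of 4110 (helper820): the closed ring, relative frame in `ω' = Φ ω`

* `walk_shift`, `sd_shift` : the strand of `d` inside `Rt` does not change if all its cells are
  inverted; `fS` : inversion of the strand, an involution (`fS_fS`, `sum_fS`)
* `sd_sub` : the strand is inside `Rt`; `go_blind` : `goff ∘ fS` is blind to the colours off `Rt`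
* `Ku` : union of the strands of the darts `d i` inside `Rt i`, a stopping set
* `Pcs M ν p' d Rt` : in `ν` the strands are arcs, joined to the right cell of `p'` by their right
  cells (outer arc) or left cells (inverted arc)
* `pcs_H` : `Pcs` for all configurations gives the giants and `Harm` (hypothesis `H` of `rel_flip`)
* `pcs_of_ring` : 43's `Ring`, `Fl`, `Jd` and the arcs in the static configuration give `Pcs`
* `ring_root` : **(P) for the closed ring**, `ring_root2` : with the weight `goff ∘ fS`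
* `cv_le`, `ring_onL`, `ring_cv2` : the same for the loop blocks (value `cv` of the chord)
* `sum_kept` : sum over the neck darts of the kept gates (multiplicity one)
-/

set_option autoImplicit false
set_option linter.unusedSectionVars false

noncomputable section

open scoped Classical

namespace Crest.Agent.R143.RingFx820

open Crest.Agent.R143.Frame1x395 Crest.Agent.R143.Frame2x395 Crest.Agent.R143.Frame3x395
  Crest.Agent.R143.Frame4x395 Crest.Agent.R143.Frame8x395 Crest.Agent.R143.Frame11x395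
  Crest.Agent.R143.NonXx592 Crest.Agent.R143.Coarsex166 Crest.Agent.R143.Giantx46
  Crest.Agent.R143.Resax778 Crest.Agent.R143.Partx778 Crest.Agent.R143.Chordx355
  Crest.Agent.R143.ChordCx357 Crest.Agent.R143.Chord2x355 Crest.Agent.R143.CFramex358
  Crest.Agent.R143.Runx535 Crest.Agent.R143.Gntx535 Crest.Agent.R143.Relx352
  Crest.Agent.R143.Rel2x352 Crest.Agent.R143.FlPx820 Crest.Agent.R143.Junx43
  Crest.Agent.R143.Tentx820 Crest.Agent.R143.Strandx535 Crest.Agent.R143.StrUx535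

variable {D C : Type} {M : CMap D C}

/-! ### inversion of a strand -/

section shift

variable [Fintype D] [Fintype C] {χ χ' : C → ZMod 2} {a : ZMod 2}

theorem add_shift : ∀ u v a : ZMod 2, u + a + (v + a) = u + v := by decide

theorem walk_shift {p : D} (hp : cfg M χ p = 1) {n : ℕ}
    (ha : ∀ c ∈ wl M (cfg M χ) p n ∪ wr M (cfg M χ) p n, χ' c = χ c + a) :
    cfg M χ' p = 1 ∧ ∀ j, j ≤ n → P M (cfg M χ') p j = P M (cfg M χ) p j :=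
  same2 hp (c := a) (m := n) fun u hu =>
    ⟨ha _ (Finset.mem_union.2 (Or.inl (mem_wl.2 ⟨u, hu, rfl⟩))),
      ha _ (Finset.mem_union.2 (Or.inr (mem_wr.2 ⟨u, hu, rfl⟩)))⟩

theorem cfg_shift {d : D} (h1 : χ' (M.cell d) = χ (M.cell d) + a)
    (h2 : χ' (M.cell (M.rho d)) = χ (M.cell (M.rho d)) + a) : cfg M χ' d = cfg M χ d := by
  unfold cfg
  rw [h1, h2, add_shift]

theorem rg_shift {p : D} {St : ℕ → D → Prop}
    (hex : cfg M χ p = 1 → ∃ n, St n (P M (cfg M χ) p n))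
    (ha : ∀ c ∈ Rg M p St χ, χ' c = χ c + a) :
    cfg M χ' p = cfg M χ p ∧ (cfg M χ p = 1 → tm M (cfg M χ') p St = tm M (cfg M χ) p St ∧
      ∀ j ≤ tm M (cfg M χ) p St, P M (cfg M χ') p j = P M (cfg M χ) p j) ∧
      Rg M p St χ' = Rg M p St χ := by
  by_cases hp : cfg M χ p = 1
  · have ha' := ha
    unfold Rg at ha'
    rw [if_pos hp] at ha'
    obtain ⟨h1, h2⟩ := walk_shift hp ha'
    have h3 : tm M (cfg M χ') p St = tm M (cfg M χ) p St := by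
      refine tm_eq ?_ fun j hj => ?_
      · rw [h2 _ le_rfl]; exact tm_spec (hex hp)
      · rw [h2 _ hj.le]; exact tm_min hj
    refine ⟨by rw [h1, hp], fun _ => ⟨h3, h2⟩, ?_⟩
    unfold Rg
    rw [if_pos hp, if_pos h1, h3]
    congr 1
    · ext c
      rw [mem_wl, mem_wl]
      exact ⟨fun ⟨j, hj, e⟩ => ⟨j, hj, by rw [← h2 j hj]; exact e⟩,
        fun ⟨j, hj, e⟩ => ⟨j, hj, by rw [h2 j hj]; exact e⟩⟩
    · ext c
      rw [mem_wr, mem_wr]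
      exact ⟨fun ⟨j, hj, e⟩ => ⟨j, hj, by rw [← h2 j hj]; exact e⟩,
        fun ⟨j, hj, e⟩ => ⟨j, hj, by rw [h2 j hj]; exact e⟩⟩
  · have e : Rg M p St χ = {M.cell p, M.cell (M.rho p)} := by
      unfold Rg
      rw [if_neg hp]
    rw [e] at ha
    have h1 : cfg M χ' p = cfg M χ p :=
      cfg_shift (ha _ (by simp)) (ha _ (by simp))
    refine ⟨h1, fun h => absurd h hp, ?_⟩
    rw [e]
    unfold Rg
    rw [if_neg (by rw [h1]; exact hp)]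

/-- **the strand does not change if all its cells are inverted** (`a = 1`) or kept (`a = 0`) -/
theorem sd_shift {d : D} {Rt : Set C} (ha : ∀ c ∈ Sd M d Rt χ, χ' c = χ c + a) :
    Sd M d Rt χ' = Sd M d Rt χ ∧ cfg M χ' d = cfg M χ d ∧
      (cfg M χ d = 1 → ∀ q, Str M (cfg M χ') Rt d q ↔ Str M (cfg M χ) Rt d q) := by
  have h := cfg_isC (M := M) χ
  have h' := cfg_isC (M := M) χ'
  unfold Sd at ha
  obtain ⟨a1, a2, a3⟩ := rg_shift (χ' := χ') (fun hd => sc_ex (Rt := Rt) h hd)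
    fun c hc => ha c (Finset.mem_union.2 (Or.inl hc))
  obtain ⟨b1, b2, b3⟩ := rg_shift (χ' := χ') (fun hd => sc_ex (Rt := Rt) h hd)
    fun c hc => ha c (Finset.mem_union.2 (Or.inr hc))
  refine ⟨?_, a1, fun hd q => ?_⟩
  · unfold Sd
    rw [a3, b3]
  · have hd2 : cfg M χ (M.iota d) = 1 := by rw [h.iot]; exact hd
    have key : ∀ {p : D}, cfg M χ p = 1 → cfg M χ' p = cfg M χ p →
        (cfg M χ p = 1 → tm M (cfg M χ') p (SC M Rt p) = tm M (cfg M χ) p (SC M Rt p) ∧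
          ∀ j ≤ tm M (cfg M χ) p (SC M Rt p), P M (cfg M χ') p j = P M (cfg M χ) p j) →
        ∀ r, Rch M (cfg M χ') Rt p r ↔ Rch M (cfg M χ) Rt p r := by
      intro p hp e e' r
      obtain ⟨e1, e2⟩ := e' hp
      rw [rch_iff h' (by rw [e]; exact hp), rch_iff h hp]
      unfold tf
      rw [e1]
      constructor
      · rintro ⟨j, hj, e⟩
        exact ⟨j, hj, by rw [← e2 j hj]; exact e⟩
      · rintro ⟨j, hj, e⟩
        exact ⟨j, hj, by rw [e2 j hj]; exact e⟩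
    unfold Str
    rw [key hd a1 a2, key hd2 b1 b2]

/-- inversion of the strand -/
def fS (M : CMap D C) (d : D) (Rt : Set C) (χ : C → ZMod 2) : C → ZMod 2 := fx (Sd M d Rt χ) χ

theorem sd_fS (d : D) (Rt : Set C) (χ : C → ZMod 2) : Sd M d Rt (fS M d Rt χ) = Sd M d Rt χ :=
  (sd_shift (a := 1) fun _ hc => fx_on hc).1

theorem fS_fS (d : D) (Rt : Set C) (χ : C → ZMod 2) : fS M d Rt (fS M d Rt χ) = χ := by
  show fx (Sd M d Rt (fS M d Rt χ)) (fS M d Rt χ) = χ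
  rw [sd_fS]
  exact fx_fx _ _

theorem sum_fS (d : D) (Rt : Set C) {E : Type*} [AddCommMonoid E]
    (F : (C → ZMod 2) → E) : ∑ χ, F (fS M d Rt χ) = ∑ χ, F χ :=
  Fintype.sum_bijective _ (Function.Involutive.bijective (fS_fS d Rt)) _ _ fun _ => rfl

theorem rg_sub {p : D} {Rt : Set C} (h1 : M.cell p ∈ Rt) (h2 : M.cell (M.rho p) ∈ Rt) {c : C}
    (hc : c ∈ Rg M p (SC M Rt p) χ) : c ∈ Rt := by
  have h := cfg_isC (M := M) χ
  by_cases hp : cfg M χ p = 1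
  · unfold Rg at hc
    rw [if_pos hp] at hc
    have key : ∀ j, j ≤ tf M (cfg M χ) Rt p → P M (cfg M χ) p j ∈ Rd M Rt := by
      intro j hj
      rcases Nat.eq_zero_or_pos j with rfl | h0
      · exact ⟨h1, h2⟩
      · have h5 : fc M Rt (P M (cfg M χ) p (j - 1)) := fc_lt (by omega)
        have := ((fc_iff h (P_occ h hp (j - 1))).1 h5).2
        rwa [← P_succ, show j - 1 + 1 = j by omega] at this
    rcases Finset.mem_union.1 hc with hc | hc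
    · obtain ⟨j, hj, rfl⟩ := mem_wl.1 hc
      exact (key j hj).1
    · obtain ⟨j, hj, rfl⟩ := mem_wr.1 hc
      exact (key j hj).2
  · unfold Rg at hc
    rw [if_neg hp] at hc
    rcases Finset.mem_insert.1 hc with rfl | hc
    · exact h1
    · rw [Finset.mem_singleton.1 hc]
      exact h2

/-- the strand is inside `Rt` -/
theorem sd_sub {d : D} {Rt : Set C} (hl : d ∈ M.live) (h1 : M.cell d ∈ Rt)
    (h2 : M.cell (M.rho d) ∈ Rt) {c : C} (hc : c ∈ Sd M d Rt χ) : c ∈ Rt := by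
  unfold Sd at hc
  rcases Finset.mem_union.1 hc with hc | hc
  · exact rg_sub h1 h2 hc
  · refine rg_sub ?_ ?_ hc
    · rw [M.cell_iota _ hl]; exact h2
    · rw [cell_rho_iota M hl]; exact h1

/-- **the weight `goff ∘ fS` is blind to the colours in `T`** -/
theorem go_blind {d : D} {Rt : Set C} (hl : d ∈ M.live) (h1 : M.cell d ∈ Rt)
    (h2 : M.cell (M.rho d) ∈ Rt) {T T2 : Finset C} (hT : ∀ c ∈ T, c ∉ Rt) (hTT : T ⊆ T2)
    {E : Type*} {goff : (C → ZMod 2) → E}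
    (hg : ∀ σ τ, (∀ s, s ∉ T2 → τ s = σ s) → goff τ = goff σ) (σ τ : C → ZMod 2)
    (h : ∀ s, s ∉ T → τ s = σ s) : goff (fS M d Rt τ) = goff (fS M d Rt σ) := by
  have e : Sd M d Rt τ = Sd M d Rt σ :=
    Sd_stp d Rt σ τ fun c hc => h c fun hc' => hT c hc' (sd_sub hl h1 h2 hc)
  refine hg _ _ fun s hs => ?_
  unfold fS fx
  rw [e, h s fun h' => hs (hTT h')]

end shift

/-! ### the strands, joined pieces -/

section pcs

variable [Fintype D] [Fintype C] {ι : Type} {χ χ' : C → ZMod 2}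

/-- union of the strands -/
def Ku [Fintype ι] (M : CMap D C) (d : ι → D) (Rt : ι → Set C) (χ : C → ZMod 2) : Finset C :=
  Finset.univ.biUnion fun i => Sd M (d i) (Rt i) χ

theorem Ku_stop [Fintype ι] (d : ι → D) (Rt : ι → Set C) :
    StopSet (Ku M d Rt : (C → ZMod 2) → Finset C) :=
  Stp.biUnion fun i => Sd_stp (d i) (Rt i)

/-- the strands are arcs which are joined to the right cell of `p'` -/
structure Pcs (M : CMap D C) (ν : C → ZMod 2) (p' : D) (d : ι → D) (Rt : ι → Set C) : Prop where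
  occ : cfg M ν p' = 1
  dcc : ∀ i, cfg M ν (d i) = 1
  arc : ∀ i, ∃ e n, IsArc M (cfg M ν) (Rt i) e n ∧ Str M (cfg M ν) (Rt i) (d i) e ∧
    (Con M (cfg M ν) (M.cell (M.rho p')) (M.cell (M.rho e)) ∨
      Con M (cfg M ν) (M.cell (M.rho p')) (M.cell e))

/-- some cell of the face of `k` is in none of the regions -/
def OffR (M : CMap D C) (Rt : ι → Set C) (k : D) : Prop :=
  (∀ i, M.cell k ∉ Rt i) ∨ (∀ i, M.cell (M.rho k) ∉ Rt i) ∨ ∀ i, M.cell (M.rho (M.rho k)) ∉ Rt i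

/-- **giants and `Harm` from the joined strands** -/
theorem pcs_H [Fintype ι] [Nonempty ι] {d : ι → D} {Rt : ι → Set C}
    (hR : ∀ i j c, c ∈ Rt i → c ∈ Rt j → i = j) {p' : (C → ZMod 2) → D} {ρ : C → ZMod 2}
    (H : Pcs M ρ (p' ρ) d Rt) {Q : D → Prop} (hQ : ∀ k, Q k → OffR M Rt k) :
    ∃ (C' : Type) (_ : Fintype C') (π : C → C') (_ : ClsCon M π),
      Ctr π (Ku M d Rt ρ) ρ ∧ (Ku M d Rt ρ).Nonempty ∧
      ((Ku M d Rt ρ).image π).card ≤ 2 * Fintype.card ι ∧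
      ∀ μ ∈ Prs (Ku M d Rt ρ) ρ, Pcs M μ (p' μ) d Rt →
        cfg M μ (p' μ) = 1 ∧ ∀ c', Harm M π (cfg M μ) (p' μ) Q c' := by
  have hx := cfg_isC (M := M) ρ
  choose e n A hs hc using H.arc
  have hsd : ∀ i, Sd M (d i) (Rt i) ρ = wl M (cfg M ρ) (e i) (n i) ∪ wr M (cfg M ρ) (e i) (n i) :=
    fun i => (A i).sd (H.dcc i) (hs i)
  have hreg : ∀ i b c, c ∈ pS M (cfg M ρ) e n (i, b) → c ∈ Rt i := by
    intro i b c hc
    cases b
    · obtain ⟨j, hj, rfl⟩ := mem_wr.1 (show c ∈ wr M (cfg M ρ) (e i) (n i) from hc)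
      exact ((A i).mem j hj).2
    · obtain ⟨j, hj, rfl⟩ := mem_wl.1 (show c ∈ wl M (cfg M ρ) (e i) (n i) from hc)
      exact ((A i).mem j hj).1
  have hE : Finset.univ.biUnion (pS M (cfg M ρ) e n) = Ku M d Rt ρ := by
    ext c
    unfold Ku
    rw [Finset.mem_biUnion, Finset.mem_biUnion]
    constructor
    · rintro ⟨⟨i, b⟩, -, h⟩
      refine ⟨i, Finset.mem_univ i, ?_⟩
      rw [hsd i, Finset.mem_union]
      cases b
      · exact Or.inr h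
      · exact Or.inl h
    · rintro ⟨i, -, h⟩
      rw [hsd i, Finset.mem_union] at h
      rcases h with h | h
      · exact ⟨(i, true), Finset.mem_univ _, h⟩
      · exact ⟨(i, false), Finset.mem_univ _, h⟩
  have hS : ∀ i j c, c ∈ pS M (cfg M ρ) e n i → c ∈ pS M (cfg M ρ) e n j → i = j := by
    rintro ⟨i, b⟩ ⟨j, b'⟩ c h1 h2
    obtain rfl := hR i j c (hreg i b c h1) (hreg j b' c h2)
    have hne : ρ (M.cell (e i)) ≠ ρ (M.cell (e i)) + 1 := ne_one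
    cases b <;> cases b'
    · rfl
    · exact absurd ((wl_col (A i).occ h2).symm.trans (wr_col (A i).occ h1)) hne
    · exact absurd ((wl_col (A i).occ h1).symm.trans (wr_col (A i).occ h2)) hne
    · rfl
  refine giants_pc (p' := p') (ev := fun μ => Pcs M μ (p' μ) d Rt) (fun i => (A i).occ) hE hS
    (fun k hk => ?_) ?_
  · have hn : ∀ c, (∀ i, c ∉ Rt i) → c ∉ Ku M d Rt ρ := by
      intro c h1 h2
      rw [← hE] at h2
      obtain ⟨⟨i, b⟩, -, h3⟩ := Finset.mem_biUnion.1 h2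
      exact h1 i (hreg i b c h3)
    rcases hQ k hk with h | h | h
    · exact Or.inl (hn _ h)
    · exact Or.inr (Or.inl (hn _ h))
    · exact Or.inr (Or.inr (hn _ h))
  · intro μ hμ hv
    refine ⟨hv.occ, fun i => ?_⟩
    obtain ⟨e', n', A', s', c'⟩ := hv.arc i
    have hag : ∀ c ∈ Sd M (d i) (Rt i) ρ, μ c = ρ c := fun c hc =>
      mem_Prs.1 hμ c (Finset.mem_biUnion.2 ⟨i, Finset.mem_univ i, hc⟩)
    have A1 := ((A i).agree (χ' := μ) (by rw [← hsd i]; exact hag)).1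
    have s1 : Str M (cfg M μ) (Rt i) (d i) (e i) := ((str_agree (H.dcc i) hag).2 _).2 (hs i)
    have s2 : Str M (cfg M μ) (Rt i) (e i) e' :=
      str_trans A1.even A1.occ (str_symm A1.even (hv.dcc i) s1) s'
    obtain ⟨rfl, -⟩ := A1.uniq A' s2
    exact c'

variable {p : D} {N T₁ T₂ a₁ a₂ a₃ : ℕ} {S : Set ℕ}

/-- **43's ring gives the joined strands** -/
theorem pcs_of_ring (R : Ring M χ p N T₁ T₂ a₁ a₂ a₃ S) {j : Fin 3} (F : Fl M χ p T₁ T₂ j χ')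
    (J : Jd M χ p T₁ T₂ a₁ a₂ S j χ') {d : ι → D} {Rt : ι → Set C}
    (hd : ∀ i, cfg M χ (d i) = 1)
    (h : ∀ i, ∃ e n, IsArc M (cfg M χ) (Rt i) e n ∧ Str M (cfg M χ) (Rt i) (d i) e ∧
      (OutPc M χ p T₁ T₂ a₁ a₂ a₃ N j e n ∨ InPc M χ p T₁ T₂ S j e n)) :
    Pcs M χ' (P M (cfg M χ) p (ast a₁ a₂ j)) d Rt := by
  have hocc : cfg M χ' (P M (cfg M χ) p (ast a₁ a₂ j)) = 1 := by
    have := (R.oa F (Rv := Set.univ) fun _ _ => Set.mem_univ _).occ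
    exact this
  have key : ∀ i, ∃ e n, IsArc M (cfg M χ') (Rt i) e n ∧ Str M (cfg M χ') (Rt i) (d i) e ∧
      cfg M χ' (d i) = 1 ∧
      (Con M (cfg M χ') (M.cell (M.rho (P M (cfg M χ) p (ast a₁ a₂ j)))) (M.cell (M.rho e)) ∨
      Con M (cfg M χ') (M.cell (M.rho (P M (cfg M χ) p (ast a₁ a₂ j)))) (M.cell e)) := by
    intro i
    obtain ⟨e, n, A, s, hp⟩ := h i
    obtain ⟨⟨h1, h2⟩, h3⟩ := ring_pc R F J hp
    have A' : IsArc M (cfg M χ') (Rt i) e n := by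
      refine isArc_of (cfg_isC χ') h1 (A.mem 0 (Nat.zero_le n)).1 (A.mem 0 (Nat.zero_le n)).2
        (fun j hj => ?_) ?_ A.nfc'
      · rw [h2 j hj.le]; exact A.fc hj
      · rw [h2 n le_rfl]; exact A.nfc
    obtain ⟨t, ht, et⟩ := A.iff0.1 (str_symm A.even (hd i) s)
    have et' : P M (cfg M χ') e t = d i := by rw [h2 t ht]; exact et
    have s' : Str M (cfg M χ') (Rt i) e (d i) := A'.iff0.2 ⟨t, ht, et'⟩
    refine ⟨e, n, A', str_symm A'.even A'.occ s', ?_, h3⟩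
    rw [← et']
    exact P_occ A'.even A'.occ t
  exact ⟨hocc, fun i => by obtain ⟨_, _, _, _, h4, _⟩ := key i; exact h4,
    fun i => by obtain ⟨e, n, A, s, _, h5⟩ := key i; exact ⟨e, n, A, s, h5⟩⟩

end pcs

/-! ### (P) for the closed ring -/

section ring

variable [Fintype D] [Fintype C] {ι : Type} [Fintype ι] [Nonempty ι]

/-- **(P) for the closed ring** -/
theorem ring_root {w : ℂ} (w3 : w ^ 3 = 1) (w1 : w ≠ 1) (wc : (starRingEnd ℂ) w = w ^ 2)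
    {φ : D → ℂ} (hφ : Spin M w φ)
    {O : (C → ZMod 2) → Finset C} {Φ : (C → ZMod 2) → (C → ZMod 2)} (hΦ : FlO O Φ)
    {d : ι → D} {Rt : ι → Set C} (hR : ∀ i j c, c ∈ Rt i → c ∈ Rt j → i = j)
    {T : Finset C} {g go : (C → ZMod 2) → ℝ} (hg0 : ∀ σ, 0 ≤ g σ)
    (hgo : ∀ σ, g σ ≤ go (Φ σ)) (hgT : ∀ σ τ, (∀ s, s ∉ T → τ s = σ s) → go τ = go σ)
    (hKO : ∀ σ, g σ ≠ 0 → Ku M d Rt (Φ σ) ⊆ O σ) (hOT : ∀ σ, g σ ≠ 0 → O σ \ Ku M d Rt (Φ σ) ⊆ T)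
    {p' : (C → ZMod 2) → D}
    (hP : ∀ σ τ, g σ ≠ 0 → Pcs M (Φ (mix O σ τ)) (p' (Φ (mix O σ τ))) d Rt)
    (hφ0 : ∀ k, φ k ≠ 0 → OffR M Rt k)
    {J : (C → ZMod 2) → Prop} {b n : (C → ZMod 2) → ℕ} {Rv : (C → ZMod 2) → Set C}
    {k : (C → ZMod 2) → D}
    (hJ : ∀ μ, J μ → Oa M (cfg M μ) (p' μ) (b μ) (Rv μ) ∧
      Jc M (cfg M μ) (p' μ) (b μ) (Rv μ) (k μ) (n μ)) :
    ∑ σ, wt O g σ * (if J (Φ σ) then
        ‖dpt M (cfg M (Φ σ)) (p' (Φ σ)) (b (Φ σ)) φ (k (Φ σ)) (n (Φ σ))‖ ^ 2 else 0) ≤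
      2 * ((2 : ℝ) ^ (2 * Fintype.card ι) / 8 * (∑ k, ‖φ k‖ ^ 2) * ∑ σ, go σ) +
      2 * ∑ σ, wt O g σ * (if J (Φ σ) then
        ‖∑ h ∈ cset M (P M (cfg M (Φ σ)) (M.rho (k (Φ σ)))) 0 (n (Φ σ)), φ h‖ ^ 2 else 0) := by
  have hself : ∀ σ, mix O σ σ = σ := by
    intro σ
    funext s
    by_cases h : s ∈ O σ
    · rw [mix_on h]
    · rw [mix_off h]
  refine root_flip (M := M) w3 w1 wc hφ hΦ (Ku_stop d Rt) hg0 hgo hgT hKO hOT
    (ev := fun μ => Pcs M μ (p' μ) d Rt) hP (Q := fun k => φ k ≠ 0)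
    (fun k hk => not_not.1 hk) (fun σ hσ => ?_) hJ
  have h1 := hP σ σ hσ
  rw [hself] at h1
  exact pcs_H hR h1 hφ0

/-- **(P) for the closed ring**, weight of the tiles off `T2`, read with the inverted strand of `d₃` -/
theorem ring_root2 {w : ℂ} (w3 : w ^ 3 = 1) (w1 : w ≠ 1) (wc : (starRingEnd ℂ) w = w ^ 2)
    {φ : D → ℂ} (hφ : Spin M w φ)
    {O : (C → ZMod 2) → Finset C} {Φ : (C → ZMod 2) → (C → ZMod 2)} (hΦ : FlO O Φ)
    {d : ι → D} {Rt : ι → Set C} (hR : ∀ i j c, c ∈ Rt i → c ∈ Rt j → i = j)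
    {T T2 : Finset C} (hTT : T ⊆ T2) {g goff : (C → ZMod 2) → ℝ} (hg0 : ∀ σ, 0 ≤ g σ)
    (hgo : ∀ σ, g σ ≤ goff σ) (hgT : ∀ σ τ, (∀ s, s ∉ T2 → τ s = σ s) → goff τ = goff σ)
    {d₃ : D} {R₃ : Set C} (hl : d₃ ∈ M.live) (hd1 : M.cell d₃ ∈ R₃) (hd2 : M.cell (M.rho d₃) ∈ R₃)
    (hTR : ∀ c ∈ T, c ∉ R₃)
    (hfl : ∀ σ, g σ ≠ 0 → ∀ c, c ∉ T2 → fS M d₃ R₃ (Φ σ) c = σ c)
    (hKO : ∀ σ, g σ ≠ 0 → Ku M d Rt (Φ σ) ⊆ O σ) (hOT : ∀ σ, g σ ≠ 0 → O σ \ Ku M d Rt (Φ σ) ⊆ T)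
    {p' : (C → ZMod 2) → D}
    (hP : ∀ σ τ, g σ ≠ 0 → Pcs M (Φ (mix O σ τ)) (p' (Φ (mix O σ τ))) d Rt)
    (hφ0 : ∀ k, φ k ≠ 0 → OffR M Rt k)
    {J : (C → ZMod 2) → Prop} {b n : (C → ZMod 2) → ℕ} {Rv : (C → ZMod 2) → Set C}
    {k : (C → ZMod 2) → D}
    (hJ : ∀ μ, J μ → Oa M (cfg M μ) (p' μ) (b μ) (Rv μ) ∧
      Jc M (cfg M μ) (p' μ) (b μ) (Rv μ) (k μ) (n μ)) :
    ∑ σ, wt O g σ * (if J (Φ σ) then
        ‖dpt M (cfg M (Φ σ)) (p' (Φ σ)) (b (Φ σ)) φ (k (Φ σ)) (n (Φ σ))‖ ^ 2 else 0) ≤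
      2 * ((2 : ℝ) ^ (2 * Fintype.card ι) / 8 * (∑ k, ‖φ k‖ ^ 2) * ∑ σ, goff σ) +
      2 * ∑ σ, wt O g σ * (if J (Φ σ) then
        ‖∑ h ∈ cset M (P M (cfg M (Φ σ)) (M.rho (k (Φ σ)))) 0 (n (Φ σ)), φ h‖ ^ 2 else 0) := by
  have hgoff0 : ∀ σ, 0 ≤ goff σ := fun σ => (hg0 σ).trans (hgo σ)
  rw [← sum_fS (M := M) d₃ R₃ goff]
  refine ring_root (M := M) w3 w1 wc hφ hΦ hR (go := fun ν => goff (fS M d₃ R₃ ν)) hg0 (fun σ => ?_)
    (go_blind hl hd1 hd2 hTR hTT hgT) hKO hOT hP hφ0 hJ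
  by_cases h0 : g σ = 0
  · rw [h0]; exact hgoff0 _
  · rw [hgT σ _ (hfl σ h0)]
    exact hgo σ

/-- the value of a joined chord is one block of the loop -/
theorem cv_le {x : D → ZMod 2} {p₀ : D} {b : ℕ} {Rv : Set C} (O : Oa M x p₀ b Rv) {k : D} {n : ℕ}
    (J : Jc M x p₀ b Rv k n) (φ : D → ℂ) :
    ‖cv M x p₀ b φ k n‖ ^ 2 ≤ ∑ β ∈ onL M x p₀, ‖∑ h ∈ β, φ h‖ ^ 2 := by
  have h1 : cv M x p₀ b φ k n = ∑ h ∈ blk M x k, φ h := (J.sum O φ).symm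
  rw [h1]
  exact Finset.single_le_sum (f := fun β => ‖∑ h ∈ β, φ h‖ ^ 2) (fun _ _ => by positivity)
    (blk_onL O J)

/-- **(P) for the closed ring, the loop blocks** -/
theorem ring_onL {w : ℂ} (w3 : w ^ 3 = 1) (w1 : w ≠ 1) (wc : (starRingEnd ℂ) w = w ^ 2)
    {φ : D → ℂ} (hφ : Spin M w φ)
    {O : (C → ZMod 2) → Finset C} {Φ : (C → ZMod 2) → (C → ZMod 2)} (hΦ : FlO O Φ)
    {d : ι → D} {Rt : ι → Set C} (hR : ∀ i j c, c ∈ Rt i → c ∈ Rt j → i = j)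
    {T : Finset C} {g go : (C → ZMod 2) → ℝ} (hg0 : ∀ σ, 0 ≤ g σ)
    (hgo : ∀ σ, g σ ≤ go (Φ σ)) (hgT : ∀ σ τ, (∀ s, s ∉ T → τ s = σ s) → go τ = go σ)
    (hKO : ∀ σ, g σ ≠ 0 → Ku M d Rt (Φ σ) ⊆ O σ) (hOT : ∀ σ, g σ ≠ 0 → O σ \ Ku M d Rt (Φ σ) ⊆ T)
    {p' : (C → ZMod 2) → D}
    (hP : ∀ σ τ, g σ ≠ 0 → Pcs M (Φ (mix O σ τ)) (p' (Φ (mix O σ τ))) d Rt)
    (hφ0 : ∀ k, φ k ≠ 0 → OffR M Rt k) :
    ∑ σ, wt O g σ * ∑ β ∈ onL M (cfg M (Φ σ)) (p' (Φ σ)), ‖∑ h ∈ β, φ h‖ ^ 2 ≤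
      (2 : ℝ) ^ (2 * Fintype.card ι) / 8 * (∑ k, ‖φ k‖ ^ 2) * ∑ σ, go σ := by
  have hself : ∀ σ, mix O σ σ = σ := by
    intro σ
    funext s
    by_cases h : s ∈ O σ
    · rw [mix_on h]
    · rw [mix_off h]
  refine rel_flip (M := M) w3 w1 wc hφ hΦ (Ku_stop d Rt) hg0 hgo hgT hKO hOT
    (Y := fun μ => ∑ β ∈ onL M (cfg M μ) (p' μ), ‖∑ h ∈ β, φ h‖ ^ 2)
    (fun μ => Finset.sum_nonneg fun _ _ => by positivity)
    (ev := fun μ => Pcs M μ (p' μ) d Rt) hP fun σ hσ => ?_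
  have h1 := hP σ σ hσ
  rw [hself] at h1
  obtain ⟨C', i', π, hπ, c1, c2, c3, c4⟩ := pcs_H hR h1 (Q := fun k => φ k ≠ 0) hφ0
  refine ⟨C', i', π, hπ, c1, c2, c3, fun μ hμ hv => ?_⟩
  obtain ⟨h5, h6⟩ := c4 μ hμ hv
  exact onL_le (hπ := hπ) (c1.isC hπ hμ) h5 (fun k hk => not_not.1 hk) h6

/-- **(P) for the closed ring, value of the root chord**; any functional `q` which is bounded by the
loop blocks -/
theorem ring_cv2 {w : ℂ} (w3 : w ^ 3 = 1) (w1 : w ≠ 1) (wc : (starRingEnd ℂ) w = w ^ 2)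
    {φ : D → ℂ} (hφ : Spin M w φ)
    {O : (C → ZMod 2) → Finset C} {Φ : (C → ZMod 2) → (C → ZMod 2)} (hΦ : FlO O Φ)
    {d : ι → D} {Rt : ι → Set C} (hR : ∀ i j c, c ∈ Rt i → c ∈ Rt j → i = j)
    {T T2 : Finset C} (hTT : T ⊆ T2) {g goff : (C → ZMod 2) → ℝ} (hg0 : ∀ σ, 0 ≤ g σ)
    (hgo : ∀ σ, g σ ≤ goff σ) (hgT : ∀ σ τ, (∀ s, s ∉ T2 → τ s = σ s) → goff τ = goff σ)
    {d₃ : D} {R₃ : Set C} (hl : d₃ ∈ M.live) (hd1 : M.cell d₃ ∈ R₃) (hd2 : M.cell (M.rho d₃) ∈ R₃)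
    (hTR : ∀ c ∈ T, c ∉ R₃)
    (hfl : ∀ σ, g σ ≠ 0 → ∀ c, c ∉ T2 → fS M d₃ R₃ (Φ σ) c = σ c)
    (hKO : ∀ σ, g σ ≠ 0 → Ku M d Rt (Φ σ) ⊆ O σ) (hOT : ∀ σ, g σ ≠ 0 → O σ \ Ku M d Rt (Φ σ) ⊆ T)
    {p' : (C → ZMod 2) → D}
    (hP : ∀ σ τ, g σ ≠ 0 → Pcs M (Φ (mix O σ τ)) (p' (Φ (mix O σ τ))) d Rt)
    (hφ0 : ∀ k, φ k ≠ 0 → OffR M Rt k) {F : (C → ZMod 2) → (C → ZMod 2) → ℝ}
    (hF : ∀ σ τ, g σ ≠ 0 → F σ τ ≤ ∑ β ∈ onL M (cfg M (Φ (mix O σ τ))) (p' (Φ (mix O σ τ))),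
      ‖∑ h ∈ β, φ h‖ ^ 2) :
    ∑ σ, ∑ τ, g σ * F σ τ ≤ (2 : ℝ) ^ Fintype.card C *
      ((2 : ℝ) ^ (2 * Fintype.card ι) / 8 * (∑ k, ‖φ k‖ ^ 2) * ∑ σ, goff σ) := by
  have hgoff0 : ∀ σ, 0 ≤ goff σ := fun σ => (hg0 σ).trans (hgo σ)
  have h1 := ring_onL (M := M) w3 w1 wc hφ hΦ hR (go := fun ν => goff (fS M d₃ R₃ ν)) hg0
    (fun σ => by
      by_cases h0 : g σ = 0
      · rw [h0]; exact hgoff0 _
      · rw [hgT σ _ (hfl σ h0)]
        exact hgo σ) (go_blind hl hd1 hd2 hTR hTT hgT) hKO hOT hP hφ0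
  rw [sum_fS (M := M) d₃ R₃ goff] at h1
  have h2 : ((Fintype.card (ZMod 2) ^ Fintype.card C : ℕ) : ℝ) = (2 : ℝ) ^ Fintype.card C := by
    rw [ZMod.card]
    push_cast
    rfl
  have h3 := mul_le_mul_of_nonneg_left h1 (by positivity : (0 : ℝ) ≤ (2 : ℝ) ^ Fintype.card C)
  rw [sum_wt_gen hΦ.stop, h2, mul_div_cancel₀ _ (by positivity)] at h3
  refine le_trans ?_ h3
  refine Finset.sum_le_sum fun σ _ => Finset.sum_le_sum fun τ _ => ?_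
  by_cases h : g σ = 0
  · rw [h, zero_mul, zero_mul]
  · exact mul_le_mul_of_nonneg_left (hF σ τ h) (hg0 σ)

end ring

/-- **sum over the neck darts `δ` of the kept gates**: exactly one where `g ≠ 0`, at most one where
`goff ≠ 0` -/
theorem sum_kept {Ω Ω' : Type*} [Fintype Ω] [Fintype Ω'] {Δ : Type*} (D : Finset Δ)
    {ind : Δ → Ω → ℝ} {g goff : Ω → ℝ} (hg : ∀ σ, 0 ≤ g σ)
    (hgo : ∀ σ, 0 ≤ goff σ) {F : Ω → Ω' → ℝ} (hF : ∀ σ τ, g σ ≠ 0 → 0 ≤ F σ τ) {K : ℝ}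
    (hK : 0 ≤ K)
    (h : ∀ δ ∈ D, ∑ σ, ∑ τ, (g σ * ind δ σ) * F σ τ ≤ K * ∑ σ, goff σ * ind δ σ)
    (hex : ∀ σ, g σ ≠ 0 → 1 ≤ ∑ δ ∈ D, ind δ σ) (hu : ∀ σ, goff σ ≠ 0 → ∑ δ ∈ D, ind δ σ ≤ 1) :
    ∑ σ, ∑ τ, g σ * F σ τ ≤ K * ∑ σ, goff σ := by
  have h1 : ∑ σ, ∑ τ, g σ * F σ τ ≤ ∑ δ ∈ D, ∑ σ, ∑ τ, (g σ * ind δ σ) * F σ τ := by
    have e0 : ∑ δ ∈ D, ∑ σ, ∑ τ, (g σ * ind δ σ) * F σ τ =
        ∑ σ, ∑ τ, ∑ δ ∈ D, (g σ * ind δ σ) * F σ τ := by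
      rw [Finset.sum_comm]
      exact Finset.sum_congr rfl fun σ _ => Finset.sum_comm
    rw [e0]
    refine Finset.sum_le_sum fun σ _ => Finset.sum_le_sum fun τ _ => ?_
    by_cases h0 : g σ = 0
    · simp [h0]
    · have e : ∑ δ ∈ D, g σ * ind δ σ * F σ τ = (g σ * F σ τ) * ∑ δ ∈ D, ind δ σ := by
        rw [Finset.mul_sum]
        exact Finset.sum_congr rfl fun δ _ => by ring
      rw [e]
      have h2 : 0 ≤ g σ * F σ τ := mul_nonneg (hg σ) (hF σ τ h0)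
      nlinarith [hex σ h0]
  have h3 : ∑ δ ∈ D, ∑ σ, ∑ τ, (g σ * ind δ σ) * F σ τ ≤
      ∑ δ ∈ D, K * ∑ σ, goff σ * ind δ σ := Finset.sum_le_sum h
  refine (h1.trans h3).trans ?_
  rw [← Finset.mul_sum, Finset.sum_comm]
  refine mul_le_mul_of_nonneg_left (Finset.sum_le_sum fun σ _ => ?_) hK
  rw [← Finset.mul_sum]
  by_cases h0 : goff σ = 0
  · rw [h0, zero_mul]
  · have := hu σ h0
    nlinarith [hgo σ]

end Crest.Agent.R143.RingFx820
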