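import Crest.Agent.R143.RingI1_503

/-!
# Row 143 (S0194), block H: 117's ring in the direction of the walk (helper503)

* **`Clo.dringF`** : `DRing` for the reversed enumeration (gate `k` = gate `o - k`, tile `k` = tile
  `o - 1 - k`); `Clo.fwd` : all arcs are forward
-/

set_option autoImplicit false

noncomputable section

open scoped Classical

namespace Crest.Agent.R143.RingIx503

open Set
open Crest.Agent.R143.B0x346 Crest.Agent.R143.DelGx806 Crest.Agent.R143.DelRx806
open Crest.Agent.R143.Frame1x395 Crest.Agent.R143.Frame2x395 Crest.Agent.R143.Frame3x395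
  Crest.Agent.R143.Frame8x395 Crest.Agent.R143.Frame10x395 Crest.Agent.R143.Frame11x395
open Crest.Agent.R143.Frame5x395 (sd mem_sd th th_spec)
open Crest.Agent.R143.Splx117 (FA Ring rtg_symm)
open Crest.Agent.R143.WLocx713 Crest.Agent.R143.RingDx117 Crest.Agent.R143.CorrDx117
open Crest.Agent.R143.Circx63
open Crest.Agent.R143.Gatex838 (X Y)
open Crest.Agent.R143.TileRx228 Crest.Agent.R143.PathDx503 Crest.Agent.R143.PathGx503
open Crest.Agent.R143.ConfTx503 Crest.Agent.R143.RingPx503 Crest.Agent.R143.CorPx503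
open Crest.Agent.R143.Neckx921 Crest.Agent.R143.OrientFx881

variable {S V β : Finset ℂ} {χ : ℂ → ZMod 2} {h A B A' B' m m' τ κ bb : ℝ} {a0 a1 b0 b1 : ℝ}
  {M : ℕ} {W : ℤ → ℤ × ℤ} {y x : ℤ → ℂ} {U : Set ℂ}

namespace Clo

variable (H : Clo S V β χ h A B A' B' κ bb a0 a1 b0 b1 m m' τ M W y x U)

include H in
theorem rr_per' (a : ℤ) : RR A B h W (a + M) = RR A B h W a := by
  unfold RR cen
  rw [H.F.per, show a + (M : ℤ) - 1 = a - 1 + M by ring, H.F.per,
    show a + (M : ℤ) + 1 = a + 1 + M by ring, H.F.per]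

/-- **117's ring, all arcs forward** -/
theorem dringF (hS : GP (S : Set ℂ)) (hχ : HullC S χ) (o : ℤ) :
    DRing hS hχ M (fun k : ℕ => y (o - k)) (fun k : ℕ => x (o - k))
      (fun k : ℕ => RR A B h W (o - 1 - k)) (fun k : ℕ => RR (A + τ) (B + τ) h W (o - 1 - k))
      (fun k : ℕ => pz hχ H (o - k)) where
  n3 := by have := H.M5; omega
  pery := fun k => by
    show y (o - ((k + M : ℕ) : ℤ)) = y (o - k)
    rw [← H.pery (o - ((k + M : ℕ) : ℤ))]
    congr 1
    push_cast
    ring
  perz := fun k => by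
    show x (o - ((k + M : ℕ) : ℤ)) = x (o - k)
    rw [← H.perx (o - ((k + M : ℕ) : ℤ))]
    congr 1
    push_cast
    ring
  perA := fun k => by
    show RR A B h W (o - 1 - ((k + M : ℕ) : ℤ)) = _
    rw [← H.rr_per' (o - 1 - ((k + M : ℕ) : ℤ)), show o - 1 - ((k + M : ℕ) : ℤ) + M = o - 1 - k by
      push_cast; ring]
  perB := fun k => by
    show RR (A + τ) (B + τ) h W (o - 1 - ((k + M : ℕ) : ℤ)) = _
    rw [← H.rr_per (o - 1 - ((k + M : ℕ) : ℤ)), show o - 1 - ((k + M : ℕ) : ℤ) + M = o - 1 - k by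
      push_cast; ring]
  st := fun k => rfl
  col := fun k => by
    show χ (y _) + χ (x _) = 1
    rw [H.cy, H.cx, add_zero]
  innA := fun k => by
    have h1 := (H.dring hS hχ (o - 1 - k)).innA 0
    simpa using h1
  innB := fun k => by
    have h1 := (H.dring hS hχ (o - 1 - k)).innB 0
    simpa using h1
  link := fun k => by
    have h1 := (H.dring hS hχ (o - 1 - k)).link 0
    simp only [Nat.cast_zero, add_zero, Nat.zero_add, Nat.cast_one] at h1
    rw [show o - 1 - (k : ℤ) + 1 = o - k by ring] at h1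
    have h2 := rtg_symm (fun _ _ h => h.symm) h1
    show Relation.ReflTransGen (StC S χ (RR A B h W (o - 1 - k))) (y (o - k))
      (y (o - ((k + 1 : ℕ) : ℤ)))
    rw [show o - ((k + 1 : ℕ) : ℤ) = o - 1 - k by push_cast; ring]
    exact h2
  mem0 := fun k => by
    have h1 := (H.dring hS hχ (o - 1 - k)).mem1 0
    simp only [Nat.cast_zero, add_zero, Nat.zero_add, Nat.cast_one] at h1
    rwa [show o - 1 - (k : ℤ) + 1 = o - k by ring] at h1
  mem1 := fun k => by
    have h1 := (H.dring hS hχ (o - 1 - k)).mem0 0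
    simp only [Nat.cast_zero, add_zero] at h1
    show y (o - ((k + 1 : ℕ) : ℤ)) ∈ RR A B h W (o - 1 - k)
    rwa [show o - ((k + 1 : ℕ) : ℤ) = o - 1 - k by push_cast; ring]
  ne := fun k => by
    have h1 := (H.dring hS hχ (o - 1 - k)).ne 0
    simp only [Nat.cast_zero, add_zero, Nat.zero_add, Nat.cast_one] at h1
    rw [show o - 1 - (k : ℤ) + 1 = o - k by ring] at h1
    show y (o - k) ≠ y (o - ((k + 1 : ℕ) : ℤ))
    rw [show o - ((k + 1 : ℕ) : ℤ) = o - 1 - k by push_cast; ring]
    exact h1.symm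
  dis := fun k j h1 h2 => by
    have N := H.N
    have m0 := N.m0
    have mt := N.mτ
    have hA0 : 0 < A' := by have := N.A0; have := N.hA2; linarith
    show Disjoint (RR A B h W (o - 1 - k)) (RR A B h W (o - 1 - ((k + j : ℕ) : ℤ)))
    refine dsj_mono (by linarith [N.hA2]) (by linarith [N.hB2])
      (dsj_of H.F hA0 N.hAB N.hh) _ _ ?_ ?_ ?_
    · exact not_dvd_of (by push_cast; omega) (by push_cast; omega) (by push_cast; omega)
    · exact not_dvd_of (by push_cast; omega) (by push_cast; omega) (by push_cast; omega)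
    · exact not_dvd_of (by push_cast; omega) (by push_cast; omega) (by push_cast; omega)
  far := fun k j h1 h2 hm => by
    have h3 := (H.dring hS hχ (o - 1 - k)).far 0 (M + 1 - j) (by omega) (by omega)
    apply h3
    have e1 : o - 1 - k + ((0 + (M + 1 - j) : ℕ) : ℤ) = o - ((k + j : ℕ) : ℤ) + M := by
      rw [zero_add, Nat.cast_sub (by omega)]
      push_cast
      ring
    show y (o - 1 - k + ((0 + (M + 1 - j) : ℕ) : ℤ)) ∈ RR (A + τ) (B + τ) h W (o - 1 - k + ((0 : ℕ) : ℤ))
    rw [e1, H.pery, Nat.cast_zero, add_zero]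
    exact hm
  cross := fun k hc => by
    apply (H.dring hS hχ (o - 2 - k)).cross 0
    have e1 : o - 2 - (k : ℤ) + ((0 + 1 : ℕ) : ℤ) = o - 1 - k := by push_cast; ring
    have e2 : o - 2 - (k : ℤ) + ((0 + 2 : ℕ) : ℤ) = o - k := by push_cast; ring
    have e0 : o - 2 - (k : ℤ) + ((0 : ℕ) : ℤ) = o - 2 - k := by push_cast; ring
    simp only [e0, e1, e2]
    have f1 : o - ((k + 1 : ℕ) : ℤ) = o - 1 - k := by push_cast; ring
    have f2 : o - ((k + 2 : ℕ) : ℤ) = o - 2 - k := by push_cast; ring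
    have f3 : o - 1 - ((k + 1 : ℕ) : ℤ) = o - 2 - k := by push_cast; ring
    simp only [f1, f2, f3] at hc
    rw [Set.union_comm]
    exact rtg_symm (fun _ _ h => h.symm) hc
  conf := fun k => by
    left
    have h1 := H.back hS hχ (o - 1 - k)
    rw [show o - 1 - (k : ℤ) + 1 = o - k by ring] at h1
    show FA _ _ (RD S (RR (A + τ) (B + τ) h W (o - 1 - k))) (pz hχ H (o - k))
      (pz hχ H (o - ((k + 1 : ℕ) : ℤ)))
    rw [show o - ((k + 1 : ℕ) : ℤ) = o - 1 - k by push_cast; ring]
    exact h1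

/-- **all arcs are forward** -/
theorem fwd (hS : GP (S : Set ℂ)) (hχ : HullC S χ) (o : ℤ) (k : ℕ) :
    FA (cm0 hS) (xc hS hχ) (RD S (RR (A + τ) (B + τ) h W (o - 1 - k))) (pz hχ H (o - k))
      (pz hχ H (o - ((k + 1 : ℕ) : ℤ))) := by
  have h1 := H.back hS hχ (o - 1 - k)
  rw [show o - 1 - (k : ℤ) + 1 = o - k by ring] at h1
  rw [show o - ((k + 1 : ℕ) : ℤ) = o - 1 - k by push_cast; ring]
  exact h1

end Clo

end Crest.Agent.R143.RingIx503
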