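import Crest.Agent.R143.Chord2_355

/-!
# Row 143 (S0194), block H, box R6H (helper820): the closed ring is a block

`p` an occupied dart whose loop has the period `N` (`Lp M x p N`), `c = lc M x p` the left cells,
`gt M x p (N - 1)` the last gap (base gap).  In the CLOSED ring the gaps of the outer arc which are
not in a lobe (`NO c N a`) are exactly the block of the base gap, so the (spatial) charges of 355's
potential are block sums of the real plane configuration:
* `ring_rel`  : `Rel M x (gt p a) (gt p (N-1)) ↔ NO c N a`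
* `ring_mem`  : `gt M x p a ∈ blk M x (gt M x p (N-1)) ↔ Gp ∧ NO c N a`
* `ring_sum`  : `∑_{blk} φ = Fo M x p N φ N`
* `ring_le`   : `‖Fo M x p N φ N‖² ≤ ∑_{β ∈ B} ‖∑_β φ‖²` for every family `B ∋` the block
* `fo_diff`   : the potential difference between two times is the charge of the field between them
* `fo_supp`   : a field supported (on the `NO` gaps) between the times `i ≤ j` :
  `Fo .. φ j - Fo .. φ i = Fo .. φ N`
* `pot_diff`  : the same for `pot` at two cells
* `no_of_arc` : `NO c b a → NO c N a` if no cell of `[0, a]` is seen again in `[b, N)`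
-/

set_option autoImplicit false

noncomputable section

open scoped Classical

namespace Crest.Agent.R143.RingKx820

open Crest.Agent.R143.Frame1x395 Crest.Agent.R143.Frame2x395 Crest.Agent.R143.Frame3x395
  Crest.Agent.R143.Frame8x395 Crest.Agent.R143.Frame11x395 Crest.Agent.R143.NonXx592
  Crest.Agent.R143.Chordx355 Crest.Agent.R143.ChordCx357 Crest.Agent.R143.Chord2x355

variable {D C : Type} {M : CMap D C} {x : D → ZMod 2} {p : D} {N : ℕ}

/-- the last position is never in a lobe -/
theorem no_last (c : ℕ → C) (N : ℕ) : NO c N (N - 1) := by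
  intro u h1 h2
  omega

/-- **the gaps of the closed ring which are not in a lobe are the block of the base gap** -/
theorem ring_rel [Fintype D] (L : Lp M x p N) {a : ℕ} (ha : a < N)
    (hg : Gp M x (gt M x p a)) (h0 : Gp M x (gt M x p (N - 1))) :
    Rel M x (gt M x p a) (gt M x p (N - 1)) ↔ NO (lc M x p) N a := by
  rcases Nat.lt_or_ge a (N - 1) with h1 | h1
  · rw [L.rel h1 (by omega) hg h0 (rho_gt p a) (rho_gt p (N - 1))]
    constructor
    · intro H u hu1 hu2 v hv
      exact H u hu1 (by omega) v (by omega) (Or.inl hv)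
    · intro H u hu1 hu2 v hv1 hv2
      rcases hv2 with hv2 | hv2
      · exact H u hu1 (by omega) v hv2
      · omega
  · have e : a = N - 1 := by omega
    rw [e]
    exact ⟨fun _ => no_last _ _, fun _ => rel_refl _⟩

/-- membership in the block of the base gap -/
theorem ring_mem [Fintype D] (L : Lp M x p N) {a : ℕ} (ha : a < N)
    (h0 : Gp M x (gt M x p (N - 1))) :
    gt M x p a ∈ blk M x (gt M x p (N - 1)) ↔ Gp M x (gt M x p a) ∧ NO (lc M x p) N a := by
  rw [mem_blk]
  constructor
  · rintro ⟨h1, h2⟩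
    exact ⟨h1, (ring_rel L ha h1 h0).1 (rel_symm h2)⟩
  · rintro ⟨h1, h2⟩
    exact ⟨h1, rel_symm ((ring_rel L ha h1 h0).2 h2)⟩

/-- **the block sum of the closed ring is the total charge of the outer arc** -/
theorem ring_sum [Fintype D] (L : Lp M x p N) (h0 : Gp M x (gt M x p (N - 1)))
    {A : Type*} [AddCommMonoid A] (φ : D → A) :
    ∑ h ∈ blk M x (gt M x p (N - 1)), φ h = Fo M x p N φ N := by
  rw [L.sum h0 (rho_gt p (N - 1)) φ]
  unfold Fo
  refine Finset.sum_congr rfl fun a ha => ?_
  have ha' := Finset.mem_range.1 ha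
  unfold vl
  by_cases h1 : Gp M x (gt M x p a)
  · have e : Rel M x (gt M x p (N - 1)) (gt M x p a) ↔ NO (lc M x p) N a :=
      ⟨fun h => (ring_rel L ha' h1 h0).1 (rel_symm h),
        fun h => rel_symm ((ring_rel L ha' h1 h0).2 h)⟩
    by_cases h2 : NO (lc M x p) N a
    · rw [if_pos ⟨h1, e.2 h2⟩, if_pos h2, if_pos h1]
    · rw [if_neg fun h => h2 (e.1 h.2), if_neg h2]
  · rw [if_neg fun h => h1 h.1, if_neg h1]
    simp

/-- **the charge of the closed ring is one term of the sum over the blocks** -/
theorem ring_le [Fintype D] (L : Lp M x p N) (h0 : Gp M x (gt M x p (N - 1)))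
    {E : Type*} [SeminormedAddCommGroup E] (φ : D → E) {B : Finset (Finset D)}
    (hB : blk M x (gt M x p (N - 1)) ∈ B) :
    ‖Fo M x p N φ N‖ ^ 2 ≤ ∑ β ∈ B, ‖∑ h ∈ β, φ h‖ ^ 2 := by
  rw [← ring_sum L h0 φ]
  exact Finset.single_le_sum (f := fun β => ‖∑ h ∈ β, φ h‖ ^ 2) (fun _ _ => by positivity) hB

/-- difference of the potential between two times -/
theorem fo_diff {A : Type*} [AddCommGroup A] (φ : D → A) (b : ℕ) {i j : ℕ} (hij : i ≤ j) :
    Fo M x p b φ j - Fo M x p b φ i =
      ∑ a ∈ Finset.Ico i j, if NO (lc M x p) b a then vl M x p φ a else 0 := by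
  unfold Fo
  rw [Finset.sum_Ico_eq_sub _ hij]

/-- a field supported between two times -/
theorem fo_supp {A : Type*} [AddCommGroup A] (φ : D → A) {b i j n : ℕ} (hij : i ≤ j) (hj : j ≤ n)
    (hs : ∀ a, a < n → (a < i ∨ j ≤ a) → NO (lc M x p) b a → vl M x p φ a = 0) :
    Fo M x p b φ j - Fo M x p b φ i = Fo M x p b φ n := by
  rw [fo_diff φ b hij]
  unfold Fo
  refine Finset.sum_subset ?_ ?_
  · intro a ha
    have := Finset.mem_Ico.1 ha
    exact Finset.mem_range.2 (by omega)
  · intro a h1 h2
    have h1' := Finset.mem_range.1 h1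
    by_cases h : NO (lc M x p) b a
    · rw [if_pos h]
      refine hs a h1' ?_ h
      by_contra hc
      push Not at hc
      exact h2 (Finset.mem_Ico.2 ⟨hc.1, hc.2⟩)
    · rw [if_neg h]

/-- the potential difference of two cells, field supported between them -/
theorem pot_diff {A : Type*} [AddCommGroup A] (φ : D → A) {b i j : ℕ} (hij : i ≤ j) (hj : j < b)
    {c c' : C} (hc : lc M x p i = c) (hc' : lc M x p j = c')
    (hs : ∀ a, a < b → (a < i ∨ j ≤ a) → NO (lc M x p) b a → vl M x p φ a = 0) :
    pot M x p b φ c' - pot M x p b φ c = Fo M x p b φ b := by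
  rw [pot_eq φ hj hc', pot_eq φ (by omega) hc]
  exact fo_supp φ hij hj.le hs

/-- gaps of an arc which are not in a lobe of the whole loop -/
theorem no_of_arc {c : ℕ → C} {b a : ℕ} (h : NO c b a)
    (hs : ∀ u, b ≤ u → u < N → ∀ v, v ≤ a → c u ≠ c v) : NO c N a := by
  intro u h1 h2 v hv
  rcases Nat.lt_or_ge u b with h3 | h3
  · exact h u h1 h3 v hv
  · exact hs u h3 h2 v hv

theorem no_arc {c : ℕ → C} {b a : ℕ} (hb : b ≤ N) (h : NO c N a) : NO c b a :=
  fun u h1 h2 v hv => h u h1 (by omega) v hv

/-- the charge of an arc of the closed ring, field whose gaps see no cell again after the arc -/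
theorem arc_charge {A : Type*} [AddCommMonoid A] (φ : D → A) {b : ℕ} (hb : b ≤ N)
    (hz : ∀ a, b ≤ a → a < N → vl M x p φ a = 0)
    (hs : ∀ a, a < b → vl M x p φ a ≠ 0 → ∀ u, b ≤ u → u < N → ∀ v, v ≤ a →
      lc M x p u ≠ lc M x p v) : Fo M x p b φ b = Fo M x p N φ N := by
  unfold Fo
  symm
  rw [← Finset.sum_subset (Finset.range_subset_range.2 hb)]
  · refine Finset.sum_congr rfl fun a ha => ?_
    have ha' := Finset.mem_range.1 ha
    by_cases h0 : vl M x p φ a = 0
    · rw [h0]; simp
    · by_cases h : NO (lc M x p) b a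
      · rw [if_pos (no_of_arc h (hs a ha' h0)), if_pos h]
      · rw [if_neg fun h' => h (no_arc hb h'), if_neg h]
  · intro a h1 h2
    have h1' := Finset.mem_range.1 h1
    rw [hz a (by by_contra hc; exact h2 (Finset.mem_range.2 (by omega))) h1']
    simp

end Crest.Agent.R143.RingKx820
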