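import Crest.Agent.R143.SpR2_169
import Crest.Agent.R143.TplI_204
import Crest.Agent.R143.PthG_765

/-!
# Row 143 (S0194), CORE-C, box R6: the spatial charge of a tile as a function of the configuration
(helper169)

Path `P : FPath M W`, template data `D` (204's `DT`), field `f` on triangles.

* `gt D P a`, `St D P a` : the gate `a` and its selected dart
* `AC D P r f a` : charge of the arc of the tile `a`; `reg3 D W a` : the tiles `a, a + 1, a + 2`
* **`VT D P r f a X`** : spatial charge of the tile `a + 1`: the sum of the arcs `a, a + 1, a + 2` with the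
  field `f 1_{centre in Rg (a + 1)}`, evaluated on `X ∩ ovr reg3`; defined for every configuration
* `VT_fm`, `VT_local` : measurability and locality (765's window of three tiles)
* `cen3_mo`, **`VT_mv`** : covariance; **`VT_cov`** : in the frames
* **`VX_VT`** : 832's `VX` is `VT` on dense configurations
-/

set_option autoImplicit false
set_option linter.all false

noncomputable section

open scoped Classical

namespace Crest.Agent.R143.SpVx169

open Set MeasureTheory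
open Crest.ProbabilityR.Voronoi
open Crest.Agent.R143.B0x346 Crest.Agent.R143.DelGx806 Crest.Agent.R143.DelRx806
  Crest.Agent.R143.JColx54
open Crest.Agent.R143.Frame10x395
open Crest.Agent.R143.Locx922
open Crest.Agent.R143.Gatex838 (X Y)
open Crest.Agent.R143.PP0x831 Crest.Agent.R143.Poisx304 Crest.Agent.R143.Janx304
open Crest.Agent.R143.Prodx609 Crest.Agent.R143.FinMx609 Crest.Agent.R143.FinM2x609
open Crest.Agent.R143.CovBx126 (Mo)
open Crest.Agent.R143.WLocx713 Crest.Agent.R143.PWx978 Crest.Agent.R143.Tplx978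
open Crest.Agent.R143.TileRx228 Crest.Agent.R143.PthFx765 Crest.Agent.R143.TplIx204
open Crest.Agent.R143.SpRx169 Crest.Agent.R143.Sptx832 Crest.Agent.R143.Sptx169
open scoped ENNReal

/-! ### restriction of a measurable functional -/

theorem ind1_iff {Y : Type*} {F : Cf → Y} {s : Set Y} {X : Cf} :
    ind (F X ∈ s) ≠ 0 ↔ F X ∈ s := ind_ne

/-- restriction to a Borel set keeps `FinMeas`, any values -/
theorem fm_cut {Y : Type*} [MeasurableSpace Y] {F : Cf → Y} (hF : FinMeas F) {D : Set ℂ}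
    (hD : MeasurableSet D) : FinMeas fun X => F (X ∩ ovr D) := by
  intro n s hs
  have h0 : FinMeas fun X : Cf => F X ∈ s := fun m => measurableSet_setOfPred.1 (hF m hs)
  exact measurableSet_setOfPred.2 (fm_interP h0 hD n)

theorem fm_sum {ι : Type*} (s : Finset ι) {F : ι → Cf → ℂ} (h : ∀ i ∈ s, FinMeas (F i)) :
    FinMeas fun X => ∑ i ∈ s, F i X := fun n =>
  Finset.measurable_sum s fun i hi => h i hi n

/-! ### the circumcentre -/

theorem cr_mo {c : ℂ} (hc : ‖c‖ = 1) (x y : ℂ) : cr (c * x) (c * y) = cr x y := by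
  have h : c.re * c.re + c.im * c.im = 1 := by
    have := Complex.normSq_apply c
    rw [Complex.normSq_eq_norm_sq, hc] at this
    linarith
  unfold cr
  simp only [Complex.mul_re, Complex.mul_im]
  linear_combination (x.re * y.im - x.im * y.re) * h

/-- **the circumcentre moves with the triangle** (all triples) -/
theorem cen3_mo {φ : ℂ ≃ ℂ} {c : ℂ} (h : Mo φ c) (t : ℂ × ℂ × ℂ) :
    cen3 (φ t.1, φ t.2.1, φ t.2.2) = φ (cen3 t) := by
  have e : ∀ z w, φ z = φ w + c * (z - w) := fun z w => by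
    rw [← h.sub]
    ring
  rw [e (cen3 t) t.1]
  unfold cen3
  simp only
  rw [h.sub, h.sub, norm_mul, norm_mul, h.ne, one_mul, one_mul, cr_mo h.ne]
  ring

/-! ### gates and arcs of a path -/

variable {M : ℕ} {W : ℤ → ℤ × ℤ} (D : DT) (P : FPath M W) (r : ℝ)

/-- the gate `a` -/
def gt (a : ℤ) : GPar := D.g.mv (frm P D.h a).e (ge W a)

/-- the box of the gate `a` -/
def Gb (W : ℤ → ℤ × ℤ) (a : ℤ) : Set ℂ := GB D.A' D.B' D.h W a

/-- the selected dart of the gate `a` -/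
def St (a : ℤ) : Cf → ℂ × ℂ → Prop := LG (gt D P a) (Gb D W a)

/-- charge of the arc of the tile `a` -/
def AC (f : ℂ × ℂ × ℂ → ℂ) (a : ℤ) (X : Cf) : ℂ :=
  zC f (RR (D.A + r) (D.B + r) D.h W a) (St D P a) (St D P (a + 1)) X

/-- the three tiles `a, a + 1, a + 2` -/
def reg3 (W : ℤ → ℤ × ℤ) (a : ℤ) : Set ℂ :=
  ⋃ j ∈ Finset.range 3, RR D.A' D.B' D.h W (a + (j : ℤ))

/-- **spatial charge of the tile `a + 1`** -/
def VT (f : ℂ × ℂ × ℂ → ℂ) (a : ℤ) (X : Cf) : ℂ :=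
  ∑ j ∈ Finset.range 3, AC D P r (fQ f (Rg D.h W (a + 1))) (a + (j : ℤ)) (X ∩ ovr (reg3 D W a))

/-! ### measurability and locality -/

theorem RR_meas (A B h : ℝ) (W : ℤ → ℤ × ℤ) (a : ℤ) : MeasurableSet (RR A B h W a) := by
  have key : ∀ c u : ℂ, MeasurableSet (Arm A B c u) := by
    intro c u
    have h1 : Measurable (X c u) := by unfold Gatex838.X; fun_prop
    have h2 : Measurable (Y c u) := by unfold Gatex838.Y; fun_prop
    exact ((measurableSet_lt measurable_const h1).inter (measurableSet_lt h1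
      measurable_const)).inter (measurableSet_lt (continuous_abs.measurable.comp h2)
        measurable_const)
  exact (key _ _).union (key _ _)

include P in
theorem Gb_meas (a : ℤ) : MeasurableSet (Gb D W a) := by
  have h : (frm P D.h a).e.symm ⁻¹' WQ D.A' D.B' D.h = Gb D W a := by
    ext s
    exact mem_WQ P a s
  rw [← h]
  exact (frm P D.h a).e.symm.measurable WQ_meas

theorem reg3_meas (a : ℤ) : MeasurableSet (reg3 D W a) :=
  Finset.measurableSet_biUnion _ fun j _ => RR_meas _ _ _ _ _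

theorem AC_fm {f : ℂ × ℂ × ℂ → ℂ} (hf : Measurable f) (a : ℤ) : FinMeas (AC D P r f a) :=
  zC_neck_fme (RR_meas _ _ _ _ _) (Gb_meas D P a) (Gb_meas D P (a + 1)) _ _ hf

/-- **measurable** -/
theorem VT_fm {f : ℂ × ℂ × ℂ → ℂ} (hf : Measurable f) (a : ℤ) : FinMeas (VT D P r f a) :=
  fm_sum _ fun j _ => fm_cut (AC_fm D P r (fQ_meas hf (Rg_meas _ _ _)) _) (reg3_meas D a)

/-- **local** -/
theorem VT_local3 (f : ℂ × ℂ × ℂ → ℂ) (a : ℤ) : LocalOn (reg3 D W a) (VT D P r f a) := by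
  intro S
  show VT D P r f a S = VT D P r f a (S ∩ ovr (reg3 D W a))
  unfold VT
  rw [inter_ovr2]

/-- the three tiles are inside 765's window -/
theorem reg3_win {ε : ℝ} {Ty : Type*} {T : Tpl ε Ty} {tu : Ty → Tn} [DecidableEq (ZMod M)]
    (H : Std T D.A' D.B' D.h tu) {ty : ZMod M → Ty} (hty : Typ W tu ty) (hn : Pr M 3) (a : ℤ)
    {τ : ℕ → Ty} (hτ : ∀ j : ℕ, j < 3 → ty ((a + (j : ℤ) : ℤ) : ZMod M) = τ j) :
    reg3 D W a ⊆ (win P H hty hn a hτ).reg := by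
  intro s hs
  obtain ⟨j, hj, hs⟩ := mem_iUnion₂.1 hs
  exact RR_reg P H hty hn a hτ (Finset.mem_range.1 hj) hs

/-- **local in 765's window** -/
theorem VT_local {ε : ℝ} {Ty : Type*} {T : Tpl ε Ty} {tu : Ty → Tn} [DecidableEq (ZMod M)]
    (H : Std T D.A' D.B' D.h tu) {ty : ZMod M → Ty} (hty : Typ W tu ty) (hn : Pr M 3) (a : ℤ)
    {τ : ℕ → Ty} (hτ : ∀ j : ℕ, j < 3 → ty ((a + (j : ℤ) : ℤ) : ZMod M) = τ j) (f : ℂ × ℂ × ℂ → ℂ) :
    LocalOn (win P H hty hn a hτ).reg (VT D P r f a) :=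
  IndLocx279.LocalOn.mono (reg3_win D P H hty hn a hτ) (VT_local3 D P r f a)

/-! ### covariance -/

section cov

variable {D P r} {M' : ℕ} {W' : ℤ → ℤ × ℤ} {P' : FPath M' W'} {a a' : ℤ} {φ : ℂ ≃ ℂ} {c : ℂ}

/-- the motion `φ` carries the tiles `a, .., a + n - 1` of `P` to the tiles `a', ..` of `P'` -/
structure Fit (D : DT) (P : FPath M W) (P' : FPath M' W') (a a' : ℤ) (n : ℕ) (φ : ℂ ≃ ℂ) (c : ℂ) :
    Prop where
  mo : Mo φ c
  fr : ∀ j : ℕ, j ≤ n → ∀ z, (frm P' D.h (a' + j)).e z = φ ((frm P D.h (a + j)).e z)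
  ge : ∀ j : ℕ, j ≤ n → TileRx228.ge W' (a' + j) = c * TileRx228.ge W (a + j)
  tn : ∀ j : ℕ, j < n → PthFx765.tn W' (a' + j) = PthFx765.tn W (a + j)

theorem Fit.symm_fr {n : ℕ} (F : Fit D P P' a a' n φ c) {j : ℕ} (hj : j ≤ n) (s : ℂ) :
    (frm P' D.h (a' + j)).e.symm (φ s) = (frm P D.h (a + j)).e.symm s := by
  have h := F.fr j hj ((frm P D.h (a + j)).e.symm s)
  rw [(frm P D.h (a + j)).e.apply_symm_apply] at h
  rw [← h, (frm P' D.h (a' + j)).e.symm_apply_apply]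

theorem Fit.gt {n : ℕ} (F : Fit D P P' a a' n φ c) {j : ℕ} (hj : j ≤ n) :
    SpVx169.gt D P' (a' + j) = (SpVx169.gt D P (a + j)).mv φ c := by
  unfold SpVx169.gt GPar.mv
  simp only
  rw [F.fr j hj, F.ge j hj, mul_assoc]

theorem Fit.Gb {n : ℕ} (F : Fit D P P' a a' n φ c) {j : ℕ} (hj : j ≤ n) (s : ℂ) :
    φ s ∈ SpVx169.Gb D W' (a' + j) ↔ s ∈ SpVx169.Gb D W (a + j) := by
  unfold SpVx169.Gb
  rw [← mem_WQ P', ← mem_WQ P, F.symm_fr hj]

theorem Fit.RR {n : ℕ} (F : Fit D P P' a a' n φ c) {j : ℕ} (hj : j < n) (A B : ℝ) (s : ℂ) :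
    φ s ∈ TileRx228.RR A B D.h W' (a' + j) ↔ s ∈ TileRx228.RR A B D.h W (a + j) := by
  rw [← mem_WR P', ← mem_WR P, F.symm_fr hj.le, F.tn j hj]

theorem Fit.Rg {n : ℕ} (F : Fit D P P' a a' n φ c) {j : ℕ} (hj : j ≤ n) (s : ℂ) :
    φ s ∈ SpRx169.Rg D.h W' (a' + j) ↔ s ∈ SpRx169.Rg D.h W (a + j) := by
  unfold SpRx169.Rg Sq
  rw [mem_ofPred_eq, mem_ofPred_eq, ← frm_re P', ← frm_im P', ← frm_re P, ← frm_im P,
    F.symm_fr hj]

theorem Fit.reg3 (F : Fit D P P' a a' 3 φ c) (s : ℂ) :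
    φ s ∈ SpVx169.reg3 D W' a' ↔ s ∈ SpVx169.reg3 D W a := by
  unfold SpVx169.reg3
  rw [mem_iUnion₂, mem_iUnion₂]
  exact exists_congr fun j => exists_congr fun hj => F.RR (Finset.mem_range.1 hj) _ _ s

/-- the restricted field -/
theorem fQ_mo (h : Mo φ c) {f f' : ℂ × ℂ × ℂ → ℂ} {k : ℂ}
    (hf : ∀ t, f' (φ t.1, φ t.2.1, φ t.2.2) = k * f t) {Q Q' : Set ℂ}
    (hQ : ∀ s, φ s ∈ Q' ↔ s ∈ Q) (t : ℂ × ℂ × ℂ) :
    fQ f' Q' (φ t.1, φ t.2.1, φ t.2.2) = k * fQ f Q t := by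
  unfold fQ
  rw [cen3_mo h]
  by_cases h1 : cen3 t ∈ Q
  · rw [if_pos h1, if_pos ((hQ _).2 h1), hf]
  · rw [if_neg h1, if_neg (fun h2 => h1 ((hQ _).1 h2)), mul_zero]

/-- covariance of one arc -/
theorem AC_mv {n : ℕ} (F : Fit D P P' a a' n φ c) {j : ℕ} (hj : j < n) {f f' : ℂ × ℂ × ℂ → ℂ}
    {k : ℂ} (hf : ∀ t, f' (φ t.1, φ t.2.1, φ t.2.2) = k * f t) (X : Cf) :
    AC D P' r f' (a' + j) (mvX φ X) = k * AC D P r f (a + j) X := by
  have e1 : a' + (j : ℤ) + 1 = a' + ((j + 1 : ℕ) : ℤ) := by push_cast; ring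
  have e2 : a + (j : ℤ) + 1 = a + ((j + 1 : ℕ) : ℤ) := by push_cast; ring
  unfold AC St
  rw [e1, e2, F.gt hj.le, F.gt (Nat.succ_le_of_lt hj)]
  exact zC_gate_mv F.mo _ _ (F.RR hj _ _) (F.Gb hj.le) (F.Gb (Nat.succ_le_of_lt hj)) hf

/-- **covariance of the spatial charge** -/
theorem VT_mv (F : Fit D P P' a a' 3 φ c) {f f' : ℂ × ℂ × ℂ → ℂ}
    {k : ℂ} (hf : ∀ t, f' (φ t.1, φ t.2.1, φ t.2.2) = k * f t) (X : Cf) :
    VT D P' r f' a' (mvX φ X) = k * VT D P r f a X := by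
  have hR : ∀ s, φ s ∈ SpRx169.Rg D.h W' (a' + 1) ↔ s ∈ SpRx169.Rg D.h W (a + 1) := by
    intro s
    have := F.Rg (j := 1) (by norm_num) s
    exact this
  unfold VT
  rw [mvX_inter (X := X) F.reg3, Finset.mul_sum]
  refine Finset.sum_congr rfl fun j hj => ?_
  exact AC_mv F (Finset.mem_range.1 hj) (fQ_mo F.mo hf hR) _

/-- tiles of equal types fit -/
theorem fit_of {n : ℕ} (P : FPath M W) (P' : FPath M' W')
    (h : ∀ j : ℕ, j < n → PthFx765.tn W' (a' + j) = PthFx765.tn W (a + j)) :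
    Fit D P P' a a' n ((frm P D.h a).e.symm.trans (frm P' D.h a').e).toEquiv
      (TileRx228.ge W' a' / TileRx228.ge W a) := by
  have g0 : TileRx228.ge W a ≠ 0 := TileRx228.ge_ne P a
  have hge : ∀ j : ℕ, j ≤ n → TileRx228.ge W' (a' + j) =
      TileRx228.ge W' a' / TileRx228.ge W a * TileRx228.ge W (a + j) := by
    intro j
    induction j with
    | zero =>
      intro _
      rw [Nat.cast_zero, add_zero, add_zero, div_mul_cancel₀ _ g0]
    | succ j ih =>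
      intro hj
      have e1 : a' + ((j + 1 : ℕ) : ℤ) = a' + j + 1 := by push_cast; ring
      have e2 : a + ((j + 1 : ℕ) : ℤ) = a + j + 1 := by push_cast; ring
      rw [e1, e2, ge_succ P', ge_succ P, ih (by omega), h j (by omega)]
      ring
  have hfr : ∀ j : ℕ, j ≤ n → ∀ z, (frm P' D.h (a' + j)).e z =
      (frm P' D.h a').e ((frm P D.h a).e.symm ((frm P D.h (a + j)).e z)) := by
    intro j
    induction j with
    | zero =>
      intro _ z
      rw [Nat.cast_zero, add_zero, add_zero, (frm P D.h a).e.symm_apply_apply]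
    | succ j ih =>
      intro hj z
      have e1 : a' + ((j + 1 : ℕ) : ℤ) = a' + j + 1 := by push_cast; ring
      have e2 : a + ((j + 1 : ℕ) : ℤ) = a + j + 1 := by push_cast; ring
      rw [e1, e2, frm_succ, frm_succ, ih (by omega), h j (by omega)]
  refine ⟨⟨?_, ?_⟩, hfr, hge, h⟩
  · rw [norm_div, norm_ge P', norm_ge P, div_one]
  · intro z w
    show (frm P' D.h a').e ((frm P D.h a).e.symm z) - (frm P' D.h a').e ((frm P D.h a).e.symm w) =
      _
    rw [frm_apply, frm_apply, frm_symm, frm_symm]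
    field_simp
    ring

/-- **covariance in the frames**: the template form (978's `same'`, 765's `one_number`) -/
theorem VT_cov (P : FPath M W) (P' : FPath M' W')
    (h : ∀ j : ℕ, j < 3 → PthFx765.tn W' (a' + j) = PthFx765.tn W (a + j))
    {f : ℂ × ℂ × ℂ → ℂ} {k : ℂ}
    (hf : ∀ (φ : ℂ ≃ ℂ), Mo φ (TileRx228.ge W' a' / TileRx228.ge W a) →
      ∀ t, f (φ t.1, φ t.2.1, φ t.2.2) = k * f t) (S : Cf) :
    VT D P' r f a' (mv (frm P' D.h a').e S) = k * VT D P r f a (mv (frm P D.h a).e S) := by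
  have F := fit_of (D := D) P P' h
  have e : mv (frm P' D.h a').e S =
      mvX ((frm P D.h a).e.symm.trans (frm P' D.h a').e).toEquiv (mv (frm P D.h a).e S) := by
    have h1 : mv (frm P' D.h a').e (mv (frm P D.h a).e.symm (mv (frm P D.h a).e S)) =
        mvX ((frm P D.h a).e.symm.trans (frm P' D.h a').e).toEquiv (mv (frm P D.h a).e S) := by
      rw [mv_mv]
      rfl
    rw [← h1, mv_symm_mv]
  rw [e]
  exact VT_mv F (hf _ F.mo) _

end cov

/-! ### the charge `Nn` -/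

/-- **`Nn`** : the factor is the conjugate of the rotation -/
theorem VT_cov_Nn {M' : ℕ} {W' : ℤ → ℤ × ℤ} (P' : FPath M' W') {a a' : ℤ}
    (h : ∀ j : ℕ, j < 3 → PthFx765.tn W' (a' + j) = PthFx765.tn W (a + j)) (S : Cf) :
    VT D P' r Mass1x302.Nn a' (mv (frm P' D.h a').e S) =
      (starRingEnd ℂ) (TileRx228.ge W' a' / TileRx228.ge W a) *
        VT D P r Mass1x302.Nn a (mv (frm P D.h a).e S) :=
  VT_cov P P' h (fun φ hφ t => Nn_mv hφ t) S

/-- **ONE NUMBER**: mean of the spatial charge under the weight of any piece of the corridor which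
contains the window, compared with a reference window of the same types -/
theorem VT_mean {ε : ℝ} {Ty : Type*} {T : Tpl ε Ty} {tu : Ty → Tn} (H : Std T D.A' D.B' D.h tu)
    {M' : ℕ} {W' : ℤ → ℤ × ℤ} (P' : FPath M' W')
    {ty : ZMod M → Ty} (hty : Typ W tu ty) {ty' : ZMod M' → Ty} (hty' : Typ W' tu ty')
    (hn : Pr M 3) (hn' : Pr M' 3) (a a' : ℤ) {τ : ℕ → Ty}
    (hτ : ∀ j : ℕ, j < 3 → ty ((a + (j : ℤ) : ℤ) : ZMod M) = τ j)
    (hτ' : ∀ j : ℕ, j < 3 → ty' ((a' + (j : ℤ) : ℤ) : ZMod M') = τ j)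
    (hA0 : ∫⁻ ω, T.A (cfg ε ω) ∂sampleLaw ≠ 0) {I J : Finset (ZMod M')}
    (hI : (win P' H hty' hn' a' hτ').I ⊆ I) (hJ : (win P' H hty' hn' a' hτ').J ⊆ J)
    (hN : ∀ k ∈ J, k ∈ I ∧ k + 1 ∈ I) {f : ℂ × ℂ × ℂ → ℂ} (hfm : Measurable f) {k : ℂ}
    (hf : ∀ (φ : ℂ ≃ ℂ), Mo φ (TileRx228.ge W' a' / TileRx228.ge W a) →
      ∀ t, f (φ t.1, φ t.2.1, φ t.2.2) = k * f t) :
    ∫ ω, (((pth P' H ty' hty').net.gw I J (cfg ε ω)).toReal : ℂ) * VT D P' r f a' (cfg ε ω)
        ∂sampleLaw =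
      ((∫⁻ ω, (pth P' H ty' hty').net.gw I J (cfg ε ω) ∂sampleLaw).toReal : ℂ) *
        (k * (win P H hty hn a hτ).m (VT D P r f a)) := by
  have htn : ∀ j : ℕ, j < 3 → PthFx765.tn W' (a' + j) = PthFx765.tn W (a + j) := by
    intro j hj
    have e1 := Typ.eq P' hty' (a' + j)
    have e2 := Typ.eq P hty (a + j)
    rw [← e1, ← e2]
    have h1 := hτ j hj
    have h2 := hτ' j hj
    rw [h1, h2]
  have h := one_number (V := VT D P r f a) (V' := VT D P' r f a') (u := 1) (u' := k)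
    (V0 := fun S => VT D P r f a (mv (frm P D.h a).e S)) P P' H hty hty' hn hn' a a' hτ hτ' hA0 hI hJ
    hN one_ne_zero (VT_local D P r H hty hn a hτ f) (VT_fm D P r hfm a)
    (VT_local D P' r H hty' hn' a' hτ' f) (VT_fm D P' r hfm a')
    (fun S _ => by rw [one_mul]) (fun S _ => VT_cov P P' htn hf S)
  rw [h, div_one]

/-- **the mean of the charge of a straight piece**: one number `m₀` for all polygons -/
theorem VT_mean_Nn {ε : ℝ} {Ty : Type*} {T : Tpl ε Ty} {tu : Ty → Tn}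
    (H : Std T D.A' D.B' D.h tu) {M' : ℕ} {W' : ℤ → ℤ × ℤ} (P' : FPath M' W') {t : Ty} (ht : tu t = Tn.S)
    {ty' : ZMod M' → Ty} (hty' : Typ W' tu ty') (hn' : Pr M' 3) (a' : ℤ)
    (hτ' : ∀ j : ℕ, j < 3 → ty' ((a' + (j : ℤ) : ℤ) : ZMod M') = t)
    (hA0 : ∫⁻ ω, T.A (cfg ε ω) ∂sampleLaw ≠ 0) {I J : Finset (ZMod M')}
    (hI : (win P' H hty' hn' a' hτ').I ⊆ I) (hJ : (win P' H hty' hn' a' hτ').J ⊆ J)
    (hN : ∀ k ∈ J, k ∈ I ∧ k + 1 ∈ I) :
    ∫ ω, (((pth P' H ty' hty').net.gw I J (cfg ε ω)).toReal : ℂ) *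
        VT D P' r Mass1x302.Nn a' (cfg ε ω) ∂sampleLaw =
      ((∫⁻ ω, (pth P' H ty' hty').net.gw I J (cfg ε ω) ∂sampleLaw).toReal : ℂ) *
        ((starRingEnd ℂ) (TileRx228.ge W' a') *
          (win line H (line_typ ht) (n := 3) (τ := fun _ => t) (Or.inl rfl) 0
            (fun _ _ => rfl)).m (VT D line r Mass1x302.Nn 0)) := by
  have hg : TileRx228.ge lineW 0 = 1 := by
    unfold TileRx228.ge cz lineW
    apply Complex.ext <;> simp
  have h := VT_mean D line r H P' (line_typ ht) hty' (Or.inl rfl) hn' 0 a' (τ := fun _ => t)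
    (fun _ _ => rfl) hτ' hA0 hI hJ hN (f := Mass1x302.Nn) meas_Nn
    (k := (starRingEnd ℂ) (TileRx228.ge W' a' / TileRx228.ge lineW 0))
    (fun φ hφ t => Nn_mv hφ t)
  rw [hg, div_one] at h
  exact h

/-! ### dense configurations: 832's functional -/

include P in
theorem Gb_reg3 (hA : 0 < D.A') (hB : D.B' ≤ D.h) {a : ℤ} {j : ℕ} (hj : j ≤ 3) :
    Gb D W (a + j) ⊆ reg3 D W a := by
  intro s hs
  unfold reg3
  by_cases h3 : j < 3
  · exact mem_iUnion₂.2 ⟨j, Finset.mem_range.2 h3, GB_sub P hA hB _ hs⟩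
  · have e : j = 2 + 1 := by omega
    subst e
    refine mem_iUnion₂.2 ⟨2, Finset.mem_range.2 (by norm_num), ?_⟩
    have h := GB_sub' P hA hB (a + (2 : ℕ))
    have e2 : a + ((2 : ℕ) : ℤ) + 1 = a + ((2 + 1 : ℕ) : ℤ) := by push_cast; ring
    rw [e2] at h
    exact h hs

theorem St_cut (hA : 0 < D.A') (hB : D.B' ≤ D.h) {a : ℤ} {j : ℕ} (hj : j ≤ 3) (X : Cf)
    (p : ℂ × ℂ) : St D P (a + j) (X ∩ ovr (reg3 D W a)) p ↔ St D P (a + j) X p :=
  LG_cut (Gb_reg3 D P hA hB hj) p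

/-- **one arc of a dense configuration** -/
theorem AC_cut {X : Cf} (hX : X.Finite) (hS : GP (ps X)) (hχ : HullC (sX X) (cX X)) {d : ℝ}
    (hd : 0 < d) (hA : 0 < D.A') (hB : D.B' ≤ D.h) (hA2 : D.A + r + 2 * d ≤ D.A')
    (hB2 : D.B + r + 2 * d ≤ D.B') {a : ℤ} {j : ℕ} (hj : j < 3)
    (hH : Hol (ps X) (RR (D.A + r) (D.B + r) D.h W (a + j)) d)
    (ho : ∀ p, St D P (a + j) X p → Occ (sX X) (cX X) p)
    (ho' : ∀ p, St D P (a + (j + 1 : ℕ)) X p → Occ (sX X) (cX X) p) (f : ℂ × ℂ × ℂ → ℂ) :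
    AC D P r f (a + j) (X ∩ ovr (reg3 D W a)) = AC D P r f (a + j) X := by
  have e1 : a + (j : ℤ) + 1 = a + ((j + 1 : ℕ) : ℤ) := by push_cast; ring
  unfold AC
  rw [e1]
  refine zC_cut hX hS hχ hd hH ?_ (St_cut D P hA hB hj.le X)
    (St_cut D P hA hB (Nat.succ_le_of_lt hj) X) ho ho' f
  intro w hw s hs
  refine mem_iUnion₂.2 ⟨j, Finset.mem_range.2 hj, ?_⟩
  exact RR_mono hA2 hB2 _ _ _ (RR_thick P hw hs.le)

/-- **832's spatial charge is `VT`** (full tile `l`, `0 < l`, `l + 1 < n`, dense configuration) -/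
theorem VX_VT {X : Cf} (hX : X.Finite) (hS : GP (ps X)) (hχ : HullC (sX X) (cX X)) {d : ℝ}
    (hd : 0 < d) (hA : 0 < D.A') (hB : D.B' ≤ D.h) (hA2 : D.A + r + 2 * d ≤ D.A')
    (hB2 : D.B + r + 2 * d ≤ D.B') {o : ℤ} {n l : ℕ} (h0 : 0 < l) (h1 : l + 1 < n)
    (hH : ∀ k, k < n → Hol (ps X) (RR (D.A + r) (D.B + r) D.h W (o + k)) d)
    (ho : ∀ k, k ≤ n → ∀ p, St D P (o + k) X p → Occ (sX X) (cX X) p) (f : ℂ × ℂ × ℂ → ℂ) :
    VX f n (fun k => RR (D.A + r) (D.B + r) D.h W (o + k)) (QX D.h W o n) (fun k => St D P (o + k)) l X =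
      VT D P r f (o + l - 1) X := by
  have hN : Near n l = (Finset.range 3).image fun j => l - 1 + j := by
    ext k
    rw [mem_near, Finset.mem_image]
    constructor
    · rintro ⟨a1, a2, a3⟩
      exact ⟨k - (l - 1), Finset.mem_range.2 (by omega), by omega⟩
    · rintro ⟨j, hj, rfl⟩
      rw [Finset.mem_range] at hj
      omega
  unfold VX VT
  rw [hN, Finset.sum_image (fun i _ j _ h => by simpa using h), qx_full h0 h1]
  refine Finset.sum_congr rfl fun j hj => ?_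
  have hj3 := Finset.mem_range.1 hj
  have e : ∀ i : ℕ, o + ((l - 1 + i : ℕ) : ℤ) = o + l - 1 + (i : ℤ) := by
    intro i
    push_cast [Nat.cast_sub (show 1 ≤ l by omega)]
    ring
  have e2 : o + (l : ℤ) - 1 + 1 = o + l := by ring
  have e3 : o + ((l - 1 + j + 1 : ℕ) : ℤ) = o + l - 1 + ((j + 1 : ℕ) : ℤ) := by
    rw [show l - 1 + j + 1 = l - 1 + (j + 1) by ring]
    exact e (j + 1)
  have e4 : o + (l : ℤ) - 1 + (j : ℤ) + 1 = o + l - 1 + ((j + 1 : ℕ) : ℤ) := by push_cast; ring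
  rw [e2, AC_cut D P r hX hS hχ hd hA hB hA2 hB2 hj3 (by rw [← e]; exact hH _ (by omega))
    (fun p hp => ho (l - 1 + j) (by omega) p (by rw [e]; exact hp))
    (fun p hp => ho (l - 1 + j + 1) (by omega) p (by rw [e3]; exact hp))]
  show zC (fQ f (Rg D.h W (o + l))) (RR (D.A + r) (D.B + r) D.h W (o + ((l - 1 + j : ℕ) : ℤ)))
    (St D P (o + ((l - 1 + j : ℕ) : ℤ))) (St D P (o + ((l - 1 + j + 1 : ℕ) : ℤ))) X =
    AC D P r (fQ f (Rg D.h W (o + l))) (o + l - 1 + j) X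
  unfold AC
  rw [e, e3, e4]

end Crest.Agent.R143.SpVx169
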