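import Crest.Agent.R143.RingL_239
import Crest.Agent.R143.R6H_253
import Crest.Agent.R143.SpV_169
import Crest.Agent.R143.HqP_304

/-!
# Row 143 (S0194), block H, box [E]: the ring law on the closed fine path (helper239)

Closed path `P : FPath M W` (all tiles of the kind `b`), 204's template data `D`, weight
`g = gw univ univ` of 765's net, spatial charges `V k = VT D P r Nn (o + k - 1)` (169) of the tiles
`o + k`.
* `rty`, `rpth`, `gK` : types, path, weight; `gK_mass`, `gK_ne`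
* `II`, `JJ` : gates and tubes of the window of the tile `o + k`; `idx_dis`
* `Str` : the tiles `o + k - 1, o + k, o + k + 1` are straight; `mD` : the number `m`
* **`cyc`** : `Cyc` from `Qn` (253) and `Wnd` (304); **`lin`** : `Lin`
-/

set_option autoImplicit false

noncomputable section

open scoped Classical

namespace Crest.Agent.R143.RingNx239

open MeasureTheory Set Filter Topology
open Crest.ProbabilityR.Voronoi
open Crest.Agent.R143.PP0x831 Crest.Agent.R143.PWx978 Crest.Agent.R143.Tplx978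
open Crest.Agent.R143.TileRx228 Crest.Agent.R143.PthFx765 Crest.Agent.R143.TplIx204
open Crest.Agent.R143.SpVx169 Crest.Agent.R143.RingLx239 Crest.Agent.R143.R6Hx253
open Crest.Agent.R143.Hqx304 Crest.Agent.R143.HqPx304
open scoped ENNReal

variable {M : ℕ} {W : ℤ → ℤ × ℤ} {A B h ε : ℝ} {T : Tpl ε (Tn × Bool)}

/-! ### types, path, weight -/

/-- all tiles of the kind `b` -/
def rty (M : ℕ) (W : ℤ → ℤ × ℤ) (b : Bool) (k : ZMod M) : Tn × Bool := (tn W (zc k), b)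

theorem rty_typ (b : Bool) : Typ W Prod.fst (rty M W b) := fun _ => rfl

theorem rty_int (P : FPath M W) (b : Bool) (a : ℤ) : rty M W b (a : ZMod M) = (tn W a, b) := by
  unfold rty
  rw [tn_dvd P (zc_dvd _)]

/-- the closed ring as a path -/
def rpth (P : FPath M W) (Hs : Std T A B h Prod.fst) (b : Bool) : Pth T (ZMod M) (ZMod M) :=
  pth P Hs (rty M W b) (rty_typ b)

section weight

variable [Fintype (ZMod M)] (P : FPath M W) (Hs : Std T A B h Prod.fst) (b : Bool)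

/-- the weight of the ring -/
def gK (P : FPath M W) (Hs : Std T A B h Prod.fst) (b : Bool) : Cf → ℝ≥0∞ :=
  (rpth P Hs b).net.gw Finset.univ Finset.univ

theorem hNu (k : ZMod M) (_ : k ∈ (Finset.univ : Finset (ZMod M))) :
    (rpth P Hs b).net.N k ⊆ Finset.univ := Finset.subset_univ _

theorem gK_mass : RingLx239.mass (rpth P Hs b).net Finset.univ Finset.univ =
    T.c ^ M * (∫⁻ ω, T.A (cfg ε ω) ∂sampleLaw) ^ M := by
  unfold RingLx239.mass
  rw [Win.piece_mass fun _ _ => ⟨Finset.mem_univ _, Finset.mem_univ _⟩]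
  have : (Finset.univ : Finset (ZMod M)).card = M := by
    rw [Finset.card_univ, ZMod.card]
  rw [this]

theorem gK_ne (hA0 : ∫⁻ ω, T.A (cfg ε ω) ∂sampleLaw ≠ 0) :
    RingLx239.mass (rpth P Hs b).net Finset.univ Finset.univ ≠ 0 :=
  Win.piece_ne_zero (fun _ _ => ⟨Finset.mem_univ _, Finset.mem_univ _⟩) hA0

end weight

/-! ### windows of three tiles -/

/-- gates of the window of the tile `o + k` -/
def II (M : ℕ) (o : ℤ) (k : ℕ) : Finset (ZMod M) :=
  (Finset.range (3 + 1)).image fun j : ℕ => ((o + k - 1 + (j : ℤ) : ℤ) : ZMod M)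

/-- tubes of the window of the tile `o + k` -/
def JJ (M : ℕ) (o : ℤ) (k : ℕ) : Finset (ZMod M) :=
  (Finset.range 3).image fun j : ℕ => ((o + k - 1 + (j : ℤ) : ℤ) : ZMod M)

theorem idx_dis {o : ℤ} {k l : ℕ} (h1 : k + 4 ≤ l) (h2 : l + 4 ≤ M + k) {i j : ℕ} (hi : i < 4)
    (hj : j < 4) :
    ((o + k - 1 + (i : ℤ) : ℤ) : ZMod M) ≠ ((o + l - 1 + (j : ℤ) : ℤ) : ZMod M) := by
  intro he
  have h3 := (ZMod.intCast_eq_intCast_iff_dvd_sub _ _ M).1 he
  have h4 : 0 < o + (l : ℤ) - 1 + (j : ℤ) - (o + k - 1 + (i : ℤ)) := by omega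
  have h5 := Int.le_of_dvd h4 h3
  omega

theorem dis_II {o : ℤ} {k l : ℕ} (h1 : k + 4 ≤ l) (h2 : l + 4 ≤ M + k) :
    Disjoint (II M o k) (II M o l) := by
  rw [Finset.disjoint_left]
  intro x hx hy
  obtain ⟨i, hi, rfl⟩ := Finset.mem_image.1 hx
  obtain ⟨j, hj, he⟩ := Finset.mem_image.1 hy
  exact idx_dis h1 h2 (Finset.mem_range.1 hi) (Finset.mem_range.1 hj) he.symm

theorem JJ_II (M : ℕ) (o : ℤ) (k : ℕ) : JJ M o k ⊆ II M o k :=
  Finset.image_subset_image (Finset.range_mono (by norm_num))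

theorem dis_JJ {o : ℤ} {k l : ℕ} (h1 : k + 4 ≤ l) (h2 : l + 4 ≤ M + k) :
    Disjoint (JJ M o k) (JJ M o l) :=
  Finset.disjoint_of_subset_left (JJ_II M o k)
    (Finset.disjoint_of_subset_right (JJ_II M o l) (dis_II h1 h2))

theorem N_sub (P : FPath M W) (Hs : Std T A B h Prod.fst) (b : Bool) (o : ℤ) (k : ℕ) :
    ∀ j ∈ JJ M o k, (rpth P Hs b).net.N j ⊆ II M o k := by
  intro j hj x hx
  obtain ⟨i, hi, rfl⟩ := Finset.mem_image.1 hj
  have hi' := Finset.mem_range.1 hi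
  have hx' : x ∈ ({((o + k - 1 + (i : ℤ) : ℤ) : ZMod M),
      ((o + k - 1 + (i : ℤ) : ℤ) : ZMod M) + 1} : Finset (ZMod M)) := hx
  rw [Finset.mem_insert, Finset.mem_singleton] at hx'
  rcases hx' with rfl | rfl
  · exact Finset.mem_image.2 ⟨i, Finset.mem_range.2 (by omega), rfl⟩
  · refine Finset.mem_image.2 ⟨i + 1, Finset.mem_range.2 (by omega), ?_⟩
    push_cast
    ring

/-! ### the charges -/

variable (D : DT)

/-- the charge of the tile `o + k` -/
def Vk (D : DT) (P : FPath M W) (r : ℝ) (o : ℤ) (k : ℕ) : Cf → ℂ :=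
  VT D P r Mass1x302.Nn (o + k - 1)

theorem vk_fm (P : FPath M W) (r : ℝ) (o : ℤ) (k : ℕ) : FinMeas (Vk D P r o k) :=
  VT_fm D P r WLocx713.meas_Nn _

theorem vk_local (P : FPath M W) (Hs : Std T D.A' D.B' D.h Prod.fst) (b : Bool) (hM : Pr M 3)
    (r : ℝ) (o : ℤ) (k : ℕ) :
    LocalOn ((rpth P Hs b).net.reg (II M o k) (JJ M o k)) (Vk D P r o k) :=
  VT_local D P r Hs (rty_typ b) hM (o + k - 1)
    (τ := fun j => rty M W b ((o + k - 1 + (j : ℤ) : ℤ) : ZMod M)) (fun _ _ => rfl) _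

/-- the tiles `o + k - 1`, `o + k`, `o + k + 1` are straight -/
def Str (W : ℤ → ℤ × ℤ) (o : ℤ) (k : ℕ) : Prop :=
  tn W (o + k - 1) = Tn.S ∧ tn W (o + k) = Tn.S ∧ tn W (o + k + 1) = Tn.S

/-- **the number `m`** : mean charge of a straight tile of the kind `b` in standard position -/
def mD (D : DT) (Hs : Std T D.A' D.B' D.h Prod.fst) (b : Bool) (r : ℝ) : ℂ :=
  (win line Hs (line_typ (t := ((Tn.S, b) : Tn × Bool)) rfl) (n := 3)
    (τ := fun _ => ((Tn.S, b) : Tn × Bool)) (Or.inl rfl) 0 (fun _ _ => rfl)).m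
      (VT D line r Mass1x302.Nn 0)

variable [Fintype (ZMod M)]

/-- the mean of a straight charge -/
theorem av_str (P : FPath M W) (Hs : Std T D.A' D.B' D.h Prod.fst) (b : Bool) (hM : Pr M 3)
    (hA0 : ∫⁻ ω, T.A (cfg ε ω) ∂sampleLaw ≠ 0) (r : ℝ) (o : ℤ) {k : ℕ} (hs : Str W o k) :
    Chain.av (rpth P Hs b).net Finset.univ Finset.univ (Vk D P r o k) =
      mD D Hs b r * (starRingEnd ℂ) (ge W (o + k - 1)) := by
  have hτ : ∀ j : ℕ, j < 3 → rty M W b ((o + k - 1 + (j : ℤ) : ℤ) : ZMod M) = (Tn.S, b) := by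
    intro j hj
    rw [rty_int P]
    refine Prod.ext ?_ rfl
    show tn W (o + k - 1 + (j : ℤ)) = Tn.S
    interval_cases j
    · simpa using hs.1
    · rw [show o + (k : ℤ) - 1 + ((1 : ℕ) : ℤ) = o + k by push_cast; ring]
      exact hs.2.1
    · rw [show o + (k : ℤ) - 1 + ((2 : ℕ) : ℤ) = o + k + 1 by push_cast; ring]
      exact hs.2.2
  have h1 := VT_mean_Nn D r Hs P (t := ((Tn.S, b) : Tn × Bool)) rfl (rty_typ b) hM (o + k - 1) hτ
    hA0 (Finset.subset_univ _) (Finset.subset_univ _)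
    (fun _ _ => ⟨Finset.mem_univ _, Finset.mem_univ _⟩)
  unfold Chain.av
  rw [int_wm _ (hNu P Hs b)]
  have h2 : ∫ ω, (((rpth P Hs b).net.gw Finset.univ Finset.univ (cfg ε ω)).toReal) •
      Vk D P r o k (cfg ε ω) ∂sampleLaw =
      ((RingLx239.mass (rpth P Hs b).net Finset.univ Finset.univ).toReal : ℂ) *
        ((starRingEnd ℂ) (ge W (o + k - 1)) * mD D Hs b r) := by
    simp only [Complex.real_smul]
    exact h1
  rw [h2]
  have h3 : ((RingLx239.mass (rpth P Hs b).net Finset.univ Finset.univ).toReal : ℂ) ≠ 0 := by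
    rw [Complex.ofReal_ne_zero]
    exact ENNReal.toReal_ne_zero.2 ⟨gK_ne P Hs b hA0, mass_ne_top _ (hNu P Hs b)⟩
  field_simp

/-- **`Lin`** on a closed (or open) path -/
theorem lin (P : FPath M W) (Hs : Std T D.A' D.B' D.h Prod.fst) (b : Bool) (hM : Pr M 3)
    (hA0 : ∫⁻ ω, T.A (cfg ε ω) ∂sampleLaw ≠ 0) (r : ℝ) (o : ℤ) {n c0 : ℕ}
    (hc : ((Finset.range n).filter fun k => ¬ Str W o k).card ≤ c0) (hx : ∃ k < n, Str W o k) :
    Lin (rpth P Hs b).net Finset.univ Finset.univ n c0 (Vk D P r o) (Str W o) (mD D Hs b r) D.h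
      (fun k => (starRingEnd ℂ) (ge W (o + k - 1)))
      (fun k => (starRingEnd ℂ) (gz D.h W (o + k))) := by
  have hh : 0 < D.h := by linarith [Hs.hA, Hs.hAB, Hs.hh]
  have hst : ∀ k : ℕ, (starRingEnd ℂ) (gz D.h W (o + (k + 1 : ℕ))) -
      (starRingEnd ℂ) (gz D.h W (o + k)) =
      (D.h : ℂ) * (((starRingEnd ℂ) (ge W (o + k)) + (starRingEnd ℂ) (ge W (o + k + 1))) / 2) := by
    intro k
    rw [show o + ((k + 1 : ℕ) : ℤ) = o + k + 1 by push_cast; ring, gz_succ, map_add, map_mul,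
      map_div₀, map_add, Complex.conj_ofReal]
    have h2 : (starRingEnd ℂ) 2 = 2 := map_ofNat _ 2
    rw [h2]
    ring
  refine ⟨hh, fun k _ hs => av_str D P Hs b hM hA0 r o hs, fun k _ hs => ?_, fun k _ _ => ?_,
    fun k _ => ?_, hc, hx⟩
  · rw [hst k]
    have h1 : ge W (o + k) = ge W (o + k - 1) := by
      have := ge_succ P (o + k - 1)
      rw [sub_add_cancel, hs.1] at this
      simpa [rot] using this
    have h2 : ge W (o + k + 1) = ge W (o + k) := by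
      have := ge_succ P (o + k)
      rw [hs.2.1] at this
      simpa [rot] using this
    rw [h2, h1]
    ring
  · rw [RCLike.norm_conj]
    exact norm_ge P _
  · rw [hst k, norm_mul, Complex.norm_real, Real.norm_eq_abs, abs_of_pos hh, norm_div]
    have h1 := norm_add_le ((starRingEnd ℂ) (ge W (o + k))) ((starRingEnd ℂ) (ge W (o + k + 1)))
    rw [RCLike.norm_conj, RCLike.norm_conj, norm_ge P, norm_ge P] at h1
    have h2 : ‖(2 : ℂ)‖ = 2 := by simp
    rw [h2]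
    have h3 : D.h * (‖(starRingEnd ℂ) (ge W (o + ↑k)) + (starRingEnd ℂ) (ge W (o + ↑k + 1))‖ / 2)
        ≤ D.h * 1 := mul_le_mul_of_nonneg_left (by linarith) hh.le
    linarith

/-- **`Cyc`** on the closed path -/
theorem cyc : ∃ C₀ : ℝ, 0 ≤ C₀ ∧ ∀ {ε : ℝ} {T : Tpl ε (Tn × Bool)} {M : ℕ} {W : ℤ → ℤ × ℤ}
    [Fintype (ZMod M)] {D : DT} (P : FPath M W) (Hs : Std T D.A' D.B' D.h Prod.fst) (b : Bool),
    Pr M 3 → ∫⁻ ω, T.A (cfg ε ω) ∂sampleLaw ≠ 0 → ∀ {I₁ J₁ : ℕ → Finset (ZMod M)}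
    {Dd : ℕ → Set ℂ} {d s : ℝ} {B : Set ℂ} {m0 : ℝ≥0∞} {o : ℤ} {r K : ℝ},
    Wnd (rpth P Hs b).net Finset.univ Finset.univ M I₁ J₁ Dd d s B m0 → 0 ≤ K →
    (∀ k < M, Qn (rpth P Hs b).net Finset.univ (I₁ k) Finset.univ (J₁ k) (Dd k) d B K
      (Vk D P r o k)) →
    Cyc (rpth P Hs b).net Finset.univ Finset.univ M 4 (K * (C₀ * s ^ 2 / m0.toReal)) (Vk D P r o)
      (II M o) (JJ M o) := by
  obtain ⟨C₀, hC₀, h⟩ := cyc_of
  refine ⟨C₀, hC₀, ?_⟩
  intro ε T M W _ D P Hs b hM hA0 I₁ J₁ Dd d s B m0 o r K hW hK hQ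
  exact h hW K hK (Vk D P r o) (II M o) (JJ M o) 4 (gK_ne P Hs b hA0)
    (fun _ _ => Finset.subset_univ _) (fun _ _ => Finset.subset_univ _)
    (fun k _ => N_sub P Hs b o k) (fun k _ => vk_local D P Hs b hM r o k)
    (fun k _ => vk_fm D P r o k)
    (fun k l h1 _ h3 => ⟨dis_II h1 (by omega), dis_JJ h1 (by omega)⟩) hQ

end Crest.Agent.R143.RingNx239
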