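import Crest.Agent.R143.RingN_715

/-!
# Row 143 (S0194), block H, H5: the marked ring loop from any start state (helper715)

Absolute times of the ring loop with the tiles `TL` (base gate `0`); the start of the exploration is
the state `P M x p m` between the gates `v₀` and `v`, the marks are the absolute times `t₁`, `t₂`
(`t₃`) between gates `l j` and `u j`; all the gate indices may be larger than `n` (one or two turns).
* `AG` : absolute gap times of the block; `ga_of` : one in every tile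
* **`rk_of`** : the fields of 565's `RingK` for the start `m` and the marks `t₁ < t₂`
* **`nk_of`** : the fields of his `NextK` (next start `m'` between `t₁` and `t₂`)
* **`rg3_o`**, `mko_of`, **`gc_reg_o`**, **`gc_own_o`** : 828's three patterns with the start `m`
-/

set_option autoImplicit false
set_option linter.unusedSectionVars false

noncomputable section

open scoped Classical

namespace Crest.Agent.R143.RingOx715

open Crest.Agent.R143.Frame1x395 Crest.Agent.R143.Frame2x395 Crest.Agent.R143.Frame3x395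
  Crest.Agent.R143.Frame8x395 Crest.Agent.R143.Frame9x395 Crest.Agent.R143.Frame11x395
  Crest.Agent.R143.NonXx592 Crest.Agent.R143.Junx43 Crest.Agent.R143.Patx828
  Crest.Agent.R143.HullKx715 Crest.Agent.R143.Jun3x565 Crest.Agent.R143.RingMx715
  Crest.Agent.R143.RingNx715
open Crest.Agent.R143.Chordx355 (lc gt rho_gt Sep)
open Crest.Agent.R143.Splx117 (gp)

variable {D C : Type} {M : CMap D C} {x : D → ZMod 2} {p : D} {N n : ℕ} {T : ℕ → ℕ}
  {Reg : ℕ → Set C} {c : C} {g₀ : D}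

/-! ### absolute times -/

/-- absolute gap times of the block -/
def AG (M : CMap D C) (x : D → ZMod 2) (p g₀ : D) (a : ℕ) : Prop :=
  Gp M x (gt M x p a) ∧ Rel M x g₀ (gt M x p a)

theorem ag_per (L : Chordx355.Lp M x p N) (a : ℕ) : AG M x p g₀ (a + N) ↔ AG M x p g₀ a := by
  unfold AG Chordx355.gt
  rw [P_per L.per]

theorem st_abs {m s : ℕ} : s ∈ St M x (P M x p m) N g₀ ↔ s < N ∧ AG M x p g₀ (s + m) := by
  show (s < N ∧ Gp M x (gt M x (P M x p m) s) ∧ Rel M x g₀ (gt M x (P M x p m) s)) ↔ _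
  rw [gt_sh]
  exact Iff.rfl

/-- **a gap of the block in every tile** -/
theorem ga_of (L : Chordx355.Lp M x p N) (R : TL M x p N n T Reg)
    (G : GT n T (St M x p N g₀)) (k : ℕ) : ∃ a, AG M x p g₀ a ∧ T k ≤ a ∧ a < T (k + 1) := by
  induction k using Nat.strong_induction_on with
  | _ k ih =>
    rcases Nat.lt_or_ge k n with h | h
    · obtain ⟨s, a1, a2, a3⟩ := G k h
      exact ⟨s, a1.2, a2, a3⟩
    · have hn : 0 < n := by
        rcases Nat.eq_zero_or_pos n with h0 | h0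
        · exfalso
          have h1 := R.per 0
          rw [h0, add_zero] at h1
          have := L.pos
          omega
        · exact h0
      obtain ⟨a, a1, a2, a3⟩ := ih (k - n) (by omega)
      have h1 := R.per (k - n)
      have h2 := R.per (k - n + 1)
      rw [Nat.sub_add_cancel h] at h1
      rw [show k - n + 1 + n = k + 1 by omega] at h2
      exact ⟨a + N, (ag_per L a).2 a1, by omega, by omega⟩

theorem tc_sh {m s : ℕ} : Tc M x (P M x p m) s c ↔ Tc M x p (s + m) c := by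
  unfold Tc
  rw [lc_sh, rc_sh]

/-- the cells touched from the start `m` up to the absolute time `t` -/
theorem tch_abs {m t : ℕ} (h : m ≤ t) :
    c ∈ Tch M x (P M x p m) (t - m) ↔ ∃ a, m ≤ a ∧ a ≤ t ∧ Tc M x p a c := by
  constructor
  · rintro ⟨u, hu, h1⟩
    exact ⟨u + m, by omega, by omega, tc_sh.1 h1⟩
  · rintro ⟨a, a1, a2, a3⟩
    refine ⟨a - m, by omega, tc_sh.2 ?_⟩
    rw [Nat.sub_add_cancel a1]
    exact a3

/-! ### the fields of `RingK` -/

/-- one marked exploration (fields of 565's `RingK`) -/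
structure RK (M : CMap D C) (χ : C → ZMod 2) (p : D) (N T₁ T₂ a₂ : ℕ) (S : Set ℕ) (Q : Set C) :
    Prop where
  lp : Chordx355.Lp M (cfg M χ) p N
  sN : ∀ s ∈ S, s < N
  sep : ∀ s ∈ S, ∀ s' ∈ S, s < s' → Sep (lc M (cfg M χ) p) N s s'
  nxt : ∀ s ∈ S, ∃ s' ∈ S, lc M (cfg M χ) p s' = lc M (cfg M χ) p (s + 1)
  prv : ∀ s ∈ S, ∃ s' ∈ S, lc M (cfg M χ) p (s' + 1) = lc M (cfg M χ) p s
  e0 : ∃ s ∈ S, s < T₁
  e1 : ∃ s ∈ S, T₁ ≤ s ∧ s < T₂
  e2 : ∃ s ∈ S, T₂ ≤ s ∧ s < a₂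
  h1 : T₁ ≤ T₂
  h2 : T₂ ≤ a₂
  h3 : a₂ ≤ N
  oq : ∀ s, T₁ ≤ s → s ≤ T₂ → lc M (cfg M χ) p s ∉ Q ∧ rc M (cfg M χ) p s ∉ Q
  o2 : ∀ s, a₂ ≤ s → s < N →
    lc M (cfg M χ) p s ∉ Ov M (cfg M χ) p Q T₂ \ Ov M (cfg M χ) p Q T₁ ∧
    rc M (cfg M χ) p s ∉ Ov M (cfg M χ) p Q T₂ \ Ov M (cfg M χ) p Q T₁

section rk

variable [Fintype D] {χ : C → ZMod 2} {Q : Set C} {v l₁ u₁ l₂ u₂ m t₁ t₂ : ℕ}

/-- **the fields of `RingK`** : start `m ≤ T v`, marks `t₁ ∈ [T l₁, T u₁]`, `t₂ ∈ [T l₂, T u₂]` -/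
theorem rk_of (L : Chordx355.Lp M (cfg M χ) p N) (R : TL M (cfg M χ) p N n T Reg)
    (hg : Gp M (cfg M χ) g₀) (G : GT n T (St M (cfg M χ) p N g₀)) {v₀ : ℕ} (hv₀ : T v₀ ≤ m)
    (hv : m ≤ T v) (h1 : v + 1 ≤ l₁) (h1u : l₁ ≤ u₁) (h12 : u₁ + 1 ≤ l₂) (h2u : l₂ ≤ u₂)
    (h2 : u₂ + 1 ≤ v₀ + n) (lo1 : T l₁ ≤ t₁) (hi1 : t₁ ≤ T u₁) (lo2 : T l₂ ≤ t₂)
    (hi2 : t₂ ≤ T u₂) (hQ : ∀ k, l₁ ≤ k → k < u₂ → Disjoint (Reg k) Q) :
    RK M χ (P M (cfg M χ) p m) N (t₁ - m) (t₂ - m) (T (u₂ + 1) - m)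
      (St M (cfg M χ) (P M (cfg M χ) p m) N g₀) Q := by
  have L' := lp_shift L m
  have hN : T (u₂ + 1) ≤ m + N := by
    have h3 := R.le h2
    rw [R.per] at h3
    omega
  have hvl : T (v + 1) ≤ T l₁ := R.le h1
  have hvm : T v ≤ T (v + 1) := R.le (by omega)
  have b1 := R.le h1u
  have b2 := R.le h12
  have b3 := R.le h2u
  have b4 : T u₁ ≤ T (u₁ + 1) := R.le (by omega)
  have b5 : T u₂ < T (u₂ + 1) := R.mono (by omega)
  have gap : ∀ k, v ≤ k → k ≤ u₂ → ∃ s ∈ St M (cfg M χ) (P M (cfg M χ) p m) N g₀,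
      T k ≤ s + m ∧ s + m < T (k + 1) := by
    intro k hk hk'
    obtain ⟨a, a1, a2, a3⟩ := ga_of L R G k
    have h3 := R.le hk
    have h4 := R.le (show k + 1 ≤ u₂ + 1 by omega)
    refine ⟨a - m, st_abs.2 ⟨by omega, ?_⟩, by omega, by omega⟩
    rw [Nat.sub_add_cancel (by omega)]
    exact a1
  refine ⟨L', fun s hs => hs.1, fun s hs s' hs' h => St.sep L' hg hs hs' h,
    fun s hs => St.nxt L' hg hs, fun s hs => St.prv L' hg hs, ?_, ?_, ?_, by omega, by omega,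
    by omega, ?_, ?_⟩
  · obtain ⟨s, a1, a2, a3⟩ := gap v le_rfl (by omega)
    exact ⟨s, a1, by omega⟩
  · obtain ⟨s, a1, a2, a3⟩ := gap u₁ (by omega) (by omega)
    exact ⟨s, a1, by omega, by omega⟩
  · obtain ⟨s, a1, a2, a3⟩ := gap u₂ (by omega) le_rfl
    exact ⟨s, a1, by omega, by omega⟩
  · intro s h4 h5
    have key : ∀ c, Tc M (cfg M χ) (P M (cfg M χ) p m) s c → c ∉ Q := by
      intro c hc hq
      obtain ⟨k, a1, a2, a3⟩ := R.breg (a := l₁) (b := u₂) (t := s + m) (by omega) (by omega)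
        (by omega) (tc_sh.1 hc)
      exact Set.disjoint_left.1 (hQ k a1 a2) a3 hq
    exact ⟨key _ (Or.inl rfl), key _ (Or.inr rfl)⟩
  · intro s h4 h5
    have hper := R.per v
    have key : ∀ c, Tc M (cfg M χ) (P M (cfg M χ) p m) s c →
        c ∉ Ov M (cfg M χ) (P M (cfg M χ) p m) Q (t₂ - m) \
          Ov M (cfg M χ) (P M (cfg M χ) p m) Q (t₁ - m) := by
      rintro c hc ⟨h6 | h6, h7⟩
      · exact h7 (Or.inl h6)
      · obtain ⟨a, a1, a2, a3⟩ := (tch_abs (by omega)).1 h6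
        have h8 : t₁ < a := by
          by_contra h9
          exact h7 (Or.inr ((tch_abs (by omega)).2 ⟨a, a1, by omega, a3⟩))
        have h10 : u₂ + 1 < v + n := by
          by_contra h11
          have := R.le (show v + n ≤ u₂ + 1 by omega)
          omega
        exact R.far (a := l₁) (b := u₂) (a' := u₂ + 1) (b' := v + n) (by omega) (by omega)
          h10 (by omega) (t := a) (t' := s + m) (by omega) (by omega) (by omega)
          (by omega) a3 (tc_sh.1 hc)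
    exact ⟨key _ (Or.inl rfl), key _ (Or.inr rfl)⟩

/-- **the locality field of `NextK`** : the next start `m'` is before the gate `l₂ - 1`; the cells seen
in the window of the mark `t₂` and touched before `t₂` are touched after `m'` -/
theorem loc_of (R : TL M x p N n T Reg) {v₀ : ℕ} (hv₀ : T v₀ ≤ m) (h2 : u₂ + 2 ≤ v₀ + n)
    (h0 : v₀ + 1 ≤ l₂) (h2u : l₂ ≤ u₂) (hi2 : t₂ ≤ T u₂) (lo2 : T l₂ ≤ t₂) {m' : ℕ}
    (hm : m ≤ m') (hm' : m' ≤ T (l₂ - 1)) {s : ℕ} (h3 : t₂ - m ≤ s) (h4 : s < T (u₂ + 1) - m)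
    (h : Tc M x (P M x p m) s c) (h' : c ∈ Tch M x (P M x p m) (t₂ - m)) :
    c ∈ Tch M x (P M x p m') (t₂ - m') := by
  have e1 : T (l₂ - 1) ≤ T l₂ := R.le (by omega)
  have e2 : T v₀ ≤ T l₂ := R.le (by omega)
  obtain ⟨a, a1, a2, a3⟩ := (tch_abs (by omega)).1 h'
  refine (tch_abs (by omega)).2 ⟨a, ?_, a2, a3⟩
  by_contra hc
  push Not at hc
  have hm1 : v₀ < l₂ - 1 := by
    by_contra h5
    have : T (l₂ - 1) ≤ T v₀ := R.le (by omega)
    omega
  exact R.far (a := v₀) (b := l₂ - 1) (a' := l₂) (b' := u₂ + 1) hm1 (by omega) (by omega)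
    (by omega) (t := a) (t' := s + m) (by omega) (by omega) (by omega) (by omega) a3
    (tc_sh.1 h)

/-- the shift field of `NextK` -/
theorem shift_of {m' s : ℕ} (hm : m ≤ m') (hs : s ∈ St M x (P M x p m) N g₀)
    (h : m' - m ≤ s) : s - (m' - m) ∈ St M x (P M x p m') N g₀ := by
  obtain ⟨h1, h2⟩ := st_abs.1 hs
  refine st_abs.2 ⟨by omega, ?_⟩
  rw [show s - (m' - m) + m' = s + m by omega]
  exact h2

/-- the next start as a state of the first walk -/
theorem next_start {m' : ℕ} (hm : m ≤ m') :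
    P M x p m' = P M x (P M x p m) (m' - m) := by
  rw [← P_add, Nat.sub_add_cancel hm]

end rk

/-! ### 828's three patterns from the start `m` -/

/-- the three marks `t j` (absolute) after the start `m` -/
structure M3o (n : ℕ) (T : ℕ → ℕ) (v m : ℕ) (l u t : ZMod 3 → ℕ) : Prop where
  hv : m ≤ T v
  l0 : v ≤ l 0
  lu : ∀ j, l j ≤ u j
  u01 : u 0 + 1 ≤ l 1
  u12 : u 1 + 1 ≤ l 2
  lo : ∀ j, T (l j) ≤ t j
  hi : ∀ j, t j ≤ T (u j)

variable {v v₀ m s : ℕ} {l u t q r : ZMod 3 → ℕ} {i j : ZMod 3}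

/-- first gap at or after the mark, relative time -/
theorem fg_o (L : Chordx355.Lp M x p N) (R : TL M x p N n T Reg)
    (G : GT n T (St M x p N g₀)) {k a : ℕ} (hv₀ : T v₀ ≤ m) (hk : k + 1 ≤ v₀ + n) (hm : m ≤ a)
    (ha : a ≤ T k) :
    fg (St M x (P M x p m) N g₀) (a - m) ∈ St M x (P M x p m) N g₀ ∧
      a ≤ fg (St M x (P M x p m) N g₀) (a - m) + m ∧
      fg (St M x (P M x p m) N g₀) (a - m) + m < T (k + 1) := by
  obtain ⟨b, b1, b2, b3⟩ := ga_of L R G k
  have h3 := R.le hk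
  rw [R.per] at h3
  have h4 : b - m ∈ St M x (P M x p m) N g₀ := st_abs.2 ⟨by omega, by
    rw [Nat.sub_add_cancel (by omega)]; exact b1⟩
  obtain ⟨h5, h6⟩ := fg_mem h4 (show a - m ≤ b - m by omega)
  have h7 := fg_le h4 (show a - m ≤ b - m by omega)
  exact ⟨h5, by omega, by omega⟩

/-- **828's `Rg3`**, start `m`, `r j` = first gap of the block at or after the mark `j` -/
theorem rg3_o [Fintype D] {χ : C → ZMod 2} (L : Chordx355.Lp M (cfg M χ) p N)
    (hcol : χ (M.cell p) = 1) (R : TL M (cfg M χ) p N n T Reg) (hg : Gp M (cfg M χ) g₀)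
    (G : GT n T (St M (cfg M χ) p N g₀)) (hv₀ : T v₀ ≤ m) (hn : u 2 + 1 ≤ v₀ + n)
    (H : M3o n T v m l u t) :
    Rg3 M χ (P M (cfg M χ) p m) N
      fun j => fg (St M (cfg M χ) (P M (cfg M χ) p m) N g₀) (t j - m) := by
  set S := St M (cfg M χ) (P M (cfg M χ) p m) N g₀ with hS
  have e0 := H.u01
  have e1 := H.u12
  have f1 := H.lu 1
  have f2 := H.lu 2
  have k0 := H.l0
  have lo := H.lo
  have g0 : m ≤ t 0 := H.hv.trans ((R.le k0).trans (lo 0))
  have g1 := (R.le e0).trans (lo 1)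
  have g2 := (R.le e1).trans (lo 2)
  have g3 : T (u 0) ≤ T (u 0 + 1) := R.le (by omega)
  have g4 : T (u 1) ≤ T (u 1 + 1) := R.le (by omega)
  have hi := H.hi
  have hi0 := hi 0
  have hi1 := hi 1
  obtain ⟨a0, b0, c0⟩ := fg_o (m := m) L R G (k := u 0) (a := t 0) hv₀ (by omega) g0 (hi 0)
  obtain ⟨a1, b1, c1⟩ := fg_o (m := m) L R G (k := u 1) (a := t 1) hv₀ (by omega) (by omega)
    (hi 1)
  obtain ⟨a2, b2, c2⟩ := fg_o (m := m) L R G (k := u 2) (a := t 2) hv₀ (by omega) (by omega)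
    (hi 2)
  have hG : ∀ {s}, s ∈ S → Gp M (cfg M χ) (gp M (cfg M χ) (P M (cfg M χ) p m) s) :=
    fun h => h.2.1
  have hR : ∀ {s t}, s ∈ S → t ∈ S → Rel M (cfg M χ) (gp M (cfg M χ) (P M (cfg M χ) p m) s)
      (gp M (cfg M χ) (P M (cfg M χ) p m) t) := fun h h' =>
    rel_trans L.ev h.2.1 hg h'.2.1 (rel_symm h.2.2) h'.2.2
  have hc : χ (M.cell (P M (cfg M χ) p m)) = 1 := (col_l L.occ m).trans hcol
  refine ⟨lp117 (lp_shift L m), hc, ?_, ?_, ?_, ?_, hR a0 a1, hR a1 a2⟩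
  · show fg S (t 0 - m) < fg S (t 1 - m)
    rw [← hS] at b1 c0
    omega
  · show fg S (t 1 - m) < fg S (t 2 - m)
    rw [← hS] at b2 c1
    omega
  · exact a2.1
  · intro j
    rcases z3e j with rfl | rfl | rfl
    · exact (hG a0).1
    · exact (hG a1).1
    · exact (hG a2).1

/-- the block gaps `r j` (relative to the start `m`) are within `s` tiles of the marks `T (q j)` -/
structure Mko (n : ℕ) (T : ℕ → ℕ) (m : ℕ) (q : ZMod 3 → ℕ) (s : ℕ) (r : ZMod 3 → ℕ) : Prop where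
  q0 : s ≤ q 0
  q01 : q 0 + 2 * s < q 1
  q12 : q 1 + 2 * s < q 2
  q2 : q 2 + 2 * s < q 0 + n
  lo : ∀ j, T (q j - s) ≤ r j + m
  hi : ∀ j, r j + m ≤ T (q j + s)

/-- the first gaps are near the marks -/
theorem mko_of (L : Chordx355.Lp M x p N) (R : TL M x p N n T Reg)
    (G : GT n T (St M x p N g₀)) (hv₀ : T v₀ ≤ m) (hn : u 2 + 1 ≤ v₀ + n)
    (H : M3o n T v m l u t) (ql : ∀ j, q j ≤ l j + s) (qu : ∀ j, u j + 1 ≤ q j + s)
    (q0 : s ≤ q 0) (q01 : q 0 + 2 * s < q 1) (q12 : q 1 + 2 * s < q 2)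
    (q2 : q 2 + 2 * s < q 0 + n) :
    Mko n T m q s fun j => fg (St M x (P M x p m) N g₀) (t j - m) := by
  have e0 := H.u01
  have e1 := H.u12
  have f0 := H.lu 0
  have f1 := H.lu 1
  have f2 := H.lu 2
  have k0 := H.l0
  have hv := H.hv
  have key : ∀ j, u j + 1 ≤ v₀ + n ∧ m ≤ t j := by
    have h0 : ∀ j, v ≤ l j → m ≤ t j := fun j hj => hv.trans ((R.le hj).trans (H.lo j))
    intro j
    rcases z3e j with rfl | rfl | rfl
    · exact ⟨by omega, h0 _ (by omega)⟩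
    · exact ⟨by omega, h0 _ (by omega)⟩
    · exact ⟨by omega, h0 _ (by omega)⟩
  refine ⟨q0, q01, q12, q2, fun j => ?_, fun j => ?_⟩
  · have h1 := ql j
    exact (R.le (show q j - s ≤ l j by omega)).trans
      ((H.lo j).trans (fg_o (m := m) L R G hv₀ (key j).1 (key j).2 (H.hi j)).2.1)
  · exact (fg_o (m := m) L R G hv₀ (key j).1 (key j).2 (H.hi j)).2.2.le.trans (R.le (qu j))

/-- **(S2)** the left cells of the arc `j` are in the tiles of the arc `j`, start `m` -/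
theorem gc_reg_o (R : TL M x p N n T Reg) (K : Mko n T m q s r)
    (h : c ∈ Gc M x (P M x p m) N r j) : ∃ k, Rt n q s j k ∧ c ∈ Reg k := by
  obtain ⟨w, hw, rfl⟩ := h
  have k0 := K.q0
  have k1 := K.q01
  have k2 := K.q12
  have k3 := K.q2
  have lo := K.lo
  have hi := K.hi
  have e : Tc M x p (w + m) (Flipx166.lc M x (P M x p m) w) := tc_sh.1 (Or.inl rfl)
  rcases z3e j with rfl | rfl | rfl
  · rw [ti0] at hw
    have l1 := lo 0; have l2 := hi 1
    obtain ⟨k, a1, a2, a3⟩ := R.breg (a := q 0 - s) (b := q 1 + s) (t := w + m) (by omega)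
      (by omega) (by omega) e
    exact ⟨k, rt0.2 ⟨by omega, a2⟩, a3⟩
  · rw [ti1] at hw
    have l1 := lo 1; have l2 := hi 2
    obtain ⟨k, a1, a2, a3⟩ := R.breg (a := q 1 - s) (b := q 2 + s) (t := w + m) (by omega)
      (by omega) (by omega) e
    exact ⟨k, rt1.2 ⟨by omega, a2⟩, a3⟩
  · rw [ti2] at hw
    have l1 := lo 2; have l2 := hi 0
    have h1 : T (q 0 + s + n) = T (q 0 + s) + N := R.per _
    obtain ⟨k, a1, a2, a3⟩ := R.breg (a := q 2 - s) (b := q 0 + s + n) (t := w + m) (by omega)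
      (by omega) (by omega) e
    exact ⟨k, rt2.2 ⟨by omega, by omega⟩, a3⟩

/-- **a left cell in a tile inside the arc `j` is in `Gc j` only** (`s + 1` tiles from the marks) -/
theorem gc_own_o (R : TL M x p N n T Reg) (K : Mko n T m q s r)
    (h : c ∈ Gc M x (P M x p m) N r i) {b : ℕ}
    (hl : c ∈ Reg b) (hj : if j = 0 then q 0 + s + 1 ≤ b ∧ b + s + 1 < q 1 else
      if j = 1 then q 1 + s + 1 ≤ b ∧ b + s + 1 < q 2 else
      q 2 + s + 1 ≤ b ∧ b + s + 1 < n + q 0) : i = j := by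
  obtain ⟨k, hk, hc⟩ := gc_reg_o R K h
  have k0 := K.q0
  have k1 := K.q01
  have k2 := K.q12
  have k3 := K.q2
  have nb : ∀ {a b : ℕ}, c ∈ Reg a → c ∈ Reg b → a ≤ b → b < a + n → b ≤ a + 1 ∨ a + n ≤ b + 1 :=
    fun ha hb h1 h2 => R.nb h1 h2 ha hb
  rcases z3e j with rfl | rfl | rfl <;> rcases z3e i with rfl | rfl | rfl
  · rfl
  · exfalso
    rw [if_pos rfl] at hj
    rw [rt1] at hk
    rcases nb hl hc (by omega) (by omega) with h1 | h1 <;> omega
  · exfalso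
    rw [if_pos rfl] at hj
    rw [rt2] at hk
    rcases nb hl hc (by omega) (by omega) with h1 | h1 <;> omega
  · exfalso
    rw [if_neg (by decide), if_pos rfl] at hj
    rw [rt0] at hk
    rcases nb hc hl (by omega) (by omega) with h1 | h1 <;> omega
  · rfl
  · exfalso
    rw [if_neg (by decide), if_pos rfl] at hj
    rw [rt2] at hk
    rcases nb hl hc (by omega) (by omega) with h1 | h1 <;> omega
  · exfalso
    rw [if_neg (by decide), if_neg (by decide)] at hj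
    rw [rt0] at hk
    rcases nb hc hl (by omega) (by omega) with h1 | h1 <;> omega
  · exfalso
    rw [if_neg (by decide), if_neg (by decide)] at hj
    rw [rt1] at hk
    rcases nb hc hl (by omega) (by omega) with h1 | h1 <;> omega
  · rfl

end Crest.Agent.R143.RingOx715
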