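import Crest.Agent.R143.RingF_820
import Crest.Agent.R143.Two3_565
import Crest.Agent.R143.RingO_715
import Crest.Agent.R143.FlipM_357

/-!
# Row 143 (S0194), block H, box (P) of 4110 (helper820): instance for 565's `RingK` on 715's tiles

* `OutK`, `InK1`, **`ring_pcK`**, **`pcs_of_ringK`** : the pieces of the outer arc and of the inverted
  arc of 565's `RingK` in the flipped configuration; `Pcs` (reference state `d₀` on the outer arc)
* **`run_arc`** : the strand inside a run of tiles of 715's `TL` is an arc between the neighbouring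
  gates
* `fI` : inversion of several strands, `gi_blind`
* `flO_flS` : the flip between two stopping sets inside `O` is a flip `FlO`
* **`ring_cv3`** : (P) with several inverted strands
-/

set_option autoImplicit false
set_option linter.unusedSectionVars false

noncomputable section

open scoped Classical

namespace Crest.Agent.R143.RingPx820

open Crest.Agent.R143.Frame1x395 Crest.Agent.R143.Frame2x395 Crest.Agent.R143.Frame3x395
  Crest.Agent.R143.Frame4x395 Crest.Agent.R143.Frame8x395 Crest.Agent.R143.Frame11x395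
  Crest.Agent.R143.NonXx592 Crest.Agent.R143.Coarsex166 Crest.Agent.R143.Giantx46
  Crest.Agent.R143.Resax778 Crest.Agent.R143.Partx778 Crest.Agent.R143.Chordx355
  Crest.Agent.R143.ChordCx357 Crest.Agent.R143.Chord2x355 Crest.Agent.R143.CFramex358
  Crest.Agent.R143.Runx535 Crest.Agent.R143.Gntx535 Crest.Agent.R143.Relx352
  Crest.Agent.R143.Rel2x352 Crest.Agent.R143.FlPx820 Crest.Agent.R143.Junx43
  Crest.Agent.R143.Tentx820 Crest.Agent.R143.Strandx535 Crest.Agent.R143.StrUx535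
  Crest.Agent.R143.RingFx820 Crest.Agent.R143.Jun3x565
open Crest.Agent.R143.Two3x565 (RingK FlK JdK Dk alnK flk_on_l flk_off_l flk_off_r)
open Crest.Agent.R143.HullKx715 (TL Tc)
open Crest.Agent.R143.RingOx715 (tch_abs tc_sh)
open Crest.Agent.R143.FlipMx357 (flS flS_on flS_off flS_bij)

variable {D C : Type} {M : CMap D C}

/-! ### the pieces of `RingK` in the flipped configuration -/

section ringK

variable [Fintype D] {χ χ' : C → ZMod 2} {p : D} {N T₁ T₂ a : ℕ} {S : Set ℕ} {Q : Set C}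

/-- a piece of the outer arc -/
def OutK (M : CMap D C) (χ : C → ZMod 2) (p : D) (N T₁ a : ℕ) (q : D) (n : ℕ) : Prop :=
  ∃ u, u + n ≤ alnK N T₁ a ∧ q = P M (cfg M χ) p (a + u)

/-- a piece of the inverted arc which contains a gap of the block -/
def InK1 (M : CMap D C) (χ : C → ZMod 2) (p : D) (T₁ T₂ : ℕ) (S : Set ℕ) (Q : Set C) (q : D)
    (n : ℕ) : Prop :=
  ∃ v, q = P M (cfg M χ) p v ∧ (∀ u, v ≤ u → u ≤ v + n →
    lc M (cfg M χ) p u ∈ Dk M (cfg M χ) p Q T₁ T₂ ∧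
    rc M (cfg M χ) p u ∈ Dk M (cfg M χ) p Q T₁ T₂) ∧ ∃ s ∈ S, v ≤ s ∧ s ≤ v + n

/-- **the pieces of the ring loop in the flipped configuration** -/
theorem ring_pcK (R : RingK M χ p N T₁ T₂ a S Q) (F : FlK M χ p Q T₁ T₂ χ')
    (J : JdK M χ p T₁ T₂ a S Q χ') {d₀ : D} (h0 : OutK M χ p N T₁ a d₀ 0) {q : D} {n : ℕ}
    (h : OutK M χ p N T₁ a q n ∨ InK1 M χ p T₁ T₂ S Q q n) :
    (cfg M χ' q = 1 ∧ ∀ u, u ≤ n → P M (cfg M χ') q u = P M (cfg M χ) q u) ∧
      (Con M (cfg M χ') (M.cell (M.rho d₀)) (M.cell (M.rho q)) ∨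
      Con M (cfg M χ') (M.cell (M.rho d₀)) (M.cell q)) := by
  have h2 : ∀ u, u ≤ alnK N T₁ a →
      χ' (lc M (cfg M χ) p (a + u)) = χ (lc M (cfg M χ) p (a + u)) + 0 ∧
      χ' (rc M (cfg M χ) p (a + u)) = χ (rc M (cfg M χ) p (a + u)) + 0 := by
    intro u hu
    obtain ⟨h3, h4⟩ := R.arc_off hu
    rw [add_zero, add_zero]
    exact ⟨flk_off_l F h3, flk_off_r F h4⟩
  have h5 := piece2 (χ' := χ') R.lp.occ (c := 0) (a := a) (m := alnK N T₁ a) fun u h3 h4 => by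
    obtain ⟨t, rfl⟩ := Nat.exists_eq_add_of_le h3
    exact h2 t (by omega)
  have hR : ∀ u, u ≤ alnK N T₁ a →
      Con M (cfg M χ') (rc M (cfg M χ) p a) (rc M (cfg M χ) p (a + u)) := by
    intro u hu
    have h6 := con_right (cfg_isC χ') h5.1 u
    rw [h5.2 u hu, ← P_add, add_comm] at h6
    exact h6
  obtain ⟨w₀, hw₀, rfl⟩ := h0
  have hd0 : Con M (cfg M χ') (M.cell (M.rho (P M (cfg M χ) p (a + w₀)))) (rc M (cfg M χ) p a) :=
    con_symm (hR w₀ (by omega))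
  rcases h with ⟨u₀, hu₀, rfl⟩ | ⟨v, rfl, h1, s, hs, hs1, hs2⟩
  · refine ⟨piece2 R.lp.occ (c := 0) fun u h3 h4 => ?_, Or.inl ?_⟩
    · obtain ⟨t, rfl⟩ := Nat.exists_eq_add_of_le h3
      rw [Nat.add_assoc]
      exact h2 (u₀ + t) (by omega)
    · exact con_trans hd0 (hR u₀ (by omega))
  · have h7 : ∀ u, v ≤ u → u ≤ v + n →
        χ' (lc M (cfg M χ) p u) = χ (lc M (cfg M χ) p u) + 1 ∧
        χ' (rc M (cfg M χ) p u) = χ (rc M (cfg M χ) p u) + 1 := by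
      intro u h3 h4
      obtain ⟨h5, h6⟩ := h1 u h3 h4
      rw [(F u).1, (F u).2, if_pos h5, if_pos h6]
      exact ⟨rfl, rfl⟩
    refine ⟨piece2 R.lp.occ (c := 1) h7, Or.inr ?_⟩
    refine con_trans hd0 (con_trans (J s hs (h1 s hs1 hs2).1) ?_)
    refine con_l' R.lp.occ (χ' := χ') (m := v) (n := v + n) (a := χ (M.cell p) + 1)
      (fun u h3 h4 => ?_) hs1 hs2 (v := v) le_rfl (by omega)
    rw [(h7 u h3 h4).1, col_l R.lp.occ]

/-- **the joined strands from `RingK`** -/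
theorem pcs_of_ringK {ι : Type} (R : RingK M χ p N T₁ T₂ a S Q) (F : FlK M χ p Q T₁ T₂ χ')
    (J : JdK M χ p T₁ T₂ a S Q χ') {d₀ : D} (h0 : OutK M χ p N T₁ a d₀ 0) {d : ι → D}
    {Rt : ι → Set C} (hd : ∀ i, cfg M χ (d i) = 1)
    (h : ∀ i, ∃ e n, IsArc M (cfg M χ) (Rt i) e n ∧ Str M (cfg M χ) (Rt i) (d i) e ∧
      (OutK M χ p N T₁ a e n ∨ InK1 M χ p T₁ T₂ S Q e n)) :
    Pcs M χ' d₀ d Rt := by
  have hocc : cfg M χ' d₀ = 1 := (ring_pcK R F J h0 (Or.inl h0)).1.1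
  have key : ∀ i, ∃ e n, IsArc M (cfg M χ') (Rt i) e n ∧ Str M (cfg M χ') (Rt i) (d i) e ∧
      cfg M χ' (d i) = 1 ∧
      (Con M (cfg M χ') (M.cell (M.rho d₀)) (M.cell (M.rho e)) ∨
      Con M (cfg M χ') (M.cell (M.rho d₀)) (M.cell e)) := by
    intro i
    obtain ⟨e, n, A, s, hp⟩ := h i
    obtain ⟨⟨h1, h2⟩, h3⟩ := ring_pcK R F J h0 hp
    have A' : IsArc M (cfg M χ') (Rt i) e n := by
      refine isArc_of (cfg_isC χ') h1 (A.mem 0 (Nat.zero_le n)).1 (A.mem 0 (Nat.zero_le n)).2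
        (fun j hj => ?_) ?_ A.nfc'
      · rw [h2 j hj.le]; exact A.fc hj
      · rw [h2 n le_rfl]; exact A.nfc
    obtain ⟨t, ht, et⟩ := A.iff0.1 (str_symm A.even (hd i) s)
    have et' : P M (cfg M χ') e t = d i := by rw [h2 t ht]; exact et
    have s' : Str M (cfg M χ') (Rt i) e (d i) := A'.iff0.2 ⟨t, ht, et'⟩
    refine ⟨e, n, A', str_symm A'.even A'.occ s', ?_, h3⟩
    rw [← et']
    exact P_occ A'.even A'.occ t
  exact ⟨hocc, fun i => by obtain ⟨_, _, _, _, h4, _⟩ := key i; exact h4,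
    fun i => by obtain ⟨e, n, A, s, _, h5⟩ := key i; exact ⟨e, n, A, s, h5⟩⟩

end ringK

/-! ### the strand in a run of tiles -/

section run

variable {x : D → ZMod 2} {p : D} {N n : ℕ} {T : ℕ → ℕ} {Reg : ℕ → Set C}

/-- the cells of the tiles `A, .., B - 1` -/
def Ru (Reg : ℕ → Set C) (A B : ℕ) : Set C := {c | ∃ j, A ≤ j ∧ j < B ∧ c ∈ Reg j}

theorem back (h : IsC M ∅ x) {e q : D} (he : x e = 1) (hq : x q = 1) {i u : ℕ}
    (e1 : P M x e i = P M x q u) : ∀ j, j ≤ i → j ≤ u → P M x e (i - j) = P M x q (u - j) := by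
  intro j
  induction j with
  | zero => intro _ _; exact e1
  | succ j ih =>
    intro h1 h2
    have h3 := ih (by omega) (by omega)
    rw [show i - j = (i - (j + 1)) + 1 by omega, show u - j = (u - (j + 1)) + 1 by omega] at h3
    have h4 := congrArg (pv M x) h3
    rwa [pv_succ h he, pv_succ h hq] at h4

/-- the states between the gates `A` and `B` -/
theorem ru_mem (R : TL M x p N n T Reg) {A B t : ℕ} (hAB : A < B) (h1 : T A ≤ t) (h2 : t ≤ T B) :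
    P M x p t ∈ Rd M (Ru Reg A B) := by
  obtain ⟨k, k1, k2, k3, k4⟩ := R.btw hAB h1 h2
  obtain ⟨h3, h4⟩ := R.tile k t k3 k4
  exact ⟨⟨k, k1, k2, h3⟩, ⟨k, k1, k2, h4⟩⟩

/-- not in the run -/
theorem ru_not (R : TL M x p N n T Reg) {A B : ℕ} (hn : B + 3 ≤ A + n) {k : ℕ} {c : C}
    (hc : c ∈ Reg k) (hk : k + 2 = A ∨ k = B + 1) : c ∉ Ru Reg A B := by
  rintro ⟨j, j1, j2, j3⟩
  rcases hk with hk | hk
  · rcases R.nb (k := k) (l := j) (by omega) (by omega) hc j3 with h | h <;> omega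
  · rcases R.nb (k := j) (l := k) (by omega) (by omega) j3 hc with h | h <;> omega

/-- **the strand inside a run of tiles is an arc between the neighbouring gates** -/
theorem run_arc [Finite D] (hx : IsC M ∅ x) (hp : x p = 1) (R : TL M x p N n T Reg) {A B : ℕ}
    (hA : 2 ≤ A) (hAB : A < B) (hn : B + 3 ≤ A + n) {u₀ : ℕ} (h1 : T A ≤ u₀) (h2 : u₀ ≤ T B) :
    ∃ v w, T (A - 1) < v ∧ v ≤ T A ∧ T B ≤ w ∧ w < T (B + 1) ∧
      IsArc M x (Ru Reg A B) (P M x p v) (w - v) ∧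
      Str M x (Ru Reg A B) (P M x p u₀) (P M x p v) := by
  set U := Ru Reg A B with hU
  have hd : x (P M x p u₀) = 1 := P_occ hx hp u₀
  have hAm : T (A - 1) < T A := R.mono (by omega)
  have hBm : T B < T (B + 1) := R.mono (by omega)
  -- the states at the neighbouring gates are not in the run
  have n1 : P M x p (T (A - 1)) ∉ Rd M U := by
    intro h
    have h3 := (R.tile (A - 2) (T (A - 1)) (R.le (by omega))
      (by rw [show A - 2 + 1 = A - 1 by omega])).1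
    exact ru_not R hn h3 (Or.inl (by omega)) h.1
  have n2 : P M x p (T (B + 1)) ∉ Rd M U := by
    intro h
    have h3 := (R.tile (B + 1) (T (B + 1)) le_rfl (R.le (by omega))).1
    exact ru_not R hn h3 (Or.inr rfl) h.1
  obtain ⟨m1, m2⟩ := ru_mem R hAB h1 h2
  have ho : ∃ q, Str M x U (P M x p u₀) q ∧ ¬ fc M U q := by
    by_contra hc
    push Not at hc
    have key : ∀ j, ∀ i, i < j → fc M U (P M x (P M x p u₀) i) := by
      intro j
      induction j with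
      | zero => intro i hi; exact absurd hi (Nat.not_lt_zero i)
      | succ j ih =>
        intro i hi
        rcases Nat.lt_or_ge i j with h3 | h3
        · exact ih i h3
        · obtain rfl : i = j := by omega
          exact hc _ (Or.inl ⟨i, ih, rfl⟩)
    have h3 := key (T (B + 1) - u₀ + 1) (T (B + 1) - u₀) (Nat.lt_succ_self _)
    rw [← P_add, show T (B + 1) - u₀ + u₀ = T (B + 1) by omega] at h3
    exact n2 ⟨h3.1, h3.2.1⟩
  obtain ⟨e, L, Ar, hs⟩ := ex_arc hx hd m1 m2 ho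
  obtain ⟨i, hi, ei⟩ := Ar.iff0.1 (str_symm hx hd hs)
  have hb := back hx Ar.occ hp ei
  -- the start
  have hi1 : i + T (A - 1) < u₀ := by
    by_contra hc
    apply n1
    have h3 := hb (u₀ - T (A - 1)) (by omega) (by omega)
    rw [show u₀ - (u₀ - T (A - 1)) = T (A - 1) by omega] at h3
    rw [← h3]
    exact Ar.mem _ (by omega)
  have he : e = P M x p (u₀ - i) := by
    have h3 := hb i le_rfl (by omega)
    rw [Nat.sub_self] at h3
    exact h3
  have hP : ∀ t, P M x e t = P M x p (t + (u₀ - i)) := by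
    intro t
    rw [he, ← P_add]
  have hv : u₀ - i ≤ T A := by
    by_contra hc
    apply Ar.bef
    have h3 : pv M x e = P M x p (u₀ - i - 1) := by
      rw [he, show u₀ - i = (u₀ - i - 1) + 1 by omega, pv_succ hx hp]
      rfl
    rw [h3]
    exact ru_mem R hAB (by omega) (by omega)
  have hw : T B ≤ L + (u₀ - i) := by
    by_contra hc
    apply Ar.aft
    rw [hP]
    exact ru_mem R hAB (by omega) (by omega)
  have hw2 : L + (u₀ - i) < T (B + 1) := by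
    by_contra hc
    apply n2
    have h3 := Ar.mem (T (B + 1) - (u₀ - i)) (by omega)
    rwa [hP, show T (B + 1) - (u₀ - i) + (u₀ - i) = T (B + 1) by omega] at h3
  refine ⟨u₀ - i, L + (u₀ - i), by omega, hv, hw, hw2, ?_, ?_⟩
  · rw [Nat.add_sub_cancel, ← he]
    exact Ar
  · rw [← he]
    exact hs

end run

/-! ### inversion of several strands -/

section inv

variable [Fintype D] [Fintype C] {κ : Type} [Fintype κ]

/-- inversion of the strands -/
def fI (M : CMap D C) (d : κ → D) (Rt : κ → Set C) (χ : C → ZMod 2) : C → ZMod 2 :=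
  fx (Ku M d Rt χ) χ

theorem mem_Ku {d : κ → D} {Rt : κ → Set C} {χ : C → ZMod 2} {c : C} :
    c ∈ Ku M d Rt χ ↔ ∃ i, c ∈ Sd M (d i) (Rt i) χ := by
  unfold Ku
  rw [Finset.mem_biUnion]
  exact ⟨fun ⟨i, _, h⟩ => ⟨i, h⟩, fun ⟨i, h⟩ => ⟨i, Finset.mem_univ i, h⟩⟩

theorem ku_fI (d : κ → D) (Rt : κ → Set C) (χ : C → ZMod 2) :
    Ku M d Rt (fI M d Rt χ) = Ku M d Rt χ := by
  have h : ∀ i, Sd M (d i) (Rt i) (fI M d Rt χ) = Sd M (d i) (Rt i) χ := by
    intro i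
    have h1 : ∀ c ∈ Sd M (d i) (Rt i) χ, fI M d Rt χ c = χ c + 1 := by
      intro c hc
      unfold fI
      exact fx_on (mem_Ku.2 ⟨i, hc⟩)
    exact (sd_shift h1).1
  ext c
  rw [mem_Ku, mem_Ku]
  constructor
  · rintro ⟨i, hi⟩
    exact ⟨i, by rw [← h i]; exact hi⟩
  · rintro ⟨i, hi⟩
    exact ⟨i, by rw [h i]; exact hi⟩

theorem fI_fI (d : κ → D) (Rt : κ → Set C) (χ : C → ZMod 2) :
    fI M d Rt (fI M d Rt χ) = χ := by
  show fx (Ku M d Rt (fI M d Rt χ)) (fI M d Rt χ) = χ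
  rw [ku_fI]
  exact fx_fx _ _

theorem sum_fI (d : κ → D) (Rt : κ → Set C) {E : Type*} [AddCommMonoid E]
    (F : (C → ZMod 2) → E) : ∑ χ, F (fI M d Rt χ) = ∑ χ, F χ := by
  have h : Function.Involutive (fI M d Rt) := fun χ => fI_fI d Rt χ
  exact Fintype.sum_bijective (fI M d Rt) h.bijective _ _ fun _ => rfl

/-- **the weight `goff ∘ fI` is blind to the colours in `T`** -/
theorem gi_blind {d : κ → D} {Rt : κ → Set C} (hl : ∀ i, d i ∈ M.live)
    (h1 : ∀ i, M.cell (d i) ∈ Rt i) (h2 : ∀ i, M.cell (M.rho (d i)) ∈ Rt i) {T T2 : Finset C}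
    (hT : ∀ i, ∀ c ∈ T, c ∉ Rt i) (hTT : T ⊆ T2) {E : Type*} {goff : (C → ZMod 2) → E}
    (hg : ∀ σ τ, (∀ s, s ∉ T2 → τ s = σ s) → goff τ = goff σ) (σ τ : C → ZMod 2)
    (h : ∀ s, s ∉ T → τ s = σ s) : goff (fI M d Rt τ) = goff (fI M d Rt σ) := by
  have e1 : ∀ i, Sd M (d i) (Rt i) τ = Sd M (d i) (Rt i) σ := fun i =>
    Sd_stp (d i) (Rt i) σ τ fun c hc => h c fun hc' =>
      hT i c hc' (sd_sub (hl i) (h1 i) (h2 i) hc)
  have e : Ku M d Rt τ = Ku M d Rt σ := by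
    ext c
    rw [mem_Ku, mem_Ku]
    constructor
    · rintro ⟨i, hi⟩
      exact ⟨i, by rw [← e1 i]; exact hi⟩
    · rintro ⟨i, hi⟩
      exact ⟨i, by rw [e1 i]; exact hi⟩
  refine hg _ _ fun s hs => ?_
  unfold fI fx
  rw [e, h s fun h' => hs (hTT h')]

end inv

/-! ### the flip between two stopping sets -/

theorem flO_flS [Fintype C] {O R1 R : (C → ZMod 2) → Finset C} (hO : StopSet O)
    (h1 : StopSet R1) (h2 : StopSet R) (s1 : ∀ σ, R1 σ ⊆ O σ) (s2 : ∀ σ, R σ ⊆ O σ) :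
    FlO O (flS R1 R) where
  stop := hO
  off := fun σ s hs => flS_off fun h => hs (s2 σ h.1)
  dec := by
    intro σ τ h s hs
    have e1 : R1 τ = R1 σ := h1 σ τ fun c hc => h c (s1 σ hc)
    have e2 : R τ = R σ := h2 σ τ fun c hc => h c (s2 σ hc)
    unfold flS
    rw [e1, e2, h s hs]
  bij := flS_bij h1 h2

/-! ### (P) with several inverted strands -/

section cv

variable [Fintype D] [Fintype C] {ι : Type} [Fintype ι] [Nonempty ι] {κ : Type} [Fintype κ]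

/-- **(P) for the closed ring**, several inverted strands, constant reference state -/
theorem ring_cv3 {w : ℂ} (w3 : w ^ 3 = 1) (w1 : w ≠ 1) (wc : (starRingEnd ℂ) w = w ^ 2)
    {φ : D → ℂ} (hφ : Spin M w φ)
    {O : (C → ZMod 2) → Finset C} {Φ : (C → ZMod 2) → (C → ZMod 2)} (hΦ : FlO O Φ)
    {d : ι → D} {Rt : ι → Set C} (hR : ∀ i j c, c ∈ Rt i → c ∈ Rt j → i = j)
    {T T2 : Finset C} (hTT : T ⊆ T2) {g goff : (C → ZMod 2) → ℝ} (hg0 : ∀ σ, 0 ≤ g σ)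
    (hgo : ∀ σ, g σ ≤ goff σ) (hgT : ∀ σ τ, (∀ s, s ∉ T2 → τ s = σ s) → goff τ = goff σ)
    {d₃ : κ → D} {R₃ : κ → Set C} (hl : ∀ i, d₃ i ∈ M.live) (hd1 : ∀ i, M.cell (d₃ i) ∈ R₃ i)
    (hd2 : ∀ i, M.cell (M.rho (d₃ i)) ∈ R₃ i) (hTR : ∀ i, ∀ c ∈ T, c ∉ R₃ i)
    (hfl : ∀ σ, g σ ≠ 0 → ∀ c, c ∉ T2 → fI M d₃ R₃ (Φ σ) c = σ c)
    (hKO : ∀ σ, g σ ≠ 0 → Ku M d Rt (Φ σ) ⊆ O σ) (hOT : ∀ σ, g σ ≠ 0 → O σ \ Ku M d Rt (Φ σ) ⊆ T)
    {d₀ : D} (hP : ∀ σ τ, g σ ≠ 0 → Pcs M (Φ (mix O σ τ)) d₀ d Rt)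
    (hφ0 : ∀ k, φ k ≠ 0 → OffR M Rt k) {F : (C → ZMod 2) → (C → ZMod 2) → ℝ}
    (hF : ∀ σ τ, g σ ≠ 0 → F σ τ ≤ ∑ β ∈ onL M (cfg M (Φ (mix O σ τ))) d₀,
      ‖∑ h ∈ β, φ h‖ ^ 2) :
    ∑ σ, ∑ τ, g σ * F σ τ ≤ (2 : ℝ) ^ Fintype.card C *
      ((2 : ℝ) ^ (2 * Fintype.card ι) / 8 * (∑ k, ‖φ k‖ ^ 2) * ∑ σ, goff σ) := by
  have hgoff0 : ∀ σ, 0 ≤ goff σ := fun σ => (hg0 σ).trans (hgo σ)
  have h1 := ring_onL (M := M) w3 w1 wc hφ hΦ hR (go := fun ν => goff (fI M d₃ R₃ ν)) hg0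
    (fun σ => by
      by_cases h0 : g σ = 0
      · rw [h0]; exact hgoff0 _
      · rw [hgT σ _ (hfl σ h0)]
        exact hgo σ) (gi_blind hl hd1 hd2 hTR hTT hgT) hKO hOT (p' := fun _ => d₀) hP hφ0
  rw [sum_fI (M := M) d₃ R₃ goff] at h1
  have h2 : ((Fintype.card (ZMod 2) ^ Fintype.card C : ℕ) : ℝ) = (2 : ℝ) ^ Fintype.card C := by
    rw [ZMod.card]
    push_cast
    rfl
  have h3 := mul_le_mul_of_nonneg_left h1 (by positivity : (0 : ℝ) ≤ (2 : ℝ) ^ Fintype.card C)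
  rw [sum_wt_gen hΦ.stop, h2, mul_div_cancel₀ _ (by positivity)] at h3
  refine le_trans ?_ h3
  refine Finset.sum_le_sum fun σ _ => Finset.sum_le_sum fun τ _ => ?_
  by_cases h : g σ = 0
  · rw [h, zero_mul, zero_mul]
  · exact mul_le_mul_of_nonneg_left (hF σ τ h) (hg0 σ)

end cv

end Crest.Agent.R143.RingPx820
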