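import Crest.Agent.R143.RingN_239
import Crest.Agent.R143.WndI_416
import Crest.Agent.R143.SqP_503

/-!
# Row 143 (S0194), block H, box [E]: the square path (helper239)

* `VF` : vertices which are not consecutive are far or diagonal; `vf_sq` : the square path `sqW K`
* `sq_far'`, `far_winV`, **`wnd_vf`** : 304's `Wnd` for the windows of any closed path with `VF`
  (regions in the lattice squares of the vertices; 416's proof)
* `tn_sq` : straight tiles of the square path; **`str_card`** : at most 12 exceptional tiles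
* **`ring_law`** : the ring law on the square path with all numbers
-/

set_option autoImplicit false

noncomputable section

open scoped Classical

namespace Crest.Agent.R143.RingSx239

open MeasureTheory Set Filter Topology
open Crest.ProbabilityR.Voronoi
open Crest.Agent.R143.PP0x831 Crest.Agent.R143.PWx978 Crest.Agent.R143.Tplx978
open Crest.Agent.R143.TileRx228 Crest.Agent.R143.PthFx765 Crest.Agent.R143.TplIx204
open Crest.Agent.R143.SpVx169 Crest.Agent.R143.RingLx239 Crest.Agent.R143.R6Hx253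
open Crest.Agent.R143.Hqx304 Crest.Agent.R143.HqPx304 Crest.Agent.R143.WndIx416
open Crest.Agent.R143.SqPx503 Crest.Agent.R143.RingNx239
open Crest.Agent.R143.SpRx169 (Rg Rg_coord)
open Crest.Agent.R143.SumScx302 (sq)
open scoped ENNReal

/-! ### paths with far vertices -/

/-- vertices which are not consecutive are far or diagonal -/
structure VF (M : ℕ) (W : ℤ → ℤ × ℤ) : Prop where
  M24 : 24 ≤ M
  vf : ∀ {a b : ℤ}, ¬ (M : ℤ) ∣ b - a → ¬ (M : ℤ) ∣ b - (a + 1) → ¬ (M : ℤ) ∣ b - (a - 1) →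
    2 ≤ |(W b).1 - (W a).1| ∨ 2 ≤ |(W b).2 - (W a).2| ∨
      (|(W b).1 - (W a).1| = 1 ∧ |(W b).2 - (W a).2| = 1)

theorem res_ne {K a b c : ℤ} (_hK : 0 < K) (h : ¬ (4 * K) ∣ b - (a + c)) (q : ℤ) :
    b % (4 * K) ≠ a % (4 * K) + c + 4 * K * q := by
  intro he
  apply h
  have h1 := Int.emod_add_mul_ediv a (4 * K)
  have h2 := Int.emod_add_mul_ediv b (4 * K)
  refine ⟨b / (4 * K) - a / (4 * K) + q, ?_⟩
  have : b = a % (4 * K) + c + 4 * K * q + 4 * K * (b / (4 * K)) := by rw [← he]; exact h2.symm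
  linear_combination this + h1

theorem sq0_far {K r t : ℤ} (hK : 3 ≤ K) (r0 : 0 ≤ r) (r1 : r < 4 * K) (t0 : 0 ≤ t)
    (t1 : t < 4 * K) (h0 : t ≠ r) (h1 : t ≠ r + 1) (h2 : t ≠ r - 1)
    (h3 : ¬ (r = 4 * K - 1 ∧ t = 0)) (h4 : ¬ (t = 4 * K - 1 ∧ r = 0)) :
    2 ≤ |(sq0 K t).1 - (sq0 K r).1| ∨ 2 ≤ |(sq0 K t).2 - (sq0 K r).2| ∨
      (|(sq0 K t).1 - (sq0 K r).1| = 1 ∧ |(sq0 K t).2 - (sq0 K r).2| = 1) := by
  by_contra hc
  push Not at hc
  obtain ⟨c1, c2, c3⟩ := hc
  have key : ∀ x y : ℤ, |x| < 2 → |y| < 2 → (|x| = 1 → |y| ≠ 1) →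
      (x = 0 ∨ y = 0) ∧ -1 ≤ x ∧ x ≤ 1 ∧ -1 ≤ y ∧ y ≤ 1 := by
    intro x y hx hy hxy
    rw [abs_lt] at hx hy
    refine ⟨?_, by omega, by omega, by omega, by omega⟩
    by_contra hcon
    push Not at hcon
    have e1 : |x| = 1 := by
      rcases (show x = 1 ∨ x = -1 by omega) with h | h <;> rw [h] <;> rfl
    have e2 : |y| = 1 := by
      rcases (show y = 1 ∨ y = -1 by omega) with h | h <;> rw [h] <;> rfl
    exact hxy e1 e2
  have := key _ _ c1 c2 c3
  unfold sq0 at this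
  split_ifs at this <;> simp only at this <;> omega

/-- **the square path** -/
theorem vf_sq {K : ℕ} (hK : 6 ≤ K) : VF (4 * K) (sqW K) where
  M24 := by omega
  vf := by
    intro a b h0 h1 h2
    have hK' : (6 : ℤ) ≤ K := by exact_mod_cast hK
    have e4 : ((4 * K : ℕ) : ℤ) = 4 * K := by push_cast; ring
    rw [e4] at h0 h1 h2
    have hp : (0 : ℤ) < K := by omega
    have r0 := Int.emod_nonneg a (show (4 * K : ℤ) ≠ 0 by omega)
    have r1 := Int.emod_lt_of_pos a (show (0 : ℤ) < 4 * K by omega)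
    have t0 := Int.emod_nonneg b (show (4 * K : ℤ) ≠ 0 by omega)
    have t1 := Int.emod_lt_of_pos b (show (0 : ℤ) < 4 * K by omega)
    have a0 := res_ne (a := a) (b := b) (c := 0) hp (by rwa [add_zero]) 0
    have a1 := res_ne (a := a) (b := b) (c := 1) hp h1 0
    have a1' := res_ne (a := a) (b := b) (c := 1) hp h1 (-1)
    have a2 := res_ne (a := a) (b := b) (c := -1) hp (by rwa [← sub_eq_add_neg]) 0
    have a2' := res_ne (a := a) (b := b) (c := -1) hp (by rwa [← sub_eq_add_neg]) 1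
    exact sq0_far (by omega) r0 r1 t0 t1 (by omega) (by omega) (by omega) (by omega) (by omega)

section far

variable {M : ℕ} {W : ℤ → ℤ × ℤ}

/-- **the square of a vertex is far from the tiles which are not adjacent** -/
theorem sq_far' (P : FPath M W) (V : VF M W) {A B h g' : ℝ} (hA : A + g' ≤ h / 2)
    (hB0 : 0 ≤ B) (hB : B ≤ h) {a b : ℤ} (h0 : ¬ (M : ℤ) ∣ b - a) (h1 : ¬ (M : ℤ) ∣ b - (a + 1))
    (h2 : ¬ (M : ℤ) ∣ b - (a - 1)) {s t : ℂ} (hs : s ∈ Sqr h W a) (ht : t ∈ RR A B h W b) :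
    g' ≤ ‖s - t‖ := by
  have hh : 0 ≤ h := hB0.trans hB
  obtain ⟨v, hv, -, ht⟩ := mem_RR P ht
  obtain ⟨τ, t0, t1, t2, t3⟩ := FineDx576.arm_pt hB0 hv ht
  rw [FineDx576.cen_re] at t2
  rw [FineDx576.cen_im] at t3
  obtain ⟨s1, s2⟩ := hs
  rw [Complex.sub_re, FineDx576.cen_re] at s1
  rw [Complex.sub_im, FineDx576.cen_im] at s2
  have hτh : τ ≤ h := t1.trans hB
  have key : ∀ (x y : ℝ) (w w' v1 : ℤ), |x - h * w| ≤ h / 2 → |y - (h * w' + τ * v1)| ≤ A →
      (|v1| ≤ 1) → 2 ≤ |w' - w| → g' ≤ |x - y| := by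
    intro x y w w' v1 hx hy hv1 hw
    have hw' : (2 : ℝ) ≤ |(w' : ℝ) - w| := by exact_mod_cast hw
    have hv' : |(v1 : ℝ)| ≤ 1 := by exact_mod_cast hv1
    have h5 : |τ * v1| ≤ h := by
      rw [abs_mul, abs_of_nonneg t0]
      nlinarith [abs_nonneg (v1 : ℝ)]
    rw [abs_le] at hx hy h5
    rcases le_abs.1 hw' with h6 | h6
    · have : 2 * h ≤ h * ((w' : ℝ) - w) := by nlinarith
      rw [mul_sub] at this
      refine le_trans ?_ (neg_le_abs _)
      linarith
    · have : 2 * h ≤ h * (-((w' : ℝ) - w)) := by nlinarith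
      rw [mul_neg, mul_sub] at this
      refine le_trans ?_ (le_abs_self _)
      linarith
  have key1 : ∀ (x y : ℝ) (w w' : ℤ), |x - h * w| ≤ h / 2 → |y - h * w'| ≤ A →
      |w' - w| = 1 → g' ≤ |x - y| := by
    intro x y w w' hx hy hw
    rw [abs_le] at hx hy
    rcases (abs_eq (by norm_num)).1 hw with h6 | h6
    · have : (w' : ℝ) = w + 1 := by exact_mod_cast (show w' = w + 1 by omega)
      rw [this] at hy
      refine le_trans ?_ (neg_le_abs _)
      linarith
    · have : (w' : ℝ) = w - 1 := by exact_mod_cast (show w' = w - 1 by omega)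
      rw [this] at hy
      refine le_trans ?_ (le_abs_self _)
      linarith
  have hre : |s.re - t.re| ≤ ‖s - t‖ := by simpa using Complex.abs_re_le_norm (s - t)
  have him : |s.im - t.im| ≤ ‖s - t‖ := by simpa using Complex.abs_im_le_norm (s - t)
  have hv1 : |v.1| ≤ 1 ∧ |v.2| ≤ 1 := by
    rcases hv with rfl | rfl | rfl | rfl <;> simp
  rcases V.vf h0 h1 h2 with h3 | h3 | ⟨h3, h4⟩
  · exact (key _ _ _ _ _ s1 t2 hv1.1 h3).trans hre
  · exact (key _ _ _ _ _ s2 t3 hv1.2 h3).trans him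
  · rcases hv with rfl | rfl | rfl | rfl
    · refine (key1 _ _ _ _ s2 ?_ h4).trans him
      simpa using t3
    · refine (key1 _ _ _ _ s1 ?_ h3).trans hre
      simpa using t2
    · refine (key1 _ _ _ _ s2 ?_ h4).trans him
      simpa using t3
    · refine (key1 _ _ _ _ s1 ?_ h3).trans hre
      simpa using t2

end far

section path

variable {M : ℕ} {W : ℤ → ℤ × ℤ} {A B h ε : ℝ} {Ty : Type*}
  {T : Tpl ε Ty} {tu : Ty → Tn}

/-- **the regions off the window are far from the square** -/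
theorem far_winV (P : FPath M W) (V : VF M W) (H : Std T A B h tu) {ty : ZMod M → Ty}
    (hty : Typ W tu ty) (I J : Finset (ZMod M)) {p' q' a : ℤ} (hp : p' < a) (hq : a < q') {ρ : ℝ}
    (hh : A + ρ ≤ h / 2) :
    Disjoint ((pth P H ty hty).net.reg (I \ Iw M p' q') (J \ Jw M p' q'))
      (Metric.thickening ρ (Sqr h W a)) := by
  rw [Set.disjoint_left]
  intro s hs ht
  obtain ⟨t, ht, hst⟩ := Metric.mem_thickening_iff.1 ht
  rw [dist_eq_norm, norm_sub_rev] at hst
  have hB : B ≤ h := H.hB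
  have hB0 : 0 ≤ B := (H.hA.trans_le H.hAB).le
  have hM : 24 ≤ M := V.M24
  have hnd : ∀ c : ℤ, 0 < c → c < 24 → ¬ (M : ℤ) ∣ c := by
    intro c h1 h2 hd
    have := Int.le_of_dvd h1 hd
    omega
  have key : ∀ b : ℤ, ¬ (M : ℤ) ∣ b - a → ¬ (M : ℤ) ∣ b - (a + 1) → ¬ (M : ℤ) ∣ b - (a - 1) →
      s ∈ RR A B h W b → False := by
    intro b h0 h1 h2 hb
    have := sq_far' P V hh hB0 hB h0 h1 h2 ht hb
    linarith
  rcases hs with hs | hs
  · obtain ⟨i, hi, hs⟩ := mem_iUnion₂.1 hs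
    have hi' := (Finset.mem_sdiff.1 hi).2
    have hs' : s ∈ PthFx765.GB A B h W (zc i) := by
      have := net_B P H hty (zc i)
      rw [zc_cast] at this
      rwa [this] at hs
    have h1 : ¬ (M : ℤ) ∣ zc i - a := by
      intro hd
      apply hi'
      have := cast_dvd hd
      rw [zc_cast] at this
      rw [this]
      exact mem_Iw hp (by omega)
    have h2 : ¬ (M : ℤ) ∣ zc i - (a + 1) := by
      intro hd
      apply hi'
      have := cast_dvd hd
      rw [zc_cast] at this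
      rw [this]
      exact mem_Iw (by omega) (by omega)
    by_cases h3 : (M : ℤ) ∣ zc i - (a - 1)
    · -- the gate `a - 1`: use the tile `a - 2`
      have h4 : s ∈ RR A B h W (zc i - 1) := by
        refine PthFx765.GB_sub' P H.hA hB (zc i - 1) ?_
        rwa [sub_add_cancel]
      refine key (zc i - 1) ?_ ?_ ?_ h4
      · intro hd
        have := dvd_sub h3 hd
        rw [show zc i - (a - 1) - (zc i - 1 - a) = 2 by ring] at this
        exact hnd 2 (by norm_num) (by norm_num) this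
      · intro hd
        have := dvd_sub h3 hd
        rw [show zc i - (a - 1) - (zc i - 1 - (a + 1)) = 3 by ring] at this
        exact hnd 3 (by norm_num) (by norm_num) this
      · intro hd
        have := dvd_sub h3 hd
        rw [show zc i - (a - 1) - (zc i - 1 - (a - 1)) = 1 by ring] at this
        exact hnd 1 (by norm_num) (by norm_num) this
    · exact key (zc i) h1 h2 h3 (PthFx765.GB_sub P H.hA hB (zc i) hs')
  · obtain ⟨k, hk, hs⟩ := mem_iUnion₂.1 hs
    have hk' := (Finset.mem_sdiff.1 hk).2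
    have hs' : s ∈ PthFx765.TB A B h W (zc k) := by
      have := net_C P H hty (zc k)
      rw [zc_cast] at this
      rwa [this] at hs
    have key2 : ∀ e : ℤ, p' ≤ a + e → a + e ≤ q' → ¬ (M : ℤ) ∣ zc k - (a + e) := by
      intro e he1 he2 hd
      apply hk'
      have := cast_dvd hd
      rw [zc_cast] at this
      rw [this]
      exact mem_Jw he1 he2
    have h0 : ¬ (M : ℤ) ∣ zc k - a := by
      have := key2 0 (by omega) (by omega)
      rwa [add_zero] at this
    exact key (zc k) h0 (key2 1 (by omega) (by omega)) (key2 (-1) (by omega) (by omega)) hs'.1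

/-- **THE WINDOWS OF THE CLOSED PATH**, regions in the squares of the vertices -/
theorem wnd_vf (P : FPath M W) (V : VF M W) (H : Std T A B h tu) {ty : ZMod M → Ty}
    (hty : Typ W tu ty) {I J : Finset (ZMod M)} (hN : ∀ k ∈ J, k ∈ I ∧ k + 1 ∈ I) {N : ℕ}
    {a p' q' : ℕ → ℤ} {w : ℕ} (hp : ∀ l < N, p' l < a l) (hq : ∀ l < N, a l < q' l)
    (hm : ∀ l < N, q' l ≤ p' l + w) (hI : ∀ l < N, Iw M (p' l) (q' l) ⊆ I)
    (hJ : ∀ l < N, Jw M (p' l) (q' l) ⊆ J) {D : ℕ → Set ℂ} {d ρ : ℝ}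
    (hDm : ∀ l < N, MeasurableSet (D l)) (hD : ∀ l < N, D l ⊆ Sqr h W (a l)) (hρ : d < ρ)
    (hh : A + ρ ≤ h / 2) (hε : ε ≤ 2 * h) {X : Set ℂ} (hX : MeasurableSet X)
    (hXb : Bornology.IsBounded X) (hreg : (pth P H ty hty).net.reg I J ⊆ X)
    (hXW : ∀ l < N, Metric.thickening ρ (Sqr h W (a l)) ⊆ X)
    (hA : ∫⁻ ω, T.A (cfg ε ω) ∂sampleLaw ≠ 0) :
    Wnd (pth P H ty hty).net I J N (fun l => Iw M (p' l) (q' l)) (fun l => Jw M (p' l) (q' l)) D d
      (2 * h) X (mm T w) where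
  Bm := hX
  Bb := hXb
  reg := hreg
  es := hε
  hN := Win.hN_of hN
  hI := hI
  hJ := hJ
  hN₁ := by
    intro l hl k hk i hi
    obtain ⟨hk1, hk2⟩ := Finset.mem_sdiff.1 hk
    rw [net_N, Finset.mem_insert, Finset.mem_singleton] at hi
    rw [Finset.mem_sdiff]
    rcases hi with rfl | rfl
    · exact ⟨(hN i hk1).1, fun h => hk2 (Iw_sub _ _ h)⟩
    · refine ⟨(hN k hk1).2, fun h => hk2 ?_⟩
      obtain ⟨j, hj, hjk⟩ := Finset.mem_image.1 h
      have hj' := Finset.mem_Icc.1 hj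
      have : k = ((j - 1 : ℤ) : ZMod M) := by
        push_cast
        rw [hjk]
        ring
      rw [this]
      exact mem_Jw (by omega) (by omega)
  Dm := hDm
  W := by
    intro l hl
    refine ⟨cen h W (a l) - ⟨h, h⟩, Metric.thickening ρ (Sqr h W (a l)),
      Metric.isOpen_thickening.measurableSet, hXW l hl, thick_sq ?_ (a l), ?_,
      far_winV P V H hty I J (hp l hl) (hq l hl) hh⟩
    · have := H.hA
      linarith
    · intro o ho s hs
      rw [Metric.mem_closedBall] at hs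
      exact Metric.mem_thickening_iff.2 ⟨o, hD l hl ho, by linarith⟩
  pos := mm_ne w hA
  mass := fun l hl => mass_win P H hty (hm l hl)

end path

/-! ### straight tiles of the square -/

theorem emod_next {L a : ℤ} (hL : 1 < L) :
    (a + 1) % L = if a % L + 1 = L then 0 else a % L + 1 := next_emod hL

theorem emod_prev {L a : ℤ} (hL : 1 < L) :
    (a - 1) % L = if a % L = 0 then L - 1 else a % L - 1 := by
  have h0 := Int.emod_nonneg a (show L ≠ 0 by omega)
  have h1 := Int.emod_lt_of_pos a (show 0 < L by omega)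
  have h2 := Int.emod_add_mul_ediv a L
  split_ifs with h
  · have e : a - 1 = (L - 1) + L * (a / L - 1) := by linear_combination -h2 + h
    rw [e, Int.add_mul_emod_self_left, Int.emod_eq_of_lt (by omega) (by omega)]
  · have e : a - 1 = (a % L - 1) + L * (a / L) := by linear_combination -h2
    rw [e, Int.add_mul_emod_self_left, Int.emod_eq_of_lt (by omega) (by omega)]

/-- **straight tiles** -/
theorem tn_sq {K : ℕ} (hK : 2 ≤ K) {a : ℤ} (h0 : a % (4 * K) ≠ 0) (h1 : a % (4 * K) ≠ K)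
    (h2 : a % (4 * K) ≠ 2 * K) (h3 : a % (4 * K) ≠ 3 * K) : tn (sqW K) a = Tn.S := by
  have hK' : (2 : ℤ) ≤ K := by exact_mod_cast hK
  rw [tn_eq_S (sq_fpath (by omega))]
  have r0 := Int.emod_nonneg a (show (4 * K : ℤ) ≠ 0 by omega)
  have r1 := Int.emod_lt_of_pos a (show (0 : ℤ) < 4 * K by omega)
  unfold sqW
  rw [emod_next (by omega), emod_prev (by omega)]
  set r := a % (4 * K : ℤ) with hr
  rw [if_neg h0]
  clear_value r
  unfold sq0
  split_ifs <;> refine Prod.ext ?_ ?_ <;> simp only [Prod.fst_sub, Prod.snd_sub] <;> omega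

/-- **at most 12 exceptional tiles** -/
theorem str_card {K : ℕ} (hK : 2 ≤ K) (o : ℤ) :
    ((Finset.range (4 * K)).filter fun k => ¬ Str (sqW K) o k).card ≤ 12 := by
  have hK' : (2 : ℤ) ≤ K := by exact_mod_cast hK
  set F : ℕ × ℕ → ℕ := fun p => (((p.1 : ℤ) * K - (p.2 : ℤ) + 1 - o) % (4 * K)).toNat with hF
  have hsub : ((Finset.range (4 * K)).filter fun k => ¬ Str (sqW K) o k) ⊆
      (Finset.range 4 ×ˢ Finset.range 3).image F := by
    intro k hk
    obtain ⟨hk1, hk2⟩ := Finset.mem_filter.1 hk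
    rw [Finset.mem_range] at hk1
    have key : ∃ c e : ℕ, c < 4 ∧ e < 3 ∧ (o + k - 1 + e) % (4 * K : ℤ) = c * K := by
      by_contra hcon
      push Not at hcon
      apply hk2
      have key2 : ∀ e : ℕ, e < 3 → tn (sqW K) (o + k - 1 + e) = Tn.S := by
        intro e he
        have a0 := hcon 0 e (by norm_num) he
        have a1 := hcon 1 e (by norm_num) he
        have a2 := hcon 2 e (by norm_num) he
        have a3 := hcon 3 e (by norm_num) he
        push_cast at a0 a1 a2 a3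
        exact tn_sq hK (by simpa using a0) (by simpa using a1) a2 a3
      refine ⟨?_, ?_, ?_⟩
      · have := key2 0 (by norm_num)
        simpa using this
      · have := key2 1 (by norm_num)
        rwa [show o + (k : ℤ) - 1 + ((1 : ℕ) : ℤ) = o + k by push_cast; ring] at this
      · have := key2 2 (by norm_num)
        rwa [show o + (k : ℤ) - 1 + ((2 : ℕ) : ℤ) = o + k + 1 by push_cast; ring] at this
    obtain ⟨c, e, hc, he, h⟩ := key
    refine Finset.mem_image.2 ⟨(c, e), ?_, ?_⟩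
    · rw [Finset.mem_product, Finset.mem_range, Finset.mem_range]
      exact ⟨hc, he⟩
    · show (((c : ℤ) * K - (e : ℤ) + 1 - o) % (4 * K)).toNat = k
      have h1 := Int.emod_add_mul_ediv (o + k - 1 + e) (4 * K : ℤ)
      rw [h] at h1
      have h2 : (c : ℤ) * K - (e : ℤ) + 1 - o = k + (4 * K) * (-((o + k - 1 + e) / (4 * K : ℤ))) := by
        linear_combination h1
      rw [h2, Int.add_mul_emod_self_left, Int.emod_eq_of_lt (by omega) (by omega)]
      omega
  refine (Finset.card_le_card hsub).trans (Finset.card_image_le.trans ?_)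
  rw [Finset.card_product, Finset.card_range, Finset.card_range]

theorem str_ex {K : ℕ} (hK : 6 ≤ K) (o : ℤ) : ∃ k < 4 * K, Str (sqW K) o k := by
  by_contra hcon
  push Not at hcon
  have h := str_card (K := K) (by omega) o
  rw [Finset.filter_true_of_mem (fun k hk => hcon k (Finset.mem_range.1 hk)),
    Finset.card_range] at h
  omega

/-! ### the ring law with all numbers -/

/-- **THE RING LAW ON THE SQUARE PATH**: side `L = K h`, tiles `h`; the only open inputs are the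
quenched inequalities `Qn` of the windows (683 / 490 / 253) -/
theorem ring_law : ∃ C₁ : ℝ, 0 ≤ C₁ ∧ ∀ {ε : ℝ} {T : Tpl ε (Tn × Bool)} {D : DT} {K : ℕ}
    [Fintype (ZMod (4 * K))] (hK : 6 ≤ K) (Hs : Std T D.A' D.B' D.h Prod.fst) (b : Bool),
    ∫⁻ ω, T.A (cfg ε ω) ∂sampleLaw ≠ 0 → ∀ {o : ℤ} {r Kq d ρ : ℝ} {p' q' : ℕ → ℤ} {w : ℕ},
    (∀ l < 4 * K, p' l < o + l) → (∀ l < 4 * K, o + l < q' l) →
    (∀ l < 4 * K, q' l ≤ p' l + w) → d < ρ → D.A' + ρ ≤ D.h / 2 → ε ≤ 2 * D.h →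
    ∀ {X : Set ℂ}, MeasurableSet X → Bornology.IsBounded X →
    (rpth (sq_fpath (by omega : 1 ≤ K)) Hs b).net.reg Finset.univ Finset.univ ⊆ X →
    (∀ l < 4 * K, Metric.thickening ρ (Sqr D.h (sqW K) (o + l)) ⊆ X) → 0 ≤ Kq →
    (∀ k < 4 * K, Qn (rpth (sq_fpath (by omega : 1 ≤ K)) Hs b).net Finset.univ
      (Iw (4 * K) (p' k) (q' k)) Finset.univ (Jw (4 * K) (p' k) (q' k))
      (Rg D.h (sqW K) (o + k)) d X Kq (Vk D (sq_fpath (by omega : 1 ≤ K)) r o k)) →
    ∃ F : Cf → ℝ, FinMeas F ∧ LocalOn X F ∧ (∀ S, 0 ≤ F S) ∧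
      (∀ (S : Cf) (i j : ℕ), i ≤ j → j ≤ 4 * K →
        ‖∑ k ∈ Finset.Ico i j, Vk D (sq_fpath (by omega : 1 ≤ K)) r o k S -
          mD D Hs b r / D.h * ((starRingEnd ℂ) (gz D.h (sqW K) (o + j)) -
            (starRingEnd ℂ) (gz D.h (sqW K) (o + i)))‖ ^ 2 ≤ F S) ∧
      ∫⁻ ω, gK (sq_fpath (by omega : 1 ≤ K)) Hs b (cfg ε ω) * ENNReal.ofReal (F (cfg ε ω))
        ∂sampleLaw ≤
        ENNReal.ofReal (C₁ * (Kq / (mm T w).toReal) * (K * D.h * Real.sqrt (K * D.h) *
          Real.sqrt D.h + D.h ^ 2)) *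
            RingLx239.mass (rpth (sq_fpath (by omega : 1 ≤ K)) Hs b).net Finset.univ
              Finset.univ := by
  obtain ⟨C₀, hC₀, hcyc⟩ := cyc
  refine ⟨147456 * C₀, by positivity, ?_⟩
  intro ε T D K _ hK Hs b hA0 o r Kq d ρ p' q' w hp hq hm hρ hh hε X hX hXb hreg hXW hKq hQ
  have hK1 : 1 ≤ K := by omega
  have P : FPath (4 * K) (sqW K) := sq_fpath hK1
  have hM : Pr (4 * K) 3 := Or.inr (by omega)
  have h0 : 0 < D.h := by linarith [Hs.hA, Hs.hAB, Hs.hh]
  have hW := wnd_vf P (vf_sq hK) Hs (rty_typ b) (I := Finset.univ) (J := Finset.univ)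
    (fun _ _ => ⟨Finset.mem_univ _, Finset.mem_univ _⟩) (N := 4 * K) (a := fun l => o + l) hp hq hm
    (fun _ _ => Finset.subset_univ _) (fun _ _ => Finset.subset_univ _)
    (D := fun l => Rg D.h (sqW K) (o + l)) (d := d) (ρ := ρ) (fun l _ => SpRx169.Rg_meas _ _ _)
    (fun l _ => Rg_Sqr P _ _) hρ hh hε hX hXb hreg hXW hA0
  have H := hcyc P Hs b hM hA0 (o := o) (r := r) hW hKq hQ
  have L := lin D P Hs b hM hA0 r o (str_card (by omega) o) (str_ex hK o)
  set C : ℝ := Kq * (C₀ * (2 * D.h) ^ 2 / (mm T w).toReal) with hC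
  have hloc : ∀ k < 4 * K, LocalOn X (Vk D P r o k) := fun k hk =>
    IndLocx279.LocalOn.mono (((rpth P Hs b).net.reg_mono (Finset.subset_univ _)
      (Finset.subset_univ _)).trans hreg) (H.hV k hk)
  refine ⟨B3 (rpth P Hs b).net Finset.univ Finset.univ (4 * K) 4 12 C (Vk D P r o), b3_fm H.hVm,
    b3_local hloc, b3_nonneg H.C0, fun S i j hij hj => lin_le H (by norm_num) (by omega) L S hij hj,
    (lin_int H (by norm_num) (by omega) 12).trans
      (mul_le_mul' (ENNReal.ofReal_le_ofReal ?_) le_rfl)⟩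
  have e1 : ((4 * K : ℕ) : ℝ) * Real.sqrt ((4 * K : ℕ) : ℝ) * D.h ^ 2 =
      8 * (K * D.h * Real.sqrt (K * D.h) * Real.sqrt D.h) := by
    have a1 : Real.sqrt ((4 * K : ℕ) : ℝ) = 2 * Real.sqrt K := by
      push_cast
      rw [Real.sqrt_mul (by norm_num), show (4 : ℝ) = 2 ^ 2 by norm_num,
        Real.sqrt_sq (by norm_num)]
    have a2 : Real.sqrt (K * D.h) * Real.sqrt D.h = Real.sqrt K * D.h := by
      rw [Real.sqrt_mul (Nat.cast_nonneg _), mul_assoc, Real.mul_self_sqrt h0.le]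
    rw [a1]
    push_cast
    linear_combination (-8 * K * D.h) * a2
  have e2 : (288 * ((4 : ℕ) : ℝ) ^ 2 * (((4 * K : ℕ) : ℝ) * Real.sqrt ((4 * K : ℕ) : ℝ)) +
      18 * ((12 : ℕ) : ℝ) ^ 2) * C = C₀ * (Kq / (mm T w).toReal) * (18432 *
        (((4 * K : ℕ) : ℝ) * Real.sqrt ((4 * K : ℕ) : ℝ) * D.h ^ 2) + 10368 * D.h ^ 2) := by
    rw [hC]
    push_cast
    ring
  rw [e2, e1]
  have hx : 0 ≤ C₀ * (Kq / (mm T w).toReal) :=
    mul_nonneg hC₀ (div_nonneg hKq ENNReal.toReal_nonneg)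
  calc _ = C₀ * (Kq / (mm T w).toReal) * (147456 * (K * D.h * Real.sqrt (K * D.h) *
        Real.sqrt D.h) + 10368 * D.h ^ 2) := by ring
    _ ≤ C₀ * (Kq / (mm T w).toReal) * (147456 * (K * D.h * Real.sqrt (K * D.h) *
        Real.sqrt D.h) + 147456 * D.h ^ 2) := by gcongr; norm_num
    _ = _ := by ring

end Crest.Agent.R143.RingSx239
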