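import Crest.Agent.R143.HComp_197

/-!
# Row 143 (S0194), block H, COMPOSITION, part 3 (helper197): the ring, split

* `RDat` : box, weight, giant, environment of one mesh (parts (a), (b) of `Ring1`)
* `RFar` : the far deep chords of one mesh, with `cF` times the layer and absolute errors `δ`
* `RingT z b` : for all parameters a ring with `RDat` and `RFar`; `ringS_of : RingT z b → RingS z b`
* `body_of_ringT`
-/

set_option autoImplicit false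

noncomputable section

open scoped Classical

namespace Crest.Agent.R143.RingTx197

open MeasureTheory Filter Topology
open Crest.ProbabilityR.Voronoi
open Crest.Agent.R143.B0x346 Crest.Agent.R143.SumScx302 Crest.Agent.R143.Mass1x302
open Crest.Agent.R143.PP0x831 Crest.Agent.R143.Trans3x690
  Crest.Agent.R143.HBudx136 Crest.Agent.R143.HGluex136
  Crest.Agent.R143.SmallAx304 Crest.Agent.R143.Dblx609 Crest.Agent.R143.Dbl2x609
  Crest.Agent.R143.Asm3x414 Crest.Agent.R143.Asm4x414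
open Crest.Agent.R143.StgIx432
open Crest.Agent.R143.CntGx197 (Dense)
open Crest.Agent.R143.HDecx197 Crest.Agent.R143.HCompx197
open Crest.Agent.R143.Harx315 (IsStop)
open Crest.Agent.R143.Trans2x690 (Wf)
open Crest.Agent.R143.Spinex422 (Body)
open scoped ENNReal

/-- the ring at one mesh: box, weight, revealed sites, giant, environment -/
structure RDat (z : ℂ) (b s ε c d0 R K c1 c2 C4 : ℝ) (B : Set ℂ)
    (g : Set (ℂ × Bool) → ℝ≥0∞) (E : EFam) (Rv : Finset ℂ → Finset ℂ → Finset ℂ) : Prop where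
  Bm : MeasurableSet B
  Bb : Bornology.IsBounded B
  UB : Ub z b s ⊆ B
  gm : Poisx304.FM g
  g1 : ∀ X, g X ≤ 1
  mass : ENNReal.ofReal c ≤ Mg ε B g
  stop : ∀ᵐ ω ∂sampleLaw, IsStop (Ap ε B ω) (Rv (Ap ε B ω))
  facts : FactsAe ε B (Ub z b s) (sq z b) g Rv E
  dense : ∀ᵐ ω ∂sampleLaw, ∀ β ∈ (Ap ε B ω).powerset, g (paint (Ap ε B ω) β) ≠ 0 →
    ∃ d : ℝ, 0 < d ∧ 2 * d ≤ R ∧ d ≤ c1 * R ∧
      Dense (Ap ε B ω) z (3 * b + 2) K d c2 R (d0 / 2) C4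

/-- the far deep chords at one mesh: `Fg ≤ cF Lg + Lf + Zf + Yf + κf Ng` -/
def RFar (z : ℂ) (b s ε d0 R Cf τ δ : ℝ) (cF : ℕ) (B : Set ℂ) (g : Set (ℂ × Bool) → ℝ≥0∞)
    (E : EFam) : Prop :=
  ∃ (Lf Zf Yf : Finset ℂ → Finset ℂ → ℝ≥0∞) (RL RZ RY : Sample → ℝ≥0∞) (κf : ℝ≥0∞),
    (∀ᵐ ω ∂sampleLaw, ∀ β ∈ (Ap ε B ω).powerset, g (paint (Ap ε B ω) β) ≠ 0 →
      Fg z b d0 (2 * R) E (Ap ε B ω) β ≤ cF * Lg z b s d0 E (Ap ε B ω) β +
        Lf (Ap ε B ω) β + Zf (Ap ε B ω) β + Yf (Ap ε B ω) β +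
        κf * Ng z b d0 E (Ap ε B ω) β) ∧
      MajQ ε B g Lf RL ∧ MajQ ε B g Zf RZ ∧ MajQ ε B g Yf RY ∧
      ∫⁻ ω, RL ω ∂sampleLaw ≤ ENNReal.ofReal (Cf * (d0 + s) + δ) * Mg ε B g +
        ENNReal.ofReal δ ∧
      ∫⁻ ω, RZ ω ∂sampleLaw ≤ ENNReal.ofReal τ * Mg ε B g + ENNReal.ofReal δ ∧
      ∫⁻ ω, RY ω ∂sampleLaw ≤ ENNReal.ofReal δ ∧ κf ≤ ENNReal.ofReal τ

/-- **THE RING**, split form -/
def RingT (z : ℂ) (b : ℝ) : Prop :=
  ∃ C4 : ℝ, 0 ≤ C4 ∧ ∃ Cf : ℝ, 0 ≤ Cf ∧ ∃ cF : ℕ,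
    ∀ K c1 c2 : ℝ, 1 ≤ K → 0 < c1 → 0 < c2 → c2 ≤ 1 → ∀ d0 : ℝ, 0 < d0 → d0 ≤ b / 4 →
      ∀ R : ℝ, 0 < R → R ≤ d0 / 10 → ∀ τ : ℝ, 0 < τ → ∃ s c : ℝ, 0 < s ∧ s ≤ τ ∧ 0 < c ∧
        ∀ δ : ℝ, 0 < δ → ∃ᶠ ε : ℝ in 𝓝[>] 0, ∃ (B : Set ℂ) (g : Set (ℂ × Bool) → ℝ≥0∞)
          (E : EFam) (Rv : Finset ℂ → Finset ℂ → Finset ℂ),
          RDat z b s ε c d0 R K c1 c2 C4 B g E Rv ∧ RFar z b s ε d0 R Cf τ δ cF B g E

/-- one configuration: the layer -/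
theorem lay_conf {z : ℂ} {b s d0 : ℝ} {A β Rv : Finset ℂ} {E : EFam}
    (F : Facts (Ub z b s) (sq z b) A β Rv (E A β)) (hs : 0 ≤ s) (hd0 : 0 ≤ d0) :
    Lg z b s d0 E A β + Wf (A : Set ℂ) (Sb z b d0) ≤ Wf (A : Set ℂ) (Ub z b s) := by
  obtain ⟨e0⟩ := exists_dart F.gp F.c3
  unfold Lg
  rw [mn_eq F.gp F.cls]
  exact lay_le F.gp (fac_ste F) F.out hs hd0 e0 F.cls

/-- **one mesh** -/
theorem ring1_of {z : ℂ} {b s d0 R K c1 c2 C4 Cf τ δ c : ℝ} {cF : ℕ} (hb : 0 < b)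
    (hs : 0 < s) (hs1 : s ≤ 1) (hd0 : 0 < d0) (hdb : d0 ≤ b / 4) (hCf : 0 ≤ Cf) (hτ : 0 < τ)
    (hδ : 0 < δ) (_hc : 0 < c) : ∀ᶠ ε : ℝ in 𝓝[>] 0,
    ∀ (B : Set ℂ) (g : Set (ℂ × Bool) → ℝ≥0∞) (E : EFam)
      (Rv : Finset ℂ → Finset ℂ → Finset ℂ), RDat z b s ε c d0 R K c1 c2 C4 B g E Rv →
      RFar z b s ε d0 R Cf (τ / 2) (min (δ / 2) (τ / 2 * c)) cF B g E →
      Ring1 z b s ε c d0 R K c1 c2 C4 (cF * LayMx88.clL b + Cf) τ δ := by
  have hcl := LayMx88.clL_nonneg hb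
  have hc0 : (0 : ℝ) ≤ cF := Nat.cast_nonneg _
  set δ' : ℝ := δ / (2 * (cF + 1)) with hδ'
  have hδ0 : 0 < δ' := by positivity
  have hδ2 : cF * δ' ≤ δ / 2 := by
    rw [hδ', mul_div_assoc', div_le_div_iff₀ (by positivity) (by norm_num)]
    nlinarith
  filter_upwards [LayMx88.lay_maj' z (b := b) (s := s) (d := d0) (δ := δ') hb hs hs1
    hd0.le (by linarith) hδ0, eventually_mem_nhdsWithin] with ε hlay hε
  have hε : 0 < ε := hε
  rintro B g E Rv hD ⟨Lf, Zf, Yf, RL, RZ, RY, κf, hfar, jL, jZ, jY, iL, iZ, iY, hκ⟩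
  obtain ⟨R1, mL', iL'⟩ := hlay B hD.Bm hD.Bb g (val (Lg z b s d0 E)) hD.gm hD.g1 (by
    filter_upwards [hD.facts] with ω h β hβ h0
    rw [val_paint _ (Finset.mem_powerset.1 hβ)]
    have h1 := lay_conf (h β hβ h0) hs.le hd0.le
    rw [wf_congr fun w hw => (ps_iff hε hD.Bb hD.UB ω w hw).symm,
      wf_congr (U := Sb z b d0) fun w hw => (ps_iff hε hD.Bb hD.UB ω w
        (sb_sub hs.le hd0.le hw)).symm] at h1
    exact h1)
  have mL := majQ_of mL'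
  refine ⟨B, g, E, Rv, fun A β => (cF : ℝ≥0∞) * Lg z b s d0 E A β + Lf A β, Zf, Yf,
    fun ω => (cF : ℝ≥0∞) * R1 ω + RL ω, RZ, RY, κf, ⟨hD.Bm, hD.Bb, hD.UB, hD.gm, hD.g1, hD.mass⟩,
    ⟨hD.stop, hD.facts, hD.dense⟩, hfar, (mL.mul cF).add jL, jZ, jY, ?_, ?_, ?_, ?_⟩
  · rw [lintegral_add_right' _ jL.me, lintegral_const_mul'' _ mL.me]
    have e1 : ENNReal.ofReal (min (δ / 2) (τ / 2 * c)) ≤ ENNReal.ofReal (δ / 2) :=
      ENNReal.ofReal_le_ofReal (min_le_left _ _)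
    calc _ ≤ (cF : ℝ≥0∞) * (ENNReal.ofReal (LayMx88.clL b * (d0 + s) + δ') * Mg ε B g +
          ENNReal.ofReal δ') + (ENNReal.ofReal (Cf * (d0 + s) + δ / 2) * Mg ε B g +
          ENNReal.ofReal (δ / 2)) := by
          refine add_le_add (mul_le_mul_right iL' _) (iL.trans ?_)
          refine add_le_add (mul_le_mul_left (ENNReal.ofReal_le_ofReal ?_) _) e1
          have := min_le_left (δ / 2) (τ / 2 * c)
          linarith
      _ = (ENNReal.ofReal (cF * (LayMx88.clL b * (d0 + s) + δ')) +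
          ENNReal.ofReal (Cf * (d0 + s) + δ / 2)) * Mg ε B g +
          (ENNReal.ofReal (cF * δ') + ENNReal.ofReal (δ / 2)) := by
          rw [ENNReal.ofReal_mul hc0, ENNReal.ofReal_mul hc0, ENNReal.ofReal_natCast]
          ring
      _ ≤ _ := by
          rw [← ENNReal.ofReal_add (by positivity) (by positivity),
            ← ENNReal.ofReal_add (by positivity) (by positivity)]
          refine add_le_add (mul_le_mul_left (ENNReal.ofReal_le_ofReal ?_) _)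
            (ENNReal.ofReal_le_ofReal (by linarith))
          nlinarith
  · refine iZ.trans ?_
    have h1 : ENNReal.ofReal (min (δ / 2) (τ / 2 * c)) ≤ ENNReal.ofReal (τ / 2) * Mg ε B g := by
      calc _ ≤ ENNReal.ofReal (τ / 2 * c) := ENNReal.ofReal_le_ofReal (min_le_right _ _)
        _ = ENNReal.ofReal (τ / 2) * ENNReal.ofReal c := ENNReal.ofReal_mul (by positivity)
        _ ≤ _ := by
            gcongr
            exact hD.mass
    calc _ ≤ ENNReal.ofReal (τ / 2) * Mg ε B g + ENNReal.ofReal (τ / 2) * Mg ε B g :=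
          add_le_add le_rfl h1
      _ = _ := by
          rw [← add_mul, ← ENNReal.ofReal_add (by positivity) (by positivity)]
          congr 2
          ring
  · refine iY.trans (ENNReal.ofReal_le_ofReal ?_)
    have := min_le_left (δ / 2) (τ / 2 * c)
    linarith
  · exact hκ.trans (ENNReal.ofReal_le_ofReal (by linarith))

/-- **the ring, from the split form** -/
theorem ringS_of {z : ℂ} {b : ℝ} (hb : 0 < b) (H : RingT z b) : RingS z b := by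
  obtain ⟨C4, hC4, Cf, hCf, cF, H⟩ := H
  have hcl := LayMx88.clL_nonneg hb
  refine ⟨C4, hC4, cF * LayMx88.clL b + Cf, by positivity, ?_⟩
  intro K c1 c2 hK h1 h2 h3 d0 hd0 hdb R hR hRd τ hτ
  obtain ⟨s, c, hs, hsτ, hc, H⟩ := H K c1 c2 hK h1 h2 h3 d0 hd0 hdb R hR hRd
    (min (τ / 2) 1) (by positivity)
  have hs1 : s ≤ 1 := hsτ.trans (min_le_right _ _)
  refine ⟨s, c, hs, hsτ.trans ((min_le_left _ _).trans (by linarith)), hc, fun δ hδ => ?_⟩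
  have e1 : 0 < min (τ / 2) 1 := by positivity
  have h4 := ring1_of (z := z) (R := R) (K := K) (c1 := c1) (c2 := c2) (C4 := C4) (Cf := Cf)
    (τ := 2 * min (τ / 2) 1) (δ := δ) (cF := cF) hb hs hs1 hd0 hdb hCf (by positivity) hδ hc
  refine ((H (min (δ / 2) (2 * min (τ / 2) 1 / 2 * c)) (by positivity)).and_eventually h4).mono
    fun ε hε => ?_
  obtain ⟨⟨B, g, E, Rv, hD, hF⟩, h5⟩ := hε
  have h6 := h5 B g E Rv hD (by
    rw [show 2 * min (τ / 2) 1 / 2 = min (τ / 2) 1 by ring] at hF ⊢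
    exact hF)
  exact ring1_mono (by have := min_le_left (τ / 2) 1; linarith) h6

theorem body_of_ringT {z : ℂ} {b : ℝ} (hb : 0 < b) (H : RingT z b) : Body :=
  body_of_ring hb (ringS_of hb H)

end Crest.Agent.R143.RingTx197

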