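import Crest.Agent.R143.RingT_715
import Crest.Agent.R143.RingF_565

/-!
# Row 143 (S0194), block H, H5: the marks of the three patterns are first times (helper715)

Start `m k` between the gates `a k` and `b k`, mark `k` = first time after `m k` with a state in
`X k`, a set of states of the tile `j k` (`Jn`, `Xk`).
* `tt` : the marks; `not_seen`; **`Jn.s3`** : `S3` of `RingT_715` (so `RingK`, `NextK`, `two3`)
* **`Jn.ta_eq`, `Jn.tb_eq`** : the marks are 565's `ta`, `tb` (first time `≥ ta` in `X (k + 1)`)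
* **`Jn.rg3`, `Jn.mko`** : 828's `Rg3` for the start `m 0` and the windows of its junctions
-/

set_option autoImplicit false
set_option linter.unusedSectionVars false

noncomputable section

open scoped Classical

namespace Crest.Agent.R143.RingUx715

open Crest.Agent.R143.Frame1x395 Crest.Agent.R143.Frame2x395 Crest.Agent.R143.Frame3x395
  Crest.Agent.R143.Frame8x395 Crest.Agent.R143.Frame9x395 Crest.Agent.R143.Frame11x395
  Crest.Agent.R143.NonXx592 Crest.Agent.R143.Junx43 Crest.Agent.R143.Patx828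
  Crest.Agent.R143.HullKx715 Crest.Agent.R143.Jun3x565 Crest.Agent.R143.RingMx715
  Crest.Agent.R143.RingNx715 Crest.Agent.R143.RingOx715 Crest.Agent.R143.RingTx715
open Crest.Agent.R143.Chordx355 (lc gt rho_gt Sep)
open Crest.Agent.R143.Splx117 (gp)

variable {D C : Type} {M : CMap D C} {x : D → ZMod 2} {p : D} {N n : ℕ} {T : ℕ → ℕ}
  {Reg : ℕ → Set C} {g₀ : D} {m a b j : ℕ → ℕ} {X : ℕ → Set D}

/-- the mark `k` : first time after `m k` in `X k` -/
def tt (M : CMap D C) (x : D → ZMod 2) (p : D) (m : ℕ → ℕ) (X : ℕ → Set D) (k : ℕ) : ℕ :=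
  m k + fx M x (P M x p (m k)) (X k)

/-- the starts and the tiles of the marks -/
structure Jn (N n : ℕ) (T : ℕ → ℕ) (m a b j : ℕ → ℕ) : Prop where
  mN : ∀ k, m (k + 3) = m k + N
  aN : ∀ k, a (k + 3) = a k + n
  ma : ∀ k, T (a k) ≤ m k
  mb : ∀ k, m k ≤ T (b k)
  bj : ∀ k, b k + 2 ≤ j k
  ja : ∀ k, j k + 1 ≤ a (k + 1)

/-- the sets of states of the marks -/
structure Xk (M : CMap D C) (x : D → ZMod 2) (p : D) (T : ℕ → ℕ) (Reg : ℕ → Set C) (j : ℕ → ℕ)
    (X : ℕ → Set D) : Prop where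
  per : ∀ k, X (k + 3) = X k
  on : ∀ k, P M x p (T (j k)) ∈ X k
  reg : ∀ k, ∀ e ∈ X k, M.cell e ∈ Reg (j k)

/-- the states of a tile which is not a neighbour are not seen -/
theorem not_seen (R : TL M x p N n T Reg) {v c i : ℕ} {Y : Set D} (hY : ∀ e ∈ Y, M.cell e ∈ Reg c)
    (hn : c + 2 ≤ v + n) (h1 : T v ≤ i) (h2 : i < T (c - 1)) : P M x p i ∉ Y := by
  intro h
  have hv : v < c - 1 := by
    by_contra hc
    have : T (c - 1) ≤ T v := R.le (by omega)
    omega
  obtain ⟨k, k1, k2, k3⟩ := R.breg (a := v) (b := c - 1) (t := i) hv h1 h2.le (Or.inl rfl)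
  rcases R.nb (by omega) (by omega) k3 (hY _ h) with h3 | h3 <;> omega

namespace Jn

theorem ab (H : Jn N n T m a b j) (R : TL M x p N n T Reg) (k : ℕ) : a k ≤ b k :=
  R.mono.le_iff_le.1 ((H.ma k).trans (H.mb k))

/-- order of the windows -/
theorem ord (H : Jn N n T m a b j) (R : TL M x p N n T Reg) (k : ℕ) :
    a k ≤ b k ∧ b k + 2 ≤ j k ∧ j k + 1 ≤ a (k + 1) ∧ a (k + 1) ≤ b (k + 1) ∧
      b (k + 1) + 2 ≤ j (k + 1) ∧ j (k + 1) + 1 ≤ a (k + 2) ∧ j (k + 1) + 3 ≤ a k + n ∧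
      j (k + 2) + 1 ≤ a k + n := by
  have h1 := H.ja (k + 1)
  have h2 := H.ja (k + 2)
  have h3 := H.ab R (k + 2)
  have h4 := H.bj (k + 2)
  have h6 := H.aN k
  have e1 : k + 1 + 1 = k + 2 := by omega
  have e2 : k + 2 + 1 = k + 3 := by omega
  rw [e1] at h1
  rw [e2] at h2
  exact ⟨H.ab R k, H.bj k, H.ja k, H.ab R (k + 1), H.bj (k + 1), h1, by omega, by omega⟩

variable (H : Jn N n T m a b j) (R : TL M x p N n T Reg) (Y : Xk M x p T Reg j X)

include H R Y

/-- the mark is in the tile before the gate `j k` -/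
theorem tt_mem (k : ℕ) : P M x p (tt M x p m X k) ∈ X k ∧ T (j k - 1) ≤ tt M x p m X k ∧
    tt M x p m X k ≤ T (j k) ∧ ∀ i, m k ≤ i → i < tt M x p m X k → P M x p i ∉ X k := by
  obtain ⟨h1, h2, h3, h4, h5, -, h7, h8⟩ := H.ord R k
  have hm : m k ≤ T (j k) := (H.mb k).trans (R.le (by omega))
  have hX : P M x (P M x p (m k)) (T (j k) - m k) ∈ X k := by
    rw [← P_add, Nat.sub_add_cancel hm]
    exact Y.on k
  have k1 := RingFx565.fx_mem ⟨_, hX⟩
  have k2 := RingFx565.fx_le hX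
  have hmem : P M x p (tt M x p m X k) ∈ X k := by
    unfold tt
    rw [add_comm, P_add]
    exact k1
  refine ⟨hmem, ?_, ?_, ?_⟩
  · by_contra hc
    refine not_seen R (v := a k) (c := j k) (Y.reg k) (by omega) ?_ (not_le.1 hc) hmem
    exact (H.ma k).trans (Nat.le_add_right _ _)
  · unfold tt
    omega
  · intro i hi hi' h
    have e : P M x p i = P M x (P M x p (m k)) (i - m k) := by
      rw [← P_add, Nat.sub_add_cancel hi]
    rw [e] at h
    unfold tt at hi'
    exact RingFx565.fx_not (by omega) h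

/-- **the structure of the three starts** -/
theorem s3 (L : Chordx355.Lp M x p N) :
    S3 N n T m (tt M x p m X) a b (fun k => j k - 1) j where
  mN := H.mN
  tN k := by
    unfold tt
    rw [H.mN, Y.per, P_per L.per]
    omega
  aN := H.aN
  ma := H.ma
  mb := H.mb
  tl k := (H.tt_mem R Y k).2.1
  tu k := (H.tt_mem R Y k).2.2.1
  bl k := by
    have := H.bj k
    show b k + 1 ≤ j k - 1
    omega
  lu k := Nat.sub_le _ _
  ua := H.ja

/-- the set of the next mark is not seen before the next start -/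
theorem seen (k i : ℕ) (h1 : T (a k) ≤ i) (h2 : i < m (k + 1)) : P M x p i ∉ X (k + 1) := by
  obtain ⟨-, -, -, h4, h5, -, h7, -⟩ := H.ord R k
  refine not_seen R (v := a k) (c := j (k + 1)) (Y.reg (k + 1)) (by omega) h1 ?_
  exact h2.trans_le ((H.mb (k + 1)).trans (R.le (by omega)))

/-- **the second mark of the pattern `k` is the first mark of the pattern `k + 1`** -/
theorem next (k : ℕ) : tt M x p m X k + fx M x (P M x p (tt M x p m X k)) (X (k + 1)) =
    tt M x p m X (k + 1) := by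
  have h1 := H.tt_mem R Y k
  have h2 := H.tt_mem R Y (k + 1)
  have h3 := H.ord R k
  have hm : m k ≤ tt M x p m X k := Nat.le_add_right _ _
  refine RingFx565.next_tm (q := p) (q' := P M x p (m (k + 1))) rfl ?_ ?_ ?_
  · exact h1.2.2.1.trans ((R.le (by omega)).trans (H.ma (k + 1)))
  · intro i h4 h5
    exact H.seen R Y k i ((H.ma k).trans (hm.trans h4)) h5
  · refine ⟨fx M x (P M x p (m (k + 1))) (X (k + 1)), ?_⟩
    rw [← P_add]
    have e : fx M x (P M x p (m (k + 1))) (X (k + 1)) + m (k + 1) = tt M x p m X (k + 1) :=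
      Nat.add_comm _ _
    rw [e]
    exact h2.1

end Jn

/-! ### 565's marks -/

section ta

variable {α : Type} {χ : Finset α → C → ZMod 2} {bb : Finset α}

open Crest.Agent.R143.RingFx565 (ta tb ma)

/-- **the first mark is 565's `ta`** -/
theorem ta_eq (k : ℕ) (q : Finset α → D) (hq : q bb = P M (cfg M (χ bb)) p (m k)) :
    ta M χ q (fun _ => X k) bb = tt M (cfg M (χ bb)) p m X k - m k := by
  unfold ta tt
  rw [hq, Nat.add_sub_cancel_left]

/-- **the second mark is 565's `tb`** -/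
theorem tb_eq (H : Jn N n T m a b j) (R : TL M (cfg M (χ bb)) p N n T Reg)
    (Y : Xk M (cfg M (χ bb)) p T Reg j X) (k : ℕ) (q : Finset α → D)
    (hq : q bb = P M (cfg M (χ bb)) p (m k)) :
    tb M χ q (fun _ => X k) (fun _ => X (k + 1)) bb =
      tt M (cfg M (χ bb)) p m X (k + 1) - m k := by
  have h := H.next R Y k
  rw [← h]
  have e : ma M χ q (fun _ => X k) bb = P M (cfg M (χ bb)) p (tt M (cfg M (χ bb)) p m X k) := by
    unfold ma tt
    rw [hq, ← P_add, add_comm]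
  unfold tb
  rw [e, hq]
  show _ = m k + fx M (cfg M (χ bb)) (P M (cfg M (χ bb)) p (m k)) (X k) + _ - m k
  rw [Nat.add_assoc, Nat.add_sub_cancel_left]

/-- the walk hits both marks -/
theorem hit_of [Fintype D] (L : Chordx355.Lp M (cfg M (χ bb)) p N) (H : Jn N n T m a b j)
    (R : TL M (cfg M (χ bb)) p N n T Reg) (Y : Xk M (cfg M (χ bb)) p T Reg j X) (k : ℕ)
    (q : Finset α → D) (hq : q bb = P M (cfg M (χ bb)) p (m k)) :
    RingFx565.Hit M χ q (fun _ => X k) (fun _ => X (k + 1)) bb := by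
  have h1 := H.tt_mem R Y k
  have h2 := H.tt_mem R Y (k + 1)
  have h3 := H.next R Y k
  have hm : m k ≤ tt M (cfg M (χ bb)) p m X k := Nat.le_add_right _ _
  refine ⟨by rw [hq]; exact P_occ (cfg_isC _) L.occ _, ⟨tt M (cfg M (χ bb)) p m X k - m k, ?_⟩,
    ⟨tt M (cfg M (χ bb)) p m X (k + 1) - tt M (cfg M (χ bb)) p m X k, ?_⟩⟩
  · rw [hq, ← P_add, Nat.sub_add_cancel hm]
    exact h1.1
  · have e : ma M χ q (fun _ => X k) bb = P M (cfg M (χ bb)) p (tt M (cfg M (χ bb)) p m X k) := by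
      unfold ma tt
      rw [hq, ← P_add, add_comm]
    rw [e, ← P_add, Nat.sub_add_cancel (by omega)]
    exact h2.1

end ta

/-! ### 828's patterns for the start `m 0` -/

section rg

variable {q : ZMod 3 → ℕ} {s : ℕ}

theorem z3k (i : ZMod 3) : i = 0 ∨ i = 1 ∨ i = 2 := z3e i

theorem Jn.m3o (H : Jn N n T m a b j) (R : TL M x p N n T Reg) (Y : Xk M x p T Reg j X) :
    M3o n T (b 0) (m 0) (fun i : ZMod 3 => j i.val - 1) (fun i => j i.val)
      (fun i => tt M x p m X i.val) := by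
  obtain ⟨-, h2, h3, h4, h5, h6, h7, h8⟩ := H.ord R 0
  obtain ⟨-, -, -, g4, g5, -, -, -⟩ := H.ord R 1
  refine ⟨H.mb 0, ?_, fun i => Nat.sub_le _ _, ?_, ?_, fun i => (H.tt_mem R Y _).2.1,
    fun i => (H.tt_mem R Y _).2.2.1⟩
  · show b 0 ≤ j 0 - 1
    omega
  · show j 0 + 1 ≤ j 1 - 1
    simp only [Nat.zero_add] at h3 h4 h5
    omega
  · show j 1 + 1 ≤ j 2 - 1
    simp only [Nat.zero_add] at h6
    have e1 : 1 + 1 = 2 := rfl
    rw [e1] at g4 g5
    omega

/-- **828's `Rg3`**, start `m 0`, junctions = first gaps of the block at or after the marks -/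
theorem Jn.rg3 [Fintype D] {χ : C → ZMod 2} (H : Jn N n T m a b j)
    (L : Chordx355.Lp M (cfg M χ) p N) (hcol : χ (M.cell p) = 1)
    (R : TL M (cfg M χ) p N n T Reg) (hg : Gp M (cfg M χ) g₀)
    (G : GT n T (St M (cfg M χ) p N g₀)) (Y : Xk M (cfg M χ) p T Reg j X) :
    Rg3 M χ (P M (cfg M χ) p (m 0)) N
      fun i => fg (St M (cfg M χ) (P M (cfg M χ) p (m 0)) N g₀)
        (tt M (cfg M χ) p m X i.val - m 0) := by
  obtain ⟨-, -, -, -, -, -, -, h8⟩ := H.ord R 0
  exact rg3_o L hcol R hg G (v₀ := a 0) (H.ma 0) (by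
    show j 2 + 1 ≤ a 0 + n
    simpa using h8) (H.m3o R Y)

/-- **the windows of the junctions** -/
theorem Jn.mko (H : Jn N n T m a b j) (L : Chordx355.Lp M x p N) (R : TL M x p N n T Reg)
    (G : GT n T (St M x p N g₀)) (Y : Xk M x p T Reg j X)
    (ql : ∀ i : ZMod 3, q i + 1 ≤ j i.val + s) (qu : ∀ i : ZMod 3, j i.val + 1 ≤ q i + s)
    (q0 : s ≤ q 0) (q01 : q 0 + 2 * s < q 1) (q12 : q 1 + 2 * s < q 2)
    (q2 : q 2 + 2 * s < q 0 + n) :
    Mko n T (m 0) q s fun i => fg (St M x (P M x p (m 0)) N g₀)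
      (tt M x p m X i.val - m 0) := by
  obtain ⟨-, -, -, -, -, -, -, h8⟩ := H.ord R 0
  exact mko_of L R G (v₀ := a 0) (H.ma 0) (by
    show j 2 + 1 ≤ a 0 + n
    simpa using h8) (H.m3o R Y) (fun i => by
      have := ql i
      show q i ≤ j i.val - 1 + s
      omega) qu q0 q01 q12 q2

end rg

end Crest.Agent.R143.RingUx715
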