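import Crest.Agent.R143.RingU_197
import Crest.Agent.R143.LawG_348
import Crest.Agent.R143.RingWD_445

/-!
# Row 143 (S0194), block H: the ring events on the names of the family (helper713)

197's names (`RingU_197`): `et n`, `Wi n`, `Wo n`, box `closedBall 0 (Rr + 1)`, environment
`eF Rr √ε ρ0`. `U := closedBall 0 Rr`, `8 ≤ Rr`, `4 ≤ n`.
* `sqv_str` : the shifted square has five straight tiles; `sq_ball` : position of its tiles
* `fat_n`, `rall_n` : the tiles of `Wi n`, `Wo n` with a margin are in the ball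
* **`rng_n`** : a.e. sample, all `β`: `gO (Wi n) true ≠ 0`, `eF ≠ 0` ⇒ 713's `RngH` of the colours of
  the cells
* **`wht_n`** : `gO (Wo n) false ≠ 0`, `eF ≠ 0` ⇒ 348's `WhtH`
* **`both_n`** : from 445's whole weight `wt ≠ 0`
-/

set_option autoImplicit false
set_option linter.all false

noncomputable section

open scoped Classical

namespace Crest.Agent.R143.RngNx713

open MeasureTheory Filter Topology Set Metric
open Crest.ProbabilityR.Voronoi
open Crest.Agent.R143.B0x346 Crest.Agent.R143.DelGx806 Crest.Agent.R143.DelRx806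
open Crest.Agent.R143.PP0x831 Crest.Agent.R143.HBudx136 Crest.Agent.R143.HGluex136
  Crest.Agent.R143.JColx54 Crest.Agent.R143.SmallAx304 Crest.Agent.R143.Dblx609
  Crest.Agent.R143.Dbl2x609
open Crest.Agent.R143.Locx922 Crest.Agent.R143.Poisx304 Crest.Agent.R143.Janx304
open Crest.Agent.R143.Frame1x395 Crest.Agent.R143.Frame2x395 Crest.Agent.R143.Frame3x395
  Crest.Agent.R143.Frame8x395 Crest.Agent.R143.Frame10x395
open Crest.Agent.R143.IndLocx279 Crest.Agent.R143.PWx978 Crest.Agent.R143.Tplx978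
open Crest.Agent.R143.IndLoc3x279 Crest.Agent.R143.TileRx228 Crest.Agent.R143.PthFx765
  Crest.Agent.R143.TplIx204
open Crest.Agent.R143.ColXx829 Crest.Agent.R143.WLocx713 Crest.Agent.R143.CorHx713
open Crest.Agent.R143.RingXx713 Crest.Agent.R143.CorNx765 Crest.Agent.R143.GPosCx348
  Crest.Agent.R143.LawGx348
open Crest.Agent.R143.SqPx503 Crest.Agent.R143.SqGx445 Crest.Agent.R143.CircPx838
open Crest.Agent.R143.EnvRx795 (EnvS eF eF_ne)
open Crest.Agent.R143.FinCx811 Crest.Agent.R143.RingUx197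
open Crest.Agent.R143.Asm3x414 Crest.Agent.R143.Asm4x414
open scoped ENNReal

/-! ### the square paths -/

/-- **the shifted square has five straight tiles** -/
theorem sqv_str {K : ℕ} (hK : 6 ≤ K) (v : ℤ × ℤ) :
    ∃ g, ∀ j, g - 2 ≤ j → j ≤ g + 2 → ge (sqV K v) (j + 1) = ge (sqV K v) j := by
  obtain ⟨g, hg⟩ := sq_str hK
  refine ⟨g, fun j h1 h2 => ?_⟩
  have h := hg j h1 h2
  unfold ge at h ⊢
  unfold sqV
  rw [add_sub_add_right_eq_sub, add_sub_add_right_eq_sub]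
  exact h

/-- **position of the tiles** -/
theorem sq_ball {n j : ℕ} (hn : 4 ≤ n) (hj : j ≤ 11) {A B : ℝ} (hA0 : 0 < A) (hA : A ≤ 12 * et n)
    (hB : B ≤ 100 * et n) {a : ℤ} {s : ℂ}
    (hs : s ∈ RR A B (100 * et n) (sqV (n + 2 * j) (-(j : ℤ), -(j : ℤ))) a) : ‖s‖ ≤ 15 / 2 := by
  have n0 : 0 < n := by omega
  have hη := et_pos n0
  have hηn := et_mul n0
  have hn4 : (4 : ℝ) ≤ n := by exact_mod_cast hn
  have hη4 : 100 * et n ≤ 1 / 4 := by nlinarith
  have h := rr_sup (K := n + 2 * j) (by omega) (h := 100 * et n) (by linarith) hA0 hB hs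
  set c := sc (100 * et n) (n + 2 * j) (-(j : ℤ), -(j : ℤ)) with hc
  have hc1 : c = RingUx197.zB := by
    rw [hc]
    unfold sc RingUx197.zB
    apply Complex.ext
    · show 100 * et n * (((-(j : ℤ) : ℤ) : ℝ) + ((n + 2 * j : ℕ) : ℝ) / 2) = 1 / 2
      push_cast
      linear_combination hηn / 2
    · show 100 * et n * (((-(j : ℤ) : ℤ) : ℝ) + ((n + 2 * j : ℕ) : ℝ) / 2) = 1 / 2
      push_cast
      linear_combination hηn / 2
  have hj' : (j : ℝ) ≤ 11 := by exact_mod_cast hj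
  have hK : ((n + 2 * j : ℕ) : ℝ) * (100 * et n) / 2 ≤ 1 / 2 + 11 / 4 := by
    have : ((n + 2 * j : ℕ) : ℝ) * (100 * et n) = 1 + 2 * j * (100 * et n) := by
      push_cast
      linear_combination hηn
    rw [this]
    nlinarith
  have h1 : sup (s - c) ≤ 1 / 2 + 11 / 4 + 3 / 100 := by
    have h2 := (abs_lt.1 h).2
    linarith
  have h3 : ‖s - c‖ ≤ 2 * sup (s - c) := by
    have h4 := Complex.norm_le_abs_re_add_abs_im (s - c)
    have h5 : |(s - c).re| ≤ sup (s - c) := le_max_left _ _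
    have h6 : |(s - c).im| ≤ sup (s - c) := le_max_right _ _
    linarith
  have h4 : ‖c‖ ≤ 9 / 10 := by
    rw [hc1]
    have h5 : ‖RingUx197.zB‖ ^ 2 ≤ (9 / 10) ^ 2 := by
      rw [← Complex.normSq_eq_norm_sq, Complex.normSq_apply]
      unfold RingUx197.zB
      norm_num
    exact le_of_sq_le_sq h5 (by norm_num)
  have h5 := norm_add_le (s - c) c
  rw [sub_add_cancel] at h5
  linarith

/-- the tile side around the strips is in the ball -/
theorem fat_n {n j : ℕ} (hn : 4 ≤ n) (hj : j ≤ 11) {r : ℝ} (hr : 8 ≤ r) (a : ℤ) :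
    ∀ w ∈ RR (9 * et n) (51 * et n) (100 * et n) (sqV (n + 2 * j) (-(j : ℤ), -(j : ℤ))) a,
      ∀ s : ℂ, ‖s - w‖ ≤ 100 * et n → s ∈ closedBall (0 : ℂ) r := by
  intro w hw s hs
  have n0 : 0 < n := by omega
  have hη := et_pos n0
  have hηn := et_mul n0
  have hn4 : (4 : ℝ) ≤ n := by exact_mod_cast hn
  have hη4 : 100 * et n ≤ 1 / 4 := by nlinarith
  have h1 := sq_ball hn hj (by linarith) (by linarith) (by linarith) hw
  rw [mem_closedBall_zero_iff]
  have h2 := norm_add_le (s - w) w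
  rw [sub_add_cancel] at h2
  linarith

theorem rall_n {n j : ℕ} (hn : 4 ≤ n) (hj : j ≤ 11) {r : ℝ} (hr : 8 ≤ r) :
    Rall (12 * et n) (52 * et n) (100 * et n) (sqV (n + 2 * j) (-(j : ℤ), -(j : ℤ))) ⊆
      closedBall (0 : ℂ) r := by
  have hη := et_pos (n := n) (by omega)
  refine iUnion_subset fun a w hw => ?_
  have h1 := sq_ball hn hj (by linarith) (by linarith) (by linarith) hw
  rw [mem_closedBall_zero_iff]
  linarith

theorem wi_eq (n : ℕ) : Wi n = sqV (n + 2 * 1) (-((1 : ℕ) : ℤ), -((1 : ℕ) : ℤ)) := rfl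

theorem wo_eq (n : ℕ) : Wo n = sqV (n + 2 * 11) (-((11 : ℕ) : ℤ), -((11 : ℕ) : ℤ)) := rfl

/-- the path of the ring -/
theorem wi_fp (n : ℕ) : FPath (4 * (n + 2)) (Wi n) := sqv_fpath (by omega) _

/-- the path of the white circuit -/
theorem wo_fp (n : ℕ) : FPath (4 * (n + 22)) (Wo n) := sqv_fpath (by omega) _

/-! ### law ⇒ events -/

section law

variable {ε : ℝ} {hε : 0 < ε} {c : ℝ≥0∞} {c0 : c ≠ 0} {c1 : c ≤ 1} {D : DT} {n : ℕ} {Rr ρ0 : ℝ}
  [Fintype (ZMod (4 * (n + 2)))] [Fintype (ZMod (4 * (n + 22)))]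

theorem env_hol {A : Finset ℂ} {d : ℝ} (E : EnvS A Rr d ρ0) (hd : d ≤ 1 / 2) :
    Hol (A : Set ℂ) (closedBall 0 Rr) d :=
  E.holU fun z hz => by
    rw [mem_closedBall_zero_iff] at hz
    linarith

theorem env_card {A : Finset ℂ} {d : ℝ} (E : EnvS A Rr d ρ0) (hR : 8 ≤ Rr) (hd : d ≤ 1 / 2) :
    3 ≤ A.card := E.card (by linarith)

theorem sqrt_half (hn : 4 ≤ n) (hd : 100 * √ε ≤ et n) : √ε ≤ 1 / 2 := by
  have n0 : 0 < n := by omega
  have hη := et_pos n0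
  have hηn := et_mul n0
  have hn4 : (4 : ℝ) ≤ n := by exact_mod_cast hn
  have hη4 : 100 * et n ≤ 1 / 4 := by nlinarith
  linarith

/-- **the ring** -/
theorem rng_n (hn : 4 ≤ n) (N : NumC D (et n))
    (H : Std (D.raw ε hε c c0 c1).tpl D.A' D.B' D.h Prod.fst)
    (hP : (D.raw ε hε c c0 c1).AePos) (hR : 8 ≤ Rr) (hd : 100 * √ε ≤ et n) :
    ∀ᵐ ω ∂sampleLaw, ∀ β : Finset ℂ,
      RngNx765.gO (wi_fp n) H true (paint (Ap ε (closedBall 0 (Rr + 1)) ω) β) ≠ 0 →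
      eF Rr √ε ρ0 (paint (Ap ε (closedBall 0 (Rr + 1)) ω) β) ≠ 0 →
      ∀ (hS : GP (Ap ε (closedBall 0 (Rr + 1)) ω : Set ℂ))
        (h3 : 3 ≤ (Ap ε (closedBall 0 (Rr + 1)) ω).card),
        RngH (Xc hS h3 (chiS hS h3 β)) (closedBall 0 Rr) (4 * (n + 2)) (Wi n) (et n) √ε := by
  have hd2 := sqrt_half hn hd
  have hf := fun a => fat_n (n := n) (j := 1) hn (by norm_num) hR a
  have hr := rall_n (n := n) (j := 1) hn (by norm_num) hR
  have hr' := rall_n (n := n) (j := 1) hn (by norm_num) (r := Rr + 1) (by linarith)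
  filter_upwards [law_rng_paint N (wi_fp n) H hP (by omega) (sqv_str (by omega) _)
    isBounded_closedBall hr' (Real.sqrt_pos.2 hε) hd hf hr] with ω hω β h1 h2 hS h3
  exact hω (env_hol (eF_ne h2) hd2) hS h3 β h1

/-- **the white circuit** -/
theorem wht_n (hn : 4 ≤ n) (N : NumC D (et n))
    (H : Std (D.raw ε hε c c0 c1).tpl D.A' D.B' D.h Prod.fst)
    (hP : (D.raw ε hε c c0 c1).AePos) (hR : 8 ≤ Rr) (hd : 100 * √ε ≤ et n) :
    ∀ᵐ ω ∂sampleLaw, ∀ β : Finset ℂ,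
      RngNx765.gO (wo_fp n) H false (paint (Ap ε (closedBall 0 (Rr + 1)) ω) β) ≠ 0 →
      eF Rr √ε ρ0 (paint (Ap ε (closedBall 0 (Rr + 1)) ω) β) ≠ 0 →
      ∀ (hS : GP (Ap ε (closedBall 0 (Rr + 1)) ω : Set ℂ))
        (h3 : 3 ≤ (Ap ε (closedBall 0 (Rr + 1)) ω).card),
        LawGx348.WhtH (Xc hS h3 (chiS hS h3 β)) (closedBall 0 Rr) (4 * (n + 22)) (Wo n) (et n) √ε := by
  have hd2 := sqrt_half hn hd
  have hf := fun a => fat_n (n := n) (j := 11) hn (by norm_num) hR a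
  have hr := rall_n (n := n) (j := 11) hn (by norm_num) hR
  have hr' := rall_n (n := n) (j := 11) hn (by norm_num) (r := Rr + 1) (by linarith)
  filter_upwards [law_wht_paint N (wo_fp n) H hP (by omega)
    isBounded_closedBall hr' (Real.sqrt_pos.2 hε) hd hf hr] with ω hω β h1 h2 hS h3
  exact hω (env_hol (eF_ne h2) hd2) hS h3 β h1

/-- **everything from 445's weight** -/
theorem both_n (hn : 4 ≤ n) (N : NumC D (et n))
    (H : Std (D.raw ε hε c c0 c1).tpl D.A' D.B' D.h Prod.fst)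
    (hP : (D.raw ε hε c c0 c1).AePos) (hR : 8 ≤ Rr) (hd : 100 * √ε ≤ et n)
    {Ui Uo : Set ℂ} {F : Set (ℂ × Bool) → ℝ≥0∞} {Kw : ℝ≥0∞}
    (G : WgtHx445.WD ε (closedBall 0 (Rr + 1)) Ui Uo (RngNx765.gO (wi_fp n) H true)
      (RngNx765.gO (wo_fp n) H false) F (eF Rr √ε ρ0) Kw) :
    ∀ᵐ ω ∂sampleLaw, ∀ β : Finset ℂ,
      WgtHx445.wt (closedBall 0 (Rr + 1)) (RngNx765.gO (wi_fp n) H true)
        (RngNx765.gO (wo_fp n) H false) F (eF Rr √ε ρ0)
        (paint (Ap ε (closedBall 0 (Rr + 1)) ω) β) ≠ 0 →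
      EnvS (Ap ε (closedBall 0 (Rr + 1)) ω) Rr √ε ρ0 ∧
      F (paint (Ap ε (closedBall 0 (Rr + 1)) ω) β) ≠ 0 ∧
      ∃ (hS : GP (Ap ε (closedBall 0 (Rr + 1)) ω : Set ℂ))
        (h3 : 3 ≤ (Ap ε (closedBall 0 (Rr + 1)) ω).card),
        RngH (Xc hS h3 (chiS hS h3 β)) (closedBall 0 Rr) (4 * (n + 2)) (Wi n) (et n) √ε ∧
        LawGx348.WhtH (Xc hS h3 (chiS hS h3 β)) (closedBall 0 Rr) (4 * (n + 22)) (Wo n) (et n)
          √ε := by
  filter_upwards [rng_n (ρ0 := ρ0) hn N H hP hR hd, wht_n (ρ0 := ρ0) hn N H hP hR hd]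
    with ω h1 h2 β h0
  obtain ⟨g1, g2, g3, g4⟩ := G.w_ne ((paint_fin _ β).subset inter_subset_left) h0
  have E := eF_ne g4
  have h3 := env_card E hR (sqrt_half hn hd)
  exact ⟨E, g3, E.gp, h3, h1 β g1 g4 E.gp h3, h2 β g2 g4 E.gp h3⟩

end law

end Crest.Agent.R143.RngNx713
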