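import Crest.Agent.R143.StrB_117

/-!
# Row 143 (S0194), part B without E3: the root gap at a gate (helper117)

* `ink_last` : the last visit of the first left cell of an arc is a gap of the block path
* `Str.root` : a gap of the block path of the strand whose old cell is the left cell of the gate `j`
* `Str.root_cm0` : the same for the strand of a corridor on `cm0 hS`
-/

set_option autoImplicit false

noncomputable section

open scoped Classical

namespace Crest.Agent.R143.StrBx117

open Crest.Agent.R143.B0x346 Crest.Agent.R143.DelGx806 Crest.Agent.R143.DelRx806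
  Crest.Agent.R143.JColx54
open Crest.Agent.R143.Frame1x395 Crest.Agent.R143.Frame2x395 Crest.Agent.R143.Frame3x395
  Crest.Agent.R143.Frame4x395 Crest.Agent.R143.Frame8x395 Crest.Agent.R143.Frame9x395
  Crest.Agent.R143.Frame10x395 Crest.Agent.R143.Frame11x395
open Crest.Agent.R143.Splx117 Crest.Agent.R143.WLocx713 Crest.Agent.R143.RingDx117
  Crest.Agent.R143.CorrDx117

section cm

variable {D C : Type} {M : CMap D C} {x : D → ZMod 2} {N : ℕ} {q p : D}

/-- **the last visit of the first left cell** of the arc `[A, B]` is a gap of the block path -/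
theorem ink_last [Finite D] (L : Lp M x p N) {A B : ℕ} (h1 : A ≤ B) (h2 : B < A + N)
    (hne : lc M x p A ≠ lc M x p B) :
    ∃ i, InK M x p A B i ∧ lc M x p i = lc M x p A ∧
      ∀ j, i < j → j ≤ B → lc M x p j ≠ lc M x p A := by
  have hlt : A < B := by
    rcases h1.lt_or_eq with h | h
    · exact h
    · exact absurd (by rw [h]) hne
  obtain ⟨i, a1, a2, a3, a4⟩ := last_time (Q := fun i => lc M x p i = lc M x p A) hlt rfl
    (fun e => hne e.symm)
  refine ⟨i, ⟨a1, a2, L.gap_of_ne ?_, fun j l b1 b2 b3 b4 e => ?_⟩, a3, a4⟩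
  · rw [a3]
    exact a4 (i + 1) (by omega) (by omega)
  · have c1 : lc M x p l ≠ lc M x p A := a4 l b3 b4
    have c2 : lc M x p j ≠ lc M x p A := by rw [e]; exact c1
    have c3 : j ≠ A := by rintro rfl; exact c2 rfl
    have c4 : j ≠ i := by rintro rfl; exact c2 a3
    have hit : ∀ n, (stp M x)^[n] ((stp M x)^[A] p) = (stp M x)^[n + A] p := fun n => by
      rw [← Function.iterate_add_apply]
    apply c2
    have := NonXx592.noncross L.even (p := (stp M x)^[A] p) (L.st A) (k := j - A) (j := i - A)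
      (l := l - A) (by omega) (by omega) (by omega) (fun a b hab hb => by
        show (stp M x)^[a] _ ≠ (stp M x)^[b] _
        rw [hit, hit]
        exact L.ne (by omega) (by omega))
      (by
        show M.cell ((stp M x)^[i - A] _) = _
        rw [hit, show i - A + A = i by omega]
        exact a3)
      (by
        show M.cell ((stp M x)^[j - A] _) = M.cell ((stp M x)^[l - A] _)
        rw [hit, hit, show j - A + A = j by omega, show l - A + A = l by omega]
        exact e)
    change M.cell ((stp M x)^[j - A] _) = _ at this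
    rw [hit, show j - A + A = j by omega] at this
    exact this

variable {n : ℕ} {Rs : Set D} {P : ℕ → D} {R : ℕ → Set D} {T : ℕ → ℕ}

/-- **a root gap at the gate `j`** -/
theorem Str.root [Finite D] (A : Str M x n Rs P R q N T) {j : ℕ} (h1 : j + 1 < n)
    (hne : lc M x q (T j) ≠ lc M x q (T (j + 1))) :
    ∃ r, T j ≤ r ∧ r < T (j + 1) ∧ InK M x q 0 (T n) r ∧ lc M x q r = lc M x q (T j) ∧
      ∀ i, r < i → i ≤ T (j + 1) → lc M x q i ≠ lc M x q (T j) := by
  have hTn : T (j + 1) ≤ T n := mono_of (a := 0) (b := n) (fun k _ h => A.mono k h)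
    (Nat.zero_le _) (by omega) le_rfl
  have hN := A.TN
  obtain ⟨r, a1, a2, a3⟩ := ink_last A.lp (A.mono j (by omega)) (by omega) hne
  exact ⟨r, a1.lo, a1.hi, (A.ink (by omega) a1.lo a1.hi).2 a1, a2, a3⟩

end cm

section dc

variable {S : Finset ℂ} {χ : ℂ → ZMod 2} {hS : GP (S : Set ℂ)} {hχ : HullC S χ} {n N : ℕ}
  {y z : ℕ → ℂ} {A B : ℕ → Set ℂ} {p : ℕ → D0 S} {Rs : Set (D0 S)} {q : D0 S} {T : ℕ → ℕ}

/-- **the root gap of the corridor at the gate `n - j`**: its old left cell is the neck -/
theorem root_cm0 (R : DCorr hS hχ n y z A B p)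
    (H : Str (cm0 hS) (xc hS hχ) n Rs (fun k => p (n - k)) (fun k => RD S (B (n - 1 - k))) q N T)
    {j : ℕ} (h0 : 0 < j) (h1 : j + 1 < n) :
    ∃ r, T j ≤ r ∧ r < T (j + 1) ∧ InK (cm0 hS) (xc hS hχ) q 0 (T n) r ∧
      lc (cm0 hS) (xc hS hχ) q r = Quot.mk _ (y (n - j)) ∧
      (stp (cm0 hS) (xc hS hχ))^[r] q ∈ RD S (B (n - 1 - j)) ∧
      (stp (cm0 hS) (xc hS hχ))^[r + 1] q ∈ RD S (B (n - 1 - j)) := by
  have c : ∀ k, 0 < k → k < n → lc (cm0 hS) (xc hS hχ) q (T k) = Quot.mk _ (y (n - k)) := by
    intro k h2 h3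
    unfold lc
    rw [H.at_ k h2 h3]
    exact R.cell (by omega)
  have inn : ¬ OnHull S (y (n - j)) := by
    have h2 := R.innA (n - j - 1) (by omega) (y (n - j)) (R.yS (by omega)) (by
      have := R.mem1 (n - j - 1) (by omega)
      rwa [show n - j - 1 + 1 = n - j by omega] at this)
    exact h2
  have hne : lc (cm0 hS) (xc hS hχ) q (T j) ≠ lc (cm0 hS) (xc hS hχ) q (T (j + 1)) := by
    rw [c j h0 (by omega), c (j + 1) (by omega) h1]
    intro e
    have h2 := quot_inner hS inn e
    have h3 := R.ne (n - (j + 1)) (by omega)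
    rw [show n - (j + 1) + 1 = n - j by omega] at h3
    exact h3 h2
  obtain ⟨r, a1, a2, a3, a4, -⟩ := H.root h1 hne
  refine ⟨r, a1, a2, a3, a4.trans (c j h0 (by omega)), ?_, ?_⟩
  · exact H.arc j (by omega) r a1 a2.le
  · exact H.arc j (by omega) (r + 1) (by omega) (by omega)

end dc

end Crest.Agent.R143.StrBx117
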