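import Crest.Agent.R143.Coarse2_166
import Crest.Agent.R143.Frame11_395

/-!
# Row 143 (S0194): the ends of the root block = the hits (helper643)

Every closed map `M`, even configuration `x`, root gap `g₀` with the cells `A = cell g₀`,
`B = cell (rho g₀)` (one colour) and the third cell `W = cell (rho² g₀)` (other colour). Giants and
cells which are not discs allowed (coarse maps, killed maps), no hull.

* `Jo M x c a b` : `a`, `b ≠ c` are joined by a chain of cells of one colour which avoids `c`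
* `sep4` : a loop never sees on its left `a, c, b, c` with `a`, `b` joined away from `c`
* `HitA M x g₀ f` : `f` a face with (cell f, cell rho f, cell rho² f) = (b, z, w), `z = A`, `b` joined
  to `B` away from `A`, `w` joined to `W`
* `hitA_iff : HitA M x g₀ f ↔ f = kA M x g₀`, `hitB_iff : HitB M x g₀ f ↔ f = kB M x g₀`
-/

set_option autoImplicit false

noncomputable section

open scoped Classical

namespace Crest.Agent.R143.Rootx643

open Crest.Agent.R143.Frame1x395 Crest.Agent.R143.Frame2x395 Crest.Agent.R143.Frame3x395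
  Crest.Agent.R143.Frame4x395 Crest.Agent.R143.Frame8x395 Crest.Agent.R143.Frame9x395
  Crest.Agent.R143.NonXx592 Crest.Agent.R143.Coarsex166 Crest.Agent.R143.Coarse2x166
open Crest.Agent.R143.Frame11x395 (Con same_loop)

variable {D C : Type} {M : CMap D C} {x : D → ZMod 2}

/-- a side with two ends of the same colour -/
def Sd (M : CMap D C) (x : D → ZMod 2) (a b : C) : Prop :=
  ∃ d, x d = 0 ∧ M.cell d = a ∧ M.cell (M.rho d) = b

theorem Sd.symm (h : IsC M ∅ x) {a b : C} (H : Sd M x a b) : Sd M x b a := by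
  obtain ⟨d, h1, rfl, rfl⟩ := H
  by_cases hd : d ∈ M.live
  · exact ⟨M.iota d, by rw [h.iot]; exact h1, M.cell_iota d hd, cell_rho_iota M hd⟩
  · refine ⟨d, h1, M.dead d hd, (M.dead d hd).symm⟩

/-- `a` and `b` are joined by a chain of cells of one colour which avoids `c` -/
def Jo (M : CMap D C) (x : D → ZMod 2) (c a b : C) : Prop :=
  a ≠ c ∧ Relation.ReflTransGen (fun a b => Sd M x a b ∧ b ≠ c) a b

theorem Jo.refl {c a : C} (h : a ≠ c) : Jo M x c a a := ⟨h, Relation.ReflTransGen.refl⟩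

theorem Jo.snd {c a b : C} (H : Jo M x c a b) : b ≠ c := by
  rcases Relation.ReflTransGen.cases_tail H.2 with h | ⟨d, -, h⟩
  · rw [h]; exact H.1
  · exact h.2

theorem Jo.trans {c a b d : C} (H : Jo M x c a b) (K : Jo M x c b d) : Jo M x c a d :=
  ⟨H.1, H.2.trans K.2⟩

theorem Jo.step {c a b d : C} (H : Jo M x c a b) (h : Sd M x b d) (hd : d ≠ c) :
    Jo M x c a d := ⟨H.1, H.2.tail ⟨h, hd⟩⟩

theorem Jo.symm (h : IsC M ∅ x) {c a b : C} (H : Jo M x c a b) : Jo M x c b a := by
  obtain ⟨h0, H⟩ := H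
  induction H with
  | refl => exact Jo.refl h0
  | @tail b d h1 h2 ih =>
    have hb : b ≠ c := Jo.snd ⟨h0, h1⟩
    exact ((Jo.refl h2.2).step (h2.1.symm h) hb).trans ih

theorem Jo.col {c a b : C} (H : Jo M x c a b) {χ : C → ZMod 2}
    (hχ : ∀ d, x d = 0 → χ (M.cell d) = χ (M.cell (M.rho d))) : χ a = χ b := by
  obtain ⟨h0, H⟩ := H
  induction H with
  | refl => rfl
  | tail _ h2 ih =>
    obtain ⟨⟨d, h3, rfl, rfl⟩, -⟩ := h2
    exact ih.trans (hχ d h3)

theorem Jo.con {c a b : C} (H : Jo M x c a b) : Con M x a b := by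
  obtain ⟨-, H⟩ := H
  induction H with
  | refl => exact Relation.EqvGen.refl _
  | tail _ h2 ih => exact ih.trans _ _ _ (Relation.EqvGen.rel _ _ h2.1)

theorem exists_col (h : IsC M ∅ x) :
    ∃ χ : C → ZMod 2, ∀ d, x d = χ (M.cell d) + χ (M.cell (M.rho d)) :=
  M.ex x h.dead h.iot fun d => by rw [h.par d, if_neg (Set.notMem_empty d)]

theorem col_eq {χ : C → ZMod 2} (hχ : ∀ d, x d = χ (M.cell d) + χ (M.cell (M.rho d)))
    (d : D) (hd : x d = 0) : χ (M.cell d) = χ (M.cell (M.rho d)) := by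
  have := hχ d
  rw [hd] at this
  revert this
  generalize χ (M.cell d) = a
  generalize χ (M.cell (M.rho d)) = b
  revert a b; decide

/-- the map which merges the cells joined to `a` away from `c` -/
def mg (M : CMap D C) (x : D → ZMod 2) (c a : C) : C → C := fun b => if Jo M x c a b then a else b

theorem mg_in {c a b : C} (H : Jo M x c a b) : mg M x c a b = a := if_pos H

theorem mg_out {c a b : C} (H : ¬ Jo M x c a b) : mg M x c a b = b := if_neg H

theorem mg_c {c a : C} : mg M x c a c = c := mg_out fun H => H.snd rfl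

theorem mg_eq {c a b b' : C} (ha : a ≠ c) (e : mg M x c a b = mg M x c a b') :
    b = b' ∨ (Jo M x c a b ∧ Jo M x c a b') := by
  by_cases h1 : Jo M x c a b
  · by_cases h2 : Jo M x c a b'
    · exact Or.inr ⟨h1, h2⟩
    · rw [mg_in h1, mg_out h2] at e
      exact absurd (e ▸ Jo.refl ha) h2
  · by_cases h2 : Jo M x c a b'
    · rw [mg_out h1, mg_in h2] at e
      exact absurd (e.symm ▸ Jo.refl ha) h1
    · rw [mg_out h1, mg_out h2] at e
      exact Or.inl e

theorem mg_con (h : IsC M ∅ x) {c a : C} (ha : a ≠ c) : ClsCon M (mg M x c a) := by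
  have key : ∀ b, Jo M x c a b → Relation.EqvGen (Adj M (mg M x c a)) a b := by
    rintro b ⟨h0, H⟩
    induction H with
    | refl => exact Relation.EqvGen.refl _
    | @tail b d h1 h2 ih =>
      refine ih.trans _ _ _ ?_
      obtain ⟨⟨e, h3, h4, h5⟩, h6⟩ := h2
      by_cases he : e ∈ M.live
      · refine Relation.EqvGen.rel _ _ ⟨?_, e, he, h4, h5⟩
        have hb : Jo M x c a b := ⟨h0, h1⟩
        rw [mg_in hb, mg_in (hb.step ⟨e, h3, h4, h5⟩ h6)]
      · have := M.dead e he
        rw [h4, h5] at this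
        rw [this]
        exact Relation.EqvGen.refl _
  intro p q e
  rcases mg_eq ha e with h1 | ⟨h1, h2⟩
  · rw [h1]; exact Relation.EqvGen.refl _
  · exact ((key _ h1).symm).trans _ _ _ (key _ h2)

theorem mg_isC (h : IsC M ∅ x) {c a : C} (ha : a ≠ c) :
    IsC (coarse M (mg M x c a) (mg_con h ha)) ∅ x := by
  obtain ⟨χ, hχ⟩ := exists_col h
  refine isC_coarse.2 ⟨h, fun d hd e => ?_⟩
  have h0 := col_eq hχ
  rcases mg_eq ha e with h1 | ⟨h1, h2⟩
  · rw [hχ d, h1]; exact z_self _
  · have := (h1.col h0).symm.trans (h2.col h0)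
    rw [hχ d, this]; exact z_self _

/-- **a loop never sees `a, c, b, c` with `a`, `b` joined away from `c`** -/
theorem sep4 [Finite D] (h : IsC M ∅ x) {p : D} (hp : x p = 1) {k j l : ℕ} (h0k : 0 < k)
    (hkj : k < j) (hjl : j < l) (hinj : ∀ a b, a < b → b ≤ l → P M x p a ≠ P M x p b) {c : C}
    (hk : M.cell (P M x p k) = c) (hl : M.cell (P M x p l) = c)
    (H : Jo M x c (M.cell p) (M.cell (P M x p j))) : False := by
  have ha := H.1
  have h1 := noncross (M := coarse M (mg M x c (M.cell p)) (mg_con h ha)) (mg_isC h ha) hp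
    h0k hkj hjl hinj
    (by
      show mg M x c (M.cell p) (M.cell (P M x p j)) = mg M x c (M.cell p) (M.cell p)
      rw [mg_in H, mg_in (Jo.refl ha)])
    (by
      show mg M x c (M.cell p) (M.cell (P M x p k)) = mg M x c (M.cell p) (M.cell (P M x p l))
      rw [hk, hl])
  have h2 : mg M x c (M.cell p) (M.cell (P M x p k)) = mg M x c (M.cell p) (M.cell p) := h1
  rw [hk, mg_c, mg_in (Jo.refl ha)] at h2
  exact ha h2.symm

/-- left cells along a loop -/
theorem left_sd (h : IsC M ∅ x) {p : D} (hp : x p = 1) (n : ℕ) :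
    M.cell (P M x p (n + 1)) = M.cell (P M x p n) ∨
      Sd M x (M.cell (P M x p n)) (M.cell (P M x p (n + 1))) := by
  by_cases e : M.cell (P M x p (n + 1)) = M.cell (P M x p n)
  · exact Or.inl e
  · right
    rw [P_succ] at e ⊢
    obtain ⟨g, hg, h1, h2⟩ := gap_of_ne h (P_occ h hp n) e
    refine Sd.symm h ⟨g, hg.1, ?_, ?_⟩
    · rw [← h2, cell_out h hg]
    · rw [h1]

theorem left_jo (h : IsC M ∅ x) {p : D} (hp : x p = 1) {c : C} {m : ℕ} :
    ∀ n, m ≤ n → (∀ k, m ≤ k → k ≤ n → M.cell (P M x p k) ≠ c) →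
      Jo M x c (M.cell (P M x p m)) (M.cell (P M x p n)) := by
  intro n
  induction n with
  | zero =>
    intro h1 h2
    have : m = 0 := by omega
    subst this
    exact Jo.refl (h2 0 le_rfl le_rfl)
  | succ n ih =>
    intro h1 h2
    rcases Nat.lt_or_ge n m with h3 | h3
    · have : m = n + 1 := by omega
      subst this
      exact Jo.refl (h2 _ le_rfl le_rfl)
    · have h4 := ih h3 fun k hk1 hk2 => h2 k hk1 (by omega)
      rcases left_sd h hp n with e | e
      · rw [e]; exact h4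
      · exact h4.step e (h2 _ h1 le_rfl)

theorem con_sd {a b : C} (H : Sd M x a b) : Con M x a b := Relation.EqvGen.rel _ _ H

theorem right_con (h : IsC M ∅ x) {p : D} (hp : x p = 1) (n : ℕ) :
    Con M x (M.cell (M.rho p)) (M.cell (M.rho (P M x p n))) := by
  induction n with
  | zero => exact Relation.EqvGen.refl _
  | succ n ih =>
    refine ih.trans _ _ _ ?_
    rcases right_cases h hp n with ⟨-, e⟩ | ⟨h1, e⟩
    · change M.cell (M.rho (P M x p (n + 1))) = M.cell (M.rho (P M x p n)) at e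
      rw [e]; exact Relation.EqvGen.refl _
    · change M.cell (M.rho (P M x p (n + 1))) = M.cell (M.rho (M.rho (P M x p n))) at e
      rw [e]
      exact Relation.EqvGen.rel _ _ ⟨_, h1, rfl, rfl⟩

theorem cell_rho_out (h : IsC M ∅ x) {g : D} (hg : Gp M x g) :
    M.cell (M.rho (out M g)) = M.cell (M.rho (M.rho g)) :=
  cell_rho_iota M (h.lv (hg.two h))

/-- **hit of the giant `A = cell g₀`** -/
structure HitA (M : CMap D C) (x : D → ZMod 2) (g₀ f : D) : Prop where
  gp : Gp M x f
  tgt : M.cell (M.rho f) = M.cell g₀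
  jo : Jo M x (M.cell g₀) (M.cell f) (M.cell (M.rho g₀))
  con : Con M x (M.cell (M.rho (M.rho f))) (M.cell (M.rho (M.rho g₀)))

/-- **hit of the giant `B = cell (rho g₀)`** -/
structure HitB (M : CMap D C) (x : D → ZMod 2) (g₀ f : D) : Prop where
  gp : Gp M x f
  tgt : M.cell f = M.cell (M.rho g₀)
  jo : Jo M x (M.cell (M.rho g₀)) (M.cell (M.rho f)) (M.cell g₀)
  con : Con M x (M.cell (M.rho (M.rho f))) (M.cell (M.rho (M.rho g₀)))

/-- the gap `f` is on the loop of `g₀` -/
theorem on_loop [Finite D] (hx : IsC M ∅ x) {g₀ f : D} (hg : Gp M x g₀) (hf : Gp M x f)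
    (hl : Con M x (M.cell g₀) (M.cell (M.rho f)))
    (hr : Con M x (M.cell (M.rho (M.rho g₀))) (M.cell (M.rho (M.rho f)))) :
    ∃ n, P M x (out M g₀) n = M.rho f :=
  same_loop hx (hg.out hx) hf.2 (by rw [cell_out hx hg]; exact hl)
    (by rw [cell_rho_out hx hg]; exact hr)

theorem hitA_rel [Finite D] (hx : IsC M ∅ x) {g₀ f : D} (hg : Gp M x g₀)
    (hAB : M.cell g₀ ≠ M.cell (M.rho g₀)) (H : HitA M x g₀ f) : Rel M x g₀ f := by
  obtain ⟨N, hNpos, hN, hinj, hlast⟩ := exists_period hx hg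
  obtain ⟨n, hn⟩ := on_loop hx hg H.gp (by rw [H.tgt]; exact Relation.EqvGen.refl _)
    (Relation.EqvGen.symm _ _ H.con)
  -- the time of `f`
  obtain ⟨b, hbN, hfb⟩ : ∃ b, b < N ∧ M.rho f = P M x (out M g₀) b := by
    refine ⟨n % N, Nat.mod_lt _ hNpos, ?_⟩
    rw [← hn]
    conv_lhs => rw [← Nat.mod_add_div n N]
    rw [P_add]
    congr 1
    have : ∀ q, P M x (out M g₀) (N * q) = out M g₀ := by
      intro q
      induction q with
      | zero => rfl
      | succ q ih => rw [Nat.mul_succ, P_add, hN, ih]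
    exact this _
  have hfg : f ≠ g₀ := by
    rintro rfl
    exact hAB H.tgt.symm
  have hb1 : b + 1 < N := by
    rcases Nat.lt_or_ge (b + 1) N with h1 | h1
    · exact h1
    · exfalso
      have : b = N - 1 := by omega
      rw [this, ← hlast] at hfb
      exact hfg (rho_inj M hfb)
  rw [rel_loop hx hg hN hinj hlast hb1 H.gp hfb]
  set p := out M g₀ with hpdef
  have hp : x p = 1 := hg.out hx
  have c0 : M.cell (P M x p 0) = M.cell g₀ := cell_out hx hg
  have cb : M.cell (P M x p b) = M.cell g₀ := by rw [← hfb, H.tgt]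
  have cb1 : M.cell (P M x p (b + 1)) = M.cell f := by
    rw [← out_eq hx H.gp hfb, cell_out hx H.gp]
  have cl : M.cell (P M x p (N - 1)) = M.cell (M.rho g₀) := by rw [← hlast]
  intro u hu v hv1 hv2 e
  by_cases hc : M.cell (P M x p u) = M.cell g₀
  · -- the giant is seen again between `f` and `g₀`
    have hv : M.cell (P M x p v) = M.cell g₀ := by rw [← e, hc]
    have hvb : v ≠ b + 1 := by
      rintro rfl
      rw [cb1] at hv
      exact H.jo.1 hv
    have hvl : v ≠ N - 1 := by
      rintro rfl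
      rw [cl] at hv
      exact hAB hv.symm
    refine sep4 hx (p := P M x p (b + 1)) (P_occ hx hp _) (k := v - (b + 1))
      (j := N - 1 - (b + 1)) (l := N - (b + 1)) (by omega) (by omega) (by omega) ?_
      (c := M.cell g₀) ?_ ?_ ?_
    · intro a c hac hc2 h1
      rw [← P_add, ← P_add] at h1
      rcases Nat.lt_or_ge (c + (b + 1)) N with h2 | h2
      · exact hinj _ _ (by omega) h2 h1
      · have h3 : c + (b + 1) = 0 + N := by omega
        rw [h3, P_per hN] at h1
        exact hinj 0 (a + (b + 1)) (by omega) (by omega) h1.symm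
    · rw [← P_add, show v - (b + 1) + (b + 1) = v by omega, hv]
    · rw [← P_add, show N - (b + 1) + (b + 1) = 0 + N by omega, P_per hN, c0]
    · rw [← P_add, show N - 1 - (b + 1) + (b + 1) = N - 1 by omega, cb1, cl]
      exact H.jo
  · have hu0 : u ≠ 0 := by
      rintro rfl
      exact hc c0
    have hub : u ≠ b := by
      rintro rfl
      exact hc cb
    refine hc ?_
    have h1 := noncross hx hp (k := u) (j := b) (l := v) (by omega) (by omega) hv1
      (fun a c hac hcl => hinj a c hac (by omega)) (by rw [cb]; exact c0.symm) e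
    rw [h1]; exact c0

theorem hitB_rel [Finite D] (hx : IsC M ∅ x) {g₀ f : D} (hg : Gp M x g₀)
    (hAB : M.cell g₀ ≠ M.cell (M.rho g₀)) (H : HitB M x g₀ f) : Rel M x g₀ f := by
  obtain ⟨N, hNpos, hN, hinj, hlast⟩ := exists_period hx hg
  have hl : Con M x (M.cell g₀) (M.cell (M.rho f)) := Relation.EqvGen.symm _ _ H.jo.con
  obtain ⟨n, hn⟩ := on_loop hx hg H.gp hl (Relation.EqvGen.symm _ _ H.con)
  obtain ⟨b, hbN, hfb⟩ : ∃ b, b < N ∧ M.rho f = P M x (out M g₀) b := by
    refine ⟨n % N, Nat.mod_lt _ hNpos, ?_⟩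
    rw [← hn]
    conv_lhs => rw [← Nat.mod_add_div n N]
    rw [P_add]
    congr 1
    have : ∀ q, P M x (out M g₀) (N * q) = out M g₀ := by
      intro q
      induction q with
      | zero => rfl
      | succ q ih => rw [Nat.mul_succ, P_add, hN, ih]
    exact this _
  have hfg : f ≠ g₀ := by
    rintro rfl
    exact hAB H.tgt
  have hb1 : b + 1 < N := by
    rcases Nat.lt_or_ge (b + 1) N with h1 | h1
    · exact h1
    · exfalso
      have : b = N - 1 := by omega
      rw [this, ← hlast] at hfb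
      exact hfg (rho_inj M hfb)
  rw [rel_loop hx hg hN hinj hlast hb1 H.gp hfb]
  set p := out M g₀ with hpdef
  have hp : x p = 1 := hg.out hx
  have c0 : M.cell (P M x p 0) = M.cell g₀ := cell_out hx hg
  have cb : M.cell (P M x p b) = M.cell (M.rho f) := by rw [← hfb]
  have cb1 : M.cell (P M x p (b + 1)) = M.cell (M.rho g₀) := by
    rw [← out_eq hx H.gp hfb, cell_out hx H.gp, H.tgt]
  have cl : M.cell (P M x p (N - 1)) = M.cell (M.rho g₀) := by rw [← hlast]
  intro u hu v hv1 hv2 e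
  by_cases hc : M.cell (P M x p v) = M.cell (M.rho g₀)
  · -- the giant `B` is seen between `g₀` and `f`
    have hu' : M.cell (P M x p u) = M.cell (M.rho g₀) := by rw [e, hc]
    have hub : u ≠ b := by
      rintro rfl
      rw [cb] at hu'
      exact H.jo.1 hu'
    have hu0 : u ≠ 0 := by
      rintro rfl
      rw [c0] at hu'
      exact hAB hu'
    refine sep4 hx hp (k := u) (j := b) (l := b + 1) (by omega) (by omega) (by omega)
      (fun a c hac hcl => hinj a c hac (by omega)) (c := M.cell (M.rho g₀)) hu' cb1 ?_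
    rw [cb, show M.cell p = M.cell g₀ from c0]
    exact H.jo.symm hx
  · have hvb : v ≠ b + 1 := by
      rintro rfl
      exact hc cb1
    have hvl : v ≠ N - 1 := by
      rintro rfl
      exact hc cl
    have hb1N : b + 1 < N - 1 := by omega
    refine hc ?_
    -- `B` at `b + 1`, `c` at `v`, `B` at `N - 1`, `c` at `N + u`
    have h1 := noncross hx (p := P M x p (b + 1)) (P_occ hx hp _) (k := v - (b + 1))
      (j := N - 1 - (b + 1)) (l := N + u - (b + 1)) (by omega) (by omega) (by omega) ?_ ?_ ?_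
    · rw [← P_add, show v - (b + 1) + (b + 1) = v by omega, cb1] at h1
      exact h1
    · intro a c hac hc2 h1
      rw [← P_add, ← P_add] at h1
      rcases Nat.lt_or_ge (c + (b + 1)) N with h2 | h2
      · exact hinj _ _ (by omega) h2 h1
      · have h3 : P M x p (c + (b + 1)) = P M x p (c + (b + 1) - N) := by
          conv_lhs => rw [show c + (b + 1) = (c + (b + 1) - N) + N by omega]
          exact P_per hN _
        rw [h3] at h1
        rcases Nat.lt_or_ge (a + (b + 1)) N with h4 | h4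
        · exact hinj _ _ (show c + (b + 1) - N < a + (b + 1) by omega) h4 h1.symm
        · have h5 : P M x p (a + (b + 1)) = P M x p (a + (b + 1) - N) := by
            conv_lhs => rw [show a + (b + 1) = (a + (b + 1) - N) + N by omega]
            exact P_per hN _
          rw [h5] at h1
          exact hinj _ _ (by omega) (by omega) h1
    · rw [← P_add, show N - 1 - (b + 1) + (b + 1) = N - 1 by omega, cl, cb1]
    · rw [← P_add, ← P_add, show v - (b + 1) + (b + 1) = v by omega,
        show N + u - (b + 1) + (b + 1) = u + N by omega, P_per hN, e]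

variable [Fintype D]

theorem hitA_eq (hx : IsC M ∅ x) {g₀ f : D} (hg : Gp M x g₀)
    (hAB : M.cell g₀ ≠ M.cell (M.rho g₀)) (H : HitA M x g₀ f) : f = kA M x g₀ := by
  obtain ⟨a1, a2⟩ := kA_spec hx hg
  exact blk_old_inj hx hg (mem_blk.2 ⟨H.gp, hitA_rel hx hg hAB H⟩) a1 (by rw [a2, H.tgt])

theorem hitB_eq (hx : IsC M ∅ x) {g₀ f : D} (hg : Gp M x g₀)
    (hAB : M.cell g₀ ≠ M.cell (M.rho g₀)) (H : HitB M x g₀ f) : f = kB M x g₀ := by
  obtain ⟨a1, a2⟩ := kB_spec hx hg
  exact blk_new_inj hx hg (mem_blk.2 ⟨H.gp, hitB_rel hx hg hAB H⟩) a1 (by rw [a2, H.tgt])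

/-- a gap of the block of `g₀`, different from `g₀`, with its time on the loop -/
theorem blk_time (hx : IsC M ∅ x) {g₀ f : D} (hg : Gp M x g₀) (hf : f ∈ blk M x g₀)
    (hfg : f ≠ g₀) : ∃ N b, b + 1 < N ∧ M.rho f = P M x (out M g₀) b ∧
      M.rho g₀ = P M x (out M g₀) (N - 1) ∧
      ∀ u, u ≤ b → ∀ v, b < v → v < N →
        M.cell (P M x (out M g₀) u) ≠ M.cell (P M x (out M g₀) v) := by
  obtain ⟨N, hNpos, hN, hinj, hlast⟩ := exists_period hx hg
  obtain ⟨hf1, hf2⟩ := mem_blk.1 hf
  obtain ⟨b, hbN, hfb⟩ : ∃ b, b < N ∧ M.rho f = P M x (out M g₀) b := by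
    rcases hf2 (M.cell (M.rho g₀)) with h3 | h3 | ⟨n, h3, h4⟩
    · exact absurd h3.symm hfg
    · exact time_of_av hNpos hN h3
    · exact absurd (by rw [h3]) (h4 n le_rfl)
  have hb1 : b + 1 < N := by
    rcases Nat.lt_or_ge (b + 1) N with h1 | h1
    · exact h1
    · exfalso
      have : b = N - 1 := by omega
      rw [this, ← hlast] at hfb
      exact hfg (rho_inj M hfb)
  exact ⟨N, b, hb1, hfb, hlast, (rel_loop hx hg hN hinj hlast hb1 hf1 hfb).1 hf2⟩

omit [Fintype D] in
/-- the third cells of the gaps of a loop are joined -/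
theorem third_con (hx : IsC M ∅ x) {g₀ f : D} (hg : Gp M x g₀) {b : ℕ}
    (hfb : M.rho f = P M x (out M g₀) b) :
    Con M x (M.cell (M.rho (M.rho f))) (M.cell (M.rho (M.rho g₀))) := by
  rw [hfb, ← cell_rho_out hx hg]
  exact Relation.EqvGen.symm _ _ (right_con hx (hg.out hx) b)

/-- **`kA` is a hit** -/
theorem kA_hit (hx : IsC M ∅ x) {g₀ : D} (hg : Gp M x g₀)
    (hAB : M.cell g₀ ≠ M.cell (M.rho g₀)) : HitA M x g₀ (kA M x g₀) := by
  obtain ⟨a1, a2⟩ := kA_spec hx hg
  have hne : kA M x g₀ ≠ g₀ := by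
    intro e
    rw [e] at a2
    exact hAB a2.symm
  obtain ⟨N, b, hb, hfb, hlast, hr⟩ := blk_time hx hg a1 hne
  have hgp := (mem_blk.1 a1).1
  refine ⟨hgp, a2, ?_, third_con hx hg hfb⟩
  have hp := hg.out hx
  have cb : M.cell (P M x (out M g₀) b) = M.cell g₀ := by rw [← hfb, a2]
  have cb1 : M.cell (P M x (out M g₀) (b + 1)) = M.cell (kA M x g₀) := by
    rw [← out_eq hx hgp hfb, cell_out hx hgp]
  have cl : M.cell (P M x (out M g₀) (N - 1)) = M.cell (M.rho g₀) := by rw [← hlast]
  rw [← cb1, ← cl, ← cb]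
  refine left_jo hx hp (N - 1) (by omega) fun k hk1 hk2 e => ?_
  exact hr b le_rfl k (by omega) (by omega) e.symm

/-- **`kB` is a hit** -/
theorem kB_hit (hx : IsC M ∅ x) {g₀ : D} (hg : Gp M x g₀)
    (hAB : M.cell g₀ ≠ M.cell (M.rho g₀)) : HitB M x g₀ (kB M x g₀) := by
  obtain ⟨a1, a2⟩ := kB_spec hx hg
  have hne : kB M x g₀ ≠ g₀ := by
    intro e
    rw [e] at a2
    exact hAB a2
  obtain ⟨N, b, hb, hfb, hlast, hr⟩ := blk_time hx hg a1 hne
  have hgp := (mem_blk.1 a1).1
  refine ⟨hgp, a2, ?_, third_con hx hg hfb⟩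
  have hp := hg.out hx
  have c0 : M.cell (P M x (out M g₀) 0) = M.cell g₀ := cell_out hx hg
  have cb : M.cell (P M x (out M g₀) b) = M.cell (M.rho (kB M x g₀)) := by rw [← hfb]
  have cb1 : M.cell (P M x (out M g₀) (b + 1)) = M.cell (M.rho g₀) := by
    rw [← out_eq hx hgp hfb, cell_out hx hgp, a2]
  refine Jo.symm hx ?_
  rw [← c0, ← cb, ← cb1]
  refine left_jo hx hp b (by omega) fun k _ hk2 e => ?_
  exact hr k hk2 (b + 1) (by omega) (by omega) e

/-- **the end of the root block on the giant `A` is the unique hit** -/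
theorem hitA_iff (hx : IsC M ∅ x) {g₀ f : D} (hg : Gp M x g₀)
    (hAB : M.cell g₀ ≠ M.cell (M.rho g₀)) : HitA M x g₀ f ↔ f = kA M x g₀ :=
  ⟨hitA_eq hx hg hAB, fun e => e ▸ kA_hit hx hg hAB⟩

/-- **the end of the root block on the giant `B` is the unique hit** -/
theorem hitB_iff (hx : IsC M ∅ x) {g₀ f : D} (hg : Gp M x g₀)
    (hAB : M.cell g₀ ≠ M.cell (M.rho g₀)) : HitB M x g₀ f ↔ f = kB M x g₀ :=
  ⟨hitB_eq hx hg hAB, fun e => e ▸ kB_hit hx hg hAB⟩

end Crest.Agent.R143.Rootx643
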