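import Mathlib
import Crest.Agent.R143.Rsw_63

/-!
# Row 143 (S0194), leaf T3' : disjoint equilateral triangles => blocking estimate (helper811)

* `shell2` : energy of one dyadic shell, no smallness hypothesis.
* `rswd` (T3'): if a unit weighted family of walks through triangles with disjoint interiors goes,
  for every member `i`, from a point `x i` with `r ≤ ‖x i - v‖ ≤ R` to a point `y i` with
  `‖x i - v‖ ≤ 2 ‖x i - y i‖` (for example on another ray from `v`), then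
  `1 ≤ 1058 (1 + 1.5 log (R / r)) ∑ c²`, that is `r ≤ 2 R exp (- 1 / (1600 ∑ c²))`.
* `T3d` : the same for networks.
-/

set_option autoImplicit false

noncomputable section

namespace Crest.Agent.R143.Rswdx811

open Set Filter Topology MeasureTheory Metric
open scoped Classical
open Crest.Agent.R143.B0x346 Crest.Agent.R143.LenAreax63 Crest.Agent.R143.Oscx63
  Crest.Agent.R143.Rswx63

variable {τ : Type}

/-- small triangles of the shell `[a, 2a]` (full disc) -/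
def Sm2 (U : Finset τ) (h Q : τ → ℂ) (v : ℂ) (a : ℝ) : Finset τ :=
  U.filter fun t => ‖Q t‖ ≤ a / 4 ∧ ‖h t - v‖ ≤ 11 * a / 4

/-- large triangles of the shell `[a, 2a]` (full disc) -/
def La2 (U : Finset τ) (h Q : τ → ℂ) (v : ℂ) (a : ℝ) : Finset τ :=
  U.filter fun t => a / 4 < ‖Q t‖ ∧ ∃ w ∈ tri (h t) (Q t), ‖w - v‖ < 5 * a / 2

theorem energy_Sm2 {U : Finset τ} {h Q : τ → ℂ} (hd : Dis U h Q) (v : ℂ) {a : ℝ} (ha : 0 < a) :
    ∑ t ∈ Sm2 U h Q v a, ‖Q t‖ ^ 2 ≤ 529 / 16 * a ^ 2 := by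
  have h1 := packing (Sm2 U h Q v a) h (fun t => ‖Q t‖ / 2) (fun t _ => by positivity)
    (by
      intro s hs t ht hst
      have hs' := (Finset.mem_filter.mp (Finset.mem_coe.mp hs)).1
      have ht' := (Finset.mem_filter.mp (Finset.mem_coe.mp ht)).1
      exact (hd s hs' t ht' hst).mono (ball_subset_interior (ball_subset_tri _ _))
        (ball_subset_interior (ball_subset_tri _ _))) v (R := 23 * a / 8) (by positivity)
    (by
      intro t ht
      obtain ⟨-, h2, h3⟩ := Finset.mem_filter.mp ht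
      apply ball_subset_ball'
      rw [dist_eq_norm]
      linarith)
  have h2 : ∑ t ∈ Sm2 U h Q v a, (‖Q t‖ / 2) ^ 2 = (∑ t ∈ Sm2 U h Q v a, ‖Q t‖ ^ 2) / 4 := by
    rw [Finset.sum_div]
    exact Finset.sum_congr rfl fun t _ => by ring
  rw [h2] at h1
  nlinarith

theorem card_La2 {U : Finset τ} {h Q : τ → ℂ} (hd : Dis U h Q) (v : ℂ) {a : ℝ} (ha : 0 < a) :
    ((La2 U h Q v a).card : ℝ) ≤ 529 := by
  have hw : ∀ t ∈ La2 U h Q v a, ∃ w ∈ tri (h t) (Q t), ‖w - v‖ < 5 * a / 2 := fun t ht =>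
    (Finset.mem_filter.mp ht).2.2
  choose! w hw1 hw2 using hw
  set l : τ → ℝ := fun t => (a / 4) / ‖Q t‖ with hl
  have hQ : ∀ t ∈ La2 U h Q v a, a / 4 < ‖Q t‖ := fun t ht => (Finset.mem_filter.mp ht).2.1
  have hl0 : ∀ t ∈ La2 U h Q v a, 0 < l t := fun t ht => by
    have := hQ t ht
    exact div_pos (by positivity) (by linarith)
  have hl1 : ∀ t ∈ La2 U h Q v a, l t ≤ 1 := fun t ht => by
    have := hQ t ht
    rw [hl]
    simp only
    rw [div_le_one (by linarith)]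
    exact this.le
  have hlQ : ∀ t ∈ La2 U h Q v a, l t * ‖Q t‖ = a / 4 := fun t ht => by
    have := hQ t ht
    rw [hl]
    simp only
    rw [div_mul_cancel₀]
    linarith
  have hsub : ∀ t ∈ La2 U h Q v a,
      ball ((1 - l t) • w t + l t • h t) (a / 8) ⊆ tri (h t) (Q t) := by
    intro t ht
    have h1 := sub_ball (hw1 t ht) (hl0 t ht) (hl1 t ht)
    have h2 : l t * (‖Q t‖ / 2) = a / 8 := by
      have := hlQ t ht
      linarith
    rwa [h2] at h1
  have h1 := packing (La2 U h Q v a) (fun t => (1 - l t) • w t + l t • h t) (fun _ => a / 8)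
    (fun t _ => by positivity)
    (by
      intro s hs t ht hst
      have hs0 := Finset.mem_coe.mp hs
      have ht0 := Finset.mem_coe.mp ht
      have hs' := (Finset.mem_filter.mp hs0).1
      have ht' := (Finset.mem_filter.mp ht0).1
      exact (hd s hs' t ht' hst).mono (ball_subset_interior (hsub s hs0))
        (ball_subset_interior (hsub t ht0))) v (R := 23 * a / 8) (by positivity)
    (by
      intro t ht
      apply ball_subset_ball'
      rw [dist_eq_norm]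
      have e : (1 - l t) • w t + l t • h t - v = (w t - v) + l t • (h t - w t) := by
        rw [sub_smul, one_smul, smul_sub]; abel
      rw [e]
      have h2 : ‖l t • (h t - w t)‖ ≤ a / 4 := by
        rw [norm_smul, Real.norm_eq_abs, abs_of_pos (hl0 t ht), norm_sub_rev, ← hlQ t ht]
        exact mul_le_mul_of_nonneg_left (norm_sub_le_of_mem (hw1 t ht)) (hl0 t ht).le
      have h3 := hw2 t ht
      have h4 := norm_add_le (w t - v) (l t • (h t - w t))
      linarith)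
  rw [Finset.sum_const, nsmul_eq_mul] at h1
  have h3 : ((La2 U h Q v a).card : ℝ) * (a / 8) ^ 2 ≤ 529 * (a / 8) ^ 2 := by
    calc ((La2 U h Q v a).card : ℝ) * (a / 8) ^ 2 ≤ (23 * a / 8) ^ 2 := h1
      _ = 529 * (a / 8) ^ 2 := by ring
  exact le_of_mul_le_mul_right h3 (by positivity)

/-- normalised weight of a triangle in the shell -/
def qd (U : Finset τ) (h Q : τ → ℂ) (v : ℂ) (a : ℝ) (t : τ) : ℝ :=
  if t ∈ Sm2 U h Q v a then 4 * ‖Q t‖ / a else if t ∈ La2 U h Q v a then 1 else 0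

theorem qd_nonneg (U : Finset τ) (h Q : τ → ℂ) (v : ℂ) {a : ℝ} (ha : 0 < a) (t : τ) :
    0 ≤ qd U h Q v a t := by
  unfold qd
  split_ifs
  · positivity
  · exact zero_le_one
  · exact le_refl 0

/-- energy of one shell -/
theorem energy_qd {U : Finset τ} {h Q : τ → ℂ} (hd : Dis U h Q) (v : ℂ) {a : ℝ} (ha : 0 < a) :
    ∑ t ∈ U, qd U h Q v a t ^ 2 ≤ 1058 := by
  have h1 : ∀ t ∈ U, qd U h Q v a t ^ 2 ≤
      (if t ∈ Sm2 U h Q v a then 16 * ‖Q t‖ ^ 2 / a ^ 2 else 0) +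
      (if t ∈ La2 U h Q v a then (1 : ℝ) else 0) := by
    intro t _
    unfold qd
    by_cases h5 : t ∈ Sm2 U h Q v a
    · by_cases h6 : t ∈ La2 U h Q v a
      · simp only [h5, h6, if_true]
        have : (4 * ‖Q t‖ / a) ^ 2 = 16 * ‖Q t‖ ^ 2 / a ^ 2 := by ring
        linarith
      · simp only [h5, h6, if_true, if_false]
        have : (4 * ‖Q t‖ / a) ^ 2 = 16 * ‖Q t‖ ^ 2 / a ^ 2 := by ring
        linarith
    · by_cases h6 : t ∈ La2 U h Q v a
      · simp only [h5, h6, if_true, if_false]; norm_num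
      · simp only [h5, h6, if_false]; norm_num
  refine (Finset.sum_le_sum h1).trans ?_
  rw [Finset.sum_add_distrib, ← Finset.sum_filter, ← Finset.sum_filter]
  have e1 : U.filter (fun t => t ∈ Sm2 U h Q v a) = Sm2 U h Q v a := by
    ext t
    simp only [Finset.mem_filter]
    exact ⟨fun h => h.2, fun h => ⟨(Finset.mem_filter.mp h).1, h⟩⟩
  have e2 : U.filter (fun t => t ∈ La2 U h Q v a) = La2 U h Q v a := by
    ext t
    simp only [Finset.mem_filter]
    exact ⟨fun h => h.2, fun h => ⟨(Finset.mem_filter.mp h).1, h⟩⟩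
  rw [e1, e2]
  have h2 : ∑ t ∈ Sm2 U h Q v a, 16 * ‖Q t‖ ^ 2 / a ^ 2 ≤ 529 := by
    have h3 : ∑ t ∈ Sm2 U h Q v a, 16 * ‖Q t‖ ^ 2 / a ^ 2 =
        16 / a ^ 2 * ∑ t ∈ Sm2 U h Q v a, ‖Q t‖ ^ 2 := by
      rw [Finset.mul_sum]
      exact Finset.sum_congr rfl fun t _ => by ring
    rw [h3]
    calc 16 / a ^ 2 * ∑ t ∈ Sm2 U h Q v a, ‖Q t‖ ^ 2 ≤ 16 / a ^ 2 * (529 / 16 * a ^ 2) :=
          mul_le_mul_of_nonneg_left (energy_Sm2 hd v ha) (by positivity)
      _ = 529 := by field_simp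
  have h3 : ∑ t ∈ La2 U h Q v a, (1 : ℝ) ≤ 529 := by
    rw [Finset.sum_const, nsmul_eq_mul, mul_one]
    exact card_La2 hd v ha
  linarith

/-- truncated distance to `x` -/
def gd (x : ℂ) (a : ℝ) (w : ℂ) : ℝ := min ‖w - x‖ (a / 2)

theorem gd_lip (x : ℂ) (a : ℝ) (w z : ℂ) : |gd x a w - gd x a z| ≤ ‖w - z‖ := by
  unfold gd
  calc |min ‖w - x‖ (a / 2) - min ‖z - x‖ (a / 2)|
      ≤ |‖w - x‖ - ‖z - x‖| := by
        have := abs_min_sub_min_le_max ‖w - x‖ (a / 2) ‖z - x‖ (a / 2)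
        simpa using this
    _ ≤ ‖(w - x) - (z - x)‖ := abs_norm_sub_norm_le _ _
    _ = ‖w - z‖ := by congr 1; ring

theorem gd_mem {x : ℂ} {a : ℝ} (ha : 0 < a) (w : ℂ) : 0 ≤ gd x a w ∧ gd x a w ≤ a / 2 := by
  unfold gd
  exact ⟨le_min (norm_nonneg _) (by positivity), min_le_right _ _⟩

theorem gd_high {x : ℂ} {a : ℝ} {w : ℂ} (hw : a / 2 ≤ ‖w - x‖) : gd x a w = a / 2 :=
  min_eq_right hw

theorem step_qd {U : Finset τ} {h Q : τ → ℂ} (v : ℂ) {a : ℝ} (ha : 0 < a) {x : ℂ}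
    (hx : ‖x - v‖ ≤ 2 * a) {t : τ} (ht : t ∈ U)
    {w z : ℂ} (hw : w ∈ tri (h t) (Q t)) (hz : z ∈ tri (h t) (Q t)) :
    |gd x a w - gd x a z| ≤ a / 2 * qd U h Q v a t := by
  have hwh := norm_sub_le_of_mem hw
  have hzh := norm_sub_le_of_mem hz
  unfold qd
  split_ifs with h1 h2
  · refine (gd_lip x a w z).trans ?_
    have e : a / 2 * (4 * ‖Q t‖ / a) = 2 * ‖Q t‖ := by field_simp; ring
    rw [e]
    calc ‖w - z‖ = ‖(w - h t) - (z - h t)‖ := by congr 1; ring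
      _ ≤ ‖w - h t‖ + ‖z - h t‖ := norm_sub_le _ _
      _ ≤ 2 * ‖Q t‖ := by linarith
  · rw [mul_one, abs_le]
    have b1 := gd_mem (x := x) ha w
    have b2 := gd_mem (x := x) ha z
    constructor <;> linarith [b1.1, b1.2, b2.1, b2.2]
  · have far : ∀ u ∈ tri (h t) (Q t), a / 2 ≤ ‖u - x‖ := by
      intro u hu
      by_contra h3
      push Not at h3
      have h4 : ‖u - v‖ < 5 * a / 2 := by
        have h5 : ‖u - v‖ ≤ ‖u - x‖ + ‖x - v‖ := by
          have := norm_add_le (u - x) (x - v)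
          simpa using this
        linarith
      by_cases hQ : ‖Q t‖ ≤ a / 4
      · apply h1
        refine Finset.mem_filter.mpr ⟨ht, hQ, ?_⟩
        have h5 := norm_sub_le_of_mem hu
        have h6 : ‖h t - v‖ ≤ ‖h t - u‖ + ‖u - v‖ := by
          have := norm_add_le (h t - u) (u - v)
          simpa using this
        rw [norm_sub_rev] at h5
        linarith
      · push Not at hQ
        exact h2 (Finset.mem_filter.mpr ⟨ht, hQ, u, hu, h4⟩)
    rw [gd_high (far w hw), gd_high (far z hz), sub_self, abs_zero, mul_zero]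

/-- every walk has length at least one in its shell -/
theorem len_qd {U : Finset τ} {h Q : τ → ℂ} (v : ℂ) {a : ℝ} (ha : 0 < a) {x y : ℂ}
    (hx1 : a ≤ ‖x - v‖) (hx2 : ‖x - v‖ ≤ 2 * a) (hxy : ‖x - v‖ ≤ 2 * ‖x - y‖)
    {A : Finset τ} (hA : A ⊆ U) (hw : Walk h Q A x y) : 1 ≤ ∑ t ∈ A, qd U h Q v a t := by
  have h2 := walk_bound A (fun t z => z ∈ tri (h t) (Q t)) (fun z => (gd x a z : ℂ))
    (fun t => a / 2 * qd U h Q v a t)
    (fun t _ => mul_nonneg (by positivity) (qd_nonneg U h Q v ha t))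
    (fun t ht e e' he he' => by
      rw [← Complex.ofReal_sub, Complex.norm_real, Real.norm_eq_abs]
      exact step_qd v ha hx2 (hA ht) he he') hw
  rw [← Complex.ofReal_sub, Complex.norm_real, Real.norm_eq_abs,
    gd_high (x := x) (w := y) (by rw [norm_sub_rev]; linarith)] at h2
  have h3 : gd x a x = 0 := by
    unfold gd
    rw [sub_self, norm_zero, min_eq_left (by positivity)]
  rw [h3, zero_sub, abs_neg, abs_of_pos (by positivity : 0 < a / 2), ← Finset.mul_sum] at h2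
  have h4 : a / 2 * 1 ≤ a / 2 * ∑ t ∈ A, qd U h Q v a t := by rw [mul_one]; exact h2
  exact le_of_mul_le_mul_left h4 (by positivity)

/-- **T3'** (abstract) -/
theorem rswd {I : Type} {U : Finset τ} {h Q : τ → ℂ} (hd : Dis U h Q) {J : Finset I}
    {lam : I → ℝ} {A : I → Finset τ} (hF : Fam U h Q J lam A) (v : ℂ) {r R : ℝ} (hr : 0 < r)
    (x y : I → ℂ) (hw : ∀ i ∈ J, Walk h Q (A i) (x i) (y i)) (hx : ∀ i ∈ J, r ≤ ‖x i - v‖)
    (hxR : ∀ i ∈ J, ‖x i - v‖ ≤ R) (hxy : ∀ i ∈ J, ‖x i - v‖ ≤ 2 * ‖x i - y i‖) :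
    1 ≤ 1058 * (1 + 3 / 2 * Real.log (R / r)) * ∑ t ∈ U, cw J lam A t ^ 2 := by
  set c := cw J lam A with hcdef
  have hJne : J.Nonempty := by
    rw [Finset.nonempty_iff_ne_empty]
    rintro rfl
    have := hF.sum
    simp at this
  have hrR : r ≤ R := by
    obtain ⟨i, hi⟩ := hJne
    exact (hx i hi).trans (hxR i hi)
  have hq : 1 ≤ R / r := by rw [le_div_iff₀ hr]; linarith
  obtain ⟨n, hn1, hn2⟩ : ∃ n : ℕ, (2 : ℝ) ^ n ≤ R / r ∧ R / r < 2 ^ (n + 1) := by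
    obtain ⟨n, h1, h2⟩ := exists_nat_pow_near hq (by norm_num : (1 : ℝ) < 2)
    exact ⟨n, h1, h2⟩
  -- the metric
  set q : τ → ℝ := fun t => Real.sqrt (∑ j ∈ Finset.range (n + 1), qd U h Q v (2 ^ j * r) t ^ 2)
    with hqdef
  have hE : ∑ t ∈ U, q t ^ 2 ≤ 1058 * (n + 1) := by
    have h1 : ∀ t ∈ U, q t ^ 2 = ∑ j ∈ Finset.range (n + 1), qd U h Q v (2 ^ j * r) t ^ 2 := by
      intro t _
      rw [hqdef]
      exact Real.sq_sqrt (Finset.sum_nonneg fun j _ => sq_nonneg _)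
    rw [Finset.sum_congr rfl h1, Finset.sum_comm]
    calc ∑ j ∈ Finset.range (n + 1), ∑ t ∈ U, qd U h Q v (2 ^ j * r) t ^ 2
        ≤ ∑ j ∈ Finset.range (n + 1), (1058 : ℝ) :=
          Finset.sum_le_sum fun j _ => energy_qd hd v (by positivity)
      _ = 1058 * (n + 1) := by
          rw [Finset.sum_const, Finset.card_range, nsmul_eq_mul]; push_cast; ring
  have hlen : ∀ i ∈ J, 1 ≤ ∑ t ∈ A i, q t := by
    intro i hi
    have h1 : 1 ≤ ‖x i - v‖ / r := by rw [le_div_iff₀ hr]; linarith [hx i hi]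
    obtain ⟨j, hj1, hj2⟩ : ∃ j : ℕ, (2 : ℝ) ^ j ≤ ‖x i - v‖ / r ∧ ‖x i - v‖ / r < 2 ^ (j + 1) := by
      obtain ⟨j, h1, h2⟩ := exists_nat_pow_near h1 (by norm_num : (1 : ℝ) < 2)
      exact ⟨j, h1, h2⟩
    have hjn : j < n + 1 := by
      by_contra hcon
      push Not at hcon
      have h3 : (2 : ℝ) ^ (n + 1) ≤ 2 ^ j := pow_le_pow_right₀ (by norm_num) hcon
      have h4 : ‖x i - v‖ / r ≤ R / r := div_le_div_of_nonneg_right (hxR i hi) hr.le
      linarith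
    have h3 : 2 ^ j * r ≤ ‖x i - v‖ := by rwa [le_div_iff₀ hr] at hj1
    have h4 : ‖x i - v‖ ≤ 2 * (2 ^ j * r) := by
      have := (div_lt_iff₀ hr).mp hj2
      rw [pow_succ] at this
      linarith
    refine (len_qd v (by positivity) h3 h4 (hxy i hi) (hF.sub i hi) (hw i hi)).trans ?_
    apply Finset.sum_le_sum
    intro t _
    rw [hqdef]
    apply Real.le_sqrt_of_sq_le
    exact Finset.single_le_sum (f := fun j => qd U h Q v (2 ^ j * r) t ^ 2)
      (fun j _ => sq_nonneg _) (Finset.mem_range.mpr hjn)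
  have h1 : 1 ≤ ∑ t ∈ U, c t * q t := by
    rw [← swap_sum hF q]
    calc (1 : ℝ) = ∑ i ∈ J, lam i * 1 := by
          rw [← Finset.sum_mul, hF.sum, one_mul]
      _ ≤ ∑ i ∈ J, lam i * ∑ t ∈ A i, q t :=
        Finset.sum_le_sum fun i hi => mul_le_mul_of_nonneg_left (hlen i hi) (hF.nn i hi)
  have h2 : 1 ≤ Real.sqrt (∑ t ∈ U, c t ^ 2) * Real.sqrt (∑ t ∈ U, q t ^ 2) :=
    h1.trans (cs U _ _)
  have hc0 : 0 ≤ ∑ t ∈ U, c t ^ 2 := Finset.sum_nonneg fun t _ => sq_nonneg _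
  have hq0 : 0 ≤ ∑ t ∈ U, q t ^ 2 := Finset.sum_nonneg fun t _ => sq_nonneg _
  have h3 : 1 ≤ (∑ t ∈ U, c t ^ 2) * ∑ t ∈ U, q t ^ 2 := by
    have h4 : (1 : ℝ) ^ 2 ≤ (Real.sqrt (∑ t ∈ U, c t ^ 2) * Real.sqrt (∑ t ∈ U, q t ^ 2)) ^ 2 :=
      pow_le_pow_left₀ zero_le_one h2 2
    rwa [mul_pow, Real.sq_sqrt hc0, Real.sq_sqrt hq0, one_pow] at h4
  -- the number of shells
  have h5 : (n : ℝ) * Real.log 2 ≤ Real.log (R / r) := by
    have h6 := Real.log_le_log (by positivity) hn1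
    rwa [Real.log_pow] at h6
  have h6 : (2 : ℝ) / 3 ≤ Real.log 2 := by
    have := Real.log_two_gt_d9
    linarith
  have h7 : (n : ℝ) ≤ 3 / 2 * Real.log (R / r) := by
    have h8 : (n : ℝ) * (2 / 3) ≤ n * Real.log 2 :=
      mul_le_mul_of_nonneg_left h6 (Nat.cast_nonneg n)
    linarith
  calc (1 : ℝ) ≤ (∑ t ∈ U, c t ^ 2) * ∑ t ∈ U, q t ^ 2 := h3
    _ ≤ (∑ t ∈ U, c t ^ 2) * (1058 * (n + 1)) := mul_le_mul_of_nonneg_left hE hc0
    _ ≤ (∑ t ∈ U, c t ^ 2) * (1058 * (3 / 2 * Real.log (R / r) + 1)) := by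
        apply mul_le_mul_of_nonneg_left _ hc0
        linarith
    _ = 1058 * (1 + 3 / 2 * Real.log (R / r)) * ∑ t ∈ U, c t ^ 2 := by ring

/-- exponential form of **T3'** -/
theorem rswd_exp {I : Type} {U : Finset τ} {h Q : τ → ℂ} (hd : Dis U h Q) {J : Finset I}
    {lam : I → ℝ} {A : I → Finset τ} (hF : Fam U h Q J lam A) (v : ℂ) {r R : ℝ} (hr : 0 < r)
    (x y : I → ℂ) (hw : ∀ i ∈ J, Walk h Q (A i) (x i) (y i)) (hx : ∀ i ∈ J, r ≤ ‖x i - v‖)
    (hxR : ∀ i ∈ J, ‖x i - v‖ ≤ R) (hxy : ∀ i ∈ J, ‖x i - v‖ ≤ 2 * ‖x i - y i‖) :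
    r ≤ 2 * R * Real.exp (- (1600 * ∑ t ∈ U, cw J lam A t ^ 2)⁻¹) := by
  have h1 := rswd hd hF v hr x y hw hx hxR hxy
  set s := ∑ t ∈ U, cw J lam A t ^ 2 with hs
  have hs0 : 0 ≤ s := Finset.sum_nonneg fun t _ => sq_nonneg _
  have hsp : 0 < s := by
    rcases hs0.lt_or_eq with h | h
    · exact h
    · rw [← h] at h1; norm_num at h1
  have hJne : J.Nonempty := by
    rw [Finset.nonempty_iff_ne_empty]
    rintro rfl
    have := hF.sum
    simp at this
  have hrR : r ≤ R := by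
    obtain ⟨i, hi⟩ := hJne
    exact (hx i hi).trans (hxR i hi)
  have hR : 0 < R := hr.trans_le hrR
  -- `s⁻¹ ≤ 1058 (1 + 3/2 log)`
  have h2 : s⁻¹ ≤ 1058 * (1 + 3 / 2 * Real.log (R / r)) := by
    rw [inv_le_iff_one_le_mul₀ hsp]
    exact h1
  have h3 : (1600 * s)⁻¹ ≤ Real.log (R / r) + Real.log 2 := by
    have h4 : (1600 * s)⁻¹ = s⁻¹ / 1600 := by rw [mul_inv]; ring
    rw [h4]
    have h5 := Real.log_two_gt_d9
    have h6 : 0 ≤ Real.log (R / r) := Real.log_nonneg (by rw [le_div_iff₀ hr]; linarith)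
    rw [div_le_iff₀ (by norm_num)]
    nlinarith
  have h4 : Real.log r ≤ Real.log (2 * R * Real.exp (-(1600 * s)⁻¹)) := by
    rw [Real.log_mul (by positivity) (Real.exp_pos _).ne', Real.log_exp,
      Real.log_mul (by norm_num) hR.ne']
    rw [Real.log_div hR.ne' hr.ne'] at h3
    linarith
  exact (Real.log_le_log_iff hr (by positivity)).mp h4

/-! ### networks -/

/-- two rays at the angle `π/3` -/
theorem ray_sep (k : ZMod 3) {s u : ℝ} (hs : 0 ≤ s) :
    ‖(((1 - s : ℝ) : ℂ) * omz k + (s : ℂ) * omz (k + 1)) - omz k‖ ≤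
      2 * ‖(((1 - s : ℝ) : ℂ) * omz k + (s : ℂ) * omz (k + 1)) -
        (((1 - u : ℝ) : ℂ) * omz k + (u : ℂ) * omz (k + 2))‖ := by
  have e1 : omz (k + 1) = om * omz k := omz_add_one k
  have e2 : omz (k + 2) = om ^ 2 * omz k := by
    rw [show k + 2 = (k + 1) + 1 by ring, omz_add_one, omz_add_one]; ring
  have hk : ‖omz k‖ = 1 := by
    unfold omz
    rw [norm_pow, norm_om, one_pow]
  rw [e1, e2]
  have e3 : (((1 - s : ℝ) : ℂ) * omz k + (s : ℂ) * (om * omz k)) - omz k =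
      ((s : ℂ) * (om - 1)) * omz k := by push_cast; ring
  have e4 : (((1 - s : ℝ) : ℂ) * omz k + (s : ℂ) * (om * omz k)) -
        (((1 - u : ℝ) : ℂ) * omz k + (u : ℂ) * (om ^ 2 * omz k)) =
      ((om - 1) * ((s : ℂ) - (u : ℂ) * (om + 1))) * omz k := by push_cast; ring
  rw [e3, e4, norm_mul, norm_mul, norm_mul, norm_mul, hk, mul_one, mul_one, Complex.norm_real,
    Real.norm_eq_abs, abs_of_nonneg hs]
  have h1 : s ≤ 2 * ‖(s : ℂ) - (u : ℂ) * (om + 1)‖ := by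
    -- `om + 1 = exp (iπ/3)`; use the squared norm `s² - s u + u²`
    have hre := om_re
    have hn : Complex.normSq om = 1 := by rw [Complex.normSq_eq_norm_sq, norm_om]; norm_num
    have him : om.im ^ 2 = 3 / 4 := by
      rw [Complex.normSq_apply, hre] at hn
      nlinarith
    have h2 : ‖(s : ℂ) - (u : ℂ) * (om + 1)‖ ^ 2 = s ^ 2 - s * u + u ^ 2 := by
      rw [← Complex.normSq_eq_norm_sq, Complex.normSq_apply]
      simp only [Complex.sub_re, Complex.ofReal_re, Complex.mul_re, Complex.add_re, hre,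
        Complex.one_re, Complex.ofReal_im, Complex.add_im, Complex.one_im, Complex.sub_im,
        Complex.mul_im]
      have : (s - (u * (-1 / 2 + 1) - 0 * (om.im + 0))) * (s - (u * (-1 / 2 + 1) - 0 * (om.im + 0))) +
          (0 - (u * (om.im + 0) + 0 * (-1 / 2 + 1))) * (0 - (u * (om.im + 0) + 0 * (-1 / 2 + 1))) =
          (s - u / 2) ^ 2 + u ^ 2 * om.im ^ 2 := by ring
      rw [this, him]
      ring
    have h3 : s ^ 2 ≤ (2 * ‖(s : ℂ) - (u : ℂ) * (om + 1)‖) ^ 2 := by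
      rw [mul_pow, h2]
      nlinarith [sq_nonneg (s - 2 * u), sq_nonneg s]
    exact (abs_le_of_sq_le_sq' h3 (by positivity)).2
  calc s * ‖om - 1‖ ≤ (2 * ‖(s : ℂ) - (u : ℂ) * (om + 1)‖) * ‖om - 1‖ :=
        mul_le_mul_of_nonneg_right h1 (norm_nonneg _)
    _ = 2 * (‖om - 1‖ * ‖(s : ℂ) - (u : ℂ) * (om + 1)‖) := by ring

theorem ray_norm (k : ZMod 3) {s : ℝ} (hs : 0 ≤ s) :
    ‖(((1 - s : ℝ) : ℂ) * omz k + (s : ℂ) * omz (k + 1)) - omz k‖ = s * Real.sqrt 3 := by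
  have hk : ‖omz k‖ = 1 := by
    unfold omz
    rw [norm_pow, norm_om, one_pow]
  have e3 : (((1 - s : ℝ) : ℂ) * omz k + (s : ℂ) * omz (k + 1)) - omz k =
      ((s : ℂ) * (om - 1)) * omz k := by rw [omz_add_one]; push_cast; ring
  rw [e3, norm_mul, norm_mul, hk, mul_one, Complex.norm_real, Real.norm_eq_abs, abs_of_nonneg hs,
    norm_sub_rev, norm_one_sub_om]

/-- **T3'** for networks: `Dis U (hcen N) N.Q` is leaf T1, `RelAt` is `Relx63.relAt_of`. All members of the weighted family join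
a side whose observable is on `[om ^ k, om ^ (k + 1)]`, at parameter `≥ p`, to a side whose
observable is on the ray `om ^ k → om ^ (k + 2)`. -/
theorem T3d {S : Finset ℂ} {N : Net ℂ} (hN : HNet S N)
    {U : Finset (ℂ × ℂ × ℂ)} (hR : ∀ t ∈ U, RelAt N t) (hd : Dis U (hcen N) N.Q)
    {I : Type} {J : Finset I} {lam : I → ℝ} {A : I → Finset (ℂ × ℂ × ℂ)}
    (hF : Fam U (hcen N) N.Q J lam A) (k : ZMod 3) {p : ℝ} (hp : 0 ≤ p)
    (e e' : I → ℂ × ℂ) (hw : ∀ i ∈ J, Conn N (A i) (e i) (e' i))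
    (hx : ∀ i ∈ J, ∃ s : ℝ, p ≤ s ∧ s ≤ 1 ∧
      N.F (e i).1 (e i).2 = ((1 - s : ℝ) : ℂ) * omz k + (s : ℂ) * omz (k + 1))
    (hy : ∀ i ∈ J, ∃ u : ℝ,
      N.F (e' i).1 (e' i).2 = ((1 - u : ℝ) : ℂ) * omz k + (u : ℂ) * omz (k + 2)) :
    p ≤ 2 * Real.exp (- (1600 * ∑ t ∈ U, cw J lam A t ^ 2)⁻¹) := by
  rcases hp.lt_or_eq with hp | hp
  swap
  · rw [← hp]; positivity
  have h3 : 0 < Real.sqrt 3 := by positivity
  have h1 := rswd_exp hd hF (omz k) (r := p * Real.sqrt 3) (R := Real.sqrt 3) (by positivity)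
    (fun i => N.F (e i).1 (e i).2) (fun i => N.F (e' i).1 (e' i).2)
    (fun i hi => walk_of_conn hN (fun t ht => hR t (hF.sub i hi ht)) (hw i hi))
    (by
      intro i hi
      obtain ⟨s, hs1, hs2, hs3⟩ := hx i hi
      rw [hs3, ray_norm k (hp.le.trans hs1)]
      exact mul_le_mul_of_nonneg_right hs1 h3.le)
    (by
      intro i hi
      obtain ⟨s, hs1, hs2, hs3⟩ := hx i hi
      rw [hs3, ray_norm k (hp.le.trans hs1)]
      nlinarith)
    (by
      intro i hi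
      obtain ⟨s, hs1, hs2, hs3⟩ := hx i hi
      obtain ⟨u, hu⟩ := hy i hi
      rw [hs3, hu]
      exact ray_sep k (hp.le.trans hs1))
  have h2 : p * Real.sqrt 3 ≤
      (2 * Real.exp (- (1600 * ∑ t ∈ U, cw J lam A t ^ 2)⁻¹)) * Real.sqrt 3 := by
    calc p * Real.sqrt 3 ≤ 2 * Real.sqrt 3 *
          Real.exp (- (1600 * ∑ t ∈ U, cw J lam A t ^ 2)⁻¹) := h1
      _ = _ := by ring
  exact le_of_mul_le_mul_right h2 h3

end Crest.Agent.R143.Rswdx811
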