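import Crest.Agent.R143.Coarse_166
import Crest.Agent.R143.CFrame_358

/-!
# Row 143 (S0194), CORE-C: contraction of explored runs, conditional frame on a cylinder (helper535)

(notes 3252, 3285 of helper969: (L4), (LM) without a maximal inequality)

`M : CMap D C` closed map, `x` even configuration, loop `P 0, .., P (N - 1)` with the base `p`.

* `Runs M π x p N R` : every class of `π` which is met by the loop in more than one cell is the
  class of a run `r ∈ R` : all its cells on the loop are visited at the times in `[r.1, r.2)`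
* `Fresh R a` : the gap at time `a` is not inside a run
* `Runs.rel` : **contraction of the runs keeps the relation between fresh gaps**
* `Runs.blk_sum`, `Runs.blk_le` : for a field which vanishes on the gaps of the runs the block sums
  of `M` and of the coarse map are the same; hence they are bounded by the energy of the coarse map
* `left_con`, `right_con` : the left (right) cells of a run are connected: `ClsCon`
* `Ctr π E χ₀` : contraction of the explored cells `E` to giants of one colour; `Ctr.sum`, `Ctr.card`,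
  `Ctr.cyl_frame` : **frame on the cylinder** `Prs E χ₀`
* `tower_frame` : for a stopping rule `R`, a weight `W` which depends only on the revealed cells:
  `∑ χ, W χ * Z χ ≤ 2 ^ m / 8 * ∑ ‖a‖² * ∑ χ, W χ`
-/

set_option autoImplicit false

noncomputable section

open scoped Classical

namespace Crest.Agent.R143.Runx535

open Crest.Agent.R143.Frame1x395 Crest.Agent.R143.Frame2x395 Crest.Agent.R143.Frame3x395
  Crest.Agent.R143.Frame4x395 Crest.Agent.R143.Frame8x395 Crest.Agent.R143.NonXx592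
  Crest.Agent.R143.Coarsex166 Crest.Agent.R143.CFramex358

variable {D C C' : Type} {M : CMap D C} {x : D → ZMod 2}

/-! ### the relation along a loop -/

/-- the relation of two gaps in terms of the left cells along their loop -/
theorem rel_two (hx : IsC M ∅ x) {p : D} {N : ℕ} (hN : P M x p N = p)
    (hinj : ∀ a b, a < b → b < N → P M x p a ≠ P M x p b) {a b : ℕ} (hab : a < b) (hbN : b < N)
    {g k : D} (hg : Gp M x g) (hk : Gp M x k) (ga : M.rho g = P M x p a)
    (kb : M.rho k = P M x p b) :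
    Rel M x g k ↔ ∀ u, a < u → u ≤ b → ∀ v, v < N → (v ≤ a ∨ b < v) →
      M.cell (P M x p u) ≠ M.cell (P M x p v) := by
  have hne : g ≠ k := by
    rintro rfl
    exact hinj a b hab hbN (ga.symm.trans kb)
  constructor
  · intro H u hu1 hu2 v hv1 hv2 e
    rcases H (M.cell (P M x p u)) with h1 | h1 | h1
    · exact hne h1
    · exact (av_fwd hx hinj hab hbN hg ga kb _).1 h1 u hu1 hu2 rfl
    · have h2 := (av_bwd hx hN hinj hab hbN hk ga kb _).1 h1
      rcases hv2 with hv2 | hv2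
      · exact h2.2 v hv2 e.symm
      · exact h2.1 v hv2 hv1 e.symm
  · intro H c
    right
    by_cases h1 : ∀ u, a < u → u ≤ b → M.cell (P M x p u) ≠ c
    · exact Or.inl ((av_fwd hx hinj hab hbN hg ga kb c).2 h1)
    · right
      push Not at h1
      obtain ⟨u, hu1, hu2, rfl⟩ := h1
      exact (av_bwd hx hN hinj hab hbN hk ga kb _).2
        ⟨fun v hv1 hv2 => (H u hu1 hu2 v hv2 (Or.inr hv1)).symm,
          fun v hv => (H u hu1 hu2 v (by omega) (Or.inl hv)).symm⟩

variable {π : C → C'} {hπ : ClsCon M π}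

/-- every class of `π` which is met by the loop in more than one cell is the class of a run -/
structure Runs (M : CMap D C) (π : C → C') (x : D → ZMod 2) (p : D) (N : ℕ) (R : Set (ℕ × ℕ)) :
    Prop where
  per : P M x p N = p
  inj : ∀ a b, a < b → b < N → P M x p a ≠ P M x p b
  cov : ∀ u < N, ∀ v < N, π (M.cell (P M x p u)) = π (M.cell (P M x p v)) →
    M.cell (P M x p u) = M.cell (P M x p v) ∨
    ∃ r ∈ R, ∀ w < N, π (M.cell (P M x p w)) = π (M.cell (P M x p u)) →
      ∃ w', r.1 ≤ w' ∧ w' < r.2 ∧ w' < N ∧ M.cell (P M x p w') = M.cell (P M x p w)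

/-- the gap at time `a` is not inside a run -/
def Fresh (R : Set (ℕ × ℕ)) (a : ℕ) : Prop := ∀ r ∈ R, a < r.1 ∨ r.2 ≤ a + 1

/-- **contraction of the runs keeps the relation between fresh gaps**, times in order -/
theorem Runs.rel_lt {R : Set (ℕ × ℕ)} {p : D} {N : ℕ} (hx : IsC (coarse M π hπ) ∅ x)
    (H : Runs M π x p N R) {a b : ℕ} (hab : a < b) (hbN : b < N) (ha : Fresh R a)
    (hb : Fresh R b) {g k : D} (hg : Gp M x g) (hk : Gp M x k) (ga : M.rho g = P M x p a)
    (kb : M.rho k = P M x p b) : Rel (coarse M π hπ) x g k ↔ Rel M x g k := by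
  refine ⟨rel_of_coarse, fun h1 => ?_⟩
  have h2 := (rel_two (IsC.of_coarse hx) H.per H.inj hab hbN hg hk ga kb).1 h1
  refine (rel_two hx (M := coarse M π hπ) H.per H.inj hab hbN hg hk ga kb).2 ?_
  intro u hu1 hu2 v hv1 hv2 e
  have e' : π (M.cell (P M x p u)) = π (M.cell (P M x p v)) := e
  rcases H.cov u (by omega) v hv1 e' with h3 | ⟨r, hr, h3⟩
  · exact h2 u hu1 hu2 v hv1 hv2 h3
  · have hin : (a < r.1 ∧ r.2 ≤ b + 1) ∨ (r.2 ≤ a + 1 ∨ b < r.1) := by
      rcases ha r hr with c1 | c1 <;> rcases hb r hr with c2 | c2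
      · exact Or.inr (Or.inr c2)
      · exact Or.inl ⟨c1, c2⟩
      · exact Or.inr (Or.inl c1)
      · exact Or.inr (Or.inl c1)
    rcases hin with ⟨c1, c2⟩ | c1
    · obtain ⟨w, w1, w2, w3, w4⟩ := h3 v hv1 e'.symm
      exact h2 w (by omega) (by omega) v hv1 hv2 w4
    · obtain ⟨w, w1, w2, w3, w4⟩ := h3 u (by omega) rfl
      refine h2 u hu1 hu2 w w3 ?_ w4.symm
      omega

theorem rel_symm {g k : D} (h : Rel M x g k) : Rel M x k g := fun c => (h c).symm

/-- **contraction of the runs keeps the relation between fresh gaps** -/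
theorem Runs.rel {R : Set (ℕ × ℕ)} {p : D} {N : ℕ} (hx : IsC (coarse M π hπ) ∅ x)
    (H : Runs M π x p N R) {a b : ℕ} (haN : a < N) (hbN : b < N) (ha : Fresh R a)
    (hb : Fresh R b) {g k : D} (hg : Gp M x g) (hk : Gp M x k) (ga : M.rho g = P M x p a)
    (kb : M.rho k = P M x p b) : Rel (coarse M π hπ) x g k ↔ Rel M x g k := by
  rcases lt_trichotomy a b with h | rfl | h
  · exact H.rel_lt hx h hbN ha hb hg hk ga kb
  · have e : g = k := rho_inj M (ga.trans kb.symm)
    subst e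
    exact ⟨fun _ _ => Or.inl rfl, fun _ _ => Or.inl rfl⟩
  · have h1 := H.rel_lt (hπ := hπ) hx h haN hb ha hk hg kb ga
    exact ⟨fun h2 => rel_symm (h1.1 (rel_symm h2)), fun h2 => rel_symm (h1.2 (rel_symm h2))⟩

section blocks

variable [Fintype D]

/-- **blocks** : `a` vanishes on the gaps of the block which are inside the runs -/
theorem Runs.blk_sum {R : Set (ℕ × ℕ)} {p : D} {N : ℕ} (hx : IsC (coarse M π hπ) ∅ x)
    (H : Runs M π x p N R) {a : D → ℂ} {g₀ : D} (hg₀ : Gp M x g₀)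
    (hf : ∀ g ∈ blk M x g₀, a g ≠ 0 → ∃ t, t < N ∧ Fresh R t ∧ M.rho g = P M x p t)
    (h0 : ∃ t, t < N ∧ Fresh R t ∧ M.rho g₀ = P M x p t) :
    ∑ g ∈ blk M x g₀, a g = ∑ g ∈ blk (coarse M π hπ) x g₀, a g := by
  symm
  refine Finset.sum_subset blk_coarse_sub fun g hg hng => ?_
  by_contra hne
  obtain ⟨t, t1, t2, t3⟩ := hf g hg hne
  obtain ⟨s, s1, s2, s3⟩ := h0
  rw [mem_blk] at hg hng
  exact hng ⟨hg.1, (H.rel hx s1 t1 s2 t2 hg₀ hg.1 s3 t3).2 hg.2⟩

/-- **blocks** : the block sum is bounded by the energy of the coarse map -/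
theorem Runs.blk_le {R : Set (ℕ × ℕ)} {p : D} {N : ℕ} (hx : IsC (coarse M π hπ) ∅ x)
    (H : Runs M π x p N R) {a : D → ℂ} {g₀ : D} (hg₀ : Gp M x g₀)
    (hf : ∀ g ∈ blk M x g₀, a g ≠ 0 → ∃ t, t < N ∧ Fresh R t ∧ M.rho g = P M x p t) :
    ‖∑ g ∈ blk M x g₀, a g‖ ^ 2 ≤ En (coarse M π hπ) a x := by
  by_cases hne : ∃ k ∈ blk M x g₀, a k ≠ 0
  · obtain ⟨k, hk, hak⟩ := hne
    have hk' := mem_blk.1 hk
    have e : blk M x k = blk M x g₀ := blk_eq (IsC.of_coarse hx) hg₀ hk
    have h1 : ∑ g ∈ blk M x k, a g = ∑ g ∈ blk (coarse M π hπ) x k, a g :=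
      H.blk_sum hx hk'.1 (fun g hg => hf g (e ▸ hg)) (hf k hk hak)
    rw [← e, h1]
    exact blk_le_En (M := coarse M π hπ) a hk'.1
  · push Not at hne
    rw [Finset.sum_eq_zero hne, norm_zero]
    have := En_nonneg (M := coarse M π hπ) a x
    simpa using this

end blocks

/-! ### the cells of a run are connected -/

/-- the left cell of the next state: the same or adjacent through an unoccupied side -/
theorem left_step (h : IsC M ∅ x) {p : D} (hp : x p = 1) :
    M.cell (stp M x p) = M.cell p ∨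
    (M.rho (M.rho p) ∈ M.live ∧ M.cell (stp M x p) = M.cell (M.rho (M.rho p))) := by
  rcases stp_cases h hp (Set.notMem_empty _) with ⟨h1, -, e⟩ | ⟨-, h2, e⟩
  · rw [e, M.cell_iota _ (h.lv h1)]
    by_cases hl : M.rho (M.rho p) ∈ M.live
    · exact Or.inr ⟨hl, rfl⟩
    · left
      rw [M.dead _ hl, M.rho3]
  · left
    rw [e, M.cell_iota _ (h.lv h2), M.rho3]

/-- the right cell of the next state: the same or adjacent through an unoccupied side -/
theorem right_step (h : IsC M ∅ x) {p : D} (hp : x p = 1) :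
    Rc M (stp M x p) = Rc M p ∨
    (M.rho p ∈ M.live ∧ Rc M (stp M x p) = M.cell (M.rho (M.rho p))) := by
  rcases stp_cases h hp (Set.notMem_empty _) with ⟨h1, -, e⟩ | ⟨-, h2, e⟩
  · left
    rw [e]
    exact cell_rho_iota M (h.lv h1)
  · have e2 : Rc M (stp M x p) = M.cell (M.rho (M.rho p)) := by
      rw [e]; exact cell_rho_iota M (h.lv h2)
    by_cases hl : M.rho p ∈ M.live
    · exact Or.inr ⟨hl, e2⟩
    · left
      rw [e2, ← M.dead _ hl]

/-- the left cells of a run are connected -/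
theorem left_con (h : IsC M ∅ x) {p : D} (hp : x p = 1) {s n : ℕ} (hsn : s ≤ n)
    (hA : ∀ w, s ≤ w → w ≤ n → π (M.cell (P M x p w)) = π (M.cell (P M x p s))) :
    Relation.EqvGen (Adj M π) (M.cell (P M x p s)) (M.cell (P M x p n)) := by
  induction n with
  | zero =>
    obtain rfl : s = 0 := by omega
    exact Relation.EqvGen.refl _
  | succ n ih =>
    rcases Nat.lt_or_ge s (n + 1) with hl | hl
    · refine Relation.EqvGen.trans _ _ _
        (ih (by omega) fun w h1 h2 => hA w h1 (by omega)) ?_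
      have ho := P_occ h hp n
      have h1 := hA n (by omega) (by omega)
      have h2 := hA (n + 1) (by omega) le_rfl
      rw [P_succ] at h2 ⊢
      rcases left_step h ho with e | ⟨hl2, e⟩
      · rw [e]; exact Relation.EqvGen.refl _
      · refine Relation.EqvGen.symm _ _ (Relation.EqvGen.rel _ _ ⟨?_, M.rho (M.rho (P M x p n)),
          hl2, e.symm, ?_⟩)
        · rw [h2, h1]
        · rw [M.rho3]
    · obtain rfl : s = n + 1 := by omega
      exact Relation.EqvGen.refl _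

/-- the right cells of a run are connected -/
theorem right_con (h : IsC M ∅ x) {p : D} (hp : x p = 1) {s n : ℕ} (hsn : s ≤ n)
    (hA : ∀ w, s ≤ w → w ≤ n → π (Rc M (P M x p w)) = π (Rc M (P M x p s))) :
    Relation.EqvGen (Adj M π) (Rc M (P M x p s)) (Rc M (P M x p n)) := by
  induction n with
  | zero =>
    obtain rfl : s = 0 := by omega
    exact Relation.EqvGen.refl _
  | succ n ih =>
    rcases Nat.lt_or_ge s (n + 1) with hl | hl
    · refine Relation.EqvGen.trans _ _ _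
        (ih (by omega) fun w h1 h2 => hA w h1 (by omega)) ?_
      have ho := P_occ h hp n
      have h1 := hA n (by omega) (by omega)
      have h2 := hA (n + 1) (by omega) le_rfl
      rw [P_succ] at h2 ⊢
      rcases right_step h ho with e | ⟨hl2, e⟩
      · rw [e]; exact Relation.EqvGen.refl _
      · refine Relation.EqvGen.rel _ _ ⟨?_, M.rho (P M x p n), hl2, rfl, e.symm⟩
        rw [h2, h1]
    · obtain rfl : s = n + 1 := by omega
      exact Relation.EqvGen.refl _

/-! ### contraction of explored cells -/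

/-- contraction of the explored cells `E` (colours `χ₀`) : `π` is injective elsewhere, the classes
inside `E` have one colour -/
structure Ctr (π : C → C') (E : Finset C) (χ₀ : C → ZMod 2) : Prop where
  surj : Function.Surjective π
  inj : ∀ c c', c ∉ E → π c = π c' → c = c'
  mono : ∀ c ∈ E, ∀ c' ∈ E, π c = π c' → χ₀ c = χ₀ c'

/-- the colours of the giants -/
def gcol (π : C → C') (E : Finset C) (χ₀ : C → ZMod 2) (c' : C') : ZMod 2 :=
  if h : ∃ c ∈ E, π c = c' then χ₀ h.choose else 0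

theorem Ctr.gcol_eq {E : Finset C} {χ₀ : C → ZMod 2} (H : Ctr π E χ₀) {c : C} (hc : c ∈ E) :
    gcol π E χ₀ (π c) = χ₀ c := by
  have h : ∃ e ∈ E, π e = π c := ⟨c, hc, rfl⟩
  unfold gcol
  rw [dif_pos h]
  exact H.mono _ h.choose_spec.1 _ hc h.choose_spec.2

/-- the colourings of the cylinder are constant on the classes -/
theorem Ctr.const {E : Finset C} {χ₀ χ : C → ZMod 2} [Fintype C] (H : Ctr π E χ₀)
    (hχ : χ ∈ Prs E χ₀) {c c' : C} (e : π c = π c') : χ c = χ c' := by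
  have h0 := mem_Prs.1 hχ
  by_cases hc : c ∈ E
  · by_cases hc' : c' ∈ E
    · rw [h0 c hc, h0 c' hc', H.mono c hc c' hc' e]
    · rw [H.inj c' c hc' e.symm]
  · rw [H.inj c c' hc e]

theorem Ctr.ex_col {E : Finset C} {χ₀ χ : C → ZMod 2} [Fintype C] (H : Ctr π E χ₀)
    (hχ : χ ∈ Prs E χ₀) : (fun c => χ (Function.surjInv H.surj (π c))) = χ := by
  funext c
  exact H.const hχ (Function.surjInv_eq H.surj (π c))

/-- the colourings of the cylinder give configurations of the coarse map -/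
theorem Ctr.isC [Fintype D] {E : Finset C} {χ₀ χ : C → ZMod 2} [Fintype C] (H : Ctr π E χ₀)
    (hπ : ClsCon M π) (hχ : χ ∈ Prs E χ₀) : IsC (coarse M π hπ) ∅ (cfg M χ) := by
  rw [← H.ex_col hχ]
  exact cfg_isC (M := coarse M π hπ) (fun c' => χ (Function.surjInv H.surj c'))

theorem Ctr.sum [Fintype C] [Fintype C'] {A : Type} [AddCommMonoid A] {E : Finset C}
    {χ₀ : C → ZMod 2} (H : Ctr π E χ₀) (F : (C → ZMod 2) → A) :
    ∑ χ ∈ Prs E χ₀, F χ = ∑ χ ∈ Prs (E.image π) (gcol π E χ₀), F (fun c => χ (π c)) := by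
  symm
  refine Finset.sum_bij (fun χ _ => fun c => χ (π c)) ?_ ?_ ?_ ?_
  · intro χ hχ
    rw [mem_Prs] at hχ ⊢
    intro c hc
    show χ (π c) = χ₀ c
    rw [hχ (π c) (Finset.mem_image_of_mem _ hc), H.gcol_eq hc]
  · intro χ _ χ' _ e
    funext c'
    obtain ⟨c, rfl⟩ := H.surj c'
    exact congrFun e c
  · intro χ hχ
    refine ⟨fun c' => χ (Function.surjInv H.surj c'), ?_, H.ex_col hχ⟩
    rw [mem_Prs]
    intro c' hc'
    obtain ⟨c, hc, rfl⟩ := Finset.mem_image.1 hc'
    show χ (Function.surjInv H.surj (π c)) = _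
    rw [congrFun (H.ex_col hχ) c, H.gcol_eq hc, mem_Prs.1 hχ c hc]
  · intro χ _
    rfl

theorem Ctr.card [Fintype C] [Fintype C'] {E : Finset C} {χ₀ : C → ZMod 2} (H : Ctr π E χ₀) :
    (Prs E χ₀).card = (Prs (E.image π) (gcol π E χ₀)).card := by
  have h := H.sum (A := ℕ) (fun _ => 1)
  simpa using h

/-- **frame on the cylinder of an explored set**, `m` = number of the giants -/
theorem Ctr.cyl_frame [Fintype D] [Fintype C] [Fintype C'] {E : Finset C} {χ₀ : C → ZMod 2}
    (H : Ctr π E χ₀) (hπ : ClsCon M π) (hE : E.Nonempty) {w : ℂ} (w3 : w ^ 3 = 1) (w1 : w ≠ 1)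
    (wc : (starRingEnd ℂ) w = w ^ 2) {a : D → ℂ} (ha : Spin M w a) {m : ℕ}
    (hm : (E.image π).card ≤ m) :
    ∑ χ ∈ Prs E χ₀, En (coarse M π hπ) a (cfg M χ) ≤
      (Prs E χ₀).card * (2 ^ m / 8 * ∑ g, ‖a g‖ ^ 2) := by
  have h0 := cond_frame (M := coarse M π hπ) w3 w1 wc (a := a) ha
    (G := E.image π) (hE.image π) (gcol π E χ₀)
  have h1 := H.sum (fun χ => En (coarse M π hπ) a (cfg M χ))
  rw [h1, H.card]
  refine le_trans (le_of_eq ?_) (h0.trans ?_)
  · rfl
  · have h2 : (2 : ℝ) ^ (E.image π).card ≤ 2 ^ m := pow_le_pow_right₀ (by norm_num) hm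
    have h3 : 0 ≤ ∑ g, ‖a g‖ ^ 2 := Finset.sum_nonneg fun _ _ => by positivity
    gcongr

/-! ### weighted tower -/

/-- **weighted tower**: `R` = stopping rule, `W` = weight which depends only on the revealed cells;
on every atom with `W ≠ 0` the revealed cells are at most `m` giants and `Z` is bounded by the energy
of the coarse map -/
theorem tower_frame [Fintype D] [Fintype C] {w : ℂ} (w3 : w ^ 3 = 1) (w1 : w ≠ 1)
    (wc : (starRingEnd ℂ) w = w ^ 2) {a : D → ℂ} (ha : Spin M w a)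
    {R : (C → ZMod 2) → Finset C} (hR : Stp R) {W Z : (C → ZMod 2) → ℝ} (hW : ∀ χ, 0 ≤ W χ)
    (hWR : ∀ χ, ∀ χ' ∈ Prs (R χ) χ, W χ' = W χ) {m : ℕ}
    (H : ∀ χ, W χ ≠ 0 → ∃ (C' : Type) (_ : Fintype C') (π : C → C') (hπ : ClsCon M π),
      Ctr π (R χ) χ ∧ (R χ).Nonempty ∧ ((R χ).image π).card ≤ m ∧
      ∀ χ' ∈ Prs (R χ) χ, Z χ' ≤ En (coarse M π hπ) a (cfg M χ')) :
    ∑ χ, W χ * Z χ ≤ 2 ^ m / 8 * (∑ g, ‖a g‖ ^ 2) * ∑ χ, W χ := by
  rw [Finset.mul_sum]
  refine hR.tower_le fun χ => ?_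
  have e1 : ∑ χ' ∈ Prs (R χ) χ, W χ' * Z χ' = W χ * ∑ χ' ∈ Prs (R χ) χ, Z χ' := by
    rw [Finset.mul_sum]
    exact Finset.sum_congr rfl fun χ' h => by rw [hWR χ χ' h]
  have e2 : ∑ χ' ∈ Prs (R χ) χ, 2 ^ m / 8 * (∑ g, ‖a g‖ ^ 2) * W χ' =
      W χ * ((Prs (R χ) χ).card * (2 ^ m / 8 * ∑ g, ‖a g‖ ^ 2)) := by
    have e3 : ∀ χ' ∈ Prs (R χ) χ, 2 ^ m / 8 * (∑ g, ‖a g‖ ^ 2) * W χ' =
        2 ^ m / 8 * (∑ g, ‖a g‖ ^ 2) * W χ := fun χ' h => by rw [hWR χ χ' h]
    rw [Finset.sum_congr rfl e3, Finset.sum_const, nsmul_eq_mul]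
    ring
  rw [e1, e2]
  by_cases h0 : W χ = 0
  · rw [h0, zero_mul, zero_mul]
  · obtain ⟨C', _, π, hπ, h1, h2, h3, h4⟩ := H χ h0
    refine mul_le_mul_of_nonneg_left ?_ (hW χ)
    exact (Finset.sum_le_sum h4).trans (h1.cyl_frame hπ h2 w3 w1 wc ha h3)

/-- **weighted tower for block sums** (note 3285): on every atom with `W ≠ 0` the revealed cells are
at most `m` giants, contracted by `π`; for every colouring `χ'` of the atom in the event `ev` the loop
of the gap `g₀ χ'` is covered by runs, and `a` vanishes on the gaps of its block inside the runs -/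
theorem tower_blk [Fintype D] [Fintype C] {w : ℂ} (w3 : w ^ 3 = 1) (w1 : w ≠ 1)
    (wc : (starRingEnd ℂ) w = w ^ 2) {a : D → ℂ} (ha : Spin M w a)
    {R : (C → ZMod 2) → Finset C} (hR : Stp R) {W : (C → ZMod 2) → ℝ} (hW : ∀ χ, 0 ≤ W χ)
    (hWR : ∀ χ, ∀ χ' ∈ Prs (R χ) χ, W χ' = W χ) {m : ℕ} (ev : (C → ZMod 2) → Prop)
    (g₀ : (C → ZMod 2) → D)
    (H : ∀ χ, W χ ≠ 0 → ∃ (C' : Type) (_ : Fintype C') (π : C → C') (_ : ClsCon M π),
      Ctr π (R χ) χ ∧ (R χ).Nonempty ∧ ((R χ).image π).card ≤ m ∧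
      ∀ χ' ∈ Prs (R χ) χ, ev χ' → Gp M (cfg M χ') (g₀ χ') ∧ ∃ (p : D) (N : ℕ) (𝓡 : Set (ℕ × ℕ)),
        Runs M π (cfg M χ') p N 𝓡 ∧
        ∀ g ∈ blk M (cfg M χ') (g₀ χ'), a g ≠ 0 →
          ∃ t, t < N ∧ Fresh 𝓡 t ∧ M.rho g = P M (cfg M χ') p t) :
    ∑ χ, W χ * (if ev χ then ‖∑ g ∈ blk M (cfg M χ) (g₀ χ), a g‖ ^ 2 else 0) ≤
      2 ^ m / 8 * (∑ g, ‖a g‖ ^ 2) * ∑ χ, W χ := by
  refine tower_frame w3 w1 wc ha hR hW hWR fun χ hχ => ?_
  obtain ⟨C', i, π, hπ, h1, h2, h3, h4⟩ := H χ hχ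
  refine ⟨C', i, π, hπ, h1, h2, h3, fun χ' hχ' => ?_⟩
  by_cases he : ev χ'
  · rw [if_pos he]
    obtain ⟨h5, p, N, 𝓡, h6, h7⟩ := h4 χ' hχ' he
    exact h6.blk_le (h1.isC hπ hχ') h5 h7
  · rw [if_neg he]
    exact En_nonneg (M := coarse M π hπ) a _

end Crest.Agent.R143.Runx535
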