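import Crest.Agent.R143.NearN_377
import Crest.Agent.R143.SxZ_832

/-!
# Row 143 (S0194), RIG: 377's `Sd` from 597's `Sx` (helper832)
-/

set_option autoImplicit false
set_option linter.all false

noncomputable section

open scoped Classical

namespace Crest.Agent.R143.SdZx832

open MeasureTheory Set Filter Topology
open Crest.ProbabilityR.Voronoi
open Crest.Agent.R143.B0x346 Crest.Agent.R143.DelGx806 Crest.Agent.R143.FinCx811
open Crest.Agent.R143.Uniqx323 (Zn)
open Crest.Agent.R143.CorEx133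
open Crest.Agent.R143.PolyUx346 (Poly)
open Crest.Agent.R143.RigZdx609
open Crest.Agent.R143.QuenIx597

variable {N : ℕ} {ε : ℝ} {u : Poly} {w : ZMod 3} {ω : Sample} {Z : TData} {hN : u.n + 4 ≤ N}
  {hε : 0 < ε} {hS : GP (SU u ε ω : Set ℂ)} {h3 : 3 ≤ (SU u ε ω).card} {h₀ : Cs hS}
  {R : Set (Cs hS)} {Zz : Zn (rc0 hS)}

/-- **377's `Sd`** -/
theorem sd_of (X : Sx w Z hN hε hS h3 h₀ R Zz) : NearNx377.Sd w Z hN hε hS h3 h₀ R Zz :=
  fun s hs => by
    obtain ⟨p, q, k, T, -, h1, h2⟩ := X.out s hs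
    exact ⟨p, q, k, T, h1, h2.1⟩

end Crest.Agent.R143.SdZx832
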