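import Crest.Agent.R143.B4U_927

/-!
Row 143, block B4 (helper927): thin neighbourhoods of the arc.

`secU δ` = image under `exp` of the open rectangle `|Re w| < δ`, `-δ < Im w < 2π/3 + δ`: a thin
neighbourhood of the arc `{e^{iφ}, 0 ≤ φ ≤ 2π/3}`. It is open and simply connected, so (ZF) on
`secU δ` for ONE (arbitrarily small) `δ > 0` is enough, and the crude upper bound of the winding
polynomials is only needed on `[e^{-δ}, e^{δ}]` (exponential moments with a base as close to `1` as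
one wants).
-/

set_option autoImplicit false

open Complex Set Metric Filter
open scoped Topology Real Classical

namespace Crest.Agent.R143.SecUx927

open Crest.Agent.R143.TwoCx640 Crest.Agent.R143.TwoSx927 Crest.Agent.R143.B0x346
open Crest.Agent.R143.B4x927 Crest.Agent.R143.B4Ux927

/-- the open rectangle -/
def rect (δ : ℝ) : Set ℂ := {w : ℂ | |w.re| < δ ∧ -δ < w.im ∧ w.im < 2 * π / 3 + δ}

/-- thin neighbourhood of the arc -/
def secU (δ : ℝ) : Set ℂ := Complex.exp '' rect δ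

theorem isOpen_rect (δ : ℝ) : IsOpen (rect δ) := by
  unfold rect
  have h1 : Continuous fun w : ℂ => |w.re| := Complex.continuous_re.abs
  exact (isOpen_lt h1 continuous_const).inter
    ((isOpen_lt continuous_const Complex.continuous_im).inter
      (isOpen_lt Complex.continuous_im continuous_const))

theorem convex_rect (δ : ℝ) : Convex ℝ (rect δ) := by
  have : rect δ = {w : ℂ | w.re ∈ Ioo (-δ) δ} ∩ {w : ℂ | w.im ∈ Ioo (-δ) (2 * π / 3 + δ)} := by
    ext w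
    simp only [rect, mem_ofPred_eq, mem_inter_iff, mem_Ioo, abs_lt]
  rw [this]
  exact ((convex_Ioo _ _).is_linear_preimage ⟨fun x y => Complex.add_re x y,
      fun c x => by simp⟩).inter
    ((convex_Ioo _ _).is_linear_preimage ⟨fun x y => Complex.add_im x y, fun c x => by simp⟩)

theorem isOpen_secU (δ : ℝ) : IsOpen (secU δ) := Complex.isOpenMap_exp _ (isOpen_rect δ)

theorem rect_mono {δ δ' : ℝ} (h : δ ≤ δ') : rect δ ⊆ rect δ' := by
  rintro w ⟨h1, h2, h3⟩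
  exact ⟨by linarith, by linarith, by linarith⟩

theorem secU_mono {δ δ' : ℝ} (h : δ ≤ δ') : secU δ ⊆ secU δ' := image_mono (rect_mono h)

theorem log_exp_rect {δ : ℝ} (hδ : δ ≤ π / 3) {w : ℂ} (hw : w ∈ rect δ) :
    Complex.log (Complex.exp w) = w := by
  obtain ⟨-, h2, h3⟩ := hw
  apply Complex.log_exp
  · linarith [Real.pi_pos]
  · linarith [Real.pi_pos]

theorem exp_mem_slit {δ : ℝ} (hδ : δ ≤ π / 3) {w : ℂ} (hw : w ∈ rect δ) :
    Complex.exp w ∈ Complex.slitPlane := by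
  obtain ⟨-, h2, h3⟩ := hw
  rw [Complex.mem_slitPlane_iff_arg]
  refine ⟨?_, Complex.exp_ne_zero _⟩
  have h4 : w.im ∈ Ioc (-π) π := ⟨by linarith [Real.pi_pos], by linarith [Real.pi_pos]⟩
  rw [Complex.arg_exp, (toIocMod_eq_self Real.two_pi_pos).mpr (by
    rw [show -π + 2 * π = π by ring]; exact h4)]
  linarith [Real.pi_pos]

theorem isSimplyConnected_secU {δ : ℝ} (h0 : 0 < δ) (hδ : δ ≤ π / 3) :
    IsSimplyConnected (secU δ) := by
  have hne : (rect δ).Nonempty := ⟨0, by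
    refine ⟨by simpa using h0, by simpa using h0, ?_⟩
    simp only [Complex.zero_im]
    positivity⟩
  have hR : SimplyConnectedSpace (rect δ) := isSimplyConnected_convex (convex_rect δ) hne
  let e : rect δ ≃ₜ secU δ :=
    { toFun := fun w => ⟨Complex.exp w.1, mem_image_of_mem _ w.2⟩
      invFun := fun z => ⟨Complex.log z.1, by
        obtain ⟨w, hw, hz⟩ := z.2
        rw [← hz, log_exp_rect hδ hw]
        exact hw⟩
      left_inv := fun w => Subtype.ext (log_exp_rect hδ w.2)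
      right_inv := fun z => Subtype.ext (by
        obtain ⟨w, hw, hz⟩ := z.2
        simp only
        rw [← hz, log_exp_rect hδ hw])
      continuous_toFun := by
        apply Continuous.subtype_mk
        exact Complex.continuous_exp.comp continuous_subtype_val
      continuous_invFun := by
        apply Continuous.subtype_mk
        rw [continuous_iff_continuousAt]
        intro z
        have h1 : z.1 ∈ Complex.slitPlane := by
          obtain ⟨w, hw, hz⟩ := z.2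
          rw [← hz]; exact exp_mem_slit hδ hw
        exact (continuousAt_clog h1).comp continuous_subtype_val.continuousAt }
  exact e.toHomotopyEquiv.simplyConnectedSpace_iff.mp hR

theorem norm_mem_secU {δ : ℝ} {z : ℂ} (hz : z ∈ secU δ) :
    ‖z‖ ∈ Icc (Real.exp (-δ)) (Real.exp δ) := by
  obtain ⟨w, ⟨h1, -, -⟩, rfl⟩ := hz
  rw [Complex.norm_exp]
  rw [abs_lt] at h1
  exact ⟨Real.exp_le_exp.mpr h1.1.le, Real.exp_le_exp.mpr h1.2.le⟩

theorem seg_mem_secU {δ : ℝ} (hδ : 0 < δ) :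
    ∀ x ∈ Icc (1 : ℝ) (1 + δ / 2), (x : ℂ) ∈ secU δ := by
  intro x hx
  have hx0 : 0 < x := by linarith [hx.1]
  refine ⟨(Real.log x : ℝ), ⟨?_, ?_, ?_⟩, ?_⟩
  · rw [Complex.ofReal_re, abs_of_nonneg (Real.log_nonneg hx.1)]
    have := Real.log_le_sub_one_of_pos hx0
    linarith [hx.2]
  · rw [Complex.ofReal_im]; linarith
  · rw [Complex.ofReal_im]; linarith [Real.pi_pos]
  · rw [← Complex.ofReal_exp, Real.exp_log hx0]

theorem om_mem_secU {δ : ℝ} (hδ : 0 < δ) : om ∈ secU δ := by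
  refine ⟨((2 * π / 3 : ℝ) : ℂ) * Complex.I, ⟨?_, ?_, ?_⟩, rfl⟩
  · simpa using hδ
  · have : (((2 * π / 3 : ℝ) : ℂ) * Complex.I).im = 2 * π / 3 := by simp
    rw [this]; linarith [Real.pi_pos]
  · have : (((2 * π / 3 : ℝ) : ℂ) * Complex.I).im = 2 * π / 3 := by simp
    rw [this]; linarith

/-- every open set containing the closed arc contains some `secU δ` -/
theorem exists_secU {V : Set ℂ} (hV : IsOpen V)
    (h : ∀ φ ∈ Icc (0 : ℝ) (2 * π / 3), Complex.exp (φ * Complex.I) ∈ V) :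
    ∃ δ : ℝ, 0 < δ ∧ δ ≤ π / 3 ∧ secU δ ⊆ V := by
  have hK : IsCompact ((fun φ : ℝ => (φ : ℂ) * Complex.I) '' Icc (0 : ℝ) (2 * π / 3)) :=
    isCompact_Icc.image (by fun_prop)
  have hsub : (fun φ : ℝ => (φ : ℂ) * Complex.I) '' Icc (0 : ℝ) (2 * π / 3) ⊆
      Complex.exp ⁻¹' V := by
    rintro _ ⟨φ, hφ, rfl⟩
    exact h φ hφ
  obtain ⟨e, he, hsub'⟩ := hK.exists_thickening_subset_open (hV.preimage Complex.continuous_exp)
    hsub
  refine ⟨min (e / 2) (π / 3), lt_min (by positivity) (by positivity), min_le_right _ _, ?_⟩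
  rintro _ ⟨w, ⟨h1, h2, h3⟩, rfl⟩
  apply hsub'
  have hm : min (e / 2) (π / 3) ≤ e / 2 := min_le_left _ _
  rw [Metric.mem_thickening_iff]
  set φ : ℝ := max 0 (min w.im (2 * π / 3)) with hφ
  have hφm : φ ∈ Icc (0 : ℝ) (2 * π / 3) :=
    ⟨le_max_left _ _, max_le (by positivity) (min_le_right _ _)⟩
  refine ⟨_, mem_image_of_mem _ hφm, ?_⟩
  have h4 : |w.im - φ| < e / 2 := by
    rw [abs_lt]
    rcases le_total w.im (2 * π / 3) with h5 | h5
    · rcases le_total 0 w.im with h6 | h6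
      · rw [hφ, min_eq_left h5, max_eq_right h6]
        constructor <;> linarith
      · rw [hφ, min_eq_left h5, max_eq_left h6]
        constructor <;> linarith
    · rw [hφ, min_eq_right h5, max_eq_right (by positivity)]
      constructor <;> linarith
  have h5 : |w.re| < e / 2 := by linarith
  rw [dist_eq_norm]
  calc ‖w - (φ : ℂ) * Complex.I‖ ≤ |(w - (φ : ℂ) * Complex.I).re| +
        |(w - (φ : ℂ) * Complex.I).im| := Complex.norm_le_abs_re_add_abs_im _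
    _ = |w.re| + |w.im - φ| := by simp
    _ < e := by linarith

/-- **B4 for the thin domain `secU δ`** -/
theorem b4Sec {δ : ℝ} (h0 : 0 < δ) (hδ : δ ≤ π / 3) (hZF : ZF (secU δ)) :
    ∃ C c : ℝ, 1 ≤ C ∧ 0 < c ∧ c ≤ 1 ∧ ∀ (S S' : Finset ℂ) (N N' : Net ℂ), HNet S N → HNet S' N' →
      ∀ (T : Set (ℂ × ℂ × ℂ)), T ⊆ (delT S : Set (ℂ × ℂ × ℂ)) → T ⊆ (delT S' : Set (ℂ × ℂ × ℂ)) →
      ∀ (pt : ℂ × ℂ × ℂ → ℂ) (lf lf' : ℂ × ℂ × ℂ → ℤ → ℝ) (a0 a0' : ℂ × ℂ × ℂ → ℝ) (L η ρ : ℝ),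
      0 < η → η ≤ L → 0 < ρ → ρ ≤ δ / 2 → ρ ≤ 1 →
      (∀ t ∈ T, Pos N t (pt t) (lf t) (a0 t)) → (∀ t ∈ T, Pos N' t (pt t) (lf' t) (a0' t)) →
      (∀ t ∈ T, Real.exp (-L) ≤ (N.X t (pt t) (lf t) (a0 t) (1 : ℝ)).re) →
      (∀ t ∈ T, Real.exp (-L) ≤ (N'.X t (pt t) (lf' t) (a0' t) (1 : ℝ)).re) →
      (∀ t ∈ T, ∀ x ∈ Icc (Real.exp (-δ)) (Real.exp δ),
        (N.X t (pt t) (lf t) (a0 t) (x : ℝ)).re ≤ Real.exp L) →
      (∀ t ∈ T, ∀ x ∈ Icc (Real.exp (-δ)) (Real.exp δ),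
        (N'.X t (pt t) (lf' t) (a0' t) (x : ℝ)).re ≤ Real.exp L) →
      (∀ x ∈ Icc (1 : ℝ) (1 + ρ), ∀ s ∈ T, ∀ t ∈ T,
        |(N.X t (pt t) (lf t) (a0 t) (x : ℝ)).re * (N'.X s (pt s) (lf' s) (a0' s) (x : ℝ)).re -
          (N.X s (pt s) (lf s) (a0 s) (x : ℝ)).re * (N'.X t (pt t) (lf' t) (a0' t) (x : ℝ)).re| ≤
          η * ((N.X s (pt s) (lf s) (a0 s) (x : ℝ)).re *
            (N'.X t (pt t) (lf' t) (a0' t) (x : ℝ)).re)) →
      err C c L η ρ ≤ 1 →
      ∃ lam : ℂ, lam ≠ 0 ∧ ∀ t ∈ T, ‖N.Q t - lam * N'.Q t‖ ≤ 2 * err C c L η ρ * ‖N.Q t‖ :=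
  b4U hZF (isOpen_secU δ) (isSimplyConnected_secU h0 hδ) (show (0 : ℝ) < δ / 2 by positivity)
    (seg_mem_secU h0) (om_mem_secU h0) (Real.exp_pos _) (fun z hz => norm_mem_secU hz)

/-- (ZF) on a neighbourhood of the closed arc gives (ZF) on some `secU δ` -/
theorem zf_sec {V : Set ℂ} (hV : IsOpen V)
    (h : ∀ φ ∈ Icc (0 : ℝ) (2 * π / 3), Complex.exp (φ * Complex.I) ∈ V) (hZF : ZF V) :
    ∃ δ0 : ℝ, 0 < δ0 ∧ δ0 ≤ π / 3 ∧ ∀ δ : ℝ, δ ≤ δ0 → ZF (secU δ) := by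
  obtain ⟨δ0, h1, h2, h3⟩ := exists_secU hV h
  refine ⟨δ0, h1, h2, fun δ hδ => ?_⟩
  intro S N hN t ht x l0 l1 l2 lf hl a0 ha hk z hz
  exact hZF S N hN t ht x l0 l1 l2 lf hl a0 ha hk z (h3 (secU_mono hδ hz))

theorem arc_sub_U0 : ∀ φ ∈ Icc (0 : ℝ) (2 * π / 3), Complex.exp (φ * Complex.I) ∈ U0 := by
  intro φ hφ
  refine ⟨?_, ?_⟩
  · rw [mem_ofPred_eq, ← Complex.exp_add]
    have : ((φ : ℂ) * I + -(π / 3) * I : ℂ) = ((φ - π / 3 : ℝ) : ℂ) * I := by push_cast; ring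
    rw [this, Complex.exp_ofReal_mul_I_re]
    have h1 : Real.cos (π / 3) ≤ Real.cos (φ - π / 3) := by
      rw [← Real.cos_abs (φ - π / 3)]
      apply Real.cos_le_cos_of_nonneg_of_le_pi (abs_nonneg _)
      · linarith [Real.pi_pos]
      · rw [abs_le]; constructor <;> linarith [hφ.1, hφ.2]
    rw [Real.cos_pi_div_three] at h1
    linarith
  · rw [mem_ball_zero_iff, Complex.norm_exp_ofReal_mul_I]
    norm_num

end Crest.Agent.R143.SecUx927
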