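import Crest.Agent.R143.CorrD_117
import Crest.Agent.R143.Neck1_921

/-!
# Row 143 (S0194), part A free route: SEPARATION (3b) of note 3646, planar tools (helper686)

* `off_site`, `asum_site`, `asum_off` : sites off a closed chain `l`; neighbours off `l` see `l` under
  the same angle; `asum_hull_site` : sites of the hull see it under the angle `0`
* `AdjC`, `OffZ`, **`sep_cell`** : no path of cells of `cm0 hS` off `l` joins a site of nonzero index
  to the hull
* `cross_lk` : a horizontal chain meets every set which contains a vertical link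
* **`neck_low`** : white sites joined to the upper arm inside the region of the two neighbouring tiles
  are above the level `b0` and not on the lower arm, if a black chain crosses a long window
-/

set_option autoImplicit false

noncomputable section

open scoped Classical

namespace Crest.Agent.R143.Sepx686

open Crest.Agent.R143.B0x346 Crest.Agent.R143.DelGx806 Crest.Agent.R143.DelRx806
open Crest.Agent.R143.ToolWx838 Crest.Agent.R143.Blkx838 Crest.Agent.R143.ToolW2x838
open Crest.Agent.R143.ToolW3x838 Crest.Agent.R143.Gatex838 Crest.Agent.R143.Neckx921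
open Crest.Agent.R143.Frame1x395 Crest.Agent.R143.Frame2x395 Crest.Agent.R143.Frame3x395
  Crest.Agent.R143.Frame4x395 Crest.Agent.R143.Frame8x395 Crest.Agent.R143.Frame9x395
  Crest.Agent.R143.Frame10x395 Crest.Agent.R143.Frame11x395
open Crest.Agent.R143.Frame5x395 (sd mem_sd th th_spec)

variable {S : Finset ℂ} {l : List ℂ}

/-! ### sites -/

/-- a site which is not on the chain is off all its edges -/
theorem off_site (hS : GP (S : Set ℂ)) (hl : Loop S l) {s : ℂ} (hs : s ∈ S) (h : s ∉ l) :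
    Off s l := by
  intro p hp hseg
  have m := mem_of_prs hp
  rcases edge_vertex hS (hl.del p hp) hs hseg with h1 | h1
  · exact h (h1 ▸ m.1)
  · exact h (h1 ▸ m.2)

/-- neighbours off the chain see it under the same angle -/
theorem asum_site (hS : GP (S : Set ℂ)) (hl : Loop S l) {u v : ℂ} (h : DE S u v) (hu : u ∉ l)
    (hv : v ∉ l) : asum u l = asum v l := by
  by_contra hne
  obtain ⟨s, hs1, hs2⟩ := site_of_ne hS hl (q := [u, v])
    (by intro p hp; simp only [prs_cons, prs_one, List.mem_singleton] at hp; rw [hp]; exact h)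
    (by simp) (by simpa using hne)
  simp only [List.mem_cons, List.not_mem_nil, or_false] at hs2
  rcases hs2 with rfl | rfl
  · exact hu hs1
  · exact hv hs1

/-- sites joined off the chain see it under the same angle -/
theorem asum_off (hS : GP (S : Set ℂ)) (hl : Loop S l) {u v : ℂ}
    (h : Relation.ReflTransGen (fun a b => DE S a b ∧ a ∉ l ∧ b ∉ l) u v) :
    asum u l = asum v l := by
  induction h with
  | refl => rfl
  | tail _ h1 ih => exact ih.trans (asum_site hS hl h1.1 h1.2.1 h1.2.2)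

/-- a link off the chain -/
theorem asum_lk (hS : GP (S : Set ℂ)) (hl : Loop S l) {A : Set ℂ} (hA : ∀ s ∈ A, s ∉ l) {u v : ℂ}
    (h : Lk S A u v) : asum u l = asum v l :=
  asum_off hS hl (Relation.ReflTransGen.mono (fun _ _ h => ⟨h.1, hA _ h.2.1, hA _ h.2.2⟩) _ _ h.2)

/-- the sites of the hull see the chain under the angle `0` -/
theorem asum_onHull (hS : GP (S : Set ℂ)) (hl : Loop S l) (hlS : ∀ s ∈ l, s ∈ S) {v : ℂ}
    (h : OnHull S v) (hv : v ∉ l) : asum v l = 0 := by
  obtain ⟨a, h⟩ := h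
  have hav : Avoid l (a, v) :=
    ⟨fun hp => hv (mem_of_prs hp).2, fun hp => hv (mem_of_prs hp).1⟩
  have hde : DE S a v := Or.inl h.1
  have hvS : v ∈ S := by
    obtain ⟨c, hc⟩ := h.1
    exact (mem_delT.1 hc).2.1
  rw [← asum_hull hS hl hlS h hav]
  refine asum_seg hl.closed fun z hz => ?_
  obtain ⟨s, t, hs, ht, hst, rfl⟩ := hz
  rcases ht.lt_or_eq with ht | ht
  · have hs' : s = 1 - t := by linarith
    refine off_side hS hl hde hav (s := t / 2) (t := 1 - t / 2) (by linarith) (by linarith)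
      (by ring) ?_
    subst hs'
    unfold mid
    simp only [Complex.real_smul]
    push_cast
    ring
  · have e : s • v + t • mid (a, v) = v := by
      rw [← ht, show s = 1 by linarith]; simp
    rw [e]
    exact off_site hS hl hvS hv

/-! ### cells -/

/-- neighbouring cells -/
def AdjC {D C : Type} (M : CMap D C) (a b : C) : Prop :=
  ∃ d, (M.cell d = a ∧ M.cell (M.rho d) = b) ∨ (M.cell d = b ∧ M.cell (M.rho d) = a)

/-- joined by cells off `Z` -/
def OffZ {D C : Type} (M : CMap D C) (Z : Set C) : C → C → Prop :=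
  Relation.ReflTransGen fun a b => AdjC M a b ∧ a ∉ Z ∧ b ∉ Z

theorem cell_eq (hS : GP (S : Set ℂ)) (d : D0 S) :
    (cm0 hS).cell d = Quot.mk (hullE S) d.1.1 := rfl

theorem cell_rho (hS : GP (S : Set ℂ)) (d : D0 S) :
    (cm0 hS).cell ((cm0 hS).rho d) = Quot.mk (hullE S) d.1.2 := rfl

theorem de_dart (d : D0 S) : DE S d.1.1 d.1.2 := Or.inl (mem_sd.1 d.2)

theorem dart_mem (d : D0 S) : d.1.1 ∈ S ∧ d.1.2 ∈ S := by
  obtain ⟨c, hc⟩ := mem_sd.1 d.2
  exact ⟨(mem_delT.1 hc).1, (mem_delT.1 hc).2.1⟩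

/-- neighbours of an inner site -/
theorem adj_inner (hS : GP (S : Set ℂ)) {u : ℂ} (hu : ¬ OnHull S u) {b : Quot (hullE S)}
    (h : AdjC (cm0 hS) (Quot.mk _ u) b) : ∃ w, DE S u w ∧ b = Quot.mk _ w := by
  obtain ⟨d, h | h⟩ := h
  · have e : d.1.1 = u := quot_inner hS hu h.1.symm
    refine ⟨d.1.2, ?_, h.2.symm⟩
    rw [← e]; exact de_dart d
  · have e : d.1.2 = u := quot_inner hS hu h.2.symm
    refine ⟨d.1.1, ?_, h.1.symm⟩
    rw [← e]; exact (de_dart d).symm

/-- **separation**: the cells which are joined off the closed chain `l` to a site of nonzero index are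
inner sites with the same index -/
theorem sep_cell (hS : GP (S : Set ℂ)) (hl : Loop S l) (hlS : ∀ s ∈ l, s ∈ S)
    {Z : Set (Quot (hullE S))} (hZ : ∀ s ∈ l, (Quot.mk _ s : Quot (hullE S)) ∈ Z) {v : ℂ}
    (hv : ¬ OnHull S v) (h0 : asum v l ≠ 0) {c : Quot (hullE S)}
    (h : OffZ (cm0 hS) Z (Quot.mk _ v) c) :
    ∃ u, c = Quot.mk _ u ∧ ¬ OnHull S u ∧ asum u l = asum v l := by
  induction h with
  | refl => exact ⟨v, rfl, hv, rfl⟩
  | tail _ h1 ih =>
    obtain ⟨u, rfl, hu, hau⟩ := ih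
    obtain ⟨hadj, hz1, hz2⟩ := h1
    obtain ⟨w, hde, rfl⟩ := adj_inner hS hu hadj
    have hul : u ∉ l := fun h => hz1 (hZ u h)
    have hwl : w ∉ l := fun h => hz2 (hZ w h)
    have e := asum_site hS hl hde hul hwl
    refine ⟨w, rfl, fun hw => ?_, e.symm.trans hau⟩
    rw [asum_onHull hS hl hlS hw hwl, hau] at e
    exact h0 e

/-- **separation**, hull form -/
theorem sep_hull (hS : GP (S : Set ℂ)) (hl : Loop S l) (hlS : ∀ s ∈ l, s ∈ S)
    {Z : Set (Quot (hullE S))} (hZ : ∀ s ∈ l, (Quot.mk _ s : Quot (hullE S)) ∈ Z) {v w : ℂ}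
    (hv : ¬ OnHull S v) (h0 : asum v l ≠ 0) (hw : OnHull S w) :
    ¬ OffZ (cm0 hS) Z (Quot.mk _ v) (Quot.mk _ w) := by
  intro h
  obtain ⟨u, h1, h2, -⟩ := sep_cell hS hl hlS hZ hv h0 h
  have : w = u := quot_inner hS h2 h1.symm
  exact h2 (this ▸ hw)

/-! ### links and crossings -/

/-- a link is a list of sites -/
theorem lk_to_list {A : Set ℂ} {u v : ℂ} (h : Lk S A u v) :
    ∃ q : List ℂ, ∃ hq : q ≠ [], (∀ p ∈ prs q, DE S p.1 p.2) ∧ (∀ s ∈ q, s ∈ A) ∧
      q.head hq = u ∧ q.getLast hq = v := by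
  obtain ⟨⟨hu, hv⟩, h⟩ := h
  induction h with
  | refl => exact ⟨[u], by simp, by simp, by simpa using hu, rfl, rfl⟩
  | tail _ h1 ih =>
    rename_i w1 w2 _
    obtain ⟨q, hq, h2, h3, h4, h5⟩ := ih h1.2.1
    refine ⟨q ++ [w2], by simp, ?_, ?_, ?_, by simp⟩
    · rw [← isChain_iff_prs, List.isChain_append]
      refine ⟨(isChain_iff_prs (R := DE S) q).2 h2, by simp, ?_⟩
      intro x hx y hy
      rw [List.getLast?_eq_some_getLast hq] at hx
      simp only [Option.mem_def, Option.some.injEq, List.head?_cons] at hx hy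
      rw [← hx, ← hy, h5]
      exact h1.1
    · intro s hs
      rcases List.mem_append.1 hs with h | h
      · exact h3 s h
      · rw [List.mem_singleton] at h
        rw [h]; exact h1.2.2
    · rw [List.head_append_of_ne_nil hq, h4]

/-- a horizontal crossing meets a vertical link -/
theorem cross_lk (hS : GP (S : Set ℂ)) {z0 e : ℂ} (he : e ≠ 0) {x0 x1 y0 y1 : ℝ} {P : List ℂ}
    (hP : P ≠ []) (dP : ∀ p ∈ prs P, DE S p.1 p.2)
    (hPy : ∀ a ∈ P, y0 < Y z0 e a ∧ Y z0 e a < y1) (hP0 : X z0 e (P.head hP) ≤ x0)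
    (hP1 : x1 ≤ X z0 e (P.getLast hP)) {A : Set ℂ} (hA : ∀ a ∈ A, x0 < X z0 e a ∧ X z0 e a < x1)
    {u v : ℂ} (h : Lk S A u v) (hu : Y z0 e u ≤ y0) (hv : y1 ≤ Y z0 e v) : ∃ s, s ∈ P ∧ s ∈ A := by
  obtain ⟨q, hq, h2, h3, h4, h5⟩ := lk_to_list h
  obtain ⟨s, hs1, hs2⟩ := cross_e hS he hP hq dP h2 hPy (fun a ha => hA a (h3 a ha)) hP0 hP1
    (by rw [h4]; exact hu) (by rw [h5]; exact hv)
  exact ⟨s, hs1, h3 s hs2⟩

/-- **the white sites joined to the upper arm of a neck are above the level `b0` and not on the lower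
arm**, if a black chain `P` crosses the long window `x0 < X < x1` inside the strip -/
theorem neck_low (hS : GP (S : Set ℂ)) {z0 e : ℂ} (he : e ≠ 0) {a0 a1 b0 b1 m x0 x1 : ℝ}
    {V β : Finset ℂ} {up dn : List ℂ} {y : ℂ} (N : Neck S z0 e a0 a1 b0 b1 m V β up y dn)
    (h0 : x0 ≤ a0) (h1 : a1 ≤ x1) {P : List ℂ} (hP : P ≠ []) (dP : ∀ p ∈ prs P, DE S p.1 p.2)
    (cP : ∀ s ∈ P, s ∈ β) (hPy : ∀ a ∈ P, b0 < Y z0 e a ∧ Y z0 e a < b1)
    (hP0 : X z0 e (P.head hP) ≤ x0) (hP1 : x1 ≤ X z0 e (P.getLast hP)) {W : Set ℂ}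
    (hW : ∀ s ∈ W, (x0 < X z0 e s ∧ X z0 e s < x1) ∧ s ∉ β) {r : ℂ}
    (h : Lk S W (up.getLast N.nu) r) : b0 < Y z0 e r ∧ r ∉ dn := by
  have hadj := N.adj
  rw [← isChain_iff_prs, List.isChain_append] at hadj
  obtain ⟨c1, c2, -⟩ := hadj
  have hwin : ∀ s ∈ up ++ y :: dn, x0 < X z0 e s ∧ X z0 e s < x1 := fun s hs =>
    ⟨h0.trans_lt (N.win s hs).1.1, (N.win s hs).1.2.trans_le h1⟩
  have hup : ∀ s ∈ up, x0 < X z0 e s ∧ X z0 e s < x1 := fun s hs =>
    hwin s (List.mem_append_left _ hs)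
  have hdn : ∀ s ∈ dn, x0 < X z0 e s ∧ X z0 e s < x1 := fun s hs =>
    hwin s (List.mem_append_right _ (List.mem_cons_of_mem _ hs))
  -- the upper arm
  set U : Set ℂ := {s | s ∈ up ∨ s ∈ W} with hU
  have l1 : Lk S U (up.head N.nu) r := by
    refine Lk.trans (v := up.getLast N.nu) ?_ (h.mono fun s hs => Or.inr hs)
    exact lk_list ((isChain_iff_prs (R := DE S) up).1 c1) (fun s hs => Or.inl hs)
      (List.head_mem _) (List.getLast_mem _)
  constructor
  · by_contra hr
    push Not at hr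
    obtain ⟨s, hs1, hs2⟩ := cross_lk hS he hP dP hPy hP0 hP1 (A := U)
      (by
        rintro s (hs | hs)
        · exact hup s hs
        · exact (hW s hs).1) l1.symm hr N.top
    rcases hs2 with hs2 | hs2
    · exact (N.cu s hs2).2 (cP s hs1)
    · exact (hW s hs2).2 (cP s hs1)
  · intro hr
    have l2 : Lk S {s | s ∈ U ∨ s ∈ dn} (dn.getLast N.nd) (up.head N.nu) := by
      refine Lk.trans (v := r) ?_ (l1.symm.mono fun s hs => Or.inl hs)
      exact lk_list ((isChain_iff_prs (R := DE S) dn).1 c2.tail) (fun s hs => Or.inr hs)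
        (List.getLast_mem _) hr
    obtain ⟨s, hs1, hs2⟩ := cross_lk hS he hP dP hPy hP0 hP1
      (by
        rintro s ((hs | hs) | hs)
        · exact hup s hs
        · exact (hW s hs).1
        · exact hdn s hs) l2 N.bot N.top
    rcases hs2 with (hs2 | hs2) | hs2
    · exact (N.cu s hs2).2 (cP s hs1)
    · exact (hW s hs2).2 (cP s hs1)
    · exact (N.cd s hs2 (hPy s hs1).1).2 (cP s hs1)

end Crest.Agent.R143.Sepx686
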