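import Mathlib

/-!
# Row 143 (S0194), B3 (c), (d) of note 1535, abstract form (helper439)

* `sep_rec` : the separation recursion `E (k+1) ≤ G (k+1) + e0 * E k`, `G k ≤ C * G (k+1)`
  with `e0 * C ≤ 1/2` gives `E k ≤ C' * G k`.
* `sep_rec_upto` : the same on an initial segment of scales.
* `count_bad`, `count_bad'` : if every family `J` of scales is simultaneously bad with probability
  at most `e0 ^ |J|` then at least `q` of the `m` scales are bad with probability at most
  `2 ^ m * e0 ^ q`.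
* `count_good` : transfer to a measure `ν` with `ν s ≤ K * μ s`.
-/

set_option autoImplicit false

noncomputable section

namespace Crest.Agent.R143.SepCountx439

open MeasureTheory Finset

/-- separation recursion on an initial segment -/
theorem sep_rec_upto {E G : ℕ → ℝ} {e0 C A : ℝ} (n : ℕ) (he0 : 0 ≤ e0)
    (hA : 2 ≤ A) (h0 : E 0 ≤ A * G 0) (hG : ∀ k ≤ n, 0 ≤ G k)
    (h1 : ∀ k < n, E (k + 1) ≤ G (k + 1) + e0 * E k)
    (h2 : ∀ k < n, G k ≤ C * G (k + 1)) (heC : e0 * C ≤ 1 / 2) :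
    ∀ k ≤ n, E k ≤ A * G k := by
  intro k
  induction k with
  | zero => intro _; exact h0
  | succ k ih =>
    intro hk
    have ih' := ih (by omega)
    have hk' : k < n := by omega
    have a1 := h1 k hk'
    have a2 := h2 k hk'
    have g1 := hG (k + 1) hk
    have A0 : 0 ≤ A := by linarith
    have b1 : e0 * E k ≤ e0 * (A * (C * G (k + 1))) :=
      mul_le_mul_of_nonneg_left (ih'.trans (mul_le_mul_of_nonneg_left a2 A0)) he0
    have b2 : e0 * (A * (C * G (k + 1))) = (e0 * C) * (A * G (k + 1)) := by ring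
    have b3 : (e0 * C) * (A * G (k + 1)) ≤ (1 / 2) * (A * G (k + 1)) :=
      mul_le_mul_of_nonneg_right heC (mul_nonneg A0 g1)
    have b4 : G (k + 1) ≤ (1 / 2) * (A * G (k + 1)) := by nlinarith
    linarith

/-- separation recursion -/
theorem sep_rec {E G : ℕ → ℝ} {e0 C A : ℝ} (he0 : 0 ≤ e0)
    (hA : 2 ≤ A) (h0 : E 0 ≤ A * G 0) (hG : ∀ k, 0 ≤ G k)
    (h1 : ∀ k, E (k + 1) ≤ G (k + 1) + e0 * E k)
    (h2 : ∀ k, G k ≤ C * G (k + 1)) (heC : e0 * C ≤ 1 / 2) (k : ℕ) : E k ≤ A * G k :=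
  sep_rec_upto k he0 hA h0 (fun k _ => hG k) (fun k _ => h1 k) (fun k _ => h2 k) heC k le_rfl

variable {Ω : Type*} [MeasurableSpace Ω]

/-- the number of bad scales -/
def nbad {ι : Type*} [Fintype ι] (B : ι → Set Ω) (ω : Ω) : ℕ :=
  open Classical in (Finset.univ.filter (fun i => ω ∈ B i)).card

/-- counting bad scales: union bound over the families of `q` scales -/
theorem count_bad {ι : Type*} [Fintype ι] (μ : Measure Ω) (B : ι → Set Ω) (e0 : ENNReal)
    (h : ∀ J : Finset ι, μ (⋂ i ∈ J, B i) ≤ e0 ^ J.card) (q : ℕ) :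
    μ {ω | q ≤ nbad B ω} ≤ ((Fintype.card ι).choose q : ENNReal) * e0 ^ q := by
  classical
  have hsub : {ω | q ≤ nbad B ω} ⊆
      ⋃ J ∈ (Finset.univ : Finset ι).powersetCard q, ⋂ i ∈ J, B i := by
    intro ω hω
    simp only [Set.mem_ofPred_eq, nbad] at hω
    obtain ⟨J, hJ1, hJ2⟩ := Finset.exists_subset_card_eq hω
    simp only [Set.mem_iUnion, Set.mem_iInter]
    refine ⟨J, ?_, fun i hi => ?_⟩
    · rw [Finset.mem_powersetCard]
      exact ⟨Finset.subset_univ _, hJ2⟩
    · have := hJ1 hi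
      rw [Finset.mem_filter] at this
      exact this.2
  calc μ {ω | q ≤ nbad B ω}
      ≤ μ (⋃ J ∈ (Finset.univ : Finset ι).powersetCard q, ⋂ i ∈ J, B i) := measure_mono hsub
    _ ≤ ∑ J ∈ (Finset.univ : Finset ι).powersetCard q, μ (⋂ i ∈ J, B i) :=
        measure_biUnion_finset_le _ _
    _ ≤ ∑ J ∈ (Finset.univ : Finset ι).powersetCard q, e0 ^ q := by
        apply Finset.sum_le_sum
        intro J hJ
        rw [Finset.mem_powersetCard] at hJ
        rw [← hJ.2]
        exact h J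
    _ = ((Fintype.card ι).choose q : ENNReal) * e0 ^ q := by
        rw [Finset.sum_const, Finset.card_powersetCard, Finset.card_univ, nsmul_eq_mul]

theorem count_bad' {ι : Type*} [Fintype ι] (μ : Measure Ω) (B : ι → Set Ω) (e0 : ENNReal)
    (h : ∀ J : Finset ι, μ (⋂ i ∈ J, B i) ≤ e0 ^ J.card) (q : ℕ) :
    μ {ω | q ≤ nbad B ω} ≤ 2 ^ (Fintype.card ι) * e0 ^ q := by
  refine (count_bad μ B e0 h q).trans (mul_le_mul_left ?_ _)
  have : (Fintype.card ι).choose q ≤ 2 ^ Fintype.card ι := Nat.choose_le_two_pow _ _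
  exact_mod_cast this

/-- transfer to a conditioned law: `ν` has density at most `K` with respect to `μ` -/
theorem count_good {ι : Type*} [Fintype ι] (μ ν : Measure Ω) (K : ENNReal)
    (hν : ∀ s : Set Ω, ν s ≤ K * μ s) (B : ι → Set Ω) (e0 : ENNReal)
    (h : ∀ J : Finset ι, μ (⋂ i ∈ J, B i) ≤ e0 ^ J.card) (q : ℕ) :
    ν {ω | q ≤ nbad B ω} ≤ K * (2 ^ (Fintype.card ι) * e0 ^ q) :=
  (hν _).trans (mul_le_mul_right (count_bad' μ B e0 h q) _)

/-- product bound for intersections from conditional bounds along a filtration of scales: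
`μ (J ∪ {k}) ≤ e0 * μ J` whenever `k` is above all elements of `J`. -/
theorem inter_bound {m : ℕ} (μ : Measure Ω) (hμ : μ Set.univ ≤ 1) (B : Fin m → Set Ω)
    (e0 : ENNReal)
    (h : ∀ (J : Finset (Fin m)) (k : Fin m), (∀ j ∈ J, j < k) →
      μ (B k ∩ ⋂ i ∈ J, B i) ≤ e0 * μ (⋂ i ∈ J, B i)) (J : Finset (Fin m)) :
    μ (⋂ i ∈ J, B i) ≤ e0 ^ J.card := by
  induction J using Finset.induction_on_max with
  | empty => simpa using hμ
  | insert a s hmax ih =>
    have hnot : a ∉ s := fun ha => lt_irrefl _ (hmax a ha)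
    rw [Finset.card_insert_of_notMem hnot, pow_succ, mul_comm]
    have : (⋂ i ∈ insert a s, B i) = B a ∩ ⋂ i ∈ s, B i := by
      rw [Finset.set_biInter_insert]
    rw [this]
    exact (h s a hmax).trans (mul_le_mul_right ih _)

end Crest.Agent.R143.SepCountx439
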