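import Crest.Agent.R143.OkH_697
import Crest.Agent.R143.OutV_336
import Crest.Agent.R143.CurL_496
import Crest.Agent.R143.EnC_927
import Crest.Agent.R143.WndG_416
import Crest.Agent.R143.SepU_697

/-!
# Row 143 (S0194), RIG, LOCX: the two separators of a window (helper697)

* `SepD H R q T g a b` : at the gate `g` there is a vertical chain (776's `VCh`) all of whose sites
  are in the classes `Cl` (with respect to the tiles `a .. b`), and the sites of the low window of the
  gate are not in `Ext Z`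
* `sep_out`, `sep_cls` : out gates and closing gates; `SepD.shift` : period
* **`sepGates`** : the two separators of 416's window, `CorEnv` + `LayU` + `CorH` + strand
* **`vfvk`** : the closed curtain of 496 and 776's `Ok` for all its sites
-/

set_option autoImplicit false
set_option linter.unusedSectionVars false

noncomputable section

open scoped Classical

namespace Crest.Agent.R143.SepKx697

open Crest.ProbabilityR.Voronoi
open Crest.Agent.R143.B0x346 Crest.Agent.R143.DelGx806 Crest.Agent.R143.DelRx806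
  Crest.Agent.R143.JColx54
open Crest.Agent.R143.ToolWx838 Crest.Agent.R143.Blkx838
open Crest.Agent.R143.ToolW3x838
open Crest.Agent.R143.Frame1x395 Crest.Agent.R143.Frame2x395 Crest.Agent.R143.Frame3x395
  Crest.Agent.R143.Frame4x395 Crest.Agent.R143.Frame8x395 Crest.Agent.R143.Frame9x395
  Crest.Agent.R143.Frame10x395 Crest.Agent.R143.Frame11x395
open Crest.Agent.R143.Splx117 Crest.Agent.R143.WLocx713 Crest.Agent.R143.RingDx117
  Crest.Agent.R143.CorrDx117
open Crest.Agent.R143.Neckx921 (Neck NeckD Tile Lk)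
open Crest.Agent.R143.TileRx228 Crest.Agent.R143.DCorGx713
open Crest.Agent.R143.PP0x831
open Crest.Agent.R143.Sepx686 Crest.Agent.R143.SepLx686
open Crest.Agent.R143.CorHx713 Crest.Agent.R143.SepHx697
open Crest.Agent.R143.Extx358 (Ad Ext Bd)
open Crest.Agent.R143.RcTx422
open Crest.Agent.R143.FinCx811 (rc0 Cs rcol cs)
open Crest.Agent.R143.OutSx358 (zc ac)
open Crest.Agent.R143.LocDx776 (Ok Cur)
open Crest.Agent.R143.LocTx776 (Wn Off VCh En Strg)
open Crest.Agent.R143.CurOx66 (BlkS)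
open Crest.Agent.R143.SepWx686 Crest.Agent.R143.SepWHx686 Crest.Agent.R143.SepVx686
open Crest.Agent.R143.SepXx686 (sgeo_at)
open Crest.Agent.R143.RegEx523 (Kin)
open Crest.Agent.R143.PolyUx346 Crest.Agent.R143.Layx416 Crest.Agent.R143.LayUx416
open Crest.Agent.R143.RegSx523 (K0)
open Crest.Agent.R143.SepUx697 Crest.Agent.R143.OkHx697
open Crest.Agent.R143.CorEx133
open Crest.Agent.R143.Brkx478 (Bk cells)
open Crest.Agent.R143.OutCx571 (Far)
open Crest.Agent.R143.Tenx416 (Pg)
open Crest.Agent.R143.WndGx416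
open Crest.Agent.R143.CurHx496 (Sg sg_strg)
open Crest.Agent.R143.CurGx496 (Ci Co)

variable {X : Set (ℂ × Bool)} {U Kk : Set ℂ} {M n k0 k1 : ℕ} {W : ℤ → ℤ × ℤ} {η d : ℝ} {o : ℤ}
  {H : CorH X U M W η d o n} {Rs : Set (D0 (sX X))} {q : D0 (sX X)} {N : ℕ} {T : ℕ → ℕ}
  {R : Set (Cs H.gp)}

/-- **the data of a separator gate `g`** of the window `a .. b` -/
structure SepD (H : CorH X U M W η d o n) (R : Set (Cs H.gp)) (q : D0 (sX X)) (T : ℕ → ℕ)
    (g a b : ℤ) : Prop where
  ch : ∃ (VV : Set ℂ) (s t : ℂ), VCh (sX X) η W g VV s t ∧ ∀ v ∈ VV, Cl H R q T a b v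
  low : ∀ v, v ∈ Wn η W g (2 * η) (-(10 * η)) (-(9 * η)) → NE H R q T v

/-- the windows are periodic -/
theorem wn_per (P : FPath M W) (g : ℤ) (x y0 y1 : ℝ) : Wn η W (g + M) x y0 y1 = Wn η W g x y0 y1 := by
  unfold Wn
  rw [DCorFx713.gz_per P, DCorFx713.ge_per P]

theorem vch_per (P : FPath M W) {S : Finset ℂ} {g : ℤ} {VV : Set ℂ} {s t : ℂ}
    (h : VCh S η W (g + M) VV s t) : VCh S η W g VV s t where
  lk := h.lk
  sub := h.sub
  win v hv := by
    have := h.win v hv
    rwa [DCorFx713.gz_per P, DCorFx713.ge_per P] at this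
  rr v hv := by
    have := h.rr v hv
    rw [show g + M - 1 = g - 1 + M by ring, RR_per P, RR_per P] at this
    exact this
  s1 := by
    have := h.s1
    rwa [wn_per P] at this
  t1 := by
    have := h.t1
    rwa [wn_per P] at this

/-- **period** -/
theorem SepD.shift {g a b : ℤ} (h : SepD H R q T (g + M) a b) : SepD H R q T g a b where
  ch := by
    obtain ⟨VV, s, t, h1, h2⟩ := h.ch
    exact ⟨VV, s, t, vch_per H.path h1, h2⟩
  low v hv := h.low v (by rwa [wn_per H.path])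

section gates

variable (St : StH H Rs q N T) (G : Geo (sX X) M n k0 k1 W η o Kk)
  (hf : ∀ k : ℕ, k < n → FA (cm0 H.gp) (xc H.gp H.hull)
    (RD (sX X) (RR (19 / 2 * η) (103 / 2 * η) (100 * η) W (o + k))) (H.p (k + 1)) (H.p k))
  (hR : ∀ s ∈ sX X, s ∈ BR η W M o n → ∃ c ∈ R, c.1 = Quot.mk (hullE (sX X)) s)

include St G hf hR

/-- **out gates** -/
theorem sep_out (hR1 : ∀ c ∈ R, ∃ s ∈ sX X, s ∈ BR η W M o n ∧ c.1 = Quot.mk (hullE (sX X)) s)
    {k : ℕ} (h3 : 3 ≤ k) (hk : k + 3 ≤ n)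
    (st : ∀ a : ℤ, o + k - 2 ≤ a → a ≤ o + k + 1 → ge W (a + 1) = ge W a)
    (foot : Idxx927.wl (gz (100 * η) W (o + k)) (ge W (o + k)) (-(10 * η)) ∈ Kk)
    {a b : ℤ} (hfar : FarG M (o + k) a b)
    (ux : ∀ v ∈ sX X, v ∈ Wn η W (o + k) (2 * η) (19 / 2 * η) (11 * η) → HL X η W v) :
    SepD H R q T (o + k) a b := by
  have h0 := H.e0
  have G' : Geo (sX X) M n k k1 W η o Kk := sgeo_at G h3 hk st (by
    rw [show 9 * η + η = 10 * η by ring]; exact foot)
  obtain ⟨up, dn, Nk⟩ := nkg H k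
  obtain ⟨VV, hV, hc⟩ := OutVx336.vco St G' hf hR1 Nk
  have ht : HL X η W (up.head Nk.neck.nu) :=
    ux _ (hV.sub _ hV.lk.1.2) ⟨hV.t1.1.trans (by linarith), by linarith [hV.t1.2.1], hV.t1.2.2⟩
  exact ⟨⟨VV, _, _, hV, fun v hv =>
    cl_out St G hf hR h3 hk st foot Nk.neck Nk.upz hfar ht (hc v hv)⟩,
    fun v hv => low_out St G hf hR h3 hk st foot hv⟩

/-- **closing gates** -/
theorem sep_cls {k : ℕ} (K : CGH M n W η o Kk k) {a b : ℤ}
    (ux : ∀ v ∈ sX X, v ∈ Wn η W (o + k) (2 * η) (19 / 2 * η) (11 * η) → HL X η W v) :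
    SepD H R q T (o + k) a b := by
  have h0 := H.e0
  obtain ⟨cw, C⟩ := chainW St G hf (c := 2 * η) (by linarith) (by linarith)
  obtain ⟨VV, s, t, hV, hc⟩ := vch_white C St hR K
  exact ⟨⟨VV, s, t, hV, fun v hv => cl_white ux (hV.sub v hv) (hc v hv)⟩,
    fun v hv => low_white C le_rfl St hR K hv⟩

end gates

/-! ### on the objects of the environment -/

section env

variable {u : Poly} {mm : ℕ} {p : ℤ → ℤ × ℤ} {aa e : ℤ → ℤ} {i : ZMod 3} {ε K1 c2 ρ0 : ℝ}
  {ω : Sample} {H : CorH X U M W η d (al aa e i) (nn aa e i)} {R : Set (Cs H.gp)}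

/-- the upper windows are linked to the hull -/
theorem uxU (C : CorEnv u ε d K1 c2 ρ0 ω) (L : LayU u mm M p W aa e)
    (hh : (mm : ℝ) * (100 * η) = u.s) (hd : 100 * d ≤ η) (hX : sX X = SU u ε ω) {g : ℤ}
    (hg : Strg aa g) : ∀ v ∈ sX X, v ∈ Wn η W g (2 * η) (19 / 2 * η) (11 * η) → HL X η W v := by
  intro v hv hw
  obtain ⟨w0, h1, h2, h3⟩ := EnCx927.w0_S C L hh hd hX
  exact hl_of h2 (CurVx66.up_ext (EnCx927.en_S C L hh hd hX) hg hv h1 h3 hw)

theorem strg_per (L : LayU u mm M p W aa e) {g : ℤ} (h : ∃ k, aa k + 5 ≤ g ∧ g + 5 ≤ aa (k + 1)) :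
    Strg aa g := by
  obtain ⟨k, h1, h2⟩ := h
  exact ⟨k, by omega, by omega⟩

/-- **THE TWO SEPARATORS OF A WINDOW** -/
theorem sepGates (C : CorEnv u ε d K1 c2 ρ0 ω) (L : LayU u mm M p W aa e)
    (hh : (mm : ℝ) * (100 * η) = u.s) (hX : sX X = SU u ε ω) (St : StH H Rs q N T)
    (hR : ∀ s ∈ sX X, s ∈ BR η W M (al aa e i) (nn aa e i) →
      ∃ c ∈ R, c.1 = Quot.mk (hullE (sX X)) s)
    (hR1 : ∀ c ∈ R, ∃ s ∈ sX X, s ∈ BR η W M (al aa e i) (nn aa e i) ∧
      c.1 = Quot.mk (hullE (sX X)) s) {l a b : ℤ} (l0 : 0 ≤ l) (ln : l < nn aa e i)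
    (w : WdA aa W (al aa e i) (nn aa e i) M l a b) :
    SepD H R q T (al aa e i + (a - 2)) (al aa e i + a) (al aa e i + b) ∧
      SepD H R q T (al aa e i + (b + 3)) (al aa e i + a) (al aa e i + b) := by
  have h0 := H.e0
  have P := H.path
  have hroom := w.room
  have hnM := w.nM
  obtain ⟨k1, G⟩ := geoU L hh H
  rw [show 9 * η + η = 10 * η by ring] at G
  have hf := (backU L H).1
  have foot : ∀ g : ℤ, Idxx927.wl (gz (100 * η) W g) (ge W g) (-(10 * η)) ∈
      K0 (100 * η) (10 * η) u := fun g =>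
    RegSx523.K0_bot L hh (by linarith) (by linarith) g
  have ux : ∀ g : ℤ, Strg aa g → ∀ v ∈ sX X, v ∈ Wn η W g (2 * η) (19 / 2 * η) (11 * η) →
      HL X η W v := fun g hg => uxU C L hh H.de hX hg
  have sL : Strg aa (al aa e i + (a - 2)) := strg_per L w.gl
  have sR : Strg aa (al aa e i + (b + 3)) := strg_per L w.gr
  constructor
  · rcases w.cl with h | ⟨ha, -, hst⟩
    · obtain ⟨k, e1, e2, e3, -, st⟩ := w.toWd.gateL ln h
      have e4 : al aa e i + (a - 2) = al aa e i + (k : ℤ) := by rw [e1]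
      rw [e4]
      exact sep_out St G hf hR hR1 (by omega) (by omega) st (foot _)
        (Or.inr ⟨by omega, by omega⟩) (ux _ (e4 ▸ sL))
    · refine SepD.shift ?_
      have e4 : al aa e i + (a - 2) + M = al aa e i + ((M - 4 : ℕ) : ℤ) := by omega
      rw [e4]
      refine sep_cls St G hf hR (k := M - 4) ⟨by omega, by omega, ?_, ?_, ?_⟩ ?_
      · have g1 := hst (-5) (by omega) (by omega)
        have g2 : al aa e i + ((M - 4 : ℕ) : ℤ) = al aa e i + -5 + 1 + M := by omega
        have g3 : al aa e i + ((M - 4 : ℕ) : ℤ) - 1 = al aa e i + -5 + M := by omega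
        rw [g3, g2, DCorFx713.ge_per P, DCorFx713.ge_per P, g1]
      · have g1 := hst (-4) (by omega) (by omega)
        have g2 : al aa e i + ((M - 4 : ℕ) : ℤ) + 1 = al aa e i + -4 + 1 + M := by omega
        have g3 : al aa e i + ((M - 4 : ℕ) : ℤ) = al aa e i + -4 + M := by omega
        rw [g2, g3, DCorFx713.ge_per P, DCorFx713.ge_per P, g1]
      · rw [show 9 * η + η = 10 * η by ring]
        exact foot _
      · intro v hv hw
        rw [← e4, wn_per P] at hw
        exact ux _ sL v hv hw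
  · rcases w.cr with h | ⟨hb, -, hst⟩
    · obtain ⟨k, e1, e2, e3, -, st⟩ := w.toWd.gateR l0 h
      have e4 : al aa e i + (b + 3) = al aa e i + (k : ℤ) := by rw [e1]
      rw [e4]
      exact sep_out St G hf hR hR1 (by omega) (by omega) st (foot _)
        (Or.inl ⟨by omega, by omega⟩) (ux _ (e4 ▸ sR))
    · have e4 : al aa e i + (b + 3) = al aa e i + ((nn aa e i + 4 : ℕ) : ℤ) := by
        rw [hb]; push_cast; ring
      rw [e4]
      refine sep_cls St G hf hR (k := nn aa e i + 4) ⟨by omega, by omega, ?_, ?_, ?_⟩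
        (ux _ (e4 ▸ sR))
      · have g1 := hst (nn aa e i + 3) (by omega) (by omega)
        have g2 : al aa e i + ((nn aa e i + 4 : ℕ) : ℤ) = al aa e i + (nn aa e i + 3) + 1 := by
          push_cast; ring
        rw [g2, add_sub_cancel_right]
        exact g1
      · have g1 := hst (nn aa e i + 4) (by omega) (by omega)
        have g2 : al aa e i + ((nn aa e i + 4 : ℕ) : ℤ) = al aa e i + (nn aa e i + 4) := by
          push_cast; ring
        rw [g2]
        exact g1
      · rw [show 9 * η + η = 10 * η by ring]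
        exact foot _

end env

end Crest.Agent.R143.SepKx697
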