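import Crest.Agent.R143.Ext_358
import Crest.Agent.R143.Frame11_395

/-!
# Row 143 (S0194), RIG box R4: `Sep` from noncrossing (helper763)

No geometry: everything on a closed map `M : CMap D C`.

* `right_cross`, `left_cross` : a loop does not see on its right (left) the connected disjoint sets
  `X, Y, X, Y` in this order (592's `noncross` in the coarse map in which `X` and `Y` are one cell)
* `no_touch` : arc `0 .. n` of a loop of `cfg M σ` (left cells black), `E` a connected set off the
  arc, `X` a connected set of white cells off `E` with the first and the last right cell of the arc,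
  a right cell `Rc (P m) ∉ X` next to `E` : no left cell of the arc is next to `E`
* `sep_nc` : the planar input `Extx358.Sep` of the revealed set
* `not_ext` : a cell joined to a left cell of the arc by cells off `Z` is not in `Ext`
-/

set_option autoImplicit false

noncomputable section

open scoped Classical

namespace Crest.Agent.R143.SepNcx763

open Crest.Agent.R143.Frame1x395 Crest.Agent.R143.Frame2x395 Crest.Agent.R143.Frame3x395
  Crest.Agent.R143.Frame4x395 Crest.Agent.R143.Frame8x395 Crest.Agent.R143.Frame9x395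
  Crest.Agent.R143.NonXx592 Crest.Agent.R143.Coarsex166 Crest.Agent.R143.CFramex358
  Crest.Agent.R143.Gntx535 Crest.Agent.R143.R5bx166 Crest.Agent.R143.Extx358
open Crest.Agent.R143.Frame11x395 (same_loop)

variable {D C : Type} {M : CMap D C} {x : D → ZMod 2}

/-- the configuration lives on the coarse map of two connected sets -/
theorem isC_two (h : IsC M ∅ x) {X Y : Set C} (hX1 : ∀ d ∈ M.live, M.cell d ∈ X →
    M.cell (M.rho d) ∈ X → x d = 0) (hY1 : ∀ d ∈ M.live, M.cell d ∈ Y →
    M.cell (M.rho d) ∈ Y → x d = 0) (hπ : ClsCon M (gm X Y (∅ : Set C))) :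
    IsC (coarse M (gm X Y (∅ : Set C)) hπ) ∅ x := by
  obtain ⟨χ, hχ⟩ := M.ex x h.dead h.iot (fun d => by rw [h.par d, if_neg (Set.notMem_empty d)])
  refine isC_coarse.2 ⟨h, fun d hd e => ?_⟩
  rcases gm_eq e with e | ⟨h1, h2⟩ | ⟨h1, h2⟩ | ⟨h1, -⟩
  · rw [hχ d, e, z_self]
  · exact hX1 d hd h1 h2
  · exact hY1 d hd h1 h2
  · exact absurd h1 (Set.notMem_empty _)

theorem con_empty : CCon M (∅ : Set C) := fun c hc => absurd hc (Set.notMem_empty c)

theorem two_con {X Y : Set C} (hX : CCon M X) (hY : CCon M Y) (hd : Disjoint X Y) :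
    ClsCon M (gm X Y (∅ : Set C)) :=
  gm_con hd (Set.disjoint_empty _) (Set.disjoint_empty _) hX hY con_empty

/-- **a loop does not see on its left the connected disjoint sets `X, Y, X, Y`** -/
theorem left_cross [Finite D] (h : IsC M ∅ x) {p : D} (hp : x p = 1) {X Y : Set C}
    (hX : CCon M X) (hY : CCon M Y) (hd : Disjoint X Y)
    (hX1 : ∀ d ∈ M.live, M.cell d ∈ X → M.cell (M.rho d) ∈ X → x d = 0)
    (hY1 : ∀ d ∈ M.live, M.cell d ∈ Y → M.cell (M.rho d) ∈ Y → x d = 0)
    {a b c e : ℕ} (hab : a < b) (hbc : b < c) (hce : c < e)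
    (hinj : ∀ i j, a ≤ i → i < j → j ≤ e → P M x p i ≠ P M x p j)
    (ha : M.cell (P M x p a) ∈ X) (hb : M.cell (P M x p b) ∈ Y)
    (hc : M.cell (P M x p c) ∈ X) (he : M.cell (P M x p e) ∈ Y) : False := by
  have hπ := two_con hX hY hd
  have hC := isC_two h hX1 hY1 hπ
  have hp' : x (P M x p a) = 1 := P_occ h hp a
  have key := noncross hC hp' (k := b - a) (j := c - a) (l := e - a) (by omega) (by omega)
    (by omega) (fun i j hij hj => by
      rw [P_coarse, P_coarse, ← P_add, ← P_add]
      exact hinj _ _ (by omega) (by omega) (by omega))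
    (by
      rw [P_coarse, cell_coarse, cell_coarse, ← P_add, show c - a + a = c by omega,
        gm_A hc, gm_A ha])
    (by
      rw [P_coarse, P_coarse, cell_coarse, cell_coarse, ← P_add, ← P_add,
        show b - a + a = b by omega, show e - a + a = e by omega, gm_B hd hb, gm_B hd he])
  rw [P_coarse, cell_coarse, cell_coarse, ← P_add, show b - a + a = b by omega, gm_B hd hb,
    gm_A ha] at key
  exact absurd (Sum.inr.inj key) (by decide)

/-- **a loop does not see on its right the connected disjoint sets `X, Y, X, Y`** -/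
theorem right_cross [Finite D] (h : IsC M ∅ x) {p : D} (hp : x p = 1) {X Y : Set C}
    (hX : CCon M X) (hY : CCon M Y) (hd : Disjoint X Y)
    (hX1 : ∀ d ∈ M.live, M.cell d ∈ X → M.cell (M.rho d) ∈ X → x d = 0)
    (hY1 : ∀ d ∈ M.live, M.cell d ∈ Y → M.cell (M.rho d) ∈ Y → x d = 0)
    {a b c e : ℕ} (hab : a < b) (hbc : b < c) (hce : c < e)
    (hinj : ∀ i j, a ≤ i → i < j → j ≤ e → P M x p i ≠ P M x p j)
    (ha : Rc M (P M x p a) ∈ X) (hb : Rc M (P M x p b) ∈ Y)
    (hc : Rc M (P M x p c) ∈ X) (he : Rc M (P M x p e) ∈ Y) : False := by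
  have hq : x (M.iota (P M x p e)) = 1 := by rw [h.iot]; exact P_occ h hp e
  have hr : ∀ u, u ≤ e → M.cell (P M x (M.iota (P M x p e)) (e - u)) = Rc M (P M x p u) := by
    intro u hu
    rw [P_rev h hp (by omega), show e - (e - u) = u by omega]
    exact cell_iota' h (P_occ h hp u)
  refine left_cross h hq hY hX hd.symm hY1 hX1 (a := 0) (b := e - c) (c := e - b) (e := e - a)
    (by omega) (by omega) (by omega) (fun i j _ hij hj => ?_) ?_ ?_ ?_ ?_
  · rw [P_rev h hp (by omega), P_rev h hp (by omega)]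
    intro e1
    exact hinj (e - j) (e - i) (by omega) (by omega) (by omega) (iota_inj M e1).symm
  · rw [show (0 : ℕ) = e - e by omega, hr e le_rfl]
    exact he
  · rw [hr c (by omega)]
    exact hc
  · rw [hr b (by omega)]
    exact hb
  · rw [hr a (by omega)]
    exact ha

/-! ### no left cell of the arc touches `E` -/

theorem con_of_nb {A : Set C} (hA : ∀ d ∈ M.live, M.cell d ∈ A → M.cell (M.rho d) ∈ A → x d = 0)
    {c c' : C} (H : Relation.EqvGen (Nb M A) c c') : Frame11x395.Con M x c c' := by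
  induction H with
  | rel c c' h =>
    obtain ⟨h1, h2, d, hd, rfl, rfl⟩ := h
    exact Relation.EqvGen.rel _ _ ⟨d, hA d hd h1 h2, rfl, rfl⟩
  | refl c => exact Relation.EqvGen.refl _
  | symm c c' _ ih => exact Relation.EqvGen.symm _ _ ih
  | trans c c' c'' _ _ ih1 ih2 => exact Relation.EqvGen.trans _ _ _ ih1 ih2

variable [Fintype D] {σ : C → ZMod 2} {p : D} {n m : ℕ} {E X : Set C}

/-- **no left cell of the arc `0 .. n` touches `E`** -/
theorem no_touch (h1 : σ (M.cell p) = 1) (hp : cfg M σ p = 1) (hE : CCon M E)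
    (hEl : ∀ c ∈ E, c ∉ wl M (cfg M σ) p n) (hEr : ∀ c ∈ E, c ∉ wr M (cfg M σ) p n)
    (hX : CCon M X) (hXw : ∀ c ∈ X, σ c = 0) (hEX : ∀ c ∈ E, c ∉ X)
    (h0 : Rc M p ∈ X) (hn : Rc M (P M (cfg M σ) p n) ∈ X) (hm : m ≤ n)
    (hmX : Rc M (P M (cfg M σ) p m) ∉ X) (hl : ∃ e ∈ E, Ad M e (Rc M (P M (cfg M σ) p m)))
    {a e : C} (ha : a ∈ wl M (cfg M σ) p n) (he : e ∈ E) (hea : Ad M e a) : False := by
  have hl0 : ∀ c ∈ wl M (cfg M σ) p n, σ c = 1 := fun c hc => by rw [wl_col hp hc, h1]
  have hr0 : ∀ c ∈ wr M (cfg M σ) p n, σ c = 0 := fun c hc => by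
    rw [wr_col hp hc, h1]
    decide
  -- the colouring
  set W : Set C := E ∪ X ∪ {c | c ∈ wr M (cfg M σ) p n} with hW
  set χ : C → ZMod 2 := fun c => if c ∈ W then 0 else 1 with hχ
  have χ0 : ∀ c, c ∈ W → χ c = 0 := fun c hc => if_pos hc
  have χ1 : ∀ c, c ∉ W → χ c = 1 := fun c hc => if_neg hc
  have hlW : ∀ c ∈ wl M (cfg M σ) p n, c ∉ W := by
    rintro c hc ((h | h) | h)
    · exact hEl c h hc
    · have := hl0 c hc
      rw [hXw c h] at this
      exact absurd this (by decide)
    · have := hl0 c hc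
      rw [hr0 c h] at this
      exact absurd this (by decide)
  have hag : ∀ c ∈ wl M (cfg M σ) p n ∪ wr M (cfg M σ) p n, χ c = σ c := by
    intro c hc
    rcases Finset.mem_union.1 hc with h | h
    · rw [hl0 c h, χ1 c (hlW c h)]
    · rw [hr0 c h, χ0 c (Or.inr h)]
  obtain ⟨gp, gP⟩ := walk_agree hp hag
  set y : D → ZMod 2 := cfg M χ with hy
  have hyC : IsC M ∅ y := cfg_isC χ
  have hWy : ∀ d ∈ M.live, M.cell d ∈ W → M.cell (M.rho d) ∈ W → y d = 0 := by
    intro d _ g1 g2
    show χ (M.cell d) + χ (M.cell (M.rho d)) = 0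
    rw [χ0 _ g1, χ0 _ g2]
    decide
  -- the dart from `a` to `e`
  obtain ⟨d, hd, d1, d2⟩ := hea.symm
  have hq : y d = 1 := by
    show χ (M.cell d) + χ (M.cell (M.rho d)) = 1
    rw [d1, d2, χ1 a (hlW a ha), χ0 e (Or.inl (Or.inl he))]
    decide
  -- the same loop
  have hcl : Frame11x395.Con M y (M.cell p) (M.cell d) := by
    have g0 : M.cell p ∈ wl M (cfg M σ) p n := mem_wl.2 ⟨0, Nat.zero_le _, rfl⟩
    have g1 := wl_con (cfg_isC σ) hp g0 ha
    rw [d1]
    have key : ∀ c c', Relation.EqvGen (AdjS M (wl M (cfg M σ) p n)) c c' → Frame11x395.Con M y c c' := by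
      intro c c' H
      induction H with
      | rel c c' h =>
        obtain ⟨g2, g3, d', _, e1, e2⟩ := h
        refine Relation.EqvGen.rel _ _ ⟨d', ?_, e1, e2⟩
        show χ (M.cell d') + χ (M.cell (M.rho d')) = 0
        rw [e1, e2, χ1 _ (hlW _ g2), χ1 _ (hlW _ g3)]
        decide
      | refl c => exact Relation.EqvGen.refl _
      | symm c c' _ ih => exact Relation.EqvGen.symm _ _ ih
      | trans c c' c'' _ _ ih1 ih2 => exact Relation.EqvGen.trans _ _ _ ih1 ih2
    exact key _ _ g1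
  have hRW : ∀ c, c ∈ wr M (cfg M σ) p n → c ∈ W := fun c h => Or.inr h
  have hwm : Rc M (P M (cfg M σ) p m) ∈ wr M (cfg M σ) p n := mem_wr.2 ⟨m, hm, rfl⟩
  obtain ⟨e₀, he₀, d', hd', f1, f2⟩ := hl
  have hcr : Frame11x395.Con M y (M.cell (M.rho p)) (M.cell (M.rho d)) := by
    have g0 : Rc M p ∈ wr M (cfg M σ) p n := mem_wr.2 ⟨0, Nat.zero_le _, rfl⟩
    have g1 : Relation.EqvGen (Nb M W) (Rc M p) (Rc M (P M (cfg M σ) p m)) :=
      nb_mono (fun c h => hRW c (Finset.mem_coe.1 h))
        (wr_ccon (cfg_isC σ) hp _ (Finset.mem_coe.2 g0) _ (Finset.mem_coe.2 hwm))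
    have g2 : Relation.EqvGen (Nb M W) (Rc M (P M (cfg M σ) p m)) e₀ :=
      Relation.EqvGen.symm _ _ (Relation.EqvGen.rel _ _
        ⟨Or.inl (Or.inl he₀), hRW _ hwm, d', hd', f1, f2⟩)
    have g3 : Relation.EqvGen (Nb M W) e₀ e :=
      nb_mono (fun c h => Or.inl (Or.inl h)) (hE e₀ he₀ e he)
    rw [d2]
    exact con_of_nb hWy ((g1.trans _ _ _ g2).trans _ _ _ g3)
  have hex := same_loop hyC gp hq hcl hcr
  -- the first time
  set t := Nat.find hex with ht
  have htq : P M y p t = d := Nat.find_spec hex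
  have htm : ∀ s, s < t → P M y p s ≠ d := fun s hs h => Nat.find_min hex hs h
  have hinj : ∀ i j, i < j → j ≤ t → P M y p i ≠ P M y p j := by
    intro i j hij hj h
    apply htm (i + (t - j)) (by omega)
    have h2 : P M y p (t - j + i) = P M y p (t - j + j) := by
      rw [P_add, P_add, h]
    rw [show i + (t - j) = t - j + i by omega, h2, show t - j + j = t by omega]
    exact htq
  -- the time is after `n`
  have hnt : n < t := by
    by_contra hc
    have g1 : Rc M (P M (cfg M σ) p t) = e := by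
      rw [← gP t (by omega), htq]
      exact d2
    exact hEr e he (mem_wr.2 ⟨t, by omega, g1⟩)
  have hm0 : 0 < m := by
    rcases Nat.eq_zero_or_pos m with h | h
    · rw [h] at hmX
      exact absurd h0 hmX
    · exact h
  have hmn : m < n := by
    rcases Nat.lt_or_ge m n with h | h
    · exact h
    · have : m = n := le_antisymm hm h
      rw [this] at hmX
      exact absurd hn hmX
  -- `Y`
  set r : C := Rc M (P M (cfg M σ) p m) with hr
  have hY : CCon M (E ∪ {r}) := by
    have key : ∀ c ∈ E ∪ {r}, Relation.EqvGen (Nb M (E ∪ {r})) e₀ c := by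
      rintro c (h | h)
      · exact nb_mono Set.subset_union_left (hE e₀ he₀ c h)
      · rw [Set.mem_singleton_iff] at h
        subst h
        exact Relation.EqvGen.rel _ _ ⟨Or.inl he₀, Or.inr rfl, d', hd', f1, f2⟩
    exact fun c hc c' hc' => ((key c hc).symm _ _).trans _ _ _ (key c' hc')
  have hdis : Disjoint X (E ∪ {r}) := by
    rw [Set.disjoint_left]
    rintro c hc (h | h)
    · exact hEX c h hc
    · rw [Set.mem_singleton_iff] at h
      exact hmX (h ▸ hc)
  refine right_cross hyC gp hX hY hdis ?_ ?_ hm0 hmn hnt (fun i j _ hij hj => hinj i j hij hj)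
    ?_ ?_ ?_ ?_
  · exact fun d hd g1 g2 => hWy d hd (Or.inl (Or.inr g1)) (Or.inl (Or.inr g2))
  · intro d hd g1 g2
    refine hWy d hd ?_ ?_
    · rcases g1 with g | g
      · exact Or.inl (Or.inl g)
      · rw [Set.mem_singleton_iff] at g
        exact Or.inr (by rw [Set.mem_ofPred_eq, g]; exact hwm)
    · rcases g2 with g | g
      · exact Or.inl (Or.inl g)
      · rw [Set.mem_singleton_iff] at g
        exact Or.inr (by rw [Set.mem_ofPred_eq, g]; exact hwm)
  · exact h0
  · rw [gP m hm]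
    exact Or.inr rfl
  · rw [gP n le_rfl]
    exact hn
  · rw [htq]
    exact Or.inl (by rw [show Rc M d = e from d2]; exact he)

/-! ### `Sep` -/

variable {H R : Set C}

/-- **the planar input of the revealed set**: `X` is a connected set of white cells of `Z` which
contains the first and the last right cell of the arc, some right cell off `X` is next to `Ext` -/
theorem sep_nc (h1 : σ (M.cell p) = 1) (hp : cfg M σ p = 1)
    (hE : CCon M {c | Ext M H (Zc (wl M (cfg M σ) p n) (wr M (cfg M σ) p n) R σ) c})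
    (hX : CCon M X)
    (hXZ : ∀ c ∈ X, c ∈ Zc (wl M (cfg M σ) p n : Set C) (wr M (cfg M σ) p n) R σ ∧ σ c = 0)
    (h0 : Rc M p ∈ X) (hn : Rc M (P M (cfg M σ) p n) ∈ X) (hm : m ≤ n)
    (hmX : Rc M (P M (cfg M σ) p m) ∉ X)
    (hl : ∃ e, Ext M H (Zc (wl M (cfg M σ) p n) (wr M (cfg M σ) p n) R σ) e ∧
      Ad M e (Rc M (P M (cfg M σ) p m))) :
    Sep M H (Zc (wl M (cfg M σ) p n) (wr M (cfg M σ) p n) R σ) (wl M (cfg M σ) p n) := by
  intro a ha e he hea
  obtain ⟨e₀, g1, g2⟩ := hl
  refine no_touch h1 hp hE (fun c hc h => ?_) (fun c hc h => ?_) hX (fun c hc => (hXZ c hc).2)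
    (fun c hc h => Ext.off hc (hXZ c h).1) h0 hn hm hmX ⟨e₀, g1, g2⟩ (Finset.mem_coe.1 ha) he hea
  · exact Ext.off hc (Or.inl (Or.inl (Finset.mem_coe.2 h)))
  · exact Ext.off hc (Or.inl (Or.inr (Finset.mem_coe.2 h)))

omit [Fintype D] in
/-- **a cell which is joined to a left cell of the arc by cells off `Z` is not in `Ext`** -/
theorem not_ext {Z AL : Set C} (hs : Sep M H Z AL) {c g a : C}
    (hp : Relation.ReflTransGen (fun a b => Ad M a b ∧ b ∉ Z) c g) (hga : Ad M g a)
    (ha : a ∈ AL) : ¬ Ext M H Z c := by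
  intro h
  have key : Ext M H Z g := by
    clear hga
    induction hp with
    | refl => exact h
    | tail _ h1 ih => exact Ext.step ih h1.1 h1.2
  exact hs a ha g key hga

end Crest.Agent.R143.SepNcx763
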