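import Crest.Agent.R143.SepL_686
import Crest.Agent.R143.LocW_921

/-!
# Row 143 (S0194), SEP at the closing gates (helper686; LEMMA W / WHITE GATE of 782, 776)

* `WC` : white sites of the closing tile `j` which are linked to `x j` in it
* `CG` : straight closing gate; `Low` : the region below a gate
* **`sepW_chain`** : the closed white chain of `SepL_686` with refined pieces; its index is `-2π` below
  all straight closing gates; `CwP` : its properties as a structure, `exists_cw`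
* **`CwP.white_gate`** : the vertical chain at a straight closing gate (921's `vert_white`)
* `CwP.notExt` : sites of index `-2π` are not in `Ext`
-/

set_option autoImplicit false

noncomputable section

open scoped Classical

namespace Crest.Agent.R143.SepWx686

open Crest.Agent.R143.B0x346 Crest.Agent.R143.DelGx806 Crest.Agent.R143.DelRx806
open Crest.Agent.R143.ToolWx838 Crest.Agent.R143.Blkx838
open Crest.Agent.R143.ToolW3x838 Crest.Agent.R143.Gatex838 Crest.Agent.R143.Neckx921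
open Crest.Agent.R143.Frame1x395 Crest.Agent.R143.Frame2x395 Crest.Agent.R143.Frame3x395
  Crest.Agent.R143.Frame4x395 Crest.Agent.R143.Frame8x395 Crest.Agent.R143.Frame9x395
  Crest.Agent.R143.Frame10x395 Crest.Agent.R143.Frame11x395
open Crest.Agent.R143.Frame5x395 (sd mem_sd th th_spec)
open Crest.Agent.R143.Splx117 Crest.Agent.R143.WLocx713 Crest.Agent.R143.RingDx117
  Crest.Agent.R143.CorrDx117
open Crest.Agent.R143.Idxx927 (RingP cyc wl X_wl Y_wl)
open Crest.Agent.R143.TileRx228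
open Crest.Agent.R143.Sepx686 Crest.Agent.R143.SepLx686

variable {S : Finset ℂ} {M n k0 k1 : ℕ} {W : ℤ → ℤ × ℤ} {A B h b1 m ρ τ κ : ℝ} {o : ℤ} {K0 : Set ℂ}
  {χ : ℂ → ZMod 2} {hS : GP (S : Set ℂ)} {hχ : HullC S χ} {y z : ℕ → ℂ} {p : ℕ → D0 S}

/-- white sites of the closing tile `j` linked to `x j` -/
def WC (S : Finset ℂ) (χ : ℂ → ZMod 2) (y : ℕ → ℂ) (W : ℤ → ℤ × ℤ) (A B h : ℝ) (o : ℤ) (x : ℕ → ℂ)
    (j : ℕ) : Set ℂ :=
  {s | s ∈ WT S χ y W A B h o j ∧ Lk S (WT S χ y W A B h o j) (x j) s}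

/-- a link stays in the component of its start -/
theorem lk_comp {Q : Set ℂ} {a b : ℂ} (hl : Lk S Q a b) :
    Lk S {s | s ∈ Q ∧ Lk S Q a s} a b := by
  obtain ⟨⟨ha, hb⟩, h⟩ := hl
  have key : ∀ c, Relation.ReflTransGen (fun u v => DE S u v ∧ u ∈ Q ∧ v ∈ Q) a c →
      Lk S Q a c ∧ Lk S {s | s ∈ Q ∧ Lk S Q a s} a c := by
    intro c hc
    induction hc with
    | refl => exact ⟨Lk.refl ha, Lk.refl ⟨ha, Lk.refl ha⟩⟩
    | tail _ h1 ih =>
      rename_i u v _
      have l1 : Lk S Q a v := ih.1.trans ⟨⟨h1.2.1, h1.2.2⟩, .single h1⟩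
      exact ⟨l1, ih.2.trans ⟨⟨⟨h1.2.1, ih.1⟩, ⟨h1.2.2, l1⟩⟩,
        .single ⟨h1.1, ⟨h1.2.1, ih.1⟩, ⟨h1.2.2, l1⟩⟩⟩⟩
  exact (key b h).2

/-- **straight closing gate** -/
structure CG (M n : ℕ) (W : ℤ → ℤ × ℤ) (A τ h : ℝ) (o : ℤ) (K0 : Set ℂ) (k : ℕ) : Prop where
  nk : n < k
  kM : k < M
  s1 : ge W (o + k) = ge W (o + k - 1)
  s2 : ge W (o + k + 1) = ge W (o + k)
  foot : wl (gz h W (o + k)) (ge W (o + k)) (-(A + τ)) ∈ K0

/-- the region below the gate `k` -/
def Low (W : ℤ → ℤ × ℤ) (A τ h c : ℝ) (o : ℤ) (k : ℕ) : Set ℂ :=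
  {w | |X (gz h W (o + k)) (ge W (o + k)) w| ≤ c ∧ -(A + τ) ≤ Y (gz h W (o + k)) (ge W (o + k)) w ∧
    Y (gz h W (o + k)) (ge W (o + k)) w ≤ -A}

theorem Low_convex (W : ℤ → ℤ × ℤ) (A τ h c : ℝ) (o : ℤ) (k : ℕ) :
    Convex ℝ (Low W A τ h c o k) := by
  rintro u ⟨u1, u2, u3⟩ v ⟨v1, v2, v3⟩ r s hr hs hrs
  rw [abs_le] at u1 v1
  refine ⟨abs_le.2 ⟨?_, ?_⟩, ?_, ?_⟩
  · rw [X_comb _ _ hrs]
    have := cv_le hr hs hrs (neg_le_neg u1.1) (neg_le_neg v1.1)
    linarith
  · rw [X_comb _ _ hrs]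
    exact cv_le hr hs hrs u1.2 v1.2
  · rw [Y_comb _ _ hrs]
    have := cv_le hr hs hrs (neg_le_neg u2) (neg_le_neg v2)
    linarith
  · rw [Y_comb _ _ hrs]
    exact cv_le hr hs hrs u3 v3

/-- the white sites of the two tiles of a straight closing gate, in its frame -/
theorem CG.strip (G : SGeo S M n k0 k1 W A B h b1 m ρ τ κ o K0) {k : ℕ}
    (C : CG M n W A τ h o K0 k) {j : ℕ} (hj : j = k ∨ j + 1 = k) {s : ℂ}
    (hs : s ∈ RR A B h W (o + j)) : |Y (gz h W (o + k)) (ge W (o + k)) s| < A ∧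
      -(h / 2 + B) < X (gz h W (o + k)) (ge W (o + k)) s ∧
      X (gz h W (o + k)) (ge W (o + k)) s < h / 2 + B := by
  have hA0 := G.A0
  have hAB := G.AB
  have hBh := G.Bh
  have hh := G.hh
  have hκ : 0 < κ := by linarith [G.ρ0, G.ρτ, G.τκ]
  rcases hj with rfl | hj
  · obtain ⟨⟨h3, h4⟩, h5⟩ := (frame_S G.fp hA0 hAB C.s2).1 hs
    exact ⟨h5, by linarith, by linarith⟩
  · have e1 : o + (j : ℤ) = o + k - 1 := by rw [← hj]; push_cast; ring
    rw [e1] at hs
    have hd : ge W (o + k - 1 + 1) = ge W (o + k - 1) := by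
      rw [show o + (k : ℤ) - 1 + 1 = o + k by ring]; exact C.s1
    obtain ⟨⟨h3, h4⟩, h5⟩ := (frame_S G.fp hA0 hAB hd).1 hs
    have h6 := next_S G.fp hd h s
    rw [show o + (k : ℤ) - 1 + 1 = o + k by ring] at h6
    rw [h6.1, h6.2]
    exact ⟨h5, by linarith, by linarith⟩

/-- the region below a straight closing gate is off the tiles which do not touch the gate -/
theorem CG.off (G : SGeo S M n k0 k1 W A B h b1 m ρ τ κ o K0) {k : ℕ}
    (C : CG M n W A τ h o K0 k) {j : ℕ} (hj : j < M) (h1 : j ≠ k) (h2 : j + 1 ≠ k) {s : ℂ}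
    (hx : |X (gz h W (o + k)) (ge W (o + k)) s| < B + κ - h / 2)
    (hy : |Y (gz h W (o + k)) (ge W (o + k)) s| < A + κ) : s ∉ RR (A + κ) (B + κ) h W (o + j) := by
  have c1 := C.nk
  have c2 := C.kM
  exact G.win_off (a := o + k) (b := o + j) (ndvd (by omega) (by omega) (by omega))
    (ndvd (by omega) (by omega) (by omega)) hx hy

/-- **the closed white chain along the fine path**, refined pieces, index below the straight closing
gates -/
theorem sepW_chain (G : SGeo S M n k0 k1 W A B h b1 m ρ τ κ o K0)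
    (D : DCorr hS hχ n y z (fun k => RR A B h W (o + k)) (fun k => RR (A + ρ) (B + ρ) h W (o + k)) p)
    {t : ℕ → ℕ} (T : Back D t) {a0 a1 : ℝ} {V β : Finset ℂ} {up dn : List ℂ}
    (N : NkG S k0 W A B h b1 m o χ y z a0 a1 V β up dn) {x : ℕ → ℂ} (hxz : ∀ k, k ≤ n → x k = z k)
    (hxM : ∀ j, x (j + M) = x j)
    (hW0 : ∀ j, n ≤ j → j < M → Lk S (WT S χ y W A B h o j) (x j) (x (j + 1))) {c : ℝ}
    (hc0 : 0 ≤ c) (hc : c < B + κ - h / 2) :
    ∃ cw : List ℂ, Loop S cw ∧ (∀ s ∈ cw, s ∈ S) ∧ (∀ s ∈ cw, χ s ≠ χ (y 0)) ∧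
      (∀ s ∈ cw, (∃ k, k < n ∧ s ∈ RS S χ (p (k + 1)).1 (t k)) ∨
        ∃ j, n ≤ j ∧ j < M ∧ s ∈ WC S χ y W A B h o x j) ∧
      (∀ w ∈ K0, asum w cw = -(2 * Real.pi)) ∧
      (∀ k, CG M n W A τ h o K0 k → ∀ w ∈ Low W A τ h c o k, asum w cw = -(2 * Real.pi)) ∧
      (∀ k, k ≤ n → asum (y k) cw = -(2 * Real.pi)) ∧
      ∀ k, k < n → ∀ s ∈ LS S χ (p (k + 1)).1 (t k), asum s cw = -(2 * Real.pi) := by
  have hA0 := G.A0
  have hAB := G.AB
  have hm0 := G.m0
  have hb1 := G.b1A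
  have hbκ := G.b1κ
  have hτκ := G.τκ
  have hρ0 := G.ρ0
  have hρτ := G.ρτ
  have hh := G.hh
  have hBh := G.Bh
  have hk3 := G.k3
  have hkn := G.kn
  have hnM := G.nM
  have GI := inG G D N
  have hW : ∀ j, n ≤ j → j < M → Lk S (WC S χ y W A B h o x j) (x j) (x (j + 1)) :=
    fun j hj hj' => lk_comp (hW0 j hj hj')
  have sub1 : ∀ a, RR A B h W a ⊆ RR (A + ρ) (B + ρ) h W a := fun a =>
    RR_mono (by linarith) (by linarith) h W a
  have sub2 : ∀ a, RR (A + ρ) (B + ρ) h W a ⊆ RR (A + τ) (B + τ) h W a := fun a =>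
    RR_mono (by linarith) (by linarith) h W a
  have seg : ∀ (a : ℤ) (u v : ℂ), DE S u v → u ∈ RR (A + ρ) (B + ρ) h W a →
      v ∈ RR (A + ρ) (B + ρ) h W a → segment ℝ u v ⊆ RR (A + τ) (B + τ) h W a := by
    intro a u v hd hu hv
    have h1 := seg_RR G.fp hu (G.edge a u v hd hu hv)
    rwa [show A + ρ + (τ - ρ) = A + τ by ring, show B + ρ + (τ - ρ) = B + τ by ring] at h1
  -- the white sites of the gates are in the windows
  have zB : ∀ k, k < n → z k ∈ RR (A + ρ) (B + ρ) h W (o + k) ∧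
      z (k + 1) ∈ RR (A + ρ) (B + ρ) h W (o + k) := by
    intro k hk
    have e1 : (p (k + 1)).1.2 = z (k + 1) := by rw [D.st (k + 1) (by omega)]
    have e0 : (p k).1.2 = z k := by rw [D.st k (by omega)]
    refine ⟨T.rB k hk ?_, T.rB k hk ?_⟩
    · rw [← e0, ← T.arr k hk]; exact ⟨t k, le_rfl, rfl⟩
    · rw [← e1]; exact ⟨0, Nat.zero_le _, rfl⟩
  have hP : FPath M W := G.fp
  have hMpos : 0 < M := by omega
  have xR : ∀ j : ℕ, x j ∈ RR (A + ρ) (B + ρ) h W (o + j) ∧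
      x (j + 1) ∈ RR (A + ρ) (B + ρ) h W (o + j) := by
    have key : ∀ j : ℕ, j < M → x j ∈ RR (A + ρ) (B + ρ) h W (o + j) ∧
        x (j + 1) ∈ RR (A + ρ) (B + ρ) h W (o + j) := by
      intro j hj
      rcases Nat.lt_or_ge j n with h1 | h1
      · rw [hxz j h1.le, hxz (j + 1) h1]; exact zB j h1
      · have h2 := (hW0 j h1 hj).1
        exact ⟨sub1 _ h2.1.2, sub1 _ h2.2.2⟩
    intro j
    have hxm : ∀ q r, x (r + q * M) = x r := by
      intro q r
      induction q with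
      | zero => simp
      | succ q ih =>
        have e : r + (q + 1) * M = (r + q * M) + M := by ring
        rw [e, hxM, ih]
    have h1 := key (j % M) (Nat.mod_lt _ hMpos)
    rw [RR_mod hP] at h1
    have e1 : x j = x (j % M) := by
      conv_lhs => rw [← Nat.mod_add_div j M, mul_comm]
      exact hxm _ _
    have e2 : x (j + 1) = x (j % M + 1) := by
      have : j + 1 = (j % M + 1) + j / M * M := by
        have := Nat.mod_add_div j M
        rw [mul_comm] at this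
        omega
      rw [this, hxm]
    rw [e1, e2]
    exact h1
  have xwin : ∀ j : ℕ, |X (gz h W (o + (j + 1 : ℕ))) (ge W (o + (j + 1 : ℕ))) (x (j + 1))| <
      B + ρ - h / 2 := by
    intro j
    have h1 := (xR j).2
    have h2 := (xR (j + 1)).1
    rw [show o + ((j + 1 : ℕ) : ℤ) = o + j + 1 by push_cast; ring] at h2 ⊢
    exact (window hP (by linarith) (by linarith) h1 h2).1
  have xwin' : ∀ j : ℕ, |X (gz h W (o + j)) (ge W (o + j)) (x j)| < B + ρ - h / 2 := by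
    intro j
    have h1 := xwin (j + M - 1)
    rw [show j + M - 1 + 1 = j + M by omega, hxM] at h1
    have e1 : gz h W (o + ((j + M : ℕ) : ℤ)) = gz h W (o + j) := by
      unfold gz
      rw [show o + ((j + M : ℕ) : ℤ) - 1 = o + j - 1 + M by push_cast; ring,
        show o + ((j + M : ℕ) : ℤ) = o + j + M by push_cast; ring, hP.per, hP.per]
    have e2 : ge W (o + ((j + M : ℕ) : ℤ)) = ge W (o + j) := by
      unfold ge
      rw [show o + ((j + M : ℕ) : ℤ) - 1 = o + j - 1 + M by push_cast; ring,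
        show o + ((j + M : ℕ) : ℤ) = o + j + M by push_cast; ring, hP.per, hP.per]
    rw [e1, e2] at h1
    exact h1
  -- the enlarged inner side
  obtain ⟨bS, hbS⟩ : ∃ b, b = dn.getLast N.neck.nd := ⟨_, rfl⟩
  have hbm : bS ∈ dn := by rw [hbS]; exact List.getLast_mem _
  have hbw := N.neck.win bS (List.mem_append_right _ (List.mem_cons_of_mem _ hbm))
  have hbb : Y (gz h W (o + k0)) (ge W (o + k0)) bS ≤ -A := by rw [hbS]; exact N.neck.bot
  have hN1 := N.a0w
  have hN2 := N.a1w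
  have he := TileRx228.ge_ne hP (o + k0)
  set wb : ℂ := wl (gz h W (o + k0)) (ge W (o + k0)) (-(A + τ)) with hwb
  have hxb := X_wl (z0 := gz h W (o + k0)) he (-(A + τ))
  have hyb := Y_wl (z0 := gz h W (o + k0)) he (-(A + τ))
  have hsegb : ∀ w ∈ segment ℝ bS wb, |X (gz h W (o + k0)) (ge W (o + k0)) w| < B + κ - h / 2 ∧
      |Y (gz h W (o + k0)) (ge W (o + k0)) w| < A + κ ∧
      Y (gz h W (o + k0)) (ge W (o + k0)) w ≤ -A := by
    rintro w ⟨r, s, hr, hs, hrs, rfl⟩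
    rw [X_comb _ _ hrs, Y_comb _ _ hrs, hwb, hxb, hyb]
    obtain ⟨⟨w1, w2⟩, w3, -⟩ := hbw
    refine ⟨abs_lt.2 ⟨cv_gt hr hs hrs ?_ ?_, cv_lt hr hs hrs ?_ ?_⟩,
      abs_lt.2 ⟨cv_gt hr hs hrs ?_ ?_, cv_lt hr hs hrs ?_ ?_⟩, cv_le hr hs hrs hbb ?_⟩ <;> linarith
  -- the tiles near the extreme gate
  have st1 := G.st1
  have st2 := G.st2
  have ex1 := fun s => next_S hP st1 h s
  have ex2 := fun s => next_S hP st2 h s
  have hk1 := G.k1M
  -- the connected inner set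
  set KL : Set ℂ := K0 ∪ segment ℝ bS wb with hKL
  have hKLpre : IsPreconnected KL :=
    G.K0pre.union wb G.K0k (right_mem_segment ℝ _ _) (convex_segment _ _).isPreconnected
  set KK : Set (Set ℂ) := {Q | Q = KL ∨ ∃ k, CG M n W A τ h o K0 k ∧ Q = K0 ∪ Low W A τ h c o k}
    with hKK
  have hKpre : IsPreconnected (⋃₀ KK) := by
    refine isPreconnected_sUnion wb KK ?_ ?_
    · rintro Q (rfl | ⟨k, hk, rfl⟩)
      · exact Or.inl G.K0k
      · exact Or.inl G.K0k
    · rintro Q (rfl | ⟨k, hk, rfl⟩)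
      · exact hKLpre
      · refine G.K0pre.union _ hk.foot ?_ (Low_convex W A τ h c o k).isPreconnected
        have hek := TileRx228.ge_ne hP (o + k)
        refine ⟨?_, ?_, ?_⟩
        · rw [X_wl hek, abs_zero]; exact hc0
        · rw [Y_wl hek]
        · rw [Y_wl hek]; linarith
  obtain ⟨cw, c1, c2, c3, c4, c5, c6, c7⟩ := sep_chain D T (N := M) (by omega) hnM.le GI hxz hxM
    (W := WC S χ y W A B h o x) hW
    (fun j hj hj' s hs => ⟨hs.1.1.1, hs.1.1.2, fun hsd => dn_off G N hj' (by omega) (by omega) hsd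
      (RR_mono (by linarith) (by linarith) h W _ hs.1.2)⟩)
    (RR := fun j => {w | w ∈ RR (A + τ) (B + τ) h W (o + j) ∧
      ∀ k, CG M n W A τ h o K0 k → j = k ∨ j + 1 = k →
        -A < Y (gz h W (o + k)) (ge W (o + k)) w})
    (fun j hj u v hd hu hv w hw => ⟨seg _ u v hd hu hv hw, fun k hk hjk => by
      have := hk.nk
      omega⟩)
    (fun j hj hj' u v hd hu hv w hw => ⟨seg _ u v hd (sub1 _ hu.1.2) (sub1 _ hv.1.2) hw,
      fun k hk hjk => by
        have g1 := (abs_lt.1 (hk.strip G hjk hu.1.2).1).1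
        have g2 := (abs_lt.1 (hk.strip G hjk hv.1.2).1).1
        obtain ⟨r, s, hr, hs, hrs, rfl⟩ := hw
        rw [Y_comb _ _ hrs]
        exact cv_gt hr hs hrs g1 g2⟩)
    (k1 := k1) (z1 := gz h W (o + k1 + 1)) (e1 := ge W (o + k1 + 1)) (TileRx228.ge_ne hP _)
    (y0 := -(A + τ)) (y1 := A + τ) (by linarith)
    (by
      intro j hj s hsS h1 h2
      have hsR : s ∈ RR (A + ρ) (B + ρ) h W (o + j) := by
        rcases Nat.lt_or_ge j n with h3 | h3
        · exact h1 h3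
        · exact sub1 _ (h2 h3).1.2
      rcases hj with hj | hj
      · rw [hj, RR_mod hP] at hsR
        have h3 := ((frame_S hP (by linarith) (by linarith) st1).1 hsR).2
        rw [← (ex1 s).2, abs_lt] at h3
        constructor <;> linarith [h3.1, h3.2]
      · rw [hj, RR_mod hP, show o + ((k1 + 1 : ℕ) : ℤ) = o + k1 + 1 by push_cast; ring] at hsR
        have h3 := ((frame_S hP (by linarith) (by linarith) st2).1 hsR).2
        rw [abs_lt] at h3
        constructor <;> linarith [h3.1, h3.2])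
    (by
      have h3 := xwin' k1
      rw [(ex1 (x k1)).1]
      linarith [(abs_lt.1 h3).2])
    (by
      have h3 := xwin' (k1 + 2)
      rw [show o + ((k1 + 2 : ℕ) : ℤ) = o + k1 + 1 + 1 by push_cast; ring] at h3
      rw [(ex2 (x (k1 + 2))).1] at h3
      linarith [(abs_lt.1 h3).1])
    (by
      intro j hj hj' t1 h3 h4 h5
      have h5' : wl (gz h W (o + k1 + 1)) (ge W (o + k1 + 1)) t1 ∈ RR (A + τ) (B + τ) h W (o + j) := by
        have := RR_mod hP (A + τ) (B + τ) h o j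
        rw [← this]; exact h5.1
      refine G.win_off (a := o + k1 + 1) (b := o + j) (ndvd (by omega) (by omega) (by omega))
        (ndvd (by omega) (by omega) (by omega)) ?_ ?_ (RR_mono (by linarith) (by linarith) h W _ h5')
      · rw [X_wl (TileRx228.ge_ne hP _), abs_zero]; linarith
      · rw [Y_wl (TileRx228.ge_ne hP _), abs_lt]; constructor <;> linarith)
    (by
      intro j hj t1 h3 h4
      have h5 := G.ext _ _ h4.1
      rw [Y_wl (TileRx228.ge_ne hP _)] at h5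
      linarith)
    (K := ⋃₀ KK) hKpre
    (by
      rintro w ⟨Q, hQ, hw⟩ j hj ⟨h4, h4'⟩
      have hKL' : w ∈ K0 → False := fun hw => G.K0off w hw _ h4
      rcases hQ with rfl | ⟨k, hk, rfl⟩
      · rcases hw with hw | hw
        · exact absurd hw hKL'
        · obtain ⟨g1, g2, g3⟩ := hsegb w hw
          refine ⟨?_, g3⟩
          by_contra hc
          push Not at hc
          exact G.win_off (a := o + k0) (b := o + j) (ndvd (by omega) (by omega) (by omega))
            (ndvd (by omega) (by omega) (by omega)) g1 g2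
            (RR_mono (by linarith) (by linarith) h W _ h4)
      · rcases hw with hw | hw
        · exact absurd hw hKL'
        · obtain ⟨g1, g2, g3⟩ := hw
          exfalso
          by_cases hjk : j = k ∨ j + 1 = k
          · have := h4' k hk hjk
            linarith
          · push Not at hjk
            exact hk.off G hj hjk.1 hjk.2 (by linarith)
              (abs_lt.2 ⟨by linarith, by linarith⟩) (RR_mono (by linarith) (by linarith) h W _ h4))
    ⟨KL, Or.inl rfl, Or.inl G.K0e⟩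
    ⟨KL, Or.inl rfl, Or.inr (by rw [hbS]; exact left_mem_segment ℝ _ _)⟩
  refine ⟨cw, c1, c2, c3, c4, fun w hw => c5 w ⟨KL, Or.inl rfl, Or.inl hw⟩, fun k hk w hw =>
    c5 w ⟨_, Or.inr ⟨k, hk, rfl⟩, Or.inr hw⟩, c6, c7⟩

/-- **the closed white chain of the corridor** -/
structure CwP (S : Finset ℂ) (χ : ℂ → ZMod 2) (M n : ℕ) (W : ℤ → ℤ × ℤ) (A B h τ : ℝ) (o : ℤ)
    (y x : ℕ → ℂ) (p : ℕ → D0 S) (t : ℕ → ℕ) (K0 : Set ℂ) (c : ℝ) (cw : List ℂ) : Prop where
  loop : Loop S cw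
  sub : ∀ s ∈ cw, s ∈ S
  col : ∀ s ∈ cw, χ s ≠ χ (y 0)
  mem : ∀ s ∈ cw, (∃ k, k < n ∧ s ∈ RS S χ (p (k + 1)).1 (t k)) ∨
    ∃ j, n ≤ j ∧ j < M ∧ s ∈ WC S χ y W A B h o x j
  k0 : ∀ w ∈ K0, asum w cw = -(2 * Real.pi)
  low : ∀ k, CG M n W A τ h o K0 k → ∀ w ∈ Low W A τ h c o k, asum w cw = -(2 * Real.pi)
  gate : ∀ k, k ≤ n → asum (y k) cw = -(2 * Real.pi)
  left : ∀ k, k < n → ∀ s ∈ LS S χ (p (k + 1)).1 (t k), asum s cw = -(2 * Real.pi)

theorem exists_cw (G : SGeo S M n k0 k1 W A B h b1 m ρ τ κ o K0)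
    (D : DCorr hS hχ n y z (fun k => RR A B h W (o + k)) (fun k => RR (A + ρ) (B + ρ) h W (o + k)) p)
    {t : ℕ → ℕ} (T : Back D t) {a0 a1 : ℝ} {V β : Finset ℂ} {up dn : List ℂ}
    (N : NkG S k0 W A B h b1 m o χ y z a0 a1 V β up dn) {x : ℕ → ℂ} (hxz : ∀ k, k ≤ n → x k = z k)
    (hxM : ∀ j, x (j + M) = x j)
    (hW0 : ∀ j, n ≤ j → j < M → Lk S (WT S χ y W A B h o j) (x j) (x (j + 1))) {c : ℝ}
    (hc0 : 0 ≤ c) (hc : c < B + κ - h / 2) :
    ∃ cw : List ℂ, CwP S χ M n W A B h τ o y x p t K0 c cw := by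
  obtain ⟨cw, c1, c2, c3, c4, c5, c6, c7, c8⟩ := sepW_chain G D T N hxz hxM hW0 hc0 hc
  exact ⟨cw, c1, c2, c3, c4, c5, c6, c7, c8⟩

/-- sites of index `-2π` are not in `Ext` (`cm0`) -/
theorem CwP.notExt {c : ℝ} {cw : List ℂ} {x : ℕ → ℂ} {t : ℕ → ℕ} (hS : GP (S : Set ℂ))
    (C : CwP S χ M n W A B h τ o y x p t K0 c cw) {Z : Set (Quot (hullE S))}
    (hin : ∀ s ∈ cw, ¬ OnHull S s)
    (hZ1 : ∀ k, k < n → ∀ s ∈ RS S χ (p (k + 1)).1 (t k), (Quot.mk _ s : Quot (hullE S)) ∈ Z)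
    (hZ2 : ∀ j, n ≤ j → j < M → ∀ s ∈ WT S χ y W A B h o j, (Quot.mk _ s : Quot (hullE S)) ∈ Z)
    {u : ℂ} (hu : asum u cw = -(2 * Real.pi)) :
    ¬ Extx358.Ext (cm0 hS) (SepEx927.hc S) Z (Quot.mk _ u) := by
  have hh : ∀ v, OnHull S v → asum v cw = 0 := fun v hv =>
    asum_onHull hS C.loop C.sub hv fun h => hin v h hv
  have hZ : SepEx927.cw S cw ⊆ Z := by
    rintro q ⟨s, hs, rfl⟩
    rcases C.mem s hs with ⟨k, hk, h⟩ | ⟨j, h2, h3, h⟩
    · exact hZ1 k hk s h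
    · exact hZ2 j h2 h3 s h.1
  refine SepEx927.not_ext hS C.loop hh hZ ?_
  rw [hu]
  have hpi := Real.pi_pos
  intro h; linarith

/-- the white sites of the two tiles of the gate `k`, linked to `x k` -/
def WG (S : Finset ℂ) (χ : ℂ → ZMod 2) (y : ℕ → ℂ) (W : ℤ → ℤ × ℤ) (A B h : ℝ) (o : ℤ) (x : ℕ → ℂ)
    (k : ℕ) : Set ℂ :=
  {s | (s ∈ WT S χ y W A B h o (k - 1) ∨ s ∈ WT S χ y W A B h o k) ∧
    Lk S {s | s ∈ WT S χ y W A B h o (k - 1) ∨ s ∈ WT S χ y W A B h o k} (x k) s}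

/-- **the vertical chain of a straight closing gate** -/
theorem CwP.white_gate (G : SGeo S M n k0 k1 W A B h b1 m ρ τ κ o K0)
    (D : DCorr hS hχ n y z (fun k => RR A B h W (o + k)) (fun k => RR (A + ρ) (B + ρ) h W (o + k)) p)
    {t : ℕ → ℕ} (T : Back D t) {x : ℕ → ℂ}
    (hW0 : ∀ j, n ≤ j → j < M → Lk S (WT S χ y W A B h o j) (x j) (x (j + 1))) {c : ℝ} {cw : List ℂ}
    (C : CwP S χ M n W A B h τ o y x p t K0 c cw) (hc : c < B + κ - h / 2) {k : ℕ}
    (K : CG M n W A τ h o K0 k) {a0 a1 b1' m' : ℝ} {V β : Finset ℂ} {up dn : List ℂ} {yk : ℂ}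
    (N : Neck S (gz h W (o + k)) (ge W (o + k)) a0 a1 (-A) b1' m' V β up yk dn)
    (hx : up.getLast N.nu = x k) (hyk : χ yk = χ (y 0)) (ha0 : -c ≤ a0) (ha1 : a1 ≤ c)
    (hm : m' ≤ τ) (hb1 : b1' + m' < A + κ) :
    (∀ w, |X (gz h W (o + k)) (ge W (o + k)) w| ≤ c → -(A + τ) ≤ Y (gz h W (o + k)) (ge W (o + k)) w →
      Y (gz h W (o + k)) (ge W (o + k)) w ≤ -A → asum w cw = -(2 * Real.pi)) ∧
    asum (dn.getLast N.nd) cw = -(2 * Real.pi) ∧
    ∃ VV : Set ℂ, Lk S VV (dn.getLast N.nd) (up.head N.nu) ∧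
      (∀ s ∈ VV, -(h / 2 + B) < X (gz h W (o + k)) (ge W (o + k)) s ∧
        X (gz h W (o + k)) (ge W (o + k)) s < h / 2 + B) ∧
      ∀ s ∈ VV, s ∈ up ∨ s ∈ WG S χ y W A B h o x k ∨
        (s ∈ yk :: dn ∧ asum s cw = -(2 * Real.pi)) := by
  have hA0 := G.A0
  have hAB := G.AB
  have hBh := G.Bh
  have hh := G.hh
  have hκ : 0 < κ := by linarith [G.ρ0, G.ρτ, G.τκ]
  have hρτ := G.ρτ
  have hτκ := G.τκ
  have hh0 := G.ρ0
  have kn := K.nk
  have kM := K.kM
  have hlow : ∀ w, |X (gz h W (o + k)) (ge W (o + k)) w| ≤ c →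
      -(A + τ) ≤ Y (gz h W (o + k)) (ge W (o + k)) w →
      Y (gz h W (o + k)) (ge W (o + k)) w ≤ -A → asum w cw = -(2 * Real.pi) :=
    fun w h1 h2 h3 => C.low k K w ⟨h1, h2, h3⟩
  have hdl : asum (dn.getLast N.nd) cw = -(2 * Real.pi) := by
    have h1 := N.win _ (List.mem_append_right _ (List.mem_cons_of_mem _ (List.getLast_mem N.nd)))
    refine hlow _ (abs_le.2 ⟨by linarith [h1.1.1], by linarith [h1.1.2]⟩) (by linarith [h1.2.1]) N.bot
  refine ⟨hlow, hdl, ?_⟩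
  have hstr : ∀ s, s ∈ WT S χ y W A B h o (k - 1) ∨ s ∈ WT S χ y W A B h o k →
      |Y (gz h W (o + k)) (ge W (o + k)) s| < A ∧ -(h / 2 + B) < X (gz h W (o + k)) (ge W (o + k)) s ∧
        X (gz h W (o + k)) (ge W (o + k)) s < h / 2 + B := by
    rintro s (hs | hs)
    · exact K.strip G (j := k - 1) (Or.inr (by omega)) hs.2
    · exact K.strip G (j := k) (Or.inl rfl) hs.2
  refine LocWx921.vert_white hS N (W := WG S χ y W A B h o x k) (by linarith) (by linarith) C.loop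
    (fun hc => C.col _ hc hyk) ?_ ?_ ?_ ?_ hdl
  · exact fun s hs => (hstr s hs.1).2
  · intro s hs
    have := (abs_lt.1 (hstr s hs.1).1).1
    exact this
  · intro s hs
    rw [hx]
    exact lk_comp hs.2
  · intro s hs hsd
    have hw := N.win s (List.mem_append_right _ (List.mem_cons_of_mem _ hsd))
    have hX : |X (gz h W (o + k)) (ge W (o + k)) s| < B + κ - h / 2 :=
      abs_lt.2 ⟨by linarith [hw.1.1], by linarith [hw.1.2]⟩
    have hYl := hw.2.1
    have hYu := hw.2.2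
    rcases C.mem s hs with ⟨j, hj, h1⟩ | ⟨j, hj, hj', h1⟩
    · -- an out arc
      exfalso
      have h2' : s ∈ RR (A + ρ) (B + ρ) h W (o + j) := T.rB j hj h1
      exact K.off G (by omega) (by omega) (by omega) hX
        (abs_lt.2 ⟨by linarith, by linarith⟩) (RR_mono (by linarith) (by linarith) h W _ h2')
    · have key : j = k ∨ j + 1 = k := by
        by_contra hc'
        push Not at hc'
        exact K.off G (by omega) hc'.1 hc'.2 hX
          (abs_lt.2 ⟨by linarith, by linarith⟩) (RR_mono (by linarith) (by linarith) h W _ h1.1.2)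
      have hWk : s ∈ WT S χ y W A B h o (k - 1) ∨ s ∈ WT S χ y W A B h o k := by
        rcases key with e | e
        · right; rw [← e]; exact h1.1
        · left
          have : k - 1 = j := by omega
          rw [this]; exact h1.1
      refine ⟨hWk, ?_⟩
      rcases key with e | e
      · subst e
        exact h1.2.mono fun s hs => Or.inr hs
      · have e' : k - 1 = j := by omega
        have g1 := (hW0 j hj hj').symm.mono (S := S)
          (B := {s | s ∈ WT S χ y W A B h o (k - 1) ∨ s ∈ WT S χ y W A B h o k})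
          fun s hs => Or.inl (by rw [e']; exact hs)
        have g2 := h1.2.mono (B := {s | s ∈ WT S χ y W A B h o (k - 1) ∨ s ∈ WT S χ y W A B h o k})
          fun s hs => Or.inl (by rw [e']; exact hs)
        rw [e] at g1
        exact g1.trans g2

end Crest.Agent.R143.SepWx686
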