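import Crest.Agent.R143.SepW_686

/-!
# Row 143 (S0194), SEP: below an inner out gate (helper686)

* `SGeo.at` : the same geometry with another inner gate
* **`sepX_chain`** : the closed white chain of `SepW_686`, with the index `-2π` below the inner gate
  `k0` and on the lower arm of its neck
-/

set_option autoImplicit false

noncomputable section

open scoped Classical

namespace Crest.Agent.R143.SepXx686

open Crest.Agent.R143.B0x346 Crest.Agent.R143.DelGx806 Crest.Agent.R143.DelRx806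
open Crest.Agent.R143.ToolWx838 Crest.Agent.R143.Blkx838
open Crest.Agent.R143.ToolW3x838 Crest.Agent.R143.Gatex838 Crest.Agent.R143.Neckx921
open Crest.Agent.R143.Frame1x395 Crest.Agent.R143.Frame2x395 Crest.Agent.R143.Frame3x395
  Crest.Agent.R143.Frame4x395 Crest.Agent.R143.Frame8x395 Crest.Agent.R143.Frame9x395
  Crest.Agent.R143.Frame10x395 Crest.Agent.R143.Frame11x395
open Crest.Agent.R143.Frame5x395 (sd mem_sd th th_spec)
open Crest.Agent.R143.Splx117 Crest.Agent.R143.WLocx713 Crest.Agent.R143.RingDx117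
  Crest.Agent.R143.CorrDx117
open Crest.Agent.R143.Idxx927 (RingP cyc wl X_wl Y_wl)
open Crest.Agent.R143.TileRx228
open Crest.Agent.R143.Sepx686 Crest.Agent.R143.SepLx686 Crest.Agent.R143.SepWx686

variable {S : Finset ℂ} {M n k0 k1 : ℕ} {W : ℤ → ℤ × ℤ} {A B h b1 m ρ τ κ : ℝ} {o : ℤ} {K0 : Set ℂ}
  {χ : ℂ → ZMod 2} {hS : GP (S : Set ℂ)} {hχ : HullC S χ} {y z : ℕ → ℂ} {p : ℕ → D0 S}

/-- the same geometry with another inner gate -/
theorem sgeo_at (G : SGeo S M n k0 k1 W A B h b1 m ρ τ κ o K0) {k : ℕ} (h3 : 3 ≤ k)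
    (hk : k + 3 ≤ n) (st : ∀ a : ℤ, o + k - 2 ≤ a → a ≤ o + k + 1 → ge W (a + 1) = ge W a)
    (foot : wl (gz h W (o + k)) (ge W (o + k)) (-(A + τ)) ∈ K0) :
    SGeo S M n k k1 W A B h b1 m ρ τ κ o K0 :=
  { G with k3 := h3, kn := hk, st := st, K0k := foot }

/-- **the closed white chain along the fine path**, with the index below the inner gate `k0` and on the
lower arm of its neck -/
theorem sepX_chain (G : SGeo S M n k0 k1 W A B h b1 m ρ τ κ o K0)
    (D : DCorr hS hχ n y z (fun k => RR A B h W (o + k)) (fun k => RR (A + ρ) (B + ρ) h W (o + k)) p)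
    {t : ℕ → ℕ} (T : Back D t) {a0 a1 : ℝ} {V β : Finset ℂ} {up dn : List ℂ}
    (N : NkG S k0 W A B h b1 m o χ y z a0 a1 V β up dn) {x : ℕ → ℂ} (hxz : ∀ k, k ≤ n → x k = z k)
    (hxM : ∀ j, x (j + M) = x j)
    (hW0 : ∀ j, n ≤ j → j < M → Lk S (WT S χ y W A B h o j) (x j) (x (j + 1))) {c : ℝ}
    (hc0 : 0 ≤ c) (hc : c < B + κ - h / 2) :
    ∃ cw : List ℂ, CwP S χ M n W A B h τ o y x p t K0 c cw ∧
      (∀ w ∈ Low W A τ h c o k0, asum w cw = -(2 * Real.pi)) ∧
      ∀ s ∈ dn, asum s cw = -(2 * Real.pi) := by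
  have hA0 := G.A0
  have hAB := G.AB
  have hm0 := G.m0
  have hb1 := G.b1A
  have hbκ := G.b1κ
  have hτκ := G.τκ
  have hρ0 := G.ρ0
  have hρτ := G.ρτ
  have hh := G.hh
  have hBh := G.Bh
  have hk3 := G.k3
  have hkn := G.kn
  have hnM := G.nM
  have GI := inG G D N
  have hW : ∀ j, n ≤ j → j < M → Lk S (WC S χ y W A B h o x j) (x j) (x (j + 1)) :=
    fun j hj hj' => lk_comp (hW0 j hj hj')
  have sub1 : ∀ a, RR A B h W a ⊆ RR (A + ρ) (B + ρ) h W a := fun a =>
    RR_mono (by linarith) (by linarith) h W a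
  have sub2 : ∀ a, RR (A + ρ) (B + ρ) h W a ⊆ RR (A + τ) (B + τ) h W a := fun a =>
    RR_mono (by linarith) (by linarith) h W a
  have seg : ∀ (a : ℤ) (u v : ℂ), DE S u v → u ∈ RR (A + ρ) (B + ρ) h W a →
      v ∈ RR (A + ρ) (B + ρ) h W a → segment ℝ u v ⊆ RR (A + τ) (B + τ) h W a := by
    intro a u v hd hu hv
    have h1 := seg_RR G.fp hu (G.edge a u v hd hu hv)
    rwa [show A + ρ + (τ - ρ) = A + τ by ring, show B + ρ + (τ - ρ) = B + τ by ring] at h1
  -- the white sites of the gates are in the windows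
  have zB : ∀ k, k < n → z k ∈ RR (A + ρ) (B + ρ) h W (o + k) ∧
      z (k + 1) ∈ RR (A + ρ) (B + ρ) h W (o + k) := by
    intro k hk
    have e1 : (p (k + 1)).1.2 = z (k + 1) := by rw [D.st (k + 1) (by omega)]
    have e0 : (p k).1.2 = z k := by rw [D.st k (by omega)]
    refine ⟨T.rB k hk ?_, T.rB k hk ?_⟩
    · rw [← e0, ← T.arr k hk]; exact ⟨t k, le_rfl, rfl⟩
    · rw [← e1]; exact ⟨0, Nat.zero_le _, rfl⟩
  have hP : FPath M W := G.fp
  have hMpos : 0 < M := by omega
  have xR : ∀ j : ℕ, x j ∈ RR (A + ρ) (B + ρ) h W (o + j) ∧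
      x (j + 1) ∈ RR (A + ρ) (B + ρ) h W (o + j) := by
    have key : ∀ j : ℕ, j < M → x j ∈ RR (A + ρ) (B + ρ) h W (o + j) ∧
        x (j + 1) ∈ RR (A + ρ) (B + ρ) h W (o + j) := by
      intro j hj
      rcases Nat.lt_or_ge j n with h1 | h1
      · rw [hxz j h1.le, hxz (j + 1) h1]; exact zB j h1
      · have h2 := (hW0 j h1 hj).1
        exact ⟨sub1 _ h2.1.2, sub1 _ h2.2.2⟩
    intro j
    have hxm : ∀ q r, x (r + q * M) = x r := by
      intro q r
      induction q with
      | zero => simp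
      | succ q ih =>
        have e : r + (q + 1) * M = (r + q * M) + M := by ring
        rw [e, hxM, ih]
    have h1 := key (j % M) (Nat.mod_lt _ hMpos)
    rw [RR_mod hP] at h1
    have e1 : x j = x (j % M) := by
      conv_lhs => rw [← Nat.mod_add_div j M, mul_comm]
      exact hxm _ _
    have e2 : x (j + 1) = x (j % M + 1) := by
      have : j + 1 = (j % M + 1) + j / M * M := by
        have := Nat.mod_add_div j M
        rw [mul_comm] at this
        omega
      rw [this, hxm]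
    rw [e1, e2]
    exact h1
  have xwin : ∀ j : ℕ, |X (gz h W (o + (j + 1 : ℕ))) (ge W (o + (j + 1 : ℕ))) (x (j + 1))| <
      B + ρ - h / 2 := by
    intro j
    have h1 := (xR j).2
    have h2 := (xR (j + 1)).1
    rw [show o + ((j + 1 : ℕ) : ℤ) = o + j + 1 by push_cast; ring] at h2 ⊢
    exact (window hP (by linarith) (by linarith) h1 h2).1
  have xwin' : ∀ j : ℕ, |X (gz h W (o + j)) (ge W (o + j)) (x j)| < B + ρ - h / 2 := by
    intro j
    have h1 := xwin (j + M - 1)
    rw [show j + M - 1 + 1 = j + M by omega, hxM] at h1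
    have e1 : gz h W (o + ((j + M : ℕ) : ℤ)) = gz h W (o + j) := by
      unfold gz
      rw [show o + ((j + M : ℕ) : ℤ) - 1 = o + j - 1 + M by push_cast; ring,
        show o + ((j + M : ℕ) : ℤ) = o + j + M by push_cast; ring, hP.per, hP.per]
    have e2 : ge W (o + ((j + M : ℕ) : ℤ)) = ge W (o + j) := by
      unfold ge
      rw [show o + ((j + M : ℕ) : ℤ) - 1 = o + j - 1 + M by push_cast; ring,
        show o + ((j + M : ℕ) : ℤ) = o + j + M by push_cast; ring, hP.per, hP.per]
    rw [e1, e2] at h1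
    exact h1
  -- the enlarged inner side
  obtain ⟨bS, hbS⟩ : ∃ b, b = dn.getLast N.neck.nd := ⟨_, rfl⟩
  have hbm : bS ∈ dn := by rw [hbS]; exact List.getLast_mem _
  have hbw := N.neck.win bS (List.mem_append_right _ (List.mem_cons_of_mem _ hbm))
  have hbb : Y (gz h W (o + k0)) (ge W (o + k0)) bS ≤ -A := by rw [hbS]; exact N.neck.bot
  have hN1 := N.a0w
  have hN2 := N.a1w
  have he := TileRx228.ge_ne hP (o + k0)
  set wb : ℂ := wl (gz h W (o + k0)) (ge W (o + k0)) (-(A + τ)) with hwb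
  have hxb := X_wl (z0 := gz h W (o + k0)) he (-(A + τ))
  have hyb := Y_wl (z0 := gz h W (o + k0)) he (-(A + τ))
  have hsegb : ∀ w ∈ segment ℝ bS wb, |X (gz h W (o + k0)) (ge W (o + k0)) w| < B + κ - h / 2 ∧
      |Y (gz h W (o + k0)) (ge W (o + k0)) w| < A + κ ∧
      Y (gz h W (o + k0)) (ge W (o + k0)) w ≤ -A := by
    rintro w ⟨r, s, hr, hs, hrs, rfl⟩
    rw [X_comb _ _ hrs, Y_comb _ _ hrs, hwb, hxb, hyb]
    obtain ⟨⟨w1, w2⟩, w3, -⟩ := hbw
    refine ⟨abs_lt.2 ⟨cv_gt hr hs hrs ?_ ?_, cv_lt hr hs hrs ?_ ?_⟩,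
      abs_lt.2 ⟨cv_gt hr hs hrs ?_ ?_, cv_lt hr hs hrs ?_ ?_⟩, cv_le hr hs hrs hbb ?_⟩ <;> linarith
  -- the tiles near the extreme gate
  have st1 := G.st1
  have st2 := G.st2
  have ex1 := fun s => next_S hP st1 h s
  have ex2 := fun s => next_S hP st2 h s
  have hk1 := G.k1M
  -- the connected inner set
  set KL : Set ℂ := K0 ∪ segment ℝ bS wb with hKL
  have hKLpre : IsPreconnected KL :=
    G.K0pre.union wb G.K0k (right_mem_segment ℝ _ _) (convex_segment _ _).isPreconnected
  set KK : Set (Set ℂ) := {Q | Q = KL ∨ Q = K0 ∪ Low W A τ h c o k0 ∨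
    ∃ k, CG M n W A τ h o K0 k ∧ Q = K0 ∪ Low W A τ h c o k} with hKK
  have hLowpre : ∀ k : ℕ, wl (gz h W (o + k)) (ge W (o + k)) (-(A + τ)) ∈ K0 →
      IsPreconnected (K0 ∪ Low W A τ h c o k) := by
    intro k hk
    refine G.K0pre.union _ hk ?_ (Low_convex W A τ h c o k).isPreconnected
    have hek := TileRx228.ge_ne hP (o + k)
    refine ⟨?_, ?_, ?_⟩
    · rw [X_wl hek, abs_zero]; exact hc0
    · rw [Y_wl hek]
    · rw [Y_wl hek]; linarith
  have hKpre : IsPreconnected (⋃₀ KK) := by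
    refine isPreconnected_sUnion wb KK ?_ ?_
    · rintro Q (rfl | rfl | ⟨k, hk, rfl⟩)
      · exact Or.inl G.K0k
      · exact Or.inl G.K0k
      · exact Or.inl G.K0k
    · rintro Q (rfl | rfl | ⟨k, hk, rfl⟩)
      · exact hKLpre
      · exact hLowpre k0 G.K0k
      · exact hLowpre k hk.foot
  obtain ⟨cw, c1, c2, c3, c4, c5, c6, c7⟩ := sep_chain D T (N := M) (by omega) hnM.le GI hxz hxM
    (W := WC S χ y W A B h o x) hW
    (fun j hj hj' s hs => ⟨hs.1.1.1, hs.1.1.2, fun hsd => dn_off G N hj' (by omega) (by omega) hsd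
      (RR_mono (by linarith) (by linarith) h W _ hs.1.2)⟩)
    (RR := fun j => {w | w ∈ RR (A + τ) (B + τ) h W (o + j) ∧
      ∀ k, CG M n W A τ h o K0 k → j = k ∨ j + 1 = k →
        -A < Y (gz h W (o + k)) (ge W (o + k)) w})
    (fun j hj u v hd hu hv w hw => ⟨seg _ u v hd hu hv hw, fun k hk hjk => by
      have := hk.nk
      omega⟩)
    (fun j hj hj' u v hd hu hv w hw => ⟨seg _ u v hd (sub1 _ hu.1.2) (sub1 _ hv.1.2) hw,
      fun k hk hjk => by
        have g1 := (abs_lt.1 (hk.strip G hjk hu.1.2).1).1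
        have g2 := (abs_lt.1 (hk.strip G hjk hv.1.2).1).1
        obtain ⟨r, s, hr, hs, hrs, rfl⟩ := hw
        rw [Y_comb _ _ hrs]
        exact cv_gt hr hs hrs g1 g2⟩)
    (k1 := k1) (z1 := gz h W (o + k1 + 1)) (e1 := ge W (o + k1 + 1)) (TileRx228.ge_ne hP _)
    (y0 := -(A + τ)) (y1 := A + τ) (by linarith)
    (by
      intro j hj s hsS h1 h2
      have hsR : s ∈ RR (A + ρ) (B + ρ) h W (o + j) := by
        rcases Nat.lt_or_ge j n with h3 | h3
        · exact h1 h3
        · exact sub1 _ (h2 h3).1.2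
      rcases hj with hj | hj
      · rw [hj, RR_mod hP] at hsR
        have h3 := ((frame_S hP (by linarith) (by linarith) st1).1 hsR).2
        rw [← (ex1 s).2, abs_lt] at h3
        constructor <;> linarith [h3.1, h3.2]
      · rw [hj, RR_mod hP, show o + ((k1 + 1 : ℕ) : ℤ) = o + k1 + 1 by push_cast; ring] at hsR
        have h3 := ((frame_S hP (by linarith) (by linarith) st2).1 hsR).2
        rw [abs_lt] at h3
        constructor <;> linarith [h3.1, h3.2])
    (by
      have h3 := xwin' k1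
      rw [(ex1 (x k1)).1]
      linarith [(abs_lt.1 h3).2])
    (by
      have h3 := xwin' (k1 + 2)
      rw [show o + ((k1 + 2 : ℕ) : ℤ) = o + k1 + 1 + 1 by push_cast; ring] at h3
      rw [(ex2 (x (k1 + 2))).1] at h3
      linarith [(abs_lt.1 h3).1])
    (by
      intro j hj hj' t1 h3 h4 h5
      have h5' : wl (gz h W (o + k1 + 1)) (ge W (o + k1 + 1)) t1 ∈ RR (A + τ) (B + τ) h W (o + j) := by
        have := RR_mod hP (A + τ) (B + τ) h o j
        rw [← this]; exact h5.1
      refine G.win_off (a := o + k1 + 1) (b := o + j) (ndvd (by omega) (by omega) (by omega))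
        (ndvd (by omega) (by omega) (by omega)) ?_ ?_ (RR_mono (by linarith) (by linarith) h W _ h5')
      · rw [X_wl (TileRx228.ge_ne hP _), abs_zero]; linarith
      · rw [Y_wl (TileRx228.ge_ne hP _), abs_lt]; constructor <;> linarith)
    (by
      intro j hj t1 h3 h4
      have h5 := G.ext _ _ h4.1
      rw [Y_wl (TileRx228.ge_ne hP _)] at h5
      linarith)
    (K := ⋃₀ KK) hKpre
    (by
      rintro w ⟨Q, hQ, hw⟩ j hj ⟨h4, h4'⟩
      have hKL' : w ∈ K0 → False := fun hw => G.K0off w hw _ h4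
      rcases hQ with rfl | rfl | ⟨k, hk, rfl⟩
      rotate_left 1
      · rcases hw with hw | hw
        · exact absurd hw hKL'
        · obtain ⟨g1, g2, g3⟩ := hw
          refine ⟨?_, g3⟩
          by_contra hc'
          push Not at hc'
          exact G.win_off (a := o + k0) (b := o + j) (ndvd (by omega) (by omega) (by omega))
            (ndvd (by omega) (by omega) (by omega)) (by linarith)
            (abs_lt.2 ⟨by linarith, by linarith⟩)
            (RR_mono (by linarith) (by linarith) h W _ h4)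
      rotate_left 1
      · rcases hw with hw | hw
        · exact absurd hw hKL'
        · obtain ⟨g1, g2, g3⟩ := hsegb w hw
          refine ⟨?_, g3⟩
          by_contra hc
          push Not at hc
          exact G.win_off (a := o + k0) (b := o + j) (ndvd (by omega) (by omega) (by omega))
            (ndvd (by omega) (by omega) (by omega)) g1 g2
            (RR_mono (by linarith) (by linarith) h W _ h4)
      · rcases hw with hw | hw
        · exact absurd hw hKL'
        · obtain ⟨g1, g2, g3⟩ := hw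
          exfalso
          by_cases hjk : j = k ∨ j + 1 = k
          · have := h4' k hk hjk
            linarith
          · push Not at hjk
            exact hk.off G hj hjk.1 hjk.2 (by linarith)
              (abs_lt.2 ⟨by linarith, by linarith⟩) (RR_mono (by linarith) (by linarith) h W _ h4))
    ⟨KL, Or.inl rfl, Or.inl G.K0e⟩
    ⟨KL, Or.inl rfl, Or.inr (by rw [hbS]; exact left_mem_segment ℝ _ _)⟩
  have hbS' : asum bS cw = -(2 * Real.pi) :=
    c5 bS ⟨KL, Or.inl rfl, Or.inr (left_mem_segment ℝ _ _)⟩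
  refine ⟨cw, ⟨c1, c2, c3, c4, fun w hw => c5 w ⟨KL, Or.inl rfl, Or.inl hw⟩, fun k hk w hw =>
    c5 w ⟨_, Or.inr (Or.inr ⟨k, hk, rfl⟩), Or.inr hw⟩, c6, c7⟩, fun w hw =>
    c5 w ⟨_, Or.inr (Or.inl rfl), Or.inr hw⟩, ?_⟩
  -- the lower arm misses the chain
  have hdnc : ∀ s ∈ dn, s ∉ cw := by
    intro s hsd hs
    rcases c4 s hs with ⟨k, hk, h⟩ | ⟨j, h1, h2, h⟩
    · exact (T.miss hS GI.h2 GI.h3 GI.he GI.neck GI.upz GI.x0a GI.a1x GI.β1 GI.β2 GI.strip GI.left
        GI.right GI.mid GI.farB hk h).2.1 hsd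
    · exact dn_off G N h2 (by omega) (by omega) hsd
        (RR_mono (by linarith) (by linarith) _ W _ h.1.2)
  intro s hs
  have hadj := N.neck.adj
  rw [← isChain_iff_prs, List.isChain_append] at hadj
  have h1 : Lk S {s | s ∈ dn} s (dn.getLast N.neck.nd) :=
    lk_list ((isChain_iff_prs (R := DE S) dn).1 hadj.2.1.tail) (fun s hs => hs) hs
      (List.getLast_mem _)
  rw [asum_lk hS c1 (fun s hs => hdnc s hs) h1, ← hbS]
  exact hbS'

end Crest.Agent.R143.SepXx686
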