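import Crest.Agent.R143.GeoSeqP_422
import Crest.Agent.R143.GeoK_904

/-!
# Row 143 (S0194), FIX A (758), spine side, file 3 (helper904): sequences of domains with thin tentacles

* `exists_seqK` : copy of 416's `exists_seq` with `δ n ≤ Θ n L0`, `‖c n‖ + L n ≤ L0`
* `LDomK'`, `ldomK`
-/

set_option autoImplicit false
set_option linter.all false

noncomputable section

namespace Crest.Agent.R143.SeqKx904

open Set Filter Topology MeasureTheory Metric
open Crest.ProbabilityR.Voronoi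
open Crest.Agent.R143.B0x346 Crest.Agent.R143.B0Dx346
open Crest.Agent.R143.Spinex422 Crest.Agent.R143.Cfgx416
open Crest.Agent.R143.BC0x336
open Crest.Agent.R158.Jt785 Crest.Agent.R158.Sp896
open Crest.ProbabilityR.Percolation
open Crest.Agent.R143.GeoSeqx416 Crest.Agent.R143.SwlPx422
open Crest.Agent.R143.GeoSeqPx422 Crest.Agent.R143.GeoKx904

/-- 416's sequence, with null frontiers and arbitrarily thin tentacles: `δ n ≤ Θ n L0` where `L0` is a
bound for the disc of the `n`-th configuration, chosen before `δ n` -/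
theorem exists_seqK (hG : GEOK) (hC : CARA) (S : Dat) {b : ℂ} (hb : b ∈ frontier S.D)
    (hbd : b ≠ S.d) (hφb : S.φ b = S.x) (up : Bool) {Θ : ℕ → ℝ → ℝ}
    (hΘ : ∀ n L, 0 < L → 0 < Θ n L) : ∃ A m md rv C δ κ G B,
    Seq4 S b up A m md rv C δ κ G B ∧ (∀ n, volume (frontier (C n).out) = 0) ∧
      ∀ n, ∃ L0 > 0, ‖(C n).c‖ + (C n).L ≤ L0 ∧ δ n ≤ Θ n L0 := by
  obtain ⟨g, f, hU, hj, hgb, hgd, a0, a1, a2, a3⟩ := hC S b hb hbd hφb
  set A : ZMod 4 → Set ℂ := fun i => arc g ((i.val : ℝ) / 4) (((i.val : ℝ) + 1) / 4) with hA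
  set m : ZMod 4 → ℂ := fun i => g ((i.val : ℝ) / 4) with hm
  obtain ⟨md, hmd, h1⟩ := hG g f hU S.D A m hj.symm (fun i => rfl) (fun i => rfl)
  have hT : (if up then ({0, 2} : Set (ZMod 4)) else {1, 3}) = {0, 2} ∨
      (if up then ({0, 2} : Set (ZMod 4)) else {1, 3}) = {1, 3} := by
    cases up
    · right; rfl
    · left; rfl
  have hen : ∀ n : ℕ, (0 : ℝ) < 1 / ((n : ℝ) + 1) := fun n => by positivity
  choose L0 hL0 hmac0 using fun n : ℕ => h1 _ hT (1 / ((n : ℝ) + 1)) (hen n)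
    (Kn S.D (1 / ((n : ℝ) + 1))) (isCompact_Kn S.hDb _) (Kn_sub S.hD (hen n))
  choose rv C δ κ G B hmac using fun n : ℕ => hmac0 n (Θ n (L0 n)) (hΘ n _ (hL0 n))
  have v0 : ((0 : ZMod 4).val : ℝ) = 0 := by norm_num
  have v1 : ((1 : ZMod 4).val : ℝ) = 1 := by
    have : (1 : ZMod 4).val = 1 := rfl
    rw [this]; norm_num
  have v2 : ((2 : ZMod 4).val : ℝ) = 2 := by
    have : (2 : ZMod 4).val = 2 := rfl
    rw [this]; norm_num
  have v3 : ((3 : ZMod 4).val : ℝ) = 3 := by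
    have : (3 : ZMod 4).val = 3 := rfl
    rw [this]; norm_num
  have A0 : A 0 = arc g 0 (1 / 4) := by
    simp only [hA]; rw [v0]; norm_num
  have A1 : A 1 = arc g (1 / 4) (1 / 2) := by
    simp only [hA]; rw [v1]; norm_num
  have A2 : A 2 = arc g (1 / 2) (3 / 4) := by
    simp only [hA]; rw [v2]; norm_num
  have A3 : A 3 = arc g (3 / 4) 1 := by
    simp only [hA]; rw [v3]; norm_num
  have m0 : m 0 = g 0 := by
    simp only [hm]; rw [v0]; norm_num
  have m1 : m 1 = g (1 / 4) := by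
    simp only [hm]; rw [v1]
  have m2 : m 2 = g (1 / 2) := by
    simp only [hm]; rw [v2]; norm_num
  have m3 : m 3 = g (3 / 4) := by
    simp only [hm]; rw [v3]
  have c4 : ∀ i : ZMod 4, i = 0 ∨ i = 1 ∨ i = 2 ∨ i = 3 := by decide
  have hfr : frontier S.D = curveTrace g := by
    rw [← hj]
    exact frontier_ji hU.jc (by rw [hj]; exact S.hDc.nonempty)
  have hg01 : g 0 = g 1 := hU.jc.2.2
  have d3 : (3 : ZMod 4) = 0 - 1 := by decide
  refine ⟨A, m, md, rv, C, δ, κ, G, B, ?_, fun n => (hmac n).2.1,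
    fun n => ⟨L0 n, hL0 n, (hmac n).2.2⟩⟩
  refine ⟨⟨?_, ?_, ?_, ?_, ?_, ?_⟩, by rw [A0, a0], by rw [A2, a2], by rw [m1, hgb], ?_, hmd,
    fun n => (hmac n).1⟩
  · intro i
    rcases c4 i with rfl | rfl | rfl | rfl
    · rw [A0]; exact arc_compact hU (by norm_num) (by norm_num)
    · rw [A1]; exact arc_compact hU (by norm_num) (by norm_num)
    · rw [A2]; exact arc_compact hU (by norm_num) (by norm_num)
    · rw [A3]; exact arc_compact hU (by norm_num) (by norm_num)
  · intro i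
    rcases c4 i with rfl | rfl | rfl | rfl
    · rw [A0, m0]; exact mem_image_of_mem g ⟨by norm_num, by norm_num⟩
    · rw [A1, m1]; exact mem_image_of_mem g ⟨by norm_num, by norm_num⟩
    · rw [A2, m2]; exact mem_image_of_mem g ⟨by norm_num, by norm_num⟩
    · rw [A3, m3]; exact mem_image_of_mem g ⟨by norm_num, by norm_num⟩
  · intro i
    rcases c4 i with rfl | rfl | rfl | rfl
    · rw [← d3, A3, m0, hg01]; exact mem_image_of_mem g ⟨by norm_num, by norm_num⟩
    · rw [show (1 : ZMod 4) - 1 = 0 by decide, A0, m1]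
      exact mem_image_of_mem g ⟨by norm_num, by norm_num⟩
    · rw [show (2 : ZMod 4) - 1 = 1 by decide, A1, m2]
      exact mem_image_of_mem g ⟨by norm_num, by norm_num⟩
    · rw [show (3 : ZMod 4) - 1 = 2 by decide, A2, m3]
      exact mem_image_of_mem g ⟨by norm_num, by norm_num⟩
  · intro i
    rw [hfr]
    rcases c4 i with rfl | rfl | rfl | rfl
    · rw [A0]; exact image_mono (Icc_subset_Icc (by norm_num) (by norm_num))
    · rw [A1]; exact image_mono (Icc_subset_Icc (by norm_num) (by norm_num))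
    · rw [A2]; exact image_mono (Icc_subset_Icc (by norm_num) (by norm_num))
    · rw [A3]; exact image_mono (Icc_subset_Icc (by norm_num) (by norm_num))
  · rw [hfr]
    rintro z ⟨t, ht, rfl⟩
    rw [mem_iUnion]
    rcases le_total t (1 / 4) with h | h
    · exact ⟨0, by rw [A0]; exact mem_image_of_mem g ⟨ht.1, h⟩⟩
    rcases le_total t (1 / 2) with h' | h'
    · exact ⟨1, by rw [A1]; exact mem_image_of_mem g ⟨h, h'⟩⟩
    rcases le_total t (3 / 4) with h'' | h''
    · exact ⟨2, by rw [A2]; exact mem_image_of_mem g ⟨h', h''⟩⟩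
    · exact ⟨3, by rw [A3]; exact mem_image_of_mem g ⟨h'', ht.2⟩⟩
  · have h02 : Disjoint (A 0) (A 2) := by rw [A0, A2]; exact arc_disj hU
    have h13 : Disjoint (A 1) (A 3) := by
      rw [A1, A3, a1, a3, disjoint_left]
      rintro z ⟨hz1, hz2, hz3, hz4, hz5⟩ (⟨-, -, -, hz⟩ | hz)
      · linarith [S.hx0]
      · exact hz2 hz
    intro i
    rcases c4 i with rfl | rfl | rfl | rfl
    · rw [show (0 : ZMod 4) + 2 = 2 by decide]; exact h02
    · rw [show (1 : ZMod 4) + 2 = 3 by decide]; exact h13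
    · rw [show (2 : ZMod 4) + 2 = 0 by decide]; exact h02.symm
    · rw [show (3 : ZMod 4) + 2 = 1 by decide]; exact h13.symm
  · rintro i p ⟨hp1, hp2, hp3, hp4⟩ l hl hpl
    have c3 : ∀ i : ZMod 3, i = 0 ∨ i = 1 ∨ i = 2 := by decide
    have hx0 := S.hx0
    have hx1 := S.hx1
    rcases c4 l with rfl | rfl | rfl | rfl
    · rw [A0, a0] at hpl
      obtain ⟨-, -, -, h4, h5⟩ := hpl
      rcases c3 i with rfl | rfl | rfl
      · exact hl (by decide)
      · rw [if_neg (by decide), if_pos rfl] at hp4; linarith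
      · rw [if_neg (by decide), if_neg (by decide)] at hp4; linarith
    · rw [A1, a1] at hpl
      obtain ⟨-, -, -, h4, h5⟩ := hpl
      rcases c3 i with rfl | rfl | rfl
      · exact hl (by decide)
      · rw [if_neg (by decide), if_pos rfl] at hp4; linarith
      · rw [if_neg (by decide), if_neg (by decide)] at hp4; linarith
    · rw [A2, a2] at hpl
      rcases hpl with ⟨-, -, -, h4⟩ | hpl
      · rcases c3 i with rfl | rfl | rfl
        · rw [if_pos rfl] at hp4; linarith [hp4.2]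
        · exact hl (by decide)
        · rw [if_neg (by decide), if_neg (by decide)] at hp4; linarith
      · exact hp2 hpl
    · rw [A3, a3] at hpl
      rcases hpl with ⟨-, -, -, h4⟩ | hpl
      · rcases c3 i with rfl | rfl | rfl
        · rw [if_pos rfl] at hp4; linarith [hp4.1]
        · rw [if_neg (by decide), if_pos rfl] at hp4; linarith
        · exact hl (by decide)
      · exact hp2 hpl


/-- the leaf `LDom'` with thin tentacles: the width `δ n` of the tentacles is chosen after a bound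
`L0` of the disc of the domain -/
def LDomK' (Adm : Dom → ℝ → Prop) : Prop := ∀ (Θ : ℕ → ℝ → ℝ), (∀ n L, 0 < L → 0 < Θ n L) →
  ∀ (S : Dat) (b : ℂ), b ∈ frontier S.D → b ≠ S.d → S.φ b = S.x → ∀ up : Bool,
  ∃ (rv : ℕ → Bool) (Dm : ℕ → Dom) (δ m : ℕ → ℝ), (∀ n, Adm (Dm n) (δ n)) ∧
    (∀ n, ∃ L0 > 0, ‖(Dm n).c‖ + (Dm n).L ≤ L0 ∧ δ n ≤ Θ n L0) ∧ RoomOK S.D Dm m ∧
    ArcGeo S rv Dm ∧ ∀ G : ℕ → ℝ → Set Sample, (∀ n, GoodFam (Dm n) (G n)) →
      ∃ c : ℕ × ℝ → ℝ, Val S b (Hs rv Dm G) c ∧ Sand S up c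

theorem ldomK (hG : GEOK) (hC : CARA) (hV : VAL) (hL : D4LO) (hU : D4UP) (hcol : D4COL) (hp : P2b)
    (hd : D2) : LDomK' AdP := by
  intro Θ hΘ S b hb hbd hφb up
  obtain ⟨A, m, md, rv, C, δ, κ, G, B, h, hPC, hth⟩ := exists_seqK hG hC S hb hbd hφb up hΘ
  choose Pm hPm using fun n => hcol (C n) (δ n) (h.mac n).ok (ix (rv n))
  have hP : ∀ n, Seq4.PmOK (C n) (Pm n) := fun n => ⟨(hPm n).1, (hPm n).2.1, (hPm n).2.2.1⟩
  have hb0 : b ∈ S.arc 0 := by
    refine ⟨hb, hbd, ?_, ?_⟩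
    · rw [hφb]; exact Complex.ofReal_im _
    · rw [if_pos rfl, hφb]
      exact ⟨S.hx0, S.hx1⟩
  refine ⟨rv, fun n => (C n).dom, δ, κ, fun n => ⟨h.adm n, by rw [Cfg.dom_out]; exact hPC n⟩,
    fun n => hth n, h.roomOK, h.arcGeo, fun Gf hGf => ?_⟩
  refine ⟨_, h.val hV hp hd hb0 hP (fun n => ?_) hGf, h.sand hL hU hP⟩
  filter_upwards [(hPm n).2.2.2] with ε hε
  exact ⟨hε.1, hε.2.2⟩

end Crest.Agent.R143.SeqKx904
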