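import Crest.Agent.R143.NonX_592

/-!
# Row 143 (S0194), block H: side potential of a loop (helper659)

`M` a closed map, `x` even, `p` occupied; `Lp M x p` = the states of the loop of `p`, `Le M x p` = the
darts `d` with `d` or `iota d` on the loop (the edges crossed by the loop).
* `side` : there is `σ : C → ZMod 2` with `σ (cell d) + σ (cell (rho d)) = [d ∈ Le]` for ALL darts
* `side0` : the same with `σ = 0` on the left cells and `σ = 1` on the right cells of the loop
* `IsSide.eq`, `.zero`, `.ad` : `σ` across a dart; `.left`, `.right` : left and right cells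
* `IsSide.chain` : constant along chains of cells which do not cross the loop
* `IsSide.cross` : a chain of darts whose ends have different sides crosses the loop;
  `IsSide.pari` : side at the start + side at the end = number of crossings
* `IsSide.other` : all the cells next to another loop are on the same side; `IsSide.rev`
* `IsSide.walk` : the hypothesis of `GiantE_197.not_ek_walk`
-/

set_option autoImplicit false

noncomputable section

open scoped Classical

namespace Crest.Agent.R143.SidePx659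

open Crest.Agent.R143.Frame1x395 Crest.Agent.R143.Frame2x395 Crest.Agent.R143.Frame3x395
  Crest.Agent.R143.NonXx592

variable {D C : Type} {M : CMap D C} {x : D → ZMod 2}

/-- the states of the loop of `p` -/
def Lp (M : CMap D C) (x : D → ZMod 2) (p : D) : Set D := {d | ∃ n, P M x p n = d}

/-- the darts whose edge is crossed by the loop of `p` -/
def Le (M : CMap D C) (x : D → ZMod 2) (p : D) : Set D := {d | d ∈ Lp M x p ∨ M.iota d ∈ Lp M x p}

theorem lp_self {p : D} : p ∈ Lp M x p := ⟨0, rfl⟩

theorem lp_stp {p d : D} (h : d ∈ Lp M x p) : stp M x d ∈ Lp M x p := by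
  obtain ⟨n, rfl⟩ := h
  exact ⟨n + 1, P_succ p n⟩

theorem lp_occ (hx : IsC M ∅ x) {p d : D} (hp : x p = 1) (h : d ∈ Lp M x p) : x d = 1 := by
  obtain ⟨n, rfl⟩ := h
  exact P_occ hx hp n

theorem le_occ (hx : IsC M ∅ x) {p d : D} (hp : x p = 1) (h : d ∈ Le M x p) : x d = 1 := by
  rcases h with h | h
  · exact lp_occ hx hp h
  · have h1 := lp_occ hx hp h
    rwa [hx.iot] at h1

theorem le_iota {p d : D} : M.iota d ∈ Le M x p ↔ d ∈ Le M x p := by
  unfold Le
  show (M.iota d ∈ Lp M x p ∨ M.iota (M.iota d) ∈ Lp M x p) ↔ (d ∈ Lp M x p ∨ M.iota d ∈ Lp M x p)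
  rw [M.iota2]
  exact or_comm

/-- every state of the loop has a predecessor on the loop -/
theorem lp_pre [Finite D] (hx : IsC M ∅ x) {p d : D} (hp : x p = 1) (h : d ∈ Lp M x p) :
    ∃ e ∈ Lp M x p, stp M x e = d := by
  obtain ⟨n, rfl⟩ := h
  cases n with
  | zero =>
    obtain ⟨N, hN, h1⟩ := periodic hx hp
    obtain ⟨m, rfl⟩ : ∃ m, N = m + 1 := ⟨N - 1, by omega⟩
    refine ⟨P M x p m, ⟨m, rfl⟩, ?_⟩
    rw [← P_succ]
    exact h1
  | succ n => exact ⟨P M x p n, ⟨n, rfl⟩, (P_succ p n).symm⟩

/-- exactly one of the two other sides of the face is crossed -/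
theorem le_face [Finite D] (hx : IsC M ∅ x) {p d : D} (hp : x p = 1) (h : d ∈ Le M x p) :
    (M.rho d ∈ Le M x p ∧ M.rho (M.rho d) ∉ Le M x p) ∨
      (M.rho d ∉ Le M x p ∧ M.rho (M.rho d) ∈ Le M x p) := by
  have hno : ∀ e, x e = 0 → e ∉ Le M x p := by
    intro e he h1
    rw [le_occ hx hp h1] at he
    exact absurd he (by decide)
  rcases h with h | h
  · rcases stp_cases hx (lp_occ hx hp h) (Set.notMem_empty _) with ⟨-, h2, e⟩ | ⟨h2, -, e⟩
    · left
      refine ⟨Or.inr ?_, hno _ h2⟩
      rw [← e]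
      exact lp_stp h
    · right
      refine ⟨hno _ h2, Or.inr ?_⟩
      rw [← e]
      exact lp_stp h
  · obtain ⟨q, hq, e1⟩ := lp_pre hx hp h
    rcases stp_cases hx (lp_occ hx hp hq) (Set.notMem_empty _) with ⟨-, h2, e⟩ | ⟨h2, -, e⟩
    · -- `d = rho q`
      have e2 : d = M.rho q := iota_inj M (e1.symm.trans e)
      right
      rw [e2]
      refine ⟨hno _ h2, Or.inl ?_⟩
      rw [M.rho3]
      exact hq
    · have e2 : d = M.rho (M.rho q) := iota_inj M (e1.symm.trans e)
      left
      rw [e2, M.rho3]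
      exact ⟨Or.inl hq, hno _ h2⟩

/-- **side potential** of the loop -/
theorem side [Finite D] (hx : IsC M ∅ x) {p : D} (hp : x p = 1) :
    ∃ σ : C → ZMod 2, ∀ d, σ (M.cell d) + σ (M.cell (M.rho d)) =
      if d ∈ Le M x p then 1 else 0 := by
  have h1 : ∀ d, d ∉ M.live → (if d ∈ Le M x p then (1 : ZMod 2) else 0) = 0 := by
    intro d hd
    rw [if_neg]
    intro h
    exact hd (hx.lv (le_occ hx hp h))
  have h2 : ∀ d, (if M.iota d ∈ Le M x p then (1 : ZMod 2) else 0) =
      if d ∈ Le M x p then (1 : ZMod 2) else 0 := by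
    intro d
    simp only [le_iota]
  have h3 : ∀ d, (if d ∈ Le M x p then (1 : ZMod 2) else 0) +
      (if M.rho d ∈ Le M x p then (1 : ZMod 2) else 0) +
      (if M.rho (M.rho d) ∈ Le M x p then (1 : ZMod 2) else 0) = 0 := by
    intro d
    by_cases h0 : d ∈ Le M x p
    · rcases le_face hx hp h0 with ⟨h1, h2⟩ | ⟨h1, h2⟩
      · rw [if_pos h0, if_pos h1, if_neg h2]; decide
      · rw [if_pos h0, if_neg h1, if_pos h2]; decide
    · by_cases h1 : M.rho d ∈ Le M x p
      · rcases le_face hx hp h1 with ⟨h2, -⟩ | ⟨-, h2⟩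
        · rw [if_neg h0, if_pos h1, if_pos h2]; decide
        · rw [M.rho3] at h2
          exact absurd h2 h0
      · by_cases h2 : M.rho (M.rho d) ∈ Le M x p
        · rcases le_face hx hp h2 with ⟨h3, -⟩ | ⟨-, h3⟩
          · rw [M.rho3] at h3
            exact absurd h3 h0
          · rw [M.rho3] at h3
            exact absurd h3 h1
        · rw [if_neg h0, if_neg h1, if_neg h2]; decide
  obtain ⟨σ, hσ⟩ := M.ex (fun d => if d ∈ Le M x p then 1 else 0) h1 h2 h3
  exact ⟨σ, fun d => (hσ d).symm⟩

theorem z_eq : ∀ a b : ZMod 2, a + b = 0 → a = b := by decide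

theorem z_ad : ∀ a b : ZMod 2, a + b = 1 → b = a + 1 := by decide

/-- a side potential of the loop of `p` -/
def IsSide (M : CMap D C) (x : D → ZMod 2) (p : D) (σ : C → ZMod 2) : Prop :=
  ∀ d, σ (M.cell d) + σ (M.cell (M.rho d)) = if d ∈ Le M x p then 1 else 0

theorem IsSide.eq {p : D} {σ : C → ZMod 2} (h : IsSide M x p σ) {d : D} (hd : d ∉ Le M x p) :
    σ (M.cell d) = σ (M.cell (M.rho d)) := by
  have h1 := h d
  rw [if_neg hd] at h1
  exact z_eq _ _ h1

theorem IsSide.zero {p : D} {σ : C → ZMod 2} (h : IsSide M x p σ) (hx : IsC M ∅ x) (hp : x p = 1)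
    {d : D} (hd : x d = 0) : σ (M.cell d) = σ (M.cell (M.rho d)) := by
  refine h.eq fun h1 => ?_
  rw [le_occ hx hp h1] at hd
  exact absurd hd (by decide)

theorem IsSide.ad {p : D} {σ : C → ZMod 2} (h : IsSide M x p σ) {d : D} (hd : d ∈ Le M x p) :
    σ (M.cell (M.rho d)) = σ (M.cell d) + 1 := by
  have h1 := h d
  rw [if_pos hd] at h1
  exact z_ad _ _ h1

/-- the left cells have the same side -/
theorem IsSide.left {p : D} {σ : C → ZMod 2} (h : IsSide M x p σ) (hx : IsC M ∅ x)
    (hp : x p = 1) (n : ℕ) : σ (M.cell (P M x p n)) = σ (M.cell p) :=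
  it_col hx hp (fun _ hd => h.zero hx hp hd) n

/-- the right cells have the other side -/
theorem IsSide.right {p : D} {σ : C → ZMod 2} (h : IsSide M x p σ) (hx : IsC M ∅ x)
    (hp : x p = 1) (n : ℕ) : σ (M.cell (M.rho (P M x p n))) = σ (M.cell p) + 1 := by
  rw [h.ad (Or.inl ⟨n, rfl⟩), h.left hx hp n]

/-- **side potential**, normalised: `0` on the left, `1` on the right -/
theorem side0 [Finite D] (hx : IsC M ∅ x) {p : D} (hp : x p = 1) :
    ∃ σ : C → ZMod 2, IsSide M x p σ ∧ (∀ n, σ (M.cell (P M x p n)) = 0) ∧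
      ∀ n, σ (M.cell (M.rho (P M x p n))) = 1 := by
  obtain ⟨τ, hτ⟩ := side hx hp
  have h : IsSide M x p (fun c => τ c + τ (M.cell p)) := by
    intro d
    have h1 := hτ d
    rw [← h1]
    have h2 := z2 (τ (M.cell p))
    linear_combination h2
  have h0 : (fun c => τ c + τ (M.cell p)) (M.cell p) = 0 := z2 _
  refine ⟨fun c => τ c + τ (M.cell p), h, fun n => ?_, fun n => ?_⟩
  · exact (h.left hx hp n).trans h0
  · have h1 := h.right hx hp n
    have h2 : τ (M.cell (M.rho (P M x p n))) + τ (M.cell p) =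
        (τ (M.cell p) + τ (M.cell p)) + 1 := h1
    have h3 := z2 (τ (M.cell p))
    show τ (M.cell (M.rho (P M x p n))) + τ (M.cell p) = 1
    rw [h2, h3, zero_add]

/-- `d` joins two cells without crossing the loop -/
def Lk (M : CMap D C) (x : D → ZMod 2) (p : D) (c c' : C) : Prop :=
  ∃ d, d ∉ Le M x p ∧ M.cell d = c ∧ M.cell (M.rho d) = c'

/-- the side is constant along chains which do not cross the loop -/
theorem IsSide.chain {p : D} {σ : C → ZMod 2} (h : IsSide M x p σ) {c c' : C}
    (hc : Relation.EqvGen (Lk M x p) c c') : σ c = σ c' := by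
  induction hc with
  | rel a b hab =>
    obtain ⟨d, hd, rfl, rfl⟩ := hab
    exact h.eq hd
  | refl a => rfl
  | symm a b _ ih => exact ih.symm
  | trans a b c _ _ ih1 ih2 => exact ih1.trans ih2

/-- a chain of cells `c 0, .., c m` (consecutive cells joined by the darts `e i`) whose ends have
different sides crosses the loop -/
theorem IsSide.cross {p : D} {σ : C → ZMod 2} (h : IsSide M x p σ) {m : ℕ} {e : ℕ → D}
    (hc : ∀ i, i + 1 < m → M.cell (M.rho (e i)) = M.cell (e (i + 1))) (hm : 0 < m)
    (hne : σ (M.cell (e 0)) ≠ σ (M.cell (M.rho (e (m - 1))))) : ∃ i, i < m ∧ e i ∈ Le M x p := by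
  by_contra hcon
  push Not at hcon
  have key : ∀ i, i < m → σ (M.cell (e 0)) = σ (M.cell (M.rho (e i))) := by
    intro i
    induction i with
    | zero => intro _; exact h.eq (hcon 0 hm)
    | succ i ih =>
      intro hi
      rw [ih (by omega), hc i (by omega)]
      exact h.eq (hcon (i + 1) hi)
  exact hne (key (m - 1) (by omega))

/-- the two ends of a state of ANOTHER loop are on the same side -/
theorem IsSide.other [Finite D] {p : D} {σ : C → ZMod 2} (h : IsSide M x p σ) (hx : IsC M ∅ x)
    (hp : x p = 1) {q : D} (hq : x q = 1) (h1 : q ∉ Lp M x p) (h2 : M.iota q ∉ Lp M x p) (n : ℕ) :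
    σ (M.cell (P M x q n)) = σ (M.cell q) ∧ σ (M.cell (M.rho (P M x q n))) = σ (M.cell q) := by
  have key : ∀ n, P M x q n ∉ Le M x p := by
    intro n
    induction n with
    | zero => rintro (h3 | h3) <;> contradiction
    | succ n ih =>
      intro h3
      apply ih
      rw [P_succ] at h3
      rcases h3 with h3 | h3
      · obtain ⟨e, he, h4⟩ := lp_pre hx hp h3
        left
        have h5 := stp_inj hx (lp_occ hx hp he) (Set.notMem_empty _) (P_occ hx hq n)
          (Set.notMem_empty _) h4
        rw [← h5]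
        exact he
      · right
        have h4 := stp_rev hx (P_occ hx hq n) (Set.notMem_empty _)
        rw [← h4]
        exact lp_stp h3
  have hl : σ (M.cell (P M x q n)) = σ (M.cell q) := it_col hx hq (fun _ hd => h.zero hx hp hd) n
  exact ⟨hl, by rw [← h.eq (key n), hl]⟩

/-! ### the form of 197's `GiantE_197.not_ek_walk`, and parity of crossings -/

theorem it_per {p : D} {N : ℕ} (hN : P M x p N = p) (n : ℕ) : P M x p (n + N) = P M x p n := by
  induction n with
  | zero => rw [Nat.zero_add, hN]; rfl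
  | succ n ih =>
    have e : n + 1 + N = (n + N) + 1 := by omega
    rw [e, P_succ, ih, ← P_succ]

theorem it_mod {p : D} {N : ℕ} (hN : P M x p N = p) (h0 : 0 < N) (n : ℕ) :
    P M x p n = P M x p (n % N) := by
  induction n using Nat.strong_induction_on with
  | _ n ih =>
    by_cases h : n < N
    · rw [Nat.mod_eq_of_lt h]
    · have h1 := it_per hN (n - N)
      rw [Nat.sub_add_cancel (by omega)] at h1
      rw [h1, ih (n - N) (by omega), ← Nat.mod_eq_sub_mod (by omega)]

/-- **the side changes only across the states `0 .. n` of the walk** if the walk is closed by the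
time `n + 1` -/
theorem IsSide.walk {p : D} {σ : C → ZMod 2} (h : IsSide M x p σ) {n N : ℕ}
    (hN : P M x p N = p) (h0 : 0 < N) (hn : N ≤ n + 1) :
    ∀ d ∈ M.live, σ (M.cell d) ≠ σ (M.cell (M.rho d)) →
      ∃ j ≤ n, P M x p j = d ∨ P M x p j = M.iota d := by
  intro d _ hne
  have hd : d ∈ Le M x p := by
    by_contra hd
    exact hne (h.eq hd)
  rcases hd with ⟨k, hk⟩ | ⟨k, hk⟩
  · refine ⟨k % N, by have := Nat.mod_lt k h0; omega, Or.inl ?_⟩
    rw [← it_mod hN h0, hk]
  · refine ⟨k % N, by have := Nat.mod_lt k h0; omega, Or.inr ?_⟩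
    rw [← it_mod hN h0, hk]

/-- **parity of the crossings** : a chain of cells `cell (e 0), .., cell (rho (e (m - 1)))` -/
theorem IsSide.pari {p : D} {σ : C → ZMod 2} (h : IsSide M x p σ) {m : ℕ} {e : ℕ → D}
    (hc : ∀ i, i + 1 < m + 1 → M.cell (M.rho (e i)) = M.cell (e (i + 1))) :
    σ (M.cell (e 0)) + σ (M.cell (M.rho (e m))) =
      ((((Finset.range (m + 1)).filter fun i => e i ∈ Le M x p).card : ℕ) : ZMod 2) := by
  induction m with
  | zero =>
    rw [h (e 0), Finset.range_one, Finset.filter_singleton]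
    split_ifs <;> simp
  | succ m ih =>
    have ih' := ih (fun i hi => hc i (by omega))
    have e1 := hc m (by omega)
    rw [Finset.range_add_one, Finset.filter_insert]
    have e2 := h (e (m + 1))
    have key : σ (M.cell (e 0)) + σ (M.cell (M.rho (e (m + 1)))) =
        (σ (M.cell (e 0)) + σ (M.cell (M.rho (e m)))) +
          (σ (M.cell (e (m + 1))) + σ (M.cell (M.rho (e (m + 1))))) := by
      rw [e1]
      have h3 := z2 (σ (M.cell (e (m + 1))))
      linear_combination -h3
    rw [key, ih', e2]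
    by_cases hd : e (m + 1) ∈ Le M x p
    · rw [if_pos hd, if_pos hd, Finset.card_insert_of_notMem (by simp), Nat.cast_add, Nat.cast_one]
    · rw [if_neg hd, if_neg hd, add_zero]

/-- the reversed loop is another loop -/
theorem IsSide.rev {p : D} {σ : C → ZMod 2} (h : IsSide M x p σ) (hx : IsC M ∅ x)
    (hp : x p = 1) {d : D} (hd : d ∈ Lp M x p) : M.iota d ∉ Lp M x p := by
  rintro ⟨k, hk⟩
  obtain ⟨n, rfl⟩ := hd
  have h1 := h.left hx hp k
  have h2 := h.right hx hp n
  rw [hk, M.cell_iota _ (hx.lv (P_occ hx hp n)), h2] at h1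
  have h3 : ∀ a : ZMod 2, a + 1 ≠ a := by decide
  exact h3 _ h1

end Crest.Agent.R143.SidePx659
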