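import Crest.Agent.R143.PlugW_503
import Crest.Agent.R143.RingG_355
import Crest.Agent.R143.RingU_197
import Crest.Agent.R143.VgL_239

/-!
# Row 143 (S0194), block H: 355's `SiteR` and 263's `Wn` for the ring of the family (helper503)

`n + 2 = hb j * m1`, `W = Wi n`, base gate `o = 2 j + 6`; `R` : 713's `RngH` of the colours of the cells;
`p`, `T` : gate darts and gate times of 239's `ring_all`.
* `wi_sqs`, `zq_zB` : names
* `rl_cm0` : the ring loop on `cm0`; `not_ek` : the deep sites are not joined to the hull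
* **`site_fam`** : `SiteR`; left: `cir` (312), `arm` (355), `ra`, `rb` (`PlugW_503.rad_w`)
* **`wn_of`** : 263's `Wn` from `SiteR`
-/

set_option autoImplicit false

noncomputable section

open scoped Classical

namespace Crest.Agent.R143.SitPx503

open Set
open Crest.Agent.R143.B0x346 Crest.Agent.R143.DelGx806 Crest.Agent.R143.DelRx806
open Crest.Agent.R143.JColx54 Crest.Agent.R143.FinCx811
open Crest.Agent.R143.ToolWx838 Crest.Agent.R143.Blkx838 Crest.Agent.R143.CircPx838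
open Crest.Agent.R143.Gatex838 (X Y)
open Crest.Agent.R143.Frame1x395 Crest.Agent.R143.Frame2x395 Crest.Agent.R143.Frame3x395
  Crest.Agent.R143.Frame8x395 Crest.Agent.R143.Frame9x395 Crest.Agent.R143.Frame10x395
open Crest.Agent.R143.Frame5x395 (sd mem_sd th th_spec)
open Crest.Agent.R143.NonXx592 (P)
open Crest.Agent.R143.SmallAx304 (chiS)
open Crest.Agent.R143.WLocx713 Crest.Agent.R143.RingDx117 Crest.Agent.R143.CorHx713
open Crest.Agent.R143.RingXx713 Crest.Agent.R143.RingXx713.RngH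
open Crest.Agent.R143.RcTx422 (scol scol_hull scol_cs)
open Crest.Agent.R143.ColXx829 (Xc)
open Crest.Agent.R143.FactIx432 (cfg_scol)
open Crest.Agent.R143.TileRx228 Crest.Agent.R143.SqPx503 Crest.Agent.R143.RingIx503
open Crest.Agent.R143.RingUx197 Crest.Agent.R143.SqGx445
open Crest.Agent.R143.RingCx312 (zc NumS box_not_eg)
open Crest.Agent.R143.RingBx312 (Kin)
open Crest.Agent.R143.Stripx707 (Dir Sec)
open Crest.Agent.R143.RegGx707 Crest.Agent.R143.WinRx503 Crest.Agent.R143.PlugWx503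
open Crest.Agent.R143.Meetx707 (Pl sr pl_rc0 cel mem_cel)
open Crest.Agent.R143.AnnCx707 (CircG)
open Crest.Agent.R143.RingWx389 (Rad)
open Crest.Agent.R143.RevCx389 (Rg Cw)
open Crest.Agent.R143.RevEx389 (Le)
open Crest.Agent.R143.RWrx355 (RLW)
open Crest.Agent.R143.Winx355 (RL)
open Crest.Agent.R143.RingGx355 (SiteR Rgs)
open Crest.Agent.R143.GiantEx197 (Ek Eg Lf)
open Crest.Agent.R143.VgLx239 (clR)
open Crest.Agent.R143.RingTx263 (RgC)
open Crest.Agent.R143.RcTx263 (Wn)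
open Crest.Agent.R143.Brgx355 (Sm sm_rc0)

/-! ### names -/

theorem wi_sqs (n : ℕ) : Wi n = sqs (n + 2) 1 := by
  funext a
  unfold Wi sqV sqs
  rw [sub_eq_add_neg]
  rfl

theorem zq_zB {n : ℕ} (hn : 0 < n) : zq (100 * et n) (n + 2) 1 = RingUx197.zB := by
  rw [← zc_eq hn]
  unfold zq RingCx312.zc
  apply Complex.ext
  · show 100 * et n * (((n + 2 : ℕ) : ℝ) / 2 - ((1 : ℤ) : ℝ)) =
      100 * et n * (((-1 : ℤ) : ℝ) + ((n + 2 : ℕ) : ℝ) / 2)
    push_cast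
    ring
  · show 100 * et n * (((n + 2 : ℕ) : ℝ) / 2 - ((1 : ℤ) : ℝ)) =
      100 * et n * (((-1 : ℤ) : ℝ) + ((n + 2 : ℕ) : ℝ) / 2)
    push_cast
    ring

theorem hK_eq {n : ℕ} (hn : 0 < n) : 100 * et n * ((n + 2 : ℕ) : ℝ) / 2 = 1 / 2 + 100 * et n := by
  have h := et_mul hn
  push_cast
  linear_combination h / 2

variable {A β : Finset ℂ} {hS : GP (A : Set ℂ)} {h3 : 3 ≤ A.card} {n : ℕ} {U : Set ℂ} {d : ℝ}

/-! ### the ring loop on `cm0` -/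

section loop

variable {M : ℕ} {W : ℤ → ℤ × ℤ} {η : ℝ}
  (R : RngH (Xc hS h3 (chiS hS h3 β)) U M W η d) {p : ℤ → D0 A} {T : ℕ → ℕ} {o : ℤ} {N : ℕ}

theorem p_pz (hp : ∀ a, (p a).1 = (yy η W (Xc hS h3 (chiS hS h3 β)) a,
    xx η W (Xc hS h3 (chiS hS h3 β)) a)) (a : ℤ) :
    p a = pz (scol_hull (chiS hS h3 β)) (clo_X R) a := Subtype.ext (hp a)

/-- **the ring loop of `ring_all` on `cm0`** -/
theorem rl_cm0 (hp : ∀ a, (p a).1 = (yy η W (Xc hS h3 (chiS hS h3 β)) a,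
      xx η W (Xc hS h3 (chiS hS h3 β)) a))
    (L : RLW (rc0 hS) (chiS hS h3 β) (p o) N M T (fun k : ℕ => clR hS (BT η W (o - 1 - k)))) :
    RL (cm0 hS) (cfg (cm0 hS) (lift A (scol_hull (chiS hS h3 β))))
      (pz (scol_hull (chiS hS h3 β)) (clo_X R) o) N M T
      (fun k => RingIx503.cl A (RR (9 * η + η / 2) (51 * η + η / 2) (100 * η) W (o - 1 - k))) := by
  have e := cfg_scol (hS := hS) h3 β
  rw [e, ← p_pz R hp o]
  have hM := R.M5
  refine ⟨⟨?_, L.L.occ, L.L.pos, L.L.per, L.L.inj⟩, L.mono, L.zero, L.per, fun k u h1 h2 => ?_,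
    fun k => ?_, fun k j h1 h2 => ?_⟩
  · rw [← e]
    exact cfg_isC _
  · have h4 := L.reg k u h1 h2
    have h5 : (Chordx355.lc (rc0 hS) (cfg (rc0 hS) (chiS hS h3 β)) (p o) u).1 ∈
        RgC A (BT η W (o - 1 - k)) := h4
    rw [← RngH.BT_eq] at h5
    exact h5
  · show RingIx503.cl A (RR (9 * η + η / 2) (51 * η + η / 2) (100 * η) W
      (o - 1 - ((k + M : ℕ) : ℤ))) = _
    rw [← (clo_X R).rr_per (o - 1 - ((k + M : ℕ) : ℤ)),
      show o - 1 - ((k + M : ℕ) : ℤ) + M = o - 1 - k by push_cast; ring]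
  · refine (clo_X R).dis_cl hS ?_ ?_ ?_
    · exact CorPx503.not_dvd_of (by push_cast; omega) (by push_cast; omega) (by push_cast; omega)
    · exact CorPx503.not_dvd_of (by push_cast; omega) (by push_cast; omega) (by push_cast; omega)
    · exact CorPx503.not_dvd_of (by push_cast; omega) (by push_cast; omega) (by push_cast; omega)

end loop

/-! ### the deep sites -/

section main

variable {p : ℤ → D0 A} {T : ℕ → ℕ} {o : ℤ} {N : ℕ}

/-- **the deep sites are not joined to the hull off the ring loop** -/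
theorem not_ek (hn : 4 ≤ n) (R : RngH (Xc hS h3 (chiS hS h3 β)) U (4 * (n + 2)) (Wi n) (et n) d)
    (hp : ∀ a, (p a).1 = (yy (et n) (Wi n) (Xc hS h3 (chiS hS h3 β)) a,
      xx (et n) (Wi n) (Xc hS h3 (chiS hS h3 β)) a))
    (L : RLW (rc0 hS) (chiS hS h3 β) (p o) N (4 * (n + 2)) T
      (fun k : ℕ => clR hS (BT (et n) (Wi n) (o - 1 - k))))
    (Tp : ∀ k : ℕ, P (rc0 hS) (cfg (rc0 hS) (chiS hS h3 β)) (p o) (T k) = p (o - k))
    (TR : ∀ k i : ℕ, T k ≤ i → i ≤ T (k + 1) →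
      P (rc0 hS) (cfg (rc0 hS) (chiS hS h3 β)) (p o) i ∈ RD A (BT (et n) (Wi n) (o - 1 - k)))
    {u : ℂ} (hu : OnHull A u) {s : ℂ} (hs : s ∈ A)
    (h1 : sup (s - RingUx197.zB) ≤ 1 / 2 + 100 * et n - 10 * et n) :
    sr hS h3 s ∉ Ek (rc0 hS) (sr hS h3 u)
      (Lf (rc0 hS) (cfg (rc0 hS) (chiS hS h3 β)) (p o) N) := by
  have n0 : 0 < n := by omega
  have hη := et_pos n0
  have hηn := et_mul n0
  have hd := R.d0
  have hde := R.de
  have e := cfg_scol (hS := hS) h3 β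
  have L' := rl_cm0 R hp L
  have hK : 100 * et n * ((n + 2 : ℕ) : ℝ) = 1 + 2 * (100 * et n) := by
    push_cast
    linear_combination hηn
  have key := box_not_eg (v := (-1, -1)) (K := n + 2) (W := Wi n) (n := N) (clo_X R) L' (fun k t hk hk' => ?_)
    (fun k => ?_) ⟨by omega, by linarith, by linarith⟩ (fun a => rfl) h3 (Nat.le_succ N) hu (w := s)
    ?_
  · intro hc
    apply key
    left
    have hsr : ∀ v ∈ A, (sr hS h3 v).1 = Quot.mk _ v := by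
      intro v hv
      unfold sr
      rw [dif_pos hv]
      rfl
    have huA : u ∈ A := by
      obtain ⟨a, ha⟩ := hu
      exact (hullE.mem ha).2
    have h5 : Subtype.val (sr hS h3 s) ∈ Ek (cm0 hS) (sr hS h3 u).1
        (Lf (cm0 hS) (cfg (rc0 hS) (chiS hS h3 β)) (p o) N) := by
      rw [(sm_rc0 hS).lf, (sm_rc0 hS).ek]
      exact ⟨_, hc, rfl⟩
    rw [hsr s hs, hsr u huA, p_pz R hp o] at h5
    rw [← e] at h5
    exact h5
  · have h4 := TR k t hk hk'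
    rw [p_pz R hp o, ← BT_eq] at h4
    rw [e]
    exact h4
  · have h4 := Tp k
    rw [p_pz R hp o, p_pz R hp (o - k)] at h4
    rw [e]
    exact h4
  · have h2 := (max_le_iff.1 h1).1
    have h4 := (max_le_iff.1 h1).2
    have z1 : RingUx197.zB.re = 1 / 2 := rfl
    have z2 : RingUx197.zB.im = 1 / 2 := rfl
    rw [Complex.sub_re, z1, abs_le] at h2
    rw [Complex.sub_im, z2, abs_le] at h4
    refine ⟨⟨?_, ?_⟩, ?_, ?_⟩
    · show 100 * et n * ((-1 : ℤ) : ℝ) + _ ≤ _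
      push_cast
      linarith [h2.1]
    · show _ ≤ 100 * et n * (((-1 : ℤ) : ℝ) + ((n + 2 : ℕ) : ℝ)) - _
      rw [mul_add, hK]
      push_cast
      linarith [h2.2]
    · show 100 * et n * ((-1 : ℤ) : ℝ) + _ ≤ _
      push_cast
      linarith [h4.1]
    · show _ ≤ 100 * et n * (((-1 : ℤ) : ℝ) + ((n + 2 : ℕ) : ℝ)) - _
      rw [mul_add, hK]
      push_cast
      linarith [h4.2]

end main

/-! ### the instance -/

/-- 707's record as regions given by predicates -/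
theorem rgs_rg {S : Finset ℂ} {C : Type} {σ : ℂ → C} {h0 : C} {zB : ℂ} {A1 A2 D1 : ℝ}
    {sec : ℂ → Prop} {La Lb : ℕ → D0 S} (hh : ∀ s, OnHull S s → σ s = h0)
    (hl : ∀ s ∈ S, OnHull S s → A2 ≤ sup (s - zB)) :
    Rgs S σ (rg S σ h0 zB A1 A2 D1 sec La Lb) zB D1 A1 A2 sec where
  lev := lev_rg hh hl
  dw s hs hi h1 h2 := ⟨s, hs, hi, ⟨h1, h2⟩, rfl⟩
  th _ h := h
  dp _ h := h

/-- all hull sites are in one cell -/
theorem hull_cell {u : ℂ} (hu : OnHull A u) {s : ℂ} (hs : OnHull A s) :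
    sr hS h3 s = sr hS h3 u := by
  obtain ⟨h0, hh⟩ := Meetx707.hull_one (pl_rc0 hS h3) h3
  rw [hh s hs, hh u hu]

/-- the sector over the window `i` of the family -/
def Thi (n j : ℕ) (t0 l : ℝ) (i : ℕ) (s : ℂ) : Prop :=
  Sec (du (wp (n + 2) j i)) RingUx197.zB (1 / 2 + 100 * et n) t0 (cw0 (100 * et n) (n + 2) 1 j i) l s

theorem lev_bt (hn : 4 ≤ n) {a : ℤ} {s : ℂ} (hs : s ∈ BT (et n) (Wi n) a) :
    1 / 2 + 100 * et n - 10 * et n < sup (s - RingUx197.zB) ∧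
      sup (s - RingUx197.zB) < 1 / 2 + 100 * et n + 10 * et n := by
  have n0 : 0 < n := by omega
  have hη := et_pos n0
  have Q := sqr_sqW (K := n + 2) (by omega) (show 0 < 100 * et n by linarith) 1
  rw [wi_sqs] at hs
  have h1 := rr_lev Q (by linarith) (by linarith) (by linarith) a hs
  rw [zq_zB n0, hK_eq n0] at h1
  exact ⟨by linarith [h1.1], by linarith [h1.2]⟩

/-- the cells of the tiles -/
theorem reg_bt {B : Set ℂ} {c : Cs hS} (hc : c ∈ clR hS B) : ∃ s ∈ A, s ∈ B ∧ sr hS h3 s = c := by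
  obtain ⟨s, h1, h2, h4⟩ := hc
  refine ⟨s, h1, h2, Subtype.ext ?_⟩
  unfold sr
  rw [dif_pos h1]
  exact h4

/-- **355's `SiteR` of the family** -/
theorem site_fam (hn : 4 ≤ n) {j m1 : ℕ} (hK : n + 2 = hb j * m1) (m1p : 1 ≤ m1)
    (R : RngH (Xc hS h3 (chiS hS h3 β)) U (4 * (n + 2)) (Wi n) (et n) d)
    {p : ℤ → D0 A} {T : ℕ → ℕ} {N : ℕ}
    (hp : ∀ a, (p a).1 = (yy (et n) (Wi n) (Xc hS h3 (chiS hS h3 β)) a,
      xx (et n) (Wi n) (Xc hS h3 (chiS hS h3 β)) a))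
    (L : RLW (rc0 hS) (chiS hS h3 β) (p (2 * j + 6)) N (4 * (n + 2)) T
      (fun k : ℕ => clR hS (BT (et n) (Wi n) (2 * j + 6 - 1 - k))))
    (Tp : ∀ k : ℕ, P (rc0 hS) (cfg (rc0 hS) (chiS hS h3 β)) (p (2 * j + 6)) (T k) =
      p (2 * j + 6 - k))
    (TR : ∀ k i : ℕ, T k ≤ i → i ≤ T (k + 1) →
      P (rc0 hS) (cfg (rc0 hS) (chiS hS h3 β)) (p (2 * j + 6)) i ∈
        RD A (BT (et n) (Wi n) (2 * j + 6 - 1 - k)))
    {u : ℂ} (hu : OnHull A u) {A1 A2 D1 t0 l : ℝ}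
    (hl0 : ∀ s ∈ A, OnHull A s → A2 ≤ sup (s - RingUx197.zB))
    (d1 : D1 ≤ 1 / 2 + 100 * et n - 10 * et n) (a1 : 1 / 2 + 100 * et n + 10 * et n ≤ A1)
    (a12 : A1 ≤ A2) (hl : l ≤ 100 * et n * j) (ht : 103 / 2 * et n ≤ 1 / 2 + 100 * et n - t0)
    {G : ℕ → Rg (D0 A) (Cs hS)}
    (rg : ∀ i, i < 4 * m1 → Rgs A (sr hS h3) (G i) RingUx197.zB D1 A1 A2 (Thi n j t0 l i))
    (eh : ∀ i, i < 4 * m1 → (G i).h0 = sr hS h3 u)
    (cir : ∃ (lo hi : ℝ) (γ : Finset ℂ) (c : List ℂ), CircG A RingUx197.zB lo hi γ c ∧ A1 ≤ lo ∧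
      hi ≤ A2 ∧ (∀ s ∈ c, s ∈ A) ∧ ∀ s ∈ c, chiS hS h3 β (sr hS h3 s) = 0)
    (arm : ∀ i, i < 4 * m1 → ∃ (v : ℕ → ℂ) (k t : ℕ), v 0 ∈ A ∧ A2 ≤ sup (v 0 - RingUx197.zB) ∧
      (∀ j, j < k → DE A (v j) (v (j + 1))) ∧
      (∀ j', j' ≤ k → A2 ≤ sup (v j' - RingUx197.zB) ∨
        (chiS hS h3 β (sr hS h3 (v j')) = 0 ∧ ¬ Thi n j t0 l i (v j'))) ∧
      T (hb j * i + (2 * j + 1)) ≤ t ∧ t ≤ T (hb j * i + 4 * (n + 2)) ∧
      (rc0 hS).cell ((rc0 hS).rho (P (rc0 hS) (cfg (rc0 hS) (chiS hS h3 β)) (p (2 * j + 6)) t)) =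
        sr hS h3 (v k))
    (ra : ∀ i, i < 4 * m1 → Rad (rc0 hS) (G i)
      (fun k => clR hS (BT (et n) (Wi n) (2 * j + 6 - 1 - ((hb j * i + (2 * j + 1) + k : ℕ) : ℤ))))
      (4 * (n + 2)) (fun k => k < 3) (G i).La)
    (rb : ∀ i, i < 4 * m1 → Rad (rc0 hS) (G i)
      (fun k => clR hS (BT (et n) (Wi n) (2 * j + 6 - 1 - ((hb j * i + (2 * j + 1) + k : ℕ) : ℤ))))
      (4 * (n + 2)) (fun k => 4 * (n + 2) - (2 * j + 1) ≤ k + 3 ∧ k < 4 * (n + 2) - (2 * j + 1))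
      (G i).Lb) :
    SiteR hS (rc0 hS) (sr hS h3) (sr hS h3 u) RingUx197.zB D1 A1 A2 (chiS hS h3 β) (p (2 * j + 6))
      N (4 * (n + 2)) T (fun k : ℕ => clR hS (BT (et n) (Wi n) (2 * j + 6 - 1 - k)))
      (fun k : ℕ => BT (et n) (Wi n) (2 * j + 6 - 1 - k)) (hb j) (2 * j + 1) (4 * m1)
      (Thi n j t0 l) G := by
  have n0 : 0 < n := by omega
  have hη := et_pos n0
  have hK1 := K_pos hK m1p
  have hbK : hb j ≤ n + 2 := by rw [hK]; exact Nat.le_mul_of_pos_right _ (by omega)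
  have hbj : hb j = 2 * j + 10 := rfl
  refine ⟨pl_rc0 hS h3, h3, fun s hs => hull_cell hu hs, hl0, a12, rg, eh, L,
    fun k c hc => reg_bt hc, fun k s hs => ?_, cir, ?_, by omega, by omega, fun i hi k hk s hs => ?_,
    arm, fun s hs h1 => ?_, ra, rb⟩
  · have := lev_bt hn hs
    exact ⟨by linarith [this.1], by linarith [this.2]⟩
  · rw [hK]; ring
  · unfold Thi
    rw [wi_sqs] at hs
    have h1 := off_w (h := 100 * et n) (j0 := 1) (A' := 19 / 2 * et n) (B' := 103 / 2 * et n)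
      (t0 := t0) (l := l) hK m1p (by linarith) (by linarith) (by linarith) hl
      (by rw [hK_eq n0]; exact ht) hi hk (s := s) (by
        rw [show (2 * j + 5 - ((hb j * i + (2 * j + 1) + k : ℕ) : ℤ) : ℤ) =
          2 * j + 6 - 1 - ((hb j * i + (2 * j + 1) + k : ℕ) : ℤ) by ring]
        exact hs)
    rw [zq_zB n0, hK_eq n0] at h1
    exact h1
  · exact not_ek hn R hp L Tp TR hu hs (h1.trans d1)

/-- **263's `Wn`** -/
theorem wn_of {C : Type} {M : CMap (D0 A) C} {σ : ℂ → C} {h0 : C} {zB : ℂ} {A0 A1 A2 : ℝ}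
    {ψ : C → ZMod 2} {P₀ : D0 A} {N n : ℕ} {T : ℕ → ℕ} {Reg : ℕ → Set C} {Rk : ℕ → Set ℂ}
    {h w m₀ : ℕ} {Th : ℕ → ℂ → Prop} {G : ℕ → Rg (D0 A) C} {Gf : Rg (D0 A) C}
    (H : SiteR hS M σ h0 zB A0 A1 A2 ψ P₀ N n T Reg Rk h w m₀ Th G)
    (hf : Rgs A σ Gf zB A0 A1 A2 fun _ => False) (hLe : ∀ i, i < m₀ → Le (G i) Gf)
    (hh : 6 ≤ h) (hm : 2 ≤ m₀) (hl : w ≤ h) (hl1 : 1 ≤ w) :
    Wn M Gf G h0 ψ P₀ N n T Reg h w m₀ (fun _ => {c | ∃ t, c = M.cell (P M (cfg M ψ) P₀ t)}) :=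
  ⟨H.R.toRL, H.R.bl, (H.rd hf hLe).lw, (H.rd hf hLe).rcw, hh, H.hn, hm, hl, hl1, H.eh,
    fun _ hi => H.rx hi, fun _ _ _ hc => hc⟩

end Crest.Agent.R143.SitPx503
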