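import Crest.Agent.R143.ExtU_387
import Crest.Agent.R143.CorE_133
import Crest.Agent.R143.BigU_749
import Crest.Agent.R143.ZnL_903
import Crest.Agent.R143.SysA_168

/-!
# Row 143 (S0194), RIG, field `small`: the two hypotheses of 304's `small_sys` for the family of all
strands on one environment of a polygon `u : Poly` (helper387)

Sites `S` dense in the disc of radius `RU u` (133's `CorEnv`), layout `LayU` with tile side
`h = 100 η`, window `U' = UU u = closedBall 0 (Rp u + 4)`.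
* `nr_of_dist` : points at distance `≤ r` from `u.P` are in `Nr 0 u.s (cells u.U) r`
* `Tl η W` : union of the fat tile regions `RR (10 η) (52 η) (100 η) W a`; `tl_nr` : it is in
  `NrS (3 h - 2 d)`; `rc_clR`, `zR_sub` : 903's zone `zR` is in `RC (Tl)`
* **`hd_u`** : darts whose cell is off the white giant of a strand have the circumdisc in `UU u`;
  `hd_env` on `CorEnv`
* `far_S` : 749's two far states on a fixed set of sites
* **`hx_small`** : the full conclusion (hypothesis `hx` of `small_sys`) for 168's `EvA`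
-/

set_option autoImplicit false
set_option linter.unusedSectionVars false

noncomputable section

open scoped Classical

namespace Crest.Agent.R143.SmHx387

open Crest.ProbabilityR.Voronoi
open Crest.Agent.R143.B0x346 Crest.Agent.R143.DelGx806 Crest.Agent.R143.DelRx806
  Crest.Agent.R143.FinCx811 Crest.Agent.R143.Mass1x302
open Crest.Agent.R143.Frame1x395 Crest.Agent.R143.Frame2x395 Crest.Agent.R143.Frame3x395
  Crest.Agent.R143.Frame4x395 Crest.Agent.R143.Frame8x395 Crest.Agent.R143.Frame9x395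
  Crest.Agent.R143.Frame10x395
open Crest.Agent.R143.Frame5x395 (sd mem_sd th th_spec)
open Crest.Agent.R143.DomAx722 (Dns)
open Crest.Agent.R143.RcTx422 (Hc Hc_eq RC RC_mono)
open Crest.Agent.R143.PolyUx346 Crest.Agent.R143.LayUx416 Crest.Agent.R143.CorEx133
open Crest.Agent.R143.Brkx478 (Bk cells)
open Crest.Agent.R143.TileRx228 (RR RR_mono)
open Crest.Agent.R143.Uniqx323 (Zn Strd)
open Crest.Agent.R143.SysAx168 (EvA)
open Crest.Agent.R143.ExtUx387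
open Crest.Agent.R143.CorHx713 (CorH)
open Crest.Agent.R143.WLocx713 (sX)
open Crest.Agent.R143.BigUx749 (ClR)

/-! ### geometry -/

/-- points near the polygon, in the sup form -/
theorem nr_of_dist {u : Poly} {z : ℂ} {r : ℝ} (h : Metric.infDist z u.P ≤ r) :
    z ∈ Nr 0 u.s (cells (u.U : Set Bk)) r := by
  obtain ⟨y, hy, he⟩ := (MeasPx609.isCompact_P u).exists_infDist_eq_dist (MeasPx609.P_nonempty u) z
  obtain ⟨q, hq, hy'⟩ := Set.mem_iUnion₂.1 hy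
  have h1 : y ∈ Nr 0 u.s (cells (u.U : Set Bk)) 0 := by
    obtain ⟨a1, a2, a3, a4⟩ := hy'
    exact ⟨q, hq, by simp only [Complex.zero_re]; linarith, by simp only [Complex.zero_re]; linarith,
      by simp only [Complex.zero_im]; linarith, by simp only [Complex.zero_im]; linarith⟩
  have h2 := Nr_near h1 (x := z) (e := r) (by rw [← dist_eq_norm, ← he]; exact h)
  rwa [zero_add] at h2

/-- the fat tile regions -/
def Tl (η : ℝ) (W : ℤ → ℤ × ℤ) : Set ℂ := {s | ∃ a : ℤ, s ∈ RR (10 * η) (52 * η) (100 * η) W a}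

section lay

variable {u : Poly} {m M : ℕ} {p W : ℤ → ℤ × ℤ} {A e : ℤ → ℤ} {η d : ℝ}

/-- **tile regions are near the polygon** -/
theorem tl_nr (H : LayU u m M p W A e) (hh : (m : ℝ) * (100 * η) = u.s) (hd : d ≤ 35 * η) :
    Tl η W ⊆ NrS 0 u.s (cells (u.U : Set Bk)) (3 * (100 * η) - 2 * d) := by
  rintro s ⟨a, hs⟩
  have h0 := H.h_pos hh
  obtain ⟨-, -, -, -, h1⟩ := H.RR_dist hh (by linarith) (by linarith) (by linarith) (by linarith) hs
  exact Nr_sub (r := 3 / 2 * (100 * η + 52 * η)) (by linarith) (nr_of_dist h1)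

end lay

/-- `NrS (r)`, `Nr (r)` with `r ≤ 1` are in `UU` -/
theorem nr_norm {u : Poly} {r : ℝ} (hr : r ≤ 1) {z : ℂ}
    (h : z ∈ Nr 0 u.s (cells (u.U : Set Bk)) r) : ‖z‖ < Rp u + 4 := by
  by_contra hc
  push Not at hc
  exact mem_FaS.1 (fas hr hc) h

/-! ### the circumdiscs -/

section hd

variable {u : Poly} {m M : ℕ} {p W : ℤ → ℤ × ℤ} {A e : ℤ → ℤ} {η d : ℝ} {S : Finset ℂ}
  {hS : GP (S : Set ℂ)} {R : Set (Cs hS)} {Zz : Zn (rc0 hS)} {σ : Cs hS → ZMod 2} {q : D0 S}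
  {n : ℕ}

/-- **304's `hd`** -/
theorem hd_u (hD : Dns S 0 (RU u) d) (L : LayU u m M p W A e) (hh : (m : ℝ) * (100 * η) = u.s)
    (hd : d ≤ η) (hZR : Zz.R ⊆ RC hS (Tl η W)) (hR : R ⊆ RC hS (Tl η W))
    (hst : Strd (rc0 hS) Zz 1 σ q n) (d0 : D0 S)
    (hc : (rc0 hS).cell d0 ∉ Extx358.Ww (rc0 hS) (Hc hS) R q n σ) :
    cdisc (d0.1.1, d0.1.2, th S d0.1) ⊆ UU u := by
  have h0 := L.h_pos hh
  have h1 := h_le L hh
  have h2 := L.m_pos
  have e1 : (((m : ℕ) : ℤ) : ℝ) * (100 * η) = u.s := by exact_mod_cast hh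
  refine off_disc_strd (c := 0) (L := RU u) (d := d) (h := 100 * η) (m := (m : ℤ)) (k := 3)
    (o := 0) (B := Tl η W) (U := (u.U : Set Bk)) hD h0 (by norm_num) (by omega) u.con'
    ?_ ?_ hZR hR hst ?_ d0 hc
  · intro z hz
    rw [e1] at hz
    have := nr_norm (by push_cast; linarith) hz
    rw [sub_zero]
    unfold RU
    linarith
  · rw [e1]
    have := tl_nr (d := d) L hh (by linarith)
    push_cast
    exact this
  · rw [e1]
    intro z hz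
    rw [mem_UU]
    exact (nr_norm (by push_cast; linarith) hz).le

/-- the same on 133's environment -/
theorem hd_env {ε K1 c2 ρ0 : ℝ} {ω : Sample} (C : CorEnv u ε d K1 c2 ρ0 ω)
    (hSe : S = SU u ε ω) (L : LayU u m M p W A e) (hh : (m : ℝ) * (100 * η) = u.s)
    (hd : d ≤ η) (hZR : Zz.R ⊆ RC hS (Tl η W)) (hR : R ⊆ RC hS (Tl η W))
    (hst : Strd (rc0 hS) Zz 1 σ q n) (d0 : D0 S)
    (hc : (rc0 hS).cell d0 ∉ Extx358.Ww (rc0 hS) (Hc hS) R q n σ) :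
    cdisc (d0.1.1, d0.1.2, th S d0.1) ⊆ UU u := by
  subst hSe
  exact hd_u C.dns L hh hd hZR hR hst d0 hc

end hd

/-! ### the far states -/

section far

variable {S : Finset ℂ} {hS : GP (S : Set ℂ)} {X : Set (ℂ × Bool)} {U : Set ℂ} {M : ℕ}
  {W : ℤ → ℤ × ℤ} {η d : ℝ} {o : ℤ} {N : ℕ}

/-- **749's two far states on a fixed set of sites** -/
theorem far_S (e : sX X = S) (H : CorH X U M W η d o N) (h3 : 3 ≤ N) {σ : Cs hS → ZMod 2}
    {Z : Zn (rc0 hS)} {b : ZMod 2} {q : D0 S} {n : ℕ} (h : Strd (rc0 hS) Z b σ q n)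
    (hE : Z.E ⊆ ClR hS (RR (10 * η) (52 * η) (100 * η) W (o + N - 1)))
    (hW : Z.W ⊆ ClR hS (RR (10 * η) (52 * η) (100 * η) W o)) {k : ℝ} (hk : k ≤ 18 * η) :
    ∃ u v, u ≤ n ∧ v ≤ n ∧
      (k ≤ |(((stp (rc0 hS) (cfg (rc0 hS) σ))^[u] q).1.1 -
          ((stp (rc0 hS) (cfg (rc0 hS) σ))^[v] q).1.1).re| ∨
        k ≤ |(((stp (rc0 hS) (cfg (rc0 hS) σ))^[u] q).1.1 -
          ((stp (rc0 hS) (cfg (rc0 hS) σ))^[v] q).1.1).im|) := by
  subst e
  exact BigUx749.far_corH H h3 h hE hW hk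

/-! ### 903's zones -/

/-- inner cells of a region -/
theorem clR_rc {F B : Set ℂ} (h : F ⊆ B) (hi : ∀ s ∈ S, s ∈ F → ¬ OnHull S s) :
    ZnLx903.clR hS F ⊆ RC hS B := fun _ ⟨s, h1, h2, h3⟩ => ⟨s, h1, h h2, hi s h1 h2, h3⟩

theorem bst_tl (hη : 0 ≤ η) (a : ℤ) : RR (19 / 2 * η) (103 / 2 * η) (100 * η) W a ⊆ Tl η W :=
  fun _ hs => ⟨a, RR_mono (by linarith) (by linarith) _ _ _ hs⟩

/-- the region of the strand -/
theorem RtS_tl (hη : 0 ≤ η) : ZnLx903.RtS η W o N ⊆ Tl η W := by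
  rintro s ⟨k, -, -, hs⟩
  exact bst_tl hη _ hs

/-- 903's zone `R` -/
theorem zR_sub (H : CorH X U M W η d o N) : ZnLx903.zR H ⊆ RC H.gp (Tl η W) :=
  clR_rc (RtS_tl H.e0.le) (ZnLx903.RtS_inn H)

end far

/-! ### the hypothesis `hx` of `small_sys` -/

section hx

variable {u : Poly} {m M : ℕ} {p W : ℤ → ℤ × ℤ} {A e : ℤ → ℤ} {η d : ℝ} {S : Finset ℂ}
  {hS : GP (S : Set ℂ)} {R : Set (Cs hS)} {Q : Set (D0 S)} {Z : Zn (rc0 hS)}

/-- **both hypotheses for one colouring**, `H = Hc hS` -/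
theorem hx_small (hD : Dns S 0 (RU u) d) (L : LayU u m M p W A e)
    (hh : (m : ℝ) * (100 * η) = u.s) (hd : d ≤ η) (hZR : Z.R ⊆ RC hS (Tl η W))
    (hR : R ⊆ RC hS (Tl η W)) {o : ℤ} {N : ℕ} (hN : 3 ≤ N)
    (hE : Z.E ⊆ ClR hS (RR (10 * η) (52 * η) (100 * η) W (o + N - 1)))
    (hW : Z.W ⊆ ClR hS (RR (10 * η) (52 * η) (100 * η) W o)) {k : ℝ} (hk : k ≤ 18 * η)
    {X : Set (ℂ × Bool)} (eX : sX X = S) {U0 : Set ℂ} {d' : ℝ} (H : CorH X U0 M W η d' o N)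
    {σ : Cs hS → ZMod 2} {i : D0 S × ℕ} (hi : EvA (rc0 hS) (Hc hS) R Q Z i σ) :
    (∀ d : D0 S, (rc0 hS).cell d ∉ OutSx358.wg (rc0 hS) (Hc hS) R
        (fun (i : D0 S × ℕ) _ => i.1) (fun i _ => i.2) i σ →
      cdisc (d.1.1, d.1.2, th S d.1) ⊆ UU u) ∧
    ∃ u v, u ≤ i.2 ∧ v ≤ i.2 ∧
      (k ≤ |(((stp (rc0 hS) (cfg (rc0 hS) σ))^[u] i.1).1.1 -
          ((stp (rc0 hS) (cfg (rc0 hS) σ))^[v] i.1).1.1).re| ∨
        k ≤ |(((stp (rc0 hS) (cfg (rc0 hS) σ))^[u] i.1).1.1 -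
          ((stp (rc0 hS) (cfg (rc0 hS) σ))^[v] i.1).1.1).im|) :=
  ⟨fun d0 h => hd_u hD L hh hd hZR hR hi.1 d0 h, far_S eX H hN hi.1 hE hW hk⟩

/-- the same for `H = {h₀}`, `h₀` the hull cell -/
theorem hx_small_h (hD : Dns S 0 (RU u) d) (L : LayU u m M p W A e)
    (hh : (m : ℝ) * (100 * η) = u.s) (hd : d ≤ η) (hZR : Z.R ⊆ RC hS (Tl η W))
    (hR : R ⊆ RC hS (Tl η W)) {o : ℤ} {N : ℕ} (hN : 3 ≤ N)
    (hE : Z.E ⊆ ClR hS (RR (10 * η) (52 * η) (100 * η) W (o + N - 1)))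
    (hW : Z.W ⊆ ClR hS (RR (10 * η) (52 * η) (100 * η) W o)) {k : ℝ} (hk : k ≤ 18 * η)
    {X : Set (ℂ × Bool)} (eX : sX X = S) {U0 : Set ℂ} {d' : ℝ} (H : CorH X U0 M W η d' o N)
    {h₀ : Cs hS} (h₀' : h₀ ∈ Hc hS)
    {σ : Cs hS → ZMod 2} {i : D0 S × ℕ} (hi : EvA (rc0 hS) {h₀} R Q Z i σ) :
    (∀ d : D0 S, (rc0 hS).cell d ∉ OutSx358.wg (rc0 hS) {h₀} R
        (fun (i : D0 S × ℕ) _ => i.1) (fun i _ => i.2) i σ →
      cdisc (d.1.1, d.1.2, th S d.1) ⊆ UU u) ∧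
    ∃ u v, u ≤ i.2 ∧ v ≤ i.2 ∧
      (k ≤ |(((stp (rc0 hS) (cfg (rc0 hS) σ))^[u] i.1).1.1 -
          ((stp (rc0 hS) (cfg (rc0 hS) σ))^[v] i.1).1.1).re| ∨
        k ≤ |(((stp (rc0 hS) (cfg (rc0 hS) σ))^[u] i.1).1.1 -
          ((stp (rc0 hS) (cfg (rc0 hS) σ))^[v] i.1).1.1).im|) := by
  rw [← Hc_eq h₀'] at hi ⊢
  exact hx_small hD L hh hd hZR hR hN hE hW hk eX H hi

end hx

end Crest.Agent.R143.SmHx387
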