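import Crest.Agent.R143.ArmsE_377
import Crest.Agent.R143.HullF_93
import Crest.Agent.R143.HarmS_496

/-!
# Row 143 (S0194), CONT: the small side from one statement (helper377)

* `hullm_adm : HULLM Adm` (helper93, helper66)
* `harm_of : HarmSx496.Harm → HARM`
* **`small_one_id`, `small_one_conj`** : `HarmOne → SMALL Sm1 z Adm`
* **`cont_we_one`, `cont_wd_one`** : `HarmOne → VIS Sm1 T z Adm → CONT`
-/

set_option autoImplicit false

noncomputable section

open scoped Classical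

namespace Crest.Agent.R143.Mabx377

open Complex Set Filter Topology MeasureTheory
open Crest.ProbabilityR.Voronoi
open Crest.Agent.R143.B0x346 Crest.Agent.R143.B0Dx346

/-- **HULLM** -/
theorem hullm_adm {Adm : Dom → ℝ → Prop} (hAdm : ∀ D δ, Adm D δ → D.Ad δ) : HULLM Adm := by
  intro D δ hD
  have hL := (hAdm D δ hD).w.Lpos
  refine ⟨HullMx93.CH, HullMx93.CH_pos.le, ?_⟩
  intro b0 hb0 η hη
  filter_upwards [HullFx93.hullm hL b0 hb0 η hη] with ε h1
  refine (measure_mono ?_).trans h1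
  intro ω hω hcon
  exact hω fun z hz b hb hb' => hcon z (mem_closedBall_iff_norm.2 hz) b hb hb'

theorem harm_of (h : HarmSx496.Harm) : HARM := h

/-- **one arm at all places of the disc, environment form** -/
theorem arms_one {Adm : Dom → ℝ → Prop} (hAdm : ∀ D δ, Adm D δ → D.Ad δ)
    (h : HarmSx496.HarmOne) : ARMS Adm :=
  arms_of hAdm (harm_of (HarmSx496.harm_of_one h)) (hullm_adm hAdm)

theorem small_one_id {Adm : Dom → ℝ → Prop} (hAdm : ∀ D δ, Adm D δ → D.Ad δ)
    (h : HarmSx496.HarmOne) : SMALL Sm1 id Adm :=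
  small_of hAdm (arms_one hAdm h) (hullm_adm hAdm) fun _ _ => le_rfl

theorem small_one_conj {Adm : Dom → ℝ → Prop} (hAdm : ∀ D δ, Adm D δ → D.Ad δ)
    (h : HarmSx496.HarmOne) : SMALL Sm1 (starRingEnd ℂ) Adm :=
  small_of hAdm (arms_one hAdm h) (hullm_adm hAdm) fun u v => by
    rw [← map_sub, Complex.norm_conj]

/-- **CONT, weight `we`** -/
theorem cont_we_one {U : Type} {T : U → ℝ → Sample → ℂ} {Adm : Dom → ℝ → Prop}
    (hAdm : ∀ D δ, Adm D δ → D.Ad δ) (h : HarmSx496.HarmOne) (h2 : VIS Sm1 T id Adm) :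
    AsmNx758.CONT AsmNx758.we T Adm :=
  cont_we NetH2x346.hitu' hAdm (small_one_id hAdm h) h2

/-- **CONT, weight `wd`** -/
theorem cont_wd_one {U : Type} {T : U → ℝ → Sample → ℂ} {Adm : Dom → ℝ → Prop}
    (hAdm : ∀ D δ, Adm D δ → D.Ad δ) (h : HarmSx496.HarmOne)
    (h2 : VIS Sm1 T (starRingEnd ℂ) Adm) : AsmNx758.CONT AsmNx758.wd T Adm :=
  cont_wd NetH2x346.hitu' hAdm (small_one_conj hAdm h) h2

end Crest.Agent.R143.Mabx377
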