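import Crest.Agent.R143.Swl2_922
import Crest.Agent.R143.Link_606

/-!
# Row 143 (S0194), block D, leaf SWL, third part (helper922): constants, `swl : POLY → TENT → GEO`
-/

set_option autoImplicit false
set_option linter.all false

noncomputable section

open scoped Classical Topology
open Set Filter Metric

namespace Crest.Agent.R143.Swl3x922

open Crest.Agent.R158.Sp896 Crest.Agent.R158.Jt785
open Crest.ProbabilityR.Percolation
open Crest.Agent.R143.Cfgx416 Crest.Agent.R143.Tenx416 Crest.Agent.R143.Swlx922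
  Crest.Agent.R143.Swl2x922

variable {g : ℝ → ℂ} {f : ℂ → ℂ}

/-! ### the periodic extension -/

theorem gp_cont (h : IsJordanCurve g) : Continuous (gp g) :=
  ContinuousOn.comp_fract'' h.1 h.2.2

theorem gp_add (t : ℝ) (n : ℤ) : gp g (t + n) = gp g t := by
  unfold gp; rw [Int.fract_add_intCast]

theorem gp_inj (h : IsJordanCurve g) {t t' : ℝ} (e : gp g t = gp g t') : ∃ n : ℤ, t = t' + n := by
  unfold gp at e
  have h1 : Int.fract t = Int.fract t' :=
    h.2.1 ⟨Int.fract_nonneg _, Int.fract_lt_one _⟩ ⟨Int.fract_nonneg _, Int.fract_lt_one _⟩ e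
  refine ⟨⌊t⌋ - ⌊t'⌋, ?_⟩
  have h2 := Int.self_sub_floor t
  have h3 := Int.self_sub_floor t'
  push_cast
  linarith

theorem gp_eq (h : IsJordanCurve g) {t : ℝ} (ht : t ∈ Icc (0:ℝ) 1) : gp g t = g t := by
  unfold gp
  rcases ht.2.lt_or_eq with h1 | h1
  · rw [Int.fract_eq_self.2 ⟨ht.1, h1⟩]
  · rw [h1, Int.fract_one]
    exact h.2.2

theorem arc_eq (h : IsJordanCurve g) {a b : ℝ} (ha : 0 ≤ a) (hb : b ≤ 1) :
    arc g a b = gp g '' Icc a b := by
  unfold arc
  exact image_congr fun t ht => (gp_eq h ⟨ha.trans ht.1, ht.2.trans hb⟩).symm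

/-- uniform continuity -/
theorem gp_unif (h : IsJordanCurve g) {r : ℝ} (hr : 0 < r) : ∃ η : ℝ, 0 < η ∧ η < 1 / 16 ∧
    ∀ t t' : ℝ, |t - t'| ≤ 2 * η → ‖gp g t - gp g t'‖ < r := by
  have hu := isCompact_Icc.uniformContinuousOn_of_continuous
    ((gp_cont h).continuousOn (s := Icc (-1 : ℝ) 2))
  rw [Metric.uniformContinuousOn_iff] at hu
  obtain ⟨δ, hδ, hu⟩ := hu r hr
  refine ⟨min (1 / 32) (δ / 4), by positivity,
    lt_of_le_of_lt (min_le_left _ _) (by norm_num), fun t t' ht => ?_⟩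
  have e1 : min (1 / 32) (δ / 4) ≤ 1 / 32 := min_le_left _ _
  have e2 : min (1 / 32) (δ / 4) ≤ δ / 4 := min_le_right _ _
  have h1 := gp_add (g := g) t (-⌊t⌋)
  have h2 := gp_add (g := g) t' (-⌊t⌋)
  rw [← h1, ← h2, ← dist_eq_norm]
  have h3 := abs_le.1 ht
  have h4 := Int.floor_le t
  have h5 := Int.lt_floor_add_one t
  push_cast
  refine hu _ ⟨by linarith, by linarith⟩ _ ⟨by linarith, by linarith⟩ ?_
  rw [Real.dist_eq]
  have e3 : t + -(⌊t⌋ : ℝ) - (t' + -(⌊t⌋ : ℝ)) = t - t' := by ring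
  rw [e3]
  linarith

/-! ### the parameters -/

/-- shifted parameters: the sides in `T` are longer -/
def aa (T : Set (ZMod 4)) (η : ℝ) (n : ℤ) : ℝ := n / 4 + if (n : ZMod 4) ∈ T then -η else η

/-- alternating -/
def Alt (T : Set (ZMod 4)) : Prop := ∀ x : ZMod 4, x + 1 ∈ T ↔ x ∉ T

theorem alt_of {T : Set (ZMod 4)} (hT : T = {0, 2} ∨ T = {1, 3}) : Alt T := by
  intro x
  rcases hT with rfl | rfl <;> rcases z4 x with rfl | rfl | rfl | rfl <;>
    simp only [Set.mem_insert_iff, Set.mem_singleton_iff] <;> decide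

variable {T : Set (ZMod 4)} {η : ℝ}

theorem aa_succ (hT : Alt T) (n : ℤ) : aa T η (n + 1) = (n + 1) / 4 +
    if (n : ZMod 4) ∈ T then η else -η := by
  have h := hT (n : ZMod 4)
  unfold aa
  push_cast
  by_cases h1 : (n : ZMod 4) ∈ T
  · rw [if_pos h1, if_neg (fun h2 => (h.1 h2) h1)]
  · rw [if_neg h1, if_pos (h.2 h1)]

theorem aa_mono (hT : Alt T) (h0 : 0 < η) (h1 : η < 1 / 16) : StrictMono (aa T η) := by
  refine strictMono_int_of_lt_succ fun n => ?_
  rw [aa_succ hT]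
  unfold aa
  split_ifs <;> linarith

theorem aa_per (n l : ℤ) : aa T η (n + 4 * l) = aa T η n + l := by
  unfold aa
  have : (((n + 4 * l : ℤ)) : ZMod 4) = (n : ZMod 4) := by
    push_cast
    have : (4 : ZMod 4) = 0 := by decide
    rw [this]; ring
  rw [this]
  push_cast
  ring

/-- sides -/
def AAz (g : ℝ → ℂ) (T : Set (ZMod 4)) (η : ℝ) (i : ZMod 4) : Set ℂ :=
  gp g '' Icc (aa T η (i.val : ℤ)) (aa T η ((i.val : ℤ) + 1))

def Az (g : ℝ → ℂ) (i : ZMod 4) : Set ℂ :=
  arc g ((i.val : ℝ) / 4) (((i.val : ℝ) + 1) / 4)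

theorem val_le (i : ZMod 4) : (i.val : ℝ) + 1 ≤ 4 := by
  have : i.val + 1 ≤ 4 := ZMod.val_lt i
  exact_mod_cast this

theorem Az_eq (h : IsJordanCurve g) (i : ZMod 4) :
    Az g i = gp g '' Icc ((i.val : ℝ) / 4) (((i.val : ℝ) + 1) / 4) := by
  have := val_le i
  exact arc_eq h (by positivity) (by linarith)

theorem isCompact_Az (h : IsJordanCurve g) (i : ZMod 4) : IsCompact (Az g i) := by
  rw [Az_eq h]; exact isCompact_Icc.image (gp_cont h)

theorem isCompact_AAz (h : IsJordanCurve g) (i : ZMod 4) : IsCompact (AAz g T η i) :=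
  isCompact_Icc.image (gp_cont h)

theorem val_cast (i : ZMod 4) : (((i.val : ℕ) : ℤ) : ZMod 4) = i := by
  rw [Int.cast_natCast]; exact ZMod.natCast_zmod_val i

/-- **a point strictly inside of the side `n` is in no other side** -/
theorem inside (h : IsJordanCurve g) (hT : Alt T) (h0 : 0 < η) (h1 : η < 1 / 16) {n n' : ℤ}
    {t t' : ℝ} (ht : t ∈ Ioo (aa T η n) (aa T η (n + 1)))
    (ht' : t' ∈ Icc (aa T η n') (aa T η (n' + 1))) (e : gp g t = gp g t') :
    (n' : ZMod 4) = (n : ZMod 4) := by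
  obtain ⟨l, hl⟩ := gp_inj h e
  have hm := aa_mono (T := T) hT h0 h1
  have e1 := aa_per (T := T) (η := η) n' l
  have e2 := aa_per (T := T) (η := η) (n' + 1) l
  have k1 : n < n' + 1 + 4 * l := by
    rw [← hm.lt_iff_lt, e2]
    linarith [ht.1, ht'.2]
  have k2 : n' + 4 * l < n + 1 := by
    rw [← hm.lt_iff_lt, e1]
    linarith [ht.2, ht'.1]
  have k3 : n = n' + 4 * l := by omega
  rw [k3]
  push_cast
  have : (4 : ZMod 4) = 0 := by decide
  rw [this]; ring

/-- **consecutive sides have one common point** -/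
theorem corner (h : IsJordanCurve g) (hT : Alt T) (h0 : 0 < η) (h1 : η < 1 / 16) {n n' : ℤ}
    (hn : (n' : ZMod 4) = (n : ZMod 4) - 1)
    {t t' : ℝ} (ht : t ∈ Icc (aa T η n) (aa T η (n + 1)))
    (ht' : t' ∈ Icc (aa T η n') (aa T η (n' + 1))) (e : gp g t = gp g t') :
    t = aa T η n := by
  obtain ⟨l, hl⟩ := gp_inj h e
  have hm := aa_mono (T := T) hT h0 h1
  have e1 := aa_per (T := T) (η := η) n' l
  have e2 := aa_per (T := T) (η := η) (n' + 1) l
  have k1 : n ≤ n' + 1 + 4 * l := by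
    rw [← hm.le_iff_le, e2]
    linarith [ht.1, ht'.2]
  have k2 : n' + 4 * l ≤ n + 1 := by
    rw [← hm.le_iff_le, e1]
    linarith [ht.2, ht'.1]
  have hz : ((n' - n + 1 : ℤ) : ZMod 4) = 0 := by
    push_cast; rw [hn]; ring
  rw [ZMod.intCast_zmod_eq_zero_iff_dvd] at hz
  obtain ⟨c, hc⟩ := hz
  push_cast at hc
  have k3 : n' + 1 + 4 * l = n := by omega
  have k4 : t ≤ aa T η n := by
    rw [← k3, e2]
    linarith [ht'.2]
  exact le_antisymm k4 ht.1

/-! ### compactness -/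

theorem fin_pos {ι : Type} [Finite ι] {Q : ι → ℝ → Prop}
    (hmono : ∀ i a b, 0 < a → a ≤ b → Q i b → Q i a) (h : ∀ i, ∃ c > 0, Q i c) :
    ∃ c > 0, ∀ i, Q i c := by
  choose c hc hQ using h
  rcases isEmpty_or_nonempty ι with hι | hι
  · exact ⟨1, one_pos, fun i => (hι.false i).elim⟩
  · obtain ⟨i0, hi0⟩ := Finite.exists_min c
    exact ⟨c i0, hc i0, fun i => hmono i _ _ (hc i0) (hi0 i) (hQ i)⟩

/-- points near two compact sets with one common point are near this point -/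
theorem near_corner {K1 K2 : Set ℂ} (h1 : IsCompact K1) (h2 : IsCompact K2) {p : ℂ}
    (hp : ∀ x ∈ K1, x ∈ K2 → x = p) {r : ℝ} (hr : 0 < r) : ∃ ρ > 0, ∀ z, Nr ρ K1 z → Nr ρ K2 z →
      ‖z - p‖ < r := by
  have hK : IsCompact (K1 \ ball p (r / 2)) := h1.diff isOpen_ball
  obtain ⟨c, hc, hd⟩ := pos_dist hK h2.isClosed (disjoint_left.2 fun x hx hx2 => hx.2 (by
    rw [hp x hx.1 hx2]; exact mem_ball_self (by linarith)))
  refine ⟨min (c / 2) (r / 2), by positivity, ?_⟩
  rintro z ⟨x, hx, hzx⟩ ⟨y, hy, hzy⟩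
  have a1 := hzx.trans_le (min_le_left _ _)
  have a2 := hzx.trans_le (min_le_right _ _)
  have a3 := hzy.trans_le (min_le_left _ _)
  have hxb : x ∈ ball p (r / 2) := by
    by_contra hcon
    have h3 := hd x ⟨hx, hcon⟩ y hy
    have h4 := norm_sub_le_norm_sub_add_norm_sub x z y
    rw [norm_sub_rev x z] at h4
    linarith
  rw [mem_ball, dist_eq_norm] at hxb
  have := norm_sub_le_norm_sub_add_norm_sub z x p
  linarith

/-- two disjoint compact sets -/
theorem sep_pos {K1 K2 : Set ℂ} (h1 : IsCompact K1) (h2 : IsCompact K2) (hd : Disjoint K1 K2) :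
    ∃ c > 0, ∀ x ∈ K1, ∀ y ∈ K2, c ≤ ‖x - y‖ := by
  obtain ⟨c, hc, h⟩ := pos_dist h1 h2.isClosed hd
  exact ⟨c, hc, h⟩

/-! ### the arcs -/

/-- metric facts: existence of the constants. `d` = wished precision at the marks, `w0` = bound for
the swallowed depth -/
theorem exists_ars (h : Unif g f) {T : Set (ZMod 4)} (hT : Alt T) {e : ℝ} (he : 0 < e)
    (h0 : 0 < η) (h1 : η < 1 / 16)
    (hη : ∀ t t' : ℝ, |t - t'| ≤ 2 * η → ‖gp g t - gp g t'‖ < e / 8) {d w0 : ℝ} (hd : 0 < d)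
    (hw0 : 0 < w0) : ∃ e1 ρ : ℝ, 0 < e1 ∧ e1 ≤ w0 ∧ 0 < ρ ∧
      Ars (jordanInterior g) (Az g) (AAz g T η) (fun k => g ((k.val : ℝ) / 4)) T e e1 ρ ∧
      ∀ k z, Nr ρ (AAz g T η k) z → Nr ρ (AAz g T η (k - 1)) z →
        ‖z - gp g (aa T η (k.val : ℤ))‖ < d := by
  have hj := h.jc
  have hm := aa_mono (T := T) hT h0 h1
  -- the parameters of a side
  have hin : ∀ i : ZMod 4, i ∈ T → aa T η (i.val : ℤ) = (i.val : ℝ) / 4 - η ∧
      aa T η ((i.val : ℤ) + 1) = ((i.val : ℝ) + 1) / 4 + η := by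
    intro i hi
    rw [aa_succ hT]
    unfold aa
    rw [val_cast, if_pos hi, if_pos hi]
    push_cast
    constructor <;> ring
  have hout : ∀ i : ZMod 4, i ∉ T → aa T η (i.val : ℤ) = (i.val : ℝ) / 4 + η ∧
      aa T η ((i.val : ℤ) + 1) = ((i.val : ℝ) + 1) / 4 - η := by
    intro i hi
    rw [aa_succ hT]
    unfold aa
    rw [val_cast, if_neg hi, if_neg hi]
    push_cast
    constructor <;> ring
  have hdisj : ∀ (i j : ZMod 4) (a b : ℝ), j ≠ i → aa T η (i.val : ℤ) < a →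
      b < aa T η ((i.val : ℤ) + 1) → Disjoint (gp g '' Icc a b) (AAz g T η j) := by
    intro i j a b hij ha hb
    refine disjoint_left.2 ?_
    rintro _ ⟨t, ht, rfl⟩ ⟨t', ht', e'⟩
    have := inside hj hT h0 h1 (n := (i.val : ℤ)) (n' := (j.val : ℤ)) (t := t) (t' := t')
      ⟨by linarith [ht.1], by linarith [ht.2]⟩ ht' e'.symm
    rw [val_cast, val_cast] at this
    exact hij this
  -- swallowed arcs are far from the other sides
  obtain ⟨d1, hd1, hsep⟩ : ∃ c > 0, ∀ q : ZMod 4 × ZMod 4, q.1 ∈ T → q.2 ≠ q.1 →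
      ∀ x ∈ Az g q.1, ∀ y ∈ AAz g T η q.2, c ≤ ‖x - y‖ := by
    refine fin_pos (Q := fun (q : ZMod 4 × ZMod 4) c => q.1 ∈ T → q.2 ≠ q.1 →
      ∀ x ∈ Az g q.1, ∀ y ∈ AAz g T η q.2, c ≤ ‖x - y‖)
      (fun q a b _ hab hb h2 h3 x hx y hy => hab.trans (hb h2 h3 x hx y hy)) fun q => ?_
    by_cases h2 : q.1 ∈ T
    · by_cases h3 : q.2 = q.1
      · exact ⟨1, one_pos, fun _ h4 => absurd h3 h4⟩
      · obtain ⟨c, hc, h4⟩ := sep_pos (isCompact_Az hj q.1) (isCompact_AAz (T := T) (η := η) hj q.2)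
          (by
            rw [Az_eq hj]
            obtain ⟨e2, e3⟩ := hin q.1 h2
            exact hdisj _ _ _ _ h3 (by rw [e2]; linarith) (by rw [e3]; linarith))
        exact ⟨c, hc, fun _ _ => h4⟩
    · exact ⟨1, one_pos, fun h4 => absurd h4 h2⟩
  set e1 := min (min (e / 4) (d1 / 4)) w0 with he1
  have he1p : 0 < e1 := by positivity
  have a1 : e1 ≤ e / 4 := (min_le_left _ _).trans (min_le_left _ _)
  have a2 : e1 ≤ d1 / 4 := (min_le_left _ _).trans (min_le_right _ _)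
  have a3 : e1 ≤ w0 := min_le_right _ _
  have hclD : IsCompact (closure (jordanInterior g)) := h.isCompact
  have hsub : ∀ t, gp g t ∈ closure (jordanInterior g) := fun t =>
    h.tr_subset ⟨Int.fract t, ⟨Int.fract_nonneg _, (Int.fract_lt_one _).le⟩, rfl⟩
  -- exterior points near a boundary point
  have hext : ∀ (t r : ℝ), 0 < r → ∃ w, ‖w - gp g t‖ < r ∧ ∃ c > 0,
      ∀ y ∈ closure (jordanInterior g), c ≤ ‖w - y‖ := by
    intro t r hr
    obtain ⟨w, hw, hwr⟩ := near_ext h (t := Int.fract t)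
      ⟨Int.fract_nonneg _, (Int.fract_lt_one _).le⟩ hr
    obtain ⟨c, hc, h2⟩ := sep_pos (isCompact_singleton (x := w)) hclD (disjoint_left.2 (by
      rintro x rfl hx2
      exact disjoint_left.1 (ext_disj h) hw hx2))
    exact ⟨w, hwr, c, hc, h2 w rfl⟩
  -- ext
  obtain ⟨ρ1, hρ1, hext1⟩ : ∃ c > 0, ∀ i : ZMod 4, ∃ p ∈ Az g i, ∃ w, ‖w - p‖ < e1 ∧
      ∀ y ∈ closure (jordanInterior g), c ≤ ‖w - y‖ := by
    refine fin_pos (Q := fun (i : ZMod 4) c => ∃ p ∈ Az g i, ∃ w, ‖w - p‖ < e1 ∧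
      ∀ y ∈ closure (jordanInterior g), c ≤ ‖w - y‖) ?_ fun i => ?_
    · rintro i a b - hab ⟨p, hp, w, h2, h3⟩
      exact ⟨p, hp, w, h2, fun y hy => hab.trans (h3 y hy)⟩
    · obtain ⟨w, hw, c, hc, h2⟩ := hext ((i.val : ℝ) / 4) e1 he1p
      refine ⟨c, hc, gp g ((i.val : ℝ) / 4), ?_, w, hw, h2⟩
      rw [Az_eq hj]
      exact ⟨_, ⟨le_rfl, by linarith⟩, rfl⟩
  -- corners
  obtain ⟨ρ2, hρ2, hcor⟩ : ∃ c > 0, ∀ k : ZMod 4, ∀ z, Nr c (AAz g T η k) z →
      Nr c (AAz g T η (k - 1)) z → ‖z - gp g (aa T η (k.val : ℤ))‖ < min d (e / 8) := by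
    refine fin_pos (Q := fun (k : ZMod 4) c => ∀ z, Nr c (AAz g T η k) z →
      Nr c (AAz g T η (k - 1)) z → ‖z - gp g (aa T η (k.val : ℤ))‖ < min d (e / 8))
      (fun k a b _ hab hb z h2 h3 => hb z (h2.mono hab) (h3.mono hab)) fun k => ?_
    refine near_corner (isCompact_AAz hj k) (isCompact_AAz hj (k - 1)) ?_ (by positivity)
    rintro _ ⟨t, ht, rfl⟩ ⟨t', ht', e'⟩
    rw [corner hj hT h0 h1 (n := (k.val : ℤ)) (n' := ((k - 1).val : ℤ))
      (by rw [val_cast, val_cast]) ht ht' e'.symm]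
  -- net
  obtain ⟨ρ3, hρ3, hnet⟩ : ∃ c > 0, ∀ i : ZMod 4, i ∉ T → ∀ p ∈ Az g i,
      ∃ p' ∈ closure (jordanInterior g), ∃ w, ‖p - p'‖ < e / 4 ∧ ‖w - p'‖ < e / 4 ∧
      (∀ y ∈ closure (jordanInterior g), c ≤ ‖w - y‖) ∧
      ∀ y, ‖y - p'‖ ≤ ‖w - p'‖ → ∀ j, j ≠ i → ∀ x ∈ AAz g T η j, c ≤ ‖y - x‖ := by
    refine fin_pos (Q := fun (i : ZMod 4) c => i ∉ T → ∀ p ∈ Az g i,
      ∃ p' ∈ closure (jordanInterior g), ∃ w, ‖p - p'‖ < e / 4 ∧ ‖w - p'‖ < e / 4 ∧
      (∀ y ∈ closure (jordanInterior g), c ≤ ‖w - y‖) ∧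
      ∀ y, ‖y - p'‖ ≤ ‖w - p'‖ → ∀ j, j ≠ i → ∀ x ∈ AAz g T η j, c ≤ ‖y - x‖) ?_ fun i => ?_
    · intro i a b _ hab hb hi p hp
      obtain ⟨p', hp', w, h2, h3, h4, h5⟩ := hb hi p hp
      exact ⟨p', hp', w, h2, h3, fun y hy => hab.trans (h4 y hy),
        fun y hy j hj x hx => hab.trans (h5 y hy j hj x hx)⟩
    by_cases hi : i ∈ T
    · exact ⟨1, one_pos, fun h2 => absurd hi h2⟩
    obtain ⟨e2, e3⟩ := hout i hi
    set lo := (i.val : ℝ) / 4 + 2 * η with hlo
    set hi' := ((i.val : ℝ) + 1) / 4 - 2 * η with hhi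
    have hlh : lo ≤ hi' := by linarith
    -- distance of the core to the other sides
    obtain ⟨ρ4, hρ4, hfar⟩ : ∃ c > 0, ∀ j : ZMod 4, j ≠ i → ∀ x ∈ gp g '' Icc lo hi',
        ∀ y ∈ AAz g T η j, c ≤ ‖x - y‖ := by
      refine fin_pos (Q := fun (j : ZMod 4) c => j ≠ i → ∀ x ∈ gp g '' Icc lo hi',
        ∀ y ∈ AAz g T η j, c ≤ ‖x - y‖) (fun j a b _ hab hb h2 x hx y hy =>
          hab.trans (hb h2 x hx y hy)) fun j => ?_
      by_cases hji : j = i
      · exact ⟨1, one_pos, fun h2 => absurd hji h2⟩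
      · obtain ⟨c, hc, h4⟩ := sep_pos (isCompact_Icc.image (gp_cont hj))
          (isCompact_AAz (T := T) (η := η) hj j)
          (hdisj i j lo hi' hji (by rw [e2]; linarith) (by rw [e3]; linarith))
        exact ⟨c, hc, fun _ => h4⟩
    set r2 := min (e / 8) (ρ4 / 2) with hr2
    have hr2p : 0 < r2 := by positivity
    choose w hw c hc hwc using fun t => hext t r2 hr2p
    -- finite net
    obtain ⟨t, ht1, ht2⟩ := (isCompact_Icc (a := lo) (b := hi')).elim_nhds_subcover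
      (fun u : ℝ => gp g ⁻¹' ball (gp g u) (e / 8)) (fun u _ =>
        (gp_cont hj).continuousAt (ball_mem_nhds _ (by linarith)))
    obtain ⟨c0, hc0, hc0'⟩ := fin_pos (ι := {u // u ∈ t}) (Q := fun u r => r ≤ c u.1)
      (fun u a b _ hab hb => hab.trans hb) (fun u => ⟨c u.1, hc u.1, le_rfl⟩)
    refine ⟨min c0 (ρ4 / 2), by positivity, fun _ p hp => ?_⟩
    rw [Az_eq hj] at hp
    obtain ⟨u0, hu0, rfl⟩ := hp
    set u1 := max lo (min u0 hi') with hu1
    have hu1m : u1 ∈ Icc lo hi' := ⟨le_max_left _ _, max_le hlh (min_le_right _ _)⟩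
    have hu01 : |u0 - u1| ≤ 2 * η := by
      rw [abs_le, hu1]
      constructor
      · rcases le_total u0 hi' with h2 | h2
        · rw [min_eq_left h2]
          rcases le_total lo u0 with h3 | h3
          · rw [max_eq_right h3]; linarith
          · rw [max_eq_left h3]; linarith [hu0.1]
        · rw [min_eq_right h2, max_eq_right hlh]; linarith
      · rcases le_total u0 hi' with h2 | h2
        · rw [min_eq_left h2]
          have := le_max_right lo u0
          linarith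
        · rw [min_eq_right h2, max_eq_right hlh]; linarith [hu0.2]
    have h2 := ht2 hu1m
    simp only [mem_iUnion] at h2
    obtain ⟨u, hut, hu⟩ := h2
    have hu' : ‖gp g u1 - gp g u‖ < e / 8 := by
      have : gp g u1 ∈ ball (gp g u) (e / 8) := hu
      rwa [mem_ball, dist_eq_norm] at this
    have h3 := hη u0 u1 hu01
    have h4 := norm_sub_le_norm_sub_add_norm_sub (gp g u0) (gp g u1) (gp g u)
    have h5 := hw u
    have h6 : r2 ≤ e / 8 := min_le_left _ _
    have h7 : r2 ≤ ρ4 / 2 := min_le_right _ _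
    refine ⟨gp g u, hsub u, w u, by linarith, by linarith, fun y hy => ?_, fun y hy j hji x hx => ?_⟩
    · exact (min_le_left _ _).trans ((hc0' ⟨u, hut⟩).trans (hwc u y hy))
    · have h8 := hfar j hji (gp g u) ⟨u, ht1 u hut, rfl⟩ x hx
      have h9 := norm_sub_le_norm_sub_add_norm_sub (gp g u) y x
      rw [norm_sub_rev (gp g u) y] at h9
      refine (min_le_right _ _).trans ?_
      linarith
  set ρ := min (min ρ1 ρ2) (min ρ3 (e1 / 8)) with hρ
  have b1 : ρ ≤ ρ1 := (min_le_left _ _).trans (min_le_left _ _)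
  have b2 : ρ ≤ ρ2 := (min_le_left _ _).trans (min_le_right _ _)
  have b3 : ρ ≤ ρ3 := (min_le_right _ _).trans (min_le_left _ _)
  have b4 : ρ ≤ e1 / 8 := (min_le_right _ _).trans (min_le_right _ _)
  refine ⟨e1, ρ, he1p, a3, by positivity, ?_, fun k z h2 h3 =>
    (hcor k z (h2.mono b2) (h3.mono b2)).trans_le (min_le_left _ _)⟩
  refine ⟨he1p, by positivity, by linarith, by linarith, isOpen_ji hj, isBounded_ji hj, ?_,
    fun i => ?_, fun i => ?_, fun i hi j hji x hx y hy => ?_, fun i hi => ?_, fun i y hy => ?_,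
    fun k z h2 h3 => ?_, fun i hi => ?_, fun i hi p hp => ?_⟩
  · -- frontier
    rw [frontier_ji hj h.ne]
    apply subset_antisymm
    · rintro _ ⟨t, ⟨ht0, ht1⟩, rfl⟩
      rw [mem_iUnion]
      rcases le_or_gt t (1 / 4) with h2 | h2
      · refine ⟨0, t, ?_, rfl⟩
        rw [ZMod.val_zero]
        constructor <;> push_cast <;> linarith
      rcases le_or_gt t (1 / 2) with h3 | h3
      · refine ⟨1, t, ?_, rfl⟩
        rw [show (1 : ZMod 4).val = 1 from rfl]
        constructor <;> push_cast <;> linarith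
      rcases le_or_gt t (3 / 4) with h4 | h4
      · refine ⟨2, t, ?_, rfl⟩
        rw [show (2 : ZMod 4).val = 2 from rfl]
        constructor <;> push_cast <;> linarith
      · refine ⟨3, t, ?_, rfl⟩
        rw [show (3 : ZMod 4).val = 3 from rfl]
        constructor <;> push_cast <;> linarith
    · refine iUnion_subset fun i => ?_
      rintro _ ⟨t, ht, rfl⟩
      have := val_le i
      exact ⟨t, ⟨le_trans (by positivity) ht.1, ht.2.trans (by linarith)⟩, rfl⟩
  · rw [Az_eq hj]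
    exact isPreconnected_Icc.image _ (gp_cont hj).continuousOn
  · rw [Az_eq hj]
    exact ⟨_, _, ⟨le_rfl, by linarith⟩, rfl⟩
  · have := hsep (i, j) hi hji x hx y hy
    linarith
  · rw [Az_eq hj]
    obtain ⟨e2, e3⟩ := hin i hi
    refine image_mono (Icc_subset_Icc ?_ ?_)
    · rw [e2]; linarith
    · rw [e3]; linarith
  · -- nr
    obtain ⟨u, hu, rfl⟩ := hy
    set lo := (i.val : ℝ) / 4 with hlo
    set hi' := ((i.val : ℝ) + 1) / 4 with hhi
    have hlh : lo ≤ hi' := by linarith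
    have c1 : lo - η ≤ aa T η (i.val : ℤ) := by
      by_cases hi : i ∈ T
      · rw [(hin i hi).1]
      · rw [(hout i hi).1]; linarith
    have c2 : aa T η ((i.val : ℤ) + 1) ≤ hi' + η := by
      by_cases hi : i ∈ T
      · rw [(hin i hi).2]
      · rw [(hout i hi).2]; linarith
    set u1 := max lo (min u hi') with hu1
    have hu1m : u1 ∈ Icc lo hi' := ⟨le_max_left _ _, max_le hlh (min_le_right _ _)⟩
    have hu01 : |u - u1| ≤ 2 * η := by
      have d1 := hu.1
      have d2 := hu.2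
      rw [abs_le, hu1]
      constructor
      · rcases le_total u hi' with h2 | h2
        · rw [min_eq_left h2]
          rcases le_total lo u with h3 | h3
          · rw [max_eq_right h3]; linarith
          · rw [max_eq_left h3]; linarith
        · rw [min_eq_right h2, max_eq_right hlh]; linarith
      · rcases le_total u hi' with h2 | h2
        · rw [min_eq_left h2]
          have := le_max_right lo u
          linarith
        · rw [min_eq_right h2, max_eq_right hlh]; linarith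
    refine ⟨gp g u1, ?_, ?_⟩
    · rw [Az_eq hj]
      exact ⟨u1, hu1m, rfl⟩
    · have := hη u u1 hu01
      linarith
  · -- marks
    have h4 := (hcor k z (h2.mono b2) (h3.mono b2)).trans_le (min_le_right _ _)
    have h5 : g ((k.val : ℝ) / 4) = gp g ((k.val : ℝ) / 4) := by
      have := val_le k
      exact (gp_eq hj ⟨by positivity, by linarith⟩).symm
    have h6 := hη (aa T η (k.val : ℤ)) ((k.val : ℝ) / 4) (by
      by_cases hk : k ∈ T
      · rw [(hin k hk).1, abs_le]; constructor <;> linarith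
      · rw [(hout k hk).1, abs_le]; constructor <;> linarith)
    have h7 := norm_sub_le_norm_sub_add_norm_sub z (gp g (aa T η (k.val : ℤ)))
      (gp g ((k.val : ℝ) / 4))
    show ‖z - g ((k.val : ℝ) / 4)‖ < e / 4
    rw [h5]
    linarith
  · obtain ⟨p, hp, w, h2, h3⟩ := hext1 i
    exact ⟨p, hp, w, h2, fun y hy => b1.trans (h3 y hy)⟩
  · obtain ⟨p', hp', w, h2, h3, h4, h5⟩ := hnet i hi p hp
    exact ⟨p', hp', w, h2, h3, fun y hy => b3.trans (h4 y hy),
      fun y hy j hji x hx => b3.trans (h5 y hy j hji x hx)⟩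

/-! ### the leaf -/

theorem shift_le (hT : Alt T) (h0 : 0 < η) (k : ZMod 4) :
    |aa T η (k.val : ℤ) - (k.val : ℝ) / 4| ≤ 2 * η := by
  unfold aa
  rw [abs_le]
  split_ifs <;> push_cast <;> constructor <;> linarith

/-- the shifted marks are not on the swallowed arcs -/
theorem mark_notin (hj : IsJordanCurve g) (hT : Alt T) (h0 : 0 < η) (h1 : η < 1 / 16) (k i : ZMod 4)
    (hi : i ∈ T) : gp g (aa T η (k.val : ℤ)) ∉ Az g i := by
  rw [Az_eq hj]
  rintro ⟨t, ht, e⟩
  obtain ⟨l, hl⟩ := gp_inj hj e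
  have hm := aa_mono (T := T) hT h0 h1
  have e1 := aa_per (T := T) (η := η) (k.val : ℤ) l
  have e2 : aa T η (i.val : ℤ) = (i.val : ℝ) / 4 - η := by
    unfold aa; rw [val_cast, if_pos hi]; push_cast; ring
  have e3 : aa T η ((i.val : ℤ) + 1) = ((i.val : ℝ) + 1) / 4 + η := by
    rw [aa_succ hT, val_cast, if_pos hi]; push_cast; ring
  have k1 : (i.val : ℤ) < k.val + 4 * l := by
    rw [← hm.lt_iff_lt, e1, e2]
    linarith [ht.1]
  have k2 : (k.val : ℤ) + 4 * l < i.val + 1 := by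
    rw [← hm.lt_iff_lt, e1, e3]
    linarith [ht.2]
  omega

theorem rvm_rvA {ρ d : ℝ} {AA : ZMod 4 → Set ℂ} {p : ZMod 4 → ℂ}
    (h : ∀ k z, Nr ρ (AA k) z → Nr ρ (AA (k - 1)) z → ‖z - p k‖ < d) (b : Bool) (k : ZMod 4)
    (z : ℂ) (h1 : Nr ρ (rvA b AA k) z) (h2 : Nr ρ (rvA b AA (k - 1)) z) : ‖z - rvm b p k‖ < d := by
  cases b with
  | false => exact h k z h1 h2
  | true =>
    have e1 : (2 : ZMod 4) - k - 1 = 1 - k := by ring
    have e2 : (1 : ZMod 4) - (k - 1) = 2 - k := by ring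
    have h1' : Nr ρ (AA (1 - k)) z := h1
    have h2' : Nr ρ (AA (1 - (k - 1))) z := h2
    rw [e2] at h2'
    exact h (2 - k) z h2' (by rw [e1]; exact h1')

/-- **leaf SWL + LINK** -/
theorem swl_proof : SWL := by
  intro hPoly hTent g f h D A m hD hA hm
  subst hD
  have hAz : A = Az g := funext fun i => hA i
  have hmz : m = fun k : ZMod 4 => g ((k.val : ℝ) / 4) := funext fun i => hm i
  subst hAz
  subst hmz
  have hj := h.jc
  obtain ⟨md, hmd, hlink⟩ := Linkx606.link h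
  refine ⟨md, hmd, fun T hT e he K hK hKD => ?_⟩
  obtain ⟨r1, hr1, hl⟩ := hlink K hK hKD
  have hAlt := alt_of hT
  obtain ⟨η, h0, h1, hη⟩ := gp_unif hj (r := min (e / 8) r1) (by positivity)
  set p : ZMod 4 → ℂ := fun k => gp g (aa T η (k.val : ℤ)) with hp
  set AU : Set ℂ := ⋃ i ∈ T, Az g i with hAU
  have hAUc : IsClosed AU := Set.Finite.isClosed_biUnion (Set.toFinite T) fun i _ =>
    (isCompact_Az hj i).isClosed
  have hAtr : ∀ i, Az g i ⊆ curveTrace g := by
    rintro i _ ⟨t, ht, rfl⟩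
    have := val_le i
    exact ⟨t, ⟨le_trans (by positivity) ht.1, ht.2.trans (by linarith)⟩, rfl⟩
  have hAUs : AU ⊆ curveTrace g := iUnion₂_subset fun i _ => hAtr i
  have hpAU : ∀ k, p k ∉ AU := by
    intro k hk
    obtain ⟨i, hi, hk⟩ := mem_iUnion₂.1 hk
    exact mark_notin hj hAlt h0 h1 k i hi hk
  have hrp : ∀ (b : Bool) k, rvm b p k ∉ AU := by
    intro b k
    cases b with
    | false => exact hpAU k
    | true => exact hpAU (2 - k)
  choose κ0 hκ0 δ2 hδ2 hL using fun b : Bool => hl AU (rvm b p) hAUc hAUs (hrp b)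
  obtain ⟨κm, hκm, hκm'⟩ := fin_pos (ι := Bool) (Q := fun b r => r ≤ κ0 b)
    (fun b a c _ hac hc => hac.trans hc) (fun b => ⟨κ0 b, hκ0 b, le_rfl⟩)
  obtain ⟨δm, hδm, hδm'⟩ := fin_pos (ι := Bool) (Q := fun b r => r ≤ δ2 b)
    (fun b a c _ hac hc => hac.trans hc) (fun b => ⟨δ2 b, hδ2 b, le_rfl⟩)
  obtain ⟨e1, ρ, he1, hew, hρ, hArs, hmark⟩ := exists_ars h hAlt he h0 h1
    (fun t t' ht => (hη t t' ht).trans_le (min_le_left _ _)) (d := δm / 4) (w0 := κm / 2)
    (by positivity) (by positivity)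
  set e0 := min (ρ / 8) (δm / 8) with he0
  have he0p : 0 < e0 := by positivity
  have g1 : e0 ≤ ρ / 8 := min_le_left _ _
  have g2 : e0 ≤ δm / 8 := min_le_right _ _
  obtain ⟨rv, s, F, N, v, mm, hP⟩ := hPoly g f h (aa T η) (aa_mono hAlt h0 h1)
    (fun k => by have := aa_per (T := T) (η := η) k 1; simpa using this) e0 he0p
  obtain ⟨C, δ, κt, B, hTen⟩ := hTent s F N v mm hP.s_pos hP.fin hP.con hP.con' hP.cyc hP.m01
    hP.m12 hP.m23 hP.m3N
  have hArs' := hArs.rv rv
  have hP' : Pol4 (jordanInterior g) (rvA rv (AAz g T η)) e0 s F N v mm := hP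
  have h8 : 8 * e0 ≤ ρ := by linarith
  obtain ⟨κ1, hκ1, hκ1t, hκ1e, hκ1b, hcore⟩ := core hArs' hP' h8 hTen
  choose q hq1 hq2 Tn κ3 hκ3 t1 t2 t3 t4 t5 t6 using fun k => tube hArs' hP' h8 hTen k
  obtain ⟨κn, hκn, hκn'⟩ := fin_pos (ι := ZMod 4) (Q := fun k r => r ≤ κ3 k)
    (fun b a c _ hac hc => hac.trans hc) (fun k => ⟨κ3 k, hκ3 k, le_rfl⟩)
  set κ := min κ1 κn with hκ
  have hκp : 0 < κ := by positivity
  have k1 : κ ≤ κ1 := min_le_left _ _
  have k2 : κ ≤ κn := min_le_right _ _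
  have hM := hcore κ hκp k1
  have hs := hP'.s_pos
  have hse := hP'.s_lt
  obtain ⟨lk, lkm⟩ := hL rv (Csw C (rvA rv (Az g)) (rvT rv T) (Pg s F) e1) κ e (Pg s F)
    (Bp B s F) (rvm rv fun k : ZMod 4 => g ((k.val : ℝ) / 4)) q Tn he (by
      intro k
      have key : ∀ j : ZMod 4, g ((j.val : ℝ) / 4) ∈ curveTrace g := fun j => by
        have := val_le j
        exact ⟨_, ⟨by positivity, by linarith⟩, rfl⟩
      cases rv with
      | false => exact key k
      | true => exact key (2 - k))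
    (by
      have key : ∀ j : ZMod 4, dist (p j) (g ((j.val : ℝ) / 4)) < r1 := fun j => by
        have h5 : g ((j.val : ℝ) / 4) = gp g ((j.val : ℝ) / 4) := by
          have := val_le j
          exact (gp_eq hj ⟨by positivity, by linarith⟩).symm
        rw [h5, dist_eq_norm]
        exact (hη _ _ (shift_le hAlt h0 j)).trans_le (min_le_right _ _)
      intro k
      cases rv with
      | false => exact key k
      | true => exact key (2 - k))
    hq1 (by
      intro k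
      have hze : pt s (v (mm k.val)) ∈ ed s (v (mm k.val)) (v (mm k.val + 1)) :=
        left_mem_segment ℝ _ _
      have hzc : pt s (v (mm k.val)) ∈ sq s (lc (v (mm k.val)) (v (mm k.val + 1))) :=
        ed_sub_lc hs (hP'.cyc.step _) hze
      obtain ⟨n1, n2⟩ := marked hP' k hze
      have h5 := rvm_rvA hmark rv k _ (n1.mono (by linarith)) (n2.mono (by linarith))
      have h6 := sq_dist (hq2 k) hzc
      have h7 := norm_sub_le_norm_sub_add_norm_sub (q k) (pt s (v (mm k.val))) (rvm rv p k)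
      rw [dist_eq_norm]
      have h9 := hδm' rv
      refine lt_of_lt_of_le ?_ h9
      calc ‖q k - rvm rv p k‖ ≤ ‖q k - pt s (v (mm k.val))‖ +
            ‖pt s (v (mm k.val)) - rvm rv p k‖ := h7
        _ < 2 * s + δm / 4 := by linarith
        _ ≤ δm := by linarith)
    (hM.DG.trans interior_subset)
    (hM.bd.trans (closedBall_subset_closedBall (by
      have := hTen.ok.Lpos
      show C.L / 4 ≤ 3 / 4 * C.L
      linarith)))
    (by
      intro y hy hyA
      refine disjoint_left.2 fun w hw hwo => ?_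
      rw [mem_ball] at hw
      rcases mem_out_sw.1 hwo with h5 | ⟨i, hi, h6, h7⟩
      · exact Pg_not_out hTen (hκ1b y hy (by rw [mem_ball]; linarith)) h5
      · obtain ⟨a, ha, hwa⟩ := mem_thickening_iff.1 h7
        have haU : a ∈ AU := by
          have : ∃ j ∈ T, a ∈ Az g j := by
            cases rv with
            | false => exact ⟨i, hi, ha⟩
            | true => exact ⟨1 - i, hi, ha⟩
          obtain ⟨j, hj1, hj2⟩ := this
          exact mem_biUnion hj1 hj2
        have h8 := (hκm' rv).trans (hyA a haU)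
        have h9 := dist_triangle y w a
        rw [dist_comm y w] at h9
        linarith)
    t1 t2 t3 t4 t5 (fun k => t6 k κ (k2.trans (hκn' k)))
  refine ⟨rv, Csw C (rvA rv (Az g)) (rvT rv T) (Pg s F) e1, δ, κ, Pg s F, Bp B s F, ?_⟩
  exact {
    ok := hM.ok
    kpos := hM.kpos
    ke := hM.ke
    bd := hM.bd
    Gc := hM.Gc
    DG := hM.DG
    Gbd := hM.Gbd
    Ge := hM.Ge
    Bc := hM.Bc
    body := hM.body
    sw := hM.sw
    sw' := hM.sw'
    ns := hM.ns
    ot := hM.ot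
    otD := hM.otD
    nr := hM.nr
    nr' := hM.nr'
    ex := hM.ex
    tb := hM.tb
    tbn := hM.tbn
    tbt := hM.tbt
    tbc := hM.tbc
    tbD := hM.tbD
    tg := hM.tg
    inD := hM.inD
    lk := lk
    lkm := lkm }

end Crest.Agent.R143.Swl3x922
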