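import Crest.Agent.R143.Tent5_359

/-!
# Row 143 (S0194), block D, TENT, file 6 (helper359): collars of the tentacles, far region

* `refCfg'`, `collarArc'`, `clean'`, `collarTent` : the Props of Tent0 without hypotheses
* `Cfg.far` : outside the box the body consists of the rays
* `Cfg.far_free`, `Cfg.far_x`, `Cfg.far_t` : moves in the far region
-/

set_option autoImplicit false

namespace Crest.Agent.R143.Tentx359

open Crest.Agent.R158.Sp896

theorem refCfg' : RefCfg := refCfg TentAx951.refCyc TentAx951.refCon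

theorem collarArc' : CollarArc := collarArc TentAx951.refCyc

theorem clean' : Clean := by
  intro h hh F L v m c M n U C i hi j
  exact ⟨fun i' hi' j' h1 h2 => C.clean_tent hh hi hi' h1 h2,
    fun f hf h1 h2 => (C.clean_F hh hi hf h1 h2).1⟩

/-- point of the far region in the frame of the ray `i` -/
def fp (c : V) (i : ℕ) (x t : ℤ) : V :=
  (c.1 + x * (dir i).1 - t * (dir i).2, c.2 + x * (dir i).2 + t * (dir i).1)

theorem dir_cases {i : ℕ} (hi : i < 4) : (i = 0 ∧ dir i = (1, 0)) ∨ (i = 1 ∧ dir i = (0, 1)) ∨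
    (i = 2 ∧ dir i = (-1, 0)) ∨ (i = 3 ∧ dir i = (0, -1)) := by
  interval_cases i <;> simp [dir]

section cfg

variable {F : Set V} {L : ℕ} {v : ℕ → V} {m : ℕ → ℕ} {c : V} {M : ℤ} {n : ℕ} {U : ℕ → ℕ → V}

theorem Cfg.M_pos (C : Cfg F L v m c M n U) : 0 < M := by
  have h1 := (C.box _ (C.cyc.left 0)).1
  exact lt_of_le_of_lt (abs_nonneg _) h1

/-- outside the box the body consists of the rays -/
theorem Cfg.far (C : Cfg F L v m c M n U) {f : V} (hf : f ∈ body F U n)
    (hfar : M < |f.1 - c.1| ∨ M < |f.2 - c.2|) :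
    ∃ i < n, ∃ r : ℤ, M < r ∧ f = (c.1 + r * (dir i).1, c.2 + r * (dir i).2) := by
  rcases hf with hf | ⟨i, hi, j, hj⟩
  · have := C.box f hf
    omega
  · obtain ⟨j0, h0, h1, h2⟩ := C.ray i hi
    by_cases hle : j + 1 ≤ j0
    · have := h1 (j + 1) hle
      rw [← hj] at this
      omega
    · obtain ⟨j', hj'⟩ : ∃ j', j + 1 = j0 + (j' + 1) := ⟨j - j0, by omega⟩
      refine ⟨i, hi, M + (j' + 1 : ℕ), by push_cast; omega, ?_⟩
      rw [hj, hj']
      exact h2 (j' + 1)

/-- the rays are in the body -/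
theorem Cfg.ray_mem (C : Cfg F L v m c M n U) {i : ℕ} (hi : i < n) {r : ℤ} (hr : M ≤ r) :
    ((c.1 + r * (dir i).1, c.2 + r * (dir i).2) : V) ∈ body F U n := by
  obtain ⟨j0, h0, h1, h2⟩ := C.ray i hi
  obtain ⟨j, hj⟩ := Int.eq_ofNat_of_zero_le (sub_nonneg.2 hr)
  refine Or.inr ⟨i, hi, j0 - 1 + j, ?_⟩
  have e : j0 - 1 + j + 1 = j0 + j := by omega
  rw [e, h2 j]
  have : r = M + j := by omega
  rw [this]

/-- cells next to the rays in the far region are free -/
theorem Cfg.far_free (C : Cfg F L v m c M n U) {i : ℕ} (hi : i < 4) {x t : ℤ} (hx : M < x)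
    (ht : t ≠ 0) : fp c i x t ∉ body F U n := by
  intro hf
  have hM := C.M_pos
  have hn := C.n4
  have hfar : M < |(fp c i x t).1 - c.1| ∨ M < |(fp c i x t).2 - c.2| := by
    unfold fp
    rcases dir_cases hi with ⟨-, e⟩ | ⟨-, e⟩ | ⟨-, e⟩ | ⟨-, e⟩ <;> rw [e] <;> simp only
    · left; rw [lt_abs]; omega
    · right; rw [lt_abs]; omega
    · left; rw [lt_abs]; omega
    · right; rw [lt_abs]; omega
  obtain ⟨i', hi', r, hr, he⟩ := C.far hf hfar
  unfold fp at he
  rw [Prod.ext_iff] at he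
  simp only at he
  rcases dir_cases hi with ⟨-, e⟩ | ⟨-, e⟩ | ⟨-, e⟩ | ⟨-, e⟩ <;>
    rcases dir_cases (show i' < 4 by omega) with ⟨-, e'⟩ | ⟨-, e'⟩ | ⟨-, e'⟩ | ⟨-, e'⟩ <;>
    rw [e, e'] at he <;> simp only at he <;> omega

/-- moves parallel to the ray -/
theorem Cfg.far_x (C : Cfg F L v m c M n U) {i : ℕ} (hi : i < 4) {x x' t : ℤ} (hx : M < x)
    (hx' : M < x') (ht : t ≠ 0) : Con (body F U n)ᶜ (fp c i x t) (fp c i x' t) := by
  have hd : Adj (0, 0) (dir i) := by
    rcases dir_cases hi with ⟨-, e⟩ | ⟨-, e⟩ | ⟨-, e⟩ | ⟨-, e⟩ <;> rw [e] <;> unfold Adj <;> simp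
  have key : ∀ r : ℤ, fp c i r t = ((fp c i 0 t).1 + r * (dir i).1, (fp c i 0 t).2 + r * (dir i).2) := by
    intro r; unfold fp; ext <;> simp only <;> ring
  rw [key x, key x']
  refine line_con (p := fp c i 0 t) hd fun r h1 h2 => ?_
  rw [← key r]
  rw [min_le_iff] at h1
  exact C.far_free hi (by omega) ht

/-- moves orthogonal to the ray -/
theorem Cfg.far_t (C : Cfg F L v m c M n U) {i : ℕ} (hi : i < 4) {x t t' : ℤ} (hx : M < x)
    (ht : (0 < t ∧ 0 < t') ∨ (t < 0 ∧ t' < 0)) :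
    Con (body F U n)ᶜ (fp c i x t) (fp c i x t') := by
  have hd : Adj (0, 0) ((-(dir i).2, (dir i).1) : V) := by
    rcases dir_cases hi with ⟨-, e⟩ | ⟨-, e⟩ | ⟨-, e⟩ | ⟨-, e⟩ <;> rw [e] <;> unfold Adj <;> simp
  have key : ∀ r : ℤ, fp c i x r =
      ((fp c i x 0).1 + r * ((-(dir i).2, (dir i).1) : V).1,
        (fp c i x 0).2 + r * ((-(dir i).2, (dir i).1) : V).2) := by
    intro r; unfold fp; ext <;> simp only <;> ring
  rw [key t, key t']
  refine line_con (p := fp c i x 0) hd fun r h1 h2 => ?_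
  rw [← key r]
  rw [min_le_iff] at h1
  rw [le_max_iff] at h2
  exact C.far_free hi hx (by omega)

/-- entrance corners of the far blocks -/
theorem Cfg.ray_corner (C : Cfg F L v m c M n U) (h : ℕ) {i : ℕ} (hi : i < n) :
    ∃ a, side h (U i (a + 1)) (U i a) (-h) = fp (cenc h c) i ((2 * h + 1) * M + (h + 1)) h ∧
      side h (U i (a + 1)) (U i a) h = fp (cenc h c) i ((2 * h + 1) * M + (h + 1)) (-h) := by
  obtain ⟨j0, h0, h1, h2⟩ := C.ray i hi
  have e1 := h2 1
  have e0 := h2 0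
  rw [Nat.add_zero] at e0
  refine ⟨j0, ?_, ?_⟩ <;> rw [e1, e0] <;> unfold side fp cenc <;>
    refine Prod.ext ?_ ?_ <;> simp only <;> push_cast <;> ring

/-- **(B4)** -/
theorem collarTent : CollarTent := by
  intro h hh F L v m c M n U C i hi
  have C' := refCfg' h F L v m c M n U C
  have hi4 : i < 4 := lt_of_lt_of_le hi C.n4
  have hh' : (1 : ℤ) ≤ h := by exact_mod_cast hh
  obtain ⟨a, ha1, ha2⟩ := C.ray_corner h hi
  have hL := C.left_start hh hi
  have hR := C.right_start hh hi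
  refine ⟨?_, ?_, ?_⟩
  · intro r hr
    have k1 := (hL.trans (C.left_chain hh hi a))
    rw [ha1] at k1
    have k2 := C'.far_x hi4 (x := (2 * h + 1) * M + (h + 1)) (x' := r) (t := h) (by omega) hr
      (by omega)
    have k3 := C'.far_t hi4 (x := r) (t := h) (t' := 1) hr (by omega)
    have e : fp (cenc h c) i r 1 = ((cenc h c).1 + r * (dir i).1 + (rot (dir i)).1,
        (cenc h c).2 + r * (dir i).2 + (rot (dir i)).2) := by
      unfold fp rot; ext <;> simp only <;> ring
    rw [e] at k3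
    exact (k1.trans k2).trans k3
  · intro r hr
    have k1 := (hR.trans (C.right_chain hh hi a))
    rw [ha2] at k1
    have k2 := C'.far_x hi4 (x := (2 * h + 1) * M + (h + 1)) (x' := r) (t := -h) (by omega) hr
      (by omega)
    have k3 := C'.far_t hi4 (x := r) (t := -h) (t' := -1) hr (by omega)
    have e : fp (cenc h c) i r (-1) = ((cenc h c).1 + r * (dir i).1 - (rot (dir i)).1,
        (cenc h c).2 + r * (dir i).2 - (rot (dir i)).2) := by
      unfold fp rot; ext <;> simp only <;> ring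
    rw [e] at k3
    exact (k1.trans k2).trans k3
  · intro j q hq hqB
    obtain ⟨b, hb⟩ := C.nb_blk hh hi hq hqB
    obtain ⟨w, hw, hcon⟩ := C.to_corner hh hi b hb hqB
    have hcon' : Con (body (ref h F) (Uref h U) n)ᶜ (side h (U i (b + 1)) w h) q := by
      exact Crest.Agent.R158.Sp896.Con.symm hcon hqB
    rcases corner_conn (h := h) (S := (body (ref h F) (Uref h U) n)ᶜ) (C.step i hi b).symm
      (C.step i hi (b + 1)) (C.pn_ne hi b) (C.sides hh hi b) hw with h1 | h1
    · exact Or.inl (((hL.trans (C.left_chain hh hi b)).trans h1).trans hcon')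
    · exact Or.inr (((hR.trans (C.right_chain hh hi b)).trans h1).trans hcon')

end cfg

end Crest.Agent.R143.Tentx359
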