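import Crest.Agent.R143.TentB3_951
import Crest.Agent.R143.Tent6_359

/-!
# Row 143 (S0194), block D, TENT B, part 4 (helper951): every refined configuration is `Fine`
-/

set_option autoImplicit false

namespace Crest.Agent.R143.TentBx951

open Crest.Agent.R158 Crest.Agent.R158.Sp896 Crest.Agent.R143.Tentx359 Crest.Agent.R143.TentAx951

theorem uref_dir {F : Set V} {L : ℕ} {v : ℕ → V} {m : ℕ → ℕ} {c : V} {M : ℤ} {n : ℕ}
    {U : ℕ → ℕ → V} (C : Cfg F L v m c M n U) {h : ℕ} (hh : 1 ≤ h) {i : ℕ} (hi : i < n) :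
    Uref h U i 0 = ((Uref h U i 1).1 + ((U i 0).1 - (U i 1).1),
      (Uref h U i 1).2 + ((U i 0).2 - (U i 1).2)) := by
  have C' := refCfg' h F L v m c M n U C
  have hf : Uref h U i 0 ∈ ref h F := by
    rw [C'.start0 i hi]
    exact C'.cyc.left _
  have hadj := C'.step i hi 0
  obtain ⟨-, hdot⟩ := C.clean_F hh hi (j := 0) hf
    (by rw [abs_le]; unfold Adj at hadj; simp only [zero_add] at *; omega)
    (by rw [abs_le]; unfold Adj at hadj; simp only [zero_add] at *; omega)
  have h0 := C.step i hi 0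
  simp only [zero_add] at hadj h0
  have key := dot_eq (p := Uref h U i 1) (f := Uref h U i 0)
    (g := ((Uref h U i 1).1 + ((U i 0).1 - (U i 1).1),
      (Uref h U i 1).2 + ((U i 0).2 - (U i 1).2))) hadj
    (by unfold Adj at h0 ⊢; simp only; omega) (by simp only; linarith)
  exact key

theorem fine_of {F : Set V} {L : ℕ} {v : ℕ → V} {m : ℕ → ℕ} {c : V} {M : ℤ} {U : ℕ → ℕ → V}
    (C : Cfg F L v m c M 4 U) {h : ℕ} (hh : 1 ≤ h) :
    Fine (ref h F) ((2 * h + 1) * L) (vref h v) (mref h m) (cenc h c) ((2 * h + 1) * M)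
      (Uref h U) where
  C := refCfg' h F L v m c M 4 U C
  arc := fun a b hab hx => collarArc' h hh F L v m c M 4 U C a b hab hx
  tl := fun i hi => (collarTent h hh F L v m c M 4 U C i hi).1
  tR := fun i hi => (collarTent h hh F L v m c M 4 U C i hi).2.1
  ts := fun i hi => (collarTent h hh F L v m c M 4 U C i hi).2.2
  cl := fun i hi j i' hi' j' h1 h2 => C.clean_tent hh hi hi' h1 h2
  clF := fun i hi j f hf h1 h2 => by
    obtain ⟨e1, e2⟩ := C.clean_F hh hi hf h1 h2
    refine ⟨e1, ?_⟩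
    rw [uref_dir C hh hi]
    simp only
    rw [add_sub_cancel_left, add_sub_cancel_left]
    exact e2
  m0 := by unfold mref; omega
  g01 := by
    have := C.m01
    unfold mref
    have h1 : (2 * h + 1) * (m 0 + 1) ≤ (2 * h + 1) * m 1 := Nat.mul_le_mul_left _ this
    have e : (2 * h + 1) * (m 0 + 1) = (2 * h + 1) * m 0 + (2 * h + 1) := by ring
    omega
  g12 := by
    have := C.m12
    unfold mref
    have h1 : (2 * h + 1) * (m 1 + 1) ≤ (2 * h + 1) * m 2 := Nat.mul_le_mul_left _ this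
    have e : (2 * h + 1) * (m 1 + 1) = (2 * h + 1) * m 1 + (2 * h + 1) := by ring
    omega
  g23 := by
    have := C.m23
    unfold mref
    have h1 : (2 * h + 1) * (m 2 + 1) ≤ (2 * h + 1) * m 3 := Nat.mul_le_mul_left _ this
    have e : (2 * h + 1) * (m 2 + 1) = (2 * h + 1) * m 2 + (2 * h + 1) := by ring
    omega
  g30 := by
    have := C.m3L
    unfold mref
    have h1 : (2 * h + 1) * (m 3 + 1) ≤ (2 * h + 1) * L := Nat.mul_le_mul_left _ this
    have e : (2 * h + 1) * (m 3 + 1) = (2 * h + 1) * m 3 + (2 * h + 1) := by ring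
    omega

end Crest.Agent.R143.TentBx951
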