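import Crest.Agent.R143.Ten_416
import Crest.Agent.R143.TentB4_951
import Crest.Agent.R143.Tent8_359

/-!
# Row 143 (S0194), block D, TENT, geometric part: definitions (helper359)

Fine level: mesh `σ`, `Fine F L v m c M U`.
* `CC σ F v m c M U` : the configuration, `BB σ U c M k` : tentacle `k` with its cone
* `aa`, `bb` : coordinates in the frame of the tentacle `k`; `mem_sq`, `mem_cone`
* `ref_ref`, `vref_vref`, `Pg_ref`, `exFine` : refinement of the coarse polygon by `81 = 2 * 40 + 1`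
-/

set_option autoImplicit false

noncomputable section

namespace Crest.Agent.R143.TentDx359

open Set Metric
open Crest.Agent.R158 Crest.Agent.R158.Sp896 Crest.Agent.R158.Tj656 Crest.Agent.R158.Tg331
open Crest.Agent.R143.Tentx359 Crest.Agent.R143.TentAx951 Crest.Agent.R143.TentBx951
open Crest.Agent.R143.Tenx416

/-! ### definitions -/

/-- radius of the big disc -/
def LL (σ : ℝ) (M : ℤ) : ℝ := 16 * σ * (M + 2)

/-- direction of the tentacle `k` -/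
def qq (k : ZMod 4) : ℂ := Complex.I ^ k.val

/-- closed cone of the tentacle `k` -/
def cone (σ : ℝ) (c : V) (M : ℤ) (k : ZMod 4) : Set ℂ :=
  {z | LL σ M / 2 ≤ ‖z - cen σ c‖ ∧
    ∃ t : ℝ, 0 ≤ t ∧ ‖z - (cen σ c + t * qq k)‖ ≤ σ / LL σ M * ‖z - cen σ c‖}

/-- union of the cells of the tentacle `k` -/
def TT (σ : ℝ) (U : ℕ → ℕ → V) (k : ZMod 4) : Set ℂ := {z | ∃ j, z ∈ sq σ (U k.val (j + 1))}

/-- tentacle with its cone -/
def BB (σ : ℝ) (U : ℕ → ℕ → V) (c : V) (M : ℤ) (k : ZMod 4) : Set ℂ := TT σ U k ∪ cone σ c M k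

/-- region after the tentacle `i` -/
def RR (σ : ℝ) (F : Set V) (v : ℕ → V) (m : ℕ → ℕ) (c : V) (M : ℤ) (U : ℕ → ℕ → V)
    (i : ZMod 4) : Set ℂ := Om σ (cls F v m U i.val) \ ⋃ k, cone σ c M k

/-- the configuration -/
def CC (σ : ℝ) (F : Set V) (v : ℕ → V) (m : ℕ → ℕ) (c : V) (M : ℤ) (U : ℕ → ℕ → V) :
    Cfgx416.Cfg 4 where
  c := cen σ c
  L := LL σ M
  R := RR σ F v m c M U
  q := qq

/-- coordinate along the tentacle `k` -/
def aa (σ : ℝ) (c : V) (k : ZMod 4) (z : ℂ) : ℝ :=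
  (z.re - (cen σ c).re) * (dir k.val).1 + (z.im - (cen σ c).im) * (dir k.val).2

/-- coordinate to the left of the tentacle `k` -/
def bb (σ : ℝ) (c : V) (k : ZMod 4) (z : ℂ) : ℝ :=
  (z.re - (cen σ c).re) * (rot (dir k.val)).1 + (z.im - (cen σ c).im) * (rot (dir k.val)).2

/-! ### the frame -/

theorem val_lt (k : ZMod 4) : k.val < 4 := ZMod.val_lt k

theorem k_cases (k : ZMod 4) : (k = 0 ∧ k.val = 0) ∨ (k = 1 ∧ k.val = 1) ∨ (k = 2 ∧ k.val = 2) ∨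
    (k = 3 ∧ k.val = 3) := by
  fin_cases k
  · exact Or.inl ⟨rfl, rfl⟩
  · exact Or.inr (Or.inl ⟨rfl, rfl⟩)
  · exact Or.inr (Or.inr (Or.inl ⟨rfl, rfl⟩))
  · exact Or.inr (Or.inr (Or.inr ⟨rfl, rfl⟩))

theorem prv_val (k : ZMod 4) : (k - 1).val = prv k.val := by
  fin_cases k <;> rfl

theorem qq_re (k : ZMod 4) : (qq k).re = (dir k.val).1 := by
  unfold qq dir
  rcases k_cases k with ⟨-, h⟩ | ⟨-, h⟩ | ⟨-, h⟩ | ⟨-, h⟩ <;> rw [h]
  · simp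
  · simp
  · simp
  · simp [pow_succ]

theorem qq_im (k : ZMod 4) : (qq k).im = (dir k.val).2 := by
  unfold qq dir
  rcases k_cases k with ⟨-, h⟩ | ⟨-, h⟩ | ⟨-, h⟩ | ⟨-, h⟩ <;> rw [h]
  · simp
  · simp
  · simp
  · simp [pow_succ]

theorem qq_norm (k : ZMod 4) : ‖qq k‖ = 1 := by
  unfold qq
  rw [norm_pow, Complex.norm_I, one_pow]

/-- squared distance to the axis point -/
theorem sq_axis (σ : ℝ) (c : V) (k : ZMod 4) (z : ℂ) (t : ℝ) :
    ‖z - (cen σ c + t * qq k)‖ ^ 2 = (aa σ c k z - t) ^ 2 + bb σ c k z ^ 2 := by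
  rw [← Complex.normSq_eq_norm_sq, Complex.normSq_apply]
  simp only [Complex.sub_re, Complex.sub_im, Complex.add_re, Complex.add_im, Complex.re_ofReal_mul,
    Complex.im_ofReal_mul, qq_re, qq_im]
  unfold aa bb dir rot
  rcases k_cases k with ⟨-, h⟩ | ⟨-, h⟩ | ⟨-, h⟩ | ⟨-, h⟩ <;> rw [h] <;> simp <;> ring

theorem norm_sq (σ : ℝ) (c : V) (k : ZMod 4) (z : ℂ) :
    ‖z - cen σ c‖ ^ 2 = aa σ c k z ^ 2 + bb σ c k z ^ 2 := by
  have := sq_axis σ c k z 0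
  simpa using this

theorem aa_le (σ : ℝ) (c : V) (k : ZMod 4) (z : ℂ) : |aa σ c k z| ≤ ‖z - cen σ c‖ := by
  apply abs_le_of_sq_le_sq _ (norm_nonneg _)
  rw [norm_sq σ c k z]
  nlinarith [sq_nonneg (bb σ c k z)]

theorem bb_le (σ : ℝ) (c : V) (k : ZMod 4) (z : ℂ) : |bb σ c k z| ≤ ‖z - cen σ c‖ := by
  apply abs_le_of_sq_le_sq _ (norm_nonneg _)
  rw [norm_sq σ c k z]
  nlinarith [sq_nonneg (aa σ c k z)]

theorem le_add (σ : ℝ) (c : V) (k : ZMod 4) (z : ℂ) :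
    ‖z - cen σ c‖ ≤ |aa σ c k z| + |bb σ c k z| := by
  apply le_of_sq_le_sq _ (by positivity)
  rw [norm_sq σ c k z, ← sq_abs (aa σ c k z), ← sq_abs (bb σ c k z)]
  nlinarith [abs_nonneg (aa σ c k z), abs_nonneg (bb σ c k z)]

theorem continuous_aa (σ : ℝ) (c : V) (k : ZMod 4) : Continuous (aa σ c k) := by
  unfold aa
  fun_prop

theorem continuous_bb (σ : ℝ) (c : V) (k : ZMod 4) : Continuous (bb σ c k) := by
  unfold bb
  fun_prop

/-- the coordinates are 1-Lipschitz -/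
theorem aa_lip (σ : ℝ) (c : V) (k : ZMod 4) (z w : ℂ) :
    |aa σ c k z - aa σ c k w| ≤ dist z w := by
  have h1 : |(z - w).re| ≤ ‖z - w‖ := Complex.abs_re_le_norm _
  have h2 : |(z - w).im| ≤ ‖z - w‖ := Complex.abs_im_le_norm _
  rw [Complex.sub_re] at h1
  rw [Complex.sub_im] at h2
  rw [dist_eq_norm]
  rw [abs_le] at h1 h2 ⊢
  unfold aa dir
  rcases k_cases k with ⟨-, h⟩ | ⟨-, h⟩ | ⟨-, h⟩ | ⟨-, h⟩ <;> rw [h] <;> simp <;>
    constructor <;> linarith [h1.1, h1.2, h2.1, h2.2]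

theorem bb_lip (σ : ℝ) (c : V) (k : ZMod 4) (z w : ℂ) :
    |bb σ c k z - bb σ c k w| ≤ dist z w := by
  have h1 : |(z - w).re| ≤ ‖z - w‖ := Complex.abs_re_le_norm _
  have h2 : |(z - w).im| ≤ ‖z - w‖ := Complex.abs_im_le_norm _
  rw [Complex.sub_re] at h1
  rw [Complex.sub_im] at h2
  rw [dist_eq_norm]
  rw [abs_le] at h1 h2 ⊢
  unfold bb rot dir
  rcases k_cases k with ⟨-, h⟩ | ⟨-, h⟩ | ⟨-, h⟩ | ⟨-, h⟩ <;> rw [h] <;> simp <;>
    constructor <;> linarith [h1.1, h1.2, h2.1, h2.2]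

/-- cells in the frame -/
theorem mem_sq {σ : ℝ} (c : V) (k : ZMod 4) {z : ℂ} {q : V} : z ∈ sq σ q ↔
    |aa σ c k z - σ * al c k.val q| ≤ σ / 2 ∧ |bb σ c k z - σ * be c k.val q| ≤ σ / 2 := by
  rw [abs_le, abs_le]
  unfold aa bb al be rot dir cen
  show (σ * q.1 ≤ z.re ∧ z.re ≤ σ * (q.1 + 1) ∧ σ * q.2 ≤ z.im ∧ z.im ≤ σ * (q.2 + 1)) ↔ _
  constructor
  · rintro ⟨h1, h2, h3, h4⟩
    rcases k_cases k with ⟨-, h⟩ | ⟨-, h⟩ | ⟨-, h⟩ | ⟨-, h⟩ <;> rw [h] <;> push_cast <;> norm_num <;>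
      refine ⟨⟨?_, ?_⟩, ?_, ?_⟩ <;> nlinarith
  · intro g
    rcases k_cases k with ⟨-, h⟩ | ⟨-, h⟩ | ⟨-, h⟩ | ⟨-, h⟩ <;> rw [h] at g <;>
      push_cast at g <;> norm_num at g <;> obtain ⟨⟨h1, h2⟩, h3, h4⟩ := g <;>
      refine ⟨?_, ?_, ?_, ?_⟩ <;> nlinarith

/-! ### the cone in the frame -/

section cone

variable {σ : ℝ} {c : V} {M : ℤ}

theorem LL_pos (hσ : 0 < σ) (hM : 0 ≤ M) : 0 < LL σ M := by
  unfold LL
  have : (0 : ℝ) ≤ M := by exact_mod_cast hM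
  positivity

theorem LL_ge (hσ : 0 < σ) (hM : 0 ≤ M) : 16 * σ ≤ LL σ M := by
  unfold LL
  have : (0 : ℝ) ≤ M := by exact_mod_cast hM
  nlinarith [mul_nonneg hσ.le this]

theorem ratio (hσ : 0 < σ) (hM : 0 ≤ M) : σ / LL σ M ≤ 1 / 16 := by
  rw [div_le_div_iff₀ (LL_pos hσ hM) (by norm_num)]
  linarith [LL_ge hσ hM]

theorem ratio_pos (hσ : 0 < σ) (hM : 0 ≤ M) : 0 < σ / LL σ M := div_pos hσ (LL_pos hσ hM)

/-- width of the cone at distance `≥ L / 2` -/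
theorem width (hσ : 0 < σ) (hM : 0 ≤ M) {z : ℂ} (h : LL σ M / 2 ≤ ‖z - cen σ c‖) :
    σ / 2 ≤ σ / LL σ M * ‖z - cen σ c‖ := by
  have h1 : σ / LL σ M * (LL σ M / 2) = σ / 2 := by
    have := (LL_pos hσ hM).ne'
    field_simp
  rw [← h1]
  exact mul_le_mul_of_nonneg_left h (ratio_pos hσ hM).le

theorem width' (hσ : 0 < σ) (hM : 0 ≤ M) {z : ℂ} (h : LL σ M / 2 < ‖z - cen σ c‖) :
    σ / 2 < σ / LL σ M * ‖z - cen σ c‖ := by
  have h1 : σ / LL σ M * (LL σ M / 2) = σ / 2 := by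
    have := (LL_pos hσ hM).ne'
    field_simp
  rw [← h1]
  exact mul_lt_mul_of_pos_left h (ratio_pos hσ hM)

/-- distance to the ray -/
theorem ray_iff (hσ : 0 < σ) (hM : 0 ≤ M) (k : ZMod 4) {z : ℂ} (hz : 0 < ‖z - cen σ c‖) :
    (∃ t : ℝ, 0 ≤ t ∧ ‖z - (cen σ c + t * qq k)‖ ≤ σ / LL σ M * ‖z - cen σ c‖) ↔
      0 < aa σ c k z ∧ |bb σ c k z| ≤ σ / LL σ M * ‖z - cen σ c‖ := by
  have hr := ratio hσ hM
  have hr0 := ratio_pos hσ hM
  have hw : 0 < σ / LL σ M * ‖z - cen σ c‖ := mul_pos hr0 hz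
  have hw2 : σ / LL σ M * ‖z - cen σ c‖ < ‖z - cen σ c‖ := by nlinarith
  constructor
  · rintro ⟨t, ht, h⟩
    have h1 := sq_axis σ c k z t
    have h2 : ‖z - (cen σ c + t * qq k)‖ ^ 2 ≤ (σ / LL σ M * ‖z - cen σ c‖) ^ 2 :=
      pow_le_pow_left₀ (norm_nonneg _) h 2
    constructor
    · by_contra hneg
      push Not at hneg
      have h3 := norm_sq σ c k z
      have h4 : (σ / LL σ M * ‖z - cen σ c‖) ^ 2 < ‖z - cen σ c‖ ^ 2 :=
        pow_lt_pow_left₀ hw2 hw.le (by norm_num)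
      nlinarith
    · apply abs_le_of_sq_le_sq _ hw.le
      nlinarith [sq_nonneg (aa σ c k z - t)]
  · rintro ⟨h1, h2⟩
    refine ⟨aa σ c k z, h1.le, ?_⟩
    apply le_of_sq_le_sq _ hw.le
    rw [sq_axis, sub_self, ← sq_abs (bb σ c k z)]
    have := pow_le_pow_left₀ (abs_nonneg _) h2 2
    simpa using this

/-- **the cone in the frame** -/
theorem mem_cone (hσ : 0 < σ) (hM : 0 ≤ M) (k : ZMod 4) {z : ℂ} : z ∈ cone σ c M k ↔
    LL σ M / 2 ≤ ‖z - cen σ c‖ ∧ 0 < aa σ c k z ∧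
      |bb σ c k z| ≤ σ / LL σ M * ‖z - cen σ c‖ := by
  show (_ ∧ _) ↔ _
  have hL := LL_pos hσ hM
  constructor
  · rintro ⟨h1, h2⟩
    exact ⟨h1, (ray_iff hσ hM k (by linarith)).1 h2⟩
  · rintro ⟨h1, h2⟩
    exact ⟨h1, (ray_iff hσ hM k (by linarith)).2 h2⟩

theorem mem_cone' (hσ : 0 < σ) (hM : 0 ≤ M) (k : ZMod 4) {z : ℂ} : z ∈ cone σ c M k ↔
    LL σ M / 2 ≤ ‖z - cen σ c‖ ∧ 0 ≤ aa σ c k z ∧
      |bb σ c k z| ≤ σ / LL σ M * ‖z - cen σ c‖ := by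
  rw [mem_cone hσ hM]
  have hL := LL_pos hσ hM
  refine ⟨fun h => ⟨h.1, h.2.1.le, h.2.2⟩, fun h => ⟨h.1, ?_, h.2.2⟩⟩
  obtain ⟨h1, h2, h3⟩ := h
  rcases h2.lt_or_eq with h4 | h4
  · exact h4
  · exfalso
    have h5 := le_add σ c k z
    rw [← h4, abs_zero, zero_add] at h5
    have h6 := ratio hσ hM
    have h7 : 0 < ‖z - cen σ c‖ := by linarith
    nlinarith

theorem isClosed_cone (hσ : 0 < σ) (hM : 0 ≤ M) (k : ZMod 4) : IsClosed (cone σ c M k) := by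
  have e : cone σ c M k = {z | LL σ M / 2 ≤ ‖z - cen σ c‖} ∩ ({z | 0 ≤ aa σ c k z} ∩
      {z | |bb σ c k z| ≤ σ / LL σ M * ‖z - cen σ c‖}) := by
    ext z
    rw [mem_cone' hσ hM]
    rfl
  rw [e]
  refine (isClosed_le continuous_const (by fun_prop)).inter
    ((isClosed_le continuous_const (continuous_aa σ c k)).inter
      (isClosed_le (continuous_bb σ c k).abs (by fun_prop)))

/-- lower bound of the coordinate along the cone -/
theorem cone_aa (hσ : 0 < σ) (hM : 0 ≤ M) (k : ZMod 4) {z : ℂ} (h : z ∈ cone σ c M k) :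
    15 / 16 * ‖z - cen σ c‖ ≤ aa σ c k z := by
  rw [mem_cone hσ hM] at h
  have h1 := le_add σ c k z
  rw [abs_of_pos h.2.1] at h1
  have h2 := mul_le_mul_of_nonneg_right (ratio hσ hM) (norm_nonneg (z - cen σ c))
  linarith [h.2.2]

end cone

/-! ### cells and points -/

/-- cells of near points -/
theorem near_cells {σ : ℝ} {q q' : V} {z w : ℂ} (h : z ∈ sq σ q) (h' : w ∈ sq σ q')
    (hd : dist z w < σ) : |q.1 - q'.1| ≤ 1 ∧ |q.2 - q'.2| ≤ 1 := by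
  have hσ : 0 < σ := lt_of_le_of_lt dist_nonneg hd
  obtain ⟨h1, h2, h3, h4⟩ := h
  obtain ⟨k1, k2, k3, k4⟩ := h'
  have r1 : |(z - w).re| ≤ ‖z - w‖ := Complex.abs_re_le_norm _
  have r2 : |(z - w).im| ≤ ‖z - w‖ := Complex.abs_im_le_norm _
  rw [dist_eq_norm] at hd
  rw [Complex.sub_re, abs_le] at r1
  rw [Complex.sub_im, abs_le] at r2
  have e1 : (q.1 : ℝ) < q'.1 + 2 := by
    have : σ * (q.1 : ℝ) < σ * (q'.1 + 2) := by linarith
    exact lt_of_mul_lt_mul_left this hσ.le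
  have e2 : (q'.1 : ℝ) < q.1 + 2 := by
    have : σ * (q'.1 : ℝ) < σ * (q.1 + 2) := by linarith
    exact lt_of_mul_lt_mul_left this hσ.le
  have e3 : (q.2 : ℝ) < q'.2 + 2 := by
    have : σ * (q.2 : ℝ) < σ * (q'.2 + 2) := by linarith
    exact lt_of_mul_lt_mul_left this hσ.le
  have e4 : (q'.2 : ℝ) < q.2 + 2 := by
    have : σ * (q'.2 : ℝ) < σ * (q.2 + 2) := by linarith
    exact lt_of_mul_lt_mul_left this hσ.le
  have f1 : q.1 < q'.1 + 2 := by exact_mod_cast e1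
  have f2 : q'.1 < q.1 + 2 := by exact_mod_cast e2
  have f3 : q.2 < q'.2 + 2 := by exact_mod_cast e3
  have f4 : q'.2 < q.2 + 2 := by exact_mod_cast e4
  rw [abs_le, abs_le]
  omega

/-- unions of closed cells are closed -/
theorem isClosed_cells {σ : ℝ} (hσ : 0 < σ) (S : Set V) : IsClosed {z | ∃ q ∈ S, z ∈ sq σ q} := by
  have e : {z | ∃ q ∈ S, z ∈ sq σ q} = (Om σ Sᶜ)ᶜ := by
    ext z
    rw [mem_compl_iff, mem_om hσ]
    push Not
    simp only [mem_compl_iff, not_not, Set.mem_ofPred_eq]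
    exact ⟨fun ⟨q, h1, h2⟩ => ⟨q, h2, h1⟩, fun ⟨q, h1, h2⟩ => ⟨q, h2, h1⟩⟩
  rw [e]
  exact (om_open σ _).isClosed_compl

theorem mem_Pg {s : ℝ} {F : Set V} {z : ℂ} : z ∈ Pg s F ↔ ∃ q ∈ F, z ∈ sq s q := by
  unfold Pg
  simp only [mem_iUnion, exists_prop]

theorem isClosed_TT {σ : ℝ} (hσ : 0 < σ) (U : ℕ → ℕ → V) (k : ZMod 4) : IsClosed (TT σ U k) := by
  have e : TT σ U k = {z | ∃ q ∈ {q : V | ∃ j, q = U k.val (j + 1)}, z ∈ sq σ q} := by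
    ext z
    constructor
    · rintro ⟨j, h⟩
      exact ⟨_, ⟨j, rfl⟩, h⟩
    · rintro ⟨q, ⟨j, rfl⟩, h⟩
      exact ⟨j, h⟩
  rw [e]
  exact isClosed_cells hσ _

theorem isClosed_BB {σ : ℝ} (hσ : 0 < σ) (U : ℕ → ℕ → V) (c : V) {M : ℤ} (hM : 0 ≤ M)
    (k : ZMod 4) : IsClosed (BB σ U c M k) :=
  (isClosed_TT hσ U k).union (isClosed_cone hσ hM k)

/-! ### the body -/

section fine

variable {F : Set V} {L : ℕ} {v : ℕ → V} {m : ℕ → ℕ} {c : V} {M : ℤ} {U : ℕ → ℕ → V} {σ : ℝ}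

/-- a point with all its cells outside the body is in exactly one open class -/
theorem mem_Om_cls (H : Fine F L v m c M U) (hσ : 0 < σ) {z : ℂ}
    (hz : ∀ q, z ∈ sq σ q → q ∉ body F U 4) : ∃ i : ZMod 4, z ∈ Om σ (cls F v m U i.val) := by
  obtain ⟨i, hi, h⟩ := cover H (hz _ (mem_cellOf hσ z))
  have ev : ((i : ZMod 4)).val = i := ZMod.val_natCast_of_lt hi
  refine ⟨(i : ZMod 4), ?_⟩
  rw [ev, mem_om hσ]
  intro q hq
  obtain ⟨j, hj, h'⟩ := cover H (hz q hq)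
  by_cases hij : i = j
  · rw [hij]; exact h'
  · exfalso
    have h1 := not_adj8 H hi hj hij h h'
    have h2 := common_cases hσ (mem_cellOf hσ z) hq
    omega

theorem Om_cls_body (hσ : 0 < σ) {i : ℕ} {z : ℂ} (h : z ∈ Om σ (cls F v m U i)) {q : V}
    (hq : z ∈ sq σ q) : q ∉ body F U 4 := ((mem_om hσ).1 h q hq).1

theorem Om_cls_unique (H : Fine F L v m c M U) (hσ : 0 < σ) {i j : ZMod 4} {z : ℂ}
    (h : z ∈ Om σ (cls F v m U i.val)) (h' : z ∈ Om σ (cls F v m U j.val)) : i = j := by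
  have h1 := (mem_om hσ).1 h _ (mem_cellOf hσ z)
  have h2 := (mem_om hσ).1 h' _ (mem_cellOf hσ z)
  exact ZMod.val_injective 4 (disj' H (val_lt i) (val_lt j) h1 h2)

/-- a cell of the body belongs to the polygon or to a tentacle -/
theorem body_cases {z : ℂ} {q : V} (hq : q ∈ body F U 4) (hz : z ∈ sq σ q) :
    z ∈ Pg σ F ∨ ∃ k, z ∈ TT σ U k := by
  rcases hq with h | ⟨i, hi, j, rfl⟩
  · exact Or.inl (mem_Pg.2 ⟨q, h, hz⟩)
  · refine Or.inr ⟨(i : ZMod 4), j, ?_⟩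
    rw [ZMod.val_natCast_of_lt hi]
    exact hz

/-- **trichotomy** -/
theorem tri (H : Fine F L v m c M U) (hσ : 0 < σ) (z : ℂ) :
    z ∈ Pg σ F ∨ (∃ k, z ∈ BB σ U c M k) ∨ ∃ i, z ∈ RR σ F v m c M U i := by
  by_cases hz : ∀ q, z ∈ sq σ q → q ∉ body F U 4
  · by_cases hc : ∃ k, z ∈ cone σ c M k
    · obtain ⟨k, hk⟩ := hc
      exact Or.inr (Or.inl ⟨k, Or.inr hk⟩)
    · obtain ⟨i, hi⟩ := mem_Om_cls H hσ hz
      refine Or.inr (Or.inr ⟨i, hi, ?_⟩)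
      rw [mem_iUnion]
      exact hc
  · push Not at hz
    obtain ⟨q, h1, h2⟩ := hz
    rcases body_cases h2 h1 with h | ⟨k, h⟩
    · exact Or.inl h
    · exact Or.inr (Or.inl ⟨k, Or.inl h⟩)

theorem RR_Pg (hσ : 0 < σ) {i : ZMod 4} {z : ℂ} (h : z ∈ RR σ F v m c M U i) : z ∉ Pg σ F := by
  rw [mem_Pg]
  rintro ⟨q, hq, hz⟩
  exact Om_cls_body hσ h.1 hz (Or.inl hq)

theorem RR_BB (hσ : 0 < σ) {i k : ZMod 4} {z : ℂ} (h : z ∈ RR σ F v m c M U i) :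
    z ∉ BB σ U c M k := by
  rintro (⟨j, hj⟩ | hk)
  · exact Om_cls_body hσ h.1 hj (Or.inr ⟨k.val, val_lt k, j, rfl⟩)
  · exact h.2 (mem_iUnion.2 ⟨k, hk⟩)

/-- **field `body`**, fine level -/
theorem body_eq (H : Fine F L v m c M U) (hσ : 0 < σ) :
    (CC σ F v m c M U).outᶜ = Pg σ F ∪ ⋃ k, BB σ U c M k := by
  ext z
  rw [mem_compl_iff, mem_union, mem_iUnion]
  have hout : z ∈ (CC σ F v m c M U).out ↔ ∃ i, z ∈ RR σ F v m c M U i := mem_iUnion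
  rw [hout]
  constructor
  · intro h
    rcases tri H hσ z with h1 | h1 | h1
    · exact Or.inl h1
    · exact Or.inr h1
    · exact absurd h1 h
  · rintro (h | ⟨k, h⟩) ⟨i, hi⟩
    · exact RR_Pg hσ hi h
    · exact RR_BB hσ hi h

end fine

/-! ### refinement of the coarse polygon -/

theorem sq_sub {h : ℕ} {q f : V} (hb : Blk h q f) {s : ℝ} (hs : 0 < s) :
    sq (s / (2 * h + 1)) f ⊆ sq s q := by
  obtain ⟨b1, b2, b3, b4⟩ := hb
  have hk : (0 : ℝ) < 2 * h + 1 := by positivity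
  have e : s = s / (2 * h + 1) * (2 * h + 1) := by field_simp
  have hσ : 0 < s / (2 * h + 1) := div_pos hs hk
  generalize s / (2 * h + 1) = σ at *
  subst e
  have c1 : ((2 * h + 1) * q.1 : ℝ) ≤ f.1 := by exact_mod_cast b1
  have c2 : (f.1 : ℝ) ≤ (2 * h + 1) * q.1 + 2 * h := by exact_mod_cast b2
  have c3 : ((2 * h + 1) * q.2 : ℝ) ≤ f.2 := by exact_mod_cast b3
  have c4 : (f.2 : ℝ) ≤ (2 * h + 1) * q.2 + 2 * h := by exact_mod_cast b4
  rintro z ⟨h1, h2, h3, h4⟩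
  have d1 := mul_le_mul_of_nonneg_left c1 hσ.le
  have d2 := mul_le_mul_of_nonneg_left c2 hσ.le
  have d3 := mul_le_mul_of_nonneg_left c3 hσ.le
  have d4 := mul_le_mul_of_nonneg_left c4 hσ.le
  refine ⟨?_, ?_, ?_, ?_⟩ <;> nlinarith

theorem exists_sub_aux {σ x : ℝ} (hσ : 0 < σ) {h : ℕ} {a : ℤ} (h1 : σ * (2 * h + 1) * a ≤ x)
    (h2 : x ≤ σ * (2 * h + 1) * (a + 1)) : ∃ f : ℤ, (2 * h + 1) * a ≤ f ∧
      f ≤ (2 * h + 1) * a + 2 * h ∧ σ * f ≤ x ∧ x ≤ σ * (f + 1) := by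
  rcases lt_or_ge (⌊x / σ⌋) ((2 * h + 1) * a + 2 * h) with hf | hf
  · refine ⟨⌊x / σ⌋, ?_, hf.le, ?_, ?_⟩
    · rw [Int.le_floor]
      push_cast
      rw [le_div_iff₀ hσ]
      linarith
    · have := Int.floor_le (x / σ)
      rw [le_div_iff₀ hσ] at this
      linarith
    · have := (Int.lt_floor_add_one (x / σ)).le
      rw [div_le_iff₀ hσ] at this
      linarith
  · refine ⟨(2 * h + 1) * a + 2 * h, by omega, le_rfl, ?_, ?_⟩
    · rw [Int.le_floor, le_div_iff₀ hσ] at hf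
      push_cast at hf ⊢
      linarith
    · push_cast
      nlinarith

theorem exists_sub {h : ℕ} {q : V} {s : ℝ} (hs : 0 < s) {z : ℂ} (hz : z ∈ sq s q) :
    ∃ f, Blk h q f ∧ z ∈ sq (s / (2 * h + 1)) f := by
  have hk : (0 : ℝ) < 2 * h + 1 := by positivity
  have e : s = s / (2 * h + 1) * (2 * h + 1) := by field_simp
  have hσ : 0 < s / (2 * h + 1) := div_pos hs hk
  generalize s / (2 * h + 1) = σ at *
  subst e
  obtain ⟨h1, h2, h3, h4⟩ := hz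
  obtain ⟨x, x1, x2, x3, x4⟩ := exists_sub_aux hσ h1 h2
  obtain ⟨y, y1, y2, y3, y4⟩ := exists_sub_aux hσ h3 h4
  exact ⟨(x, y), ⟨x1, x2, y1, y2⟩, x3, x4, y3, y4⟩

theorem Pg_ref (h : ℕ) (F : Set V) {s : ℝ} (hs : 0 < s) :
    Pg (s / (2 * h + 1)) (ref h F) = Pg s F := by
  ext z
  rw [mem_Pg, mem_Pg]
  constructor
  · rintro ⟨f, hf, hz⟩
    obtain ⟨q, hq, hb⟩ := Tentx359.mem_ref.1 hf
    exact ⟨q, hq, sq_sub hb hs hz⟩
  · rintro ⟨q, hq, hz⟩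
    obtain ⟨f, hb, hzf⟩ := exists_sub (h := h) hs hz
    exact ⟨f, (blk_mem hb).2 hq, hzf⟩

/-! ### composition of refinements -/

theorem ref_ref (h g : ℕ) (F : Set V) : ref h (ref g F) = ref (2 * h * g + h + g) F := by
  ext f
  show (f.1 / (2 * h + 1) / (2 * g + 1), f.2 / (2 * h + 1) / (2 * g + 1)) ∈ F ↔
    (f.1 / (2 * ((2 * h * g + h + g : ℕ) : ℤ) + 1), f.2 / (2 * ((2 * h * g + h + g : ℕ) : ℤ) + 1)) ∈ F
  have e : (2 * ((2 * h * g + h + g : ℕ) : ℤ) + 1) = (2 * h + 1) * (2 * g + 1) := by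
    push_cast; ring
  rw [e, Int.ediv_ediv_of_nonneg (by positivity), Int.ediv_ediv_of_nonneg (by positivity)]

theorem mref_mref (h g : ℕ) (m : ℕ → ℕ) : mref h (mref g m) = mref (2 * h * g + h + g) m := by
  funext i
  unfold mref
  ring

theorem vref_vref (h g : ℕ) (v : ℕ → V) : vref h (vref g v) = vref (2 * h * g + h + g) v := by
  funext i
  obtain ⟨j, r, hr, rfl⟩ : ∃ j r, r < 2 * h + 1 ∧ i = (2 * h + 1) * j + r :=
    ⟨i / (2 * h + 1), i % (2 * h + 1), Nat.mod_lt _ (by omega), (Nat.div_add_mod _ _).symm⟩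
  obtain ⟨k, t, ht, rfl⟩ : ∃ k t, t < 2 * g + 1 ∧ j = (2 * g + 1) * k + t :=
    ⟨j / (2 * g + 1), j % (2 * g + 1), Nat.mod_lt _ (by omega), (Nat.div_add_mod _ _).symm⟩
  rw [vref_at (vref g v) _ r (by omega), show (2 * g + 1) * k + t + 1 = (2 * g + 1) * k + (t + 1) by
    ring, vref_at v k t (by omega), vref_at v k (t + 1) (by omega)]
  have e : (2 * h + 1) * ((2 * g + 1) * k + t) + r =
      (2 * (2 * h * g + h + g) + 1) * k + ((2 * h + 1) * t + r) := by ring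
  have hle : (2 * h + 1) * t + r ≤ 2 * (2 * h * g + h + g) + 1 := by
    have : (2 * h + 1) * t ≤ (2 * h + 1) * (2 * g) := Nat.mul_le_mul_left _ (by omega)
    have e2 : (2 * h + 1) * (2 * g) = 2 * (2 * h * g + g) := by ring
    omega
  rw [e, vref_at v k _ hle]
  ext
  · simp only; push_cast; ring
  · simp only; push_cast; ring

/-- **data of the construction**: after refinement by `81` -/
theorem exFine (F : Set V) (L : ℕ) (v : ℕ → V) (m : ℕ → ℕ) (hF : F.Finite)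
    (h1 : ∀ q ∈ F, ∀ q' ∈ F, Con F q q') (h2 : ∀ q ∉ F, ∀ q' ∉ F, Con Fᶜ q q') (h3 : Cyc F L v)
    (m01 : m 0 < m 1) (m12 : m 1 < m 2) (m23 : m 2 < m 3) (m3L : m 3 < L) :
    ∃ (c : V) (M : ℤ) (U : ℕ → ℕ → V),
      Fine (ref 40 F) (81 * L) (vref 40 v) (mref 40 m) c M U := by
  obtain ⟨c, M, U, C⟩ := exCfg F L v m hF h1 h2 h3 m01 m12 m23 m3L
  have H := fine_of C (h := 1) le_rfl
  rw [ref_ref, ref_ref, ref_ref, vref_vref, vref_vref, vref_vref, mref_mref, mref_mref, mref_mref]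
    at H
  have e : (2 * 1 + 1) * (3 * (3 * (3 * L))) = 81 * L := by ring
  rw [e] at H
  exact ⟨_, _, _, H⟩

end Crest.Agent.R143.TentDx359
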