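import Crest.Agent.R143.TentN_951
import Crest.Agent.R143.TentD_359

/-!
# Row 143 (S0194), block D, TENT P (helper951): field `mouth` of `Ten` (Ten_416)

`P` = chain of segments between the centres of consecutive cells of the tentacle, from the inner
cell of the marked edge up to distance `3 / 4 LL` on the ray.
-/

set_option autoImplicit false

noncomputable section

namespace Crest.Agent.R143.TentPx951

open Set
open Crest.Agent.R158 Crest.Agent.R158.Sp896 Crest.Agent.R143.Tentx359 Crest.Agent.R143.TentAx951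
open Crest.Agent.R143.TentBx951 Crest.Agent.R143.TentMx951 Crest.Agent.R143.Cdx806
open Crest.Agent.R143.TentNx951 Crest.Agent.R143.TentDx359
open Crest.Agent.R158.Tj656 (cen Om mem_om)
open Crest.Agent.R143.Tenx416 (nx OnS Pg)

/-- chain of segments -/
def chn (σ : ℝ) (U : ℕ → V) (n : ℕ) : Set ℂ :=
  ⋃ j ∈ Iio n, segment ℝ (cen σ (U j)) (cen σ (U (j + 1)))

theorem mem_chn {σ : ℝ} {U : ℕ → V} {n : ℕ} {z : ℂ} :
    z ∈ chn σ U n ↔ ∃ j < n, z ∈ segment ℝ (cen σ (U j)) (cen σ (U (j + 1))) := by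
  unfold chn
  simp only [mem_iUnion, mem_Iio, exists_prop]

theorem chn_con (σ : ℝ) (U : ℕ → V) (n : ℕ) : IsPreconnected (chn σ U n) := by
  unfold chn
  refine IsPreconnected.biUnion_of_chain ordConnected_Iio
    (fun j _ => (convex_segment _ _).isPreconnected) fun j _ _ => ?_
  exact ⟨cen σ (U (j + 1)), right_mem_segment _ _ _, left_mem_segment _ _ _⟩

section

variable {F : Set V} {L : ℕ} {v : ℕ → V} {m : ℕ → ℕ} {c : V} {M : ℤ} {U : ℕ → ℕ → V} {σ : ℝ}

/-- a cell near the chain is a cell of the chain -/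
theorem chn_cells (C : Tentx359.Cfg F L v m c M 4 U) (hσ : 0 < σ) {k : ℕ} (hk : k < 4) {n : ℕ}
    {z w : ℂ} (hz : z ∈ chn σ (U k) n) (hw : dist w z < σ / 2) {g : V} (hg : w ∈ sq σ g) :
    ∃ j, g = U k j := by
  rw [mem_chn] at hz
  obtain ⟨j, -, hz⟩ := hz
  rcases seg_cells hσ (C.step k hk j) hz hw hg with e | e
  · exact ⟨j, e⟩
  · exact ⟨j + 1, e⟩

theorem cell0_F (C : Tentx359.Cfg F L v m c M 4 U) {k : ℕ} (hk : k < 4) : U k 0 ∈ F := by
  rw [C.start0 k hk]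
  exact C.cyc.left _

theorem cell_body (C : Tentx359.Cfg F L v m c M 4 U) {k : ℕ} (hk : k < 4) (j : ℕ) :
    U k j ∈ body F U 4 := by
  rcases j with _ | j
  · exact Or.inl (cell0_F C hk)
  · exact Or.inr ⟨k, hk, j, rfl⟩

theorem cell_F (C : Tentx359.Cfg F L v m c M 4 U) {k : ℕ} (hk : k < 4) {j : ℕ} (h : U k j ∈ F) :
    j = 0 := by
  rcases j with _ | j
  · rfl
  · exact absurd h (C.out k hk j)

theorem cen_norm (hσ : 0 < σ) {R : ℤ} {q : V} (h1 : |q.1 - c.1| ≤ R) (h2 : |q.2 - c.2| ≤ R) :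
    ‖cen σ q - cen σ c‖ ≤ 2 * σ * R := by
  have k1 : |(q.1 : ℝ) - c.1| ≤ R := by exact_mod_cast h1
  have k2 : |(q.2 : ℝ) - c.2| ≤ R := by exact_mod_cast h2
  refine (Complex.norm_le_abs_re_add_abs_im _).trans ?_
  simp only [Complex.sub_re, Complex.sub_im, cen]
  rw [show σ * ((q.1 : ℝ) + 1 / 2) - σ * (c.1 + 1 / 2) = σ * (q.1 - c.1) by ring,
    show σ * ((q.2 : ℝ) + 1 / 2) - σ * (c.2 + 1 / 2) = σ * (q.2 - c.2) by ring,
    abs_mul, abs_mul, abs_of_pos hσ]
  nlinarith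

theorem cen_ray (σ : ℝ) (c : V) (k : ZMod 4) (r : ℤ) :
    cen σ ((c.1 + r * (dir k.val).1, c.2 + r * (dir k.val).2) : V) =
      cen σ c + ((σ * r : ℝ) : ℂ) * qq k := by
  apply Complex.ext
  · rw [Complex.add_re, Complex.re_ofReal_mul, qq_re]
    simp only [cen]
    push_cast
    ring
  · rw [Complex.add_im, Complex.im_ofReal_mul, qq_im]
    simp only [cen]
    push_cast
    ring

end

section fields

variable {F0 : Set V} {N0 : ℕ} {v0 : ℕ → V} {m0 : ℕ → ℕ} {h : ℕ} {c : V} {M : ℤ} {U : ℕ → ℕ → V}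
  {σ : ℝ}

/-- the first cell is in the block of the inner cell of the coarse marked edge -/
theorem first_blk (hc : Cyc F0 N0 v0) (a : ℕ) :
    lcv (vref h v0) ((2 * h + 1) * a + h) ∈ ref h {lcv v0 a} := by
  have hL : 0 < 2 * h + 1 := by omega
  have e := (Bl802.sv_cells hc hL (k := a) (r := h) (by omega)).2.1
  show (_, _) = lcv v0 a
  rw [vref_eq, mul_comm (2 * h + 1) a]
  unfold lcv
  rw [← e]
  push_cast
  rfl

/-- **mouth** -/
theorem mouth (H : Fine (ref h F0) ((2 * h + 1) * N0) (vref h v0) (mref h m0) c M U)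
    (hc : Cyc F0 N0 v0) (hσ : 0 < σ) {κ : ℝ} (hκ : κ ≤ σ / 2) (k : ZMod 4) :
    ∃ P : Set ℂ, IsPreconnected P ∧ P ⊆ BB σ U c M k ∪ Pg ((2 * h + 1) * σ) F0 ∧
    P ⊆ Metric.closedBall (cen σ c) (3 / 4 * LL σ M) ∧
    cen σ c + ((3 / 4 * LL σ M : ℝ) : ℂ) * qq k ∈ P ∧
    P ∩ Pg ((2 * h + 1) * σ) F0 ⊆
      sq ((2 * h + 1) * σ) (lc (v0 (m0 k.val)) (v0 (m0 k.val + 1))) ∧
    (∃ y ∈ P, y ∈ interior (sq ((2 * h + 1) * σ) (lc (v0 (m0 k.val)) (v0 (m0 k.val + 1))))) ∧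
    ∀ y ∈ P, Disjoint (Metric.ball y κ)
      (⋃ i, RR σ (ref h F0) (vref h v0) (mref h m0) c M U i) := by
  have C := H.C
  have hk := TentDx359.val_lt k
  have hM : 0 ≤ M := M_nonneg H
  have hM' : (0 : ℝ) ≤ M := by exact_mod_cast hM
  have hPg : Pg ((2 * h + 1) * σ) F0 = ⋃ f ∈ ref h F0, sq σ f := pg_fine hσ
  have hblk : U k.val 0 ∈ ref h {lcv v0 (m0 k.val)} := by
    rw [C.start0 _ hk]
    exact first_blk hc _
  have hsub : sq σ (U k.val 0) ⊆ sq ((2 * h + 1) * σ) (lc (v0 (m0 k.val)) (v0 (m0 k.val + 1))) := by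
    intro z hz
    rw [sq_ref hσ h, mem_iUnion₂]
    exact ⟨_, hblk, hz⟩
  obtain ⟨j0, hj0, hbx, hray⟩ := C.ray _ hk
  have hn : ((11 * M + 24).toNat : ℤ) = 11 * M + 24 := Int.toNat_of_nonneg (by omega)
  set n := (11 * M + 24).toNat with hndef
  have hn' : ((n : ℕ) : ℝ) = 11 * M + 24 := by exact_mod_cast hn
  have hball : ∀ j ≤ j0 + n, cen σ (U k.val j) ∈ Metric.closedBall (cen σ c) (3 / 4 * LL σ M) := by
    intro j hj
    rw [Metric.mem_closedBall, dist_eq_norm]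
    unfold LL
    rcases Nat.lt_or_ge j j0 with h1 | h1
    · obtain ⟨b1, b2⟩ := hbx j h1.le
      have := cen_norm hσ b1 b2
      nlinarith
    · obtain ⟨i, rfl⟩ := Nat.exists_eq_add_of_le h1
      have hi : (i : ℝ) ≤ 11 * M + 24 := by
        rw [← hn']
        exact_mod_cast (by omega : i ≤ n)
      rw [hray i]
      rw [cen_ray σ c k (M + i), add_sub_cancel_left, norm_mul, qq_norm, mul_one,
        Complex.norm_real, Real.norm_eq_abs]
      push_cast
      rw [abs_of_nonneg (by positivity)]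
      nlinarith
  refine ⟨chn σ (U k.val) (j0 + n), chn_con _ _ _, ?_, ?_, ?_, ?_, ?_, ?_⟩
  · intro z hz
    obtain ⟨j, hj⟩ := chn_cells C hσ hk hz (w := z) (by rw [dist_self]; linarith) (mem_cellOf hσ z)
    have hz' : z ∈ sq σ (U k.val j) := hj ▸ mem_cellOf hσ z
    rcases j with _ | j
    · right
      rw [hPg, mem_iUnion₂]
      exact ⟨_, cell0_F C hk, hz'⟩
    · exact Or.inl (Or.inl ⟨j, hz'⟩)
  · intro z hz
    rw [mem_chn] at hz
    obtain ⟨j, hj, hz⟩ := hz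
    exact (convex_closedBall _ _).segment_subset (hball j (by omega)) (hball (j + 1) (by omega)) hz
  · rw [mem_chn]
    refine ⟨j0 + n - 1, by omega, ?_⟩
    have e1 : j0 + n - 1 + 1 = j0 + n := by omega
    rw [e1]
    have e2 : cen σ c + ((3 / 4 * LL σ M : ℝ) : ℂ) * qq k = cen σ (U k.val (j0 + n)) := by
      rw [hray n, cen_ray σ c k (M + n)]
      have e3 : (3 / 4 * LL σ M : ℝ) = σ * ((M + n : ℤ) : ℝ) := by
        unfold LL
        push_cast
        rw [hn']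
        ring
      rw [e3]
    rw [e2]
    exact right_mem_segment _ _ _
  · rintro z ⟨hz, hzP⟩
    rw [hPg, mem_iUnion₂] at hzP
    obtain ⟨f, hf, hzf⟩ := hzP
    obtain ⟨j, hj⟩ := chn_cells C hσ hk hz (w := z) (by rw [dist_self]; linarith) hzf
    subst hj
    have := cell_F C hk hf
    subst this
    exact hsub hzf
  · refine ⟨cen σ (U k.val 0), ?_, ?_⟩
    · rw [mem_chn]
      exact ⟨0, by omega, left_mem_segment _ _ _⟩
    · refine mem_interior.2 ⟨Tg331.so σ (U k.val 0), (Tg331.so_sub σ _).trans hsub, ?_,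
        Tg331.ce_so hσ _⟩
      have e : Tg331.so σ (U k.val 0) = {z : ℂ | σ * (U k.val 0).1 < z.re} ∩
          ({z | z.re < σ * ((U k.val 0).1 + 1)} ∩ ({z | σ * (U k.val 0).2 < z.im} ∩
            {z | z.im < σ * ((U k.val 0).2 + 1)})) := rfl
      rw [e]
      exact (isOpen_lt continuous_const Complex.continuous_re).inter
        ((isOpen_lt Complex.continuous_re continuous_const).inter
          ((isOpen_lt continuous_const Complex.continuous_im).inter
            (isOpen_lt Complex.continuous_im continuous_const)))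
  · intro y hy
    rw [Set.disjoint_left]
    intro w hw hwR
    rw [mem_iUnion] at hwR
    obtain ⟨i, hwR⟩ := hwR
    rw [Metric.mem_ball] at hw
    obtain ⟨j, hj⟩ := chn_cells C hσ hk hy (lt_of_lt_of_le hw hκ) (mem_cellOf hσ w)
    have h1 := Om_cls_body hσ hwR.1 (mem_cellOf hσ w)
    rw [hj] at h1
    exact h1 (cell_body C hk j)

theorem pg_norm (H : Fine (ref h F0) ((2 * h + 1) * N0) (vref h v0) (mref h m0) c M U)
    (hσ : 0 < σ) {z : ℂ} (hz : z ∈ Pg ((2 * h + 1) * σ) F0) : ‖z - cen σ c‖ ≤ LL σ M / 4 := by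
  rw [pg_fine hσ, mem_iUnion₂] at hz
  obtain ⟨f, hf, hz⟩ := hz
  obtain ⟨b1, b2⟩ := H.C.box f hf
  rw [abs_lt] at b1 b2
  have k1 : ((f.1 : ℝ) - c.1) ≤ M - 1 := by exact_mod_cast (by omega : f.1 - c.1 ≤ M - 1)
  have k2 : ((f.2 : ℝ) - c.2) ≤ M - 1 := by exact_mod_cast (by omega : f.2 - c.2 ≤ M - 1)
  have k3 : -(M - 1 : ℝ) ≤ ((f.1 : ℝ) - c.1) := by
    exact_mod_cast (by omega : -(M - 1) ≤ f.1 - c.1)
  have k4 : -(M - 1 : ℝ) ≤ ((f.2 : ℝ) - c.2) := by
    exact_mod_cast (by omega : -(M - 1) ≤ f.2 - c.2)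
  obtain ⟨z1, z2, z3, z4⟩ := hz
  have r1 : |z.re - (cen σ c).re| ≤ σ * M := by
    simp only [cen]
    rw [abs_le]
    constructor <;> nlinarith
  have r2 : |z.im - (cen σ c).im| ≤ σ * M := by
    simp only [cen]
    rw [abs_le]
    constructor <;> nlinarith
  refine (Complex.norm_le_abs_re_add_abs_im _).trans ?_
  rw [Complex.sub_re, Complex.sub_im]
  unfold LL
  nlinarith

/-- points near the polygon are in no cone -/
theorem not_cone (H : Fine (ref h F0) ((2 * h + 1) * N0) (vref h v0) (mref h m0) c M U)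
    (hσ : 0 < σ) {z w : ℂ} (hz : z ∈ Pg ((2 * h + 1) * σ) F0) (hw : dist w z ≤ 2 * σ) :
    w ∉ ⋃ k, cone σ c M k := by
  rw [mem_iUnion]
  rintro ⟨k, hk, -⟩
  have h1 := pg_norm H hσ hz
  have h2 := LL_ge hσ (M_nonneg H)
  rw [dist_eq_norm] at hw
  have h3 := norm_add_le (w - z) (z - cen σ c)
  rw [sub_add_sub_cancel] at h3
  linarith

end fields

/-! ### the fields of `Ten`, literal, for `CC` of TentD_359, `σ = s / 81`, `κ = σ / 4` -/

section final

variable {F : Set V} {L : ℕ} {v : ℕ → V} {m : ℕ → ℕ} {c : V} {M : ℤ} {U : ℕ → ℕ → V} {s : ℝ}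

theorem e81 (s : ℝ) : (2 * ((40 : ℕ) : ℝ) + 1) * (s / 81) = s := by
  push_cast
  ring

/-- field `nb` -/
theorem f_nb (H : Fine (ref 40 F) (81 * L) (vref 40 v) (mref 40 m) c M U) (hs : 0 < s) :
    ∀ x ∈ Pg s F, ∀ i, ∀ w ∈ (CC (s / 81) (ref 40 F) (vref 40 v) (mref 40 m) c M U).R i,
      dist w x < s / 81 / 4 → ∃ k, OnS L m i k ∧ ∃ z ∈ ed s (v k) (v (k + 1)),
        dist z x < s / 81 / 4 := by
  intro x hx i w hw hd
  have hσ : 0 < s / 81 := by positivity
  have := TentNx951.nb (h := 40) (N0 := L) (F0 := F) (v0 := v) (m0 := m) (σ := s / 81)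
    (TentBx951.cellDom H) hσ (κ := s / 81 / 4) (by linarith) (i := i) (w := w) hw.1 (x := x)
    (by rw [e81]; exact hx) hd
  rw [e81] at this
  exact this

/-- field `side` -/
theorem f_side (H : Fine (ref 40 F) (81 * L) (vref 40 v) (mref 40 m) c M U) (hs : 0 < s)
    (hc : Cyc F L v) (m01 : m 0 < m 1) (m12 : m 1 < m 2) (m23 : m 2 < m 3) (m3L : m 3 < L) :
    ∀ (i : ZMod 4) (k : ℕ), m i.val < k → k < nx L m i → ∀ z ∈ ed s (v k) (v (k + 1)),
      Metric.ball z (s / 81 / 4) ⊆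
        Pg s F ∪ (CC (s / 81) (ref 40 F) (vref 40 v) (mref 40 m) c M U).R i := by
  intro i k h1 h2 z hz w hw
  have hσ : 0 < s / 81 := by positivity
  rw [Metric.mem_ball] at hw
  have hzP : z ∈ Pg s F := by
    unfold Pg
    rw [mem_iUnion₂]
    exact ⟨_, hc.left k, ed_sub_lc hs (hc.step k) hz⟩
  rcases TentNx951.side (h := 40) (N0 := L) (F0 := F) (v0 := v) (m0 := m) (σ := s / 81)
    (TentBx951.cellDom H) hc m01 m12 m23 m3L (by norm_num) hσ (κ := s / 81 / 4) (by linarith) h1 h2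
    (z := z) (by rw [e81]; exact hz) hw with h3 | h3
  · rw [e81] at h3
    exact Or.inl h3
  · refine Or.inr ⟨h3, ?_⟩
    exact not_cone (h := 40) (N0 := L) (v0 := v) (m0 := m) H hσ (z := z) (by rw [e81]; exact hzP)
      (by linarith)

/-- field `near` -/
theorem f_near (H : Fine (ref 40 F) (81 * L) (vref 40 v) (mref 40 m) c M U) (hs : 0 < s)
    (hc : Cyc F L v) (m01 : m 0 < m 1) (m12 : m 1 < m 2) (m23 : m 2 < m 3) (m3L : m 3 < L) :
    ∀ (i : ZMod 4) (k : ℕ), OnS L m i k → ∀ z ∈ ed s (v k) (v (k + 1)),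
      ∃ w ∈ (CC (s / 81) (ref 40 F) (vref 40 v) (mref 40 m) c M U).R i, dist w z < 3 * s := by
  intro i k h1 z hz
  have hσ : 0 < s / 81 := by positivity
  obtain ⟨w, h3, h4, e, h5, h6⟩ := TentNx951.near_ (h := 40) (N0 := L) (F0 := F) (v0 := v)
    (m0 := m) (σ := s / 81) (TentBx951.cellDom H) hc m01 m12 m23 m3L (by norm_num) hσ h1 (z := z)
    (by rw [e81]; exact hz)
  rw [e81] at h4
  exact ⟨w, ⟨h3, not_cone (h := 40) (N0 := L) (v0 := v) (m0 := m) H hσ h5 h6⟩, h4⟩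

/-- field `mouth` -/
theorem f_mouth (H : Fine (ref 40 F) (81 * L) (vref 40 v) (mref 40 m) c M U) (hs : 0 < s)
    (hc : Cyc F L v) : ∀ k : ZMod 4, ∃ P : Set ℂ, IsPreconnected P ∧
      P ⊆ BB (s / 81) U c M k ∪ Pg s F ∧
      P ⊆ Metric.closedBall (CC (s / 81) (ref 40 F) (vref 40 v) (mref 40 m) c M U).c
        (3 / 4 * (CC (s / 81) (ref 40 F) (vref 40 v) (mref 40 m) c M U).L) ∧
      (CC (s / 81) (ref 40 F) (vref 40 v) (mref 40 m) c M U).c +
        ((3 / 4 * (CC (s / 81) (ref 40 F) (vref 40 v) (mref 40 m) c M U).L : ℝ) : ℂ) *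
          (CC (s / 81) (ref 40 F) (vref 40 v) (mref 40 m) c M U).q k ∈ P ∧
      P ∩ Pg s F ⊆ sq s (lc (v (m k.val)) (v (m k.val + 1))) ∧
      (∃ y ∈ P, y ∈ interior (sq s (lc (v (m k.val)) (v (m k.val + 1))))) ∧
      ∀ y ∈ P, Disjoint (Metric.ball y (s / 81 / 4))
        (CC (s / 81) (ref 40 F) (vref 40 v) (mref 40 m) c M U).out := by
  intro k
  have hσ : 0 < s / 81 := by positivity
  have := mouth (h := 40) (N0 := L) (F0 := F) (v0 := v) (m0 := m) (σ := s / 81) H hc hσ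
    (κ := s / 81 / 4) (by linarith) k
  rw [e81] at this
  exact this

end final

end Crest.Agent.R143.TentPx951
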