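import Crest.Agent.R143.TentL_359
import Crest.Agent.R143.Cd4_806
import Crest.Agent.R143.TentP_951

/-!
# Row 143 (S0194), block D, TENT: assembly (helper359)
-/

set_option autoImplicit false

noncomputable section

namespace Crest.Agent.R143.TentDx359

open Set Metric
open Crest.Agent.R158 Crest.Agent.R158.Sp896 Crest.Agent.R158.Tj656 Crest.Agent.R158.Tg331
open Crest.Agent.R143.Tentx359 Crest.Agent.R143.TentAx951 Crest.Agent.R143.TentBx951
open Crest.Agent.R143.Tenx416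

/-! ### the configuration of 806 -/

theorem aa_fa (σ : ℝ) (c : V) (k : ZMod 4) (z : ℂ) : aa σ c k z = Cdx806.fa (cen σ c) k z := by
  unfold aa dir
  rcases k_cases k with ⟨e, h⟩ | ⟨e, h⟩ | ⟨e, h⟩ | ⟨e, h⟩ <;> rw [h] <;> subst e
  · rw [Cdx806.fa0]; simp
  · rw [Cdx806.fa1]; simp
  · rw [Cdx806.fa2]; simp
  · rw [Cdx806.fa3]; simp

theorem bb_fa (σ : ℝ) (c : V) (k : ZMod 4) (z : ℂ) :
    bb σ c k z = Cdx806.fa (cen σ c) (k + 1) z := by
  unfold bb rot dir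
  rcases k_cases k with ⟨e, h⟩ | ⟨e, h⟩ | ⟨e, h⟩ | ⟨e, h⟩ <;> rw [h] <;> subst e
  · rw [show (0 : ZMod 4) + 1 = 1 from rfl, Cdx806.fa1]; simp
  · rw [show (1 : ZMod 4) + 1 = 2 from rfl, Cdx806.fa2]; simp
  · rw [show (2 : ZMod 4) + 1 = 3 from rfl, Cdx806.fa3]; simp
  · rw [show (3 : ZMod 4) + 1 = 0 from rfl, Cdx806.fa0]; simp

theorem qq_qd (k : ZMod 4) : qq k = Cdx806.qd k := by
  unfold qq
  rcases k_cases k with ⟨e, h⟩ | ⟨e, h⟩ | ⟨e, h⟩ | ⟨e, h⟩ <;> rw [h] <;> subst e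
  · rw [Cdx806.qd0]; simp
  · rw [Cdx806.qd1]; simp
  · rw [Cdx806.qd2]; simp
  · rw [Cdx806.qd3]; simp [pow_succ]

theorem cone_Cn {σ : ℝ} {c : V} {M : ℤ} (hσ : 0 < σ) (hM : 0 ≤ M) (k : ZMod 4) :
    cone σ c M k = Cdx806.Cn σ c M k := by
  ext z
  rw [mem_cone' hσ hM, aa_fa, bb_fa]
  rfl

theorem CC_eq {σ : ℝ} {c : V} {M : ℤ} (hσ : 0 < σ) (hM : 0 ≤ M) (F : Set V) (v : ℕ → V)
    (m : ℕ → ℕ) (U : ℕ → ℕ → V) : CC σ F v m c M U = Cdx806.cfgC σ F v m c M U := by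
  unfold CC Cdx806.cfgC
  have e1 : RR σ F v m c M U = Cdx806.Rg σ F v m c M U := by
    funext i
    unfold RR Cdx806.Rg
    have e2 : (⋃ k, cone σ c M k) = ⋃ k, Cdx806.Cn σ c M k :=
      iUnion_congr fun k => cone_Cn hσ hM k
    rw [e2]
    rfl
  have e3 : qq = Cdx806.qd := funext qq_qd
  rw [e1, e3]
  rfl

theorem CC_ok {F : Set V} {L : ℕ} {v : ℕ → V} {m : ℕ → ℕ} {c : V} {M : ℤ} {U : ℕ → ℕ → V} {σ : ℝ}
    (H : Fine F L v m c M U) (hσ : 0 < σ) : (CC σ F v m c M U).OK σ := by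
  rw [CC_eq hσ (M_nonneg H)]
  exact Cdx806.CellDom.ok (TentBx951.cellDom H) hσ

/-! ### assembly -/

/-- **TENT** -/
theorem tent : Tenx416.TENT := by
  intro s F N v m hs hF h1 h2 hv m01 m12 m23 m3N
  obtain ⟨c, M, U, H⟩ := exFine F N v m hF h1 h2 hv m01 m12 m23 m3N
  have hσ : 0 < s / 81 := by positivity
  have e81 : s / (2 * ((40 : ℕ) : ℝ) + 1) = s / 81 := by norm_num
  have hPg : Pg (s / 81) (ref 40 F) = Pg s F := by
    rw [← e81]
    exact Pg_ref 40 F hs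
  exact ⟨CC (s / 81) (ref 40 F) (vref 40 v) (mref 40 m) c M U, s / 81, s / 81 / 4,
    BB (s / 81) U c M,
    { ok := CC_ok H hσ
      kpos := by positivity
      ks := by linarith
      bd := by
        intro z hz
        rw [mem_closedBall, dist_eq_norm]
        rw [← hPg] at hz
        exact Pg_norm H hσ hz
      Bc := fun k => isClosed_BB hσ U c (M_nonneg H) k
      body := by rw [body_eq H hσ, hPg]
      mth := fun k w hw x hx hd => mth hs hv H hw hx hd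
      nb := TentPx951.f_nb H hs
      side := TentPx951.f_side H hs hv m01 m12 m23 m3N
      near := TentPx951.f_near H hs hv m01 m12 m23 m3N
      tt := fun j k hjk y hy w hw => tt H hσ hjk hy hw
      tr := fun k y hy w hd => by
        rw [← hPg]
        exact tr H hσ hy hd
      tc := fun k => tc k
      mouth := TentPx951.f_mouth H hs hv }⟩

end Crest.Agent.R143.TentDx359
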