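import Crest.Agent.R143.Spine2_422
import Crest.Agent.R143.Ad2_422
import Crest.Agent.R143.M5_304
import Crest.Agent.R143.GeoSeq3_416
import Crest.Agent.R143.Cara4_723
import Crest.Agent.R143.DomE_722
import Crest.Agent.R143.D4L_408
import Crest.Agent.R143.D4U_408
import Crest.Agent.R143.Crs6_117
import Crest.Agent.R143.D4L_606
import Crest.Agent.R143.LEq_63
import Crest.Agent.R143.Swl3_922
import Crest.Agent.R143.Poly3_416
import Crest.Agent.R143.TentE_359
import Crest.Agent.R143.D3C_802
import Crest.Agent.R143.D3I_802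
import Crest.Agent.R143.D3M_802
import Crest.Agent.R143.VAL_422

/-!
# Row 143 (S0194), SPINE 3: wiring of the landed blocks (helper422)

`Adm := Dom.Ad`.  Closed: LGood (304, 501), LEqui from E3 (63, 802, 395, 697), CARA (723, 877),
D1, D2 (722), P2b (117), D4LO, D4UP (408), D4COL (304, 606), GEO (POLY 416, SWL 922, LINK 606,
TENT 806, 359, 951), LALB (802), VAL (802, 422), LDom from E3 (416).
-/

set_option autoImplicit false

noncomputable section

namespace Crest.Agent.R143.Spinex422

open Crest.Agent.R143.B0x346 Crest.Agent.R143.B0Dx346 Crest.Agent.R143.Cfgx416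

/-- **leaf GD** -/
theorem lgood_ad : LGood Dom.Ad := M5x304.lgood' fun _ _ h => h.w

/-- **leaf EQ** -/
theorem lequi_ad (hE : E3) : LEqui Dom.Ad := LEqx63.lequiAd hE

/-- **GEO** -/
theorem geo : GEO := Swl3x922.swl_proof Polyx416.poly TentDx359.tent

/-- **VAL** -/
theorem val (hE : E3) : VAL := VALx422.val hE D3Ix802.intf D3Mx802.mono

/-- **leaf DOM** -/
theorem ldom (hE : E3) : LDom Dom.Ad :=
  dom_of (D3Cx802.lalb hE) (GeoSeqx416.ldom geo Cara4x723.cara (val hE) D4Lx408.d4lo D4Ux408.d4up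
    D4Lx606.d4col Crs6x117.p2b DomEx722.d2)

/-- **part B** modulo E3 and the leaf LMin -/
theorem body_lmin (hE : E3) (hm : LMin Dom.Ad) : Body :=
  final (Adm := Dom.Ad) ⟨lgood_ad, lequi_ad hE, hm, ldom hE⟩

end Crest.Agent.R143.Spinex422
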