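import Crest.Agent.R143.Y10B_126
import Crest.Agent.R143.RefS_309
import Crest.Agent.R143.RefY_309

/-!
# R143 (helper126), leaf Y10: `YAS` of `Y9D_831`

* `refD3 : RefD3` (309's reference domain)
* `yout_of : CSAM → EXJL → B6Ix903.YOUT`, `yas : YAS`
-/

set_option autoImplicit false

noncomputable section

namespace Crest.Agent.R143.Y10Cx126

open Crest.Agent.R143.B0x346 Crest.Agent.R143.B0Dx346
open Crest.Agent.R143.RefDx309 Crest.Agent.R143.RefSx309 Crest.Agent.R143.RefYx309
open Crest.Agent.R143.Y9Dx831 (CSAM EXJL YAS RefD)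
open Crest.Agent.R143.Y10Bx126

/-- **reference domains with sectors** -/
theorem refD3 : RefD3 := by
  intro R1 hR1
  have hL : (0 : ℝ) < 16 * R1 := by linarith
  have hδ : (0 : ℝ) < 4 * R1 := by linarith
  have h0 : ‖(1 : ℂ)‖ = 1 := norm_one
  refine ⟨refD 0 (16 * R1) (4 * R1) 1, 4 * R1, 2 * R1, 1, 3 * (16 * R1) / 8, 16 * R1 / 32,
    16 * R1 / 32, ok hL hδ (by linarith) h0, rfl, by linarith, one_pos, by linarith, by linarith,
    by linarith, free1 hR1 le_rfl, ?_, ?_⟩
  · intro z hz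
    exact linked hL hδ h0 (by linarith) (by linarith) (by rw [sub_zero]; linarith)
  · intro z hz k
    exact ⟨_, sector hL hδ (by linarith) h0 (by rw [sub_zero]; exact hz) k⟩

/-- **block Y up to the concentration for one domain** -/
theorem yout_of (h1 : CSAM) (h2 : EXJL) : B6Ix903.YOUT := yas3 h1 h2 refD3

/-- literal `YAS` of `Y9D_831` -/
theorem yas : YAS := fun h1 h2 _ => yout_of h1 h2

/-- literal `RefD` of `Y9D_831` -/
theorem refD : RefD := by
  intro R1 hR1
  obtain ⟨D, δ, m, θ, ρ, μ, η, h1, h2, h3, -, -, -, -, h8, h9, -⟩ := refD3 R1 hR1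
  exact ⟨D, δ, m, h1, h2, h3, h8, h9⟩

end Crest.Agent.R143.Y10Cx126
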