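import Crest.Agent.R143.Y8D_831
import Crest.Agent.R143.Loc_922

/-!
# R143, block Y, leaf Y8 (helper780): sites, edges and triangles in the free disc of a good
environment; deletion of one block
-/

set_option autoImplicit false

noncomputable section

open scoped Classical

namespace Crest.Agent.R143.Y8bx780

open MeasureTheory Set Filter Topology
open Crest.ProbabilityR.Voronoi
open Crest.Agent.R143.B0x346 Crest.Agent.R143.B0Dx346 Crest.Agent.R143.PP1x831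
open Crest.Agent.R143.Y0x831 Crest.Agent.R143.Lawx831 Crest.Agent.R143.Varx831
open Crest.Agent.R143.Var3x831 Crest.Agent.R143.Y5Dx831 Crest.Agent.R143.Y6Ax831
open Crest.Agent.R143.Y6Bx831 Crest.Agent.R143.B1cx796 Crest.Agent.R143.Y8Dx831
open Crest.Agent.R143.DelGx806 Crest.Agent.R143.DelRx806
open scoped ENNReal

local notation "smk" => Crest.Agent.R143.Lawx831.mk
local notation "Tk" => Crest.Agent.R143.Var2x831.Tk
local notation "del" => Crest.Agent.R143.Var2x831.del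

/-! ### almost every point is in an open triangle -/

/-- a line is a null set -/
theorem line_null {a b : ℂ} (h : a ≠ b) : volume {z : ℂ | cr (b - a) (z - a) = 0} = 0 := by
  set f : ℂ →ₗ[ℝ] ℝ :=
    { toFun := fun z => cr (b - a) z
      map_add' := fun x y => by simp only [cr, Complex.add_re, Complex.add_im]; ring
      map_smul' := fun r x => by
        simp only [cr, Complex.real_smul, Complex.mul_re, Complex.mul_im, Complex.ofReal_re,
          Complex.ofReal_im, RingHom.id_apply, smul_eq_mul]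
        ring } with hf
  have hne : LinearMap.ker f ≠ ⊤ := by
    intro h0
    have h1 : Complex.I * (b - a) ∈ LinearMap.ker f := h0 ▸ Submodule.mem_top
    rw [LinearMap.mem_ker] at h1
    have h2 : cr (b - a) (Complex.I * (b - a)) = 0 := h1
    have h3 : b - a ≠ 0 := sub_ne_zero.2 h.symm
    have h4 : cr (b - a) (Complex.I * (b - a)) = Complex.normSq (b - a) := by
      rw [Complex.normSq_apply]
      simp only [cr, Complex.mul_re, Complex.mul_im, Complex.I_re, Complex.I_im]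
      ring
    rw [h4] at h2
    exact h3 (Complex.normSq_eq_zero.1 h2)
  have h1 : volume ((LinearMap.ker f : Submodule ℝ ℂ) : Set ℂ) = 0 :=
    Measure.addHaar_submodule _ _ hne
  have h2 : {z : ℂ | cr (b - a) (z - a) = 0} =
      (fun z => z + -a) ⁻¹' ((LinearMap.ker f : Submodule ℝ ℂ) : Set ℂ) := by
    ext z
    simp only [Set.mem_ofPred_eq, Set.mem_preimage, SetLike.mem_coe, LinearMap.mem_ker,
      ← sub_eq_add_neg]
    exact Iff.rfl
  rw [h2, measure_preimage_add_right]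
  exact h1

/-- almost every point of `W` is in an open Delaunay triangle -/
theorem cover_ae {F : Finset ℂ} {W : Set ℂ} {d : ℝ} (hS : GP (F : Set ℂ)) (hd : 0 < d)
    (hH : Locx922.Hol (F : Set ℂ) W d) : ∀ᵐ z : ℂ, z ∈ W → ∃ t ∈ delT F, z ∈ opn t := by
  have h1 : ∀ᵐ z : ℂ, ∀ t ∈ delT F, cr (t.2.1 - t.1) (z - t.1) ≠ 0 := by
    have h0 : ∀ t ∈ (delT F : Set (ℂ × ℂ × ℂ)), ∀ᵐ z : ℂ, cr (t.2.1 - t.1) (z - t.1) ≠ 0 := by
      intro t ht
      have hne : t.1 ≠ t.2.1 := (ne_of_mem (Finset.mem_coe.1 ht)).1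
      rw [ae_iff]
      simpa only [not_not] using line_null hne
    exact (ae_ball_iff (Finset.countable_toSet (delT F))).2 h0
  filter_upwards [h1] with z hz hzW
  obtain ⟨a, b, c, ht, hin⟩ := Locx922.exists_tri_W hS hd hH hzW
  refine ⟨(a, b, c), ht, ?_⟩
  obtain ⟨i1, i2, i3⟩ := hin
  have h2 := (g1 F hS).1 _ _ _ ht
  have h3 := (g1 F hS).1 _ _ _ h2
  exact ⟨lt_of_le_of_ne i1 (hz _ ht).symm, lt_of_le_of_ne i2 (hz _ h2).symm,
    lt_of_le_of_ne i3 (hz _ h3).symm⟩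

/-! ### one environment -/

variable {D : Dom} {ε d M R1 : ℝ} {ω : Sample} {p : Pos} {k' : ℤ × ℤ}

theorem hol3 (hF : Free1 D R1) (hd1 : d ≤ R1) (h : Env ε d M D.c D.L ω) :
    Locx922.Hol (D.sites ε ω : Set ℂ) (Metric.closedBall D.c (3 * R1)) d := by
  refine (Locx922.Env.hol_sites h).mono (Metric.closedBall_subset_closedBall ?_)
  have := hF.le
  have := hF.pos
  linarith

/-- the cells of the points of the disc of radius `3 R1` are in the domain -/
theorem cell_free {S : Set ℂ} (hF : Free1 D R1) (hd : 0 < d) (hd1 : d ≤ R1)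
    (h : Locx922.Hol S (Metric.closedBall D.c (3 * R1)) d) {v : ℂ}
    (hv : v ∈ Metric.closedBall D.c (3 * R1)) : voronoiCell S v ∩ D.out = ∅ := by
  rw [← Set.subset_empty_iff, ← hF.out]
  refine Set.inter_subset_inter_left _ fun z hz => ?_
  have h1 := Locx922.cell_sub_ball hd h hv hz
  rw [Metric.mem_closedBall, dist_eq_norm] at hv ⊢
  have h2 := Locx922.norm_tri z v D.c
  linarith

theorem ring_shift {G : Trg ℂ} {v : ℂ} {n : ℕ} {u : ℤ → ℂ} (h : Ring G v n u) (m : ℤ) :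
    Ring G v n fun i => u (i + m) where
  pos := h.pos
  per i := by
    have := h.per (i + m)
    rw [← this]
    congr 1
    ring
  inj i j hi hi' hj hj' he := by
    have h1 := eq_mod h.pos h.per h.inj he
    have h2 : (n : ℤ) ∣ (j + m) - (i + m) := Int.ModEq.dvd h1
    have h3 : (n : ℤ) ∣ j - i := by
      have : (j + m) - (i + m) = j - i := by ring
      rwa [this] at h2
    obtain ⟨q, hq⟩ := h3
    have hn : (0 : ℤ) < n := by exact_mod_cast h.pos
    rcases lt_trichotomy q 0 with hq0 | hq0 | hq0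
    · nlinarith
    · rw [hq0] at hq; omega
    · nlinarith
  mem i := by
    have := h.mem (i + m)
    have e : i + m + 1 = i + 1 + m := by ring
    rwa [e] at this

/-- the context: a good environment and the outputs of `ARC`, `EXJ0` -/
structure Ctx (D : Dom) (ε d R1 : ℝ) (p : Pos) : Prop where
  F : Free1 D R1
  dpos : 0 < d
  dle : d ≤ R1
  env : ∃ M, Env ε d M D.c D.L (smk p fun _ => 0)
  hnet : HNet (SP D ε p) (NP D ε p)
  arc : ArcOK (NP D ε p) (SP D ε p)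
  inn : ∀ v ∈ SP D ε p, voronoiCell (SP D ε p : Set ℂ) v ∩ D.out = ∅ →
      (∀ x y : ℂ, hullE (SP D ε p) x y → x ≠ v ∧ y ≠ v) → v ∈ IP D ε p
  ex : ∀ a b c : ℂ, (a, b, c) ∈ delT (SP D ε p) → a ∈ Metric.closedBall D.c (2 * R1) →
    b ∈ Metric.closedBall D.c (2 * R1) → ((NP D ε p).hj a b).card ≠ 0

theorem Ctx.hol (h : Ctx D ε d R1 p) :
    Locx922.Hol (SP D ε p : Set ℂ) (Metric.closedBall D.c (3 * R1)) d := by
  obtain ⟨M, hM⟩ := h.env
  exact hol3 h.F h.dle hM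

theorem Ctx.gp (h : Ctx D ε d R1 p) : GP (SP D ε p : Set ℂ) := h.hnet.gp

theorem Ctx.hull (h : Ctx D ε d R1 p) {v : ℂ} (hv : v ∈ Metric.closedBall D.c (3 * R1)) :
    ∀ x y : ℂ, hullE (SP D ε p) x y → x ≠ v ∧ y ≠ v := by
  intro x y hxy
  constructor
  · rintro rfl
    exact (Locx922.not_hull h.dpos h.hol hv y).1 hxy
  · rintro rfl
    exact (Locx922.not_hull h.dpos h.hol hv x).2 hxy

/-- the sites in the disc of radius `3 R1` are free -/
theorem Ctx.ip (h : Ctx D ε d R1 p) {v : ℂ} (hv : v ∈ Metric.closedBall D.c (3 * R1))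
    (hS : v ∈ SP D ε p) : v ∈ IP D ε p :=
  h.inn v hS (cell_free h.F h.dpos h.dle h.hol hv) (h.hull hv)

theorem ball23 (h : 0 < R1) : Metric.closedBall D.c (2 * R1) ⊆ Metric.closedBall D.c (3 * R1) :=
  Metric.closedBall_subset_closedBall (by linarith)

/-- the edges at a site in the disc of radius `3 R1` are not killed -/
theorem Ctx.live (h : Ctx D ε d R1 p) {a : ℂ} (ha : a ∈ Metric.closedBall D.c (3 * R1)) (b : ℂ) :
    (a, b) ∉ (NP D ε p).kl := by
  intro h1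
  have h2 := ((Locx922.netS_kl_W (b := b) h.dpos h.hnet h.hol ha).1).1 h1
  obtain ⟨z, h3, h4⟩ := h2
  have h5 : z ∈ voronoiCell (SP D ε p : Set ℂ) a ∩ D.out := ⟨fun s hs => h3.2 s hs, h4⟩
  rw [cell_free h.F h.dpos h.dle h.hol ha] at h5
  exact h5

/-- the triangle on the right -/
theorem Ctx.right (h : Ctx D ε d R1 p) {a b c : ℂ} (habc : (a, b, c) ∈ delT (SP D ε p))
    (ha : a ∈ Metric.closedBall D.c (3 * R1)) : ∃ e, (b, a, e) ∈ delT (SP D ε p) := by
  by_contra hcon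
  push Not at hcon
  exact (Locx922.not_hull h.dpos h.hol ha b).1 ⟨⟨c, habc⟩, hcon⟩

theorem Ctx.edg (h3c : Y3c) (h : Ctx D ε d R1 p) {a b c : ℂ} (habc : (a, b, c) ∈ delT (SP D ε p))
    (ha : a ∈ Metric.closedBall D.c (2 * R1)) (hb : b ∈ Metric.closedBall D.c (2 * R1)) :
    Edg D ε p a b := by
  have ha3 := ball23 h.F.pos ha
  have hb3 := ball23 h.F.pos hb
  have hdel := DelGx806.mem_delT.1 habc
  have haS : a ∈ SP D ε p := Finset.mem_coe.1 hdel.1
  have hbS : b ∈ SP D ε p := Finset.mem_coe.1 hdel.2.1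
  refine ⟨⟨c, habc⟩, h.right habc ha3, h.ip ha3 haS, h.ip hb3 hbS, ?_, h.ex a b c habc ha hb⟩
  obtain ⟨n, u, hu, hall⟩ := Locx922.ring_W h.gp h.dpos h.hol ha3 haS (G := (NP D ε p).toTrg)
    h.hnet.tri
  obtain ⟨i, hi, -⟩ := hall b c habc
  exact h3c (SP D ε p) (NP D ε p) h.hnet a b n (fun j => u (j + i)) (ring_shift hu i)
    (by simpa using hi) fun j => h.live ha3 _

theorem Ctx.half (h : Ctx D ε d R1 p) {a b c : ℂ} (habc : (a, b, c) ∈ delT (SP D ε p))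
    (ha : a ∈ Metric.closedBall D.c (2 * R1)) (hb : b ∈ Metric.closedBall D.c (2 * R1)) :
    Half D ε p a b (a, b, c) := by
  have ha3 := ball23 h.F.pos ha
  have hb3 := ball23 h.F.pos hb
  have hdel := DelGx806.mem_delT.1 habc
  exact ⟨rfl, rfl, habc, h.right habc ha3, h.ip ha3 (Finset.mem_coe.1 hdel.1),
    h.ip hb3 (Finset.mem_coe.1 hdel.2.1)⟩

/-- a triangle without deleted vertices remains -/
theorem del_tri (hB : BlkOK D ε p k') {t : ℂ × ℂ × ℂ} (ht : t ∈ delT (SP D ε p))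
    (ho : Off (Ub ε p k') t) : t ∈ delT (SP D ε (del k' p)) := by
  obtain ⟨a, b, c⟩ := t
  rw [SP_del hB]
  rw [DelGx806.mem_delT] at ht ⊢
  obtain ⟨h1, h2, h3, h4, o, h5, h6, h7⟩ := ht
  rw [Finset.mem_coe] at h1 h2 h3
  refine ⟨?_, ?_, ?_, h4, o, h5, h6, fun s hs => h7 s ?_⟩
  · exact Finset.mem_coe.2 (Finset.mem_sdiff.2 ⟨h1, ho.1⟩)
  · exact Finset.mem_coe.2 (Finset.mem_sdiff.2 ⟨h2, ho.2.1⟩)
  · exact Finset.mem_coe.2 (Finset.mem_sdiff.2 ⟨h3, ho.2.2⟩)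
  · exact Finset.mem_coe.2 (Finset.mem_sdiff.1 (Finset.mem_coe.1 hs)).1

/-- one edge -/
theorem edgD (h3c : Y3c) {d' : ℝ} (h : Ctx D ε d R1 p) (h' : Ctx D ε d' R1 (del k' p))
    (hB : BlkOK D ε p k') {a b c e : ℂ} (habc : (a, b, c) ∈ delT (SP D ε p))
    (hbae : (b, a, e) ∈ delT (SP D ε p)) (ha : a ∈ Metric.closedBall D.c (2 * R1))
    (hb : b ∈ Metric.closedBall D.c (2 * R1)) (ho : Off (Ub ε p k') (a, b, c))
    (ho' : Off (Ub ε p k') (b, a, e)) : EdgD D ε p k' a b (a, b, c) (b, a, e) := by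
  have h1 := del_tri hB habc ho
  have h2 := del_tri hB hbae ho'
  exact ⟨h.edg h3c habc ha hb, h'.edg h3c h1 ha hb, h.half habc ha hb, h.half hbae hb ha,
    h'.half h1 ha hb, h'.half h2 hb ha, ho, ho'⟩

/-! ### one triangle -/

/-- the vertices of the triangle of `z` -/
theorem Ctx.near (h : Ctx D ε d R1 p) {z : ℂ} (hz : z ∈ Metric.closedBall D.c (3 * R1))
    {t : ℂ × ℂ × ℂ} (ht : t ∈ delT (SP D ε p)) (hzt : z ∈ opn t) :
    ‖t.1 - z‖ < 2 * d ∧ ‖t.2.1 - z‖ < 2 * d ∧ ‖t.2.2 - z‖ < 2 * d := by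
  obtain ⟨a, b, c⟩ := t
  have h1 := DelGx806.mem_delT.1 ht
  have h2 : InO z a b c := hzt
  obtain ⟨o, -, -, -, -, -, g1, g2, g3⟩ :=
    Locx922.del_small h.dpos h.hol hz (Locx922.InT.inD h1.2.2.2.1 h2.inT) h1
  exact ⟨g1, g2, g3⟩

/-- the vertex on the right of an edge -/
theorem Ctx.nearR (h : Ctx D ε d R1 p) {a b e : ℂ} (ha : a ∈ Metric.closedBall D.c (3 * R1))
    (ht : (b, a, e) ∈ delT (SP D ε p)) : ‖e - a‖ < 2 * d := by
  have h1 := DelGx806.mem_delT.1 ht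
  have h2 := (Locx922.del_side h.dpos h.hol ha (Locx922.inD_snd b a e) h1).2.1
  rwa [norm_sub_rev] at h2

theorem Ub_cell : (Ub ε p k' : Set ℂ) ⊆ cellS ε k' := by
  intro v hv
  obtain ⟨j, hj, rfl⟩ := mem_Ub.1 (Finset.mem_coe.1 hv)
  refine ⟨(((smk p fun _ => 0).2 k' j 0 : unitInterval) : ℝ),
    (((smk p fun _ => 0).2 k' j 1 : unitInterval) : ℝ), ?_, ?_, ?_, ?_, rfl⟩
  · exact ((smk p fun _ => 0).2 k' j 0).2.1
  · exact ((smk p fun _ => 0).2 k' j 0).2.2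
  · exact ((smk p fun _ => 0).2 k' j 1).2.1
  · exact ((smk p fun _ => 0).2 k' j 1).2.2

theorem not_Ub {z v : ℂ} (hw : ∀ w ∈ cellS ε k', 5 * d ≤ ‖z - w‖) (hd : 0 < d)
    (hv : ‖v - z‖ < 4 * d) : v ∉ Ub ε p k' := by
  intro h
  have h1 := hw v (Ub_cell (Finset.mem_coe.2 h))
  rw [norm_sub_rev] at h1
  linarith

/-- the free disc: vertices of the triangle of a point of the disc of radius `R1` -/
theorem Ctx.vert (_h : Ctx D ε d R1 p) (hd : 4 * d ≤ R1) {z v : ℂ} (hz : ‖z - D.c‖ < R1)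
    (hv : ‖v - z‖ < 4 * d) : v ∈ Metric.closedBall D.c (2 * R1) := by
  rw [Metric.mem_closedBall, dist_eq_norm]
  have := Locx922.norm_tri v z D.c
  linarith

theorem Ctx.tri (h3c : Y3c) {d' : ℝ} (h : Ctx D ε d R1 p) (hd : 4 * d ≤ R1) {z : ℂ}
    (hz : ‖z - D.c‖ < R1) {t : ℂ × ℂ × ℂ} (ht : t ∈ delT (SP D ε p)) (hzt : z ∈ opn t) :
    (∀ x ∈ ({t.1, t.2.1, t.2.2} : Set ℂ), x ∈ Metric.closedBall D.c (2 * R1)) ∧
      ∃ s0 s1 s2 : ℂ × ℂ × ℂ, ∀ k' : ℤ × ℤ, Ctx D ε d' R1 (del k' p) → BlkOK D ε p k' →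
        (∀ w ∈ cellS ε k', 5 * d ≤ ‖z - w‖) → TriD D ε p k' t s0 s1 s2 := by
  have hR := h.F.pos
  have hz3 : z ∈ Metric.closedBall D.c (3 * R1) := by
    rw [Metric.mem_closedBall, dist_eq_norm]; linarith
  obtain ⟨n1, n2, n3⟩ := h.near hz3 ht hzt
  have hdp := h.dpos
  have v1 := h.vert hd hz (v := t.1) (by linarith)
  have v2 := h.vert hd hz (v := t.2.1) (by linarith)
  have v3 := h.vert hd hz (v := t.2.2) (by linarith)
  have w1 := ball23 hR v1
  have w2 := ball23 hR v2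
  have w3 := ball23 hR v3
  refine ⟨?_, ?_⟩
  · intro x hx
    simp only [Set.mem_insert_iff, Set.mem_singleton_iff] at hx
    rcases hx with rfl | rfl | rfl
    · exact v1
    · exact v2
    · exact v3
  obtain ⟨a, b, c⟩ := t
  dsimp only at n1 n2 n3 v1 v2 v3 w1 w2 w3
  have t0 : (a, b, c) ∈ delT (SP D ε p) := ht
  have t1 : (b, c, a) ∈ delT (SP D ε p) := (g1 _ h.gp).1 _ _ _ t0
  have t2 : (c, a, b) ∈ delT (SP D ε p) := (g1 _ h.gp).1 _ _ _ t1
  obtain ⟨e0, he0⟩ := h.right t0 w1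
  obtain ⟨e1, he1⟩ := h.right t1 w2
  obtain ⟨e2, he2⟩ := h.right t2 w3
  have m0 := h.nearR w1 he0
  have m1 := h.nearR w2 he1
  have m2 := h.nearR w3 he2
  refine ⟨(b, a, e0), (c, b, e1), (a, c, e2), fun k' h' hB hw => ?_⟩
  have hoff : ∀ v, ‖v - z‖ < 4 * d → v ∉ Ub ε p k' := fun v hv => not_Ub hw hdp hv
  have oa := hoff a (by linarith)
  have ob := hoff b (by linarith)
  have oc := hoff c (by linarith)
  have o0 := hoff e0 (by have := Locx922.norm_tri e0 a z; linarith)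
  have o1 := hoff e1 (by have := Locx922.norm_tri e1 b z; linarith)
  have o2 := hoff e2 (by have := Locx922.norm_tri e2 c z; linarith)
  exact ⟨edgD h3c h h' hB t0 he0 v1 v2 ⟨oa, ob, oc⟩ ⟨ob, oa, o0⟩,
    edgD h3c h h' hB t1 he1 v2 v3 ⟨ob, oc, oa⟩ ⟨oc, ob, o1⟩,
    edgD h3c h h' hB t2 he2 v3 v1 ⟨oc, oa, ob⟩ ⟨oa, oc, o2⟩⟩

/-- `YG` from the context -/
theorem Ctx.yg (h : Ctx D ε d R1 p) (hi : InjP ε p) : YG D ε p := by
  obtain ⟨M, hM⟩ := h.env
  exact ⟨hi, hM.fin, h.hnet, h.arc⟩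

theorem injP_del (hi : InjP ε p) : InjP ε (del k' p) := by
  intro i hi1 j hj1 hij
  rw [presP_del] at hi1 hj1
  rw [ptP_del hi1.2, ptP_del hj1.2] at hij
  exact hi hi1.1 hj1.1 hij

/-- **assembly** -/
theorem y8_of
    (hA : ∀ (D : Dom) (ε d M : ℝ) (p : Pos) (k' : ℤ × ℤ), 0 < ε → ε ≤ d →
      Env ε d M D.c D.L (smk p fun _ => 0) → InjP ε p →
      ∃ M', Env ε (3 * d) M' D.c D.L (smk (del k' p) fun _ => 0))
    (hB : ∀ (D : Dom) (ε d M R1 : ℝ) (p : Pos) (k' : ℤ × ℤ), 0 < ε → ε ≤ d → Free1 D R1 →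
      8 * d ≤ R1 → Env ε d M D.c D.L (smk p fun _ => 0) → InjP ε p →
      cellS ε k' ⊆ Metric.closedBall D.c (2 * R1) →
      (∀ v ∈ D.sites ε (smk p fun _ => 0),
        voronoiCell (D.sites ε (smk p fun _ => 0) : Set ℂ) v ∩ D.out = ∅ →
        (∀ x y : ℂ, hullE (D.sites ε (smk p fun _ => 0)) x y → x ≠ v ∧ y ≠ v) →
        v ∈ innN (D.netS (D.sites ε (smk p fun _ => 0))) (D.sites ε (smk p fun _ => 0))) →
      BlkOK D ε p k') : Y8 := by
  intro hARC h3c D δ R1 hOK hF hEX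
  obtain ⟨dA, hdA, hA1⟩ := hARC D δ hOK
  obtain ⟨dE, hdE, hE1⟩ := hEX
  refine ⟨min (min (dA / 3) (dE / 3)) (R1 / 12), ?_, ?_⟩
  · have := hF.pos
    positivity
  intro ε d M p hε hεd hd hEnv hi
  have e1 : d ≤ dA / 3 := hd.trans ((min_le_left _ _).trans (min_le_left _ _))
  have e2 : d ≤ dE / 3 := hd.trans ((min_le_left _ _).trans (min_le_right _ _))
  have e3 : d ≤ R1 / 12 := hd.trans (min_le_right _ _)
  have hdp : 0 < d := hε.trans_le hεd
  have hR := hF.pos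
  have mk : ∀ (d' M' : ℝ) (p' : Pos), 0 < d' → d' ≤ dA → d' ≤ dE → d' ≤ R1 →
      Env ε d' M' D.c D.L (smk p' fun _ => 0) → Ctx D ε d' R1 p' := by
    intro d' M' p' h1 h2 h3 h4 h5
    obtain ⟨a1, a2, a3⟩ := hA1 ε d' M' _ hε h1 h2 h5
    exact ⟨hF, h1, h4, ⟨M', h5⟩, a1, a2, a3, hE1 ε d' M' _ hε h1 h3 h5⟩
  have hC : Ctx D ε d R1 p := mk d M p hdp (by linarith) (by linarith) (by linarith) hEnv
  have hC' : ∀ k', Ctx D ε (3 * d) R1 (del k' p) := by
    intro k'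
    obtain ⟨M', hM'⟩ := hA D ε d M p k' hε hεd hEnv hi
    exact mk (3 * d) M' _ (by linarith) (by linarith) (by linarith) (by linarith) hM'
  have hBk : ∀ k', cellS ε k' ⊆ Metric.closedBall D.c (2 * R1) → BlkOK D ε p k' := fun k' hk =>
    hB D ε d M R1 p k' hε hεd hF (by linarith) hEnv hi hk hC.inn
  refine ⟨hC.yg hi, ?_, ?_, ?_⟩
  · filter_upwards [cover_ae hC.gp hdp hC.hol] with z hz hzR
    refine hz ?_
    rw [Metric.mem_closedBall, dist_eq_norm]
    linarith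
  · intro k' hk
    exact ⟨(hC' k').yg (injP_del hi), hBk k' hk, hA D ε d M p k' hε hεd hEnv hi⟩
  · intro z hz t ht hzt
    obtain ⟨h1, s0, s1, s2, h2⟩ := hC.tri h3c (d' := 3 * d) (by linarith) hz ht hzt
    exact ⟨h1, s0, s1, s2, fun k' hk hw => h2 k' (hC' k') (hBk k' hk) hw⟩

end Crest.Agent.R143.Y8bx780
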