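import Crest.Agent.R143.Y3s_877
import Crest.Agent.R143.Sides_697
import Crest.Agent.R143.JCol2_54

/-!
# Row 143, block Y: the leaf Y3 (helper877)

* `xor_marks` : the symmetric difference of two joins with compatible marks.
* `Chn` : chain of `W`-free triangles from `t` to the triangle of the mark `m`; `chain_join` : it
  carries a join with marks `e`, `m` which does not touch `W`.
* `Ws G J r` : cluster of `r` through the edges which are not in `J`; `ws_congr` : locality.
* `ek_sk` : if the leg from `e` ends at `ex k` the chain exists; `sk_ek` : conversely.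
* `card_ek` : the XOR with the chain join is a bijection between the joins with marks `exS + e` whose
  leg from `e` ends at `ex k` and the joins with marks `ex (k+1), ex (k+2)`, `e` killed, with a chain.
* `card_wh` : these are the colourings.
* `y3` : leaf Y3.
-/

set_option autoImplicit false

noncomputable section

open scoped Classical

namespace Crest.Agent.R143.Y3x877

open Crest.Agent.R143.B0x346 Crest.Agent.R143.Y0x831 Crest.Agent.R143.JCardx872
open Crest.Agent.R143.JWalkx872 Crest.Agent.R143.J1x872 Crest.Agent.R143.Y3sx877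

variable {V : Type}

theorem z3_idx : ∀ k j : ZMod 3, j = k ∨ j = k + 1 ∨ j = k + 2 := by decide

theorem z3_ne1 : ∀ k : ZMod 3, k + 1 ≠ k := by decide

theorem z3_ne2 : ∀ k : ZMod 3, k + 2 ≠ k := by decide

theorem z3_ne3 : ∀ k : ZMod 3, k + 2 ≠ k + 1 := by decide

/-! ### XOR of joins with marks -/

theorem xor_marks {G : Trg V} {kl : Set (V × V)} {O O' : Set (V × V × V)} {D D' : Set (V × V)}
    {J L : Finset (V × V)} (hJ : IsJoin G kl O D J) (hL : IsJoin G kl O' D' L)
    (h1 : ∀ a b, (a, b) ∈ D → (a, b) ∉ D' → (a, b) ∉ L ∧ (b, a) ∉ L)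
    (h2 : ∀ a b, (a, b) ∈ D' → (a, b) ∉ D → (a, b) ∉ J ∧ (b, a) ∉ J) :
    IsJoin G kl (symmDiff O O') (symmDiff D D') (symmDiff J L) := by
  have cm : ∀ a b, (a, b) ∈ D → (a, b) ∈ D' → (a, b) ∉ symmDiff J L ∧ (b, a) ∉ symmDiff J L := by
    intro a b h h'
    have g1 := hJ.mark a b h
    have g2 := hL.mark a b h'
    rw [Finset.mem_symmDiff, Finset.mem_symmDiff]
    tauto
  have ms : ∀ x : V × V, x ∉ symmDiff D D' → (x ∈ D ∧ x ∈ D') ∨ (x ∉ D ∧ x ∉ D') := by
    intro x hx
    rw [Set.mem_symmDiff] at hx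
    tauto
  refine ⟨?_, ?_, ?_, ?_, ?_, ?_⟩
  · intro x hx
    rw [Finset.mem_symmDiff] at hx
    rcases hx with h | h
    · exact hJ.sub h.1
    · exact hL.sub h.1
  · intro a b g1 g2
    rcases ms _ g1 with g1 | g1
    · have := cm a b g1.1 g1.2
      tauto
    · rcases ms _ g2 with g2 | g2
      · have := cm b a g2.1 g2.2
        tauto
      · have := hJ.sym a b g1.1 g2.1
        have := hL.sym a b g1.2 g2.2
        rw [Finset.mem_symmDiff, Finset.mem_symmDiff]
        tauto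
  · intro a b g
    rw [Set.mem_symmDiff] at g
    rw [Finset.mem_symmDiff, Finset.mem_symmDiff]
    rcases g with ⟨g, g'⟩ | ⟨g, g'⟩
    · have := hJ.mark a b g
      have := h1 a b g g'
      tauto
    · have := hL.mark a b g
      have := h2 a b g g'
      tauto
  · intro a b g1 g2
    rcases ms _ g2 with g2 | g2
    · exact cm a b g2.1 g2.2
    · have := hJ.bdr a b g1 g2.1
      have := hL.bdr a b g1 g2.2
      rw [Finset.mem_symmDiff, Finset.mem_symmDiff]
      tauto
  · intro a b g1 g2 g3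
    rcases ms _ g2 with g2 | g2
    · exact cm a b g2.1 g2.2
    · rcases ms _ g3 with g3 | g3
      · exact (cm b a g3.1 g3.2).symm
      · have := hJ.kill a b g1 g2.1 g3.1
        have := hL.kill a b g1 g2.2 g3.2
        rw [Finset.mem_symmDiff, Finset.mem_symmDiff]
        tauto
  · intro a b c h
    have g1 := hJ.par a b c h
    have g2 := hL.par a b c h
    rw [par_symmDiff, g1, g2]
    by_cases x1 : (a, b, c) ∈ O <;> by_cases x2 : (a, b, c) ∈ O' <;>
      simp [Set.mem_symmDiff, x1, x2]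

/-! ### chain joins -/

/-- chain of `W`-free triangles from `t` to the triangle with the directed side `m` -/
def Chn (G : Trg V) (kl : Set (V × V)) (W : Set V) (m : V × V) (t : V × V × V) : Prop :=
  t ∈ G.T ∧ Free W t ∧ ∃ t' : V × V × V, (t'.1, t'.2.1) = m ∧
    Relation.ReflTransGen (CStep G kl W) t t'

theorem mem_rots_iff {G : Trg V} {x y z p q r : V} (ht : (x, y, z) ∈ G.T) (h : (p, q, r) ∈ G.T) :
    (p, q, r) ∈ rots (x, y, z) ↔ ((p, q) = (x, y) ∨ (q, r) = (x, y) ∨ (r, p) = (x, y)) :=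
  ⟨side_of_mem_rots, mem_rots_of_side ht h⟩

/-- the half edge on the left of `(x, y)` is a join with one mark and one odd triangle -/
theorem half_join {G : Trg V} {kl : Set (V × V)} {x y z : V} (ht : (x, y, z) ∈ G.T) :
    IsJoin G kl (rots (x, y, z)) {(x, y)} {(x, y)} := by
  have hxy : x ≠ y := G.ne ht
  refine ⟨?_, ?_, ?_, ?_, ?_, ?_⟩
  · intro p hp
    rw [Finset.mem_singleton] at hp
    rw [hp]
    exact (mem_E_of_tri ht).1
  · intro a b h1 h2
    rw [Set.mem_singleton_iff] at h1 h2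
    rw [Finset.mem_singleton, Finset.mem_singleton]
    tauto
  · intro a b h
    rw [Set.mem_singleton_iff, Prod.mk.injEq] at h
    obtain ⟨rfl, rfl⟩ := h
    rw [Finset.mem_singleton, Finset.mem_singleton]
    exact ⟨rfl, fun h => hxy (congrArg Prod.snd h)⟩
  · intro a b h1 h2
    rw [Set.mem_singleton_iff] at h2
    rw [Finset.mem_singleton, Finset.mem_singleton]
    refine ⟨h2, ?_⟩
    intro h
    rw [Prod.mk.injEq] at h
    obtain ⟨rfl, rfl⟩ := h
    exact h1 _ ht
  · intro a b h1 h2 h3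
    rw [Set.mem_singleton_iff] at h2 h3
    rw [Finset.mem_singleton, Finset.mem_singleton]
    exact ⟨h2, h3⟩
  · intro a b c h
    obtain ⟨n1, n2, n3⟩ := sides_ne h
    simp only [Finset.mem_singleton]
    by_cases hs : (a, b, c) ∈ rots (x, y, z)
    · rw [if_pos hs]
      rcases side_of_mem_rots hs with e | e | e
      · have e2 : (b, c) ≠ (x, y) := by rw [← e]; exact n1.symm
        have e3 : (c, a) ≠ (x, y) := by rw [← e]; exact n3.symm
        rw [if_pos e, if_neg e2, if_neg e3]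
      · have e2 : (a, b) ≠ (x, y) := by rw [← e]; exact n1
        have e3 : (c, a) ≠ (x, y) := by rw [← e]; exact n2.symm
        rw [if_neg e2, if_pos e, if_neg e3]
      · have e2 : (a, b) ≠ (x, y) := by rw [← e]; exact n3
        have e3 : (b, c) ≠ (x, y) := by rw [← e]; exact n2
        rw [if_neg e2, if_neg e3, if_pos e]
    · rw [if_neg hs]
      have e1 : (a, b) ≠ (x, y) := fun e => hs (mem_rots_of_side ht h (Or.inl e))
      have e2 : (b, c) ≠ (x, y) := fun e => hs (mem_rots_of_side ht h (Or.inr (Or.inl e)))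
      have e3 : (c, a) ≠ (x, y) := fun e => hs (mem_rots_of_side ht h (Or.inr (Or.inr e)))
      rw [if_neg e1, if_neg e2, if_neg e3]

theorem rots_disj {G : Trg V} {x y z z' : V} (ht : (x, y, z) ∈ G.T)
    (ht' : (y, x, z') ∈ G.T) : ∀ s, s ∈ rots (x, y, z) → s ∉ rots (y, x, z') := by
  have h1 := G.ne ht
  have h2 := G.ne (G.rot ht)
  have h3 := G.ne (G.rot (G.rot ht))
  have h2' := G.ne (G.rot ht')
  have h3' := G.ne (G.rot (G.rot ht'))
  rintro ⟨p, q, r⟩ h h'
  unfold rots at h h'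
  simp only [Set.mem_insert_iff, Set.mem_singleton_iff, Prod.mk.injEq] at h h'
  rcases h with ⟨rfl, rfl, rfl⟩ | ⟨rfl, rfl, rfl⟩ | ⟨rfl, rfl, rfl⟩ <;>
    rcases h' with ⟨g1, g2, g3⟩ | ⟨g1, g2, g3⟩ | ⟨g1, g2, g3⟩ <;>
    first
    | exact h1 g1
    | exact h1 g1.symm
    | exact h1 g2
    | exact h1 g2.symm
    | exact h1 g3
    | exact h1 g3.symm
    | exact h2 g1
    | exact h2 g1.symm
    | exact h2 g2
    | exact h2 g2.symm
    | exact h2 g3
    | exact h2 g3.symm
    | exact h3 g1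
    | exact h3 g1.symm
    | exact h3 g2
    | exact h3 g2.symm
    | exact h3 g3

/-- an inner live edge is a join with two odd triangles -/
theorem edge_join {G : Trg V} {kl : Set (V × V)} {x y z z' : V} (ht : (x, y, z) ∈ G.T)
    (ht' : (y, x, z') ∈ G.T) (hk : (x, y) ∉ kl) (hk' : (y, x) ∉ kl) :
    IsJoin G kl (symmDiff (rots (x, y, z)) (rots (y, x, z'))) ∅ {(x, y), (y, x)} := by
  have hxy : x ≠ y := G.ne ht
  have e0 : ({(x, y), (y, x)} : Finset (V × V)) =
      symmDiff ({(x, y)} : Finset (V × V)) {(y, x)} := by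
    ext p
    simp only [Finset.mem_insert, Finset.mem_singleton, Finset.mem_symmDiff]
    constructor
    · rintro (rfl | rfl)
      · left
        exact ⟨rfl, fun h => hxy (congrArg Prod.fst h)⟩
      · right
        exact ⟨rfl, fun h => hxy (congrArg Prod.snd h)⟩
    · tauto
  refine ⟨?_, ?_, ?_, ?_, ?_, ?_⟩
  · intro p hp
    rw [Finset.mem_insert, Finset.mem_singleton] at hp
    rcases hp with rfl | rfl
    · exact (mem_E_of_tri ht).1
    · exact (mem_E_of_tri ht).2
  · intro a b _ _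
    simp only [Finset.mem_insert, Finset.mem_singleton, Prod.mk.injEq]
    tauto
  · intro a b h
    exact absurd h (Set.notMem_empty _)
  · intro a b h1 _
    simp only [Finset.mem_insert, Finset.mem_singleton, Prod.mk.injEq]
    constructor
    · rintro (⟨rfl, rfl⟩ | ⟨rfl, rfl⟩)
      · exact h1 _ ht'
      · exact h1 _ ht
    · rintro (⟨rfl, rfl⟩ | ⟨rfl, rfl⟩)
      · exact h1 _ ht
      · exact h1 _ ht'
  · intro a b h1 _ _
    simp only [Finset.mem_insert, Finset.mem_singleton, Prod.mk.injEq]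
    constructor
    · rintro (⟨rfl, rfl⟩ | ⟨rfl, rfl⟩)
      · exact hk h1
      · exact hk' h1
    · rintro (⟨rfl, rfl⟩ | ⟨rfl, rfl⟩)
      · exact hk' h1
      · exact hk h1
  · intro a b c h
    have g1 := (half_join (kl := kl) ht).par a b c h
    have g2 := (half_join (kl := kl) ht').par a b c h
    rw [e0, par_symmDiff, g1, g2]
    by_cases x1 : (a, b, c) ∈ rots (x, y, z) <;> by_cases x2 : (a, b, c) ∈ rots (y, x, z') <;>
      simp [Set.mem_symmDiff, x1, x2]

/-- partial chain joins -/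
theorem chain_part {G : Trg V} {kl kl' : Set (V × V)} (hkl : ∀ x ∈ kl, x ∈ kl')
    (hsym : ∀ a b, (a, b) ∈ kl' → (b, a) ∈ kl') {W : Set V} {a b c : V}
    (ht : (a, b, c) ∈ G.T) (hF : Free W (a, b, c)) (he : (a, b) ∈ kl') {t' : V × V × V}
    (h : Relation.ReflTransGen (CStep G kl' W) (a, b, c) t') :
    t' ∈ G.T ∧ Free W t' ∧ ∃ L : Finset (V × V), IsJoin G kl (rots t') {(a, b)} L ∧
      ∀ p ∈ L, p.1 ∉ W ∧ p.2 ∉ W := by
  induction h with
  | refl =>
    refine ⟨ht, hF, {(a, b)}, half_join ht, ?_⟩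
    intro p hp
    rw [Finset.mem_singleton] at hp
    rw [hp]
    exact ⟨hF.1, hF.2.1⟩
  | tail h0 hs ih =>
    rename_i s s'
    obtain ⟨hsT, hsF, L, hL, hLW⟩ := ih
    obtain ⟨hs'T, hs'F, hs⟩ := hs
    refine ⟨hs'T, hs'F, ?_⟩
    obtain ⟨x, y, z⟩ := s
    obtain ⟨x', y', z'⟩ := s'
    rcases hs with hs | ⟨h1, h2, h3⟩
    · refine ⟨L, ?_, hLW⟩
      rw [hs]
      simp only
      rw [rots_rot]
      exact hL
    · simp only at h1 h2 h3
      subst h1 h2
      have hk1 : (y', x') ∉ kl := fun h => h3 (hkl _ h)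
      have hk2 : (x', y') ∉ kl := fun h => h3 (hsym _ _ (hkl _ h))
      have hE := edge_join (kl := kl) hsT hs'T hk1 hk2
      refine ⟨symmDiff L {(y', x'), (x', y')}, ?_, ?_⟩
      · have h := xor_marks hL hE ?_ ?_
        · have e1 : symmDiff (rots (y', x', z)) (symmDiff (rots (y', x', z)) (rots (x', y', z')))
              = rots (x', y', z') := by
            rw [← symmDiff_assoc, symmDiff_self, bot_symmDiff]
          have e2 : symmDiff ({(a, b)} : Set (V × V)) ∅ = {(a, b)} := by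
            have : (∅ : Set (V × V)) = ⊥ := rfl
            rw [this, symmDiff_bot]
          rw [e1, e2] at h
          exact h
        · intro p q g _
          rw [Set.mem_singleton_iff, Prod.mk.injEq] at g
          obtain ⟨rfl, rfl⟩ := g
          simp only [Finset.mem_insert, Finset.mem_singleton, Prod.mk.injEq]
          constructor
          · rintro (⟨rfl, rfl⟩ | ⟨rfl, rfl⟩)
            · exact h3 he
            · exact h3 (hsym _ _ he)
          · rintro (⟨rfl, rfl⟩ | ⟨rfl, rfl⟩)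
            · exact h3 (hsym _ _ he)
            · exact h3 he
        · intro p q g
          exact absurd g (Set.notMem_empty _)
      · intro p hp
        rw [Finset.mem_symmDiff] at hp
        rcases hp with hp | hp
        · exact hLW p hp.1
        · have := hp.1
          rw [Finset.mem_insert, Finset.mem_singleton] at this
          rcases this with rfl | rfl
          · exact ⟨hsF.1, hsF.2.1⟩
          · exact ⟨hsF.2.1, hsF.1⟩

/-- **the join carried by a chain** -/
theorem chain_join {G : Trg V} {kl kl' : Set (V × V)} (hkl : ∀ x ∈ kl, x ∈ kl')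
    (hsym : ∀ a b, (a, b) ∈ kl' → (b, a) ∈ kl') {W : Set V} {a b c : V} {m : V × V}
    (he : (a, b) ∈ kl') (hm : ∀ c, (m.2, m.1, c) ∉ G.T) (hme : m ≠ (a, b)) (hme' : m ≠ (b, a))
    (h : Chn G kl' W m (a, b, c)) :
    ∃ L : Finset (V × V), IsJoin G kl ∅ {(a, b), m} L ∧ ∀ p ∈ L, p.1 ∉ W ∧ p.2 ∉ W := by
  obtain ⟨ht, hF, t', htm, hch⟩ := h
  obtain ⟨ht', hF', L, hL, hLW⟩ := chain_part hkl hsym ht hF he hch
  obtain ⟨x, y, z⟩ := t'
  simp only at htm
  subst htm
  have hH := half_join (kl := kl) ht'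
  refine ⟨symmDiff L {(x, y)}, ?_, ?_⟩
  · have h := xor_marks hL hH ?_ ?_
    · have e1 : symmDiff (rots (x, y, z)) (rots (x, y, z)) = ∅ := symmDiff_self _
      have e2 : symmDiff ({(a, b)} : Set (V × V)) {(x, y)} = {(a, b), (x, y)} := by
        ext p
        simp only [Set.mem_insert_iff, Set.mem_singleton_iff, Set.mem_symmDiff]
        constructor
        · tauto
        · rintro (rfl | rfl)
          · exact Or.inl ⟨rfl, hme.symm⟩
          · exact Or.inr ⟨rfl, hme⟩
      rw [e1, e2] at h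
      exact h
    · intro p q g _
      rw [Set.mem_singleton_iff, Prod.mk.injEq] at g
      obtain ⟨rfl, rfl⟩ := g
      rw [Finset.mem_singleton, Finset.mem_singleton]
      exact ⟨hme.symm, hme'.symm⟩
    · intro p q g g'
      rw [Set.mem_singleton_iff, Prod.mk.injEq] at g
      obtain ⟨rfl, rfl⟩ := g
      exact hL.bdr p q hm g'
  · intro p hp
    rw [Finset.mem_symmDiff] at hp
    rcases hp with hp | hp
    · exact hLW p hp.1
    · have := hp.1
      rw [Finset.mem_singleton] at this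
      subst this
      exact ⟨hF'.1, hF'.2.1⟩

/-! ### the cluster of a join -/

/-- cluster of `r` through the edges which are not in `J` -/
def Ws (G : Trg V) (J : Finset (V × V)) (r : V) : Set V :=
  {v | Relation.ReflTransGen (fun x y => Nb G x y ∧ (x, y) ∉ J ∧ (y, x) ∉ J) r v}

theorem ws_congr {G : Trg V} {J J' : Finset (V × V)} {r : V}
    (h : ∀ x y, x ∈ Ws G J r → (((x, y) ∈ J ↔ (x, y) ∈ J') ∧ ((y, x) ∈ J ↔ (y, x) ∈ J'))) :
    Ws G J' r = Ws G J r := by
  ext v
  constructor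
  · intro hv
    change Relation.ReflTransGen _ _ _ at hv
    induction hv with
    | refl => exact Relation.ReflTransGen.refl
    | tail h0 hs ih =>
      rename_i x y
      have h1 := h x y ih
      exact Relation.ReflTransGen.tail ih
        ⟨hs.1, fun g => hs.2.1 (h1.1.1 g), fun g => hs.2.2 (h1.2.1 g)⟩
  · intro hv
    change Relation.ReflTransGen _ _ _ at hv
    induction hv with
    | refl => exact Relation.ReflTransGen.refl
    | tail h0 hs ih =>
      rename_i x y
      have h1 := h x y h0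
      exact Relation.ReflTransGen.tail ih
        ⟨hs.1, fun g => hs.2.1 (h1.1.2 g), fun g => hs.2.2 (h1.2.2 g)⟩

theorem ws_xor {G : Trg V} {J L : Finset (V × V)} {r : V}
    (h : ∀ p ∈ L, p.1 ∉ Ws G J r ∧ p.2 ∉ Ws G J r) :
    Ws G (symmDiff J L) r = Ws G J r := by
  apply ws_congr
  intro x y hx
  have h1 : (x, y) ∉ L := fun g => (h _ g).1 hx
  have h2 : (y, x) ∉ L := fun g => (h _ g).2 hx
  rw [Finset.mem_symmDiff, Finset.mem_symmDiff]
  tauto

/-! ### the leg ends at `ex k` => the chain exists -/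

section ek

variable {N : Net V} {e : V × V} {k : ZMod 3} {J : Finset (V × V)}

/-- the edge `e` is killed -/
abbrev klE (N : Net V) (e : V × V) : Set (V × V) := N.kl ∪ {(e.1, e.2), (e.2, e.1)}

theorem mem_klE {x : V × V} : x ∈ klE N e ↔ x ∈ N.kl ∨ x = (e.1, e.2) ∨ x = (e.2, e.1) := by
  simp only [Set.mem_union, Set.mem_insert_iff, Set.mem_singleton_iff]

theorem ek_sk (hg : Good N) (hM : Sidesx697.Marks3 N) (hC : Sidesx697.HasCol N)
    (he : e ∉ N.exS) (he' : (e.2, e.1) ∉ N.exS)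
    (hJ : IsJoin N.toTrg N.kl ∅ (N.exS ∪ {e}) J)
    (hk : Leads N.toTrg ∅ (N.exS ∪ {e}) J e ((N.ex k).2, (N.ex k).1)) {c : V}
    (hc : (e.1, e.2, c) ∈ N.T) :
    Chn N.toTrg (klE N e) (Ws N.toTrg J (N.ex (k + 1)).2) (N.ex k) (e.1, e.2, c) := by
  set D := N.exS ∪ {e} with hD
  have heD : e ∈ D := Or.inr rfl
  have hxD : ∀ j, N.ex j ∈ D := fun j => Or.inl ⟨j, rfl⟩
  have heJ : e ∈ J := (hJ.mark _ _ heD).1
  have heJ' : (e.2, e.1) ∉ J := (hJ.mark _ _ heD).2
  have hJ0 := Sidesx697.leg_removed hJ heD (hxD k) hk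
  have hD' : D \ {e, N.ex k} ⊆ N.exS := by
    rintro q ⟨h1 | h1, h2⟩
    · exact h1
    · exact absurd (Or.inl h1) h2
  obtain ⟨σ, hσ⟩ := hC _ hD' _ hJ0
  have hleg : ∀ q, Leads N.toTrg ∅ D J e q → σ q.1 = σ e.1 ∧ σ q.2 = σ e.1 :=
    fun q hq => Sidesx697.col_leg hJ heD hσ hq
  set r := (N.ex (k + 1)).2 with hr
  -- the colour of the cluster
  have hW : ∀ v, v ∈ Ws N.toTrg J r → σ v = σ r := by
    intro v hv
    change Relation.ReflTransGen _ _ _ at hv
    induction hv with
    | refl => rfl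
    | tail h0 hs ih =>
      rename_i x y
      rw [← ih]
      by_contra hne
      have h1 : (x, y) ∈ N.E := hs.1
      rcases (hσ x y h1).1 (fun h => hne h.symm) with h2 | h2
      · exact hs.2.1 (Sidesx697.mem_off.1 h2).1
      · exact hs.2.2 (Sidesx697.mem_off.1 h2).1
  -- the colours are different
  have hrne : σ e.1 ≠ σ r := by
    have h1 := (hleg _ hk).1
    simp only at h1
    have h2 := Sidesx697.col_side hJ0 hD' hσ (hM.next k)
    have hmem : ((N.ex (k + 1)).1, (N.ex (k + 1)).2) ∈ D \ {e, N.ex k} := by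
      refine ⟨hxD (k + 1), ?_⟩
      rintro (h2 | h2)
      · exact he ⟨k + 1, h2⟩
      · exact hM.ne (k + 1) k (z3_ne1 k) h2
    have h3 := (hJ0.mark _ _ hmem).1
    have h4 := (hσ _ _ (hJ0.sub h3)).2 (Or.inl h3)
    rw [h2, h1] at h4
    exact h4
  -- the triangles of the leg are free
  have hfree : ∀ q, Leads N.toTrg ∅ D J e q → q ∈ J → ∀ c, (q.1, q.2, c) ∈ N.T →
      Free (Ws N.toTrg J r) (q.1, q.2, c) := by
    intro q hq hqJ c hc
    have h0 := hleg q hq
    have hcc : σ c = σ e.1 := by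
      rcases step_prog hJ hqJ with ⟨c', _, h⟩ | ⟨q', hq'⟩
      · exact absurd h (Set.notMem_empty _)
      · have h1 := hleg q' (hq.tail hq')
        obtain ⟨c', hc', _, _, h2⟩ := hq'
        have := N.uniq hc hc'
        subst this
        rcases h2 with ⟨_, rfl⟩ | ⟨_, _, rfl⟩
        · exact h1.1
        · exact h1.2
    refine ⟨fun h => hrne ?_, fun h => hrne ?_, fun h => hrne ?_⟩
    · rw [← hW _ h, h0.1]
    · rw [← hW _ h, h0.2]
    · rw [← hW _ h, hcc]
  -- crossed edges are live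
  have hlive : ∀ q q', Leads N.toTrg ∅ D J e q → Step N.toTrg ∅ D J q q' →
      (∃ c, (q'.1, q'.2, c) ∈ N.T) → (q'.2, q'.1) ∉ klE N e := by
    rintro q q' hq hs ⟨c, hc⟩ hkl
    have hq'J := step_exit hs
    rw [mem_klE] at hkl
    rcases hkl with h | h | h
    · have n1 : (q'.2, q'.1) ∉ D := by
        rintro (⟨j, hj⟩ | h1)
        · apply hg.bd j c
          rw [hj]
          exact hc
        · rw [Set.mem_singleton_iff] at h1
          have h2 : q' = (e.2, e.1) := by rw [← h1]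
          have := hq.tail hs
          rw [h2] at this
          exact not_leads_swap hJ rotInv_empty heJ this
      have n2 : (q'.1, q'.2) ∉ D := step_notMark hJ hs
      exact (hJ.kill _ _ h n1 n2).1 hq'J
    · rw [Prod.mk.injEq] at h
      have h2 : q' = (e.2, e.1) := Prod.ext h.2 h.1
      have := hq.tail hs
      rw [h2] at this
      exact not_leads_swap hJ rotInv_empty heJ this
    · rw [h] at hq'J
      exact heJ' hq'J
  -- the chain
  have hchain : ∀ q, Leads N.toTrg ∅ D J e q → ∀ c', (q.1, q.2, c') ∈ N.T →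
      Relation.ReflTransGen (CStep N.toTrg (klE N e) (Ws N.toTrg J r)) (e.1, e.2, c)
        (q.1, q.2, c') := by
    intro q hq
    change Relation.ReflTransGen _ _ _ at hq
    induction hq with
    | refl =>
      intro c' hc'
      have := N.uniq hc hc'
      subst this
      exact Relation.ReflTransGen.refl
    | tail h0 hs ih =>
      rename_i q q'
      intro c' hc'
      have hl := hlive q q' h0 hs ⟨c', hc'⟩
      have hlq' : Leads N.toTrg ∅ D J e q' := Relation.ReflTransGen.tail h0 hs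
      have hqJ : q ∈ J := leads_step_mem hJ heJ h0 hs
      have hq'J : q' ∈ J := by
        rcases step_mem hJ hs with h | h
        · exact h
        · exfalso
          rcases h with ⟨j, hj⟩ | h
          · apply hg.bd j c'
            rw [hj]
            exact hc'
          · rw [Set.mem_singleton_iff] at h
            have h2 : q' = (e.2, e.1) := by rw [← h]
            rw [h2] at hlq'
            exact not_leads_swap hJ rotInv_empty heJ hlq'
      have hF' := hfree q' hlq' hq'J c' hc'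
      obtain ⟨d, hd, _, _, h2⟩ := hs
      have h1 := ih d hd
      have hF := hfree q h0 hqJ d hd
      rcases h2 with ⟨g, rfl⟩ | ⟨g, g', rfl⟩
      · -- rotate once, cross `(q.2, d)`
        have s1 : CStep N.toTrg (klE N e) (Ws N.toTrg J r) (q.1, q.2, d) (q.2, d, q.1) :=
          ⟨N.rot hd, ⟨hF.2.1, hF.2.2, hF.1⟩, Or.inl rfl⟩
        have s2 : CStep N.toTrg (klE N e) (Ws N.toTrg J r) (q.2, d, q.1) (d, q.2, c') :=
          ⟨hc', hF', Or.inr ⟨rfl, rfl, hl⟩⟩
        exact (h1.tail s1).tail s2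
      · have s1 : CStep N.toTrg (klE N e) (Ws N.toTrg J r) (q.1, q.2, d) (q.2, d, q.1) :=
          ⟨N.rot hd, ⟨hF.2.1, hF.2.2, hF.1⟩, Or.inl rfl⟩
        have s2 : CStep N.toTrg (klE N e) (Ws N.toTrg J r) (q.2, d, q.1) (d, q.1, q.2) :=
          ⟨N.rot (N.rot hd), ⟨hF.2.2, hF.1, hF.2.1⟩, Or.inl rfl⟩
        have s3 : CStep N.toTrg (klE N e) (Ws N.toTrg J r) (d, q.1, q.2) (q.1, d, c') :=
          ⟨hc', hF', Or.inr ⟨rfl, rfl, hl⟩⟩
        exact ((h1.tail s1).tail s2).tail s3
  refine ⟨hc, hfree e Relation.ReflTransGen.refl heJ c hc, ?_⟩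
  rcases Relation.ReflTransGen.cases_tail hk with h | ⟨q, hq, hs⟩
  · exfalso
    apply he'
    refine ⟨k, ?_⟩
    rw [← h]
  · have hqJ : q ∈ J := leads_step_mem hJ heJ hq hs
    obtain ⟨d, hd, _, _, h2⟩ := hs
    have h1 := hchain q hq d hd
    have hF := hfree q hq hqJ d hd
    have s1 : CStep N.toTrg (klE N e) (Ws N.toTrg J r) (q.1, q.2, d) (q.2, d, q.1) :=
      ⟨N.rot hd, ⟨hF.2.1, hF.2.2, hF.1⟩, Or.inl rfl⟩
    have s2 : CStep N.toTrg (klE N e) (Ws N.toTrg J r) (q.2, d, q.1) (d, q.1, q.2) :=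
      ⟨N.rot (N.rot hd), ⟨hF.2.2, hF.1, hF.2.1⟩, Or.inl rfl⟩
    rcases h2 with ⟨g, h3⟩ | ⟨g, g', h3⟩
    · refine ⟨(q.2, d, q.1), ?_, h1.tail s1⟩
      rw [Prod.mk.injEq] at h3
      exact Prod.ext h3.2.symm h3.1.symm
    · refine ⟨(d, q.1, q.2), ?_, (h1.tail s1).tail s2⟩
      rw [Prod.mk.injEq] at h3
      exact Prod.ext h3.2.symm h3.1.symm

/-! ### the chain exists => the leg ends at `ex k` -/

/-- the walker which enters through the mark `ex (k+1)` keeps the cluster at its right hand -/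
theorem right_hand (hg : Good N) {r : V}
    (hJ : IsJoin N.toTrg N.kl ∅ (N.exS ∪ {e}) J) (hb : e.2 ∉ Ws N.toTrg J r)
    {s q : V × V} (hs : s.2 ∈ Ws N.toTrg J r) (h : Leads N.toTrg ∅ (N.exS ∪ {e}) J s q) :
    q.2 ∈ Ws N.toTrg J r := by
  induction h with
  | refl => exact hs
  | tail h0 hst ih =>
    rename_i p q
    obtain ⟨c, hc, _, _, h2⟩ := hst
    rcases h2 with ⟨g, rfl⟩ | ⟨g, g', rfl⟩
    · exact ih
    · refine Relation.ReflTransGen.tail ih ⟨?_, g', ?_⟩
      · exact (mem_E_of_tri (N.rot hc)).1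
      · intro h3
        by_cases n1 : (p.2, c) ∈ N.exS ∪ {e}
        · exact g' (hJ.mark _ _ n1).1
        · by_cases n2 : (c, p.2) ∈ N.exS ∪ {e}
          · rcases n2 with ⟨j, hj⟩ | n2
            · apply hg.bd j p.1
              rw [hj]
              exact N.rot hc
            · rw [Set.mem_singleton_iff] at n2
              apply hb
              rw [← n2]
              exact ih
          · exact g' ((hJ.sym _ _ n1 n2).2 h3)

theorem sk_ek (hg : Good N)
    (he : e ∉ N.exS) (hJ : IsJoin N.toTrg N.kl ∅ (N.exS ∪ {e}) J) {c : V}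
    (h : Chn N.toTrg (klE N e) (Ws N.toTrg J (N.ex (k + 1)).2) (N.ex k) (e.1, e.2, c)) :
    Leads N.toTrg ∅ (N.exS ∪ {e}) J e ((N.ex k).2, (N.ex k).1) := by
  set D := N.exS ∪ {e} with hD
  set r := (N.ex (k + 1)).2 with hr
  have heD : e ∈ D := Or.inr rfl
  have hxD : ∀ j, N.ex j ∈ D := fun j => Or.inl ⟨j, rfl⟩
  have hmJ : ∀ x ∈ D, x ∈ J := fun x hx => (hJ.mark _ _ hx).1
  obtain ⟨hT, hF, t', ht', hch⟩ := h
  have ha : e.1 ∉ Ws N.toTrg J r := hF.1
  have hb : e.2 ∉ Ws N.toTrg J r := hF.2.1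
  have hF' : Free (Ws N.toTrg J r) t' := by
    rcases Relation.ReflTransGen.cases_tail hch with h | ⟨s, _, h⟩
    · rw [h]; exact hF
    · exact h.2.1
  have hx1 : (N.ex k).1 ∉ Ws N.toTrg J r := by
    rw [← ht']
    exact hF'.1
  have hidx : ∀ j : ZMod 3, j = k ∨ j = k + 1 ∨ j = k + 2 := z3_idx k
  -- the leg from `ex (k+1)`
  have hpair : Leads N.toTrg ∅ D J (N.ex (k + 1)) ((N.ex (k + 2)).2, (N.ex (k + 2)).1) := by
    obtain ⟨x, hx, hxt⟩ := exists_end hJ rotInv_empty (hmJ _ (hxD (k + 1)))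
      (fun p _ => mark_pre hJ (hxD (k + 1)) p)
    have h2 : x.2 ∈ Ws N.toTrg J r :=
      right_hand hg hJ hb (s := N.ex (k + 1)) Relation.ReflTransGen.refl hx
    rcases hxt with (⟨j, hj⟩ | h) | ⟨_, c, _, hc⟩
    · rcases hidx j with rfl | rfl | rfl
      · exfalso
        apply hx1
        rw [hj]
        exact h2
      · exfalso
        have h3 : x = ((N.ex (k + 1)).2, (N.ex (k + 1)).1) := by rw [hj]
        rw [h3] at hx
        exact not_leads_swap hJ rotInv_empty (hmJ _ (hxD (k + 1))) hx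
      · rw [hj]
        exact hx
    · exfalso
      rw [Set.mem_singleton_iff] at h
      apply ha
      rw [← h]
      exact h2
    · exact absurd hc (Set.notMem_empty _)
  have hJe : IsJoin N.toTrg N.kl ∅ (N.exS ∪ {(e.1, e.2)}) J := hJ
  obtain ⟨j, hj⟩ := exists_ends hJe
  change Leads N.toTrg ∅ D J e ((N.ex j).2, (N.ex j).1) at hj
  have key : ∀ i l : ZMod 3, Leads N.toTrg ∅ D J (N.ex i) ((N.ex l).2, (N.ex l).1) →
      ¬ Leads N.toTrg ∅ D J e ((N.ex i).2, (N.ex i).1) := by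
    intro i l h1 h2
    have h3 := leads_rev hJ rotInv_empty (hmJ _ heD) h2
    have t1 : Term N.toTrg ∅ D J ((N.ex l).2, (N.ex l).1) := Or.inl (hxD l)
    have t2 : Term N.toTrg ∅ D J (e.2, e.1) := Or.inl heD
    have h4 := term_unique t1 t2 h1 h3
    rw [Prod.mk.injEq] at h4
    exact he ⟨l, Prod.ext h4.2 h4.1⟩
  rcases hidx j with rfl | rfl | rfl
  · exact hj
  · exact absurd hj (key _ _ hpair)
  · have h5 := leads_rev hJ rotInv_empty (hmJ _ (hxD (k + 1))) hpair
    exact absurd hj (key _ _ h5)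

/-! ### the bijection -/

theorem kill_iff (hD : e ∉ N.exS) (hD' : (e.2, e.1) ∉ N.exS) {D : Set (V × V)}
    (hDs : D ⊆ N.exS) {O : Set (V × V × V)} :
    IsJoin N.toTrg (klE N e) O D J ↔
      IsJoin N.toTrg N.kl O D J ∧ (e.1, e.2) ∉ J ∧ (e.2, e.1) ∉ J := by
  constructor
  · intro h
    refine ⟨⟨h.sub, h.sym, h.mark, h.bdr, ?_, h.par⟩, ?_⟩
    · intro a b g
      exact h.kill a b (mem_klE.2 (Or.inl g))
    · exact h.kill e.1 e.2 (mem_klE.2 (Or.inr (Or.inl rfl))) (fun g => hD (hDs g))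
        (fun g => hD' (hDs g))
  · rintro ⟨h, h1, h2⟩
    refine ⟨h.sub, h.sym, h.mark, h.bdr, ?_, h.par⟩
    intro a b g
    rw [mem_klE] at g
    rcases g with g | g | g
    · exact h.kill a b g
    · rw [Prod.mk.injEq] at g
      obtain ⟨rfl, rfl⟩ := g
      exact fun _ _ => ⟨h1, h2⟩
    · rw [Prod.mk.injEq] at g
      obtain ⟨rfl, rfl⟩ := g
      exact fun _ _ => ⟨h2, h1⟩

/-- the marks `ex (k+1)`, `ex (k+2)` -/
def D2 (N : Net V) (k : ZMod 3) : Set (V × V) := {N.ex (k + 1), N.ex (k + 2)}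

theorem d2_sub (k : ZMod 3) : D2 N k ⊆ N.exS := by
  rintro x (h | h)
  · exact ⟨_, h.symm⟩
  · exact ⟨_, h.symm⟩

/-- the chosen chain join -/
def Lc (N : Net V) (e : V × V) (k : ZMod 3) (W : Set V) : Finset (V × V) :=
  if h : ∃ L : Finset (V × V), IsJoin N.toTrg N.kl ∅ {e, N.ex k} L ∧
    ∀ p ∈ L, p.1 ∉ W ∧ p.2 ∉ W then h.choose else ∅

theorem lc_spec (hg : Good N) (he : e ∉ N.exS) (he' : (e.2, e.1) ∉ N.exS) {c : V} {W : Set V}
    (h : Chn N.toTrg (klE N e) W (N.ex k) (e.1, e.2, c)) :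
    IsJoin N.toTrg N.kl ∅ {e, N.ex k} (Lc N e k W) ∧
      ∀ p ∈ Lc N e k W, p.1 ∉ W ∧ p.2 ∉ W := by
  have hex : ∃ L : Finset (V × V), IsJoin N.toTrg N.kl ∅ {e, N.ex k} L ∧
      ∀ p ∈ L, p.1 ∉ W ∧ p.2 ∉ W := by
    refine chain_join (kl' := klE N e) (fun x hx => mem_klE.2 (Or.inl hx)) ?_
      (mem_klE.2 (Or.inr (Or.inl rfl))) (hg.bd k) ?_ ?_ h
    · intro a b g
      rw [mem_klE] at g ⊢
      rcases g with g | g | g
      · exact Or.inl (N.klsym _ _ g)
      · rw [Prod.mk.injEq] at g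
        exact Or.inr (Or.inr (Prod.ext g.2 g.1))
      · rw [Prod.mk.injEq] at g
        exact Or.inr (Or.inl (Prod.ext g.2 g.1))
    · intro g
      exact he ⟨k, g⟩
    · intro g
      exact he' ⟨k, g⟩
  unfold Lc
  rw [dif_pos hex]
  exact hex.choose_spec

theorem exS_eq (k : ZMod 3) : N.exS = {N.ex k, N.ex (k + 1), N.ex (k + 2)} := by
  ext x
  constructor
  · rintro ⟨j, rfl⟩
    rcases z3_idx k j with rfl | rfl | rfl <;> simp
  · rintro (h | h | h)
    · exact ⟨_, h.symm⟩
    · exact ⟨_, h.symm⟩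
    · exact ⟨_, h.symm⟩

theorem sd_marks (hg : Good N) (he : e ∉ N.exS) (k : ZMod 3) :
    symmDiff (N.exS ∪ {e}) ({e, N.ex k} : Set (V × V)) = D2 N k ∧
      symmDiff (D2 N k) ({e, N.ex k} : Set (V × V)) = N.exS ∪ {e} := by
  have n1 : N.ex (k + 1) ≠ N.ex k := fun h => z3_ne1 k (hg.inj h)
  have n2 : N.ex (k + 2) ≠ N.ex k := fun h => z3_ne2 k (hg.inj h)
  have m0 : N.ex k ≠ e := fun h => he ⟨_, h⟩
  have m1 : N.ex (k + 1) ≠ e := fun h => he ⟨_, h⟩
  have m2 : N.ex (k + 2) ≠ e := fun h => he ⟨_, h⟩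
  have h1 : symmDiff (N.exS ∪ {e}) ({e, N.ex k} : Set (V × V)) = D2 N k := by
    ext x
    rw [exS_eq k]
    unfold D2
    simp only [Set.mem_symmDiff, Set.mem_union, Set.mem_insert_iff, Set.mem_singleton_iff]
    constructor
    · tauto
    · rintro (rfl | rfl) <;> tauto
  refine ⟨h1, ?_⟩
  rw [← h1, symmDiff_assoc, symmDiff_self, symmDiff_bot]

theorem fwd (hg : Good N) (he : e ∉ N.exS) (he' : (e.2, e.1) ∉ N.exS) {r c : V}
    (hJ : IsJoin N.toTrg N.kl ∅ (N.exS ∪ {e}) J)
    (h : Chn N.toTrg (klE N e) (Ws N.toTrg J r) (N.ex k) (e.1, e.2, c)) :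
    IsJoin N.toTrg (klE N e) ∅ (D2 N k)
        (symmDiff J (Lc N e k (Ws N.toTrg J r))) ∧
      Ws N.toTrg (symmDiff J (Lc N e k (Ws N.toTrg J r))) r = Ws N.toTrg J r := by
  obtain ⟨hL, hLW⟩ := lc_spec hg he he' h
  set L := Lc N e k (Ws N.toTrg J r)
  refine ⟨?_, ws_xor hLW⟩
  rw [kill_iff he he' (d2_sub k)]
  have hx := xor_marks hJ hL ?_ ?_
  · rw [(sd_marks hg he k).1] at hx
    have e1 : symmDiff (∅ : Set (V × V × V)) ∅ = ∅ := symmDiff_self _
    rw [e1] at hx
    refine ⟨hx, ?_⟩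
    have g1 := hJ.mark e.1 e.2 (Or.inr rfl)
    have g2 := hL.mark e.1 e.2 (Or.inl rfl)
    rw [Finset.mem_symmDiff, Finset.mem_symmDiff]
    tauto
  · intro a b g g'
    have : (a, b) ∈ N.exS := by
      rcases g with g | g
      · exact g
      · exact absurd (Or.inl g) g'
    obtain ⟨j, hj⟩ := this
    refine hL.bdr a b ?_ g'
    intro c hc
    apply hg.bd j c
    rw [hj]
    exact hc
  · intro a b g g'
    exfalso
    apply g'
    rcases g with g | g
    · exact Or.inr g
    · exact Or.inl ⟨k, g.symm⟩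

theorem bwd (hg : Good N) (he : e ∉ N.exS) (he' : (e.2, e.1) ∉ N.exS) {r c : V}
    (hJ : IsJoin N.toTrg (klE N e) ∅ (D2 N k) J)
    (h : Chn N.toTrg (klE N e) (Ws N.toTrg J r) (N.ex k) (e.1, e.2, c)) :
    IsJoin N.toTrg N.kl ∅ (N.exS ∪ {e})
        (symmDiff J (Lc N e k (Ws N.toTrg J r))) ∧
      Ws N.toTrg (symmDiff J (Lc N e k (Ws N.toTrg J r))) r = Ws N.toTrg J r := by
  obtain ⟨hL, hLW⟩ := lc_spec hg he he' h
  set L := Lc N e k (Ws N.toTrg J r)
  refine ⟨?_, ws_xor hLW⟩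
  rw [kill_iff he he' (d2_sub k)] at hJ
  obtain ⟨hJ, hJ1, hJ2⟩ := hJ
  have hx := xor_marks hJ hL ?_ ?_
  · rw [(sd_marks hg he k).2] at hx
    have e1 : symmDiff (∅ : Set (V × V × V)) ∅ = ∅ := symmDiff_self _
    rw [e1] at hx
    exact hx
  · intro a b g g'
    obtain ⟨j, hj⟩ := d2_sub k g
    refine hL.bdr a b ?_ g'
    intro c hc
    apply hg.bd j c
    rw [hj]
    exact hc
  · intro a b g g'
    rcases g with g | g
    · have ea : a = e.1 := congrArg Prod.fst g
      have eb : b = e.2 := congrArg Prod.snd g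
      rw [ea, eb]
      exact ⟨hJ1, hJ2⟩
    · refine hJ.bdr a b ?_ g'
      intro c hc
      apply hg.bd k c
      have ea : a = (N.ex k).1 := congrArg Prod.fst g
      have eb : b = (N.ex k).2 := congrArg Prod.snd g
      rw [← ea, ← eb]
      exact hc

/-- **the exact identity for joins** -/
theorem card_ek (hg : Good N) (hM : Sidesx697.Marks3 N) (hC : Sidesx697.HasCol N)
    (he : e ∉ N.exS) (he' : (e.2, e.1) ∉ N.exS) {c : V} (hc : (e.1, e.2, c) ∈ N.T) :
    ((joins N.toTrg N.kl ∅ (N.exS ∪ {e})).filter fun J =>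
        Leads N.toTrg ∅ (N.exS ∪ {e}) J e ((N.ex k).2, (N.ex k).1)).card =
      ((joins N.toTrg (klE N e) ∅ (D2 N k)).filter fun J =>
        Chn N.toTrg (klE N e) (Ws N.toTrg J (N.ex (k + 1)).2) (N.ex k) (e.1, e.2, c)).card := by
  set r := (N.ex (k + 1)).2 with hr
  let F : Finset (V × V) → Finset (V × V) := fun J =>
    symmDiff J (Lc N e k (Ws N.toTrg J r))
  refine Finset.card_bij' (fun J _ => F J) (fun J _ => F J) ?_ ?_ ?_ ?_
  · intro J hJ
    rw [Finset.mem_filter, mem_joins] at hJ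
    have h1 := ek_sk hg hM hC he he' hJ.1 hJ.2 hc
    have h2 := fwd hg he he' hJ.1 h1
    rw [Finset.mem_filter, mem_joins]
    refine ⟨h2.1, ?_⟩
    change Chn N.toTrg (klE N e) (Ws N.toTrg (symmDiff J _) r) (N.ex k) (e.1, e.2, c)
    rw [h2.2]
    exact h1
  · intro J hJ
    rw [Finset.mem_filter, mem_joins] at hJ
    have h2 := bwd hg he he' hJ.1 hJ.2
    rw [Finset.mem_filter, mem_joins]
    refine ⟨h2.1, sk_ek hg he h2.1 (c := c) ?_⟩
    change Chn N.toTrg (klE N e) (Ws N.toTrg (symmDiff J _) r) (N.ex k) (e.1, e.2, c)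
    rw [h2.2]
    exact hJ.2
  · intro J hJ
    rw [Finset.mem_filter, mem_joins] at hJ
    have h1 := ek_sk hg hM hC he he' hJ.1 hJ.2 hc
    have h2 := fwd hg he he' hJ.1 h1
    change symmDiff (symmDiff J _) (Lc N e k (Ws N.toTrg (symmDiff J _) r)) = J
    rw [h2.2]
    exact symmDiff_symmDiff_cancel _ _
  · intro J hJ
    rw [Finset.mem_filter, mem_joins] at hJ
    have h2 := bwd hg he he' hJ.1 hJ.2
    change symmDiff (symmDiff J _) (Lc N e k (Ws N.toTrg (symmDiff J _) r)) = J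
    rw [h2.2]
    exact symmDiff_symmDiff_cancel _ _

/-- the normalisations agree -/
theorem card_norm (hg : Good N) (he : e ∉ N.exS) (he' : (e.2, e.1) ∉ N.exS)
    (h1 : (joins N.toTrg N.kl ∅ (N.exS ∪ {e})).Nonempty)
    (h2 : (joins N.toTrg (klE N e) ∅ (D2 N k)).Nonempty) :
    (joins N.toTrg N.kl ∅ (N.exS ∪ {e})).card = (joins N.toTrg (klE N e) ∅ (D2 N k)).card := by
  rw [card_joins h1, card_joins h2]
  congr 1
  ext J
  rw [Finset.mem_filter, Finset.mem_filter, mem_joins, mem_joins,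
    kill_iff he he' (Set.empty_subset _)]
  constructor
  · rintro ⟨hJ, h⟩
    have g1 : (e.1, e.2) ∉ J := h e (Or.inr rfl)
    have g2 : (e.2, e.1) ∉ J := fun g => g1 ((hJ.sym _ _ (by simp) (by simp)).2 g)
    exact ⟨⟨hJ, g1, g2⟩, fun x hx => h x (Or.inl (d2_sub k hx))⟩
  · rintro ⟨⟨hJ, g1, g2⟩, h⟩
    refine ⟨hJ, ?_⟩
    rintro x (⟨j, rfl⟩ | hx)
    · exact avoid_bdry hJ _ _ (hg.bd j)
    · rw [Set.mem_singleton_iff] at hx
      rw [hx]
      exact g1

end ek

/-! ### colourings -/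

section col

open Crest.Agent.R143.JColx54 Crest.Agent.R143.JCol2x54

variable {S : Finset ℂ} {N : Net ℂ} {e : ℂ × ℂ} {k : ZMod 3}

theorem d2_hull (h : HNet S N) : ∀ a b, (a, b) ∈ D2 N k → hullE S a b := by
  rintro a b (g | g)
  · have h1 := h.hex (k + 1)
    rw [← g] at h1
    exact h1
  · have h1 := h.hex (k + 2)
    have g' : (a, b) = N.ex (k + 2) := g
    rw [← g'] at h1
    exact h1

theorem klE_symm {V : Type} {N : Net V} {e : V × V} (a b : V) (g : (a, b) ∈ klE N e) :
    (b, a) ∈ klE N e := by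
  rw [mem_klE] at g ⊢
  rcases g with g | g | g
  · exact Or.inl (N.klsym _ _ g)
  · rw [Prod.mk.injEq] at g
    exact Or.inr (Or.inr (Prod.ext g.2 g.1))
  · rw [Prod.mk.injEq] at g
    exact Or.inr (Or.inl (Prod.ext g.2 g.1))

theorem col_iff (h : HNet S N) {σ : ℂ → Bool} {u v : ℂ} (huv : (u, v) ∈ N.E) :
    σ u ≠ σ v ↔ ((u, v) ∈ colJ N.toTrg (D2 N k) σ ∨ (v, u) ∈ colJ N.toTrg (D2 N k) σ) := by
  have hA : Adj S u v := (mem_E h.tri).1 huv
  have hvu : (v, u) ∈ N.E := (mem_E h.tri).2 hA.symm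
  unfold colJ
  rw [Finset.mem_filter, Finset.mem_filter]
  constructor
  · intro hne
    by_cases h1 : (v, u) ∈ D2 N k
    · right
      refine ⟨hvu, hne.symm, ?_⟩
      intro h2
      obtain ⟨⟨c, hc⟩, -⟩ := d2_hull h _ _ h2
      exact (d2_hull h _ _ h1).2 c hc
    · exact Or.inl ⟨huv, hne, h1⟩
  · rintro (⟨_, h1, _⟩ | ⟨_, h1, _⟩)
    · exact h1
    · exact h1.symm

/-- admissible sets of white sites = valid colourings with `(ex (k+1)).2` white -/
theorem wh_iff (h : HNet S N) (he : e ∉ N.exS) (he' : (e.2, e.1) ∉ N.exS) (w : Finset ℂ) :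
    Wh (killE N e.1 e.2) k (w : Set ℂ) ↔
      IsCol S (klE N e) (D2 N k) (fun s => decide (s ∈ w)) ∧ (N.ex (k + 1)).2 ∈ w := by
  have hD2 : ∀ x, x ∉ D2 N k → x ≠ N.ex (k + 1) ∧ x ≠ N.ex (k + 2) := by
    intro x hx
    exact ⟨fun g => hx (Or.inl g), fun g => hx (Or.inr g)⟩
  constructor
  · intro hw
    have m1 : (N.ex (k + 1)).1 ∉ (w : Set ℂ) ∧ (N.ex (k + 1)).2 ∈ (w : Set ℂ) := hw.m1
    have m2 : (N.ex (k + 2)).1 ∈ (w : Set ℂ) ∧ (N.ex (k + 2)).2 ∉ (w : Set ℂ) := hw.m2
    simp only [Finset.mem_coe] at m1 m2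
    refine ⟨⟨?_, ?_, ?_⟩, m1.2⟩
    · intro a b hab g1 g2 g3
      have := hw.kill a b ((mem_E h.tri).2 hab) g1 (hD2 _ g2).1 (hD2 _ g2).2 (hD2 _ g3).1
        (hD2 _ g3).2
      simp only [Finset.mem_coe] at this
      simp only [this]
    · rintro a b ⟨⟨c, hc⟩, hn⟩ g2
      have := hw.hull a b c (by change (a, b, c) ∈ N.T; rw [h.tri]; exact hc)
        (by intro d; change (b, a, d) ∉ N.T; rw [h.tri]; exact hn d) (hD2 _ g2).1 (hD2 _ g2).2
      simp only [Finset.mem_coe] at this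
      simp only [this]
    · rintro a b (g | g)
      · have ea : a = (N.ex (k + 1)).1 := congrArg Prod.fst g
        have eb : b = (N.ex (k + 1)).2 := congrArg Prod.snd g
        rw [ea, eb]
        simp [m1]
      · have ea : a = (N.ex (k + 2)).1 := congrArg Prod.fst g
        have eb : b = (N.ex (k + 2)).2 := congrArg Prod.snd g
        rw [ea, eb]
        simp [m2]
  · rintro ⟨hσ, hr⟩
    have hJ := colJ_isJoin h.gp h.tri (d2_hull h) (fun a b => klE_symm a b) hσ
    have hJ' := ((kill_iff he he' (d2_sub k)).1 hJ).1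
    have hc : Sidesx697.IsCol N.toTrg (colJ N.toTrg (D2 N k) fun s => decide (s ∈ w))
        (fun s => decide (s ∈ w)) :=
      fun u v huv => col_iff (k := k) (σ := fun s => decide (s ∈ w)) h huv
    have hs := Sidesx697.col_side hJ' (d2_sub k) hc ((Sidesx697.marks3_of h).next (k + 1))
    have ek : k + 1 + 1 = k + 2 := by ring
    rw [ek] at hs
    have m1 := hσ.mark _ _ (Or.inl rfl : ((N.ex (k + 1)).1, (N.ex (k + 1)).2) ∈ D2 N k)
    have m2 := hσ.mark _ _ (Or.inr rfl : ((N.ex (k + 2)).1, (N.ex (k + 2)).2) ∈ D2 N k)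
    simp only [hr, decide_true, decide_eq_true_eq] at hs
    refine ⟨?_, ?_, ?_, ?_⟩
    · intro a b g0 g1 g2 g3 g4 g5
      have h1 : (a, b) ∉ D2 N k := by
        rintro (g | g)
        · exact g2 g
        · exact g3 g
      have h2 : (b, a) ∉ D2 N k := by
        rintro (g | g)
        · exact g4 g
        · exact g5 g
      have := hσ.kill a b ((mem_E h.tri).1 g0) g1 h1 h2
      simp only [decide_eq_decide] at this
      simp only [Finset.mem_coe]
      exact this
    · intro a b c g0 g1 g2 g3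
      have h1 : (a, b) ∉ D2 N k := by
        rintro (g | g)
        · exact g2 g
        · exact g3 g
      have g0' : (a, b, c) ∈ delT S := by rw [← h.tri]; exact g0
      have g1' : ∀ d, (b, a, d) ∉ delT S := by intro d; rw [← h.tri]; exact g1 d
      have := hσ.hull a b ⟨⟨c, g0'⟩, g1'⟩ h1
      simp only [decide_eq_decide] at this
      simp only [Finset.mem_coe]
      exact this
    · change (N.ex (k + 1)).1 ∉ (w : Set ℂ) ∧ (N.ex (k + 1)).2 ∈ (w : Set ℂ)
      simp only [Finset.mem_coe]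
      refine ⟨fun g => m1 ?_, hr⟩
      simp [g, hr]
    · change (N.ex (k + 2)).1 ∈ (w : Set ℂ) ∧ (N.ex (k + 2)).2 ∉ (w : Set ℂ)
      simp only [Finset.mem_coe]
      refine ⟨hs, fun g => m2 ?_⟩
      simp [g, hs]

/-- the white cluster is the cluster of the join -/
theorem cl_eq (h : HNet S N) {w : Finset ℂ} {r : ℂ} (hr : r ∈ w) :
    Cl N.toTrg (w : Set ℂ) r = Ws N.toTrg (setJ N.toTrg (D2 N k) w) r := by
  have key : ∀ x y, Nb N.toTrg x y → (((x ∈ w) ↔ (y ∈ w)) ↔
      ((x, y) ∉ setJ N.toTrg (D2 N k) w ∧ (y, x) ∉ setJ N.toTrg (D2 N k) w)) := by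
    intro x y hxy
    have h1 := col_iff (k := k) h (σ := fun s => decide (s ∈ w)) hxy
    have h2 : (decide (x ∈ w) ≠ decide (y ∈ w)) ↔ ¬ ((x ∈ w) ↔ (y ∈ w)) := by
      rw [ne_eq, decide_eq_decide]
    unfold setJ
    rw [h2] at h1
    tauto
  ext v
  constructor
  · rintro ⟨_, hv⟩
    have : v ∈ Ws N.toTrg (setJ N.toTrg (D2 N k) w) r ∧ v ∈ w := by
      induction hv with
      | refl => exact ⟨Relation.ReflTransGen.refl, hr⟩
      | tail h0 hs ih =>
        rename_i x y
        have hy : y ∈ w := hs.2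
        have h1 := (key x y hs.1).1 ⟨fun _ => hy, fun _ => ih.2⟩
        exact ⟨Relation.ReflTransGen.tail ih.1 ⟨hs.1, h1.1, h1.2⟩, hy⟩
    exact this.1
  · intro hv
    change Relation.ReflTransGen _ _ _ at hv
    have : Relation.ReflTransGen (fun x y => Nb N.toTrg x y ∧ y ∈ (w : Set ℂ)) r v ∧ v ∈ w := by
      induction hv with
      | refl => exact ⟨Relation.ReflTransGen.refl, hr⟩
      | tail h0 hs ih =>
        rename_i x y
        have h1 := (key x y hs.1).2 hs.2
        have hy : y ∈ w := h1.1 ih.2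
        exact ⟨Relation.ReflTransGen.tail ih.1 ⟨hs.1, hy⟩, hy⟩
    exact ⟨hr, this.1⟩

/-- **colourings and joins** -/
theorem card_wh (h : HNet S N) (he : e ∉ N.exS) (he' : (e.2, e.1) ∉ N.exS)
    (P : Finset (ℂ × ℂ) → Prop) :
    ((whs (killE N e.1 e.2) S k).filter fun w => P (setJ N.toTrg (D2 N k) w)).card =
      ((joins N.toTrg (klE N e) ∅ (D2 N k)).filter P).card := by
  have hmem : ∀ w : Finset ℂ, w ∈ whs (killE N e.1 e.2) S k ↔
      (w ∈ cols S (klE N e) (D2 N k) ∧ (N.ex (k + 1)).2 ∈ w) := by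
    intro w
    unfold whs cols
    rw [Finset.mem_filter, Finset.mem_filter, wh_iff h he he']
    tauto
  refine Finset.card_bij (fun w _ => setJ N.toTrg (D2 N k) w) ?_ ?_ ?_
  · intro w hw
    rw [Finset.mem_filter, hmem] at hw
    rw [Finset.mem_filter]
    exact ⟨setJ_mem h.gp h.tri (d2_hull h) (fun a b => klE_symm a b) hw.1.1, hw.2⟩
  · intro w hw w' hw' heq
    rw [Finset.mem_filter, hmem] at hw hw'
    rcases fibre h.gp (Sidesx697.card3 h) h.tri (d2_hull h) hw.1.1 hw'.1.1 heq with g | g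
    · exact g.symm
    · exfalso
      have h1 := hw'.1.2
      rw [g, Finset.mem_sdiff] at h1
      exact h1.2 hw.1.2
  · intro J hJ
    rw [Finset.mem_filter] at hJ
    obtain ⟨σ, hσ, hJσ⟩ :=
      (mem_joins_iff h.gp h.tri (d2_hull h) (fun a b => klE_symm a b)).1 hJ.1
    set B : Finset ℂ := S.filter fun s => σ s = true with hB
    have hBσ : ∀ s ∈ S, σ s = decide (s ∈ B) := by
      intro s hs
      rw [hB]
      simp [Finset.mem_filter, hs]
    have hBc : B ∈ cols S (klE N e) (D2 N k) := by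
      unfold cols
      rw [Finset.mem_filter, Finset.mem_powerset]
      exact ⟨Finset.filter_subset _ _, isCol_congr (d2_hull h) hBσ hσ⟩
    have hBJ : setJ N.toTrg (D2 N k) B = J := by
      rw [hJσ]
      exact (colJ_congr h.tri hBσ).symm
    have hrS : (N.ex (k + 1)).2 ∈ S := (DelRx806.hullE.mem (h.hex (k + 1))).2
    by_cases hr : (N.ex (k + 1)).2 ∈ B
    · refine ⟨B, ?_, hBJ⟩
      rw [Finset.mem_filter, hmem]
      exact ⟨⟨hBc, hr⟩, by rw [hBJ]; exact hJ.2⟩
    · refine ⟨S \ B, ?_, by rw [setJ_compl h.tri, hBJ]⟩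
      rw [Finset.mem_filter, hmem]
      exact ⟨⟨compl_mem_cols (d2_hull h) hBc, Finset.mem_sdiff.2 ⟨hrS, hr⟩⟩,
        by rw [setJ_compl h.tri, hBJ]; exact hJ.2⟩

/-- the elaborator inserts a monadic coercion `Finset (Finset ℂ) → Finset (Set ℂ)` in the statements
of `Y0_831`; it does not change the cardinality -/
theorem card_coe (s : Finset (Finset ℂ)) (P : Set ℂ → Prop) :
    (Finset.filter P (do let a ← s; pure (a : Set ℂ))).card =
      (Finset.filter (fun w : Finset ℂ => P (w : Set ℂ)) s).card := by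
  have h1 : (do let a ← s; pure (a : Set ℂ)) = s.image (fun a : Finset ℂ => (a : Set ℂ)) := by
    have h2 : (do let a ← s; pure (a : Set ℂ)) = (fun a : Finset ℂ => (a : Set ℂ)) <$> s :=
      bind_pure_comp _ _
    rw [h2]
    exact Finset.fmap_def _
  rw [h1, Finset.filter_image, Finset.card_image_of_injective _ Finset.coe_injective]

theorem card_ss (h : HNet S N) (he : e ∉ N.exS) (he' : (e.2, e.1) ∉ N.exS) (t : ℂ × ℂ × ℂ) :
    ((whs (killE N e.1 e.2) S k).filter fun w : Finset ℂ =>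
        SS (killE N e.1 e.2) k (w : Set ℂ) t).card =
      ((joins N.toTrg (klE N e) ∅ (D2 N k)).filter fun J =>
        Chn N.toTrg (klE N e) (Ws N.toTrg J (N.ex (k + 1)).2) (N.ex k) t).card := by
  rw [← card_wh h he he']
  have key : ∀ w ∈ whs (killE N e.1 e.2) S k, (SS (killE N e.1 e.2) k (w : Set ℂ) t ↔
      Chn N.toTrg (klE N e) (Ws N.toTrg (setJ N.toTrg (D2 N k) w) (N.ex (k + 1)).2)
        (N.ex k) t) := by
    intro w hw
    have hr : (N.ex (k + 1)).2 ∈ w := ((wh_iff h he he' w).1 (Finset.mem_filter.1 hw).2).2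
    rw [← cl_eq (k := k) h hr]
    exact Iff.rfl
  rw [Finset.filter_congr key]

/-- Y3 in terms of cardinalities of sets of `Finset ℂ` -/
theorem y3_card (h : HNet S N) (he : e ∉ N.exS) (he' : (e.2, e.1) ∉ N.exS) {c : ℂ}
    (hc : (e.1, e.2, c) ∈ N.T) :
    ((joins N.toTrg N.kl ∅ (N.exS ∪ {e})).filter fun J =>
        Leads N.toTrg ∅ (N.exS ∪ {e}) J e ((N.ex k).2, (N.ex k).1)).card =
      ((whs (killE N e.1 e.2) S k).filter fun w : Finset ℂ =>
        SS (killE N e.1 e.2) k (w : Set ℂ) (e.1, e.2, c)).card := by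
  rw [card_ss h he he', card_ek (good_of_hnet h) (Sidesx697.marks3_of h) (Sidesx697.hasCol h)
    he he' hc]

/-- **leaf Y3** -/
theorem y3 : Y3 := by
  intro S N h a b c habc _ _ hab hba k
  have hg := good_of_hnet h
  have hM := Sidesx697.marks3_of h
  have hC := Sidesx697.hasCol h
  have hc : (a, b, c) ∈ N.T := by rw [h.tri]; exact habc
  have hA : N.cnt a b k = _ := card_ek (e := (a, b)) (k := k) hg hM hC hab hba hc
  have hB := card_ss (e := (a, b)) (k := k) h hab hba (a, b, c)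
  have hW := card_wh (e := (a, b)) (k := k) h hab hba (fun _ => True)
  simp only [Finset.filter_true] at hW
  simp only at hA hB hW
  rw [← hB] at hA
  rw [card_coe (whs (killE N a b) S k) (fun w => SS (killE N a b) k w (a, b, c))]
  by_cases h0 : N.cnt a b k = 0
  · rw [← hA, h0]
    simp
  · have h1 : (N.hj a b).Nonempty := by
      unfold Net.cnt at h0
      rw [Finset.card_eq_zero, ← ne_eq, ← Finset.nonempty_iff_ne_empty] at h0
      exact h0.mono (Finset.filter_subset _ _)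
    have h2 : (joins N.toTrg (klE N (a, b)) ∅ (D2 N k)).Nonempty := by
      rw [hA, hB, Finset.card_eq_zero, ← ne_eq, ← Finset.nonempty_iff_ne_empty] at h0
      exact h0.mono (Finset.filter_subset _ _)
    have h3 : (N.hj a b).card = _ := card_norm (e := (a, b)) (k := k) hg hab hba h1 h2
    rw [h3, ← hA, hW]

end col

end Crest.Agent.R143.Y3x877
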