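import Crest.Agent.R143.Var2_831
import Mathlib

/-!
# R143 (helper831, Y2): quenched differences with the SUM = 1 trick, complex Efron-Stein
-/

set_option autoImplicit false
set_option linter.unusedSectionVars false

noncomputable section

namespace Crest.Agent.R143.Var3x831

open MeasureTheory Set Function
open Crest.Agent.R151.V
open Crest.Agent.R143.ESx831 Crest.Agent.R143.Revx831 Crest.Agent.R143.Lawx831
open Crest.Agent.R143.Varx831
open scoped ENNReal

section quenched

variable {I : Type*} [DecidableEq I]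

/-- average over the colours -/
def av (φ : (I → unitInterval) → ℝ) : ℝ := ∫ c, φ c ∂(cl I)

/-- level-one coefficient -/
def lv (φ : (I → unitInterval) → ℝ) (i : I) : ℝ := ∫ c, φ c * half (c i) ∂(cl I)

/-- nice functionals on the set `T` of colours -/
structure Nice (φ : (I → unitInterval) → ℝ) (T : Finset I) : Prop where
  meas : Measurable φ
  nonneg : ∀ c, 0 ≤ φ c
  le_one : ∀ c, φ c ≤ 1
  col : ∀ i ∈ T, ColDep φ i
  mono : ∀ i ∈ T, ∀ c, φ (update c i 1) ≤ φ (update c i 0)

variable {φ ψ : (I → unitInterval) → ℝ} {T : Finset I}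

lemma Nice.abs_le (h : Nice φ T) (c : I → unitInterval) : |φ c| ≤ 1 := by
  rw [abs_of_nonneg (h.nonneg c)]; exact h.le_one c

lemma Nice.mono_set (h : Nice φ T) {T' : Finset I} (hT : T' ⊆ T) : Nice φ T' :=
  ⟨h.meas, h.nonneg, h.le_one, fun i hi => h.col i (hT hi), fun i hi => h.mono i (hT hi)⟩

lemma Nice.int (h : Nice φ T) {g : (I → unitInterval) → (I → unitInterval)} (hg : Measurable g) :
    Integrable (fun c => φ (g c)) (cl I) :=
  integrable_of_bound _ (h.meas.comp hg) (fun _ => h.abs_le _)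

lemma Nice.lv_nonneg (h : Nice φ T) {i : I} (hi : i ∈ T) : 0 ≤ lv φ i := by
  unfold lv
  rw [int_half h.meas (fun c => h.abs_le _) (h.col i hi)]
  exact div_nonneg (integral_nonneg fun c => sub_nonneg.2 (h.mono i hi c)) (by norm_num)

/-- `setc T 1 c ≤ c ≤ setc T 0 c` -/
lemma Nice.lo_hi (h : Nice φ T) : ∀ (T' : Finset I), T' ⊆ T → ∀ c : I → unitInterval,
    φ (setc T' 1 c) ≤ φ c ∧ φ c ≤ φ (setc T' 0 c) := by
  intro T'
  induction T' using Finset.induction_on with
  | empty => intro _ c; simp [setc_empty]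
  | insert i T' hi ih =>
      intro hT c
      rw [setc_insert, setc_insert]
      have hiT : i ∈ T := hT (Finset.mem_insert_self i T')
      have h1 : ∀ c : I → unitInterval, φ (update c i 1) ≤ φ c ∧ φ c ≤ φ (update c i 0) := by
        intro c
        have e0 : c = update c i (c i) := (update_eq_self i c).symm
        by_cases hc : ((c i : unitInterval) : ℝ) < 1 / 2
        · have e1 : φ c = φ (update c i 0) := by
            conv_lhs => rw [e0]
            exact h.col i hiT c (c i) 0 ⟨fun _ => by norm_num, fun _ => hc⟩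
          exact ⟨e1 ▸ h.mono i hiT c, e1.le⟩
        · have e1 : φ c = φ (update c i 1) := by
            conv_lhs => rw [e0]
            exact h.col i hiT c (c i) 1 ⟨fun h' => absurd h' hc, fun h' => by norm_num at h'⟩
          exact ⟨e1.ge, e1 ▸ h.mono i hiT c⟩
      have h2 := ih ((Finset.subset_insert i T').trans hT) c
      exact ⟨((h1 (setc T' 1 c)).1).trans h2.1, h2.2.trans (h1 (setc T' 0 c)).2⟩

/-- lower deletion bound -/
theorem av_lower (h : Nice φ T) (hψ : Nice ψ ∅) (hlo : ∀ c, φ (setc T 1 c) ≤ ψ c) :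
    av φ - 2 ^ T.card * ∑ i ∈ T, lv φ i ≤ av ψ := by
  have h1 := telescope (C := 1) T (φ := φ) h.meas (fun c => h.abs_le _) h.col h.mono
  have m0 := measurable_setc (I := I) T 0
  have m1 := measurable_setc (I := I) T 1
  rw [integral_sub (h.int m0) (h.int m1)] at h1
  have a2 : av φ ≤ ∫ c, φ (setc T 0 c) ∂(cl I) :=
    integral_mono (h.int measurable_id) (h.int m0) (fun c => (h.lo_hi T subset_rfl c).2)
  have a3 : ∫ c, φ (setc T 1 c) ∂(cl I) ≤ av ψ :=
    integral_mono (h.int m1) (hψ.int measurable_id) hlo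
  unfold lv
  linarith

/-- **SUM = 1 trick** -/
theorem av_diff {F G : ZMod 3 → (I → unitInterval) → ℝ} (h : ∀ k, Nice (F k) T)
    (hG : ∀ k, Nice (G k) ∅) (hlo : ∀ k c, F k (setc T 1 c) ≤ G k c)
    (hF1 : ∑ k, av (F k) = 1) (hG1 : ∑ k, av (G k) = 1) (k : ZMod 3) :
    |av (F k) - av (G k)| ≤ 2 ^ T.card * ∑ j, ∑ i ∈ T, lv (F j) i := by
  have hl : ∀ j, av (F j) - 2 ^ T.card * ∑ i ∈ T, lv (F j) i ≤ av (G j) := fun j =>
    av_lower (h j) (hG j) (hlo j)
  have hn : ∀ j, 0 ≤ 2 ^ T.card * ∑ i ∈ T, lv (F j) i := fun j =>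
    mul_nonneg (by positivity) (Finset.sum_nonneg fun i hi => (h j).lv_nonneg hi)
  have e3 : ∀ f : ZMod 3 → ℝ, ∑ j, f j = f 0 + f 1 + f 2 := fun f => Fin.sum_univ_three f
  rw [e3] at hF1 hG1
  rw [Finset.mul_sum, e3]
  have l0 := hl 0; have l1 := hl 1; have l2 := hl 2
  have n0 := hn 0; have n1 := hn 1; have n2 := hn 2
  rw [abs_le]
  have hk : k = 0 ∨ k = 1 ∨ k = 2 := by
    fin_cases k
    · left; rfl
    · right; left; rfl
    · right; right; rfl
  rcases hk with rfl | rfl | rfl <;> constructor <;> linarith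

theorem av_diff_sq {F G : ZMod 3 → (I → unitInterval) → ℝ} (h : ∀ k, Nice (F k) T)
    (hG : ∀ k, Nice (G k) ∅) (hlo : ∀ k c, F k (setc T 1 c) ≤ G k c)
    (hF1 : ∑ k, av (F k) = 1) (hG1 : ∑ k, av (G k) = 1) (k : ZMod 3) :
    (av (F k) - av (G k)) ^ 2 ≤ 4 ^ T.card * (3 * T.card) * ∑ j, ∑ i ∈ T, lv (F j) i ^ 2 := by
  have h1 := av_diff h hG hlo hF1 hG1 k
  have h2 : (∑ j : ZMod 3, ∑ i ∈ T, lv (F j) i) ^ 2 ≤
      (3 * T.card) * ∑ j : ZMod 3, ∑ i ∈ T, lv (F j) i ^ 2 := by
    have a1 := sq_sum_le_card_mul_sum_sq (s := (Finset.univ : Finset (ZMod 3)))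
      (f := fun j => ∑ i ∈ T, lv (F j) i)
    have a2 : ∀ j : ZMod 3, (∑ i ∈ T, lv (F j) i) ^ 2 ≤ T.card * ∑ i ∈ T, lv (F j) i ^ 2 :=
      fun j => sq_sum_le_card_mul_sum_sq
    have a3 : ((Finset.univ : Finset (ZMod 3)).card : ℝ) = 3 := by
      rw [Finset.card_univ, ZMod.card]; norm_num
    rw [a3] at a1
    refine a1.trans ?_
    rw [mul_assoc]
    refine mul_le_mul_of_nonneg_left ?_ (by norm_num)
    rw [Finset.mul_sum]
    exact Finset.sum_le_sum fun j _ => a2 j
  calc (av (F k) - av (G k)) ^ 2 = |av (F k) - av (G k)| ^ 2 := (sq_abs _).symm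
    _ ≤ (2 ^ T.card * ∑ j, ∑ i ∈ T, lv (F j) i) ^ 2 := pow_le_pow_left₀ (abs_nonneg _) h1 2
    _ = 4 ^ T.card * (∑ j, ∑ i ∈ T, lv (F j) i) ^ 2 := by
        rw [mul_pow, ← pow_mul, mul_comm T.card 2, pow_mul]; norm_num
    _ ≤ 4 ^ T.card * ((3 * T.card) * ∑ j : ZMod 3, ∑ i ∈ T, lv (F j) i ^ 2) :=
        mul_le_mul_of_nonneg_left h2 (by positivity)
    _ = _ := by ring

/-- a stopping set that determines `φ` -/
structure Stop (φ : (I → unitInterval) → ℝ) (J : (I → unitInterval) → Set I) : Prop where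
  meas : ∀ i, MeasurableSet {c | i ∈ J c}
  stop : ∀ x y : I → unitInterval, (∀ i ∈ J x, x i = y i) → J y = J x
  det : ∀ x y : I → unitInterval, (∀ i ∈ J x, x i = y i) → φ y = φ x

/-- level-one bound -/
theorem sum_lv_sq_le (h : Nice φ ∅) {J : (I → unitInterval) → Set I} (hJ : Stop φ J) {δ : ℝ}
    (hδ : 0 ≤ δ) (W : Finset I) (hW : ∀ i ∈ W, (cl I).real {c | i ∈ J c} ≤ δ) :
    ∑ i ∈ W, lv φ i ^ 2 ≤ δ := by
  have hhalf : ∫ t : unitInterval, half t = 0 := by
    rw [integral_two (g := half)]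
    · rw [half_zero, half_one]; norm_num
    · intro t t' h
      unfold half
      simp only [h]
  have h2 := level_one (X := fun _ : I => unitInterval)
    (fun _ : I => (volume : Measure unitInterval)) (J := J)
    (fun _ => half) (fun _ => measurable_half) (fun _ => abs_half_le) (fun _ => hhalf)
    (f := φ) h.meas (C := 1) (fun c => h.abs_le _) hJ.meas hJ.stop hJ.det W hδ hW
  refine h2.trans ?_
  have h3 : ∫ c, φ c ^ 2 ∂(cl I) ≤ 1 := by
    have h4 : ∫ c, φ c ^ 2 ∂(cl I) ≤ ∫ _c : (I → unitInterval), (1 : ℝ) ∂(cl I) := by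
      apply integral_mono _ (integrable_const 1)
      · intro c
        exact pow_le_one₀ (h.nonneg _) (h.le_one _)
      · refine integrable_of_bound (C := 1) _ (h.meas.pow_const 2) (fun c => ?_)
        rw [abs_pow]
        exact pow_le_one₀ (abs_nonneg _) (h.abs_le _)
    simpa using h4
  calc δ * ∫ c, φ c ^ 2 ∂(Measure.infinitePi fun _ : I => (volume : Measure unitInterval))
      ≤ δ * 1 := mul_le_mul_of_nonneg_left h3 hδ
    _ = δ := mul_one δ

end quenched

/-! ### complex Efron-Stein -/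

section complex

variable {K : Type*} [DecidableEq K] {X : Type*} [MeasurableSpace X] (G : Measure X)
  [IsProbabilityMeasure G]

/-- `∫∫ |g x - g y|²` -/
def cvar {Ω : Type*} [MeasurableSpace Ω] (μ : Measure Ω) (g : Ω → ℂ) : ℝ≥0∞ :=
  ∫⁻ x, ∫⁻ y, ENNReal.ofReal (‖g x - g y‖ ^ 2) ∂μ ∂μ

lemma norm_sq_eq (z : ℂ) : ‖z‖ ^ 2 = z.re ^ 2 + z.im ^ 2 := by
  rw [← Complex.normSq_eq_norm_sq, Complex.normSq_apply]; ring

lemma cvar_eq {Ω : Type*} [MeasurableSpace Ω] (μ : Measure Ω) [SFinite μ] {g : Ω → ℂ}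
    (hg : Measurable g) : cvar μ g = dvar μ (fun x => (g x).re) + dvar μ (fun x => (g x).im) := by
  unfold cvar dvar
  have hre : Measurable (fun x => (g x).re) := Complex.measurable_re.comp hg
  have him : Measurable (fun x => (g x).im) := Complex.measurable_im.comp hg
  have h1 : ∀ x y, ENNReal.ofReal (‖g x - g y‖ ^ 2) =
      ENNReal.ofReal (((g x).re - (g y).re) ^ 2) + ENNReal.ofReal (((g x).im - (g y).im) ^ 2) := by
    intro x y
    rw [← ENNReal.ofReal_add (sq_nonneg _) (sq_nonneg _), norm_sq_eq, Complex.sub_re,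
      Complex.sub_im]
  simp only [h1]
  rw [← lintegral_add_left]
  · apply lintegral_congr
    intro x
    rw [lintegral_add_left]
    exact ((measurable_const.sub hre).pow_const 2).ennreal_ofReal
  · exact Measurable.lintegral_prod_right' (meas_sq hre measurable_fst measurable_snd)

/-- **complex Efron-Stein with deletions**: `g` depends on the coordinates `s` only, `x0` is the
content of a deleted block -/
theorem cvar_le {g : (K → X) → ℂ} (hg : Measurable g) (s : Finset K)
    (hdep : ∀ x y : K → X, (∀ i ∈ s, x i = y i) → g x = g y) (x0 : X) :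
    cvar (Measure.infinitePi fun _ : K => G) g ≤
      4 * ∑ k ∈ s, ∫⁻ p, ENNReal.ofReal (‖g p - g (update p k x0)‖ ^ 2)
        ∂(Measure.infinitePi fun _ : K => G) := by
  set μ := Measure.infinitePi fun _ : K => G with hμ
  have hre : Measurable (fun x => (g x).re) := Complex.measurable_re.comp hg
  have him : Measurable (fun x => (g x).im) := Complex.measurable_im.comp hg
  rw [cvar_eq μ hg]
  have key : ∀ f : (K → X) → ℝ, Measurable f → ∀ k, infl μ G f k ≤
      4 * ∫⁻ p, ENNReal.ofReal ((f p - f (update p k x0)) ^ 2) ∂μ := by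
    intro f hf k
    set γ : (K → X) → ℝ≥0∞ := fun p => ENNReal.ofReal ((f p - f (update p k x0)) ^ 2) with hγ
    have hup : Measurable (fun p : K → X => update p k x0) :=
      measurable_update'.comp (measurable_id.prodMk measurable_const)
    have hgm : Measurable γ := ((hf.sub (hf.comp hup)).pow_const 2).ennreal_ofReal
    have h1 : ∀ p : K → X, ∀ t : X, ENNReal.ofReal ((f p - f (update p k t)) ^ 2) ≤
        2 * γ p + 2 * γ (update p k t) := by
      intro p t
      simp only [hγ, update_idem]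
      have h2 : (f p - f (update p k t)) ^ 2 ≤
          2 * (f p - f (update p k x0)) ^ 2 + 2 * (f (update p k t) - f (update p k x0)) ^ 2 := by
        nlinarith [sq_nonneg ((f p - f (update p k x0)) + (f (update p k t) - f (update p k x0)))]
      refine (ENNReal.ofReal_le_ofReal h2).trans ?_
      rw [ENNReal.ofReal_add (by positivity) (by positivity), ENNReal.ofReal_mul (by norm_num),
        ENNReal.ofReal_mul (by norm_num)]
      simp
    have hmp := mp_update (fun _ : K => G) k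
    rw [← hμ] at hmp
    have e1 : ∫⁻ p, ∫⁻ t, γ (update p k t) ∂G ∂μ = ∫⁻ p, γ p ∂μ := by
      have e2 := hmp.lintegral_comp hgm
      have e3 := lintegral_prod (μ := μ) (ν := G)
        (fun z : (K → X) × X => γ (update z.1 k z.2)) (hgm.comp measurable_update').aemeasurable
      exact e3.symm.trans e2
    have mg : ∀ p : K → X, Measurable (fun t : X => γ (update p k t)) := fun p =>
      hgm.comp (measurable_update'.comp (measurable_const.prodMk measurable_id))
    have mG : Measurable (fun p : K → X => ∫⁻ t, γ (update p k t) ∂G) :=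
      Measurable.lintegral_prod_right' (f := fun z : (K → X) × X => γ (update z.1 k z.2))
        (hgm.comp measurable_update')
    calc infl μ G f k
        ≤ ∫⁻ p, ∫⁻ t, (2 * γ p + 2 * γ (update p k t)) ∂G ∂μ :=
          lintegral_mono fun p => lintegral_mono fun t => h1 p t
      _ = ∫⁻ p, (2 * γ p + 2 * ∫⁻ t, γ (update p k t) ∂G) ∂μ := by
          apply lintegral_congr
          intro p
          rw [lintegral_add_left measurable_const, lintegral_const, measure_univ, mul_one,
            lintegral_const_mul _ (mg p)]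
      _ = 2 * ∫⁻ p, γ p ∂μ + 2 * ∫⁻ p, γ p ∂μ := by
          rw [lintegral_add_left (hgm.const_mul 2), lintegral_const_mul _ hgm,
            lintegral_const_mul _ mG, e1]
      _ = 4 * ∫⁻ p, γ p ∂μ := by
          rw [← add_mul]; norm_num
  have b1 := (dvar_infinitePi_le G hre s (fun x y h => by rw [hdep x y h])).trans
    (Finset.sum_le_sum fun k _ => key _ hre k)
  have b2 := (dvar_infinitePi_le G him s (fun x y h => by rw [hdep x y h])).trans
    (Finset.sum_le_sum fun k _ => key _ him k)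
  refine (add_le_add b1 b2).trans ?_
  rw [← Finset.sum_add_distrib, Finset.mul_sum]
  refine Finset.sum_le_sum fun k _ => ?_
  rw [← mul_add]
  refine mul_le_mul_right ?_ 4
  have hup : Measurable (fun p : K → X => update p k x0) :=
    measurable_update'.comp (measurable_id.prodMk measurable_const)
  have hmr : Measurable (fun p : K → X => ENNReal.ofReal
      (((g p).re - (g (update p k x0)).re) ^ 2)) :=
    ((hre.sub (hre.comp hup)).pow_const 2).ennreal_ofReal
  rw [← lintegral_add_left hmr]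
  apply lintegral_mono
  intro p
  simp only
  rw [← ENNReal.ofReal_add (sq_nonneg _) (sq_nonneg _), norm_sq_eq, Complex.sub_re, Complex.sub_im]

/-- first moment from `cvar` -/
theorem int_norm_le {Ω : Type*} [MeasurableSpace Ω] (μ : Measure Ω) [IsProbabilityMeasure μ]
    {g : Ω → ℂ} (hg : Measurable g) {C : ℝ} (hb : ∀ x, ‖g x‖ ≤ C) {V : ℝ} (hV : 0 ≤ V)
    (h : cvar μ g ≤ ENNReal.ofReal V) :
    ∫ x, ‖g x - ∫ y, g y ∂μ‖ ∂μ ≤ √V := by
  have hC : 0 ≤ C := by
    obtain ⟨x⟩ : Nonempty Ω := nonempty_of_isProbabilityMeasure μ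
    exact (norm_nonneg _).trans (hb x)
  have hgi : Integrable g μ := Integrable.of_bound hg.aestronglyMeasurable C
    (Filter.Eventually.of_forall hb)
  have hm2 : Measurable (fun z : Ω × Ω => ‖g z.1 - g z.2‖) :=
    ((hg.comp measurable_fst).sub (hg.comp measurable_snd)).norm
  have hb2 : ∀ z : Ω × Ω, ‖g z.1 - g z.2‖ ≤ C + C := fun z =>
    (norm_sub_le _ _).trans (add_le_add (hb _) (hb _))
  have hi2 : Integrable (fun z : Ω × Ω => ‖g z.1 - g z.2‖) (μ.prod μ) :=
    Integrable.of_bound hm2.aestronglyMeasurable (C + C) (Filter.Eventually.of_forall fun z => by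
      rw [norm_norm]; exact hb2 z)
  have hi3 : Integrable (fun z : Ω × Ω => ‖g z.1 - g z.2‖ ^ 2) (μ.prod μ) :=
    Integrable.of_bound (hm2.pow_const 2).aestronglyMeasurable ((C + C) ^ 2)
      (Filter.Eventually.of_forall fun z => by
        rw [norm_pow, norm_norm]
        exact pow_le_pow_left₀ (norm_nonneg _) (hb2 z) 2)
  -- Jensen in `y`
  have h1 : ∀ x, ‖g x - ∫ y, g y ∂μ‖ ≤ ∫ y, ‖g x - g y‖ ∂μ := by
    intro x
    have e1 : g x - ∫ y, g y ∂μ = ∫ y, (g x - g y) ∂μ := by
      rw [integral_sub (integrable_const _) hgi]; simp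
    rw [e1]
    exact norm_integral_le_integral_norm _
  have h2 : ∫ x, ‖g x - ∫ y, g y ∂μ‖ ∂μ ≤ ∫ z, ‖g z.1 - g z.2‖ ∂(μ.prod μ) := by
    rw [integral_prod _ hi2]
    apply integral_mono
    · exact (hgi.sub (integrable_const _)).norm
    · exact hi2.integral_prod_left
    · exact h1
  -- Cauchy-Schwarz
  have h3 : (∫ z, ‖g z.1 - g z.2‖ ∂(μ.prod μ)) ^ 2 ≤ ∫ z, ‖g z.1 - g z.2‖ ^ 2 ∂(μ.prod μ) := by
    have hv := ProbabilityTheory.variance_nonneg (fun z : Ω × Ω => ‖g z.1 - g z.2‖) (μ.prod μ)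
    have hm : MemLp (fun z : Ω × Ω => ‖g z.1 - g z.2‖) 2 (μ.prod μ) :=
      MemLp.of_bound hm2.aestronglyMeasurable (C + C) (Filter.Eventually.of_forall fun z => by
        rw [norm_norm]; exact hb2 z)
    rw [ProbabilityTheory.variance_eq_sub hm] at hv
    have e : (∫ z, ((fun z : Ω × Ω => ‖g z.1 - g z.2‖) ^ 2) z ∂(μ.prod μ)) =
      ∫ z, ‖g z.1 - g z.2‖ ^ 2 ∂(μ.prod μ) := rfl
    linarith [hv, e]
  have h4 : ∫ z, ‖g z.1 - g z.2‖ ^ 2 ∂(μ.prod μ) ≤ V := by
    have e1 := ofReal_integral_eq_lintegral_ofReal hi3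
      (Filter.Eventually.of_forall fun z => sq_nonneg _)
    have e2 : ∫⁻ z, ENNReal.ofReal (‖g z.1 - g z.2‖ ^ 2) ∂(μ.prod μ) = cvar μ g := by
      unfold cvar
      exact lintegral_prod _ ((hm2.pow_const 2).ennreal_ofReal).aemeasurable
    rw [e2] at e1
    rw [← e1] at h
    exact (ENNReal.ofReal_le_ofReal_iff hV).1 h
  refine h2.trans ?_
  apply Real.le_sqrt_of_sq_le
  exact h3.trans h4

end complex

/-! ### the sum over the blocks for an integral against a kernel -/

section kernel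

variable {K : Type*}

/-- `G_k = ∫ κ (h - h_k)`; far from the set `N k` the sum of the squares of `h - h_k` is at most
`B`, near it `|h - h_k| ≤ 2` -/
theorem sum_sq_kernel_le {κ : ℂ → ℂ} (hκ : Integrable κ) {h : ℂ → ℂ} {h' : K → ℂ → ℂ}
    (hm : AEStronglyMeasurable h volume) (hm' : ∀ k, AEStronglyMeasurable (h' k) volume)
    (hb : ∀ z, ‖h z‖ ≤ 1) (hb' : ∀ k z, ‖h' k z‖ ≤ 1) (s : Finset K) (N : K → Set ℂ)
    (hN : ∀ k, MeasurableSet (N k)) {B : ℝ} (hB : 0 ≤ B) {A : ℝ} (hA : ∀ k ∈ s, ∫ z in N k, ‖κ z‖ ≤ A)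
    (hfar : ∀ z, κ z ≠ 0 → ∑ k ∈ s, (N k)ᶜ.indicator (fun z => ‖h z - h' k z‖ ^ 2) z ≤ B) :
    ∑ k ∈ s, ‖∫ z, κ z * (h z - h' k z)‖ ^ 2 ≤
      2 * (∫ z, ‖κ z‖) ^ 2 * B + 8 * s.card * A ^ 2 := by
  set m := ∫ z, ‖κ z‖ with hmdef
  have hm0 : 0 ≤ m := integral_nonneg fun z => norm_nonneg _
  have hd2 : ∀ k z, ‖h z - h' k z‖ ≤ 2 := fun k z => by
    have := norm_sub_le (h z) (h' k z)
    linarith [hb z, hb' k z]
  have hdm : ∀ k, AEStronglyMeasurable (fun z => ‖h z - h' k z‖) volume := fun k =>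
    (hm.sub (hm' k)).norm
  have hκn : Integrable (fun z => ‖κ z‖) := hκ.norm
  -- integrability of `‖κ‖ * indicator`
  have i1 : ∀ k, Integrable (fun z => ‖κ z‖ * (N k)ᶜ.indicator (fun z => ‖h z - h' k z‖) z) := by
    intro k
    refine hκn.mul_bdd (c := 2) (((hdm k).indicator (hN k).compl)) (Filter.Eventually.of_forall
      fun z => ?_)
    rw [Real.norm_eq_abs]
    by_cases hz : z ∈ (N k)ᶜ
    · rw [Set.indicator_of_mem hz, abs_of_nonneg (norm_nonneg _)]; exact hd2 k z
    · rw [Set.indicator_of_notMem hz]; norm_num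
  have i2 : ∀ k, Integrable (fun z => ‖κ z‖ * (N k)ᶜ.indicator (fun z => ‖h z - h' k z‖ ^ 2) z) := by
    intro k
    refine hκn.mul_bdd (c := 4) ((((hdm k).pow 2).indicator (hN k).compl))
      (Filter.Eventually.of_forall fun z => ?_)
    rw [Real.norm_eq_abs]
    by_cases hz : z ∈ (N k)ᶜ
    · rw [Set.indicator_of_mem hz, abs_of_nonneg (sq_nonneg _)]
      have := hd2 k z
      nlinarith [norm_nonneg (h z - h' k z)]
    · rw [Set.indicator_of_notMem hz]; norm_num
  have i3 : ∀ k, Integrable (fun z => (N k).indicator (fun z => ‖κ z‖) z) := fun k =>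
    hκn.indicator (hN k)
  -- one block
  have h1 : ∀ k ∈ s, ‖∫ z, κ z * (h z - h' k z)‖ ^ 2 ≤
      2 * (m * ∫ z, ‖κ z‖ * (N k)ᶜ.indicator (fun z => ‖h z - h' k z‖ ^ 2) z) + 8 * A ^ 2 := by
    intro k hk
    set a := ∫ z, ‖κ z‖ * (N k)ᶜ.indicator (fun z => ‖h z - h' k z‖) z with ha
    have ha0 : 0 ≤ a := integral_nonneg fun z => mul_nonneg (norm_nonneg _)
      (Set.indicator_nonneg (fun _ _ => norm_nonneg _) z)
    have hAk : 0 ≤ ∫ z in N k, ‖κ z‖ := integral_nonneg fun z => norm_nonneg _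
    have e1 : ‖∫ z, κ z * (h z - h' k z)‖ ≤ a + 2 * ∫ z in N k, ‖κ z‖ := by
      calc ‖∫ z, κ z * (h z - h' k z)‖ ≤ ∫ z, ‖κ z * (h z - h' k z)‖ :=
            norm_integral_le_integral_norm _
        _ ≤ ∫ z, (‖κ z‖ * (N k)ᶜ.indicator (fun z => ‖h z - h' k z‖) z +
              2 * (N k).indicator (fun z => ‖κ z‖) z) := by
            apply integral_mono_of_nonneg (Filter.Eventually.of_forall fun z => norm_nonneg _)
              ((i1 k).add ((i3 k).const_mul 2)) (Filter.Eventually.of_forall fun z => ?_)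
            simp only [norm_mul, Pi.add_apply]
            by_cases hz : z ∈ N k
            · rw [Set.indicator_of_mem hz, Set.indicator_of_notMem (show z ∉ (N k)ᶜ from not_not.2 hz), mul_zero,
                zero_add, mul_comm]
              exact mul_le_mul_of_nonneg_right (hd2 k z) (norm_nonneg _)
            · rw [Set.indicator_of_notMem hz, Set.indicator_of_mem (show z ∈ (N k)ᶜ from hz)]
              simp
        _ = a + 2 * ∫ z in N k, ‖κ z‖ := by
            rw [integral_add (i1 k) ((i3 k).const_mul 2), integral_const_mul,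
              integral_indicator (hN k)]
    -- Cauchy-Schwarz: `a² ≤ m * ∫ ‖κ‖ ind d²`
    set b := ∫ z, ‖κ z‖ * (N k)ᶜ.indicator (fun z => ‖h z - h' k z‖ ^ 2) z with hbdef
    have e2 : a ^ 2 ≤ m * b := by
      have hq : ∀ t : ℝ, 0 ≤ t ^ 2 * m - 2 * t * a + b := by
        intro t
        have : t ^ 2 * m - 2 * t * a + b = ∫ z, ‖κ z‖ * (t -
            (N k)ᶜ.indicator (fun z => ‖h z - h' k z‖) z) ^ 2 := by
          have e3 : ∀ z, ‖κ z‖ * (t - (N k)ᶜ.indicator (fun z => ‖h z - h' k z‖) z) ^ 2 =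
              t ^ 2 * ‖κ z‖ - 2 * t * (‖κ z‖ * (N k)ᶜ.indicator (fun z => ‖h z - h' k z‖) z) +
                ‖κ z‖ * (N k)ᶜ.indicator (fun z => ‖h z - h' k z‖ ^ 2) z := by
            intro z
            by_cases hz : z ∈ (N k)ᶜ
            · simp only [Set.indicator_of_mem hz]; ring
            · simp only [Set.indicator_of_notMem hz]; ring
          have i4 : Integrable (fun z => t ^ 2 * ‖κ z‖ -
              2 * t * (‖κ z‖ * (N k)ᶜ.indicator (fun z => ‖h z - h' k z‖) z)) :=
            (hκn.const_mul _).sub ((i1 k).const_mul _)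
          rw [integral_congr_ae (Filter.Eventually.of_forall e3), integral_add i4 (i2 k),
            integral_sub (hκn.const_mul _) ((i1 k).const_mul _), integral_const_mul,
            integral_const_mul]
        rw [this]
        exact integral_nonneg fun z => mul_nonneg (norm_nonneg _) (sq_nonneg _)
      rcases hm0.lt_or_eq with hmp | hmz
      · have := hq (a / m)
        have e5 : (a / m) ^ 2 * m - 2 * (a / m) * a + b = b - a ^ 2 / m := by
          field_simp; ring
        rw [e5] at this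
        rw [sub_nonneg, div_le_iff₀ hmp] at this
        linarith
      · have ha' : a = 0 := by
          by_contra hne
          have hap : 0 < a := lt_of_le_of_ne ha0 (Ne.symm hne)
          have := hq ((b + 1) / (2 * a))
          rw [← hmz] at this
          have e6 : 2 * ((b + 1) / (2 * a)) * a = b + 1 := by field_simp
          rw [e6] at this
          linarith
        rw [ha', ← hmz]; simp
    have e7 : ‖∫ z, κ z * (h z - h' k z)‖ ^ 2 ≤ (a + 2 * ∫ z in N k, ‖κ z‖) ^ 2 :=
      pow_le_pow_left₀ (norm_nonneg _) e1 2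
    have e8 : (∫ z in N k, ‖κ z‖) ^ 2 ≤ A ^ 2 := pow_le_pow_left₀ hAk (hA k hk) 2
    nlinarith [sq_nonneg (a - 2 * ∫ z in N k, ‖κ z‖)]
  refine (Finset.sum_le_sum h1).trans ?_
  rw [Finset.sum_add_distrib, Finset.sum_const, nsmul_eq_mul, ← Finset.mul_sum, ← Finset.mul_sum]
  have h9 : ∑ k ∈ s, ∫ z, ‖κ z‖ * (N k)ᶜ.indicator (fun z => ‖h z - h' k z‖ ^ 2) z ≤ m * B := by
    rw [← integral_finsetSum s (fun k _ => i2 k)]
    have : m * B = ∫ z, ‖κ z‖ * B := by rw [integral_mul_const]
    rw [this]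
    apply integral_mono (integrable_finsetSum s fun k _ => i2 k) (hκn.mul_const B)
    intro z
    simp only
    rw [← Finset.mul_sum]
    by_cases hz : κ z = 0
    · simp [hz]
    · exact mul_le_mul_of_nonneg_left (hfar z hz) (norm_nonneg _)
  nlinarith [mul_le_mul_of_nonneg_left h9 hm0]

end kernel

end Crest.Agent.R143.Var3x831
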