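import Crest.Agent.R143.Y0_831
import Crest.Agent.R143.Law_831
import Crest.Agent.R143.Var3_831

/-!
# R143, block Y: the functionals at the level of (positions, colours) (helper831)

* `ptP`, `presP`, `SP`, `NP` : points, present indices, sites and network of the positions `p`
* `whiteP`, `wP` : white sites for the colours `c`
* `FP D ε a b t k p c` : indicator of `SS` for the half edge `e = {a, b}` (killed, the colour of `b`
  replaced by the colour of `a`), target triangle `t`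
* `GoodP` : good positions
* leaves `Y4a`, `Y5a`, `Y5b`, `Y5c`
-/

set_option autoImplicit false

noncomputable section

open scoped Classical

namespace Crest.Agent.R143.Y5Dx831

open MeasureTheory Set
open Crest.ProbabilityR.Voronoi
open Crest.Agent.R143.B0x346 Crest.Agent.R143.B0Dx346 Crest.Agent.R143.PP1x831
open Crest.Agent.R143.Y0x831 Crest.Agent.R143.Lawx831 Crest.Agent.R143.Varx831
open Crest.Agent.R143.Var3x831

/-- the index set of the colours -/
abbrev Idx : Type := (ℤ × ℤ) × ℕ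

/-- present indices -/
def presP (p : Pos) : Set Idx := {i | i.2 < (p i.1).1}

/-- the position of the index `i` -/
def ptP (ε : ℝ) (p : Pos) (i : Idx) : ℂ := point ε (mk p fun _ => 0) i.1 i.2

lemma point_mk (ε : ℝ) (p : Pos) (c : Col) (k : ℤ × ℤ) (j : ℕ) :
    point ε (mk p c) k j = ptP ε p (k, j) := by
  simp [ptP, point, mk]

lemma present_mk (p : Pos) (c : Col) (q : ℤ × ℤ × ℕ) :
    q ∈ present (mk p c) ↔ ((q.1, q.2.1), q.2.2) ∈ presP p := by
  simp [present, presP, mk]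

lemma points_mk (ε : ℝ) (p : Pos) (c : Col) : points ε (mk p c) = ptP ε p '' presP p := by
  ext z
  constructor
  · rintro ⟨q, hq, rfl⟩
    exact ⟨((q.1, q.2.1), q.2.2), (present_mk p c q).1 hq, (point_mk ε p c _ _).symm⟩
  · rintro ⟨i, hi, rfl⟩
    exact ⟨(i.1.1, i.1.2, i.2), (present_mk p c _).2 hi, point_mk ε p c _ _⟩

/-- sites of the domain -/
def SP (D : Dom) (ε : ℝ) (p : Pos) : Finset ℂ := D.sites ε (mk p fun _ => 0)

lemma sites_mk (D : Dom) (ε : ℝ) (p : Pos) (c : Col) : D.sites ε (mk p c) = SP D ε p := by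
  have h : points ε (mk p c) = points ε (mk p fun _ => 0) := by rw [points_mk, points_mk]
  unfold SP Dom.sites
  simp only [h]

/-- network of the domain -/
def NP (D : Dom) (ε : ℝ) (p : Pos) : Net ℂ := D.netS (SP D ε p)

/-- free sites -/
def IP (D : Dom) (ε : ℝ) (p : Pos) : Finset ℂ := innN (NP D ε p) (SP D ε p)

/-- white points -/
def whiteP (ε : ℝ) (p : Pos) (c : Col) : Set ℂ :=
  {v | ∃ i ∈ presP p, ptP ε p i = v ∧ ¬ ((c i : ℝ) < 1 / 2)}

/-- white sites for the index `k` -/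
def wP (D : Dom) (ε : ℝ) (k : ZMod 3) (p : Pos) (c : Col) : Set ℂ :=
  wK (NP D ε p) k (whiteP ε p c ∩ (IP D ε p : Set ℂ))

/-- the colour of `b` is replaced by the colour of `a` -/
def mrg (a b : ℂ) (w : Set ℂ) : Set ℂ := {v | if v = b then a ∈ w else v ∈ w}

/-- the functional of the half edge `(a, b)` -/
def FP (D : Dom) (ε : ℝ) (a b : ℂ) (t : ℂ × ℂ × ℂ) (k : ZMod 3) (p : Pos) (c : Col) : ℝ :=
  if SS (killE (NP D ε p) a b) k (mrg a b (wP D ε k p c)) t then 1 else 0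

/-- the white cluster of the arc -/
def CP (D : Dom) (ε : ℝ) (a b : ℂ) (k : ZMod 3) (p : Pos) (c : Col) : Set ℂ :=
  Cl (NP D ε p).toTrg (mrg a b (wP D ε k p c)) ((NP D ε p).ex (k + 1)).2

/-- the explored indices -/
def JP (D : Dom) (ε : ℝ) (a b : ℂ) (k : ZMod 3) (p : Pos) (c : Col) : Set Idx :=
  {i | i ∈ presP p ∧ ptP ε p i ∈ IP D ε p ∧
    ((ptP ε p i ≠ b ∧ Tch (NP D ε p).toTrg (CP D ε a b k p c) (ptP ε p i)) ∨
      (ptP ε p i = a ∧ Tch (NP D ε p).toTrg (CP D ε a b k p c) b))}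

/-- different present indices have different points -/
def InjP (ε : ℝ) (p : Pos) : Prop := Set.InjOn (ptP ε p) (presP p)

/-- the half edge `(a, b)` with the triangle `t = (a, b, c)` on its left, both ends free -/
structure Half (D : Dom) (ε : ℝ) (p : Pos) (a b : ℂ) (t : ℂ × ℂ × ℂ) : Prop where
  t1 : t.1 = a
  t2 : t.2.1 = b
  mem : t ∈ delT (SP D ε p)
  opp : ∃ d, (b, a, d) ∈ delT (SP D ε p)
  ina : a ∈ IP D ε p
  inb : b ∈ IP D ε p

/-- **leaf Y4a** : a deep inner site can be deleted without changing the arcs -/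
def Y4a : Prop := ∀ (D : Dom) (S : Finset ℂ) (u : ℂ), GP (S : Set ℂ) → u ∈ S →
  (∀ x y : ℂ, hullE S x y → x ≠ u ∧ y ≠ u) → voronoiCell (S : Set ℂ) u ∩ D.out = ∅ →
  (∀ k, arcN (D.netS (S.erase u)) k = arcN (D.netS S) k) ∧
  (∀ t ∈ delT S, t.1 ≠ u → t.2.1 ≠ u → t.2.2 ≠ u → t ∈ delT (S.erase u)) ∧
  (∀ x y : ℂ, hullE (S.erase u) x y ↔ hullE S x y)

/-- **leaf Y5a** : averages over the colours are counting averages -/
def Y5a : Prop := ∀ (D : Dom) (ε : ℝ) (p : Pos), 0 < ε → InjP ε p →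
  HNet (SP D ε p) (NP D ε p) → ArcOK (NP D ε p) (SP D ε p) →
  (SP D ε p : Set ℂ) ⊆ ptP ε p '' presP p →
  ∀ (a b : ℂ) (t : ℂ × ℂ × ℂ), Half D ε p a b t → ∀ k : ZMod 3,
    av (FP D ε a b t k p) =
      (((whs (killE (NP D ε p) a b) (SP D ε p) k).filter
        fun w => SS (killE (NP D ε p) a b) k (w : Set ℂ) t).card : ℝ) /
        ((whs (killE (NP D ε p) a b) (SP D ε p) k).card : ℝ)

/-- **leaf Y5b** : `FP` is nice and `JP` is a stopping set for it -/
def Y5b : Prop := ∀ (D : Dom) (ε : ℝ) (p : Pos), 0 < ε → InjP ε p →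
  HNet (SP D ε p) (NP D ε p) → ArcOK (NP D ε p) (SP D ε p) →
  (SP D ε p : Set ℂ) ⊆ ptP ε p '' presP p →
  ∀ (a b : ℂ) (t : ℂ × ℂ × ℂ), Half D ε p a b t → ∀ (k : ZMod 3),
    (∀ T : Finset Idx, Nice (FP D ε a b t k p) T) ∧ Stop (FP D ε a b t k p) (JP D ε a b k p)

/-- **leaf Y5c** : the revealment in terms of the one-arm count of `OA` -/
def Y5c : Prop := ∀ (D : Dom) (ε : ℝ) (p : Pos), 0 < ε → InjP ε p →
  HNet (SP D ε p) (NP D ε p) → ArcOK (NP D ε p) (SP D ε p) →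
  (SP D ε p : Set ℂ) ⊆ ptP ε p '' presP p →
  ∀ (a b : ℂ) (t : ℂ × ℂ × ℂ), Half D ε p a b t → ∀ (k : ZMod 3) (δ : ℝ) (B : Set ℂ), a ∈ B → b ∈ B →
    (∀ v ∈ B, v ∈ IP D ε p → (((IP D ε p).powerset.filter fun β =>
      Tch (NP D ε p).toTrg (Cl (NP D ε p).toTrg (wK (NP D ε p) k (β : Set ℂ))
        ((NP D ε p).ex (k + 1)).2) v).card : ℝ) ≤ δ * 2 ^ (IP D ε p).card) →
    ∀ i : Idx, ptP ε p i ∈ B → (cl Idx).real {c | i ∈ JP D ε a b k p c} ≤ 4 * δ

end Crest.Agent.R143.Y5Dx831
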