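import Crest.Agent.R143.Y5a_315
import Crest.Agent.R143.Y5D_831

/-!
# R143, block Y5 (helper315), part b: proofs of the leaves `Y5a`, `Y5b`, `Y5c` of `Y5D_831`
-/

set_option autoImplicit false

noncomputable section

open scoped Classical

namespace Crest.Agent.R143.Y5bx315

open MeasureTheory Set Function
open Crest.ProbabilityR.Voronoi
open Crest.Agent.R143.B0x346 Crest.Agent.R143.B0Dx346 Crest.Agent.R143.PP1x831
open Crest.Agent.R143.Y0x831 Crest.Agent.R143.Lawx831 Crest.Agent.R143.Varx831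
open Crest.Agent.R143.Var3x831 Crest.Agent.R143.Y5Dx831 Crest.Agent.R143.Y5ax315

/-! ### monotonicity of `SS` -/

section mono

variable {V : Type}

lemma rtg_mono {α : Type*} {r p : α → α → Prop} (h : ∀ a b, r a b → p a b) {x y : α}
    (hxy : Relation.ReflTransGen r x y) : Relation.ReflTransGen p x y := by
  induction hxy with
  | refl => exact Relation.ReflTransGen.refl
  | tail _ h2 ih => exact ih.tail (h _ _ h2)

lemma Cl_mono {G : Trg V} {w w' : Set V} {r : V} (h : w ⊆ w') : Cl G w r ⊆ Cl G w' r := by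
  rintro v ⟨hr, hv⟩
  refine ⟨h hr, ?_⟩
  exact rtg_mono (fun x y hxy => ⟨hxy.1, h hxy.2⟩) hv

lemma free_anti {W W' : Set V} (h : W ⊆ W') {t : V × V × V} (ht : Free W' t) : Free W t :=
  ⟨fun h1 => ht.1 (h h1), fun h1 => ht.2.1 (h h1), fun h1 => ht.2.2 (h h1)⟩

lemma cstep_anti {G : Trg V} {kl : Set (V × V)} {W W' : Set V} (h : W ⊆ W') {s s' : V × V × V}
    (hs : CStep G kl W' s s') : CStep G kl W s s' :=
  ⟨hs.1, free_anti h hs.2.1, hs.2.2⟩

lemma ss_anti {N : Net V} {k : ZMod 3} {w w' : Set V} (h : w ⊆ w') {t : V × V × V}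
    (hs : SS N k w' t) : SS N k w t := by
  obtain ⟨h1, h2, t', h3, h4⟩ := hs
  have hc := Cl_mono (G := N.toTrg) (r := (N.ex (k + 1)).2) h
  exact ⟨h1, free_anti hc h2, t', h3,
    rtg_mono (fun _ _ hxy => cstep_anti hc hxy) h4⟩

lemma ss_congr {N : Net V} {k : ZMod 3} {w w' : Set V} {t : V × V × V}
    (h : Cl N.toTrg w' (N.ex (k + 1)).2 = Cl N.toTrg w (N.ex (k + 1)).2) :
    SS N k w' t ↔ SS N k w t := by
  unfold SS
  rw [h]

lemma killE_toTrg (N : Net V) (a b : V) : (killE N a b).toTrg = N.toTrg := rfl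
lemma killE_ex (N : Net V) (a b : V) : (killE N a b).ex = N.ex := rfl

end mono

/-! ### arcs -/

section arcs

lemma mem_S_of_E {N : Net ℂ} {S : Finset ℂ} (hT : N.T = delT S) {x y : ℂ}
    (h : (x, y) ∈ N.toTrg.E) : x ∈ S ∧ y ∈ S := by
  unfold Trg.E at h
  rw [hT] at h
  simp only [Finset.mem_union, Finset.mem_image, Prod.mk.injEq, delT, Finset.mem_filter,
    Finset.mem_product] at h
  rcases h with ⟨t, ⟨⟨h1, h2, h3⟩, _⟩, rfl, rfl⟩ | ⟨t, ⟨⟨h1, h2, h3⟩, _⟩, rfl, rfl⟩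
  · exact ⟨h1, h2⟩
  · exact ⟨h2, h1⟩

lemma E_symm {G : Trg ℂ} {x y : ℂ} (h : (x, y) ∈ G.E) : (y, x) ∈ G.E := Nb.symm h

lemma E_of_mem {G : Trg ℂ} {x y z : ℂ} (h : (x, y, z) ∈ G.T) : (x, y) ∈ G.E := by
  unfold Trg.E
  simp only [Finset.mem_union, Finset.mem_image, Prod.mk.injEq]
  exact Or.inl ⟨_, h, rfl, rfl⟩

lemma arcSymm {N : Net ℂ} {x y : ℂ} (h : ArcRel N x y) : ArcRel N y x := by
  obtain ⟨h1, h2 | h2 | h2⟩ := h
  · exact ⟨E_symm h1, Or.inl (N.klsym _ _ h2)⟩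
  · exact ⟨E_symm h1, Or.inr (Or.inr h2)⟩
  · exact ⟨E_symm h1, Or.inr (Or.inl h2)⟩

lemma arc_root (N : Net ℂ) (k : ZMod 3) : (N.ex k).2 ∈ arcN N k := Relation.ReflTransGen.refl

lemma arc_step {N : Net ℂ} {k : ZMod 3} {x y : ℂ} (hx : x ∈ arcN N k) (h : ArcRel N x y) :
    y ∈ arcN N k := Relation.ReflTransGen.tail hx h

lemma arc_iff {N : Net ℂ} {k : ZMod 3} {x y : ℂ} (h : ArcRel N x y) :
    x ∈ arcN N k ↔ y ∈ arcN N k := ⟨fun hx => arc_step hx h, fun hy => arc_step hy (arcSymm h)⟩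

lemma mem_S_of_hull {S : Finset ℂ} {x y : ℂ} (h : hullE S x y) : x ∈ S ∧ y ∈ S := by
  obtain ⟨⟨c, h1⟩, _⟩ := h
  unfold delT at h1
  simp only [Finset.mem_filter, Finset.mem_product] at h1
  exact ⟨h1.1.1, h1.1.2.1⟩

lemma arc_sub {N : Net ℂ} {S : Finset ℂ} (hN : HNet S N) {k : ZMod 3} : arcN N k ⊆ (S : Set ℂ) := by
  intro v hv
  have hv' : Relation.ReflTransGen (ArcRel N) (N.ex k).2 v := hv
  induction hv' with
  | refl => exact (mem_S_of_hull (hN.hex k)).2
  | tail _ h _ => exact (mem_S_of_E hN.tri h.1).2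

lemma mem_inn {N : Net ℂ} {S : Finset ℂ} {v : ℂ} :
    v ∈ innN N S ↔ v ∈ S ∧ ∀ k, v ∉ arcN N k := by
  unfold innN; simp

lemma zk (k : ZMod 3) : k = k + 1 + 1 + 1 ∧ k - 1 = k + 1 + 1 := by
  revert k; decide

lemma zne (k : ZMod 3) : k ≠ k + 1 ∧ k ≠ k + 2 ∧ k + 1 ≠ k + 2 := by
  revert k; decide

lemma zcases (k j : ZMod 3) : j = k ∨ j = k + 1 ∨ j = k + 2 := by
  revert k j; decide

lemma zsub (k : ZMod 3) : k - 1 = k + 2 ∧ k + 1 - 1 = k ∧ k + 2 - 1 = k + 1 := by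
  revert k; decide

variable {N : Net ℂ} {S : Finset ℂ}

lemma not_arc (hA : ArcOK N S) {i j : ZMod 3} (hij : i ≠ j) {v : ℂ} (h : v ∈ arcN N i) :
    v ∉ arcN N j := fun h2 => Set.disjoint_left.1 (hA.disj i j hij) h h2

/-- both ends of the marks are on the arcs -/
lemma mark1 (hA : ArcOK N S) (k : ZMod 3) : (N.ex k).1 ∈ arcN N (k + 2) := by
  have := hA.mark k
  rwa [(zsub k).1] at this

/-- the marks are distinct -/
lemma ex_ne (hA : ArcOK N S) {i j : ZMod 3} (hij : i ≠ j) : N.ex i ≠ N.ex j := by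
  intro h
  have h1 := arc_root N i
  rw [h] at h1
  exact not_arc hA hij h1 (arc_root N j)

/-- the canonical colouring is admissible -/
theorem wh_of (hN : HNet S N) (hA : ArcOK N S) {a b : ℂ} (ha : a ∈ innN N S) (hb : b ∈ innN N S)
    {k : ZMod 3} {β : Set ℂ} (hβ : β ⊆ (innN N S : Set ℂ)) (hab : a ∈ β ↔ b ∈ β) :
    Wh (killE N a b) k (wK N k β) := by
  have hnb : ∀ {x : ℂ} {j : ZMod 3}, x ∈ arcN N j → x ∉ β := fun {x j} h1 h2 =>
    (mem_inn.1 (hβ h2)).2 j h1
  have hm : ∀ {x : ℂ}, x ∈ wK N k β ↔ x ∈ arcN N (k + 1) ∨ x ∈ β := Iff.rfl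
  have hina : ∀ {x y : ℂ}, ArcRel N x y → (x ∈ wK N k β ↔ y ∈ wK N k β) := by
    intro x y h
    rw [hm, hm, arc_iff h]
    have hx : x ∉ β := fun h1 => hA.inn x (hβ h1) y h
    have hy : y ∉ β := fun h1 => hA.inn y (hβ h1) x (arcSymm h)
    simp [hx, hy]
  constructor
  · intro x y hE hkl _ _ _ _
    rcases hkl with h | h
    · exact hina ⟨hE, Or.inl h⟩
    · simp only [Set.mem_insert_iff, Prod.mk.injEq, Set.mem_singleton_iff] at h
      have ha' : ∀ j, a ∉ arcN N j := (mem_inn.1 ha).2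
      have hb' : ∀ j, b ∉ arcN N j := (mem_inn.1 hb).2
      rcases h with ⟨rfl, rfl⟩ | ⟨rfl, rfl⟩
      · rw [hm, hm]; simp [ha', hb', hab]
      · rw [hm, hm]; simp [ha', hb', hab]
  · intro x y c hT hd _ _
    have hE : (x, y) ∈ N.toTrg.E := E_of_mem hT
    by_cases hex : (x, y) ∈ N.exS
    · obtain ⟨j, hj⟩ := hex
      rcases zcases k j with rfl | rfl | rfl
      · have h1 := mark1 hA j
        have h2 := arc_root N j
        rw [hj] at h1 h2
        simp only at h1 h2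
        have h3 : x ∉ arcN N (j + 1) := not_arc hA (zne j).2.2.symm h1
        have h4 : y ∉ arcN N (j + 1) := not_arc hA (zne j).1 h2
        rw [hm, hm]
        simp [h3, h4, hnb h1, hnb h2]
      · exact absurd hj.symm ‹_›
      · exact absurd hj.symm ‹_›
    · exact hina ⟨hE, Or.inr (Or.inl ⟨hd, hex⟩)⟩
  · have h1 := hA.mark (k + 1)
    rw [(zsub k).2.1] at h1
    rw [killE_ex, hm, hm]
    refine ⟨?_, Or.inl (arc_root N _)⟩
    rintro (h | h)
    · exact not_arc hA (zne k).1 h1 h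
    · exact hnb h1 h
  · have h1 := hA.mark (k + 2)
    rw [(zsub k).2.2] at h1
    rw [killE_ex, hm, hm]
    refine ⟨Or.inl h1, ?_⟩
    rintro (h | h)
    · exact not_arc hA (zne k).2.2.symm (arc_root N (k + 2)) h
    · exact hnb (arc_root N (k + 2)) h

/-- the colouring of the arcs is forced -/
theorem wh_arc (hN : HNet S N) (hA : ArcOK N S) {a b : ℂ} {k : ZMod 3} {w : Set ℂ}
    (hw : Wh (killE N a b) k w) (hab : a ∈ innN N S ∧ b ∈ innN N S) {v : ℂ} {j : ZMod 3}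
    (hv : v ∈ arcN N j) : v ∈ w ↔ v ∈ arcN N (k + 1) := by
  have hstep : ∀ {x y : ℂ}, ArcRel N x y → (x ∈ w ↔ y ∈ w) := by
    rintro x y ⟨hE, h | h | h⟩
    · have hne : ∀ i, (x, y) ≠ N.ex i := fun i h1 => hN.live i (h1 ▸ h)
      have hne' : ∀ i, (y, x) ≠ N.ex i := fun i h1 => hN.live i (h1 ▸ N.klsym _ _ h)
      exact hw.kill x y hE (Or.inl h) (hne _) (hne _) (hne' _) (hne' _)
    · obtain ⟨c, hc⟩ : ∃ c, (x, y, c) ∈ N.T := by
        unfold Trg.E at hE
        simp only [Finset.mem_union, Finset.mem_image, Prod.mk.injEq] at hE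
        rcases hE with ⟨t, ht, rfl, rfl⟩ | ⟨t, ht, rfl, rfl⟩
        · exact ⟨_, ht⟩
        · exact absurd ht (h.1 _)
      exact hw.hull x y c hc h.1 (fun h1 => h.2 ⟨_, h1.symm⟩) (fun h1 => h.2 ⟨_, h1.symm⟩)
    · obtain ⟨c, hc⟩ : ∃ c, (y, x, c) ∈ N.T := by
        unfold Trg.E at hE
        simp only [Finset.mem_union, Finset.mem_image, Prod.mk.injEq] at hE
        rcases hE with ⟨t, ht, rfl, rfl⟩ | ⟨t, ht, rfl, rfl⟩
        · exact absurd ht (h.1 _)
        · exact ⟨_, ht⟩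
      exact (hw.hull y x c hc h.1 (fun h1 => h.2 ⟨_, h1.symm⟩)
        (fun h1 => h.2 ⟨_, h1.symm⟩)).symm
  have hall : ∀ i : ZMod 3, ∀ x ∈ arcN N i, (x ∈ w ↔ (N.ex i).2 ∈ w) := by
    intro i x hx
    have hx' : Relation.ReflTransGen (ArcRel N) (N.ex i).2 x := hx
    induction hx' with
    | refl => exact Iff.rfl
    | tail h1 h2 ih => exact (hstep h2).symm.trans (ih h1)
  have r1 : (N.ex (k + 1)).2 ∈ w := hw.m1.2
  have r2 : (N.ex (k + 2)).2 ∉ w := hw.m2.2
  have r0 : (N.ex k).2 ∉ w := by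
    have h1 : (N.ex k).1 ∉ w := by
      rw [hall (k + 2) _ (mark1 hA k)]
      exact r2
    obtain ⟨⟨c, hc⟩, hd⟩ := hN.hex k
    rw [← hN.tri] at hc hd
    have h2 := hw.hull (N.ex k).1 (N.ex k).2 c hc hd
      (by rw [killE_ex]; exact ex_ne hA (zne k).1) (by rw [killE_ex]; exact ex_ne hA (zne k).2.1)
    rw [← h2]; exact h1
  rw [hall j v hv]
  rcases zcases k j with rfl | rfl | rfl
  · simp only [r0, false_iff]
    exact not_arc hA (zne j).1 hv
  · simp only [r1, true_iff]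
    exact hv
  · simp only [r2, false_iff]
    exact not_arc hA (zne k).2.2.symm hv

/-- the sites of the arc as a finite set -/
def arcF (N : Net ℂ) (S : Finset ℂ) (k : ZMod 3) : Finset ℂ := S.filter fun v => v ∈ arcN N (k + 1)

lemma coe_arcF (hN : HNet S N) (k : ZMod 3) : (arcF N S k : Set ℂ) = arcN N (k + 1) := by
  ext v
  unfold arcF
  simp only [Finset.coe_filter, Set.mem_ofPred_eq]
  exact ⟨fun h => h.2, fun h => ⟨arc_sub hN h, h⟩⟩

lemma coe_wK (hN : HNet S N) (k : ZMod 3) (β : Finset ℂ) :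
    ((arcF N S k ∪ β : Finset ℂ) : Set ℂ) = wK N k (β : Set ℂ) := by
  unfold wK
  rw [Finset.coe_union, coe_arcF hN]

/-- **counting of the admissible colourings** -/
theorem card_whs (hN : HNet S N) (hA : ArcOK N S) {a b : ℂ} (ha : a ∈ innN N S)
    (hb : b ∈ innN N S) (hE : (a, b) ∈ N.toTrg.E) (k : ZMod 3) (P : Set ℂ → Prop) :
    ((whs (killE N a b) S k).filter fun w : Finset ℂ => P (w : Set ℂ)).card =
      ((innN N S).powerset.filter fun β : Finset ℂ => (a ∈ β ↔ b ∈ β) ∧ P (wK N k (β : Set ℂ))).card := by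
  symm
  apply Finset.card_bij (fun β _ => arcF N S k ∪ β)
  · intro β hβ
    simp only [Finset.mem_filter, Finset.mem_powerset] at hβ
    unfold whs
    simp only [Finset.mem_filter, Finset.mem_powerset]
    rw [coe_wK hN]
    refine ⟨⟨?_, ?_⟩, hβ.2.2⟩
    · apply Finset.union_subset (Finset.filter_subset _ _)
      exact hβ.1.trans (Finset.filter_subset _ _)
    · exact wh_of hN hA ha hb (by exact_mod_cast hβ.1) (by exact_mod_cast hβ.2.1)
  · intro β hβ β' hβ' h
    simp only [Finset.mem_filter, Finset.mem_powerset] at hβ hβ'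
    have key : ∀ {γ : Finset ℂ}, γ ⊆ innN N S → ∀ v, v ∈ γ ↔ v ∈ innN N S ∧ v ∈ arcF N S k ∪ γ := by
      intro γ hγ v
      constructor
      · intro hv; exact ⟨hγ hv, Finset.mem_union_right _ hv⟩
      · rintro ⟨h1, h2⟩
        rcases Finset.mem_union.1 h2 with h3 | h3
        · exact absurd (Finset.mem_filter.1 h3).2 ((mem_inn.1 h1).2 _)
        · exact h3
    ext v
    rw [key hβ.1, key hβ'.1, h]
  · intro w hw
    unfold whs at hw
    simp only [Finset.mem_filter, Finset.mem_powerset] at hw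
    obtain ⟨⟨hwS, hWh⟩, hP⟩ := hw
    have he : arcF N S k ∪ (w.filter fun v => v ∈ innN N S) = w := by
      ext v
      simp only [Finset.mem_union, Finset.mem_filter]
      constructor
      · rintro (h | h)
        · have h1 := (Finset.mem_filter.1 h).2
          exact_mod_cast (wh_arc hN hA hWh ⟨ha, hb⟩ h1).2 h1
        · exact h.1
      · intro h
        by_cases hi : v ∈ innN N S
        · exact Or.inr ⟨h, hi⟩
        · left
          have hS := hwS h
          have h2 : ∃ j, v ∈ arcN N j := by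
            by_contra h3
            push Not at h3
            exact hi (mem_inn.2 ⟨hS, h3⟩)
          obtain ⟨j, hj⟩ := h2
          exact Finset.mem_filter.2 ⟨hS, (wh_arc hN hA hWh ⟨ha, hb⟩ hj).1 (by exact_mod_cast h)⟩
    refine ⟨w.filter fun v => v ∈ innN N S, ?_, he⟩
    simp only [Finset.mem_filter, Finset.mem_powerset]
    refine ⟨?_, ?_, ?_⟩
    · intro v hv; exact (Finset.mem_filter.1 hv).2
    · have hne : ∀ i, (a, b) ≠ N.ex i := by
        intro i h1
        have h2 := arc_root N i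
        rw [← h1] at h2
        exact (mem_inn.1 hb).2 i h2
      have hne' : ∀ i, (b, a) ≠ N.ex i := by
        intro i h1
        have h2 := arc_root N i
        rw [← h1] at h2
        exact (mem_inn.1 ha).2 i h2
      have h3 := hWh.kill a b hE (Or.inr (by simp)) (hne _) (hne _) (hne' _) (hne' _)
      simp only [Finset.mem_coe] at h3
      simp [h3, ha, hb]
    · rw [← coe_wK hN, he]; exact hP

end arcs

/-! ### the sample level -/

section sample

variable {D : Dom} {ε : ℝ} {p : Pos}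

/-- the index of a site -/
def ixP (ε : ℝ) (p : Pos) (v : ℂ) : Idx :=
  if h : ∃ i ∈ presP p, ptP ε p i = v then h.choose else ((0, 0), 0)

lemma ixP_spec {v : ℂ} (h : v ∈ ptP ε p '' presP p) :
    ixP ε p v ∈ presP p ∧ ptP ε p (ixP ε p v) = v := by
  have h' : ∃ i ∈ presP p, ptP ε p i = v := h
  unfold ixP
  rw [dif_pos h']
  exact ⟨h'.choose_spec.1, h'.choose_spec.2⟩

lemma IP_sub (D : Dom) (ε : ℝ) (p : Pos) : IP D ε p ⊆ SP D ε p := Finset.filter_subset _ _

lemma ix_injOn (hS : (SP D ε p : Set ℂ) ⊆ ptP ε p '' presP p) :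
    Set.InjOn (ixP ε p) (IP D ε p) := by
  intro x hx y hy h
  have h1 := (ixP_spec (hS (IP_sub D ε p hx))).2
  have h2 := (ixP_spec (hS (IP_sub D ε p hy))).2
  rw [← h1, ← h2, h]

lemma ix_unique (hI : InjP ε p) (hS : (SP D ε p : Set ℂ) ⊆ ptP ε p '' presP p) {i : Idx}
    (hi : i ∈ presP p) (hv : ptP ε p i ∈ IP D ε p) : ixP ε p (ptP ε p i) = i := by
  have h1 := ixP_spec (hS (IP_sub D ε p hv))
  exact hI h1.1 hi h1.2

/-- the white sites of the functional, as a function of the finite colouring -/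
theorem mrg_wP (hI : InjP ε p) (hS : (SP D ε p : Set ℂ) ⊆ ptP ε p '' presP p) {a b : ℂ}
    (ha : a ∈ IP D ε p) (hb : b ∈ IP D ε p) (k : ZMod 3) (c : Col) :
    mrg a b (wP D ε k p c) =
      wK (NP D ε p) k (wht (IP D ε p) (ixP ε p ∘ glue a b) c : Set ℂ) := by
  have hwh : ∀ v ∈ IP D ε p, (v ∈ whiteP ε p c ↔ ¬ ((c (ixP ε p v) : ℝ) < 1 / 2)) := by
    intro v hv
    have h1 := ixP_spec (hS (IP_sub D ε p hv))
    unfold whiteP
    simp only [Set.mem_ofPred_eq]
    constructor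
    · rintro ⟨i, hi, he, hc⟩
      have : ixP ε p v = i := hI h1.1 hi (h1.2.trans he.symm)
      rw [this]; exact hc
    · intro hc
      exact ⟨_, h1.1, h1.2, hc⟩
  have hw : ∀ v, v ∈ wP D ε k p c ↔ v ∈ arcN (NP D ε p) (k + 1) ∨
      (v ∈ IP D ε p ∧ ¬ ((c (ixP ε p v) : ℝ) < 1 / 2)) := by
    intro v
    unfold wP wK
    simp only [Set.mem_union, Set.mem_inter_iff, Finset.mem_coe]
    constructor
    · rintro (h | ⟨h1, h2⟩)
      · exact Or.inl h
      · exact Or.inr ⟨h2, (hwh v h2).1 h1⟩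
    · rintro (h | ⟨h1, h2⟩)
      · exact Or.inl h
      · exact Or.inr ⟨(hwh v h1).2 h2, h1⟩
  have hna : a ∉ arcN (NP D ε p) (k + 1) := (mem_inn.1 ha).2 _
  have hnb : b ∉ arcN (NP D ε p) (k + 1) := (mem_inn.1 hb).2 _
  ext v
  unfold mrg
  simp only [Set.mem_ofPred_eq]
  unfold wK
  simp only [Set.mem_union, Finset.mem_coe, mem_wht, Function.comp_apply]
  by_cases hv : v = b
  · subst hv
    rw [if_pos rfl, hw, glue_self]
    simp [hna, hnb, ha, hb]
  · rw [if_neg hv, hw, glue_of_ne hv]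

/-- the cluster, as a function of the finite colouring -/
theorem CP_eq (hI : InjP ε p) (hS : (SP D ε p : Set ℂ) ⊆ ptP ε p '' presP p) {a b : ℂ}
    (ha : a ∈ IP D ε p) (hb : b ∈ IP D ε p) (k : ZMod 3) (c : Col) :
    CP D ε a b k p c = Cl (NP D ε p).toTrg
      (wK (NP D ε p) k (wht (IP D ε p) (ixP ε p ∘ glue a b) c : Set ℂ))
        ((NP D ε p).ex (k + 1)).2 := by
  unfold CP
  rw [mrg_wP hI hS ha hb]

/-- the event of the functional, on finite colourings -/
def PSS (D : Dom) (ε : ℝ) (a b : ℂ) (t : ℂ × ℂ × ℂ) (k : ZMod 3) (p : Pos) (β : Finset ℂ) : Prop :=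
  SS (killE (NP D ε p) a b) k (wK (NP D ε p) k (β : Set ℂ)) t

/-- the site `v` touches the cluster, on finite colourings -/
def PT (D : Dom) (ε : ℝ) (k : ZMod 3) (p : Pos) (v : ℂ) (β : Finset ℂ) : Prop :=
  Tch (NP D ε p).toTrg (Cl (NP D ε p).toTrg (wK (NP D ε p) k (β : Set ℂ))
    ((NP D ε p).ex (k + 1)).2) v

/-- the index `i` is explored, on finite colourings -/
def PJ (D : Dom) (ε : ℝ) (a b : ℂ) (k : ZMod 3) (p : Pos) (i : Idx) (β : Finset ℂ) : Prop :=
  i ∈ presP p ∧ ptP ε p i ∈ IP D ε p ∧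
    ((ptP ε p i ≠ b ∧ PT D ε k p (ptP ε p i) β) ∨ (ptP ε p i = a ∧ PT D ε k p b β))

/-- the functional, as a function of the finite colouring -/
theorem FP_eq (hI : InjP ε p) (hS : (SP D ε p : Set ℂ) ⊆ ptP ε p '' presP p) {a b : ℂ}
    (ha : a ∈ IP D ε p) (hb : b ∈ IP D ε p) (t : ℂ × ℂ × ℂ) (k : ZMod 3) (c : Col) :
    FP D ε a b t k p c =
      if PSS D ε a b t k p (wht (IP D ε p) (ixP ε p ∘ glue a b) c) then 1 else 0 := by
  unfold FP PSS
  rw [mrg_wP hI hS ha hb]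

lemma wht_update {I V : Type*} [DecidableEq I] (V0 : Finset V) (ix : V → I)
    (c : I → unitInterval) (i : I)
    {t t' : unitInterval} (h : (t : ℝ) < 1 / 2 ↔ (t' : ℝ) < 1 / 2) :
    wht V0 ix (update c i t) = wht V0 ix (update c i t') := by
  ext v
  rw [mem_wht, mem_wht]
  by_cases hv : ix v = i
  · subst hv
    simp only [update_self, h]
  · rw [update_of_ne hv, update_of_ne hv]

lemma wht_mono {I V : Type*} [DecidableEq I] (V0 : Finset V) (ix : V → I)
    (c : I → unitInterval) (i : I) :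
    wht V0 ix (update c i 0) ⊆ wht V0 ix (update c i 1) := by
  intro v hv
  rw [mem_wht] at hv ⊢
  refine ⟨hv.1, ?_⟩
  by_cases h : ix v = i
  · rw [h, update_self]
    norm_num
  · rw [update_of_ne h]
    rw [update_of_ne h] at hv
    exact hv.2

lemma PSS_anti {a b : ℂ} {t : ℂ × ℂ × ℂ} {k : ZMod 3} {β β' : Finset ℂ} (h : β ⊆ β')
    (h1 : PSS D ε a b t k p β') : PSS D ε a b t k p β := by
  unfold PSS at *
  refine ss_anti ?_ h1
  unfold wK
  exact Set.union_subset_union_right _ (by exact_mod_cast h)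

theorem nice_FP (hI : InjP ε p) (hS : (SP D ε p : Set ℂ) ⊆ ptP ε p '' presP p) {a b : ℂ}
    (ha : a ∈ IP D ε p) (hb : b ∈ IP D ε p) (t : ℂ × ℂ × ℂ) (k : ZMod 3) (T : Finset Idx) :
    Nice (FP D ε a b t k p) T := by
  have e := FP_eq (D := D) hI hS ha hb t k
  refine ⟨?_, ?_, ?_, ?_, ?_⟩
  · rw [funext e]
    exact Measurable.ite (meas_wht (IP D ε p) (ixP ε p ∘ glue a b) (PSS D ε a b t k p))
      measurable_const measurable_const
  · intro c
    rw [e]
    split_ifs <;> norm_num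
  · intro c
    rw [e]
    split_ifs <;> norm_num
  · intro i _ c t1 t2 h
    simp only [e]
    rw [wht_update _ _ _ _ h]
  · intro i _ c
    rw [e, e]
    have h2 := wht_mono (IP D ε p) (ixP ε p ∘ glue a b) c i
    by_cases h3 : PSS D ε a b t k p (wht (IP D ε p) (ixP ε p ∘ glue a b) (update c i 1))
    · rw [if_pos h3, if_pos (PSS_anti h2 h3)]
    · rw [if_neg h3]
      split_ifs <;> norm_num

lemma mem_JP (hI : InjP ε p) (hS : (SP D ε p : Set ℂ) ⊆ ptP ε p '' presP p) {a b : ℂ}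
    (ha : a ∈ IP D ε p) (hb : b ∈ IP D ε p) (k : ZMod 3) (c : Col) (i : Idx) :
    i ∈ JP D ε a b k p c ↔
      PJ D ε a b k p i (wht (IP D ε p) (ixP ε p ∘ glue a b) c) := by
  unfold JP PJ PT
  rw [← CP_eq hI hS ha hb]
  exact Iff.rfl

theorem CP_congr (hI : InjP ε p) (hS : (SP D ε p : Set ℂ) ⊆ ptP ε p '' presP p) {a b : ℂ}
    (ha : a ∈ IP D ε p) (hb : b ∈ IP D ε p) (k : ZMod 3) (x y : Col)
    (hxy : ∀ i ∈ JP D ε a b k p x, x i = y i) : CP D ε a b k p y = CP D ε a b k p x := by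
  have hroot : ∀ c : Col, ((NP D ε p).ex (k + 1)).2 ∈ mrg a b (wP D ε k p c) := by
    intro c
    rw [mrg_wP hI hS ha hb]
    exact Or.inl (arc_root _ _)
  unfold CP
  refine Cl_congr ⟨fun _ => hroot _, fun _ => hroot _⟩ ?_
  rintro v ⟨u, hu1, hu2⟩
  have hT : Tch (NP D ε p).toTrg (CP D ε a b k p x) v := Or.inr ⟨u, hu1, hu2⟩
  have hi : v ∈ IP D ε p → x (ixP ε p (glue a b v)) = y (ixP ε p (glue a b v)) := by
    intro hv
    apply hxy
    by_cases hvb : v = b
    · subst hvb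
      rw [glue_self]
      have h1 := ixP_spec (hS (IP_sub D ε p ha))
      refine ⟨h1.1, ?_, Or.inr ⟨h1.2, hT⟩⟩
      rw [h1.2]; exact ha
    · rw [glue_of_ne hvb]
      have h1 := ixP_spec (hS (IP_sub D ε p hv))
      refine ⟨h1.1, ?_, Or.inl ?_⟩
      · rw [h1.2]; exact hv
      · rw [h1.2]; exact ⟨hvb, hT⟩
  rw [mrg_wP hI hS ha hb, mrg_wP hI hS ha hb]
  unfold wK
  simp only [Set.mem_union, Finset.mem_coe, mem_wht, Function.comp_apply]
  by_cases hv : v ∈ IP D ε p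
  · rw [hi hv]
  · simp [hv]

theorem stop_FP (hI : InjP ε p) (hS : (SP D ε p : Set ℂ) ⊆ ptP ε p '' presP p) {a b : ℂ}
    (ha : a ∈ IP D ε p) (hb : b ∈ IP D ε p) (t : ℂ × ℂ × ℂ) (k : ZMod 3) :
    Stop (FP D ε a b t k p) (JP D ε a b k p) := by
  refine ⟨?_, ?_, ?_⟩
  · intro i
    have h1 : {c | i ∈ JP D ε a b k p c} =
        {c | PJ D ε a b k p i (wht (IP D ε p) (ixP ε p ∘ glue a b) c)} := by
      ext c
      exact mem_JP hI hS ha hb k c i
    rw [h1]
    exact meas_wht (IP D ε p) (ixP ε p ∘ glue a b) (PJ D ε a b k p i)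
  · intro x y hxy
    unfold JP
    rw [CP_congr hI hS ha hb k x y hxy]
  · intro x y hxy
    have h1 := CP_congr hI hS ha hb k x y hxy
    have h2 : SS (killE (NP D ε p) a b) k (mrg a b (wP D ε k p y)) t ↔
        SS (killE (NP D ε p) a b) k (mrg a b (wP D ε k p x)) t := ss_congr h1
    unfold FP
    by_cases h3 : SS (killE (NP D ε p) a b) k (mrg a b (wP D ε k p x)) t
    · rw [if_pos h3, if_pos (h2.2 h3)]
    · rw [if_neg h3, if_neg (fun h4 => h3 (h2.1 h4))]

/-- **leaf Y5b** -/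
theorem y5b : Y5b := fun _ _ _ _ hI _ _ hS _ _ _ hH k =>
  ⟨fun T => nice_FP hI hS hH.ina hH.inb _ k T, stop_FP hI hS hH.ina hH.inb _ k⟩

lemma half_ne (hN : HNet (SP D ε p) (NP D ε p)) {a b : ℂ} {t : ℂ × ℂ × ℂ}
    (hH : Half D ε p a b t) : a ≠ b := by
  have h1 : (a, b, t.2.2) ∈ (NP D ε p).T := by
    rw [hN.tri, ← hH.t1, ← hH.t2]; exact hH.mem
  exact (NP D ε p).ne h1

lemma half_E (hN : HNet (SP D ε p) (NP D ε p)) {a b : ℂ} {t : ℂ × ℂ × ℂ}
    (hH : Half D ε p a b t) : (a, b) ∈ (NP D ε p).toTrg.E := by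
  have h1 : (a, b, t.2.2) ∈ (NP D ε p).T := by
    rw [hN.tri, ← hH.t1, ← hH.t2]; exact hH.mem
  exact E_of_mem h1

lemma card_coe_filter (s : Finset (Finset ℂ)) (P : Set ℂ → Prop) :
    ((do let a ← s; pure (a : Set ℂ) : Finset (Set ℂ)).filter P).card =
      (s.filter fun w : Finset ℂ => P (w : Set ℂ)).card := by
  have h1 : (do let a ← s; pure (a : Set ℂ) : Finset (Set ℂ)) =
      s.image (fun w : Finset ℂ => (w : Set ℂ)) := by
    ext x
    simp only [Finset.bind_def, Finset.pure_def, Finset.mem_sup, Finset.mem_singleton,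
      Finset.mem_image]
    constructor
    · rintro ⟨v, hv, rfl⟩; exact ⟨v, hv, rfl⟩
    · rintro ⟨v, hv, rfl⟩; exact ⟨v, hv, rfl⟩
  rw [h1, Finset.filter_image, Finset.card_image_of_injective _ Finset.coe_injective]

/-- **leaf Y5a** -/
theorem y5a : Y5a := by
  intro D ε p _ hI hN hA hS a b t hH k
  have hab := half_ne hN hH
  have hE := half_E hN hH
  have h1 : av (FP D ε a b t k p) = (cl Idx).real {c : Col |
      PSS D ε a b t k p (wht (IP D ε p) (ixP ε p ∘ glue a b) c)} := by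
    have h2 := integral_indicator_one (μ := cl Idx) (meas_wht (IP D ε p) (ixP ε p ∘ glue a b)
      (PSS D ε a b t k p))
    rw [← h2]
    unfold av
    apply integral_congr_ae
    refine Filter.Eventually.of_forall fun c => ?_
    simp only [FP_eq (D := D) hI hS hH.ina hH.inb t k c, Set.indicator_apply, Set.mem_ofPred_eq,
      Pi.one_apply]
  rw [card_coe_filter, h1, real_wht_glue (ix_injOn hS) hH.ina hH.inb hab,
    card_whs hN hA hH.ina hH.inb hE k (fun w => SS (killE (NP D ε p) a b) k w t)]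
  have h3 := card_whs hN hA hH.ina hH.inb hE k (fun _ => True)
  simp only [and_true, Finset.filter_true] at h3
  rw [h3]
  have h4 := card_equal (V0 := innN (NP D ε p) (SP D ε p)) hH.inb hab
  have h5 : (((innN (NP D ε p) (SP D ε p)).powerset.filter fun β : Finset ℂ =>
      (a ∈ β ↔ b ∈ β)).card : ℝ) * 2 = 2 ^ (innN (NP D ε p) (SP D ε p)).card := by
    exact_mod_cast h4
  unfold IP
  rw [← h5, mul_div_mul_right _ _ (by norm_num : (2 : ℝ) ≠ 0)]
  rfl

lemma PT_le (hS : (SP D ε p : Set ℂ) ⊆ ptP ε p '' presP p) {a b : ℂ}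
    (ha : a ∈ IP D ε p) (hb : b ∈ IP D ε p) (hab : a ≠ b) (k : ZMod 3) {δ : ℝ} {v : ℂ}
    (h : (((IP D ε p).powerset.filter (PT D ε k p v)).card : ℝ) ≤ δ * 2 ^ (IP D ε p).card) :
    (cl Idx).real {c : Col | PT D ε k p v (wht (IP D ε p) (ixP ε p ∘ glue a b) c)} ≤ 2 * δ :=
  real_wht_glue_le (ix_injOn hS) ha hb hab (PT D ε k p v) h

/-- **leaf Y5c** -/
theorem y5c : Y5c := by
  intro D ε p _ hI hN hA hS a b t hH k δ B haB hbB hδ i hi
  have hab := half_ne hN hH
  have hδ0 : 0 ≤ δ := by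
    have h1 := hδ a haB hH.ina
    by_contra h2
    push Not at h2
    have h3 : δ * 2 ^ (IP D ε p).card < 0 := mul_neg_of_neg_of_pos h2 (by positivity)
    have h4 := h1.trans_lt h3
    exact absurd h4 (not_lt.2 (Nat.cast_nonneg _))
  have hP : ∀ v ∈ B, v ∈ IP D ε p →
      (cl Idx).real {c : Col | PT D ε k p v (wht (IP D ε p) (ixP ε p ∘ glue a b) c)} ≤ 2 * δ :=
    fun v hv hv' => by
      have h1 := hδ v hv hv'
      rw [card_coe_filter] at h1
      exact PT_le hS hH.ina hH.inb hab k h1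
  by_cases h0 : i ∈ presP p ∧ ptP ε p i ∈ IP D ε p
  · have h1 : {c : Col | i ∈ JP D ε a b k p c} ⊆
        {c : Col | PT D ε k p (ptP ε p i) (wht (IP D ε p) (ixP ε p ∘ glue a b) c)} ∪
        {c : Col | PT D ε k p b (wht (IP D ε p) (ixP ε p ∘ glue a b) c)} := by
      intro c hc
      have hc' : i ∈ JP D ε a b k p c := hc
      rw [mem_JP hI hS hH.ina hH.inb] at hc'
      rcases hc'.2.2 with h2 | h2
      · exact Or.inl h2.2
      · exact Or.inr h2.2
    calc (cl Idx).real {c | i ∈ JP D ε a b k p c}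
        ≤ (cl Idx).real ({c : Col | PT D ε k p (ptP ε p i)
            (wht (IP D ε p) (ixP ε p ∘ glue a b) c)} ∪
          {c : Col | PT D ε k p b (wht (IP D ε p) (ixP ε p ∘ glue a b) c)}) :=
          measureReal_mono h1
      _ ≤ _ := measureReal_union_le _ _
      _ ≤ 2 * δ + 2 * δ := add_le_add (hP _ hi h0.2) (hP b hbB hH.inb)
      _ = 4 * δ := by ring
  · have h1 : {c : Col | i ∈ JP D ε a b k p c} = ∅ := by
      ext c
      simp only [Set.mem_ofPred_eq, Set.mem_empty_iff_false, iff_false]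
      intro h2
      exact h0 ⟨h2.1, h2.2.1⟩
    have h2 : (cl Idx).real {c : Col | i ∈ JP D ε a b k p c} = 0 := by
      rw [h1]; simp
    exact h2.le.trans (by linarith)

end sample

end Crest.Agent.R143.Y5bx315
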