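import Crest.Agent.R143.Y9N_831
import Crest.Agent.R143.Del4_304
import Crest.Agent.R143.Y3_877
import Crest.Agent.R143.Y3s_877
import Crest.Agent.R143.Y5b_315
import Crest.Agent.R143.M5_304
import Crest.Agent.R143.M67_877
import Crest.Agent.R143.PoisM3_930
import Crest.Agent.R143.DomD_722

/-!
# R143, block Y (helper831): `CSAM` from `OA` and `Y8`
-/

set_option autoImplicit false

noncomputable section

open scoped Classical

namespace Crest.Agent.R143.Y9Fx831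

open MeasureTheory Set Filter Topology Function
open Crest.ProbabilityR.Voronoi
open Crest.Agent.R143.B0x346 Crest.Agent.R143.B0Dx346 Crest.Agent.R143.PP1x831
open Crest.Agent.R143.Y0x831 Crest.Agent.R143.Lawx831 Crest.Agent.R143.Y5Dx831
open Crest.Agent.R143.Y6Ax831 Crest.Agent.R143.Y6Bx831 Crest.Agent.R143.Y1x126
open Crest.Agent.R143.Y8Dx831 Crest.Agent.R143.Y9Ax831 Crest.Agent.R143.Y9Bx831
open Crest.Agent.R143.Y9Cx831 Crest.Agent.R143.Y9Ex831 Crest.Agent.R143.Y9Nx831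
open Crest.Agent.R143.Y9Dx831 Crest.Agent.R143.Mollx887 Crest.Agent.R143.Asmx336
open Crest.Agent.R143.B6x654 Crest.Agent.R143.CovCx126 Crest.Agent.R143.B6Ix903
open scoped ENNReal

local notation "smk" => Crest.Agent.R143.Lawx831.mk
local notation "del" => Crest.Agent.R143.Var2x831.del

/-- the proved leaves -/
theorem yl : YL where
  h3 := Y3x877.y3
  h3s := Y3sx877.y3s
  h4 := Del4x304.y4
  h4a := Del4x304.y4a
  h5a := Y5bx315.y5a
  h5b := Y5bx315.y5b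
  h5c := Y5bx315.y5c

/-- the failure probability of `GQ` -/
theorem gq_prob {D : Dom} {Rb R1 ε C K a C4 η : ℝ} (hε : 0 < ε) (hR1 : 0 < R1)
    (hq : ∀ k, ‖D.q k‖ = 1)
    (hMP : sampleLaw {ω | ¬ GoodB Rb ε C K a C4 ω} ≤ ENNReal.ofReal (ε ^ (30 : ℝ)))
    (hM6 : posLaw {p | ∃ k : ℤ × ℤ, (cellS ε k ∩ Metric.closedBall (0 : ℂ) (2 * R1)).Nonempty ∧
      η * Real.log (1 / ε) < ((p k).1 : ℝ)} ≤ ENNReal.ofReal (ε ^ (30 : ℝ))) :
    posLaw {p | ¬ GQ D Rb R1 ε C K a C4 ⌊η * Real.log (1 / ε)⌋₊ p} ≤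
      ENNReal.ofReal (2 * ε ^ (30 : ℝ)) := by
  set A1 : Set Pos := {p | ¬ GoodB Rb ε C K a C4 (smk p fun _ => 0)} with hA1
  set A2 : Set Pos := {p | ∃ k : ℤ × ℤ, (cellS ε k ∩ Metric.closedBall (0 : ℂ) (2 * R1)).Nonempty ∧
      η * Real.log (1 / ε) < ((p k).1 : ℝ)} with hA2
  set A3 : Set Pos := {p | ¬ InjP ε p} with hA3
  set A4 : Set Pos := {p | ¬ ∀ k : ZMod 3, ∀ v ∈ points ε (smk p fun _ => 0), ∀ t : ℝ,
    v ≠ D.c + t * D.q k} with hA4
  have hsub : {p | ¬ GQ D Rb R1 ε C K a C4 ⌊η * Real.log (1 / ε)⌋₊ p} ⊆ A1 ∪ A2 ∪ (A3 ∪ A4) := by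
    intro p hp
    by_contra hn
    simp only [Set.mem_union, not_or] at hn
    obtain ⟨⟨n1, n2⟩, n3, n4⟩ := hn
    simp only [hA1, hA3, hA4, Set.mem_ofPred_eq, not_not] at n1 n3 n4
    refine hp ⟨n1, n3, n4, ?_⟩
    intro k hk
    apply Nat.le_floor
    by_contra hlt
    rw [not_le] at hlt
    refine n2 ⟨k, ?_, hlt⟩
    have hmem : ptP ε p (k, 0) ∈ cellS ε k := ptP_mem ε p (k, 0)
    exact ⟨_, hmem, cell_sub hε hR1 hk hmem⟩
  have b1 : posLaw A1 ≤ ENNReal.ofReal (ε ^ (30 : ℝ)) := by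
    refine (pos_of_sample (fun ω => GoodB Rb ε C K a C4 ω) ?_).trans hMP
    intro p c c' h
    exact GoodB_congr (by rw [points_mk, points_mk]) h
  have b3 : posLaw A3 = 0 := by
    have h := pos_of_sample_ae (fun ω => ∀ p ∈ present ω, ∀ q ∈ present ω,
      point ε ω (p.1, p.2.1) p.2.2 = point ε ω (q.1, q.2.1) q.2.2 → p = q) ?_
      ((PoisM3x930.m3a ε hε).mono fun ω h => h.2.1)
    · rw [ae_iff] at h
      refine measure_mono_null ?_ h
      intro p hp hcon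
      apply hp
      intro i hi j hj hij
      have h2 := hcon (i.1.1, i.1.2, i.2) ((present_mk p _ _).2 hi) (j.1.1, j.1.2, j.2)
        ((present_mk p _ _).2 hj) (by
          rw [point_mk, point_mk]; exact hij)
      simp only [Prod.mk.injEq] at h2
      exact Prod.ext (Prod.ext h2.1 h2.2.1) h2.2.2
    · intro p c c' h x hx y hy hxy
      refine h x ((present_mk p c x).2 ((present_mk p c' x).1 hx)) y
        ((present_mk p c y).2 ((present_mk p c' y).1 hy)) ?_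
      rw [point_mk, point_mk] at hxy ⊢
      exact hxy
  have b4 : posLaw A4 = 0 := by
    have h : ∀ᵐ ω ∂sampleLaw, ∀ k : ZMod 3, ∀ v ∈ points ε ω, ∀ t : ℝ, v ≠ D.c + t * D.q k := by
      rw [ae_all_iff]
      intro k
      refine ae_ray hε D.c ?_
      intro h0
      have := hq k
      rw [h0, norm_zero] at this
      exact zero_ne_one this
    have h2 := pos_of_sample_ae (fun ω => ∀ k : ZMod 3, ∀ v ∈ points ε ω, ∀ t : ℝ,
      v ≠ D.c + t * D.q k) (by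
        intro p c c' h k v hv t
        refine h k v ?_ t
        rw [points_mk] at hv ⊢
        exact hv) h
    rw [ae_iff] at h2
    exact h2
  calc posLaw {p | ¬ GQ D Rb R1 ε C K a C4 ⌊η * Real.log (1 / ε)⌋₊ p}
      ≤ posLaw (A1 ∪ A2 ∪ (A3 ∪ A4)) := measure_mono hsub
    _ ≤ (posLaw A1 + posLaw A2) + (posLaw A3 + posLaw A4) :=
        (measure_union_le _ _).trans (add_le_add (measure_union_le _ _) (measure_union_le _ _))
    _ ≤ (ENNReal.ofReal (ε ^ (30 : ℝ)) + ENNReal.ofReal (ε ^ (30 : ℝ))) + (0 + 0) := by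
        rw [b3, b4]
        exact add_le_add (add_le_add b1 hM6) le_rfl
    _ = ENNReal.ofReal (2 * ε ^ (30 : ℝ)) := by
        rw [add_zero, add_zero, ← ENNReal.ofReal_add (by positivity) (by positivity)]
        congr 1; ring

/-- the kernel of `Db` -/
def kd (r : ℝ) (z : ℂ) : ℂ := (starRingEnd ℂ) (kb r z)

theorem kd_norm (r : ℝ) (z : ℂ) : ‖kd r z‖ = ‖kb r z‖ := Complex.norm_conj _

theorem kd_meas (r : ℝ) : Measurable (kd r) :=
  (Complex.continuous_conj.comp (kb_continuous r)).measurable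

theorem kd_int {r : ℝ} (hr : 0 < r) : Integrable (kd r) := by
  refine (kb_integrable hr).mono (kd_meas r).aestronglyMeasurable (ae_of_all _ fun z => ?_)
  rw [kd_norm]

theorem lint_two {g1 g2 : Pos → ℂ} (h1 : Measurable g1) (h2 : Measurable g2) {B : ℝ}
    (b1 : ∀ p, ‖g1 p‖ ≤ B) (b2 : ∀ p, ‖g2 p‖ ≤ B) {s e : ℂ} {x : ℝ}
    (i1 : ∫ p, ‖g1 p - s‖ ∂posLaw ≤ x) (i2 : ∫ p, ‖g2 p - e‖ ∂posLaw ≤ x) :
    ∫⁻ p, ENNReal.ofReal (‖g1 p - s‖ + ‖g2 p - e‖) ∂posLaw ≤ ENNReal.ofReal (2 * x) := by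
  have j : ∀ (g : Pos → ℂ) (w : ℂ), Measurable g → (∀ p, ‖g p‖ ≤ B) →
      Integrable (fun p => ‖g p - w‖) posLaw := by
    intro g w hg hb
    refine Integrable.of_bound (C := B + ‖w‖) (hg.sub_const w).norm.aestronglyMeasurable
      (ae_of_all _ fun p => ?_)
    rw [norm_norm]
    exact (norm_sub_le _ _).trans (add_le_add_left (hb p) _)
  have k1 := j g1 s h1 b1
  have k2 := j g2 e h2 b2
  rw [← ofReal_integral_eq_lintegral_ofReal (μ := posLaw)
    (f := fun p => ‖g1 p - s‖ + ‖g2 p - e‖) (k1.add k2) (ae_of_all _ fun p => by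
      simp only [Pi.zero_apply]; positivity)]
  apply ENNReal.ofReal_le_ofReal
  have := integral_add k1 k2
  calc ∫ p, (‖g1 p - s‖ + ‖g2 p - e‖) ∂posLaw = ∫ p, ‖g1 p - s‖ ∂posLaw + ∫ p, ‖g2 p - e‖ ∂posLaw :=
        this
    _ ≤ 2 * x := by linarith

/-- **concentration for one domain** -/
theorem csam (hOA : OA) (h8 : Y8) : CSAM := by
  intro D δ R1 Rb hOK hc hF hEXJ hLb C K a C4 hC hK ha hC4 hMP
  obtain ⟨c, hc0, hOAe⟩ := hOA D δ hOK R1 C K a C4 hF.pos hC hK ha hC4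
  obtain ⟨d8, hd8, H8⟩ := h8 DomDx722.arc Y3sx877.y3c D δ R1 hOK hF hEXJ
  obtain ⟨d5, hd5, H5⟩ := M5x304.m5y D δ hOK
  refine ⟨cc c, cc_pos hc0, fun κ hκ hκ4 => ?_⟩
  have hη : 0 < c / 16 := by positivity
  have hR1 := hF.pos
  have ev0 : ∀ᶠ ε : ℝ in 𝓝[>] 0, 0 < ε := eventually_mem_nhdsWithin
  have ev1 : ∀ᶠ ε : ℝ in 𝓝[>] 0, ε < 1 / 2 :=
    nhdsWithin_le_nhds (eventually_lt_nhds (by norm_num : (0 : ℝ) < 1 / 2))
  have ev2 : ∀ᶠ ε : ℝ in 𝓝[>] 0, ε ≤ rad C ε := by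
    have h1 : Tendsto (fun ε : ℝ => Real.log (1 / ε)) (𝓝[>] 0) atTop := by
      simp_rw [one_div, Real.log_inv]
      exact tendsto_neg_atBot_atTop.comp Real.tendsto_log_nhdsGT_zero
    filter_upwards [ev0, h1.eventually_ge_atTop ((1 / C) ^ 2)] with ε e0 e1
    unfold rad
    have h2 : 1 / C ≤ √(Real.log (1 / ε)) := Real.le_sqrt_of_sq_le e1
    have h3 : 1 ≤ C * √(Real.log (1 / ε)) := by
      rw [div_le_iff₀ hC] at h2; linarith
    nlinarith
  have evr : Tendsto (fun ε : ℝ => rad C ε) (𝓝[>] 0) (𝓝 0) := by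
    have h1 : Tendsto (fun ε : ℝ => ε ^ (15 / 16 : ℝ)) (𝓝[>] 0) (𝓝 0) := by
      have h2 : Tendsto (fun ε : ℝ => ε ^ (15 / 16 : ℝ)) (𝓝 0) (𝓝 ((0 : ℝ) ^ (15 / 16 : ℝ))) :=
        (Real.continuousAt_rpow_const 0 _ (Or.inr (by norm_num))).tendsto
      rw [Real.zero_rpow (by norm_num)] at h2
      exact h2.mono_left nhdsWithin_le_nhds
    refine squeeze_zero' ?_ (ev_rad hC) h1
    filter_upwards [ev0] with ε e0
    unfold rad; positivity
  have ev3 : ∀ᶠ ε : ℝ in 𝓝[>] 0, rad C ε ≤ min d8 (min (d5 / 3) (D.L / 8)) :=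
    (evr.eventually_lt_const (lt_min hd8 (lt_min (by positivity)
      (by have := hOK.Lpos; positivity)))).mono fun _ h => h.le
  have ev4 : ∀ᶠ ε : ℝ in 𝓝[>] 0, ε ^ κ ≤ R1 := by
    filter_upwards [ev_rpow_le hκ (1 / R1)] with ε h
    rw [one_div, inv_mul_le_iff₀ hR1, mul_one] at h
    exact h
  filter_upwards [ev0, ev1, ev2, ev3, ev4, hOAe, M67x877.m6 (2 * R1) 30 (c / 16) hη, hMP,
    ev_rad hC, ev_num hc0 hκ hκ4 hR1] with ε e0 e1 e2 e3 e4 e5 e6 e7 e8 e9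
  set d := rad C ε with hd
  have hd0 : 0 < d := e0.trans_le e2
  have hdd8 : d ≤ d8 := e3.trans (min_le_left _ _)
  have hdd5 : 3 * d ≤ d5 := by
    have := e3.trans ((min_le_right _ _).trans (min_le_left _ _)); linarith
  have hdL : 8 * d ≤ D.L := by
    have := e3.trans ((min_le_right _ _).trans (min_le_right _ _)); linarith
  obtain ⟨f, hfm, hfb, hfp⟩ := H5 ε e0
  set M := ⌊c / 16 * Real.log (1 / ε)⌋₊ with hM
  set n := ⌊R1 / ε⌋ with hn
  set r := ε ^ κ with hr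
  have hr0 : 0 < r := Real.rpow_pos_of_pos e0 _
  set Q : Pos → Prop := GQ D Rb R1 ε C K a C4 M with hQ
  have hgood : ∀ p, Q p → Good D ε C K a C4 (smk p fun _ => 0) := fun p hp =>
    Y9Bx831.GoodB.good hp.good hc hLb
  have h8' : ∀ p, Q p → Y8c D R1 ε d p := by
    intro p hp
    obtain ⟨a1, a2, a3, a4⟩ := H8 ε d (K * Real.log (1 / ε)) p e0 e2 hdd8 (hgood p hp).env hp.inj
    exact ⟨a1, a2, a3, a4⟩
  have hOA' : ∀ p, Q p → OAc D R1 ε (ε ^ c) p := fun p hp v hv h1 h2 k =>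
    e5 (smk p fun _ => 0) (hgood p hp) v hv h1 h2 k
  have hf : ∀ p, Q p → ∀ z, f (p, z) = hval (NP D ε p) z := by
    intro p hp z
    rw [hfp d p hd0 (by linarith) ⟨⟨_, (hgood p hp).env⟩, hp.inj,
      fun k v hv t _ => hp.ray k v hv t⟩ z]
    rfl
  have hf' : ∀ p, Q p → ∀ k ∈ KF n, ∀ z, f (del k p, z) = hval (NP D ε (del k p)) z := by
    intro p hp k hk z
    obtain ⟨g1, g2, M', g3⟩ := (h8' p hp).blk k (by rw [hc]; exact cell_sub e0 hR1 hk)
    rw [hfp (3 * d) (del k p) (by positivity) hdd5 ⟨⟨M', g3⟩, g1.inj, ?_⟩ z]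
    · rfl
    · intro j v hv t _
      rw [points_del hp.inj] at hv
      exact hp.ray j v hv.1 t
  obtain ⟨p0, hp0⟩ := exists_freeze (KF n) Q
  have hbad : posLaw {p | ¬ Q ((KF n).piecewise p p0)} ≤ ENNReal.ofReal (2 * ε ^ (30 : ℝ)) :=
    hp0.trans (gq_prob e0 hR1 hOK.qn e7 e6)
  have h30 : 2 * ε ^ (30 : ℝ) ≤ ε ^ (28 : ℝ) := by
    have : ε ^ (30 : ℝ) = ε ^ (28 : ℝ) * ε ^ 2 := by
      rw [← Real.rpow_natCast ε 2, ← Real.rpow_add e0]; norm_num
    rw [this]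
    have h28 : 0 < ε ^ (28 : ℝ) := Real.rpow_pos_of_pos e0 _
    have h2 : 2 * ε ^ 2 ≤ 1 := by nlinarith
    nlinarith
  have hβ : (posLaw {p | ¬ Q ((KF n).piecewise p p0)}).toReal ≤ ε ^ (28 : ℝ) := by
    refine le_trans (ENNReal.toReal_le_of_le_ofReal (by positivity) hbad) h30
  have hcard : (((KF n).card : ℕ) : ℝ) ≤ 4 * R1 ^ 2 * ε ^ (-2 : ℝ) := card_KF e0 hR1
  have hMb : (4 : ℝ) ^ M * (M : ℝ) ≤ ε ^ (-(3 * (c / 16))) := M_bound e0 (by linarith) hη
  have hnum := e9 (KF n).card d (4 ^ M * M) (posLaw {p | ¬ Q ((KF n).piecewise p p0)}).toReal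
    (by positivity) hcard hd0.le e8 (by positivity) hMb ENNReal.toReal_nonneg hβ
  -- the two kernels
  have N1 : ∫ p, ‖gF f (kb r) (KF n) p0 p - ∫ y, gF f (kb r) (KF n) p0 y ∂posLaw‖ ∂posLaw ≤
      ε ^ (cc c - 2 * κ) / 16 := by
    have h := step yl hc hF e0 e2 (by positivity) h8' hOA' hfm hfb hf hf'
      (kb_continuous r).measurable (kb_integrable hr0)
      (fun z hz => by
        by_contra hlt
        rw [not_lt] at hlt
        exact hz (kb_zero hr0 (e4.trans hlt)))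
      (A := Lk / r ^ 3 * (Real.pi * (7 * d) ^ 2))
      (fun k _ => int_near (div_nonneg Lk_nonneg (by positivity)) (fun z => kb_sup hr0 z) hd0 k) p0
    rw [integral_norm_kb hr0] at h
    exact h.trans hnum
  have N2 : ∫ p, ‖gF f (kd r) (KF n) p0 p - ∫ y, gF f (kd r) (KF n) p0 y ∂posLaw‖ ∂posLaw ≤
      ε ^ (cc c - 2 * κ) / 16 := by
    have h := step yl hc hF e0 e2 (by positivity) h8' hOA' hfm hfb hf hf'
      (kd_meas r) (kd_int hr0)
      (fun z hz => by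
        by_contra hlt
        rw [not_lt] at hlt
        refine hz ?_
        unfold kd
        rw [kb_zero hr0 (e4.trans hlt), map_zero])
      (A := Lk / r ^ 3 * (Real.pi * (7 * d) ^ 2))
      (fun k _ => int_near (div_nonneg Lk_nonneg (by positivity))
        (fun z => by rw [kd_norm]; exact kb_sup hr0 z) hd0 k) p0
    simp only [kd_norm] at h
    rw [integral_norm_kb hr0] at h
    exact h.trans hnum
  -- the good event
  set T := toMeasurable posLaw {p | ¬ Q ((KF n).piecewise p p0)} with hT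
  have hTm : MeasurableSet T := measurableSet_toMeasurable _ _
  have hTQ : ∀ p, p ∉ T → Q ((KF n).piecewise p p0) := by
    intro p hp
    by_contra hn
    exact hp (subset_toMeasurable _ _ hn)
  set ω0 : Sample := smk p0 fun _ => 0 with hω0
  have hpts : ∀ ω, points ε (fr (Ksq n) ω ω0) =
      points ε (smk ((KF n).piecewise (posOf ω) p0) fun _ => 0) := by
    intro ω
    rw [points_posOf ε (fr (Ksq n) ω ω0), hω0, posOf_fr]
  have hkey : ∀ ω, posOf ω ∉ T → Good D ε C K a C4 (fr (Ksq n) ω ω0) ∧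
      Wd D ε (fr (Ksq n) ω ω0) ∧
      ∀ z, f ((KF n).piecewise (posOf ω) p0, z) = D.h ε (fr (Ksq n) ω ω0) z := by
    intro ω hω
    have hq := hTQ _ hω
    have hg := hgood _ hq
    refine ⟨Good_congr (hpts ω).symm hg, ⟨?_, ?_⟩, ?_⟩
    · rw [sites_congr (hpts ω)]
      exact (h8' _ hq).yg.hnet.gp
    · rw [sites_congr (hpts ω)]
      refine umark (DomAx722.dns_of_env hOK.Lpos hdL hg.env) hOK.qn ?_
      intro k s hs t _
      exact hq.ray k s ((DomAx722.mem_sites hg.env.fin).1 hs).1 t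
    · intro z
      rw [h_congr (hpts ω), hf _ hq z]
      rfl
  have hrel : ∀ ω, posOf ω ∉ T →
      Sb r (D.h ε (fr (Ksq n) ω ω0)) 0 = gF f (kb r) (KF n) p0 (posOf ω) ∧
      Db r (D.h ε (fr (Ksq n) ω ω0)) 0 = gF f (kd r) (KF n) p0 (posOf ω) := by
    intro ω hω
    have h3 := (hkey ω hω).2.2
    constructor
    · unfold Sb gF
      simp only [zero_add, h3]
    · rw [Db_eq]
      unfold gF kd
      simp only [zero_add, h3]
  refine ⟨fun q => f ((KF n).piecewise (posOf q.1) p0, q.2), ω0,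
    ∫ y, gF f (kb r) (KF n) p0 y ∂posLaw, ∫ y, gF f (kd r) (KF n) p0 y ∂posLaw,
    posOf ⁻¹' Tᶜ, ?_, fun q => hfb _, measurable_posOf hTm.compl, ?_, fun ω hω => hkey ω hω, ?_⟩
  · refine hfm.comp (Measurable.prodMk ?_ measurable_snd)
    exact (measurable_pw0 (KF n) p0).comp (measurable_posOf.comp measurable_fst)
  · have h1 : (posOf ⁻¹' Tᶜ)ᶜ = posOf ⁻¹' T := by
      rw [← Set.preimage_compl, compl_compl]
    rw [h1, posOf_mp.measure_preimage hTm.nullMeasurableSet, hT, measure_toMeasurable]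
    refine hbad.trans (ENNReal.ofReal_le_ofReal (h30.trans ?_))
    exact Real.rpow_le_rpow_of_exponent_ge e0 (by linarith) (by norm_num)
  · have hm1 : Measurable (gF f (kb r) (KF n) p0) :=
      measurable_gF hfm (kb_continuous r).measurable
    have hm2 : Measurable (gF f (kd r) (KF n) p0) := measurable_gF hfm (kd_meas r)
    have hb1 : ∀ p, ‖gF f (kb r) (KF n) p0 p‖ ≤ 3 * ∫ z, ‖kb r z‖ := fun p =>
      norm_gF_le hfb (kb_integrable hr0) p
    have hb2 : ∀ p, ‖gF f (kd r) (KF n) p0 p‖ ≤ 3 * ∫ z, ‖kb r z‖ := fun p => by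
      have := norm_gF_le (Kf := KF n) (p0 := p0) hfb (kd_int hr0) p
      simp only [kd_norm] at this
      exact this
    have hmm : Measurable fun p : Pos => ENNReal.ofReal
        (‖gF f (kb r) (KF n) p0 p - ∫ y, gF f (kb r) (KF n) p0 y ∂posLaw‖ +
          ‖gF f (kd r) (KF n) p0 p - ∫ y, gF f (kd r) (KF n) p0 y ∂posLaw‖) :=
      ((hm1.sub_const _).norm.add (hm2.sub_const _).norm).ennreal_ofReal
    calc ∫⁻ ω in posOf ⁻¹' Tᶜ, ENNReal.ofReal (‖Sb r (D.h ε (fr (Ksq n) ω ω0)) 0 -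
            ∫ y, gF f (kb r) (KF n) p0 y ∂posLaw‖ + ‖Db r (D.h ε (fr (Ksq n) ω ω0)) 0 -
            ∫ y, gF f (kd r) (KF n) p0 y ∂posLaw‖) ∂sampleLaw
        ≤ ∫⁻ ω in posOf ⁻¹' Tᶜ, ENNReal.ofReal (‖gF f (kb r) (KF n) p0 (posOf ω) -
            ∫ y, gF f (kb r) (KF n) p0 y ∂posLaw‖ + ‖gF f (kd r) (KF n) p0 (posOf ω) -
            ∫ y, gF f (kd r) (KF n) p0 y ∂posLaw‖) ∂sampleLaw := by
          refine setLIntegral_mono' (measurable_posOf hTm.compl) fun ω hω => ?_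
          rw [(hrel ω hω).1, (hrel ω hω).2]
      _ ≤ ∫⁻ ω, ENNReal.ofReal (‖gF f (kb r) (KF n) p0 (posOf ω) -
            ∫ y, gF f (kb r) (KF n) p0 y ∂posLaw‖ + ‖gF f (kd r) (KF n) p0 (posOf ω) -
            ∫ y, gF f (kd r) (KF n) p0 y ∂posLaw‖) ∂sampleLaw := setLIntegral_le_lintegral _ _
      _ = ∫⁻ p, ENNReal.ofReal (‖gF f (kb r) (KF n) p0 p -
            ∫ y, gF f (kb r) (KF n) p0 y ∂posLaw‖ + ‖gF f (kd r) (KF n) p0 p -
            ∫ y, gF f (kd r) (KF n) p0 y ∂posLaw‖) ∂posLaw := posOf_mp.lintegral_comp hmm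
      _ ≤ ENNReal.ofReal (2 * (ε ^ (cc c - 2 * κ) / 16)) := lint_two hm1 hm2 hb1 hb2 N1 N2
      _ ≤ ENNReal.ofReal (ε ^ (cc c - 2 * κ) / 2) := by
          apply ENNReal.ofReal_le_ofReal
          have : 0 < ε ^ (cc c - 2 * κ) := Real.rpow_pos_of_pos e0 _
          linarith

end Crest.Agent.R143.Y9Fx831
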