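import Crest.Agent.R143.Y8a_796
import Crest.Agent.R143.Y8b_780
import Crest.Agent.R143.Y9F_831
import Crest.Agent.R143.Y10C_126
import Crest.Agent.R143.Exl_922
import Crest.Agent.R143.OA_831

/-!
# R143 (helper831): block Y closed up to the rectangle bound `RB`

* `y8 : Y8` (780 + 796)
* `yout : RB → B6Ix903.YOUT`
-/

set_option autoImplicit false

noncomputable section

namespace Crest.Agent.R143.YFx831

open Crest.Agent.R143.B0x346 Crest.Agent.R143.B0Dx346
open Crest.Agent.R143.Y8Dx831 Crest.Agent.R143.Y9Dx831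

theorem y8 : Y8 :=
  Y8bx780.y8_of (fun _ _ _ _ _ k' hε hd hE hi => Y8ax796.env3 hε hd hE hi k')
    (fun _ _ _ _ _ _ _ hε hd hF hR hE hi hk hA => Y8ax796.blkOK hε hd hF hR hE hi hk hA)

/-- **block Y** : the reference system from the rectangle bound -/
theorem yout (hRB : RB0x838.RB) : B6Ix903.YOUT :=
  Y10Cx126.yout_of (Y9Fx831.csam (OAx831.oa hRB) y8) Exlx922.exjl

end Crest.Agent.R143.YFx831
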