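import Crest.Agent.R143.Spine3_422
import Crest.Agent.R143.B6F_654
import Crest.Agent.R143.LowF_991
import Crest.Agent.R143.ENBA_395
import Crest.Agent.R143.MG_501
import Crest.Agent.R143.YF_831
import Crest.Agent.R143.RB4_723

/-!
# Row 143 (S0194), SPINE 4: LMin from TR (helper422)

LMin (654) from TR, LOW (991), ENB (395), MG (501), YOUT (831, RB of 54 and 723).
-/

set_option autoImplicit false

noncomputable section

namespace Crest.Agent.R143.Spinex422

open Crest.Agent.R143.B0x346 Crest.Agent.R143.B0Dx346 Crest.Agent.R143.Cfgx416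

/-- **leaf LMin** modulo TR -/
theorem lmin_ad (hE : E3) (hTR : B6Ix903.TR) : LMin Dom.Ad :=
  B6Fx654.lmin (fun _ _ h => h) hTR (LowFx991.low hE) (ENBAx395.enb hE) MGx501.mg
    (YFx831.yout (Rect2x723.rb hE))

/-- **part B** modulo E3 and TR -/
theorem body_tr (hE : E3) (hTR : B6Ix903.TR) : Body := body_lmin hE (lmin_ad hE hTR)

end Crest.Agent.R143.Spinex422
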