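import Crest.Agent.R143.Spine3_422
import Crest.Agent.R143.Spine5_422

/-!
# Row 143 (S0194), SPINE 6: wiring of the weak spine (helper422)

`body_hol` : Body from the leaves LEqui, LALB, VAL (no E3 needed: from RSW) and LHol (core)
-/

set_option autoImplicit false

noncomputable section

namespace Crest.Agent.R143.Spinex422

open Crest.Agent.R143.B0x346 Crest.Agent.R143.B0Dx346 Crest.Agent.R143.Cfgx416

/-- **the whole row** modulo LEqui, LALB, VAL, LHol -/
theorem body_hol (he : LEqui Dom.Ad) (ha : LALB Dom.Ad) (hV : VAL) (hh : LHol Dom.Ad) : Body :=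
  final3 (Adm := Dom.Ad) ⟨lgood_ad, he, hh,
    dom_of ha (GeoSeqx416.ldom geo Cara4x723.cara hV D4Lx408.d4lo D4Ux408.d4up D4Lx606.d4col
      Crs6x117.p2b DomEx722.d2)⟩

/-- version with E3 -/
theorem body_e3 (hE : E3) (hh : LHol Dom.Ad) : Body :=
  body_hol (lequi_ad hE) (D3Cx802.lalb hE) (val hE) hh

end Crest.Agent.R143.Spinex422
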