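import Crest.Agent.R143.GeoSeqP_422
import Crest.Agent.R143.LimR_422
import Crest.Agent.R143.LEqF_63

/-!
# Row 143 (S0194), SPINE 8: domains with null frontier (helper422)

* `AdP` : admissible domains with `volume (frontier D.out) = 0`
* `lequi_mono`, `lalb_mono`, `lminW_mono`
* `body_g` : `Body` from `LMinW Adm`, `LDom' Adm` for any `Adm ≤ Dom.Ad`
* `body_p` : **`LMinW AdP → Body`**
-/

set_option autoImplicit false
set_option linter.all false

noncomputable section

namespace Crest.Agent.R143.Spine8x422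

open Set Filter Topology MeasureTheory
open Crest.ProbabilityR.Voronoi
open Crest.Agent.R143.B0x346 Crest.Agent.R143.B0Dx346
open Crest.Agent.R143.Spinex422 Crest.Agent.R143.Cfgx416 Crest.Agent.R143.GeoSeqPx422

theorem lequi_mono {A B : Dom → ℝ → Prop} (h : ∀ D δ, A D δ → B D δ) (hB : LEqui B) : LEqui A := by
  intro ρ hρ η hη
  obtain ⟨s, hs, h1⟩ := hB ρ hρ η hη
  exact ⟨s, hs, fun D δ hD => h1 D δ (h D δ hD)⟩

theorem lalb_mono {A B : Dom → ℝ → Prop} (h : ∀ D δ, A D δ → B D δ) (hB : LALB B) : LALB A := by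
  intro i η hη
  obtain ⟨Λ, hΛ, h1⟩ := hB i η hη
  exact ⟨Λ, hΛ, fun D δ hD => h1 D δ (h D δ hD)⟩

theorem lminW_mono {A B : Dom → ℝ → Prop} (h : ∀ D δ, A D δ → B D δ) (hB : LMinW B) : LMinW A :=
  fun D δ hD => hB D δ (h D δ hD)

theorem lgood_mono {A B : Dom → ℝ → Prop} (h : ∀ D δ, A D δ → B D δ) (hB : LGood B) : LGood A :=
  fun D δ hD => hB D δ (h D δ hD)

/-- **Body** from the two leaves for a smaller class of domains -/
theorem body_g {A : Dom → ℝ → Prop} (h : ∀ D δ, A D δ → Dom.Ad D δ) (hM : LMinW A)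
    (hD : LDom' A) : Body :=
  finalW (Adm := A) ⟨lgood_mono h lgood_ad, lequi_mono h LEqFx63.lequiAd, hM,
    dom_of (lalb_mono h LimRx422.lalb) hD⟩

theorem ldom_p : LDom' AdP :=
  ldomP Cara4x723.cara LimRx422.val D4Lx408.d4lo D4Ux408.d4up D4Lx606.d4col Crs6x117.p2b
    DomEx722.d2

/-- **the statement from one leaf, on domains with null frontier** -/
theorem body_p (h : LMinW AdP) : Body := body_g (fun D δ hD => hD.1) h ldom_p

end Crest.Agent.R143.Spine8x422
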