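import Crest.Agent.R143.Spine8_422
import Crest.Agent.R143.AsmO_758

/-!
# Row 143 (S0194), SPINE 9: the statement from 758's five leaves (helper422)

`body_five` : `NST`, `UIJ`, `BND`, `CONT`, `POLY` for the domains `AdP` give `Body`.
-/

set_option autoImplicit false
set_option linter.all false

noncomputable section

namespace Crest.Agent.R143.Spine9x422

open Crest.ProbabilityR.Voronoi
open Crest.Agent.R143.B0x346 Crest.Agent.R143.B0Dx346
open Crest.Agent.R143.Spinex422 Crest.Agent.R143.GeoSeqPx422 Crest.Agent.R143.AsmNx758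

/-- **the statement from the five leaves of the core** -/
theorem body_five {U U' : Type} {T : U → ℝ → Sample → ℂ} {T' : U' → ℝ → Sample → ℂ}
    (h1 : NST AdP) (h2 : UIJ AdP) (h3 : BND we AdP) (h3' : BND wd AdP)
    (h4 : CONT we T AdP) (h4' : CONT wd T' AdP) (h5 : POLY T T') : Body :=
  Spine8x422.body_p fun D δ hD => DicDx831.lmin_of_yw (Adm := AdP) (fun D δ h => h.1.w)
    (yw_of (fun D δ h => h.1.w) h1 h2 h3 h3' h4 h4' h5) D δ hD

end Crest.Agent.R143.Spine9x422
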