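import Crest.Agent.R143.Spine8_422
import Crest.Agent.R143.SeqK_904
import Crest.Agent.R143.Final_894

/-!
# Row 143 (S0194), FIX A (758), spine side, file 4 (helper904): the spine with `LMinK`

* `LMinK Adm` : the leaf with error: for domains in a fixed disc, with tentacles of width `δ ≤ θ`,
  the pairwise minimum is eventually `≤ η`
* `lminK_of_W : LMinW Adm → LMinK Adm`
* `body_k : LMinK AdP → Body`, `literal_k : LMinK AdP → statement of S0194`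
-/

set_option autoImplicit false
set_option linter.all false

noncomputable section

namespace Crest.Agent.R143.SpineKx904

open Complex Set Filter Topology MeasureTheory
open Crest.ProbabilityR.Voronoi
open Crest.Agent.R143.B0x346 Crest.Agent.R143.B0Dx346 Crest.Agent.R143.PP1x831
open Crest.Agent.R143.BC0x336 Crest.Agent.R143.EndAx336 Crest.Agent.R143.EndBx336
open Crest.Agent.R143.Mollx887 Crest.Agent.R143.Spinex422
open Crest.Agent.R143.GeoSeqPx422 Crest.Agent.R143.SeqKx904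

/-- **leaf MINW with error** (FIX A of 758): `θ` is chosen after a bound `L0` of the disc of the
domain, a lower bound `ρ` of the radii and the error `η`; the domain (tentacles of width `δ ≤ θ`), the
connectivity parameter `m`, the places and radii come after `θ` -/
def LMinK (Adm : Dom → ℝ → Prop) : Prop := ∀ L0 > 0, ∀ ρ > 0, ∀ η > 0, ∃ θ > 0,
  ∀ (D : Dom) (δ : ℝ), Adm D δ → ‖D.c‖ + D.L ≤ L0 → δ ≤ θ →
  ∀ G : ℝ → Set Sample, GoodFam D G → ∀ m > 0,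
  ∀ r ≥ ρ, ∀ z : ℂ, Room D (4 * r) z → Linked D m z →
  ∀ r' ≥ ρ, ∀ z' : ℂ, Room D (4 * r') z' → Linked D m z' →
    ∀ᶠ ε in 𝓝[>] (0 : ℝ), min ‖Sb r (HG D G ε) z‖ ‖Sb r' (cj (HG D G ε)) z'‖ ≤ η

theorem lminK_of_W {Adm : Dom → ℝ → Prop} (h : LMinW Adm) : LMinK Adm := by
  intro L0 hL0 ρ hρ η hη
  refine ⟨1, one_pos, fun D δ hD _ _ G hG m hm r hr z hz hz' r' hr' w hw hw' => ?_⟩
  have h1 := h D δ hD G hG m hm r (hρ.trans_le hr) z hz hz' r' (hρ.trans_le hr') w hw hw'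
  exact (h1.eventually_lt_const hη).mono fun _ h => h.le

theorem lminK_mono {A B : Dom → ℝ → Prop} (h : ∀ D δ, A D δ → B D δ) (hB : LMinK B) :
    LMinK A := by
  intro L0 hL0 ρ hρ η hη
  obtain ⟨θ, hθ, h1⟩ := hB L0 hL0 ρ hρ η hη
  exact ⟨θ, hθ, fun D δ hD => h1 D δ (h D δ hD)⟩

/-- leaf DOM with thin tentacles -/
def LDomK (Adm : Dom → ℝ → Prop) : Prop := ∀ (Θ : ℕ → ℝ → ℝ), (∀ n L, 0 < L → 0 < Θ n L) →
  ∀ (S : Dat) (b : ℂ), b ∈ frontier S.D → b ≠ S.d → S.φ b = S.x → ∀ up : Bool,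
  ∃ (rv : ℕ → Bool) (Dm : ℕ → Dom) (δ m : ℕ → ℝ), (∀ n, Adm (Dm n) (δ n)) ∧
    (∀ n, ∃ L0 > 0, ‖(Dm n).c‖ + (Dm n).L ≤ L0 ∧ δ n ≤ Θ n L0) ∧
    RoomOK S.D Dm m ∧ ∀ G : ℕ → ℝ → Set Sample, (∀ n, GoodFam (Dm n) (G n)) →
      ∃ c : ℕ × ℝ → ℝ, Bdry S b (Hs rv Dm G) c ∧ Sand S up c

theorem domK_of {Adm : Dom → ℝ → Prop} (hA : LALB Adm) (hD : LDomK' Adm) : LDomK Adm := by
  intro Θ hΘ S b hb hbd hφb up
  obtain ⟨rv, Dm, δ, m, hOK, hK, hR, hG, h⟩ := hD Θ hΘ S b hb hbd hφb up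
  refine ⟨rv, Dm, δ, m, hOK, hK, hR, fun G hGf => ?_⟩
  obtain ⟨c, hv, hs⟩ := h G hGf
  exact ⟨c, bdry_of hA S hOK hR hG hGf hv, hs⟩

/-- convergence along `lc` with errors `1 / (n + 1)` -/
theorem tendsto_lcK {f : ℕ × ℝ → ℝ} (h0 : ∀ i, 0 ≤ f i)
    (h : ∀ᶠ n in (atTop : Filter ℕ), ∀ᶠ ε in 𝓝[>] (0 : ℝ), f (n, ε) ≤ 1 / ((n : ℝ) + 1)) :
    Tendsto f lc (𝓝 0) := by
  rw [Metric.tendsto_nhds]
  intro η hη
  rw [ev_lc]
  have h2 : ∀ᶠ n : ℕ in atTop, 1 / ((n : ℝ) + 1) < η :=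
    tendsto_one_div_add_atTop_nhds_zero_nat.eventually_lt_const hη
  filter_upwards [h, h2] with n hn hn2
  filter_upwards [hn] with ε hε
  rw [Real.dist_eq, sub_zero, abs_of_nonneg (h0 _)]
  exact hε.trans_lt hn2

/-- the functions `HG` of the leaf with error are enough for the sequence -/
theorem endW2K_of {Adm : Dom → ℝ → Prop} (hE : LEqui Adm) (hG : LGood Adm)
    (S : Dat) (b : ℂ) {rv : ℕ → Bool} {Dm : ℕ → Dom} {δ m : ℕ → ℝ}
    (hOK : ∀ n, Adm (Dm n) (δ n)) (hR : RoomOK S.D Dm m) {P : (ℕ × ℝ → ℝ) → Prop}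
    (hM : ∀ n, ∀ G : ℝ → Set Sample, GoodFam (Dm n) G →
      ∀ r ≥ 1 / ((n : ℝ) + 1), ∀ z : ℂ, Room (Dm n) (4 * r) z → Linked (Dm n) (m n) z →
      ∀ r' ≥ 1 / ((n : ℝ) + 1), ∀ z' : ℂ, Room (Dm n) (4 * r') z' → Linked (Dm n) (m n) z' →
      ∀ᶠ ε in 𝓝[>] (0 : ℝ), min ‖Sb r (HG (Dm n) G ε) z‖ ‖Sb r' (cj (HG (Dm n) G ε)) z'‖ ≤
        1 / ((n : ℝ) + 1))
    (h : ∀ G : ℕ → ℝ → Set Sample, (∀ n, GoodFam (Dm n) (G n)) →
      ∃ c : ℕ × ℝ → ℝ, Bdry S b (Hs rv Dm G) c ∧ P c) :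
    ∃ (H : ℕ × ℝ → ℂ → ℂ) (c : ℕ × ℝ → ℝ), EndW2 S.D S.φ S.d b lc H c ∧ P c := by
  choose G hGf using fun n => hG (Dm n) (δ n) (hOK n)
  obtain ⟨c, hc, hP⟩ := h G hGf
  obtain ⟨hm0, hR⟩ := hR
  have hbm : ∀ n, ∀ᶠ ε in 𝓝[>] (0 : ℝ), BM (HG (Dm n) (G n) ε) 3 := by
    intro n
    filter_upwards [(hGf n).hm2] with ε hε
    exact bm_HG hε
  refine ⟨Hs rv Dm G, c, ?_, hP⟩
  refine ⟨⟨3, fun i z => ?_⟩, ?_, ?_, ?_, hc.b1, hc.b2, hc.b3, hc.val⟩
  · rw [Hs, norm_tr]; exact norm_HG_le _ _ _ _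
  · rw [ev_lc]
    refine Eventually.of_forall fun n => ?_
    filter_upwards [hbm n] with ε hε
    exact (tr_cont (rv n)).comp_aestronglyMeasurable hε.meas
  · -- equicontinuity
    intro K hK hKD η hη
    obtain ⟨ρ, hρ0, hρ1⟩ := hR K hK hKD
    obtain ⟨s, hs, h1⟩ := hE ρ hρ0 η hη
    refine ⟨s, hs, ?_⟩
    rw [ev_lc]
    filter_upwards [hρ1] with n hn
    filter_upwards [h1 (Dm n) (δ n) (hOK n) (G n) (hGf n) (m n) (hm0 n)] with ε hε z hz w hw hzw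
    rw [Hs, Hs, tr_dist]
    exact hε z w (hn z hz).1 (hn w hw).1 (hn z hz).2 (hn w hw).2 hzw
  · -- weak dichotomy
    intro z hz r hr hb z' hz' r' hr' hb'
    refine tendsto_lcK (fun i => le_min (norm_nonneg _) (norm_nonneg _)) ?_
    obtain ⟨ρ, hρ0, hρ1⟩ := hR _ (isCompact_closedBall z (4 * r)) hb
    obtain ⟨ρ', hρ0', hρ1'⟩ := hR _ (isCompact_closedBall z' (4 * r')) hb'
    have hn1 : ∀ᶠ n : ℕ in atTop, 1 / ((n : ℝ) + 1) ≤ r :=
      (tendsto_one_div_add_atTop_nhds_zero_nat.eventually_lt_const hr).mono fun _ h => h.le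
    have hn2 : ∀ᶠ n : ℕ in atTop, 1 / ((n : ℝ) + 1) ≤ r' :=
      (tendsto_one_div_add_atTop_nhds_zero_nat.eventually_lt_const hr').mono fun _ h => h.le
    filter_upwards [hρ1, hρ1', hn1, hn2] with n hn hn' hnr hnr'
    have hz4 : z ∈ Metric.closedBall z (4 * r) := Metric.mem_closedBall_self (by linarith)
    have hz4' : z' ∈ Metric.closedBall z' (4 * r') := Metric.mem_closedBall_self (by linarith)
    have r1 : Room (Dm n) (4 * r) z := room_of_ball (by linarith) hρ0 fun y hy => (hn y hy).1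
    have r2 : Room (Dm n) (4 * r') z' := room_of_ball (by linarith) hρ0' fun y hy => (hn' y hy).1
    have nom : ‖(starRingEnd ℂ) om‖ = 1 := by rw [Complex.norm_conj, norm_om]
    cases hrv : rv n
    · have e1 : ∀ ε : ℝ, Hs rv Dm G (n, ε) = HG (Dm n) (G n) ε := by
        intro ε
        funext w
        rw [Hs]
        simp only [hrv]
        rfl
      simp only [e1]
      exact hM n (G n) (hGf n) r hnr z r1 (hn z hz4).2 r' hnr' z' r2 (hn' z' hz4').2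
    · have e1 : ∀ ε : ℝ, ‖Sb r (Hs rv Dm G (n, ε)) z‖ = ‖Sb r (cj (HG (Dm n) (G n) ε)) z‖ := by
        intro ε
        have e2 : Hs rv Dm G (n, ε) = fun w => om * cj (HG (Dm n) (G n) ε) w := by
          funext w
          rw [Hs]
          simp only [hrv]
          rfl
        rw [e2, Sb_mul, norm_mul, norm_om, one_mul]
      have e3 : ∀ ε : ℝ, ‖Sb r' (cj (Hs rv Dm G (n, ε))) z'‖ = ‖Sb r' (HG (Dm n) (G n) ε) z'‖ := by
        intro ε
        have e2 : cj (Hs rv Dm G (n, ε)) =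
            fun w => (starRingEnd ℂ) om * HG (Dm n) (G n) ε w := by
          funext w
          show (starRingEnd ℂ) (Hs rv Dm G (n, ε) w) = _
          rw [Hs]
          simp only [hrv]
          exact cj_tr _
        rw [e2, Sb_mul, norm_mul, nom, one_mul]
      simp only [e1, e3]
      have h5 := hM n (G n) (hGf n) r' hnr' z' r2 (hn' z' hz4').2 r hnr z r1 (hn z hz4).2
      filter_upwards [h5] with ε hε
      rwa [min_comm]

/-- the choice of the widths from the leaf with error -/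
theorem exists_theta {Adm : Dom → ℝ → Prop} (hM : LMinK Adm) : ∃ Θ : ℕ → ℝ → ℝ,
    (∀ n L, 0 < L → 0 < Θ n L) ∧ ∀ n : ℕ, ∀ L0 > 0, ∀ (D : Dom) (δ : ℝ), Adm D δ →
      ‖D.c‖ + D.L ≤ L0 → δ ≤ Θ n L0 → ∀ G : ℝ → Set Sample, GoodFam D G → ∀ m > 0,
      ∀ r ≥ 1 / ((n : ℝ) + 1), ∀ z : ℂ, Room D (4 * r) z → Linked D m z →
      ∀ r' ≥ 1 / ((n : ℝ) + 1), ∀ z' : ℂ, Room D (4 * r') z' → Linked D m z' →
      ∀ᶠ ε in 𝓝[>] (0 : ℝ), min ‖Sb r (HG D G ε) z‖ ‖Sb r' (cj (HG D G ε)) z'‖ ≤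
        1 / ((n : ℝ) + 1) := by
  have hpos : ∀ n : ℕ, (0 : ℝ) < 1 / ((n : ℝ) + 1) := fun n => by positivity
  choose f hf h1 using fun (n : ℕ) (L : {L : ℝ // 0 < L}) =>
    hM L.1 L.2 (1 / ((n : ℝ) + 1)) (hpos n) (1 / ((n : ℝ) + 1)) (hpos n)
  refine ⟨fun n L => if h : 0 < L then f n ⟨L, h⟩ else 1, fun n L hL => ?_, fun n L0 hL0 => ?_⟩
  · simp only [dif_pos hL]
    exact hf n ⟨L, hL⟩
  · simp only [dif_pos hL0]
    exact h1 n ⟨L0, hL0⟩

/-- the four leaves, weak dichotomy with error -/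
structure LeavesK (Adm : Dom → ℝ → Prop) : Prop where
  good : LGood Adm
  equi : LEqui Adm
  mn : LMinK Adm
  dom : LDomK Adm

/-- **the spine, weak dichotomy with error** -/
theorem finalK {Adm : Dom → ℝ → Prop} (L : LeavesK Adm) : Body := by
  intro S
  obtain ⟨b, hb, hbd, hφb⟩ := S.exists_b
  obtain ⟨Θ, hΘ, hMΘ⟩ := exists_theta L.mn
  obtain ⟨v1, D1, d1, m1, ok1, k1, r1, e1⟩ := L.dom Θ hΘ S b hb hbd hφb false
  obtain ⟨v2, D2, d2, m2, ok2, k2, r2, e2⟩ := L.dom Θ hΘ S b hb hbd hφb true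
  obtain ⟨H, c, h, hc⟩ := endW2K_of L.equi L.good S b ok1 r1 (fun n G hG => by
    obtain ⟨L0, hL0, hcL, hd⟩ := k1 n
    exact hMΘ n L0 hL0 (D1 n) (d1 n) (ok1 n) hcL hd G hG (m1 n) (r1.1 n)) e1
  obtain ⟨H', c', h', hc'⟩ := endW2K_of L.equi L.good S b ok2 r2 (fun n G hG => by
    obtain ⟨L0, hL0, hcL, hd⟩ := k2 n
    exact hMΘ n L0 hL0 (D2 n) (d2 n) (ok2 n) hcL hd G hG (m2 n) (r2.1 n)) e2
  exact topW2 S hb hbd hφb h h' (fun η hη => by simpa using hc η hη)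
    (fun η hη => by simpa using hc' η hη)

/-- **Body** from the leaf with error, for a smaller class of domains -/
theorem body_gK {A : Dom → ℝ → Prop} (h : ∀ D δ, A D δ → Dom.Ad D δ) (hM : LMinK A)
    (hD : LDomK' A) : Body :=
  finalK (Adm := A) ⟨Spine8x422.lgood_mono h lgood_ad, Spine8x422.lequi_mono h LEqFx63.lequiAd, hM,
    domK_of (Spine8x422.lalb_mono h LimRx422.lalb) hD⟩

theorem ldomK_p : LDomK' AdP :=
  ldomK GeoKx904.geoK Cara4x723.cara LimRx422.val D4Lx408.d4lo D4Ux408.d4up D4Lx606.d4col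
    Crs6x117.p2b DomEx722.d2

/-- **the statement from the leaf with error** -/
theorem body_k (h : LMinK AdP) : Body := body_gK (fun D δ hD => hD.1) h ldomK_p

/-- the literal statement of S0194 from the leaf with error -/
theorem literal_k (L : LMinK AdP)
    (D : Set ℂ) (hD : IsOpen D) (hDb : Bornology.IsBounded D) (hDc : IsConnected D)
    (γ : ℝ → ℂ) (hγ : Continuous γ) (hγp : Function.Periodic γ 1) (hγi : Set.InjOn γ (Set.Ico 0 1))
    (hγD : Set.range γ = frontier D)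
    (φ : ℂ → ℂ) (hφ : DifferentiableOn ℂ φ D) (hφi : Set.InjOn φ D)
    (hφD : φ '' D = {z : ℂ | 0 < z.im})
    (a b c d : ℂ) (ha : a ∈ frontier D) (hb : b ∈ frontier D) (hc : c ∈ frontier D)
    (hd : d ∈ frontier D)
    (hφc : ContinuousOn φ (closure D \ {d}))
    (hφd : Filter.Tendsto (fun z => ‖φ z‖) (nhdsWithin d D) Filter.atTop)
    (x : ℝ) (hx0 : 0 < x) (hx1 : x < 1)
    (hφa : φ a = 0) (hφb : φ b = x) (hφc1 : φ c = 1) :
    Filter.Tendsto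
      (fun ε : ℝ => sampleLaw (crossingEvent ε D
        {z | z ∈ frontier D ∧ z ≠ d ∧ (φ z).im = 0 ∧ 0 ≤ (φ z).re ∧ (φ z).re ≤ x}
        ({z | z ∈ frontier D ∧ z ≠ d ∧ (φ z).im = 0 ∧ 1 ≤ (φ z).re} ∪ {d})))
      (nhdsWithin 0 (Set.Ioi 0))
      (nhds (ENNReal.ofReal (crossingFormula x))) :=
  literal (body_k L) D hD hDb hDc γ hγ hγp hγi hγD φ hφ hφi hφD a b c d ha hb hc hd hφc hφd
    x hx0 hx1 hφa hφb hφc1

end Crest.Agent.R143.SpineKx904
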