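import Crest.Agent.R143.Lab_755
import Crest.Agent.R143.G6W_723

/-!
# Row 143 (S0194), CONT (K7): existence of spokes (helper643)

755's (4): at every boundary edge of a grid polygon there is a spoke, i.e. a Delaunay chain along
the normal at the middle of the edge, from the first site `y` whose ball is not inside the polygon to
a site near the inner point `M`.
-/

set_option autoImplicit false

noncomputable section

namespace Crest.Agent.R143.Spkx643

open Set Complex
open Crest.Agent.R158.Sp896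
open Crest.Agent.R143.ToolWx838 Crest.Agent.R143.Blkx838
open Crest.Agent.R143.Tenx416 (Pg)
open Crest.Agent.R143.LabDx755 Crest.Agent.R143.Labx755
open Crest.Agent.R143.B0x346 (GP)
open Crest.Agent.R143.B0Dx346 (vedge)
open Crest.ProbabilityR.Voronoi (voronoiCell)

variable {S : Finset ℂ}

/-- **the first site with the property `Q`** of a chain, as a list from this site to the start -/
theorem first_out {R : ℂ → ℂ → Prop} {X : Set ℂ} {Q : ℂ → Prop} {c x : ℂ}
    (hR : ∀ a b, R a b → a ∈ X → DE S b a ∧ b ∈ X) (hc : c ∈ X)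
    (h : Relation.ReflTransGen R c x) (hx : Q x) :
    ∃ y l, Pl l y c ∧ Q y ∧ (∀ z ∈ l, z ∈ X) ∧ (∀ z ∈ l, Q z → z = y) ∧
      ∀ p ∈ prs l, DE S p.1 p.2 := by
  by_cases hQ : Q c
  · exact ⟨c, [c], pl_one c, hQ, by simpa using hc, by simp, by simp⟩
  have key : ∀ z, Relation.ReflTransGen R c z →
      (∃ y l, Pl l y c ∧ Q y ∧ (∀ z ∈ l, z ∈ X) ∧ (∀ z ∈ l, Q z → z = y) ∧
        ∀ p ∈ prs l, DE S p.1 p.2) ∨
      (¬ Q z ∧ z ∈ X ∧ ∃ l, Pl l z c ∧ (∀ z ∈ l, z ∈ X) ∧ (∀ z ∈ l, ¬ Q z) ∧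
        ∀ p ∈ prs l, DE S p.1 p.2) := by
    intro z hz
    induction hz with
    | refl => exact Or.inr ⟨hQ, hc, [c], pl_one c, by simpa using hc, by simpa using hQ, by simp⟩
    | @tail u w _ h2 ih =>
      rcases ih with ih | ⟨_, huX, l, hl, h4, h5, h6⟩
      · exact Or.inl ih
      · obtain ⟨hd, hwX⟩ := hR u w h2 huX
        obtain ⟨m, rfl⟩ := hl.left
        have hpl : Pl (w :: u :: m) w c := ⟨rfl, by rw [← hl.lt]; simp [List.getLast?_cons]⟩
        have hpr : ∀ p ∈ prs (w :: u :: m), DE S p.1 p.2 := by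
          intro p hp
          rw [prs_cons, List.mem_cons] at hp
          rcases hp with rfl | hp
          · exact hd
          · exact h6 p hp
        have hX : ∀ z ∈ w :: u :: m, z ∈ X := by
          intro z hz
          rcases List.mem_cons.1 hz with rfl | hz
          · exact hwX
          · exact h4 z hz
        by_cases hw : Q w
        · left
          refine ⟨w, w :: u :: m, hpl, hw, hX, ?_, hpr⟩
          intro z hz hQz
          rcases List.mem_cons.1 hz with rfl | hz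
          · rfl
          · exact absurd hQz (h5 z hz)
        · right
          refine ⟨hw, hwX, w :: u :: m, hpl, hX, ?_, hpr⟩
          intro z hz
          rcases List.mem_cons.1 hz with rfl | hz
          · exact hw
          · exact h5 z hz
  rcases key x h with h1 | ⟨h1, -⟩
  · exact h1
  · exact absurd hx h1

theorem int_eq {s x : ℝ} (hs : 0 < s) {q m : ℤ} (h1 : s * q ≤ x) (h2 : x ≤ s * (q + 1))
    (h3 : s * m < x) (h4 : x < s * (m + 1)) : m = q := by
  have e1 : (q : ℝ) < m + 1 := lt_of_mul_lt_mul_left (h1.trans_lt h4) hs.le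
  have e2 : (m : ℝ) < q + 1 := lt_of_mul_lt_mul_left (h3.trans_le h2) hs.le
  have e3 : q < m + 1 := by exact_mod_cast e1
  have e4 : m < q + 1 := by exact_mod_cast e2
  omega

/-- the outer point of the normal at the middle of an edge is not in the polygon -/
theorem md_out {s : ℝ} {F : Set V} {N : ℕ} {v : ℕ → V} (C : Cyc F N v) (hs : 0 < s) (k : ℕ)
    {t : ℝ} (h0 : 0 < t) (h1 : t < s) : md s v k - t * (I * ev v k) ∉ Pg s F := by
  intro h
  unfold Pg at h
  obtain ⟨q, hq, hz⟩ := Set.mem_iUnion₂.1 h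
  have hr := C.right k
  refine hr ?_
  have key : rc (v k) (v (k + 1)) = q := by
    have hst := C.step k
    have hre : (md s v k - t * (I * ev v k)).re =
        (s * (v k).1 + s * (v (k + 1)).1) / 2 + t * ((((v (k + 1)).2 - (v k).2 : ℤ) : ℝ)) := by
      unfold md ev pt
      simp
      ring
    have him : (md s v k - t * (I * ev v k)).im =
        (s * (v k).2 + s * (v (k + 1)).2) / 2 - t * ((((v (k + 1)).1 - (v k).1 : ℤ) : ℝ)) := by
      unfold md ev pt
      simp
    obtain ⟨g1, g2, g3, g4⟩ := hz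
    rw [hre] at g1 g2
    rw [him] at g3 g4
    generalize v k = a at hst g1 g2 g3 g4 ⊢
    generalize v (k + 1) = b at hst g1 g2 g3 g4 ⊢
    obtain ⟨a1, a2⟩ := a
    obtain ⟨b1, b2⟩ := b
    obtain ⟨q1, q2⟩ := q
    unfold Adj at hst
    unfold rc
    simp only at hst g1 g2 g3 g4 ⊢
    rcases hst with ⟨e1, e2⟩ | ⟨e1, e2⟩ | ⟨e1, e2⟩ | ⟨e1, e2⟩ <;> rw [e1, e2] at g1 g2 g3 g4 ⊢ <;>
      push_cast at g1 g2 g3 g4
    · have k1 := int_eq (m := a1) hs g1 g2 (by nlinarith) (by nlinarith)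
      have k2 := int_eq (m := a2 - 1) hs g3 g4 (by push_cast; nlinarith) (by push_cast; nlinarith)
      rw [← k1, ← k2]
      ext <;> simp <;> omega
    · have k1 := int_eq (m := a1 - 1) hs g1 g2 (by push_cast; nlinarith) (by push_cast; nlinarith)
      have k2 := int_eq (m := a2) hs g3 g4 (by nlinarith) (by nlinarith)
      rw [← k1, ← k2]
      ext <;> simp <;> omega
    · have k1 := int_eq (m := a1) hs g1 g2 (by nlinarith) (by nlinarith)
      have k2 := int_eq (m := a2) hs g3 g4 (by nlinarith) (by nlinarith)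
      rw [← k1, ← k2]
      ext <;> simp <;> omega
    · have k1 := int_eq (m := a1 - 1) hs g1 g2 (by push_cast; nlinarith) (by push_cast; nlinarith)
      have k2 := int_eq (m := a2 - 1) hs g3 g4 (by push_cast; nlinarith) (by push_cast; nlinarith)
      rw [← k1, ← k2]
      ext <;> simp <;> omega
  rw [key]
  exact hq

/-- the site of a cell is near its points -/
theorem cell_near {d : ℝ} {x z : ℂ} (h : z ∈ voronoiCell (S : Set ℂ) x)
    (hc : ∃ w ∈ S, ‖z - w‖ ≤ d) : ‖z - x‖ ≤ d := by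
  obtain ⟨w, hw, h1⟩ := hc
  exact (h w (Finset.mem_coe.2 hw)).trans h1

/-- **existence of spokes** (755's (4)). `hcov` : hole radius `d` within `s` of the polygon -/
theorem spk_ex {s μ d : ℝ} {F : Set V} {N : ℕ} {v : ℕ → V} (hS : GP (S : Set ℂ))
    (h3 : 3 ≤ S.card) (C : Cyc F N v) (B : Bs s μ F N v) (hd : 0 < d) (h16 : 16 * d ≤ μ)
    (hμs : 16 * μ ≤ s)
    (hcov : ∀ z, ∀ w ∈ Pg s F, ‖z - w‖ ≤ s → ∃ x ∈ S, ‖z - x‖ ≤ d) (k : ℕ) :
    ∃ y c l, Pl l y c ∧ ¬ Metric.closedBall y (2 * d) ⊆ Pg s F ∧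
      (∀ x ∈ l, ¬ Metric.closedBall x (2 * d) ⊆ Pg s F → x = y) ∧
      (∀ p ∈ prs l, DE S p.1 p.2) ∧ (∀ x ∈ l, x ∈ S) ∧
      (∀ x ∈ l, ‖x - md s v k‖ ≤ μ + d) ∧ ‖c - M s μ v k‖ ≤ d ∧
      ∀ x ∈ l, ∃ z ∈ segment ℝ (M s μ v k) (md s v k),
        z ∈ voronoiCell (S : Set ℂ) x ∧ ‖z - x‖ ≤ d := by
  have hμ : 0 < μ := by linarith
  have hs : 0 < s := by linarith
  have hM : M s μ v k ∈ Pg s F := B.ring k _ (M_rs k) (Metric.mem_ball_self hμ)
  have hMm : ‖md s v k - M s μ v k‖ = μ := by rw [norm_sub_rev]; exact M_md C hμ k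
  have hseg : ∀ z ∈ segment ℝ (M s μ v k) (md s v k), ‖z - M s μ v k‖ ≤ μ ∧
      ‖z - md s v k‖ ≤ μ := by
    intro z hz
    have h1 : segment ℝ (M s μ v k) (md s v k) ⊆ Metric.closedBall (M s μ v k) μ :=
      (convex_closedBall _ _).segment_subset (Metric.mem_closedBall_self hμ.le)
        (by rw [mem_closedBall_iff_norm, hMm])
    have h2 : segment ℝ (M s μ v k) (md s v k) ⊆ Metric.closedBall (md s v k) μ :=
      (convex_closedBall _ _).segment_subset
        (by rw [mem_closedBall_iff_norm, M_md C hμ k]) (Metric.mem_closedBall_self hμ.le)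
    exact ⟨mem_closedBall_iff_norm.1 (h1 hz), mem_closedBall_iff_norm.1 (h2 hz)⟩
  have hcv : ∀ z ∈ segment ℝ (M s μ v k) (md s v k), ∃ x ∈ S, ‖z - x‖ ≤ d := fun z hz =>
    hcov z _ hM ((hseg z hz).1.trans (by linarith))
  have hne : S.Nonempty := Finset.card_pos.1 (by omega)
  obtain ⟨c, hcS, hc⟩ := Crest.Agent.R143.G6Wx723.exists_cell hne (M s μ v k)
  obtain ⟨x0, hx0S, hx0⟩ := Crest.Agent.R143.G6Wx723.exists_cell hne (md s v k)
  have hch := Crest.Agent.R143.G6Wx723.chain_of_conn_fin hS h3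
    (convex_segment (𝕜 := ℝ) (M s μ v k) (md s v k)).isPreconnected hcS hx0S
    ⟨_, left_mem_segment ℝ _ _, hc⟩ ⟨_, right_mem_segment ℝ _ _, hx0⟩
  have hnx0 : ‖md s v k - x0‖ ≤ d := cell_near hx0 (hcv _ (right_mem_segment ℝ _ _))
  have hQ : ¬ Metric.closedBall x0 (2 * d) ⊆ Pg s F := by
    intro h
    refine md_out (t := d / 2) C hs k (by linarith) (by linarith) (h ?_)
    rw [mem_closedBall_iff_norm]
    have e1 : ‖(((d / 2 : ℝ) : ℂ)) * (I * ev v k)‖ = d / 2 := by
      rw [norm_mul, norm_mul, ev_norm C, Complex.norm_I, Complex.norm_real, Real.norm_eq_abs,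
        abs_of_pos (by linarith)]
      ring
    have e2 := norm_sub_le (md s v k - x0) ((((d / 2 : ℝ) : ℂ)) * (I * ev v k))
    rw [e1] at e2
    have e3 : md s v k - (((d / 2 : ℝ) : ℂ)) * (I * ev v k) - x0 =
        md s v k - x0 - (((d / 2 : ℝ) : ℂ)) * (I * ev v k) := by ring
    rw [e3]
    linarith
  obtain ⟨y, l, h4, h5, h6, h7, h8⟩ := first_out (S := S)
    (X := {x | x ∈ S ∧ ∃ z ∈ segment ℝ (M s μ v k) (md s v k), z ∈ voronoiCell (S : Set ℂ) x})
    (Q := fun x => ¬ Metric.closedBall x (2 * d) ⊆ Pg s F)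
    (by
      rintro a b ⟨hab, z, hz, hzC⟩ _
      refine ⟨Or.symm hab, hab.mem.2, z, hzC, ?_⟩
      intro w hw
      rw [← hz.1]
      exact hz.2 w hw) ⟨hcS, _, left_mem_segment ℝ _ _, hc⟩ hch hQ
  refine ⟨y, c, l, h4, h5, h7, h8, fun x hx => (h6 x hx).1, fun x hx => ?_, ?_, fun x hx => ?_⟩
  · obtain ⟨-, z, hz, hzx⟩ := h6 x hx
    have e1 := cell_near hzx (hcv z hz)
    have e2 := (hseg z hz).2
    have e3 := norm_add_le (x - z) (z - md s v k)
    rw [sub_add_sub_cancel, norm_sub_rev x z] at e3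
    linarith
  · rw [norm_sub_rev]
    exact cell_near hc (hcv _ (left_mem_segment ℝ _ _))
  · obtain ⟨-, z, hz, hzx⟩ := h6 x hx
    exact ⟨z, hz, hzx, cell_near hzx (hcv z hz)⟩

end Crest.Agent.R143.Spkx643
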