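import Crest.Agent.R143.Frame11_395
import Crest.Agent.R143.NonX_592

/-!
# Row 143 (S0194), part B without E3: splitting of a block at cut states (helper117)

A loop `Lp M x p N` : states `P i = stp^[i] p`, `i < N`, left cells `lc i`, time of a gap = time of the
state which enters its face: `gp i = rho (rho (P i))`.

* `sep` : `c` is a left cell at the times `u < v`; left cells at a time between and at a time outside
  are not joined by a chain (of unoccupied darts) which avoids `c`
* `two_arcs` : common left cells of two arcs, one of which has joined ends, away from `c`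
* `InK A B i` : gap of the time `i` in the arc `[A, B]` such that no left cell occurs before and after
* `ink_add`, `rel_ink`, `ink_exists`
-/

set_option autoImplicit false

noncomputable section

open scoped Classical

namespace Crest.Agent.R143.Splx117

open Crest.Agent.R143.Frame1x395 Crest.Agent.R143.Frame2x395 Crest.Agent.R143.Frame3x395
  Crest.Agent.R143.Frame4x395 Crest.Agent.R143.Frame8x395 Crest.Agent.R143.Frame9x395
  Crest.Agent.R143.Frame11x395

variable {D C : Type} {M : CMap D C} {x : D → ZMod 2} {p : D} {N : ℕ} {c : C}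

/-- left cell at the time `i` -/
def lc (M : CMap D C) (x : D → ZMod 2) (p : D) (i : ℕ) : C := M.cell ((stp M x)^[i] p)

/-- the dart of the face entered at the time `i`, on the left -/
def gp (M : CMap D C) (x : D → ZMod 2) (p : D) (i : ℕ) : D := M.rho (M.rho ((stp M x)^[i] p))

/-- a loop with its period -/
structure Lp (M : CMap D C) (x : D → ZMod 2) (p : D) (N : ℕ) : Prop where
  even : IsC M ∅ x
  occ : x p = 1
  pos : 0 < N
  per : (stp M x)^[N] p = p
  inj : ∀ i j, i < j → j < N → (stp M x)^[i] p ≠ (stp M x)^[j] p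

theorem rho_gp (i : ℕ) : M.rho (gp M x p i) = (stp M x)^[i] p := M.rho3 _

theorem Lp.st (L : Lp M x p N) (i : ℕ) : x ((stp M x)^[i] p) = 1 := occ_it L.even L.occ i

theorem Lp.add (L : Lp M x p N) (i : ℕ) : (stp M x)^[i + N] p = (stp M x)^[i] p := by
  rw [Function.iterate_add_apply, L.per]

theorem Lp.lc_add (L : Lp M x p N) (i : ℕ) : lc M x p (i + N) = lc M x p i := by
  unfold lc
  rw [L.add]

theorem Lp.gp_add (L : Lp M x p N) (i : ℕ) : gp M x p (i + N) = gp M x p i := by
  unfold gp
  rw [L.add]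

/-- states at different times of one period are different -/
theorem Lp.ne (L : Lp M x p N) {i j : ℕ} (h1 : i < j) (h2 : j < i + N) :
    (stp M x)^[i] p ≠ (stp M x)^[j] p := by
  intro e
  have e1 : p = (stp M x)^[j - i] p := by
    apply it_inj L.even L.occ (L.st _) i
    rw [← Function.iterate_add_apply, show i + (j - i) = j by omega, e]
  exact L.inj 0 (j - i) (by omega) (by omega) e1

theorem Lp.mod (L : Lp M x p N) (i : ℕ) : (stp M x)^[i] p = (stp M x)^[i % N] p := by
  induction i using Nat.strong_induction_on with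
  | _ i ih =>
    rcases Nat.lt_or_ge i N with h1 | h1
    · rw [Nat.mod_eq_of_lt h1]
    · rw [Nat.mod_eq_sub_mod h1, ← ih (i - N) (by have := L.pos; omega)]
      conv_lhs => rw [show i = (i - N) + N by omega, L.add]

theorem Lp.gp_ne (L : Lp M x p N) {i j : ℕ} (h1 : i < j) (h2 : j < i + N) :
    gp M x p i ≠ gp M x p j := by
  intro e
  apply L.ne h1 h2
  rw [← rho_gp, e, rho_gp]

/-- existence of the period -/
theorem lp_exists [Finite D] (h : IsC M ∅ x) (hp : x p = 1) : ∃ N, Lp M x p N := by
  have ex := periodic h hp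
  set N := Nat.find ex with hN
  obtain ⟨h1, h2⟩ := Nat.find_spec ex
  refine ⟨N, h, hp, h1, h2, fun i j hij hj e => ?_⟩
  have e1 : p = (stp M x)^[j - i] p := by
    apply it_inj h hp (occ_it h hp _) i
    rw [← Function.iterate_add_apply, show i + (j - i) = j by omega, e]
  exact Nat.find_min ex (show j - i < Nat.find ex by omega) ⟨by omega, e1.symm⟩

/-! ### gaps and times -/

/-- an occupied third side: the left cell stays -/
theorem Lp.stay (L : Lp M x p N) {i : ℕ} (h : x (gp M x p i) = 1) :
    lc M x p (i + 1) = lc M x p i := by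
  have h1 := L.st i
  rcases stp_cases L.even h1 (Set.notMem_empty _) with ⟨-, h2, -⟩ | ⟨-, h2, e⟩
  · unfold gp at h
    rw [h2] at h
    exact absurd h (by decide)
  · unfold lc
    rw [Function.iterate_succ_apply', e, M.cell_iota _ (L.even.lv h2), M.rho3]

/-- a gap -/
theorem Lp.gap (L : Lp M x p N) {i : ℕ} (h : x (gp M x p i) = 0) : Gp M x (gp M x p i) :=
  ⟨h, by rw [rho_gp]; exact L.st i⟩

theorem Lp.out_eq (L : Lp M x p N) {i : ℕ} (h : x (gp M x p i) = 0) :
    out M (gp M x p i) = (stp M x)^[i + 1] p := by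
  rw [Function.iterate_succ_apply', ← rho_gp (M := M), (L.gap h).stp L.even]

theorem Lp.new (L : Lp M x p N) {i : ℕ} (h : x (gp M x p i) = 0) :
    M.cell (gp M x p i) = lc M x p (i + 1) := by
  unfold lc
  rw [← L.out_eq h, cell_out L.even (L.gap h)]

theorem old (i : ℕ) : M.cell (M.rho (gp M x p i)) = lc M x p i := by
  rw [rho_gp]; rfl

/-- the left cell changes only at gaps -/
theorem Lp.gap_of_ne (L : Lp M x p N) {i : ℕ} (h : lc M x p (i + 1) ≠ lc M x p i) :
    x (gp M x p i) = 0 := by
  rcases z01 (x (gp M x p i)) with h1 | h1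
  · exact h1
  · exact absurd (L.stay h1) h

/-- a gap whose state is on the loop -/
theorem Lp.eq_gp (_L : Lp M x p N) {g : D} {i : ℕ} (h : (stp M x)^[i] p = M.rho g) :
    g = gp M x p i := by
  unfold gp
  rw [h, M.rho3]

/-! ### arithmetic of times -/

theorem last_time {Q : ℕ → Prop} {u m : ℕ} (h1 : u < m) (hu : Q u) (hm : ¬ Q m) :
    ∃ i, u ≤ i ∧ i < m ∧ Q i ∧ ∀ j, i < j → j ≤ m → ¬ Q j := by
  induction m with
  | zero => omega
  | succ m ih =>
    by_cases hq : Q m
    · exact ⟨m, by omega, by omega, hq, fun j h2 h3 => by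
        rw [show j = m + 1 by omega]; exact hm⟩
    · rcases Nat.lt_or_ge u m with h2 | h2
      · obtain ⟨i, a1, a2, a3, a4⟩ := ih h2 hq
        refine ⟨i, a1, by omega, a3, fun j h3 h4 => ?_⟩
        rcases Nat.lt_or_ge m j with h5 | h5
        · rw [show j = m + 1 by omega]; exact hm
        · exact a4 j h3 h5
      · rw [show m = u by omega] at hq
        exact absurd hu hq

theorem first_time {Q : ℕ → Prop} {m v : ℕ} (h1 : m < v) (hv : Q v) (hm : ¬ Q m) :
    ∃ j, m < j ∧ j ≤ v ∧ Q j ∧ ∀ l, m ≤ l → l < j → ¬ Q l := by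
  have ex : ∃ j, m < j ∧ Q j := ⟨v, h1, hv⟩
  obtain ⟨h2, h3⟩ := Nat.find_spec ex
  refine ⟨Nat.find ex, h2, Nat.find_min' ex ⟨h1, hv⟩, h3, fun l h4 h5 hl => ?_⟩
  rcases h4.lt_or_eq with h6 | rfl
  · exact Nat.find_min ex h5 ⟨h6, hl⟩
  · exact hm hl

/-! ### separation -/

/-- one step of a chain which avoids `c` -/
def StA (M : CMap D C) (x : D → ZMod 2) (c a b : C) : Prop :=
  a ≠ c ∧ b ≠ c ∧ ∃ d, x d = 0 ∧
    ((M.cell d = a ∧ M.cell (M.rho d) = b) ∨ (M.cell d = b ∧ M.cell (M.rho d) = a))

/-- `a` and `b` are joined by a chain of one colour which avoids `c` -/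
def ConA (M : CMap D C) (x : D → ZMod 2) (c a b : C) : Prop :=
  a ≠ c ∧ b ≠ c ∧ Relation.ReflTransGen (StA M x c) a b

theorem StA.symm {a b : C} (h : StA M x c a b) : StA M x c b a := by
  obtain ⟨h1, h2, d, h3, h4⟩ := h
  exact ⟨h2, h1, d, h3, h4.symm⟩

theorem rtg_symm {α : Type} {r : α → α → Prop} (hr : ∀ a b, r a b → r b a) {a b : α}
    (h : Relation.ReflTransGen r a b) : Relation.ReflTransGen r b a := by
  induction h with
  | refl => exact .refl
  | tail _ h2 ih => exact (Relation.ReflTransGen.single (hr _ _ h2)).trans ih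

theorem ConA.symm {a b : C} (h : ConA M x c a b) : ConA M x c b a :=
  ⟨h.2.1, h.1, rtg_symm (fun _ _ h => h.symm) h.2.2⟩

theorem ConA.trans {a b e : C} (h : ConA M x c a b) (h' : ConA M x c b e) : ConA M x c a e :=
  ⟨h.1, h'.2.1, h.2.2.trans h'.2.2⟩

theorem ConA.const {A : Type} {χ : C → A} (hχ : ∀ d, x d = 0 → M.cell d ≠ c →
    M.cell (M.rho d) ≠ c → χ (M.cell d) = χ (M.cell (M.rho d))) {a b : C}
    (h : ConA M x c a b) : χ a = χ b := by
  obtain ⟨-, -, h⟩ := h
  induction h with
  | refl => rfl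
  | tail _ h1 ih =>
    obtain ⟨h2, h3, d, h4, ⟨h5, h6⟩ | ⟨h5, h6⟩⟩ := h1
    · rw [ih, ← h5, ← h6]
      exact hχ d h4 (h5 ▸ h2) (h6 ▸ h3)
    · rw [ih, ← h5, ← h6]
      exact (hχ d h4 (h5 ▸ h3) (h6 ▸ h2)).symm

/-- **separation** -/
theorem sep (L : Lp M x p N) (G : Gen M c) {u m v m' : ℕ} (h1 : u < m) (h2 : m < v)
    (h3 : v < m') (h4 : m' < u + N) (cu : lc M x p u = c) (cv : lc M x p v = c) :
    ¬ ConA M x c (lc M x p m) (lc M x p m') := by
  intro hcon
  have h := L.even
  obtain ⟨i, hi1, hi2, hi3, hi4⟩ := last_time (Q := fun i => lc M x p i = c) h1 cu hcon.1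
  obtain ⟨j, hj1, hj2, hj3, hj4⟩ := first_time (Q := fun i => lc M x p i = c) h2 cv hcon.1
  obtain ⟨j, rfl⟩ : ∃ j', j = j' + 1 := ⟨j - 1, by omega⟩
  have hav : ∀ l, i < l → l ≤ j → lc M x p l ≠ c := by
    intro l hl1 hl2
    rcases Nat.lt_or_ge m l with hl | hl
    · exact hj4 l hl.le (by omega)
    · exact hi4 l hl1 hl
  have xk : x (gp M x p i) = 0 := L.gap_of_ne (by
    rw [hi3]; exact hi4 (i + 1) (by omega) (by omega))
  have xg : x (gp M x p j) = 0 := L.gap_of_ne (by
    rw [hj3]; exact (hav j (by omega) le_rfl).symm)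
  set k := gp M x p i with hk0
  set g := gp M x p j with hg0
  have hk : Gp M x k := L.gap xk
  have hg : Gp M x g := L.gap xg
  have hkc : M.cell (M.rho k) = c := by rw [hk0, old, hi3]
  have hgc : M.cell g = c := by rw [hg0, L.new xg, hj3]
  have hne : k ≠ g := L.gp_ne (by omega) (by omega)
  have ho : out M k = (stp M x)^[i + 1] p := L.out_eq xk
  have hit : ∀ n, (stp M x)^[n] (out M k) = (stp M x)^[n + (i + 1)] p := by
    intro n
    rw [ho, ← Function.iterate_add_apply]
  -- the right cells
  obtain ⟨ψ, hψ⟩ := M.ex x h.dead h.iot (fun d => by rw [h.par d, if_neg (Set.notMem_empty d)])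
  have hψ0 : ∀ d, x d = 0 → ψ (M.cell d) = ψ (M.cell (M.rho d)) := by
    intro d hd
    rw [hψ d] at hd
    revert hd
    generalize ψ (M.cell d) = a
    generalize ψ (M.cell (M.rho d)) = b
    revert a b; decide
  have hψ1 : ∀ d, x d = 1 → ψ (M.cell d) ≠ ψ (M.cell (M.rho d)) := by
    intro d hd
    rw [hψ d] at hd
    revert hd
    generalize ψ (M.cell d) = a
    generalize ψ (M.cell (M.rho d)) = b
    revert a b; decide
  have lcψ : ∀ n, ψ (lc M x p n) = ψ (M.cell p) := fun n => it_col h L.occ hψ0 n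
  have nr : ∀ n {g : D}, Gp M x g → ψ (M.cell g) = ψ (M.cell p) →
      (stp M x)^[n] p ≠ M.rho (M.rho g) := by
    intro n g hg hgc e
    have h5 := lcψ n
    unfold lc at h5
    rw [e] at h5
    have h6 := hψ0 _ hg.1
    exact hψ1 _ hg.2 (h6.symm.trans (hgc.trans h5.symm))
  have nb : ∀ n, n + (i + 1) < j → (stp M x)^[n] (out M k) ∉ BB M k g := by
    intro n hn hB
    rw [hit] at hB
    have xo := L.st (n + (i + 1))
    rcases hB with (hB | hB | hB) | (hB | hB | hB)
    · rw [hB, xk] at xo; exact absurd xo (by decide)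
    · rw [hk0, rho_gp] at hB
      exact L.ne (show i < n + (i + 1) by omega) (by omega) hB.symm
    · exact nr _ hk (by rw [hk0, L.new xk, lcψ]) hB
    · rw [hB, xg] at xo; exact absurd xo (by decide)
    · rw [hg0, rho_gp] at hB
      exact L.ne (show n + (i + 1) < j by omega) (by omega) hB
    · exact nr _ hg (by rw [hg0, L.new xg, lcψ]) hB
  have hend : (stp M x)^[j - (i + 1)] (out M k) = M.rho g := by
    rw [hit, show j - (i + 1) + (i + 1) = j by omega, hg0, rho_gp]
  have hTr : M.rho g ∈ Tr M x (BB M k g) (out M k) :=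
    ⟨j - (i + 1), hend, fun n hn => nb n (by omega)⟩
  obtain ⟨χ, ν, X1, X2, X3⟩ := chi_arc h hk hg hne hkc hgc G hTr
  have e1 : χ (lc M x p m) = ν + 1 := by
    have h5 := X2 (m - (i + 1)) (by
      rw [hit, show m - (i + 1) + (i + 1) = m by omega]; exact hcon.1)
      ⟨m - (i + 1), rfl, fun n hn => nb n (by omega)⟩
    rw [hit, show m - (i + 1) + (i + 1) = m by omega] at h5
    exact h5
  have e2 : χ (lc M x p m') = ν := by
    have h5 := X3 (m' - (i + 1)) (by
      rw [hit, show m' - (i + 1) + (i + 1) = m' by omega]; exact hcon.2.1) (by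
      rintro ⟨n, hn1, hn2⟩
      have hnj : n ≤ j - (i + 1) := by
        by_contra hc
        push Not at hc
        refine hn2 _ hc ?_
        show (stp M x)^[j - (i + 1)] (out M k) ∈ BB M k g
        rw [hend]
        exact memh1 M k g
      rw [hit, hit, show m' - (i + 1) + (i + 1) = m' by omega] at hn1
      exact L.ne (show n + (i + 1) < m' by omega) (by omega) hn1)
    rw [hit, show m' - (i + 1) + (i + 1) = m' by omega] at h5
    exact h5
  have e3 := hcon.const X1
  rw [e1, e2] at e3
  revert e3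
  generalize ν = b
  revert b; decide

/-- **two arcs** : `[A, B]` and `[A', B']` with `B ≤ A'`, `B' ≤ A + N` have the common left cell `c` :
the ends of none of them are joined away from `c` -/
theorem two_arcs (L : Lp M x p N) (G : Gen M c) {A B A' B' u v : ℕ} (h1 : A ≤ u)
    (h2 : u ≤ B) (h3 : B ≤ A') (h4 : A' ≤ v) (h5 : v ≤ B') (h6 : B' ≤ A + N)
    (cu : lc M x p u = c) (cv : lc M x p v = c) :
    ¬ ConA M x c (lc M x p A) (lc M x p B) ∧ ¬ ConA M x c (lc M x p A') (lc M x p B') := by
  have q : ∀ {a b : ℕ}, lc M x p a = c → lc M x p b ≠ c → a ≠ b := by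
    rintro a b h1 h2 rfl
    exact h2 h1
  constructor
  · intro hcon
    have hA : lc M x p (A + N) ≠ c := by rw [L.lc_add]; exact hcon.1
    have k1 := q cu hcon.1
    have k2 := q cu hcon.2.1
    have k3 := q cv hcon.2.1
    have k4 := q cv hA
    apply sep L G (u := u) (m := B) (v := v) (m' := A + N) (by omega) (by omega) (by omega)
      (by omega) cu cv
    rw [L.lc_add]
    exact hcon.symm
  · intro hcon
    have hu : lc M x p (u + N) = c := by rw [L.lc_add]; exact cu
    have k1 := q cu hcon.1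
    have k2 := q cv hcon.1
    have k3 := q cv hcon.2.1
    have k4 := q hu hcon.2.1
    exact sep L G (u := u) (m := A') (v := v) (m' := B') (by omega) (by omega) (by omega)
      (by omega) cu cv hcon

end Crest.Agent.R143.Splx117
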