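import Mathlib
import Crest.Agent.R202.Miranda

/-!
# Row 143, leaf SQ (helper223), part A: the topological duality in a square

If the closed square `[0,s]²` is covered by finitely many closed convex black sets and finitely many
closed convex white sets, then there is a black path connected set joining the left side to the right
side or a white one joining the bottom to the top.
-/

set_option autoImplicit false

noncomputable section

namespace Crest.Agent.R143.SqAx223

open Set Metric

/-- a subset of a finite union of closed sets which contains every member that it meets is closed -/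
theorem closed_of_sat {X ι : Type*} [TopologicalSpace X] [Finite ι] (E : ι → Set X)
    (hE : ∀ i, IsClosed (E i)) (A : Set X) (hsub : A ⊆ ⋃ i, E i)
    (hsat : ∀ i, (E i ∩ A).Nonempty → E i ⊆ A) : IsClosed A := by
  have h : A = ⋃ i ∈ {i | (E i ∩ A).Nonempty}, E i := by
    apply Subset.antisymm
    · intro z hz
      obtain ⟨i, hi⟩ := mem_iUnion.1 (hsub hz)
      exact mem_biUnion (show i ∈ {i | (E i ∩ A).Nonempty} from ⟨z, hi, hz⟩) hi
    · exact iUnion₂_subset fun i hi => hsat i hi
  rw [h]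
  exact (Set.toFinite _).isClosed_biUnion fun i _ => hE i

section

variable {X : Type*} [TopologicalSpace X]

/-- the points of `W` which can be joined to `L` inside `W` -/
def reach (W L : Set X) : Set X := {z | ∃ l ∈ L, JoinedIn W l z}

theorem reach_sub (W L : Set X) : reach W L ⊆ W := fun _ ⟨_, _, h⟩ => h.target_mem

theorem mem_reach_self {W L : Set X} {z : X} (hz : z ∈ W) (hL : z ∈ L) : z ∈ reach W L :=
  ⟨z, hL, JoinedIn.refl hz⟩

theorem reach_sat {W L E : Set X} (hE : E ⊆ W) (hp : IsPathConnected E)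
    (h : (E ∩ reach W L).Nonempty) : E ⊆ reach W L := by
  obtain ⟨z, hz, l, hl, hj⟩ := h
  intro w hw
  exact ⟨l, hl, hj.trans ((hp.joinedIn z hz w hw).mono hE)⟩

theorem compl_sat {W L E : Set X} (hE : E ⊆ W) (hp : IsPathConnected E)
    (h : (E ∩ (W \ reach W L)).Nonempty) : E ⊆ W \ reach W L := by
  obtain ⟨z, hz, hzW, hzn⟩ := h
  intro w hw
  refine ⟨hE hw, fun hwr => hzn ?_⟩
  exact reach_sat hE hp ⟨w, hw, hwr⟩ hz

end

/-- the alternative for one colour: a path connected set joining `L` to `R`, or a continuous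
function which is `≤ 0` on `L`, `≥ 0` on `R` and has no zero on `W` -/
theorem one_colour {X ι : Type*} [PseudoMetricSpace X] [Finite ι] (E : ι → Set X)
    (hE : ∀ i, IsClosed (E i)) (hp : ∀ i, (E i).Nonempty → IsPathConnected (E i)) (L R : Set X)
    (hL : IsClosed L) (hR : IsClosed R) (hLn : L.Nonempty) (hRn : R.Nonempty)
    (hLR : Disjoint L R) :
    (∃ S : Set X, IsPathConnected S ∧ S ⊆ ⋃ i, E i ∧ (S ∩ L).Nonempty ∧ (S ∩ R).Nonempty) ∨
    ∃ f : X → ℝ, Continuous f ∧ (∀ z ∈ L, f z ≤ 0) ∧ (∀ z ∈ R, 0 ≤ f z) ∧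
      ∀ z ∈ ⋃ i, E i, f z ≠ 0 := by
  classical
  set W : Set X := ⋃ i, E i with hW
  have hEW : ∀ i, E i ⊆ W := fun i => subset_iUnion E i
  by_cases hcr : (reach W L ∩ R).Nonempty
  · left
    obtain ⟨z, ⟨l, hl, γ, hγ⟩, hzR⟩ := hcr
    haveI : PathConnectedSpace unitInterval := isPathConnected_iff_pathConnectedSpace.1
      ((convex_Icc (0 : ℝ) 1).isPathConnected ⟨0, by simp⟩)
    refine ⟨range γ, isPathConnected_range γ.continuous, ?_, ⟨l, ⟨0, by simp⟩, hl⟩,
      ⟨z, ⟨1, by simp⟩, hzR⟩⟩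
    rintro _ ⟨t, rfl⟩
    exact hγ t
  · right
    set A1 := reach W L with hA1
    set A2 := W \ reach W L with hA2
    have hA1c : IsClosed A1 := closed_of_sat E hE A1 (reach_sub W L) fun i hi =>
      reach_sat (hEW i) (hp i (hi.mono inter_subset_left)) hi
    have hA2c : IsClosed A2 := closed_of_sat E hE A2 sdiff_subset fun i hi =>
      compl_sat (hEW i) (hp i (hi.mono inter_subset_left)) hi
    have hP : IsClosed (A1 ∪ L) := hA1c.union hL
    have hQ : IsClosed (A2 ∪ R) := hA2c.union hR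
    have hPn : (A1 ∪ L).Nonempty := hLn.mono subset_union_right
    have hQn : (A2 ∪ R).Nonempty := hRn.mono subset_union_right
    refine ⟨fun z => infDist z (A1 ∪ L) - infDist z (A2 ∪ R),
      (continuous_infDist_pt _).sub (continuous_infDist_pt _), ?_, ?_, ?_⟩
    · intro z hz
      have h0 : infDist z (A1 ∪ L) = 0 := infDist_zero_of_mem (Or.inr hz)
      have h1 : 0 ≤ infDist z (A2 ∪ R) := infDist_nonneg
      simp only [h0]; linarith
    · intro z hz
      have h0 : infDist z (A2 ∪ R) = 0 := infDist_zero_of_mem (Or.inr hz)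
      have h1 : 0 ≤ infDist z (A1 ∪ L) := infDist_nonneg
      simp only [h0]; linarith
    · intro z hz h0
      have hR1 : ∀ w ∈ A1, w ∉ R := fun w hw hwR => hcr ⟨w, hw, hwR⟩
      by_cases hz1 : z ∈ A1
      · have h1 : infDist z (A1 ∪ L) = 0 := infDist_zero_of_mem (Or.inl hz1)
        have h2 : infDist z (A2 ∪ R) = 0 := by
          have : infDist z (A1 ∪ L) - infDist z (A2 ∪ R) = 0 := h0
          linarith
        rcases (hQ.mem_iff_infDist_zero hQn).2 h2 with h3 | h3
        · exact h3.2 hz1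
        · exact hR1 z hz1 h3
      · have hz2 : z ∈ A2 := ⟨hz, hz1⟩
        have h1 : infDist z (A2 ∪ R) = 0 := infDist_zero_of_mem (Or.inl hz2)
        have h2 : infDist z (A1 ∪ L) = 0 := by
          have : infDist z (A1 ∪ L) - infDist z (A2 ∪ R) = 0 := h0
          linarith
        rcases (hP.mem_iff_infDist_zero hPn).2 h2 with h3 | h3
        · exact hz1 h3
        · exact hz1 (mem_reach_self hz h3)

/-- the closed square -/
def Sq (s : ℝ) : Set ℂ := {z | 0 ≤ z.re ∧ z.re ≤ s ∧ 0 ≤ z.im ∧ z.im ≤ s}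

/-- the square as a product -/
def toC (s : ℝ) (x : Fin 2 → ℝ) : ℂ := ⟨s / 2 * (1 + x 0), s / 2 * (1 + x 1)⟩

theorem continuous_toC (s : ℝ) : Continuous (toC s) := by
  have : toC s = fun x : Fin 2 → ℝ =>
      ((s / 2 * (1 + x 0) : ℝ) : ℂ) + ((s / 2 * (1 + x 1) : ℝ) : ℂ) * Complex.I := by
    funext x
    apply Complex.ext <;> simp [toC]
  rw [this]
  fun_prop

/-- **duality in the square** -/
theorem square_duality {ι κ : Type*} [Finite ι] [Finite κ] {s : ℝ} (hs : 0 < s)
    (C : ι → Set ℂ) (D : κ → Set ℂ) (hC : ∀ i, IsClosed (C i)) (hD : ∀ i, IsClosed (D i))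
    (hCc : ∀ i, Convex ℝ (C i)) (hDc : ∀ i, Convex ℝ (D i))
    (hcov : Sq s ⊆ (⋃ i, C i) ∪ ⋃ i, D i) :
    (∃ S : Set ℂ, IsPathConnected S ∧ S ⊆ (⋃ i, C i) ∩ Sq s ∧ (S ∩ {z | z.re = 0}).Nonempty ∧
      (S ∩ {z | z.re = s}).Nonempty) ∨
    (∃ S : Set ℂ, IsPathConnected S ∧ S ⊆ (⋃ i, D i) ∩ Sq s ∧ (S ∩ {z | z.im = 0}).Nonempty ∧
      (S ∩ {z | z.im = s}).Nonempty) := by
  have hre : Continuous Complex.re := Complex.continuous_re
  have him : Continuous Complex.im := Complex.continuous_im
  have hSqc : IsClosed (Sq s) := by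
    have : Sq s = {z | 0 ≤ z.re} ∩ {z | z.re ≤ s} ∩ {z | 0 ≤ z.im} ∩ {z | z.im ≤ s} := by
      ext z; simp [Sq, and_assoc]
    rw [this]
    exact (((isClosed_le continuous_const hre).inter (isClosed_le hre continuous_const)).inter
      (isClosed_le continuous_const him)).inter (isClosed_le him continuous_const)
  have hSqv : Convex ℝ (Sq s) := by
    have : Sq s = {z | 0 ≤ z.re} ∩ {z | z.re ≤ s} ∩ {z | 0 ≤ z.im} ∩ {z | z.im ≤ s} := by
      ext z; simp [Sq, and_assoc]
    rw [this]
    exact (((convex_halfSpace_re_ge 0).inter (convex_halfSpace_re_le s)).inter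
      (convex_halfSpace_im_ge 0)).inter (convex_halfSpace_im_le s)
  set L : Set ℂ := Sq s ∩ {z | z.re = 0}
  set R : Set ℂ := Sq s ∩ {z | z.re = s}
  set B : Set ℂ := Sq s ∩ {z | z.im = 0}
  set T : Set ℂ := Sq s ∩ {z | z.im = s}
  have hLc : IsClosed L := hSqc.inter (isClosed_eq hre continuous_const)
  have hRc : IsClosed R := hSqc.inter (isClosed_eq hre continuous_const)
  have hBc : IsClosed B := hSqc.inter (isClosed_eq him continuous_const)
  have hTc : IsClosed T := hSqc.inter (isClosed_eq him continuous_const)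
  have hLn : L.Nonempty := ⟨0, by simp [Sq, hs.le], by simp⟩
  have hBn : B.Nonempty := ⟨0, by simp [Sq, hs.le], by simp⟩
  have hRn : R.Nonempty := ⟨(s : ℂ), by simp [Sq, hs.le], by simp⟩
  have hTn : T.Nonempty := ⟨⟨0, s⟩, by simp [Sq, hs.le], by simp⟩
  have hLR : Disjoint L R := by
    rw [Set.disjoint_left]
    rintro z ⟨_, h1⟩ ⟨_, h2⟩
    simp only [mem_ofPred_eq] at h1 h2
    linarith
  have hBT : Disjoint B T := by
    rw [Set.disjoint_left]
    rintro z ⟨_, h1⟩ ⟨_, h2⟩
    simp only [mem_ofPred_eq] at h1 h2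
    linarith
  rcases one_colour (fun i => C i ∩ Sq s) (fun i => (hC i).inter hSqc)
      (fun i hi => ((hCc i).inter hSqv).isPathConnected hi) L R hLc hRc hLn hRn hLR with h | h
  · left
    obtain ⟨S, hS, hSs, hSL, hSR⟩ := h
    refine ⟨S, hS, ?_, hSL.mono (inter_subset_inter_right _ inter_subset_right),
      hSR.mono (inter_subset_inter_right _ inter_subset_right)⟩
    rw [iUnion_inter]
    exact hSs
  rcases one_colour (fun i => D i ∩ Sq s) (fun i => (hD i).inter hSqc)
      (fun i hi => ((hDc i).inter hSqv).isPathConnected hi) B T hBc hTc hBn hTn hBT with h' | h'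
  · right
    obtain ⟨S, hS, hSs, hSL, hSR⟩ := h'
    refine ⟨S, hS, ?_, hSL.mono (inter_subset_inter_right _ inter_subset_right),
      hSR.mono (inter_subset_inter_right _ inter_subset_right)⟩
    rw [iUnion_inter]
    exact hSs
  exfalso
  obtain ⟨f, hf, hfL, hfR, hf0⟩ := h
  obtain ⟨g, hg, hgL, hgR, hg0⟩ := h'
  have hmem : ∀ x ∈ Set.pi (Set.univ : Set (Fin 2)) (fun _ => Set.Icc (-1 : ℝ) 1),
      toC s x ∈ Sq s := by
    intro x hx
    have h0 := hx 0 (mem_univ _)
    have h1 := hx 1 (mem_univ _)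
    simp only [Sq, toC, mem_ofPred_eq, mem_Icc] at h0 h1 ⊢
    refine ⟨?_, ?_, ?_, ?_⟩ <;> nlinarith
  obtain ⟨x, hx, hz⟩ := Crest.Agent.R202.poincare_miranda (ι := Fin 2)
    (fun x => ![f (toC s x), g (toC s x)])
    (by
      apply Continuous.continuousOn
      refine continuous_pi fun i => ?_
      fin_cases i
      · exact hf.comp (continuous_toC s)
      · exact hg.comp (continuous_toC s))
    (by
      intro x hx i hi
      have hm := hmem x hx
      fin_cases i
      · refine hfR _ ⟨hm, ?_⟩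
        simp only [Fin.zero_eta] at hi
        simp only [toC, mem_ofPred_eq, hi]; ring
      · refine hgR _ ⟨hm, ?_⟩
        simp only [Fin.mk_one] at hi
        simp only [toC, mem_ofPred_eq, hi]; ring)
    (by
      intro x hx i hi
      have hm := hmem x hx
      fin_cases i
      · refine hfL _ ⟨hm, ?_⟩
        simp only [Fin.zero_eta] at hi
        simp only [toC, mem_ofPred_eq, hi]; ring
      · refine hgL _ ⟨hm, ?_⟩
        simp only [Fin.mk_one] at hi
        simp only [toC, mem_ofPred_eq, hi]; ring)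
  have hm := hmem x hx
  have hz0 : f (toC s x) = 0 := hz 0
  have hz1 : g (toC s x) = 0 := hz 1
  rcases hcov hm with hc | hc
  · refine hf0 _ ?_ hz0
    obtain ⟨i, hi⟩ := mem_iUnion.1 hc
    exact mem_iUnion.2 ⟨i, hi, hm⟩
  · refine hg0 _ ?_ hz1
    obtain ⟨i, hi⟩ := mem_iUnion.1 hc
    exact mem_iUnion.2 ⟨i, hi, hm⟩

end Crest.Agent.R143.SqAx223
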