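import Crest.Agent.R143.C2SB_395
import Crest.Agent.R143.DefsN_346

/-!
# Row 143 (S0194), block H, H5 (S1): static means of the three patterns (helper828)

`M` closed map, giants `A : ZMod 3 → Set C`; pattern `k`: `A k` white, `A (k+1)`, `A (k+2)` black,
root gap `g` (`Root M A (k+1) g`), `om = exp (2πi/3)`, field `om * zs M om z` (= `RE`).

* `pE A χ₀ F` : mean of `F` over the colourings of the free cells; linear, `norm_pE_le`, `sq_pE_le`
* `T3 M A z = ∑ j, om ^ j * Ez M A j z`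
* `mean_re` : mean of the block sum of pattern `k` = `om ^ (-k) * T3`; `mean_dis` : mean displacement
  `= Ez (k+2) - Ez (k+1)`
* `mean_lin`, `mean_lin_conj` : mean of `V - κ D`; **`stat_le`, `stat_le_conj`** : the relations of
  `wrong_root` (`Tri_106`, `Tri2_106`) with `e = pR ‖V - κ D‖`, for all the patterns with ONE `T` and
  ONE `Z` (giants `A k` of the pattern `k` with the same mean end points)
-/

set_option autoImplicit false
set_option linter.unusedSectionVars false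

noncomputable section

open scoped Classical ComplexConjugate

namespace Crest.Agent.R143.StPx828

open Crest.Agent.R143.B0x346 Crest.Agent.R143.Frame7x395
open Crest.Agent.R143.Frame1x395 Crest.Agent.R143.Frame2x395 Crest.Agent.R143.Frame3x395
  Crest.Agent.R143.Frame4x395 Crest.Agent.R143.Frame8x395 Crest.Agent.R143.Frame9x395
  Crest.Agent.R143.NonXx592 Crest.Agent.R143.Coarsex166 Crest.Agent.R143.Coarse2x166
  Crest.Agent.R143.C2Sx395 Crest.Agent.R143.C2SBx395 Crest.Agent.R143.K33x137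

/-! ### phases -/

theorem om3 : om ^ 3 = 1 := DefsNx346.om3

theorem z3d : ∀ k : ZMod 3, k + 1 + 1 = k + 2 ∧ k + 1 + 2 = k := by decide

/-- **the phase of pattern `k`** -/
theorem ph (k : ZMod 3) (E : ZMod 3 → ℂ) :
    om * (om * (E (k + 1 + 1) + om * E (k + 1 + 2) + om ^ 2 * E (k + 1))) =
      omz (-k) * ∑ j, omz j * E j := by
  have h3 := om3
  have e : ∑ j : ZMod 3, omz j * E j = omz 0 * E 0 + omz 1 * E 1 + omz 2 * E 2 :=
    Fin.sum_univ_three _
  rw [e]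
  have o0 : omz 0 = 1 := pow_zero _
  have o1 : omz 1 = om := pow_one _
  have o2 : omz 2 = om ^ 2 := rfl
  have hk : k = 0 ∨ k = 1 ∨ k = 2 := by revert k; decide
  rcases hk with rfl | rfl | rfl
  · have a1 : (0 : ZMod 3) + 1 + 1 = 2 := by decide
    have a2 : (0 : ZMod 3) + 1 + 2 = 0 := by decide
    have a3 : (0 : ZMod 3) + 1 = 1 := by decide
    have a4 : -(0 : ZMod 3) = 0 := by decide
    rw [a1, a2, a3, a4, o0, o1, o2]
    linear_combination (E 0 + om * E 1) * h3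
  · have a1 : (1 : ZMod 3) + 1 + 1 = 0 := by decide
    have a2 : (1 : ZMod 3) + 1 + 2 = 1 := by decide
    have a3 : (1 : ZMod 3) + 1 = 2 := by decide
    have a4 : -(1 : ZMod 3) = 2 := by decide
    rw [a1, a2, a3, a4, o0, o1, o2]
    ring
  · have a1 : (2 : ZMod 3) + 1 + 1 = 1 := by decide
    have a2 : (2 : ZMod 3) + 1 + 2 = 2 := by decide
    have a3 : (2 : ZMod 3) + 1 = 0 := by decide
    have a4 : -(2 : ZMod 3) = 1 := by decide
    rw [a1, a2, a3, a4, o0, o1, o2]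
    linear_combination (om * E 0) * h3

theorem conj_om : conj om = om ^ 2 := om_conj

theorem conj_omz (k : ZMod 3) : conj (omz (-k)) = omz k := by
  have h3 := om3
  have hk : k = 0 ∨ k = 1 ∨ k = 2 := by revert k; decide
  have o0 : omz 0 = 1 := pow_zero _
  have o1 : omz 1 = om := pow_one _
  have o2 : omz 2 = om ^ 2 := rfl
  rcases hk with rfl | rfl | rfl
  · have a4 : -(0 : ZMod 3) = 0 := by decide
    rw [a4, o0, map_one]
  · have a4 : -(1 : ZMod 3) = 2 := by decide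
    rw [a4, o2, o1, map_pow, conj_om]
    linear_combination om * h3
  · have a4 : -(2 : ZMod 3) = 1 := by decide
    rw [a4, o2, o1, conj_om]

/-! ### means over the free colours -/

section pin

variable {C : Type} [Fintype C] {A : ZMod 3 → Set C} {χ₀ : C → ZMod 2}

/-- mean over the colourings of the free cells -/
def pE (A : ZMod 3 → Set C) (χ₀ : C → ZMod 2) (F : (C → ZMod 2) → ℂ) : ℂ :=
  (∑ χ, if Pin A χ₀ χ then F χ else 0) / (N0 A : ℂ)

/-- real form -/
def pR (A : ZMod 3 → Set C) (χ₀ : C → ZMod 2) (F : (C → ZMod 2) → ℝ) : ℝ :=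
  (∑ χ, if Pin A χ₀ χ then F χ else 0) / (N0 A : ℝ)

theorem n0_pos : 0 < N0 A := by
  unfold N0
  refine Finset.card_pos.2 ⟨0, Finset.mem_filter.2 ⟨Finset.mem_univ _, fun c _ => rfl⟩⟩

theorem n0_ne : (N0 A : ℂ) ≠ 0 := by
  have := n0_pos (A := A)
  exact_mod_cast this.ne'

theorem pE_sub (F G : (C → ZMod 2) → ℂ) :
    pE A χ₀ (fun χ => F χ - G χ) = pE A χ₀ F - pE A χ₀ G := by
  unfold pE
  rw [← sub_div, ← Finset.sum_sub_distrib]
  congr 1
  refine Finset.sum_congr rfl fun χ _ => ?_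
  split_ifs
  · rfl
  · rw [sub_zero]

theorem pE_add (F G : (C → ZMod 2) → ℂ) :
    pE A χ₀ (fun χ => F χ + G χ) = pE A χ₀ F + pE A χ₀ G := by
  unfold pE
  rw [← add_div, ← Finset.sum_add_distrib]
  congr 1
  refine Finset.sum_congr rfl fun χ _ => ?_
  split_ifs
  · rfl
  · rw [add_zero]

theorem pE_mul (c : ℂ) (F : (C → ZMod 2) → ℂ) :
    pE A χ₀ (fun χ => c * F χ) = c * pE A χ₀ F := by
  unfold pE
  rw [← mul_div_assoc, Finset.mul_sum]
  congr 1
  refine Finset.sum_congr rfl fun χ _ => ?_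
  rw [mul_ite, mul_zero]

theorem pE_conj (F : (C → ZMod 2) → ℂ) :
    pE A χ₀ (fun χ => conj (F χ)) = conj (pE A χ₀ F) := by
  unfold pE
  rw [map_div₀, map_natCast, map_sum]
  congr 1
  refine Finset.sum_congr rfl fun χ _ => ?_
  split_ifs
  · rfl
  · rw [map_zero]

theorem pE_congr {F G : (C → ZMod 2) → ℂ} (h : ∀ χ, Pin A χ₀ χ → F χ = G χ) :
    pE A χ₀ F = pE A χ₀ G := by
  unfold pE
  congr 1
  refine Finset.sum_congr rfl fun χ _ => ?_
  split_ifs with hp
  · exact h χ hp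
  · rfl

theorem pR_mono {F G : (C → ZMod 2) → ℝ} (h : ∀ χ, Pin A χ₀ χ → F χ ≤ G χ) :
    pR A χ₀ F ≤ pR A χ₀ G := by
  unfold pR
  refine div_le_div_of_nonneg_right (Finset.sum_le_sum fun χ _ => ?_) (Nat.cast_nonneg _)
  split_ifs with hp
  · exact h χ hp
  · exact le_rfl

theorem pR_nonneg {F : (C → ZMod 2) → ℝ} (h : ∀ χ, 0 ≤ F χ) : 0 ≤ pR A χ₀ F := by
  unfold pR
  refine div_nonneg (Finset.sum_nonneg fun χ _ => ?_) (Nat.cast_nonneg _)
  split_ifs
  · exact h χ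
  · exact le_rfl

/-- `‖E F‖ ≤ E ‖F‖` -/
theorem norm_pE_le (F : (C → ZMod 2) → ℂ) : ‖pE A χ₀ F‖ ≤ pR A χ₀ fun χ => ‖F χ‖ := by
  unfold pE pR
  rw [norm_div, Complex.norm_natCast]
  refine div_le_div_of_nonneg_right ((norm_sum_le _ _).trans_eq ?_) (Nat.cast_nonneg _)
  refine Finset.sum_congr rfl fun χ _ => ?_
  split_ifs
  · rfl
  · exact norm_zero

/-- `(E f)² ≤ E f²` -/
theorem pR_sq_le (f : (C → ZMod 2) → ℝ) : pR A χ₀ f ^ 2 ≤ pR A χ₀ fun χ => f χ ^ 2 := by
  unfold pR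
  have hN : (0 : ℝ) < N0 A := by exact_mod_cast n0_pos (A := A)
  have e1 : ∀ f : (C → ZMod 2) → ℝ, (∑ χ, if Pin A χ₀ χ then f χ else 0) =
      ∑ χ ∈ Finset.univ.filter (fun χ : C → ZMod 2 => Pin A χ₀ χ), f χ := fun f => by
    rw [Finset.sum_filter]
  rw [e1, e1, div_pow, div_le_div_iff₀ (by positivity) hN]
  have h := sq_sum_le_card_mul_sum_sq
    (s := Finset.univ.filter fun χ : C → ZMod 2 => Pin A χ₀ χ) (f := f)
  rw [n0_eq χ₀] at h
  calc _ ≤ ((N0 A : ℝ) * ∑ χ ∈ Finset.univ.filter (fun χ : C → ZMod 2 => Pin A χ₀ χ), f χ ^ 2) *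
        (N0 A : ℝ) := mul_le_mul_of_nonneg_right h hN.le
    _ = _ := by ring

/-- `‖E F‖² ≤ E ‖F‖²` -/
theorem sq_pE_le (F : (C → ZMod 2) → ℂ) : ‖pE A χ₀ F‖ ^ 2 ≤ pR A χ₀ fun χ => ‖F χ‖ ^ 2 :=
  (pow_le_pow_left₀ (norm_nonneg _) (norm_pE_le F) 2).trans (pR_sq_le _)

/-- functions of the free colours: mean over all the colourings -/
theorem pE_all (F : (C → ZMod 2) → ℂ) (hF : ∀ χ χ', (∀ c, Free A c → χ c = χ' c) → F χ = F χ') :
    pE A χ₀ F = (∑ χ, F χ) / (Fintype.card (C → ZMod 2) : ℂ) := by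
  unfold pE
  rw [div_eq_div_iff n0_ne card_ne]
  have := sum_all (A := A) χ₀ F hF
  linear_combination -this

end pin

/-! ### the patterns -/

section pat

variable {D C C' : Type} {M : CMap D C} {A : ZMod 3 → Set C} {k : ZMod 3} {π : C → C'}
  {hπ : ClsCon M π} {χ₀ : C → ZMod 2} {g : D} [Fintype D] [Fintype C] [Fintype C']

/-- `T / 3` -/
def T3 (M : CMap D C) (A : ZMod 3 → Set C) (z : C → ℂ) : ℂ := ∑ j, omz j * Ez M A j z

/-- block sum of the small field, root gap removed -/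
def V (M : CMap D C) (π : C → C') (hπ : ClsCon M π) (z : C → ℂ) (g : D) (χ : C → ZMod 2) : ℂ :=
  ∑ h ∈ (blk (coarse M π hπ) (cfg M χ) g).erase g, om * zs M om z h

/-- displacement of the block, root gap removed -/
def Dp (M : CMap D C) (π : C → C') (hπ : ClsCon M π) (z : C → ℂ) (g : D) (χ : C → ZMod 2) : ℂ :=
  ∑ h ∈ (blk (coarse M π hπ) (cfg M χ) g).erase g, (z (M.cell (M.rho h)) - z (M.cell h))

/-- **mean of the small field in pattern `k`** -/
theorem mean_re (R : Root M A (k + 1) g) (Q : Cq π A) (G : Gi M A) (hc : Rc A (k + 1) χ₀)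
    (z : C → ℂ) : pE A χ₀ (V M π hπ z g) = omz (-k) * T3 M A z := by
  have h := mean_static (hπ := hπ) om3 om_sum R Q G hc z
  have e : (∑ χ : C → ZMod 2, if Pin A χ₀ χ then V M π hπ z g χ else 0) =
      om * ∑ χ : C → ZMod 2, if Pin A χ₀ χ then
        ∑ h ∈ (blk (coarse M π hπ) (cfg M χ) g).erase g, zs M om z h else 0 := by
    rw [Finset.mul_sum]
    refine Finset.sum_congr rfl fun χ _ => ?_
    unfold V
    split_ifs
    · rw [Finset.mul_sum]
    · rw [mul_zero]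
  unfold pE
  rw [e, h, div_eq_iff n0_ne]
  have h2 := ph k (fun j => Ez M A j z)
  unfold T3
  rw [← h2]
  ring

/-- **mean displacement in pattern `k`** -/
theorem mean_dis (R : Root M A (k + 1) g) (Q : Cq π A) (G : Gi M A) (hc : Rc A (k + 1) χ₀)
    (z : C → ℂ) : pE A χ₀ (Dp M π hπ z g) = Ez M A (k + 2) z - Ez M A (k + 1) z := by
  have h := mean_ends (hπ := hπ) R Q G hc z
  unfold pE
  have e : (∑ χ : C → ZMod 2, if Pin A χ₀ χ then Dp M π hπ z g χ else 0) =
      (N0 A : ℂ) * (Ez M A (k + 1 + 1) z - Ez M A (k + 1) z) := h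
  rw [e, (z3d k).1, mul_div_cancel_left₀ _ n0_ne]

theorem mean_lin (R : Root M A (k + 1) g) (Q : Cq π A) (G : Gi M A) (hc : Rc A (k + 1) χ₀)
    (z : C → ℂ) (κ : ℂ) : pE A χ₀ (fun χ => κ * Dp M π hπ z g χ - V M π hπ z g χ) =
      κ * (Ez M A (k + 2) z - Ez M A (k + 1) z) - omz (-k) * T3 M A z := by
  rw [pE_sub, pE_mul, mean_re R Q G hc, mean_dis R Q G hc]

/-- the same for the field `Nn = conj RE` -/
theorem mean_lin_conj (R : Root M A (k + 1) g) (Q : Cq π A) (G : Gi M A)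
    (hc : Rc A (k + 1) χ₀) (z : C → ℂ) (κ : ℂ) :
    pE A χ₀ (fun χ => κ * conj (Dp M π hπ z g χ) - conj (V M π hπ z g χ)) =
      κ * conj (Ez M A (k + 2) z - Ez M A (k + 1) z) - omz k * conj (T3 M A z) := by
  have h := mean_lin (hπ := hπ) R Q G hc z (conj κ)
  have h2 := congrArg conj h
  rw [← pE_conj] at h2
  simp only [map_sub, map_mul, Complex.conj_conj] at h2 ⊢
  rw [h2, conj_omz]

/-- **the relation of pattern `k`** with the mean error -/
theorem stat_le (R : Root M A (k + 1) g) (Q : Cq π A) (G : Gi M A) (hc : Rc A (k + 1) χ₀)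
    (z : C → ℂ) (κ : ℂ) : ‖κ * (Ez M A (k + 2) z - Ez M A (k + 1) z) - omz (-k) * T3 M A z‖ ≤
      pR A χ₀ fun χ => ‖κ * Dp M π hπ z g χ - V M π hπ z g χ‖ := by
  rw [← mean_lin (hπ := hπ) R Q G hc]
  exact norm_pE_le _

/-- **the relation of pattern `k`**, field `Nn` -/
theorem stat_le_conj (R : Root M A (k + 1) g) (Q : Cq π A) (G : Gi M A) (hc : Rc A (k + 1) χ₀)
    (z : C → ℂ) (κ : ℂ) :
    ‖κ * conj (Ez M A (k + 2) z - Ez M A (k + 1) z) - omz k * conj (T3 M A z)‖ ≤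
      pR A χ₀ fun χ => ‖κ * conj (Dp M π hπ z g χ) - conj (V M π hπ z g χ)‖ := by
  rw [← mean_lin_conj (hπ := hπ) R Q G hc]
  exact norm_pE_le _

end pat

/-! ### three patterns with the same mean end points -/

section three

variable {D C : Type} {M : CMap D C} [Fintype D] [Fintype C]

/-- `T / 3` of the mean end points -/
def TZ (Z : ZMod 3 → ℂ) : ℂ := ∑ j, omz j * Z j

theorem t3_tz {A : ZMod 3 → Set C} {z : C → ℂ} {Z : ZMod 3 → ℂ} (h : ∀ j, Ez M A j z = Z j) :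
    T3 M A z = TZ Z := by
  unfold T3 TZ
  exact Finset.sum_congr rfl fun j _ => by rw [h j]

/-- **ONE `T`, ONE `Z`**: the giants `A` of the pattern `k` may depend on `k` -/
theorem pat_le {C' : Type} [Fintype C'] {A : ZMod 3 → Set C} {π : C → C'} {hπ : ClsCon M π}
    {χ₀ : C → ZMod 2} {g : D} {k : ZMod 3} (R : Root M A (k + 1) g) (Q : Cq π A) (G : Gi M A)
    (hc : Rc A (k + 1) χ₀) {z : C → ℂ} {Z : ZMod 3 → ℂ} (h : ∀ j, Ez M A j z = Z j) (κ : ℂ) :
    ‖κ * (Z (k + 2) - Z (k + 1)) - omz (-k) * TZ Z‖ ≤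
      pR A χ₀ fun χ => ‖κ * Dp M π hπ z g χ - V M π hπ z g χ‖ := by
  have h1 := stat_le (hπ := hπ) R Q G hc z κ
  rwa [h, h, t3_tz h] at h1

/-- the same for the field `Nn`, in the form of `Tri2_106.wrong_root_z` -/
theorem pat_le_conj {C' : Type} [Fintype C'] {A : ZMod 3 → Set C} {π : C → C'} {hπ : ClsCon M π}
    {χ₀ : C → ZMod 2} {g : D} {k : ZMod 3} (R : Root M A (k + 1) g) (Q : Cq π A) (G : Gi M A)
    (hc : Rc A (k + 1) χ₀) {z : C → ℂ} {Z : ZMod 3 → ℂ} (h : ∀ j, Ez M A j z = Z j) (κ : ℂ) :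
    ‖κ * conj (Z (k + 2) - Z (k + 1)) - om ^ k.val * conj (TZ Z)‖ ≤
      pR A χ₀ fun χ => ‖κ * conj (Dp M π hπ z g χ) - conj (V M π hπ z g χ)‖ := by
  have h1 := stat_le_conj (hπ := hπ) R Q G hc z κ
  rw [h, h, t3_tz h] at h1
  exact h1

end three

end Crest.Agent.R143.StPx828
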