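import Crest.Agent.R143.Stb_331
import Crest.Agent.R143.Loc8_277

/-!
# Row 143 (S0194), CONT : STAB' with dead sites (helper331; 660's note 3814 (2) with the repair of
359 and 741)

As in `Stb_331`, but the `V`-neighbours of a disputed site may also be *dead* (tip sites of `V` at
the convex corners): `De b` is a set of sites closed under `V`-neighbours, and no site of `A (e b)`
or `B (e b)` is next to it.  No hit touches a dead site.

`V` is a union of components of the free sites of `A`, every centre of `A` meets `V`.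

* `MkD` : marks and disputed sites; `MkD.hit_iff`, `MkD.stab_TV`;
* `Cmp S V A` : `V` free, closed under free neighbours, no triangle centre, every centre meets `V`;
  `Cmp.hitO_iff`, **`Cmp.TS_eq`** : `TS S A z = TV S V A z`;
* **`MkD.stab`**, `MkD.stab_TU`, `MkD.zV_hv`;
* `Dead`, `MkE.toD` : 359's first form (the component of `v` in `V` has no neighbour in `A (e b)`,
  `B (e b)`).
-/

set_option autoImplicit false

noncomputable section

open scoped Classical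

namespace Crest.Agent.R143.Stbx331

open Crest.Agent.R143.B0x346 Crest.Agent.R143.DelGx806 Crest.Agent.R143.DelRx806
open Crest.Agent.R143.JColx54 (Adj adj_tri adj_tri' adj_tri'')
open Crest.Agent.R143.RE0x723 (Pth)
open Crest.Agent.R143.K33x877 (Clu fr CtrT CtrX)
open Crest.Agent.R143.NetUx346 Crest.Agent.R143.NetVx346
open Crest.Agent.R143.Harx315 (pr)
open Crest.Agent.R143.D3Fx802 (CArm)
open Crest.Agent.R143.CNTx930 (Arm2)
open Crest.Agent.R143.RB2x54 (Vt)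

/-- marks, disputed sites and dead sites -/
structure MkD (S V : Finset ℂ) (A B : ZMod 3 → Set ℂ) {ι : Type} (m : ι → ℂ) (e : ι → ZMod 3)
    (N De : ι → Set ℂ) (ρ D : ℝ) : Prop where
  fV : ∀ v ∈ V, v ∈ ff S A
  bV : ∀ l, ∀ x ∈ B l, x ∉ V
  /-- every site next to `V` is undisputed or disputed at some `b` -/
  lab : ∀ x, x ∉ V → (∃ v ∈ V, Adj S x v) → (∀ l, x ∈ A l ↔ x ∈ B l) ∨
    ∃ b, (∀ v ∈ V, Adj S x v → v ∈ N b ∨ v ∈ De b) ∧ x ∉ A (e b) ∧ x ∉ B (e b)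
  nV : ∀ b, ∀ x ∈ N b, x ∈ V
  ncon : ∀ b, ∀ x ∈ N b, ∀ y ∈ N b, Pth S (N b) x y
  nball : ∀ b, ∀ x ∈ N b, ‖x - m b‖ ≤ ρ
  nadj : ∀ b l, l ≠ e b → ∃ x ∈ N b, ∃ y ∈ A l, Adj S x y
  /-- no centre of `A` near the mark -/
  nc : ∀ b (X : Set ℂ), (∀ x ∈ X, ‖x - m b‖ < D) → ¬ CtrX S A X
  /-- the dead sites are closed under neighbours in `V` -/
  dcl : ∀ b, ∀ v ∈ De b, ∀ v' ∈ V, Adj S v v' → v' ∈ De b
  /-- no site with the label `e b` is next to a dead site -/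
  dno : ∀ b, ∀ v ∈ De b, ∀ y, y ∉ V → Adj S y v → y ∉ A (e b) ∧ y ∉ B (e b)

variable {S V : Finset ℂ} {A B C : ZMod 3 → Set ℂ} {ι : Type} {m : ι → ℂ} {e : ι → ZMod 3}
  {N De : ι → Set ℂ} {ρ D η h R : ℝ}

/-- the old form -/
theorem Mk.toD (M : Mk S V A B m e N ρ D) : MkD S V A B m e N (fun _ => ∅) ρ D where
  fV := fun v hv => by rw [M.fV]; exact hv
  bV := M.bV
  lab := by
    intro x hx hn
    rcases M.lab x hx hn with h | ⟨b, h, h'⟩
    · exact Or.inl h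
    · exact Or.inr ⟨b, fun v hv hxv => Or.inl (h v hv hxv), h'⟩
  nV := M.nV
  ncon := M.ncon
  nball := M.nball
  nadj := M.nadj
  nc := M.nc
  dcl := fun _ v hv => absurd hv (Set.notMem_empty v)
  dno := fun _ v hv => absurd hv (Set.notMem_empty v)

theorem MkD.off (M : MkD S V A B m e N De ρ D) (hC : C = A ∨ C = B) {l : ZMod 3} {x : ℂ}
    (hx : x ∈ C l) : x ∉ V := by
  intro hV
  rcases hC with rfl | rfl
  · have h1 := M.fV x hV
    rw [mem_ff] at h1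
    exact h1.2 l hx
  · exact M.bV l x hx hV

theorem MkD.dno' (M : MkD S V A B m e N De ρ D) (hC : C = A ∨ C = B) {b : ι} {v y : ℂ}
    (hv : v ∈ De b) (hy : y ∈ C (e b)) (h : Adj S y v) : False := by
  have h1 := M.dno b v hv y (M.off hC hy) h
  rcases hC with rfl | rfl
  · exact h1.1 hy
  · exact h1.2 hy

/-- the dead sites are closed under chains in `V` -/
theorem MkD.dpth (M : MkD S V A B m e N De ρ D) {b : ι} {W : Set ℂ} (hW : ∀ x ∈ W, x ∈ V)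
    {v v' : ℂ} (hv : v ∈ De b) (h : Pth S W v v') : v' ∈ De b := by
  refine h.ind (P := fun v' => v' ∈ De b) hv ?_
  intro u w _ hw huw ih
  exact M.dcl b u ih w (hW w hw) huw

/-- **a connected free set next to three sites of the three labels of `C ∈ {A, B}`, which contains
`N b`, gives a centre of `A`** -/
theorem MkD.no_ctr (M : MkD S V A B m e N De ρ D) (hC : C = A ∨ C = B) (b0 : ι) {X : Set ℂ}
    (hXV : ∀ x ∈ X, x ∈ V) (hXc : ∀ x ∈ X, ∀ y ∈ X, Pth S X x y) (hN : N b0 ⊆ X)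
    (hR : ∀ x ∈ X, ‖x - m b0‖ < R) (hRD : R + 2 * ρ ≤ D) (hρ : 0 ≤ ρ) {v : ℂ} (hv : v ∉ V)
    (hvC : v ∈ C (e b0)) (hvX : ∃ x ∈ X, Adj S v x) : False := by
  obtain ⟨x, hx, hvx⟩ := hvX
  have hdisj : ∀ Y : Set ℂ, (∀ y ∈ Y, y ∈ V) → ∀ i, Disjoint Y (A i) := by
    intro Y hY i
    rw [Set.disjoint_left]
    intro y hy hyA
    have h1 := M.fV y (hY y hy)
    rw [mem_ff] at h1
    exact h1.2 i hyA
  rcases M.lab v hv ⟨x, hXV x hx, hvx⟩ with hu | ⟨b1, h1, h2, h3⟩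
  · have hvA : v ∈ A (e b0) := by
      rcases hC with rfl | rfl
      · exact hvC
      · exact (hu _).2 hvC
    refine M.nc b0 X (fun y hy => lt_of_lt_of_le (hR y hy) (by linarith)) ⟨hdisj X hXV, hXc, ?_⟩
    intro i
    by_cases hi : i = e b0
    · subst hi
      exact ⟨x, hx, v, hvA, hvx.symm⟩
    · obtain ⟨y, hy, w, hw, hyw⟩ := M.nadj b0 i hi
      exact ⟨y, hN hy, w, hw, hyw⟩
  · have hne : e b0 ≠ e b1 := by
      intro he
      rw [he] at hvC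
      rcases hC with rfl | rfl
      · exact h2 hvC
      · exact h3 hvC
    rcases h1 x (hXV x hx) hvx with hx1 | hx1
    · refine M.nc b0 (X ∪ N b1) ?_ ⟨hdisj _ ?_, ?_, ?_⟩
      · rintro y (hy | hy)
        · exact lt_of_lt_of_le (hR y hy) (by linarith)
        · have a1 := M.nball b1 y hy
          have a2 := M.nball b1 x hx1
          have a3 := hR x hx
          have a4 : y - m b0 = (y - m b1) - (x - m b1) + (x - m b0) := by ring
          have a5 : ‖y - m b0‖ ≤ ‖y - m b1‖ + ‖x - m b1‖ + ‖x - m b0‖ := by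
            rw [a4]
            exact (norm_add_le _ _).trans (add_le_add (norm_sub_le _ _) le_rfl)
          linarith
      · rintro y (hy | hy)
        · exact hXV y hy
        · exact M.nV b1 y hy
      · exact con_union hXc (M.ncon b1) fun y _ => ⟨x, hx, x, hx1, Or.inl rfl⟩
      · intro i
        by_cases hi : i = e b0
        · subst hi
          obtain ⟨y, hy, w, hw, hyw⟩ := M.nadj b1 (e b0) hne
          exact ⟨y, Or.inr hy, w, hw, hyw⟩
        · obtain ⟨y, hy, w, hw, hyw⟩ := M.nadj b0 i hi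
          exact ⟨y, Or.inl (hN hy), w, hw, hyw⟩
    · -- `X` is dead for `b1`, but `N b0` is next to `A (e b1)`
      obtain ⟨y, hy, w, hw, hyw⟩ := M.nadj b0 (e b1) hne.symm
      exact M.dno' (Or.inl rfl) (M.dpth hXV hx1 (hXc x hx y (hN hy))) hw hyw.symm

section hd

variable {W1 W2 : Set ℂ} {l0 l1 l2 : ZMod 3} {y c1 c2 b w : ℂ}

theorem HD.b_inD (M : MkD S V A B m e N De ρ D) (hC : C = A ∨ C = B)
    (H : HD S V C W1 W2 l0 l1 l2 y c1 c2 b w) (hb : b ∈ V) :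
    ∃ p, Adj S c1 p ∧ Pth S W1 p b := by
  rcases H.f1 with h | h
  · exact absurd hb (h ▸ M.off hC H.h1)
  · exact h

/-- **no hit touches a dead site** -/
theorem HD.alive (M : MkD S V A B m e N De ρ D) (hC : C = A ∨ C = B)
    (H : HD S V C W1 W2 l0 l1 l2 y c1 c2 b w) (b0 : ι) (hb : b ∈ V) : b ∉ De b0 := by
  intro hd
  obtain ⟨p, hp, hpb⟩ := H.b_inD M hC hb
  have hpd : p ∈ De b0 := M.dpth H.w1 hd hpb.symm
  have h2 : ∃ x ∈ De b0, Adj S c2 x := by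
    rcases H.f2 with rfl | ⟨q, h3, h4⟩
    · exact ⟨b, hd, H.bw.symm⟩
    · have hw : w ∈ V := H.w2 w (Pth.snd h4)
      exact ⟨q, M.dpth H.w2 (M.dcl b0 b hd w hw H.bw) h4.symm, h3⟩
  rcases H.ll (e b0) with h | h | h
  · exact M.dno' hC hd (h ▸ H.hy) H.yb
  · exact M.dno' hC hpd (h ▸ H.h1) hp
  · obtain ⟨x, hx, hcx⟩ := h2
    exact M.dno' hC hx (h ▸ H.h2) hcx

/-- **the conclusion**: if the union of `N b0` and of the two clusters is connected and in the ball,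
there is a contradiction -/
theorem HD.contraD (M : MkD S V A B m e N De ρ D) (hC : C = A ∨ C = B)
    (H : HD S V C W1 W2 l0 l1 l2 y c1 c2 b w) (b0 : ι) (hRD : R + 2 * ρ ≤ D) (hρ : 0 ≤ ρ)
    (hρR : ρ < R)
    (hc : ∀ x ∈ N b0 ∪ {v | Pth S W1 b v} ∪ {v | Pth S W2 w v},
      ∀ y ∈ N b0 ∪ {v | Pth S W1 b v} ∪ {v | Pth S W2 w v},
      Pth S (N b0 ∪ {v | Pth S W1 b v} ∪ {v | Pth S W2 w v}) x y)
    (hR1 : ∀ v, Pth S W1 b v → ‖v - m b0‖ < R) (hR2 : ∀ v, Pth S W2 w v → ‖v - m b0‖ < R) :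
    False := by
  set X : Set ℂ := N b0 ∪ {v | Pth S W1 b v} ∪ {v | Pth S W2 w v} with hX
  have hXV : ∀ x ∈ X, x ∈ V := by
    rintro x ((hx | hx) | hx)
    · exact M.nV b0 x hx
    · exact H.w1 x (Pth.snd hx)
    · exact H.w2 x (Pth.snd hx)
  have hXR : ∀ x ∈ X, ‖x - m b0‖ < R := by
    rintro x ((hx | hx) | hx)
    · exact lt_of_le_of_lt (M.nball b0 x hx) hρR
    · exact hR1 x hx
    · exact hR2 x hx
  have hbX : b ∈ V → b ∈ X := by
    intro hb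
    obtain ⟨p, -, hp⟩ := H.b_inD M hC hb
    exact Or.inl (Or.inr (Pth.refl (Pth.snd hp)))
  have hwX : w ∈ V → w ∈ X := by
    intro hw
    obtain ⟨p, -, hp⟩ := H.swap.b_inD M hC hw
    exact Or.inr (Pth.refl (Pth.snd hp))
  have hy : ∃ x ∈ X, Adj S y x := by
    rcases H.ex with h | h
    · exact ⟨b, hbX h, H.yb⟩
    · exact ⟨w, hwX h, H.yw⟩
  have h1 : ∃ x ∈ X, Adj S c1 x := by
    rcases H.f1 with rfl | ⟨p, h3, h4⟩
    · have hw : w ∈ V := by
        rcases H.ex with h | h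
        · exact absurd h (M.off hC H.h1)
        · exact h
      exact ⟨w, hwX hw, H.bw⟩
    · exact ⟨p, Or.inl (Or.inr h4.symm), h3⟩
  have h2 : ∃ x ∈ X, Adj S c2 x := by
    rcases H.f2 with rfl | ⟨p, h3, h4⟩
    · have hb : b ∈ V := by
        rcases H.ex with h | h
        · exact h
        · exact absurd h (M.off hC H.h2)
      exact ⟨b, hbX hb, H.bw.symm⟩
    · exact ⟨p, Or.inr h4.symm, h3⟩
  have hN : N b0 ⊆ X := fun x hx => Or.inl (Or.inl hx)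
  rcases H.ll (e b0) with h | h | h
  · exact M.no_ctr hC b0 hXV hc hN hXR hRD hρ (M.off hC H.hy) (h ▸ H.hy) hy
  · exact M.no_ctr hC b0 hXV hc hN hXR hRD hρ (M.off hC H.h1) (h ▸ H.h1) h1
  · exact M.no_ctr hC b0 hXV hc hN hXR hRD hρ (M.off hC H.h2) (h ▸ H.h2) h2

/-- `y` is not disputed -/
theorem HD.y_undD (M : MkD S V A B m e N De ρ D) (hC : C = A ∨ C = B)
    (H : HD S V C W1 W2 l0 l1 l2 y c1 c2 b w) (hRD : R + 2 * ρ ≤ D) (hρ : 0 ≤ ρ)
    (hρR : ρ < R) (n1 : ∀ b0, NoArm S W1 (m b0) ρ R) (n2 : ∀ b0, NoArm S W2 (m b0) ρ R) (b0 : ι) :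
    ¬ ∀ v ∈ V, Adj S y v → v ∈ N b0 ∨ v ∈ De b0 := by
  intro hd
  have hb : b ∈ V → b ∈ N b0 := fun h => (hd b h H.yb).resolve_right (H.alive M hC b0 h)
  have hw : w ∈ V → w ∈ N b0 := fun h => (hd w h H.yw).resolve_right (H.swap.alive M hC b0 h)
  refine H.contraD M hC b0 hRD hρ hρR ?_ ?_ ?_
  · refine con_union (con_union (M.ncon b0) con_clu ?_) con_clu ?_
    · intro v hv
      have h1 : b ∈ V := H.w1 b (show Pth S W1 b v from hv).1
      exact ⟨b, hb h1, b, Pth.refl (show Pth S W1 b v from hv).1, Or.inl rfl⟩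
    · intro v hv
      have h1 : w ∈ V := H.w2 w (show Pth S W2 w v from hv).1
      exact ⟨w, Or.inl (hw h1), w, Pth.refl (show Pth S W2 w v from hv).1, Or.inl rfl⟩
  · intro v hv
    exact n1 b0 b v hv (M.nball b0 b (hb (H.w1 b hv.1)))
  · intro v hv
    exact n2 b0 w v hv (M.nball b0 w (hw (H.w2 w hv.1)))

/-- `c1` is not disputed -/
theorem HD.c_undD (M : MkD S V A B m e N De ρ D) (hC : C = A ∨ C = B)
    (H : HD S V C W1 W2 l0 l1 l2 y c1 c2 b w) (hRD : R + 2 * ρ ≤ D) (hρ : 0 ≤ ρ)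
    (hρR : ρ < R) (hρη : ρ ≤ η) (hηR : η ≤ R) (hh : 0 ≤ h)
    (hm : ∀ b0, ∀ u ∈ V, ∀ v ∈ V, Adj S u v → ‖u - m b0‖ < η → ‖v - u‖ ≤ h)
    (n1 : ∀ b0, NoArm S W1 (m b0) ρ η) (n2 : ∀ b0, NoArm S W2 (m b0) (η + h) R) (b0 : ι) :
    ¬ ∀ v ∈ V, Adj S c1 v → v ∈ N b0 ∨ v ∈ De b0 := by
  intro hd0
  -- the first site of the chain of `c1` is alive
  have hp : b ∈ V → ∀ p, Adj S c1 p → Pth S W1 p b → p ∈ N b0 := by
    intro hb p h1 h2
    refine (hd0 p (H.w1 p h2.1) h1).resolve_right fun h3 => ?_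
    exact H.alive M hC b0 hb (M.dpth H.w1 h3 h2)
  have hK1 : ∀ v, Pth S W1 b v → ‖v - m b0‖ < η := by
    intro v hv
    obtain ⟨p, h1, h2⟩ := H.b_inD M hC (H.w1 b hv.1)
    exact n1 b0 p v (h2.trans hv) (M.nball b0 p (hp (H.w1 b hv.1) p h1 h2))
  have hw : w ∈ V → ‖w - m b0‖ ≤ η + h ∧ (w ∈ N b0 ∨ b ∈ V) := by
    intro hw
    by_cases hb : b ∈ V
    · obtain ⟨p, h1, h2⟩ := H.b_inD M hC hb
      have h3 := hK1 b (Pth.refl (Pth.snd h2))
      have h4 := hm b0 b hb w hw H.bw h3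
      have h5 : ‖w - m b0‖ ≤ ‖w - b‖ + ‖b - m b0‖ := by
        have : w - m b0 = (w - b) + (b - m b0) := by ring
        rw [this]
        exact norm_add_le _ _
      exact ⟨by linarith, Or.inr hb⟩
    · have h1 : c1 = b := by
        rcases H.f1 with h | ⟨p, -, h⟩
        · exact h
        · exact absurd (H.w1 b (Pth.snd h)) hb
      have h2 : w ∈ N b0 := (hd0 w hw (h1 ▸ H.bw)).resolve_right (H.swap.alive M hC b0 hw)
      exact ⟨by linarith [M.nball b0 w h2], Or.inl h2⟩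
  refine H.contraD M hC b0 hRD hρ hρR ?_ ?_ ?_
  · refine con_union (con_union (M.ncon b0) con_clu ?_) con_clu ?_
    · intro v hv
      have hb : b ∈ V := H.w1 b (show Pth S W1 b v from hv).1
      obtain ⟨p, h1, h2⟩ := H.b_inD M hC hb
      exact ⟨p, hp hb p h1 h2, p, h2.symm, Or.inl rfl⟩
    · intro v hv
      have h0 : w ∈ W2 := (show Pth S W2 w v from hv).1
      rcases (hw (H.w2 w h0)).2 with h1 | h1
      · exact ⟨w, Or.inl h1, w, Pth.refl h0, Or.inl rfl⟩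
      · obtain ⟨p, -, h2⟩ := H.b_inD M hC h1
        exact ⟨b, Or.inr (Pth.refl (Pth.snd h2)), w, Pth.refl h0, Or.inr H.bw⟩
  · intro v hv
    exact lt_of_lt_of_le (hK1 v hv) hηR
  · intro v hv
    exact n2 b0 w v hv (hw (H.w2 w hv.1)).1

end hd

/-- **the hits of one structure are hits of the other** -/
theorem MkD.transfer (hS : GP (S : Set ℂ)) (M : MkD S V A B m e N De ρ D) (hC : C = A ∨ C = B)
    (K : Cst S V m ρ η h R D) {T : Set ℂ} (O : Ok S V m T ρ η h R) {i : ZMod 3}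
    {t : ℂ × ℂ × ℂ} (H : HitV S V C i T t) : HitV S V A i T t ∧ HitV S V B i T t := by
  obtain ⟨y, b, w⟩ := t
  obtain ⟨h1, h2, h3, h4, h5⟩ := H
  simp only at h2 h3 h4 h5
  -- the feet
  have g4 : ∃ c1 ∈ C (i + 1), c1 = b ∨ ∃ p, Adj S c1 p ∧ Pth S (Bk V T) p b := by
    rcases foot h4 with h | ⟨c, hc, p, h6, h7⟩
    · exact ⟨b, h, Or.inl rfl⟩
    · exact ⟨c, hc, Or.inr ⟨p, h6, h7⟩⟩
  have g5 : ∃ c2 ∈ C (i + 2), c2 = w ∨ ∃ p, Adj S c2 p ∧ Pth S (Wh V T) p w := by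
    rcases foot h5 with h | ⟨c, hc, p, h6, h7⟩
    · exact ⟨w, h, Or.inl rfl⟩
    · exact ⟨c, hc, Or.inr ⟨p, h6, h7⟩⟩
  obtain ⟨c1, hc1, f1⟩ := g4
  obtain ⟨c2, hc2, f2⟩ := g5
  have HH : HD S V C (Bk V T) (Wh V T) i (i + 1) (i + 2) y c1 c2 b w :=
    { w1 := fun x hx => hx.1
      w2 := fun x hx => hx.1
      ll := fun l => z3 i l
      hy := h2
      h1 := hc1
      h2 := hc2
      f1 := f1
      f2 := f2
      yb := adj_tri h1
      yw := (adj_tri'' hS h1).symm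
      bw := adj_tri' hS h1
      ex := h3 }
  have hρR : ρ < R := by linarith [K.ρη, K.ηR, K.hh]
  have hηR : η ≤ R := by linarith [K.ηR, K.hh]
  -- everything is undisputed
  have uy : ∀ l, y ∈ A l ↔ y ∈ B l := by
    rcases M.lab y (M.off hC h2) (by
      rcases h3 with h | h
      · exact ⟨b, h, HH.yb⟩
      · exact ⟨w, h, HH.yw⟩) with h | ⟨b0, h, -⟩
    · exact h
    · exact absurd h (HH.y_undD M hC K.RD K.hρ hρR (fun b => (O.b1 b).mono hηR)
        (fun b => (O.w1 b).mono hηR) b0)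
  have u1 : ∀ l, c1 ∈ A l ↔ c1 ∈ B l := by
    rcases M.lab c1 (M.off hC hc1) (by
      rcases f1 with h | ⟨p, h, h'⟩
      · rcases h3 with g | g
        · exact absurd g (h ▸ M.off hC hc1)
        · exact ⟨w, g, h ▸ HH.bw⟩
      · exact ⟨p, h'.1.1, h⟩) with h | ⟨b0, h, -⟩
    · exact h
    · exact absurd h (HH.c_undD M hC K.RD K.hρ hρR K.ρη hηR K.hh K.mesh O.b1 O.w2 b0)
  have u2 : ∀ l, c2 ∈ A l ↔ c2 ∈ B l := by
    rcases M.lab c2 (M.off hC hc2) (by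
      rcases f2 with h | ⟨p, h, h'⟩
      · rcases h3 with g | g
        · exact ⟨b, g, h ▸ HH.bw.symm⟩
        · exact absurd g (h ▸ M.off hC hc2)
      · exact ⟨p, h'.1.1, h⟩) with h | ⟨b0, h, -⟩
    · exact h
    · exact absurd h (HH.swap.c_undD M hC K.RD K.hρ hρR K.ρη hηR K.hh K.mesh O.w1 O.b2 b0)
  -- transfer
  have main : ∀ E : ZMod 3 → Set ℂ, (∀ l, y ∈ C l → y ∈ E l) → (∀ l, c1 ∈ C l → c1 ∈ E l) →
      (∀ l, c2 ∈ C l → c2 ∈ E l) → HitV S V E i T (y, b, w) := by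
    intro E e0 e1 e2
    refine ⟨h1, e0 _ h2, h3, of_foot ?_, of_foot ?_⟩
    · rcases f1 with h | ⟨p, h, h'⟩
      · exact Or.inl (h ▸ e1 _ hc1)
      · exact Or.inr ⟨c1, e1 _ hc1, p, h, h'⟩
    · rcases f2 with h | ⟨p, h, h'⟩
      · exact Or.inl (h ▸ e2 _ hc2)
      · exact Or.inr ⟨c2, e2 _ hc2, p, h, h'⟩
  rcases hC with rfl | rfl
  · exact ⟨main _ (fun l => id) (fun l => id) (fun l => id),
      main B (fun l => (uy l).1) (fun l => (u1 l).1) (fun l => (u2 l).1)⟩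
  · exact ⟨main A (fun l => (uy l).2) (fun l => (u1 l).2) (fun l => (u2 l).2),
      main _ (fun l => id) (fun l => id) (fun l => id)⟩

/-- **STAB' with dead sites, deterministic part** -/
theorem MkD.hit_iff (hS : GP (S : Set ℂ)) (M : MkD S V A B m e N De ρ D)
    (K : Cst S V m ρ η h R D) {T : Set ℂ} (O : Ok S V m T ρ η h R) (i : ZMod 3) (t : ℂ × ℂ × ℂ) :
    HitV S V A i T t ↔ HitV S V B i T t :=
  ⟨fun H => (M.transfer hS (Or.inl rfl) K O H).2, fun H => (M.transfer hS (Or.inr rfl) K O H).1⟩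

/-! ### probability -/

theorem norm_zV' {i : ZMod 3} {T : Set ℂ} {z : ℂ → ℂ} {k : ℝ} (hS : GP (S : Set ℂ)) (hk : 0 ≤ k)
    (h : ∀ v ∈ B i, (∃ w ∈ V, Adj S v w) → ‖z v‖ ≤ k) : ‖zV S V B i T z‖ ≤ k := by
  unfold zV
  split_ifs with hc
  · obtain ⟨t, ht⟩ := Finset.card_eq_one.1 hc
    rw [ht, Finset.sum_singleton]
    have h1 : t ∈ hitsV S V B i T := by
      rw [ht]
      exact Finset.mem_singleton_self t
    rw [mem_hitsV] at h1
    obtain ⟨a1, a2, a3, -, -⟩ := h1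
    obtain ⟨y, b, w⟩ := t
    refine h y a2 ?_
    rcases a3 with h3 | h3
    · exact ⟨b, h3, adj_tri a1⟩
    · exact ⟨w, h3, (adj_tri'' hS a1).symm⟩
  · rw [norm_zero]
    exact hk

/-- comparison of two class systems with the same hits off an event -/
theorem TV_event {P : Finset ℂ → Prop} (hS : GP (S : Set ℂ))
    (hh : ∀ T ⊆ V, ¬ P T → ∀ i t, HitV S V A i (T : Set ℂ) t ↔ HitV S V B i (T : Set ℂ) t)
    {z : ℂ → ℂ} {k : ℝ} (hk : 0 ≤ k) (hA : ∀ i, ∀ v ∈ A i, (∃ w ∈ V, Adj S v w) → ‖z v‖ ≤ k)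
    (hB : ∀ i, ∀ v ∈ B i, (∃ w ∈ V, Adj S v w) → ‖z v‖ ≤ k) :
    ‖TV S V A z - TV S V B z‖ ≤ 18 * k * pr V P := by
  have h1 : TV S V A z - TV S V B z = 3 * ∑ i : ZMod 3, omz i * exC V fun T =>
      zV S V A i (T : Set ℂ) z - zV S V B i (T : Set ℂ) z := by
    unfold TV
    rw [← mul_sub, ← Finset.sum_sub_distrib]
    congr 1
    refine Finset.sum_congr rfl fun i _ => ?_
    rw [exC_sub, mul_sub]
  have h2 : ∀ i : ZMod 3, ‖omz i * exC V fun T => zV S V A i (T : Set ℂ) z -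
      zV S V B i (T : Set ℂ) z‖ ≤ 2 * k * pr V P := by
    intro i
    rw [norm_mul, norm_omz, one_mul]
    refine norm_exC_event (fun T _ => ?_) fun T hTV hT => ?_
    · refine (norm_sub_le _ _).trans ?_
      have a1 := norm_zV' (V := V) (i := i) (T := (T : Set ℂ)) hS hk (hA i)
      have a2 := norm_zV' (V := V) (i := i) (T := (T : Set ℂ)) hS hk (hB i)
      linarith
    · rw [zV_congr (fun t => hh T hTV hT i t) z, sub_self]
  have h3 : ‖∑ i : ZMod 3, omz i * exC V fun T => zV S V A i (T : Set ℂ) z -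
      zV S V B i (T : Set ℂ) z‖ ≤ 3 * (2 * k * pr V P) := by
    refine (norm_sum_le _ _).trans ?_
    refine (Finset.sum_le_sum fun i _ => h2 i).trans ?_
    rw [Finset.sum_const, Finset.card_univ, ZMod.card, nsmul_eq_mul]
    push_cast
    exact le_rfl
  rw [h1, norm_mul, Complex.norm_ofNat]
  linarith

/-- **STAB' for `TV`** -/
theorem MkD.stab_TV [Fintype ι] (hS : GP (S : Set ℂ)) (M : MkD S V A B m e N De ρ D)
    (K : Cst S V m ρ η h R D) {z : ℂ → ℂ} {k : ℝ} (hk : 0 ≤ k)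
    (hA : ∀ i, ∀ v ∈ A i, (∃ w ∈ V, Adj S v w) → ‖z v‖ ≤ k)
    (hB : ∀ i, ∀ v ∈ B i, (∃ w ∈ V, Adj S v w) → ‖z v‖ ≤ k) : ‖TV S V A z - TV S V B z‖ ≤
      18 * k * ∑ b, (pr V (Arm2 S V (m b) ρ η) + pr V (Arm2 S V (m b) (η + h) R)) := by
  refine (TV_event (P := Arms S V m ρ η h R) hS
    (fun T _ hT i t => M.hit_iff hS K (ok_of hT) i t) hk hA hB).trans ?_
  exact mul_le_mul_of_nonneg_left pr_arms (by positivity)

/-! ### the hits of `A` live in `V` -/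

/-- `V` is a union of components of the free sites, no triangle centre, every centre meets `V` -/
structure Cmp (S V : Finset ℂ) (A : ZMod 3 → Set ℂ) : Prop where
  fV : ∀ v ∈ V, v ∈ ff S A
  cl : ∀ v ∈ V, ∀ w ∈ ff S A, Adj S v w → w ∈ V
  noT : ∀ t, ¬ CtrT S A t
  ctr : ∀ Y, CtrX S A Y → ∃ y ∈ Y, y ∈ V

/-- all the free sites -/
theorem Cmp.of_eq (hf : ff S A = V) (hT : ∀ t, ¬ CtrT S A t) : Cmp S V A where
  fV := fun v hv => hf ▸ hv
  cl := fun v _ w hw _ => hf ▸ hw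
  noT := hT
  ctr := by
    intro Y hY
    obtain ⟨x, hx, y, -, hxy⟩ := hY.2.2 0
    refine ⟨x, hx, ?_⟩
    rw [← hf, mem_ff]
    exact ⟨hxy.mem.1, fun i hi => Set.disjoint_left.1 (hY.1 i) hx hi⟩

/-- from a centre inside `V` which meets all the others -/
theorem Cmp.of_meet (h1 : ∀ v ∈ V, v ∈ ff S A) (h2 : ∀ v ∈ V, ∀ w ∈ ff S A, Adj S v w → w ∈ V)
    (hT : ∀ t, ¬ CtrT S A t) {X : Set ℂ} (hX : ∀ x ∈ X, x ∈ V)
    (hm : ∀ Y, CtrX S A Y → ¬ Disjoint X Y) : Cmp S V A where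
  fV := h1
  cl := h2
  noT := hT
  ctr := by
    intro Y hY
    obtain ⟨y, hy1, hy2⟩ := Set.not_disjoint_iff.1 (hm Y hY)
    exact ⟨y, hy2, hX y hy1⟩

/-- a chain of free sites which starts in `V` stays in `V` -/
theorem Cmp.pth (H : Cmp S V A) {W : Set ℂ} (hW : ∀ x ∈ W, x ∈ fr S A) {x y : ℂ}
    (h : Pth S W x y) (hx : x ∈ V) : y ∈ V ∧ Pth S ({v | v ∈ V} ∩ W) x y := by
  refine h.ind (P := fun y => y ∈ V ∧ Pth S ({v | v ∈ V} ∩ W) x y) ⟨hx, Pth.refl ⟨hx, h.1⟩⟩ ?_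
  rintro u w hu hw huw ⟨h1, h2⟩
  have h3 : w ∈ V := H.cl u h1 w (mem_ff.2 (hW w hw)) huw
  exact ⟨h3, h2.tail huw ⟨h3, hw⟩⟩

theorem clu_mono {T T' K : Set ℂ} (h : T ⊆ T') {v : ℂ} (hv : v ∈ Clu S T K) : v ∈ Clu S T' K := by
  obtain ⟨x, hx, h1⟩ := hv
  exact ⟨x, hx, h1.mono (Set.union_subset_union_left _ h)⟩

/-- **the hits of `A` are the hits of `V`** -/
theorem Cmp.hitO_iff (H : Cmp S V A) (hS : GP (S : Set ℂ)) {i : ZMod 3} {T : Finset ℂ}
    {t : ℂ × ℂ × ℂ} :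
    HitO S A i (T : Set ℂ) t ↔ HitV S V A i ((T ∩ V : Finset ℂ) : Set ℂ) t := by
  obtain ⟨y, b, w⟩ := t
  constructor
  · intro h
    have hdeg := deg_of H.noT h
    obtain ⟨h1, h2, h3, h4⟩ := h
    simp only at h2 h3 h4 hdeg
    have hyb : Adj S y b := adj_tri h1
    have hyw : Adj S y w := (adj_tri'' hS h1).symm
    have hbw : Adj S b w := adj_tri' hS h1
    -- the component
    obtain ⟨x, hx, hxe⟩ : ∃ x ∈ ff S A, x = b ∨ x = w := by
      rcases hdeg with h | h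
      · exact ⟨b, h, Or.inl rfl⟩
      · exact ⟨w, h, Or.inr rfl⟩
    rw [mem_ff] at hx
    have hb : b ∈ fr S A → Pth S (fr S A) x b := by
      intro hb
      rcases hxe with rfl | rfl
      · exact Pth.refl hx
      · exact Pth.single hx hbw.symm hb
    have hw : w ∈ fr S A → Pth S (fr S A) x w := by
      intro hw
      rcases hxe with rfl | rfl
      · exact Pth.single hx hbw hw
      · exact Pth.refl hx
    have f1 := foot h3
    have f2 := foot h4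
    have hC : CtrX S A {v | Pth S (fr S A) x v} := by
      refine ⟨fun j => Set.disjoint_left.2 fun v hv hv' => (Pth.snd hv).2 j hv', con_clu,
        fun j => ?_⟩
      rcases z3 i j with rfl | rfl | rfl
      · refine ⟨x, Pth.refl hx, y, h2, ?_⟩
        rcases hxe with rfl | rfl
        · exact hyb.symm
        · exact hyw.symm
      · rcases f1 with h | ⟨c, hc, p, h5, h6⟩
        · refine ⟨x, Pth.refl hx, b, h, ?_⟩
          rcases hxe with rfl | rfl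
          · exact absurd h (hx.2 _)
          · exact hbw.symm
        · exact ⟨p, (hb h6.snd.1).trans (h6.symm.mono Set.inter_subset_left), c, hc, h5.symm⟩
      · rcases f2 with h | ⟨c, hc, p, h5, h6⟩
        · refine ⟨x, Pth.refl hx, w, h, ?_⟩
          rcases hxe with rfl | rfl
          · exact hbw
          · exact absurd h (hx.2 _)
        · exact ⟨p, (hw h6.snd.1).trans (h6.symm.mono Set.sdiff_subset), c, hc, h5.symm⟩
    obtain ⟨v, hv, hvV⟩ := H.ctr _ hC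
    have hxV : x ∈ V := (H.pth (fun _ h => h) (Pth.symm hv) hvV).1
    have hbV : b ∈ fr S A → b ∈ V := fun h => (H.pth (fun _ h => h) (hb h) hxV).1
    have hwV : w ∈ fr S A → w ∈ V := fun h => (H.pth (fun _ h => h) (hw h) hxV).1
    refine ⟨h1, h2, ?_, of_foot ?_, of_foot ?_⟩
    · rcases hxe with rfl | rfl
      · exact Or.inl hxV
      · exact Or.inr hxV
    · rcases f1 with h | ⟨c, hc, p, h5, h6⟩
      · exact Or.inl h
      · refine Or.inr ⟨c, hc, p, h5, ?_⟩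
        have h7 := (H.pth (fun _ h => h.1) h6.symm (hbV h6.snd.1)).2.symm
        refine h7.mono ?_
        rintro u ⟨u1, u2⟩
        refine ⟨u1, ?_⟩
        rw [Finset.coe_inter]
        exact ⟨u2.2, u1⟩
    · rcases f2 with h | ⟨c, hc, p, h5, h6⟩
      · exact Or.inl h
      · refine Or.inr ⟨c, hc, p, h5, ?_⟩
        have h7 := (H.pth (fun _ h => h.1) h6.symm (hwV h6.snd.1)).2.symm
        refine h7.mono ?_
        rintro u ⟨u1, u2⟩
        refine ⟨u1, ?_⟩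
        rw [Finset.coe_inter]
        exact fun h => u2.2 h.1
  · rintro ⟨h1, h2, -, h4, h5⟩
    refine ⟨h1, h2, clu_mono ?_ h4, clu_mono ?_ h5⟩
    · rintro u ⟨u1, u2⟩
      rw [Finset.coe_inter] at u2
      exact ⟨mem_ff.1 (H.fV u u1), u2.1⟩
    · rintro u ⟨u1, u2⟩
      rw [Finset.coe_inter] at u2
      exact ⟨mem_ff.1 (H.fV u u1), fun h => u2 ⟨h, u1⟩⟩

/-- the hit vertex is the value of `zV` of `V` -/
theorem Cmp.zV_hv (H : Cmp S V A) (hS : GP (S : Set ℂ)) (hX : Hex S A) {i : ZMod 3} {T : Finset ℂ}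
    (hT : T ⊆ ff S A) (z : ℂ → ℂ) :
    zV S V A i ((T ∩ V : Finset ℂ) : Set ℂ) z = z (hv S A i T) := by
  obtain ⟨t, h, hu⟩ := hX i T hT
  rw [zV_eq ((H.hitO_iff hS).1 h) (fun t' h' => hu t' ((H.hitO_iff hS).2 h')), hv_eq hX hT h]

/-- **`T` of `A` is `T` of `V`** -/
theorem Cmp.TS_eq (H : Cmp S V A) (hS : GP (S : Set ℂ)) (hX : Hex S A) (z : ℂ → ℂ) :
    TS S A z = TV S V A z := by
  unfold TS TV
  congr 1
  refine Finset.sum_congr rfl fun i _ => ?_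
  congr 1
  rw [Ey_eq hX]
  exact Crest.Agent.R143.Loc8x277.exC_inter (fun v hv => H.fV v hv)
    fun T hT => (H.zV_hv hS hX hT z).symm

/-- **STAB'** -/
theorem MkD.stab [Fintype ι] (hS : GP (S : Set ℂ)) (hX : Hex S A) (H : Cmp S V A)
    (M : MkD S V A B m e N De ρ D) (K : Cst S V m ρ η h R D) {z : ℂ → ℂ} {k : ℝ} (hk : 0 ≤ k)
    (hA : ∀ i, ∀ v ∈ A i, (∃ w ∈ V, Adj S v w) → ‖z v‖ ≤ k)
    (hB : ∀ i, ∀ v ∈ B i, (∃ w ∈ V, Adj S v w) → ‖z v‖ ≤ k) :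
    ‖TS S A z - TV S V B z‖ ≤
      18 * k * ∑ b, (pr V (Arm2 S V (m b) ρ η) + pr V (Arm2 S V (m b) (η + h) R)) := by
  rw [H.TS_eq hS hX z]
  exact M.stab_TV hS K hk hA hB

/-- **STAB' for `TU`**: `V` = the sites of the eroded region, `B` = the position labels -/
theorem MkD.stab_TU [Fintype ι] {P : Set ℂ} {d : ℝ} {L : ℂ → ZMod 3} (hS : GP (S : Set ℂ))
    (hX : Hex S A) (H : Cmp S (Vin S P d) A)
    (M : MkD S (Vin S P d) A (Bl S (Vin S P d) L) m e N De ρ D)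
    (K : Cst S (Vin S P d) m ρ η h R D) {z : ℂ → ℂ} {k : ℝ} (hk : 0 ≤ k)
    (hz : ∀ v ∈ S, v ∉ Vin S P d → (∃ w ∈ Vin S P d, Adj S v w) → ‖z v‖ ≤ k) :
    ‖TS S A z - TU S P d L z‖ ≤ 18 * k * ∑ b, (pr (Vin S P d) (Arm2 S (Vin S P d) (m b) ρ η) +
      pr (Vin S P d) (Arm2 S (Vin S P d) (m b) (η + h) R)) :=
  M.stab hS hX H K hk
    (fun _ v hv hn => by
      obtain ⟨w, hw, hvw⟩ := hn
      exact hz v hvw.mem.1 (M.off (Or.inl rfl) hv) ⟨w, hw, hvw⟩)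
    fun _ v hv hn => hz v hv.1 hv.2.1 hn

/-- the hit vertex of `A` is the value of `zV` of `B` -/
theorem MkD.zV_hv (hS : GP (S : Set ℂ)) (hX : Hex S A) (H : Cmp S V A)
    (M : MkD S V A B m e N De ρ D) (K : Cst S V m ρ η h R D) {T : Finset ℂ} (hTf : T ⊆ ff S A)
    (hN : ¬ Arms S V m ρ η h R (T ∩ V)) (i : ZMod 3) (z : ℂ → ℂ) :
    zV S V B i ((T ∩ V : Finset ℂ) : Set ℂ) z = z (hv S A i T) := by
  rw [← H.zV_hv hS hX hTf z]
  exact (zV_congr (fun t => M.hit_iff hS K (ok_of hN) i t) z).symm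

/-! ### 359's first form -/

/-- the component of `v` in `V` has no neighbour with the label `e` -/
def Dead (S V : Finset ℂ) (A B : ZMod 3 → Set ℂ) (e : ZMod 3) (v : ℂ) : Prop :=
  ∀ v' y, Pth S {z | z ∈ V} v v' → y ∈ S → y ∉ V → Adj S v' y → y ∉ A e ∧ y ∉ B e

/-- the hypotheses with `Dead` -/
structure MkE (S V : Finset ℂ) (A B : ZMod 3 → Set ℂ) {ι : Type} (m : ι → ℂ) (e : ι → ZMod 3)
    (N : ι → Set ℂ) (ρ D : ℝ) : Prop where
  fV : ∀ v ∈ V, v ∈ ff S A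
  bV : ∀ l, ∀ x ∈ B l, x ∉ V
  lab : ∀ x ∈ S, x ∉ V → (∃ v ∈ V, Adj S x v) → (∀ l, x ∈ A l ↔ x ∈ B l) ∨
    ∃ b, (∀ v ∈ V, Adj S x v → v ∈ N b ∨ Dead S V A B (e b) v) ∧ x ∉ A (e b) ∧ x ∉ B (e b)
  nV : ∀ b, ∀ x ∈ N b, x ∈ V
  ncon : ∀ b, ∀ x ∈ N b, ∀ y ∈ N b, Pth S (N b) x y
  nball : ∀ b, ∀ x ∈ N b, ‖x - m b‖ ≤ ρ
  nadj : ∀ b l, l ≠ e b → ∃ x ∈ N b, ∃ y ∈ A l, Adj S x y
  nc : ∀ b (X : Set ℂ), (∀ x ∈ X, ‖x - m b‖ < D) → ¬ CtrX S A X

theorem MkE.toD (M : MkE S V A B m e N ρ D) :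
    MkD S V A B m e N (fun b => {v | v ∈ V ∧ Dead S V A B (e b) v}) ρ D where
  fV := M.fV
  bV := M.bV
  lab := by
    intro x hx hn
    obtain ⟨v, hv, hxv⟩ := hn
    rcases M.lab x hxv.mem.1 hx ⟨v, hv, hxv⟩ with h | ⟨b, h, h'⟩
    · exact Or.inl h
    · exact Or.inr ⟨b, fun u hu hxu => (h u hu hxu).imp id fun g => ⟨hu, g⟩, h'⟩
  nV := M.nV
  ncon := M.ncon
  nball := M.nball
  nadj := M.nadj
  nc := M.nc
  dcl := by
    rintro b v ⟨hv, hd⟩ v' hv' hvv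
    refine ⟨hv', fun u y hu => hd u y ?_⟩
    exact (Pth.single (show v ∈ {z | z ∈ V} from hv) hvv
      (show v' ∈ {z | z ∈ V} from hv')).trans hu
  dno := by
    rintro b v ⟨hv, hd⟩ y hy hyv
    exact hd v y (Pth.refl hv) hyv.mem.1 hy hyv.symm

end Crest.Agent.R143.Stbx331
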