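import Crest.Agent.R143.LSh_643

/-!
# Row 143 (S0194), CONT: STAB without "the third class is far" (helper347; 308's (B) of note 3761)

Variant of 643's `LSh_643` for marks near which the third wall may be close: the hypothesis `far` is
replaced by **NC** : no centre (`CtrX`) of `A` inside the ball `B(c l, D)`.

* `Cmp S W b` : component of `b` in `W`; `ctrX_of_hit` : the two one-colour components of a hit
  form a centre
* `Stab S A A' c d r D`; `stab_hit` : a `Hit` of `A` is a `Hit` of `A'`, or a one-colour chain of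
  free sites crosses `A(c l; r + d, R)` or `A(c l; R + 2 d, D)`
* `TS_of` : `TS S A` and `TS S A'` differ by at most `18 B pr(E)` if the hits agree off `E`
* `stab_TS` : `‖TS S A z - TS S A' z‖ ≤ 216 B q`
-/

set_option autoImplicit false

noncomputable section

open scoped Classical

namespace Crest.Agent.R143.Stbx347

open Set
open Crest.Agent.R143.B0x346 Crest.Agent.R143.DelGx806 Crest.Agent.R143.DelRx806
  Crest.Agent.R143.JColx54 Crest.Agent.R143.RE0x723 Crest.Agent.R143.K33x877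
open Crest.Agent.R143.RB2x54 (Vt)
open Crest.Agent.R143.Harx315 (pr)
open Crest.Agent.R143.D3Fx802 (CArm)
open Crest.Agent.R143.NetUx346
open Crest.Agent.R143.LShx643 (SArm Vis clu_last clu_self clu_of third not_fr rtri Shift side_or
  carm_of ArmE armE_pr ne12 ne1 ne2 ff_eq hit_vis)

variable {S : Finset ℂ} {A A' : ZMod 3 → Set ℂ}

/-- the component of `b` in `W` (empty if `b` is not in `W`) -/
def Cmp (S : Finset ℂ) (W : Set ℂ) (b : ℂ) : Set ℂ := {x | Pth S W b x}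

theorem cmp_sub {W : Set ℂ} {b : ℂ} : Cmp S W b ⊆ W := fun _ h => h.snd

theorem cmp_self {W : Set ℂ} {b : ℂ} (h : b ∈ W) : b ∈ Cmp S W b := Pth.refl h

theorem cmp_pth {W : Set ℂ} {b x : ℂ} (h : x ∈ Cmp S W b) : Pth S (Cmp S W b) b x := by
  have hb : b ∈ W := h.1
  have key : ∀ z, Relation.ReflTransGen (fun a b => Adj S a b ∧ b ∈ W) b z →
      Pth S W b z ∧ Pth S (Cmp S W b) b z := by
    intro z hz
    induction hz with
    | refl => exact ⟨Pth.refl hb, Pth.refl (cmp_self hb)⟩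
    | tail _ hs ih =>
      have h1 := ih.1.tail hs.1 hs.2
      exact ⟨h1, ih.2.tail hs.1 h1⟩
  exact (key x h.2).2

theorem cmp_con {W : Set ℂ} {b x y : ℂ} (hx : x ∈ Cmp S W b) (hy : y ∈ Cmp S W b) :
    Pth S (Cmp S W b) x y :=
  (cmp_pth hx).symm.trans (cmp_pth hy)

/-- a site of the cluster which is not in the class: its component is adjacent to the class -/
theorem cmp_adj {W B : Set ℂ} {b : ℂ} (h : b ∈ Clu S W B) (hb : b ∉ B) :
    b ∈ W ∧ ∃ x ∈ Cmp S W b, ∃ y ∈ B, Adj S x y := by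
  obtain ⟨x, hx, y, hxy, hy⟩ := clu_last h hb
  exact ⟨hy.snd, y, hy.symm, x, hx, hxy.symm⟩

/-- the adjacencies of the vertices of a hit -/
theorem hit_adj (hS : GP (S : Set ℂ)) {i j k : ZMod 3} {T : Set ℂ} {b v u : ℂ}
    (h : Hit S A i j k T b v u) : Adj S b v ∧ Adj S v u ∧ Adj S b u := by
  refine ⟨?_, ?_, ?_⟩
  · rcases h.tri with h1 | h1
    · exact adj_tri h1
    · exact (adj_tri h1).symm
  · rcases h.tri with h1 | h1
    · exact adj_tri' hS h1
    · exact (adj_tri'' hS h1).symm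
  · rcases h.tri with h1 | h1
    · exact (adj_tri'' hS h1).symm
    · exact adj_tri' hS h1

/-- without a triangle centre one of the first two vertices of a hit is free -/
theorem hit_free (hnc : ∀ t, ¬ CtrT S A t) {i j k : ZMod 3} (hij : i ≠ j)
    (hik : i ≠ k) (hjk : j ≠ k) {T : Set ℂ} {b v u : ℂ} (h : Hit S A i j k T b v u) :
    b ∉ A i ∨ v ∉ A j := by
  by_contra hc
  push Not at hc
  obtain ⟨hb', hv'⟩ := hc
  rcases h.tri with h1 | h1
  · refine hnc _ ⟨h1, fun m => ?_⟩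
    rcases third i j k m hij hik hjk with rfl | rfl | rfl
    · exact ⟨b, Or.inl rfl, hb'⟩
    · exact ⟨v, Or.inr (Or.inl rfl), hv'⟩
    · exact ⟨u, Or.inr (Or.inr rfl), h.hu⟩
  · refine hnc _ ⟨h1, fun m => ?_⟩
    rcases third i j k m hij hik hjk with rfl | rfl | rfl
    · exact ⟨b, Or.inr (Or.inl rfl), hb'⟩
    · exact ⟨v, Or.inl rfl, hv'⟩
    · exact ⟨u, Or.inr (Or.inr rfl), h.hu⟩

/-- **the two components of a hit form a centre** -/
theorem ctrX_of_hit (hS : GP (S : Set ℂ)) {i j k : ZMod 3} (hij : i ≠ j)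
    (hik : i ≠ k) (hjk : j ≠ k) {T : Set ℂ} {b v u : ℂ} (h : Hit S A i j k T b v u)
    (hf : b ∉ A i ∨ v ∉ A j) :
    CtrX S A (Cmp S (fr S A ∩ T) b ∪ Cmp S (fr S A \ T) v) := by
  obtain ⟨hbv, hvu, hbu⟩ := hit_adj hS h
  have hW1 : fr S A ∩ T ⊆ fr S A := inter_subset_left
  have hW2 : fr S A \ T ⊆ fr S A := sdiff_subset
  refine ⟨fun m => ?_, ?_, fun m => ?_⟩
  · rw [Set.disjoint_left]
    rintro x (hx | hx) hm
    · exact (hW1 (cmp_sub hx)).2 m hm
    · exact (hW2 (cmp_sub hx)).2 m hm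
  · have key : ∀ x ∈ Cmp S (fr S A ∩ T) b, ∀ y ∈ Cmp S (fr S A \ T) v,
        Pth S (Cmp S (fr S A ∩ T) b ∪ Cmp S (fr S A \ T) v) x y := by
      intro x hx y hy
      have h1 : Pth S (Cmp S (fr S A ∩ T) b ∪ Cmp S (fr S A \ T) v) x b :=
        (cmp_pth hx).symm.mono subset_union_left
      have h2 : Pth S (Cmp S (fr S A ∩ T) b ∪ Cmp S (fr S A \ T) v) v y :=
        (cmp_pth hy).mono subset_union_right
      exact (h1.tail hbv h2.1).trans h2
    rintro x (hx | hx) y (hy | hy)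
    · exact (cmp_con hx hy).mono subset_union_left
    · exact key x hx y hy
    · exact (key y hy x hx).symm
    · exact (cmp_con hx hy).mono subset_union_right
  · by_cases hb : b ∈ A i
    · have hv : v ∉ A j := hf.resolve_left fun h => h hb
      obtain ⟨hvW, x, hx, y, hy, hxy⟩ := cmp_adj h.hv hv
      have hvc : v ∈ Cmp S (fr S A ∩ T) b ∪ Cmp S (fr S A \ T) v := Or.inr (cmp_self hvW)
      rcases third i j k m hij hik hjk with rfl | rfl | rfl
      · exact ⟨v, hvc, b, hb, hbv.symm⟩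
      · exact ⟨x, Or.inr hx, y, hy, hxy⟩
      · exact ⟨v, hvc, u, h.hu, hvu⟩
    · obtain ⟨hbW, x, hx, y, hy, hxy⟩ := cmp_adj h.hb hb
      have hbc : b ∈ Cmp S (fr S A ∩ T) b ∪ Cmp S (fr S A \ T) v := Or.inl (cmp_self hbW)
      rcases third i j k m hij hik hjk with rfl | rfl | rfl
      · exact ⟨x, Or.inl hx, y, hy, hxy⟩
      · by_cases hv : v ∈ A m
        · exact ⟨b, hbc, v, hv, hbv⟩
        · obtain ⟨hvW, x', hx', y', hy', hxy'⟩ := cmp_adj h.hv hv
          exact ⟨x', Or.inr hx', y', hy', hxy'⟩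
      · exact ⟨b, hbc, u, h.hu, hbu⟩

/-- two labellings `A`, `A'` which agree off the balls `B(c l, r)`; `A` has no centre inside
`B(c l, D)` -/
structure Stab (S : Finset ℂ) (A A' : ZMod 3 → Set ℂ) (c : ZMod 3 → ℂ) (d r D : ℝ) : Prop where
  gp : GP (S : Set ℂ)
  sub : ∀ i, A i ⊆ (S : Set ℂ)
  fre : fr S A = fr S A'
  agree : ∀ x, Vis S A x → (∀ l, r < ‖x - c l‖) → ∀ m, x ∈ A m → x ∈ A' m
  edge : ∀ a b, Adj S a b → b ∈ fr S A → ‖a - b‖ ≤ d
  nc : ∀ t, ¬ CtrT S A t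
  ncX : ∀ l X, CtrX S A X → ∃ x ∈ X, D ≤ ‖x - c l‖

theorem Stab.shift {c : ZMod 3 → ℂ} {d r D : ℝ} (H : Stab S A A' c d r D)
    (o : ZMod 3 → ZMod 3) : Shift S A A' c o d r 0 where
  gp := H.gp
  sub := H.sub
  fre := H.fre
  agree := H.agree
  far := fun _ _ _ h => absurd h (not_lt.2 (norm_nonneg _))
  edge := H.edge
  nc := H.nc

/-- **STAB** -/
theorem stab_hit {c : ZMod 3 → ℂ} {d r R D : ℝ} (H : Stab S A A' c d r D) (hr : r ≤ R)
    {i j k : ZMod 3} (hij : i ≠ j) (hik : i ≠ k) (hjk : j ≠ k) {T : Set ℂ} {b v u : ℂ}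
    (h : Hit S A i j k T b v u) :
    Hit S A' i j k T b v u ∨ ∃ l,
      SArm S (fr S A ∩ T) (c l) (r + d) R ∨ SArm S (fr S A \ T) (c l) (r + d) R ∨
      SArm S (fr S A ∩ T) (c l) (R + 2 * d) D ∨ SArm S (fr S A \ T) (c l) (R + 2 * d) D := by
  by_contra hcon
  push Not at hcon
  obtain ⟨hno, harm⟩ := hcon
  obtain ⟨hbv, hvu, hbu⟩ := hit_adj H.gp h
  have hW1 : fr S A ∩ T ⊆ fr S A := inter_subset_left
  have hW2 : fr S A \ T ⊆ fr S A := sdiff_subset
  have hfree := hit_free H.nc hij hik hjk h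
  have hor : b ∈ fr S A ∨ v ∈ fr S A := by
    rcases hfree with h1 | h1
    · exact Or.inl (hW1 (cmp_adj h.hb h1).1)
    · exact Or.inr (hW2 (cmp_adj h.hv h1).1)
  have huF : u ∉ fr S A := not_fr h.hu
  have huV : Vis S A u := by
    rcases hor with h1 | h1
    · exact ⟨hbu.mem.2, huF, b, h1, hbu.symm⟩
    · exact ⟨hbu.mem.2, huF, v, h1, hvu.symm⟩
  have hbV : b ∈ fr S A ∨ Vis S A b := by
    by_cases h1 : b ∈ fr S A
    · exact Or.inl h1
    · exact Or.inr ⟨hbv.mem.1, h1, v, hor.resolve_left h1, hbv⟩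
  have hvV : v ∈ fr S A ∨ Vis S A v := by
    by_cases h1 : v ∈ fr S A
    · exact Or.inl h1
    · exact Or.inr ⟨hbv.mem.2, h1, b, hor.resolve_right h1, hbv.symm⟩
  have hdist : ‖b - v‖ ≤ d ∧ ‖b - u‖ ≤ 2 * d ∧ ‖v - u‖ ≤ 2 * d := by
    rcases hor with h1 | h1
    · have e1 := H.edge v b hbv.symm h1
      have e2 := H.edge u b hbu.symm h1
      rw [norm_sub_rev] at e1 e2
      have hd : 0 ≤ d := (norm_nonneg _).trans e1
      have e3 := rtri v b u
      rw [norm_sub_rev v b] at e3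
      exact ⟨e1, by linarith, by linarith⟩
    · have e1 := H.edge b v hbv h1
      have e2 := H.edge u v hvu.symm h1
      rw [norm_sub_rev] at e2
      have hd : 0 ≤ d := (norm_nonneg _).trans e1
      have e3 := rtri b v u
      exact ⟨e1, by linarith, by linarith⟩
  have hnear : ∃ l, ‖b - c l‖ ≤ R ∨ ‖v - c l‖ ≤ R ∨ ‖u - c l‖ ≤ R := by
    by_contra hc
    push Not at hc
    apply hno
    have hcl1 : fr S A' ∩ T = fr S A ∩ T := by rw [H.fre]
    have hcl2 : fr S A' \ T = fr S A \ T := by rw [H.fre]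
    refine ⟨h.tri, ?_, ?_, ?_⟩
    · rw [hcl1]
      by_contra hb
      obtain ⟨l, hl | hl⟩ := side_or (H.shift fun m => m) hr hW1 h.hb hbV hb
      · exact absurd hl (not_le.2 (hc l).1)
      · exact (harm l).1 hl
    · rw [hcl2]
      by_contra hv
      obtain ⟨l, hl | hl⟩ := side_or (H.shift fun m => m) hr hW2 h.hv hvV hv
      · exact absurd hl (not_le.2 (hc l).2.1)
      · exact (harm l).2.1 hl
    · exact H.agree u huV (fun l => lt_of_le_of_lt hr (hc l).2.2) k h.hu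
  obtain ⟨l, hl⟩ := hnear
  have hall : ‖b - c l‖ ≤ R + 2 * d ∧ ‖v - c l‖ ≤ R + 2 * d := by
    obtain ⟨d1, d2, d3⟩ := hdist
    have hd : 0 ≤ d := (norm_nonneg _).trans d1
    have d1' := d1
    rw [norm_sub_rev] at d1'
    rcases hl with h1 | h1 | h1
    · have a1 := rtri v b (c l)
      exact ⟨by linarith, by linarith⟩
    · have a1 := rtri b v (c l)
      exact ⟨by linarith, by linarith⟩
    · have a1 := rtri b u (c l)
      have a2 := rtri v u (c l)
      exact ⟨by linarith, by linarith⟩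
  obtain ⟨x, hx, hxD⟩ := H.ncX l _ (ctrX_of_hit H.gp hij hik hjk h hfree)
  rcases hx with hx | hx
  · exact (harm l).2.2.1 ⟨b, x, hall.1, hxD, hx⟩
  · exact (harm l).2.2.2 ⟨v, x, hall.2, hxD, hx⟩

/-- the same for oriented hits; event in 802's / 643's form (`R0 = D + d`) -/
theorem stab_hitO {c : ZMod 3 → ℂ} {d r R D : ℝ} (H : Stab S A A' c d r D) (hr : r ≤ R)
    {i : ZMod 3} {T : Finset ℂ} {t : ℂ × ℂ × ℂ} (h : HitO S A i (T : Set ℂ) t) :
    HitO S A' i (T : Set ℂ) t ∨ ArmE S (ff S A) c d r R (D + d) T := by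
  obtain ⟨h1, h2⟩ := (hitO_iff H.gp).1 h
  have hw1 : fr S A ∩ (T : Set ℂ) ⊆ (T : Set ℂ) := inter_subset_right
  have hw2 : fr S A \ (T : Set ℂ) ⊆ ((ff S A \ T : Finset ℂ) : Set ℂ) := by
    intro x hx
    rw [Finset.coe_sdiff]
    exact ⟨mem_ff.2 hx.1, hx.2⟩
  rcases stab_hit H hr (ne12 i) (ne1 i) (ne2 i) h1 with h3 | ⟨l, h3⟩
  · left
    exact (hitO_iff H.gp).2 ⟨h3, h2⟩
  · right
    refine ⟨l, Finset.mem_univ _, ?_⟩
    rw [add_sub_cancel_right]
    rcases h3 with h3 | h3 | h3 | h3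
    · exact Or.inl (Or.inl (carm_of hw1 h3))
    · exact Or.inl (Or.inr (carm_of hw2 h3))
    · exact Or.inr (Or.inl (carm_of hw1 h3))
    · exact Or.inr (Or.inr (carm_of hw2 h3))

/-- **comparison of `TS`** : same free sites, the hits agree off `E` -/
theorem TS_of (hff : ff S A = ff S A') (hX : Hex S A) (hX' : Hex S A') {E : Finset ℂ → Prop}
    (hE : ∀ i (T : Finset ℂ), T ⊆ ff S A → ∀ t, HitO S A i (T : Set ℂ) t →
      HitO S A' i (T : Set ℂ) t ∨ E T)
    {z : ℂ → ℂ} {z0 : ℂ} {B : ℝ}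
    (hz : ∀ i (T : Finset ℂ), T ⊆ ff S A → ∀ t, HitO S A i (T : Set ℂ) t → ‖z t.1 - z0‖ ≤ B)
    (hz' : ∀ i (T : Finset ℂ), T ⊆ ff S A → ∀ t, HitO S A' i (T : Set ℂ) t → ‖z t.1 - z0‖ ≤ B) :
    ‖TS S A z - TS S A' z‖ ≤ 18 * B * pr (ff S A) E := by
  have key : ∀ i, ‖Ey S A z i - Ey S A' z i‖ ≤ 2 * B * pr (ff S A) E := by
    intro i
    rw [Ey_eq hX, Ey_eq hX', ← hff, ← exC_sub]
    refine (norm_exC_le _ _).trans ?_
    have hle : ∀ T ∈ (ff S A).powerset, ‖z (hv S A i (T : Set ℂ)) - z (hv S A' i (T : Set ℂ))‖ ≤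
        2 * B * (if E T then 1 else 0) := by
      intro T hT
      have hT := Finset.mem_powerset.1 hT
      obtain ⟨t, ht, -⟩ := hX i T hT
      obtain ⟨t', ht', -⟩ := hX' i T (hff ▸ hT)
      split_ifs with harm
      · rw [hv_eq hX hT ht, hv_eq hX' (hff ▸ hT) ht']
        have b1 := hz i T hT t ht
        have b2 := hz' i T hT t' ht'
        have b3 : ‖z t.1 - z t'.1‖ ≤ ‖z t.1 - z0‖ + ‖z t'.1 - z0‖ := by
          have := norm_sub_le (z t.1 - z0) (z t'.1 - z0)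
          rwa [sub_sub_sub_cancel_right] at this
        linarith
      · have h3 : HitO S A' i (T : Set ℂ) t := (hE i T hT t ht).resolve_right harm
        rw [hv_eq hX hT ht, hv_eq hX' (hff ▸ hT) h3, sub_self, norm_zero, mul_zero]
    calc (∑ T ∈ (ff S A).powerset, ‖z (hv S A i (T : Set ℂ)) - z (hv S A' i (T : Set ℂ))‖) /
          2 ^ (ff S A).card
        ≤ (∑ T ∈ (ff S A).powerset, 2 * B * (if E T then 1 else 0)) /
          2 ^ (ff S A).card := by
          gcongr with T hT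
          exact hle T hT
      _ = 2 * B * pr (ff S A) E := by
          rw [← Finset.mul_sum, mul_div_assoc, ← Crest.Agent.R143.XW1x315.ex_ind]
          rfl
  unfold TS
  rw [← mul_sub, ← Finset.sum_sub_distrib, norm_mul, Complex.norm_ofNat]
  have h3 : ‖∑ i : ZMod 3, (omz i * Ey S A z i - omz i * Ey S A' z i)‖ ≤
      3 * (2 * B * pr (ff S A) E) := by
    refine (norm_sum_le _ _).trans ?_
    refine (Finset.sum_le_sum (g := fun _ => 2 * B * pr (ff S A) E) fun i _ => ?_).trans ?_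
    · rw [← mul_sub, norm_mul, norm_omz, one_mul]
      exact key i
    · rw [Finset.sum_const, Finset.card_univ, ZMod.card, nsmul_eq_mul]
      push_cast
      exact le_rfl
  linarith

/-- **`|T - T'|` for two labellings with the same free sites, NC form** -/
theorem stab_TS {c : ZMod 3 → ℂ} {d r R D : ℝ} (H : Stab S A A' c d r D) (hr : r ≤ R)
    (hnc' : ∀ t, ¬ CtrT S A' t) (hX : Hex S A) (hX' : Hex S A') {z : ℂ → ℂ} {z0 : ℂ} {B q : ℝ}
    (hB : 0 ≤ B)
    (hz : ∀ v, v ∈ S → v ∉ fr S A → (∃ y ∈ fr S A, Adj S v y) → ‖z v - z0‖ ≤ B)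
    (h1 : ∀ l, pr (ff S A) (fun β => CArm S β (c l) (r + d) R) ≤ q)
    (h2 : ∀ l, pr (ff S A) (fun β => CArm S β (c l) (R + 2 * d) D) ≤ q) :
    ‖TS S A z - TS S A' z‖ ≤ 216 * B * q := by
  have h0 : ‖TS S A z - TS S A' z‖ ≤ 18 * B * pr (ff S A) (ArmE S (ff S A) c d r R (D + d)) := by
    refine TS_of (ff_eq H.fre) hX hX' (fun i T _ t ht => stab_hitO H hr ht) (z0 := z0) ?_ ?_
    · intro i T _ t ht
      have a1 := hit_vis H.gp H.nc (ne12 i) (ne1 i) (ne2 i) ((hitO_iff H.gp).1 ht).1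
      exact hz _ a1.1 a1.2.1 a1.2.2
    · intro i T _ t ht
      have a1 := hit_vis H.gp hnc' (ne12 i) (ne1 i) (ne2 i) ((hitO_iff H.gp).1 ht).1
      refine hz _ a1.1 ?_ ?_
      · rw [H.fre]; exact a1.2.1
      · rw [H.fre]; exact a1.2.2
  have h3 : pr (ff S A) (ArmE S (ff S A) c d r R (D + d)) ≤ 12 * q := by
    refine armE_pr h1 ?_
    intro l
    rw [add_sub_cancel_right]
    exact h2 l
  calc ‖TS S A z - TS S A' z‖ ≤ 18 * B * pr (ff S A) (ArmE S (ff S A) c d r R (D + d)) := h0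
    _ ≤ 18 * B * (12 * q) := by gcongr
    _ = 216 * B * q := by ring

end Crest.Agent.R143.Stbx347
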