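import Crest.Agent.R143.NetV_346
import Crest.Agent.R143.MmO_88
import Crest.Agent.R143.Stb_347

/-!
# Row 143 (S0194), CONT: STAB' of 660 (note 3814 (2)), in 346's frozen language (helper88)

Giants `A` (exactly one oriented hit, no positive rainbow triangle) with the free sites `V`, position
classes `B` off `V`; marks `m b`, label `lab b` = the one which is not at the mark `b`, set `N b` of
free sites around the mark.
* `MB` : every site next to `V` is undisputed or disputed at some mark `b` (all its neighbours in `V`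
  are in `N b`, it is neither in `A (lab b)` nor in `B (lab b)`); `N b` connected, in the ball
  `B(m b, ρ)`, adjacent to the two other giants; **NC** : no centre of `A` in `B(m b, D)`;
* `MB.hitV_iff` : same hits in every colouring without a one-colour arm at the marks;
* **`MB.norm_le`** : `‖TV S V B z - TS S A z‖ ≤ 18 M pr V (BadP ..)`, `pr_badP`.
No orientation, no connectivity of `B`, the third wall may be arbitrarily close to a mark.
-/

set_option autoImplicit false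

noncomputable section

open scoped Classical

namespace Crest.Agent.R143.StbPx88

open Crest.Agent.R143.B0x346 Crest.Agent.R143.DelGx806 Crest.Agent.R143.DelRx806
open Crest.Agent.R143.JColx54 (Adj delT_rot adj_tri adj_tri' adj_tri'')
open Crest.Agent.R143.RE0x723 (Pth)
open Crest.Agent.R143.RB2x54 (Vt)
open Crest.Agent.R143.K33x877 (Clu Hit fr CtrT CtrX)
open Crest.Agent.R143.NetUx346 Crest.Agent.R143.NetVx346
open Crest.Agent.R143.MmOx88 (Ft clu_iff coe_ff conn_of_pth exC_near pr_ex)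
open Crest.Agent.R143.Stbx347 (Cmp cmp_sub cmp_self cmp_pth cmp_con)
open Crest.Agent.R143.D3Fx802 (CArm)
open Crest.Agent.R143.CNTx930 (Arm2)
open Crest.Agent.R143.Harx315 (pr)

/-- connected set of sites -/
def Con (S : Finset ℂ) (X : Set ℂ) : Prop := ∀ x ∈ X, ∀ y ∈ X, Pth S X x y

theorem con_u {S : Finset ℂ} {X Y : Set ℂ} (hX : Con S X) (hY : Con S Y)
    (h : Y.Nonempty → ∃ x ∈ X, ∃ y ∈ Y, x = y ∨ Adj S x y) : Con S (X ∪ Y) := by
  have key : ∀ x ∈ X, ∀ y ∈ Y, Pth S (X ∪ Y) x y := by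
    intro x hx y hy
    obtain ⟨a, ha, b, hb, hab⟩ := h ⟨y, hy⟩
    have h1 : Pth S (X ∪ Y) x a := (hX x hx a ha).mono Set.subset_union_left
    have h2 : Pth S (X ∪ Y) b y := (hY b hb y hy).mono Set.subset_union_right
    rcases hab with e | e
    · exact h1.trans (e ▸ h2)
    · exact (h1.tail e h2.1).trans h2
  rintro x (hx | hx) y (hy | hy)
  · exact (hX x hx y hy).mono Set.subset_union_left
  · exact key x hx y hy
  · exact (key y hy x hx).symm
  · exact (hY x hx y hy).mono Set.subset_union_right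

/-- **giants `A` and position classes `B`, disputed sites near the marks only** -/
structure MB (S V : Finset ℂ) (A B : ZMod 3 → Set ℂ) {ι : Type*} (m : ι → ℂ)
    (lab : ι → ZMod 3) (N : ι → Set ℂ) (ρ D e : ℝ) : Prop where
  gp : GP (S : Set ℂ)
  sub : ∀ i, A i ⊆ (S : Set ℂ)
  fre : ff S A = V
  hex : Hex S A
  /-- no positive rainbow triangle of giants -/
  nr : ∀ t ∈ delT S, ∀ i, ¬ (t.1 ∈ A i ∧ t.2.1 ∈ A (i + 1) ∧ t.2.2 ∈ A (i + 2))
  bV : ∀ i, ∀ x ∈ B i, x ∉ V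
  dis : ∀ x ∈ S, x ∉ V → (∃ w ∈ V, Adj S x w) → (∀ i, x ∈ A i ↔ x ∈ B i) ∨
    ∃ b, (∀ w ∈ V, Adj S x w → w ∈ N b) ∧ x ∉ A (lab b) ∧ x ∉ B (lab b)
  nV : ∀ b, ∀ x ∈ N b, x ∈ V
  nc : ∀ b, Con S (N b)
  nb : ∀ b, ∀ x ∈ N b, ‖x - m b‖ ≤ ρ
  na : ∀ b l, l ≠ lab b → ∃ x ∈ N b, ∃ y ∈ A l, Adj S x y
  /-- no centre of `A` near a mark -/
  NC : ∀ b, ∀ X, CtrX S A X → ∃ x ∈ X, D < ‖x - m b‖
  len : ∀ x ∈ V, ∀ y, Adj S x y → ‖x - y‖ ≤ e

/-- arms of one colour at a mark -/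
def BadP (S V : Finset ℂ) {ι : Type*} (m : ι → ℂ) (ρ R1 R2 e : ℝ) (T : Finset ℂ) : Prop :=
  ∃ j, Arm2 S V (m j) ρ R1 T ∨ Arm2 S V (m j) (R1 + e) R2 T

section arms

variable {S V : Finset ℂ} {ι : Type*} {m : ι → ℂ} {ρ R1 R2 e : ℝ} {T : Finset ℂ}

/-- a component which meets a ball stays close to it, or there is an arm -/
theorem cmp_le {W : Finset ℂ} {b x y p : ℂ} {r R : ℝ} (hx : x ∈ Cmp S (W : Set ℂ) b)
    (hy : y ∈ Cmp S (W : Set ℂ) b) (h1 : ‖x - p‖ ≤ r) (hno : ¬ CArm S W p r R) :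
    ‖y - p‖ < R := by
  by_contra h
  refine hno ⟨x, y, ?_, ?_, h1, not_lt.1 h, ?_⟩
  · exact cmp_sub hx
  · exact cmp_sub hy
  · exact conn_of_pth ((cmp_con hx hy).mono cmp_sub)

theorem near_step {a b p : ℂ} {r : ℝ} (h : ‖a - b‖ ≤ e) (ha : ‖a - p‖ ≤ r) : ‖b - p‖ ≤ r + e := by
  have := norm_sub_le (a - p) (a - b)
  have e1 : a - p - (a - b) = b - p := by ring
  rw [e1] at this
  linarith

/-- a foot: the chain is trivial, or the foot is next to the component -/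
theorem ft_cmp {W C : Set ℂ} {b c : ℂ} (h : Ft S W C b c) : b = c ∨ (b ∈ W ∧ ∃ w ∈ Cmp S W b,
    Adj S w c) := by
  obtain ⟨-, h | ⟨w, h1, h2⟩⟩ := h
  · exact Or.inl h
  · exact Or.inr ⟨h1.1, w, h1, h2⟩

end arms

section det

variable {S V : Finset ℂ} {A B : ZMod 3 → Set ℂ} {ι : Type*} {m : ι → ℂ} {lab : ι → ZMod 3}
  {N : ι → Set ℂ} {ρ D e R1 R2 : ℝ}

theorem MB.coe (H : MB S V A B m lab N ρ D e) : {x | x ∈ V} = fr S A := by
  rw [← H.fre]
  exact coe_ff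

theorem MB.mem (H : MB S V A B m lab N ρ D e) {x : ℂ} : x ∈ fr S A ↔ x ∈ V := by
  rw [← H.fre]
  exact mem_ff.symm

theorem MB.off (H : MB S V A B m lab N ρ D e) {C : ZMod 3 → Set ℂ} (hC : C = A ∨ C = B)
    {i : ZMod 3} {x : ℂ} (hx : x ∈ C i) : x ∉ V := by
  rcases hC with h | h
  · subst h
    intro h
    exact (H.mem.2 h).2 i hx
  · subst h
    exact H.bV i x hx

theorem l3 : ∀ i l : ZMod 3, l = i ∨ l = i + 1 ∨ l = i + 2 := by decide

/-- **a free connected set around a mark which touches the third label is a centre** -/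
theorem MB.centre (H : MB S V A B m lab N ρ D e) (hD : R2 + 2 * ρ ≤ D) (hρ : 0 ≤ ρ)
    (hρ2 : ρ ≤ R2) {C : ZMod 3 → Set ℂ} (hC : C = A ∨ C = B) {b0 : ι} {X : Set ℂ}
    (hXV : ∀ x ∈ X, x ∈ V) (hX : Con S (N b0 ∪ X)) (hXR : ∀ x ∈ X, ‖x - m b0‖ < R2)
    {y : ℂ} (hy : y ∈ C (lab b0)) {x : ℂ} (hx : x ∈ X) (hxy : Adj S x y) : False := by
  have hV : ∀ x ∈ N b0 ∪ X, x ∈ V := by
    rintro x (hx | hx)
    · exact H.nV b0 x hx
    · exact hXV x hx
  have hyV := H.off hC hy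
  -- enough : a connected set of free sites which contains `N b0`, touches `A (lab b0)`
  have key : ∀ Z : Set ℂ, Con S Z → (∀ x ∈ Z, x ∈ V) → N b0 ⊆ Z → (∀ x ∈ Z, ‖x - m b0‖ ≤ D) →
      (∃ x ∈ Z, ∃ y ∈ A (lab b0), Adj S x y) → False := by
    intro Z hZ hZV hN hZD hZl
    have hctr : CtrX S A Z := by
      refine ⟨fun i => ?_, hZ, fun i => ?_⟩
      · rw [Set.disjoint_left]
        intro x hx hxi
        exact (H.mem.2 (hZV x hx)).2 i hxi
      · by_cases hi : i = lab b0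
        · subst hi
          exact hZl
        · obtain ⟨x, hx, y, hy, h⟩ := H.na b0 i hi
          exact ⟨x, hN hx, y, hy, h⟩
    obtain ⟨x, hx, h⟩ := H.NC b0 Z hctr
    exact absurd (hZD x hx) (not_le.2 h)
  have hRD : ∀ x ∈ N b0 ∪ X, ‖x - m b0‖ ≤ D := by
    rintro x (hx | hx)
    · have := H.nb b0 x hx
      linarith
    · have := hXR x hx
      linarith
  have hdis := H.dis y hxy.mem.2 hyV ⟨x, hXV x hx, hxy.symm⟩
  have hA : y ∈ A (lab b0) → False := fun h =>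
    key _ hX hV Set.subset_union_left hRD ⟨x, Or.inr hx, y, h, hxy⟩
  rcases hdis with h | ⟨b1, h1, h2, h3⟩
  · refine hA ?_
    rcases hC with e | e
    · rw [e] at hy
      exact hy
    · rw [e] at hy
      exact (h _).2 hy
  · rcases hC with e | e
    · rw [e] at hy
      exact hA hy
    · rw [e] at hy
      have hne : lab b0 ≠ lab b1 := fun e' => h3 (e' ▸ hy)
      have hx1 : x ∈ N b1 := h1 x (hXV x hx) hxy.symm
      refine key ((N b0 ∪ X) ∪ N b1) (con_u hX (H.nc b1) fun _ => ⟨x, Or.inr hx, x, hx1,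
        Or.inl rfl⟩) ?_ (fun z hz => Or.inl (Or.inl hz)) ?_ ?_
      · rintro z (hz | hz)
        · exact hV z hz
        · exact H.nV b1 z hz
      · rintro z (hz | hz)
        · exact hRD z hz
        · have q1 := H.nb b1 z hz
          have q2 := H.nb b1 x hx1
          have q3 := hXR x hx
          have q4 := norm_sub_le (z - m b1) (x - m b1)
          have e1 : z - m b1 - (x - m b1) = z - x := by ring
          rw [e1] at q4
          have q5 := norm_add_le (z - x) (x - m b0)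
          have e2 : z - x + (x - m b0) = z - m b0 := by ring
          rw [e2] at q5
          linarith
      · obtain ⟨x', hx', y', hy', h'⟩ := H.na b1 (lab b0) hne
        exact ⟨x', Or.inr hx', y', hy', h'⟩

/-- nothing is disputed in a hit without arms -/
theorem MB.und (H : MB S V A B m lab N ρ D e) (hρ : 0 ≤ ρ) (h1 : ρ ≤ R1) (h2 : R1 ≤ R2)
    (hD : R2 + 2 * ρ ≤ D) {C : ZMod 3 → Set ℂ} (hC : C = A ∨ C = B)
    {i : ZMod 3} {T : Finset ℂ} (hT : T ⊆ V) (hbad : ¬ BadP S V m ρ R1 R2 e T)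
    {u b v c c' : ℂ} (ht : (u, b, v) ∈ delT S) (hu : u ∈ C i)
    (hb : Ft S (T : Set ℂ) (C (i + 1)) b c) (hv : Ft S ((V \ T : Finset ℂ) : Set ℂ)
      (C (i + 2)) v c') (hbv : b ∈ V ∨ v ∈ V) :
    (∀ k, u ∈ A k ↔ u ∈ B k) ∧ (∀ k, c ∈ A k ↔ c ∈ B k) ∧ (∀ k, c' ∈ A k ↔ c' ∈ B k) := by
  have aub : Adj S u b := adj_tri ht
  have abv : Adj S b v := adj_tri' H.gp ht
  have avu : Adj S v u := adj_tri'' H.gp ht
  have hTV : ∀ x ∈ (T : Set ℂ), x ∈ V := fun x hx => hT hx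
  have hTV' : ∀ x ∈ ((V \ T : Finset ℂ) : Set ℂ), x ∈ V := fun x hx =>
    (Finset.mem_sdiff.1 hx).1
  have hcV : c ∉ V := H.off hC hb.1
  have hcV' : c' ∉ V := H.off hC hv.1
  have huV : u ∉ V := H.off hC hu
  have hno1 : ∀ j, ¬ CArm S T (m j) ρ R1 := fun j h => hbad ⟨j, Or.inl (Or.inl h)⟩
  have hno2 : ∀ j, ¬ CArm S (V \ T) (m j) ρ R1 := fun j h => hbad ⟨j, Or.inl (Or.inr h)⟩
  have hno3 : ∀ j, ¬ CArm S T (m j) (R1 + e) R2 := fun j h => hbad ⟨j, Or.inr (Or.inl h)⟩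
  have hno4 : ∀ j, ¬ CArm S (V \ T) (m j) (R1 + e) R2 := fun j h => hbad ⟨j, Or.inr (Or.inr h)⟩
  set K : Set ℂ := Cmp S (T : Set ℂ) b with hK
  set K' : Set ℂ := Cmp S ((V \ T : Finset ℂ) : Set ℂ) v with hK'
  have hKc : Con S K := fun x hx y hy => cmp_con hx hy
  have hKc' : Con S K' := fun x hx y hy => cmp_con hx hy
  have hKV : ∀ x ∈ K ∪ K', x ∈ V := by
    rintro x (hx | hx)
    · exact hTV x (cmp_sub hx)
    · exact hTV' x (cmp_sub hx)
  -- `b` free : in the component; `b` not free : the foot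
  have fb := ft_cmp hb
  have fv := ft_cmp hv
  have bin : b ∈ V → b ∈ (T : Set ℂ) := by
    intro h
    rcases fb with e1 | e1
    · exact absurd (e1 ▸ h) hcV
    · exact e1.1
  have vin : v ∈ V → v ∈ ((V \ T : Finset ℂ) : Set ℂ) := by
    intro h
    rcases fv with e1 | e1
    · exact absurd (e1 ▸ h) hcV'
    · exact e1.1
  -- neighbours of the three sites in `K ∪ K'`
  have nu : ∃ x ∈ K ∪ K', Adj S x u := by
    rcases hbv with h | h
    · exact ⟨b, Or.inl (cmp_self (bin h)), aub.symm⟩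
    · exact ⟨v, Or.inr (cmp_self (vin h)), avu⟩
  have nc : ∃ x ∈ K ∪ K', Adj S x c := by
    rcases fb with e1 | ⟨-, w, hw, e1⟩
    · have hvV : v ∈ V := hbv.resolve_left fun h => hcV (e1 ▸ h)
      exact ⟨v, Or.inr (cmp_self (vin hvV)), e1 ▸ abv.symm⟩
    · exact ⟨w, Or.inl hw, e1⟩
  have nc' : ∃ x ∈ K ∪ K', Adj S x c' := by
    rcases fv with e1 | ⟨-, w, hw, e1⟩
    · have hbV : b ∈ V := hbv.resolve_right fun h => hcV' (e1 ▸ h)
      exact ⟨b, Or.inl (cmp_self (bin hbV)), e1 ▸ abv⟩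
    · exact ⟨w, Or.inr hw, e1⟩
  -- the contradiction
  have fin : ∀ b0 : ι, Con S (N b0 ∪ (K ∪ K')) → (∀ x ∈ K ∪ K', ‖x - m b0‖ < R2) → False := by
    intro b0 hc hR
    rcases l3 i (lab b0) with e1 | e1 | e1
    · obtain ⟨x, hx, hxy⟩ := nu
      exact H.centre hD hρ (h1.trans h2) hC hKV hc hR (e1 ▸ hu) hx hxy
    · obtain ⟨x, hx, hxy⟩ := nc
      exact H.centre hD hρ (h1.trans h2) hC hKV hc hR (e1 ▸ hb.1) hx hxy
    · obtain ⟨x, hx, hxy⟩ := nc'
      exact H.centre hD hρ (h1.trans h2) hC hKV hc hR (e1 ▸ hv.1) hx hxy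
  have assoc : ∀ b0, N b0 ∪ (K ∪ K') = (N b0 ∪ K) ∪ K' := fun b0 => (Set.union_assoc _ _ _).symm
  have assoc' : ∀ b0, N b0 ∪ (K ∪ K') = (N b0 ∪ K') ∪ K := fun b0 => by
    rw [Set.union_comm K K', Set.union_assoc]
  refine ⟨?_, ?_, ?_⟩
  · -- `u`
    obtain ⟨x, hx, hxu⟩ := nu
    rcases H.dis u hxu.mem.2 huV ⟨x, hKV x hx, hxu.symm⟩ with h | ⟨b0, g1, -, -⟩
    · exact h
    · exfalso
      refine fin b0 ?_ ?_
      · rw [assoc]
        refine con_u (con_u (H.nc b0) hKc ?_) hKc' ?_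
        · rintro ⟨w, hw⟩
          have hb1 : b ∈ (T : Set ℂ) := hw.1
          exact ⟨b, g1 b (hTV b hb1) aub, b, cmp_self hb1, Or.inl rfl⟩
        · rintro ⟨w, hw⟩
          have hv1 : v ∈ ((V \ T : Finset ℂ) : Set ℂ) := hw.1
          exact ⟨v, Or.inl (g1 v (hTV' v hv1) avu.symm), v, cmp_self hv1, Or.inl rfl⟩
      · rintro y (hy | hy)
        · have hb1 : b ∈ (T : Set ℂ) := hy.1
          have := cmp_le (cmp_self hb1) hy (H.nb b0 b (g1 b (hTV b hb1) aub)) (hno1 b0)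
          linarith
        · have hv1 : v ∈ ((V \ T : Finset ℂ) : Set ℂ) := hy.1
          have := cmp_le (cmp_self hv1) hy (H.nb b0 v (g1 v (hTV' v hv1) avu.symm)) (hno2 b0)
          linarith
  · -- `c`
    obtain ⟨x, hx, hxc⟩ := nc
    rcases H.dis c hxc.mem.2 hcV ⟨x, hKV x hx, hxc.symm⟩ with h | ⟨b0, g1, -, -⟩
    · exact h
    · exfalso
      rcases fb with e1 | ⟨hbT, w, hw, hwc⟩
      · -- `b = c`
        have hKe : ∀ y, y ∉ K := fun y hy => hcV (e1 ▸ hTV b hy.1)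
        have hvN : ∀ _ : v ∈ ((V \ T : Finset ℂ) : Set ℂ), v ∈ N b0 := fun hv1 =>
          g1 v (hTV' v hv1) (e1 ▸ abv)
        refine fin b0 ?_ ?_
        · rw [assoc]
          refine con_u (con_u (H.nc b0) hKc ?_) hKc' ?_
          · rintro ⟨y, hy⟩
            exact absurd hy (hKe y)
          · rintro ⟨y, hy⟩
            exact ⟨v, Or.inl (hvN hy.1), v, cmp_self hy.1, Or.inl rfl⟩
        · rintro y (hy | hy)
          · exact absurd hy (hKe y)
          · have := cmp_le (cmp_self hy.1) hy (H.nb b0 v (hvN hy.1)) (hno2 b0)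
            linarith
      · have hwN : w ∈ N b0 := g1 w (hTV w (cmp_sub hw)) hwc.symm
        have hKR : ∀ y ∈ K, ‖y - m b0‖ < R1 := fun y hy =>
          cmp_le hw hy (H.nb b0 w hwN) (hno1 b0)
        refine fin b0 ?_ ?_
        · rw [assoc]
          refine con_u (con_u (H.nc b0) hKc fun _ => ⟨w, hwN, w, hw, Or.inl rfl⟩) hKc' ?_
          rintro ⟨y, hy⟩
          exact ⟨b, Or.inr (cmp_self hbT), v, cmp_self hy.1, Or.inr abv⟩
        · rintro y (hy | hy)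
          · have := hKR y hy
            linarith
          · have q1 := hKR b (cmp_self hbT)
            have q2 := H.len b (hTV b hbT) v abv
            have q3 := near_step q2 q1.le
            exact cmp_le (cmp_self hy.1) hy q3 (hno4 b0)
  · -- `c'`
    obtain ⟨x, hx, hxc⟩ := nc'
    rcases H.dis c' hxc.mem.2 hcV' ⟨x, hKV x hx, hxc.symm⟩ with h | ⟨b0, g1, -, -⟩
    · exact h
    · exfalso
      rcases fv with e1 | ⟨hvT, w, hw, hwc⟩
      · -- `v = c'`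
        have hKe : ∀ y, y ∉ K' := fun y hy => hcV' (e1 ▸ hTV' v hy.1)
        have hbN : ∀ _ : b ∈ (T : Set ℂ), b ∈ N b0 := fun hb1 =>
          g1 b (hTV b hb1) (e1 ▸ abv.symm)
        refine fin b0 ?_ ?_
        · rw [assoc']
          refine con_u (con_u (H.nc b0) hKc' ?_) hKc ?_
          · rintro ⟨y, hy⟩
            exact absurd hy (hKe y)
          · rintro ⟨y, hy⟩
            exact ⟨b, Or.inl (hbN hy.1), b, cmp_self hy.1, Or.inl rfl⟩
        · rintro y (hy | hy)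
          · have := cmp_le (cmp_self hy.1) hy (H.nb b0 b (hbN hy.1)) (hno1 b0)
            linarith
          · exact absurd hy (hKe y)
      · have hwN : w ∈ N b0 := g1 w (hTV' w (cmp_sub hw)) hwc.symm
        have hKR : ∀ y ∈ K', ‖y - m b0‖ < R1 := fun y hy =>
          cmp_le hw hy (H.nb b0 w hwN) (hno2 b0)
        refine fin b0 ?_ ?_
        · rw [assoc']
          refine con_u (con_u (H.nc b0) hKc' fun _ => ⟨w, hwN, w, hw, Or.inl rfl⟩) hKc ?_
          rintro ⟨y, hy⟩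
          exact ⟨v, Or.inr (cmp_self hvT), b, cmp_self hy.1, Or.inr abv.symm⟩
        · rintro y (hy | hy)
          · have q1 := hKR v (cmp_self hvT)
            have q2 := H.len v (hTV' v hvT) b abv.symm
            have q3 := near_step q2 q1.le
            exact cmp_le (cmp_self hy.1) hy q3 (hno3 b0)
          · have := hKR y hy
            linarith

theorem inter_eq {T : Finset ℂ} (hT : T ⊆ V) : {x | x ∈ V} ∩ (T : Set ℂ) = (T : Set ℂ) := by
  ext x
  exact ⟨fun h => h.2, fun h => ⟨hT h, h⟩⟩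

theorem diff_eq {T : Finset ℂ} : {x | x ∈ V} \ (T : Set ℂ) = ((V \ T : Finset ℂ) : Set ℂ) := by
  ext x
  rw [Finset.coe_sdiff]
  rfl

/-- **the hits of the giants are the hits of the position classes** -/
theorem MB.hitV_iff (H : MB S V A B m lab N ρ D e) (hρ : 0 ≤ ρ) (h1 : ρ ≤ R1) (h2 : R1 ≤ R2)
    (hD : R2 + 2 * ρ ≤ D) {T : Finset ℂ} (hT : T ⊆ V) (hbad : ¬ BadP S V m ρ R1 R2 e T)
    (i : ZMod 3) (t : ℂ × ℂ × ℂ) : HitV S V B i (T : Set ℂ) t ↔ HitO S A i (T : Set ℂ) t := by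
  obtain ⟨u, b, v⟩ := t
  unfold HitV HitO
  simp only
  rw [← H.coe, inter_eq hT, diff_eq]
  constructor
  · rintro ⟨ht, hu, hbv, hb, hv⟩
    obtain ⟨c, hc⟩ := clu_iff.1 hb
    obtain ⟨c', hc'⟩ := clu_iff.1 hv
    obtain ⟨k1, k2, k3⟩ := H.und hρ h1 h2 hD (Or.inr rfl) hT hbad ht hu hc hc' hbv
    exact ⟨ht, (k1 i).2 hu, clu_iff.2 ⟨c, (k2 _).2 hc.1, hc.2⟩,
      clu_iff.2 ⟨c', (k3 _).2 hc'.1, hc'.2⟩⟩
  · rintro ⟨ht, hu, hb, hv⟩
    obtain ⟨c, hc⟩ := clu_iff.1 hb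
    obtain ⟨c', hc'⟩ := clu_iff.1 hv
    have hbv : b ∈ V ∨ v ∈ V := by
      rcases ft_cmp hc with e1 | e1
      · rcases ft_cmp hc' with e2 | e2
        · exact absurd ⟨hu, e1 ▸ hc.1, e2 ▸ hc'.1⟩ (H.nr _ ht i)
        · exact Or.inr (Finset.mem_sdiff.1 e2.1).1
      · exact Or.inl (hT e1.1)
    obtain ⟨k1, k2, k3⟩ := H.und hρ h1 h2 hD (Or.inl rfl) hT hbad ht hu hc hc' hbv
    exact ⟨ht, (k1 i).1 hu, hbv, clu_iff.2 ⟨c, (k2 _).1 hc.1, hc.2⟩,
      clu_iff.2 ⟨c', (k3 _).1 hc'.1, hc'.2⟩⟩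

/-- **STAB'** -/
theorem MB.norm_le (H : MB S V A B m lab N ρ D e) (hρ : 0 ≤ ρ) (h1 : ρ ≤ R1) (h2 : R1 ≤ R2)
    (hD : R2 + 2 * ρ ≤ D) (hB : ∀ i, B i ⊆ (S : Set ℂ)) {z : ℂ → ℂ} {M : ℝ} (hM : 0 ≤ M)
    (hz : ∀ x ∈ S, ‖z x‖ ≤ M) :
    ‖TV S V B z - TS S A z‖ ≤ 18 * M * pr V (BadP S V m ρ R1 R2 e) := by
  have h3 : ∀ i : ZMod 3, ‖exC V (fun T => zV S V B i (T : Set ℂ) z) - Ey S A z i‖ ≤
      2 * M * pr V (BadP S V m ρ R1 R2 e) := by
    intro i
    rw [Ey_eq H.hex, H.fre]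
    refine exC_near (fun T _ => norm_zV hM fun v hv => hz v (hB i hv)) (fun T hT => ?_)
      (fun T hT hT1 => ?_)
    · have hT' : T ⊆ ff S A := by rw [H.fre]; exact hT
      exact hz _ (H.sub i (hv_mem H.hex hT'))
    · have hT' : T ⊆ ff S A := by rw [H.fre]; exact hT
      obtain ⟨t, ht, hu⟩ := H.hex i T hT'
      have hiff := H.hitV_iff hρ h1 h2 hD hT hT1 i
      show zV S V B i (T : Set ℂ) z = z (hv S A i (T : Set ℂ))
      rw [zV_eq ((hiff t).2 ht) (fun t' h' => hu t' ((hiff t').1 h')), hv_eq H.hex hT' ht]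
  unfold TV TS
  rw [← mul_sub, ← Finset.sum_sub_distrib, norm_mul, Complex.norm_ofNat]
  have h4 : ‖∑ i : ZMod 3, (omz i * exC V (fun T => zV S V B i (T : Set ℂ) z) -
      omz i * Ey S A z i)‖ ≤ 3 * (2 * M * pr V (BadP S V m ρ R1 R2 e)) := by
    refine (norm_sum_le _ _).trans ?_
    have h5 : ∀ i ∈ (Finset.univ : Finset (ZMod 3)), ‖omz i * exC V (fun T => zV S V B i
        (T : Set ℂ) z) - omz i * Ey S A z i‖ ≤ 2 * M * pr V (BadP S V m ρ R1 R2 e) := by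
      intro i _
      rw [← mul_sub, norm_mul, norm_omz, one_mul]
      exact h3 i
    refine (Finset.sum_le_sum h5).trans ?_
    rw [Finset.sum_const, Finset.card_univ, ZMod.card, nsmul_eq_mul]
    push_cast
    exact le_rfl
  linarith

/-- the arms at the marks -/
theorem pr_badP [Fintype ι] : pr V (BadP S V m ρ R1 R2 e) ≤
    ∑ j, (pr V (Arm2 S V (m j) ρ R1) + pr V (Arm2 S V (m j) (R1 + e) R2)) := by
  have h := pr_ex (V := V) Finset.univ (fun (j : ι) T =>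
    Arm2 S V (m j) ρ R1 T ∨ Arm2 S V (m j) (R1 + e) R2 T)
  have e1 : pr V (BadP S V m ρ R1 R2 e) = pr V (fun T => ∃ j ∈ (Finset.univ : Finset ι),
      (Arm2 S V (m j) ρ R1 T ∨ Arm2 S V (m j) (R1 + e) R2 T)) := by
    congr 1
    funext T
    exact propext ⟨fun ⟨j, h⟩ => ⟨j, Finset.mem_univ _, h⟩, fun ⟨j, _, h⟩ => ⟨j, h⟩⟩
  rw [e1]
  exact h.trans (Finset.sum_le_sum fun j _ => Crest.Agent.R143.Harx315.pr_or_le)

/-- **STAB' for the frozen `TU`** -/
theorem MB.tu_le [Fintype ι] {P : Set ℂ} {d : ℝ} {L : ℂ → ZMod 3}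
    (H : MB S (Vin S P d) A (Bl S (Vin S P d) L) m lab N ρ D e) (hρ : 0 ≤ ρ) (h1 : ρ ≤ R1)
    (h2 : R1 ≤ R2) (hD : R2 + 2 * ρ ≤ D) {z : ℂ → ℂ} {M : ℝ} (hM : 0 ≤ M)
    (hz : ∀ x ∈ S, ‖z x‖ ≤ M) :
    ‖TU S P d L z - TS S A z‖ ≤ 18 * M * ∑ j, (pr (Vin S P d) (Arm2 S (Vin S P d) (m j) ρ R1) +
      pr (Vin S P d) (Arm2 S (Vin S P d) (m j) (R1 + e) R2)) := by
  refine (H.norm_le hρ h1 h2 hD (fun i x hx => hx.1) hM hz).trans ?_
  exact mul_le_mul_of_nonneg_left pr_badP (by positivity)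

end det

end Crest.Agent.R143.StbPx88
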