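import Crest.Agent.R143.NetV_346
import Crest.Agent.R143.CNT_930

/-!
# Row 143 (S0194), CONT : STAB' (helper331; statement = 660's note 3814 (2))

`A` a proper triple on `S` with free set `V`, `B` position classes (any sets off `V`), marks
`m b`, missing label `e b`, connected local sets `N b ⊆ V` in the ball `B(m b, ρ)`.

* `Mk` : the sites next to `V` are undisputed, or disputed at some `b`; `N b` is adjacent to the two
  labels `≠ e b` of `A`; no centre of `A` in the balls `B(m b, D)`;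
* `hit_iff` : off the arms, the hits of `A` are the hits of `B`;
* `stab` : `‖TS S A z - TV S V B z‖ ≤ 18 K ∑_b [P(Arm2 (m b) ρ η) + P(Arm2 (m b) (η + h) R)]`.
-/

set_option autoImplicit false

noncomputable section

open scoped Classical

namespace Crest.Agent.R143.Stbx331

open Crest.Agent.R143.B0x346 Crest.Agent.R143.DelGx806 Crest.Agent.R143.DelRx806
open Crest.Agent.R143.JColx54 (Adj adj_tri adj_tri' adj_tri'')
open Crest.Agent.R143.RE0x723 (Pth)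
open Crest.Agent.R143.K33x877 (Clu fr CtrT CtrX)
open Crest.Agent.R143.NetUx346 Crest.Agent.R143.NetVx346
open Crest.Agent.R143.Harx315 (pr)
open Crest.Agent.R143.D3Fx802 (CArm)
open Crest.Agent.R143.CNTx930 (Arm2)
open Crest.Agent.R143.RB2x54 (Vt)

/-- marks and disputed sites -/
structure Mk (S V : Finset ℂ) (A B : ZMod 3 → Set ℂ) {ι : Type} (m : ι → ℂ) (e : ι → ZMod 3)
    (N : ι → Set ℂ) (ρ D : ℝ) : Prop where
  fV : ff S A = V
  bV : ∀ l, ∀ x ∈ B l, x ∉ V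
  /-- every site next to `V` is undisputed or disputed at some `b` -/
  lab : ∀ x, x ∉ V → (∃ v ∈ V, Adj S x v) → (∀ l, x ∈ A l ↔ x ∈ B l) ∨
    ∃ b, (∀ v ∈ V, Adj S x v → v ∈ N b) ∧ x ∉ A (e b) ∧ x ∉ B (e b)
  nV : ∀ b, ∀ x ∈ N b, x ∈ V
  ncon : ∀ b, ∀ x ∈ N b, ∀ y ∈ N b, Pth S (N b) x y
  nball : ∀ b, ∀ x ∈ N b, ‖x - m b‖ ≤ ρ
  nadj : ∀ b l, l ≠ e b → ∃ x ∈ N b, ∃ y ∈ A l, Adj S x y
  /-- no centre of `A` near the mark -/
  nc : ∀ b (X : Set ℂ), (∀ x ∈ X, ‖x - m b‖ < D) → ¬ CtrX S A X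

/-- no chain inside `W` across the annulus -/
def NoArm (S : Finset ℂ) (W : Set ℂ) (p : ℂ) (r R : ℝ) : Prop :=
  ∀ x y, Pth S W x y → ‖x - p‖ ≤ r → ‖y - p‖ < R

variable {S V : Finset ℂ} {A B C : ZMod 3 → Set ℂ} {ι : Type} {m : ι → ℂ} {e : ι → ZMod 3}
  {N : ι → Set ℂ} {ρ D η h R : ℝ}

/-! ### connected sets -/

theorem con_union {X Y : Set ℂ} (hX : ∀ x ∈ X, ∀ y ∈ X, Pth S X x y)
    (hY : ∀ x ∈ Y, ∀ y ∈ Y, Pth S Y x y)
    (hj : ∀ y ∈ Y, ∃ a ∈ X, ∃ b ∈ Y, a = b ∨ Adj S a b) :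
    ∀ x ∈ X ∪ Y, ∀ y ∈ X ∪ Y, Pth S (X ∪ Y) x y := by
  have key : ∀ x ∈ X, ∀ y ∈ Y, Pth S (X ∪ Y) x y := by
    intro x hx y hy
    obtain ⟨a, ha, b, hb, h⟩ := hj y hy
    have h1 : Pth S (X ∪ Y) x a := (hX x hx a ha).mono Set.subset_union_left
    have h2 : Pth S (X ∪ Y) b y := (hY b hb y hy).mono Set.subset_union_right
    rcases h with rfl | h
    · exact h1.trans h2
    · exact (h1.tail h (Or.inr hb)).trans h2
  rintro x (hx | hx) y (hy | hy)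
  · exact (hX x hx y hy).mono Set.subset_union_left
  · exact key x hx y hy
  · exact (key y hy x hx).symm
  · exact (hY x hx y hy).mono Set.subset_union_right

/-- the cluster of `b` in `W` is connected -/
theorem con_clu {W : Set ℂ} {b : ℂ} :
    ∀ x ∈ {v | Pth S W b v}, ∀ y ∈ {v | Pth S W b v}, Pth S {v | Pth S W b v} x y := by
  have key : ∀ x, Pth S W b x → Pth S {v | Pth S W b v} b x := by
    intro x hx
    obtain ⟨h0, h1⟩ := hx
    induction h1 with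
    | refl => exact Pth.refl (Pth.refl h0)
    | @tail u v h2 h3 ih => exact ih.tail h3.1 (show Pth S W b v from ⟨h0, h2.tail h3⟩)
  intro x hx y hy
  exact (key x hx).symm.trans (key y hy)

/-- foot of a chain -/
theorem foot {T B : Set ℂ} {v : ℂ} (hv : v ∈ Clu S T B) :
    v ∈ B ∨ ∃ c ∈ B, ∃ p, Adj S c p ∧ Pth S T p v := by
  obtain ⟨x, hx, h0, h1⟩ := hv
  induction h1 with
  | refl => exact Or.inl hx
  | @tail u w h2 h3 ih =>
    rcases h3.2 with hw | hw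
    · right
      rcases ih with hu | ⟨c, hc, p, h4, h5⟩
      · exact ⟨u, hu, w, h3.1, Pth.refl hw⟩
      · exact ⟨c, hc, p, h4, h5.tail h3.1 hw⟩
    · exact Or.inl hw

theorem of_foot {T B : Set ℂ} {v : ℂ} (hv : v ∈ B ∨ ∃ c ∈ B, ∃ p, Adj S c p ∧ Pth S T p v) :
    v ∈ Clu S T B := by
  rcases hv with h | ⟨c, hc, p, h1, h2⟩
  · exact ⟨v, h, Pth.refl (Or.inr h)⟩
  · refine ⟨c, hc, ?_⟩
    exact (Pth.single (Or.inr hc) h1 (Or.inl h2.1)).trans (h2.mono Set.subset_union_left)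

/-! ### the centre -/

/-- **a connected free set next to three sites of the three labels of `C ∈ {A, B}`, which contains
`N b`, gives a centre of `A`** -/
theorem Mk.no_ctr (M : Mk S V A B m e N ρ D) (hC : C = A ∨ C = B) (b0 : ι) {X : Set ℂ}
    (hXV : ∀ x ∈ X, x ∈ V) (hXc : ∀ x ∈ X, ∀ y ∈ X, Pth S X x y) (hN : N b0 ⊆ X)
    (hR : ∀ x ∈ X, ‖x - m b0‖ < R) (hRD : R + 2 * ρ ≤ D) (hρ : 0 ≤ ρ) {v : ℂ} (hv : v ∉ V)
    (hvC : v ∈ C (e b0)) (hvX : ∃ x ∈ X, Adj S v x) : False := by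
  obtain ⟨x, hx, hvx⟩ := hvX
  have hdisj : ∀ Y : Set ℂ, (∀ y ∈ Y, y ∈ V) → ∀ i, Disjoint Y (A i) := by
    intro Y hY i
    rw [Set.disjoint_left]
    intro y hy hyA
    have h1 := hY y hy
    rw [← M.fV, mem_ff] at h1
    exact h1.2 i hyA
  rcases M.lab v hv ⟨x, hXV x hx, hvx⟩ with hu | ⟨b1, h1, h2, h3⟩
  · have hvA : v ∈ A (e b0) := by
      rcases hC with rfl | rfl
      · exact hvC
      · exact (hu _).2 hvC
    refine M.nc b0 X (fun y hy => lt_of_lt_of_le (hR y hy) (by linarith)) ⟨hdisj X hXV, hXc, ?_⟩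
    intro i
    by_cases hi : i = e b0
    · subst hi
      exact ⟨x, hx, v, hvA, hvx.symm⟩
    · obtain ⟨y, hy, w, hw, hyw⟩ := M.nadj b0 i hi
      exact ⟨y, hN hy, w, hw, hyw⟩
  · have hne : e b0 ≠ e b1 := by
      intro he
      rw [he] at hvC
      rcases hC with rfl | rfl
      · exact h2 hvC
      · exact h3 hvC
    have hx1 : x ∈ N b1 := h1 x (hXV x hx) hvx
    refine M.nc b0 (X ∪ N b1) ?_ ⟨hdisj _ ?_, ?_, ?_⟩
    · rintro y (hy | hy)
      · exact lt_of_lt_of_le (hR y hy) (by linarith)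
      · have a1 := M.nball b1 y hy
        have a2 := M.nball b1 x hx1
        have a3 := hR x hx
        have a4 : y - m b0 = (y - m b1) - (x - m b1) + (x - m b0) := by ring
        have a5 : ‖y - m b0‖ ≤ ‖y - m b1‖ + ‖x - m b1‖ + ‖x - m b0‖ := by
          rw [a4]
          exact (norm_add_le _ _).trans (add_le_add (norm_sub_le _ _) le_rfl)
        linarith
    · rintro y (hy | hy)
      · exact hXV y hy
      · exact M.nV b1 y hy
    · exact con_union hXc (M.ncon b1) fun y _ => ⟨x, hx, x, hx1, Or.inl rfl⟩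
    · intro i
      by_cases hi : i = e b0
      · subst hi
        obtain ⟨y, hy, w, hw, hyw⟩ := M.nadj b1 (e b0) hne
        exact ⟨y, Or.inr hy, w, hw, hyw⟩
      · obtain ⟨y, hy, w, hw, hyw⟩ := M.nadj b0 i hi
        exact ⟨y, Or.inl (hN hy), w, hw, hyw⟩

/-- a hit with its feet, symmetric in the two colours -/
structure HD (S V : Finset ℂ) (C : ZMod 3 → Set ℂ) (W1 W2 : Set ℂ) (l0 l1 l2 : ZMod 3)
    (y c1 c2 b w : ℂ) : Prop where
  w1 : ∀ x ∈ W1, x ∈ V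
  w2 : ∀ x ∈ W2, x ∈ V
  ll : ∀ l : ZMod 3, l = l0 ∨ l = l1 ∨ l = l2
  hy : y ∈ C l0
  h1 : c1 ∈ C l1
  h2 : c2 ∈ C l2
  f1 : c1 = b ∨ ∃ p, Adj S c1 p ∧ Pth S W1 p b
  f2 : c2 = w ∨ ∃ p, Adj S c2 p ∧ Pth S W2 p w
  yb : Adj S y b
  yw : Adj S y w
  bw : Adj S b w
  ex : b ∈ V ∨ w ∈ V

theorem HD.swap {W1 W2 : Set ℂ} {l0 l1 l2 : ZMod 3} {y c1 c2 b w : ℂ}
    (H : HD S V C W1 W2 l0 l1 l2 y c1 c2 b w) : HD S V C W2 W1 l0 l2 l1 y c2 c1 w b where
  w1 := H.w2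
  w2 := H.w1
  ll := fun l => by rcases H.ll l with h | h | h <;> tauto
  hy := H.hy
  h1 := H.h2
  h2 := H.h1
  f1 := H.f2
  f2 := H.f1
  yb := H.yw
  yw := H.yb
  bw := H.bw.symm
  ex := H.ex.symm

section hd

variable {W1 W2 : Set ℂ} {l0 l1 l2 : ZMod 3} {y c1 c2 b w : ℂ}

/-- the classes of `C` are off `V` -/
theorem Mk.off (M : Mk S V A B m e N ρ D) (hC : C = A ∨ C = B) {l : ZMod 3} {x : ℂ} (hx : x ∈ C l) :
    x ∉ V := by
  intro hV
  rcases hC with rfl | rfl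
  · rw [← M.fV, mem_ff] at hV
    exact hV.2 l hx
  · exact M.bV l x hx hV

theorem HD.b_in (M : Mk S V A B m e N ρ D) (hC : C = A ∨ C = B)
    (H : HD S V C W1 W2 l0 l1 l2 y c1 c2 b w) (hb : b ∈ V) :
    ∃ p, Adj S c1 p ∧ Pth S W1 p b := by
  rcases H.f1 with h | h
  · exact absurd hb (h ▸ M.off hC H.h1)
  · exact h

/-- **the conclusion**: if the union of `N b0` and of the two clusters is connected and in the ball,
there is a contradiction -/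
theorem HD.contra (M : Mk S V A B m e N ρ D) (hC : C = A ∨ C = B)
    (H : HD S V C W1 W2 l0 l1 l2 y c1 c2 b w) (b0 : ι) (hRD : R + 2 * ρ ≤ D) (hρ : 0 ≤ ρ)
    (hρR : ρ < R)
    (hc : ∀ x ∈ N b0 ∪ {v | Pth S W1 b v} ∪ {v | Pth S W2 w v},
      ∀ y ∈ N b0 ∪ {v | Pth S W1 b v} ∪ {v | Pth S W2 w v},
      Pth S (N b0 ∪ {v | Pth S W1 b v} ∪ {v | Pth S W2 w v}) x y)
    (hR1 : ∀ v, Pth S W1 b v → ‖v - m b0‖ < R) (hR2 : ∀ v, Pth S W2 w v → ‖v - m b0‖ < R) :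
    False := by
  set X : Set ℂ := N b0 ∪ {v | Pth S W1 b v} ∪ {v | Pth S W2 w v} with hX
  have hXV : ∀ x ∈ X, x ∈ V := by
    rintro x ((hx | hx) | hx)
    · exact M.nV b0 x hx
    · exact H.w1 x (Pth.snd hx)
    · exact H.w2 x (Pth.snd hx)
  have hXR : ∀ x ∈ X, ‖x - m b0‖ < R := by
    rintro x ((hx | hx) | hx)
    · exact lt_of_le_of_lt (M.nball b0 x hx) hρR
    · exact hR1 x hx
    · exact hR2 x hx
  have hbX : b ∈ V → b ∈ X := by
    intro hb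
    obtain ⟨p, -, hp⟩ := H.b_in M hC hb
    exact Or.inl (Or.inr (Pth.refl (Pth.snd hp)))
  have hwX : w ∈ V → w ∈ X := by
    intro hw
    obtain ⟨p, -, hp⟩ := H.swap.b_in M hC hw
    exact Or.inr (Pth.refl (Pth.snd hp))
  have hy : ∃ x ∈ X, Adj S y x := by
    rcases H.ex with h | h
    · exact ⟨b, hbX h, H.yb⟩
    · exact ⟨w, hwX h, H.yw⟩
  have h1 : ∃ x ∈ X, Adj S c1 x := by
    rcases H.f1 with rfl | ⟨p, h3, h4⟩
    · have hw : w ∈ V := by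
        rcases H.ex with h | h
        · exact absurd h (M.off hC H.h1)
        · exact h
      exact ⟨w, hwX hw, H.bw⟩
    · exact ⟨p, Or.inl (Or.inr h4.symm), h3⟩
  have h2 : ∃ x ∈ X, Adj S c2 x := by
    rcases H.f2 with rfl | ⟨p, h3, h4⟩
    · have hb : b ∈ V := by
        rcases H.ex with h | h
        · exact h
        · exact absurd h (M.off hC H.h2)
      exact ⟨b, hbX hb, H.bw.symm⟩
    · exact ⟨p, Or.inr h4.symm, h3⟩
  have hN : N b0 ⊆ X := fun x hx => Or.inl (Or.inl hx)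
  rcases H.ll (e b0) with h | h | h
  · exact M.no_ctr hC b0 hXV hc hN hXR hRD hρ (M.off hC H.hy) (h ▸ H.hy) hy
  · exact M.no_ctr hC b0 hXV hc hN hXR hRD hρ (M.off hC H.h1) (h ▸ H.h1) h1
  · exact M.no_ctr hC b0 hXV hc hN hXR hRD hρ (M.off hC H.h2) (h ▸ H.h2) h2

/-- `y` is not disputed -/
theorem HD.y_und (M : Mk S V A B m e N ρ D) (hC : C = A ∨ C = B)
    (H : HD S V C W1 W2 l0 l1 l2 y c1 c2 b w) (hRD : R + 2 * ρ ≤ D) (hρ : 0 ≤ ρ)
    (hρR : ρ < R) (n1 : ∀ b0, NoArm S W1 (m b0) ρ R) (n2 : ∀ b0, NoArm S W2 (m b0) ρ R) (b0 : ι) :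
    ¬ ∀ v ∈ V, Adj S y v → v ∈ N b0 := by
  intro hd
  have hb : b ∈ V → b ∈ N b0 := fun h => hd b h H.yb
  have hw : w ∈ V → w ∈ N b0 := fun h => hd w h H.yw
  refine H.contra M hC b0 hRD hρ hρR ?_ ?_ ?_
  · refine con_union (con_union (M.ncon b0) con_clu ?_) con_clu ?_
    · intro v hv
      have h1 : b ∈ V := H.w1 b (show Pth S W1 b v from hv).1
      exact ⟨b, hb h1, b, Pth.refl (show Pth S W1 b v from hv).1, Or.inl rfl⟩
    · intro v hv
      have h1 : w ∈ V := H.w2 w (show Pth S W2 w v from hv).1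
      exact ⟨w, Or.inl (hw h1), w, Pth.refl (show Pth S W2 w v from hv).1, Or.inl rfl⟩
  · intro v hv
    exact n1 b0 b v hv (M.nball b0 b (hb (H.w1 b hv.1)))
  · intro v hv
    exact n2 b0 w v hv (M.nball b0 w (hw (H.w2 w hv.1)))

/-- `c1` is not disputed -/
theorem HD.c_und (M : Mk S V A B m e N ρ D) (hC : C = A ∨ C = B)
    (H : HD S V C W1 W2 l0 l1 l2 y c1 c2 b w) (hRD : R + 2 * ρ ≤ D) (hρ : 0 ≤ ρ)
    (hρR : ρ < R) (hρη : ρ ≤ η) (hηR : η ≤ R) (hh : 0 ≤ h)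
    (hm : ∀ b0, ∀ u ∈ V, ∀ v ∈ V, Adj S u v → ‖u - m b0‖ < η → ‖v - u‖ ≤ h)
    (n1 : ∀ b0, NoArm S W1 (m b0) ρ η) (n2 : ∀ b0, NoArm S W2 (m b0) (η + h) R) (b0 : ι) :
    ¬ ∀ v ∈ V, Adj S c1 v → v ∈ N b0 := by
  intro hd
  have hK1 : ∀ v, Pth S W1 b v → ‖v - m b0‖ < η := by
    intro v hv
    obtain ⟨p, h1, h2⟩ := H.b_in M hC (H.w1 b hv.1)
    exact n1 b0 p v (h2.trans hv) (M.nball b0 p (hd p (H.w1 p h2.1) h1))
  have hw : w ∈ V → ‖w - m b0‖ ≤ η + h ∧ (w ∈ N b0 ∨ b ∈ V) := by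
    intro hw
    by_cases hb : b ∈ V
    · obtain ⟨p, h1, h2⟩ := H.b_in M hC hb
      have h3 := hK1 b (Pth.refl (Pth.snd h2))
      have h4 := hm b0 b hb w hw H.bw h3
      have h5 : ‖w - m b0‖ ≤ ‖w - b‖ + ‖b - m b0‖ := by
        have : w - m b0 = (w - b) + (b - m b0) := by ring
        rw [this]
        exact norm_add_le _ _
      exact ⟨by linarith, Or.inr hb⟩
    · have h1 : c1 = b := by
        rcases H.f1 with h | ⟨p, -, h⟩
        · exact h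
        · exact absurd (H.w1 b (Pth.snd h)) hb
      have h2 : w ∈ N b0 := hd w hw (h1 ▸ H.bw)
      exact ⟨by linarith [M.nball b0 w h2], Or.inl h2⟩
  refine H.contra M hC b0 hRD hρ hρR ?_ ?_ ?_
  · refine con_union (con_union (M.ncon b0) con_clu ?_) con_clu ?_
    · intro v hv
      obtain ⟨p, h1, h2⟩ := H.b_in M hC (H.w1 b (show Pth S W1 b v from hv).1)
      exact ⟨p, hd p (H.w1 p h2.1) h1, p, h2.symm, Or.inl rfl⟩
    · intro v hv
      have h0 : w ∈ W2 := (show Pth S W2 w v from hv).1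
      rcases (hw (H.w2 w h0)).2 with h1 | h1
      · exact ⟨w, Or.inl h1, w, Pth.refl h0, Or.inl rfl⟩
      · obtain ⟨p, -, h2⟩ := H.b_in M hC h1
        exact ⟨b, Or.inr (Pth.refl (Pth.snd h2)), w, Pth.refl h0, Or.inr H.bw⟩
  · intro v hv
    exact lt_of_lt_of_le (hK1 v hv) hηR
  · intro v hv
    exact n2 b0 w v hv (hw (H.w2 w hv.1)).1

end hd

/-- black / white sites of `V` -/
def Bk (V : Finset ℂ) (T : Set ℂ) : Set ℂ := {x | x ∈ V} ∩ T

def Wh (V : Finset ℂ) (T : Set ℂ) : Set ℂ := {x | x ∈ V} \ T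

/-- no arms at the marks -/
structure Ok (S V : Finset ℂ) (m : ι → ℂ) (T : Set ℂ) (ρ η h R : ℝ) : Prop where
  b1 : ∀ b, NoArm S (Bk V T) (m b) ρ η
  w1 : ∀ b, NoArm S (Wh V T) (m b) ρ η
  b2 : ∀ b, NoArm S (Bk V T) (m b) (η + h) R
  w2 : ∀ b, NoArm S (Wh V T) (m b) (η + h) R

/-- constants -/
structure Cst (S V : Finset ℂ) (m : ι → ℂ) (ρ η h R D : ℝ) : Prop where
  hρ : 0 ≤ ρ
  ρη : ρ ≤ η
  hh : 0 ≤ h
  ηR : η + h < R
  RD : R + 2 * ρ ≤ D
  mesh : ∀ b, ∀ u ∈ V, ∀ v ∈ V, Adj S u v → ‖u - m b‖ < η → ‖v - u‖ ≤ h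

theorem NoArm.mono {W : Set ℂ} {p : ℂ} {r R R' : ℝ} (H : NoArm S W p r R) (hR : R ≤ R') :
    NoArm S W p r R' := fun x y h1 h2 => lt_of_lt_of_le (H x y h1 h2) hR

theorem z3 (i l : ZMod 3) : l = i ∨ l = i + 1 ∨ l = i + 2 := by
  revert i l
  decide

/-- **the hits of one structure are hits of the other** -/
theorem Mk.transfer (hS : GP (S : Set ℂ)) (M : Mk S V A B m e N ρ D) (hC : C = A ∨ C = B)
    (K : Cst S V m ρ η h R D) {T : Set ℂ} (O : Ok S V m T ρ η h R) {i : ZMod 3}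
    {t : ℂ × ℂ × ℂ} (H : HitV S V C i T t) : HitV S V A i T t ∧ HitV S V B i T t := by
  obtain ⟨y, b, w⟩ := t
  obtain ⟨h1, h2, h3, h4, h5⟩ := H
  simp only at h2 h3 h4 h5
  -- the feet
  have g4 : ∃ c1 ∈ C (i + 1), c1 = b ∨ ∃ p, Adj S c1 p ∧ Pth S (Bk V T) p b := by
    rcases foot h4 with h | ⟨c, hc, p, h6, h7⟩
    · exact ⟨b, h, Or.inl rfl⟩
    · exact ⟨c, hc, Or.inr ⟨p, h6, h7⟩⟩
  have g5 : ∃ c2 ∈ C (i + 2), c2 = w ∨ ∃ p, Adj S c2 p ∧ Pth S (Wh V T) p w := by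
    rcases foot h5 with h | ⟨c, hc, p, h6, h7⟩
    · exact ⟨w, h, Or.inl rfl⟩
    · exact ⟨c, hc, Or.inr ⟨p, h6, h7⟩⟩
  obtain ⟨c1, hc1, f1⟩ := g4
  obtain ⟨c2, hc2, f2⟩ := g5
  have HH : HD S V C (Bk V T) (Wh V T) i (i + 1) (i + 2) y c1 c2 b w :=
    { w1 := fun x hx => hx.1
      w2 := fun x hx => hx.1
      ll := fun l => z3 i l
      hy := h2
      h1 := hc1
      h2 := hc2
      f1 := f1
      f2 := f2
      yb := adj_tri h1
      yw := (adj_tri'' hS h1).symm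
      bw := adj_tri' hS h1
      ex := h3 }
  have hρR : ρ < R := by linarith [K.ρη, K.ηR, K.hh]
  have hηR : η ≤ R := by linarith [K.ηR, K.hh]
  -- everything is undisputed
  have uy : ∀ l, y ∈ A l ↔ y ∈ B l := by
    rcases M.lab y (M.off hC h2) (by
      rcases h3 with h | h
      · exact ⟨b, h, HH.yb⟩
      · exact ⟨w, h, HH.yw⟩) with h | ⟨b0, h, -⟩
    · exact h
    · exact absurd h (HH.y_und M hC K.RD K.hρ hρR (fun b => (O.b1 b).mono hηR)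
        (fun b => (O.w1 b).mono hηR) b0)
  have u1 : ∀ l, c1 ∈ A l ↔ c1 ∈ B l := by
    rcases M.lab c1 (M.off hC hc1) (by
      rcases f1 with h | ⟨p, h, h'⟩
      · rcases h3 with g | g
        · exact absurd g (h ▸ M.off hC hc1)
        · exact ⟨w, g, h ▸ HH.bw⟩
      · exact ⟨p, h'.1.1, h⟩) with h | ⟨b0, h, -⟩
    · exact h
    · exact absurd h (HH.c_und M hC K.RD K.hρ hρR K.ρη hηR K.hh K.mesh O.b1 O.w2 b0)
  have u2 : ∀ l, c2 ∈ A l ↔ c2 ∈ B l := by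
    rcases M.lab c2 (M.off hC hc2) (by
      rcases f2 with h | ⟨p, h, h'⟩
      · rcases h3 with g | g
        · exact ⟨b, g, h ▸ HH.bw.symm⟩
        · exact absurd g (h ▸ M.off hC hc2)
      · exact ⟨p, h'.1.1, h⟩) with h | ⟨b0, h, -⟩
    · exact h
    · exact absurd h (HH.swap.c_und M hC K.RD K.hρ hρR K.ρη hηR K.hh K.mesh O.w1 O.b2 b0)
  -- transfer
  have main : ∀ E : ZMod 3 → Set ℂ, (∀ l, y ∈ C l → y ∈ E l) → (∀ l, c1 ∈ C l → c1 ∈ E l) →
      (∀ l, c2 ∈ C l → c2 ∈ E l) → HitV S V E i T (y, b, w) := by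
    intro E e0 e1 e2
    refine ⟨h1, e0 _ h2, h3, of_foot ?_, of_foot ?_⟩
    · rcases f1 with h | ⟨p, h, h'⟩
      · exact Or.inl (h ▸ e1 _ hc1)
      · exact Or.inr ⟨c1, e1 _ hc1, p, h, h'⟩
    · rcases f2 with h | ⟨p, h, h'⟩
      · exact Or.inl (h ▸ e2 _ hc2)
      · exact Or.inr ⟨c2, e2 _ hc2, p, h, h'⟩
  rcases hC with rfl | rfl
  · exact ⟨main _ (fun l => id) (fun l => id) (fun l => id),
      main B (fun l => (uy l).1) (fun l => (u1 l).1) (fun l => (u2 l).1)⟩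
  · exact ⟨main A (fun l => (uy l).2) (fun l => (u1 l).2) (fun l => (u2 l).2),
      main _ (fun l => id) (fun l => id) (fun l => id)⟩

/-- **STAB', deterministic part** -/
theorem hit_iff (hS : GP (S : Set ℂ)) (M : Mk S V A B m e N ρ D) (K : Cst S V m ρ η h R D)
    {T : Set ℂ} (O : Ok S V m T ρ η h R) (i : ZMod 3) (t : ℂ × ℂ × ℂ) :
    HitV S V A i T t ↔ HitV S V B i T t :=
  ⟨fun H => (M.transfer hS (Or.inl rfl) K O H).2, fun H => (M.transfer hS (Or.inr rfl) K O H).1⟩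


/-! ### probability -/

open Crest.Agent.R143.Lawx872 (ConnIn)

theorem conn_of_pth {F : Set ℂ} {W : Finset ℂ} (hF : ∀ x ∈ F, x ∈ W) {x y : ℂ}
    (h : Pth S F x y) : x ∈ W ∧ y ∈ W ∧ ConnIn S W x y := by
  refine ⟨hF x h.1, hF y h.snd, ?_⟩
  refine h.ind (P := fun y => ConnIn S W x y) Relation.ReflTransGen.refl ?_
  intro u w hu hw huw ih
  exact ih.tail ⟨huw, hF u hu, hF w hw⟩

theorem noArm_of {F : Set ℂ} {W : Finset ℂ} (hF : ∀ x ∈ F, x ∈ W) {p : ℂ} {r R : ℝ}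
    (h : ¬ CArm S W p r R) : NoArm S F p r R := by
  intro x y hxy hx
  by_contra hy
  push Not at hy
  obtain ⟨h1, h2, h3⟩ := conn_of_pth hF hxy
  exact h ⟨x, y, h1, h2, hx, hy, h3⟩

/-- some arm at a mark -/
def Arms (S V : Finset ℂ) (m : ι → ℂ) (ρ η h R : ℝ) (T : Finset ℂ) : Prop :=
  ∃ b, Arm2 S V (m b) ρ η T ∨ Arm2 S V (m b) (η + h) R T

theorem ok_of {T : Finset ℂ} (hT : ¬ Arms S V m ρ η h R T) :
    Ok S V m (T : Set ℂ) ρ η h R := by
  unfold Arms at hT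
  push Not at hT
  have hB : ∀ x ∈ Bk V (T : Set ℂ), x ∈ T := fun x hx => hx.2
  have hW : ∀ x ∈ Wh V (T : Set ℂ), x ∈ V \ T := fun x hx => Finset.mem_sdiff.2 ⟨hx.1, hx.2⟩
  exact
    { b1 := fun b => noArm_of hB fun g => (hT b).1 (Or.inl g)
      w1 := fun b => noArm_of hW fun g => (hT b).1 (Or.inr g)
      b2 := fun b => noArm_of hB fun g => (hT b).2 (Or.inl g)
      w2 := fun b => noArm_of hW fun g => (hT b).2 (Or.inr g) }

theorem pr_arms [Fintype ι] : pr V (Arms S V m ρ η h R) ≤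
    ∑ b, (pr V (Arm2 S V (m b) ρ η) + pr V (Arm2 S V (m b) (η + h) R)) := by
  have h1 : pr V (Arms S V m ρ η h R) ≤ pr V (fun β => ∃ b ∈ (Finset.univ : Finset ι),
      Arm2 S V (m b) ρ η β ∨ Arm2 S V (m b) (η + h) R β) := by
    apply Crest.Agent.R143.Harx315.pr_mono
    rintro β _ ⟨b, hb⟩
    exact ⟨b, Finset.mem_univ b, hb⟩
  refine h1.trans ((Crest.Agent.R143.Harx315.pr_exists_le _ _).trans ?_)
  exact Finset.sum_le_sum fun b _ => Crest.Agent.R143.Harx315.pr_or_le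

/-- mean of a function which vanishes off an event -/
theorem norm_exC_event {V : Finset ℂ} {f : Finset ℂ → ℂ} {P : Finset ℂ → Prop} {M : ℝ}
    (h1 : ∀ T ⊆ V, ‖f T‖ ≤ M) (h2 : ∀ T ⊆ V, ¬ P T → f T = 0) : ‖exC V f‖ ≤ M * pr V P := by
  refine (norm_exC_le V f).trans ?_
  have h3 : pr V P = (∑ T ∈ V.powerset, if P T then (1 : ℝ) else 0) / 2 ^ V.card :=
    (XW1x315.ex_ind (V := V) P).symm
  rw [h3, ← mul_div_assoc, Finset.mul_sum]
  gcongr with T hT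
  have hT' := Finset.mem_powerset.1 hT
  by_cases hP : P T
  · rw [if_pos hP, mul_one]
    exact h1 T hT'
  · rw [if_neg hP, mul_zero, h2 T hT' hP, norm_zero]

theorem zV_congr {i : ZMod 3} {T : Set ℂ} (hh : ∀ t, HitV S V A i T t ↔ HitV S V B i T t)
    (z : ℂ → ℂ) : zV S V A i T z = zV S V B i T z := by
  have e : hitsV S V A i T = hitsV S V B i T := by
    ext t
    rw [mem_hitsV, mem_hitsV]
    exact hh t
  unfold zV
  rw [e]

/-- **STAB' for `TV`** -/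
theorem stab_TV [Fintype ι] (hS : GP (S : Set ℂ)) (M : Mk S V A B m e N ρ D)
    (K : Cst S V m ρ η h R D) {z : ℂ → ℂ} {k : ℝ} (hk : 0 ≤ k) (hA : ∀ i, ∀ v ∈ A i, ‖z v‖ ≤ k)
    (hB : ∀ i, ∀ v ∈ B i, ‖z v‖ ≤ k) : ‖TV S V A z - TV S V B z‖ ≤
      18 * k * ∑ b, (pr V (Arm2 S V (m b) ρ η) + pr V (Arm2 S V (m b) (η + h) R)) := by
  have h1 : TV S V A z - TV S V B z = 3 * ∑ i : ZMod 3, omz i * exC V fun T =>
      zV S V A i (T : Set ℂ) z - zV S V B i (T : Set ℂ) z := by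
    unfold TV
    rw [← mul_sub, ← Finset.sum_sub_distrib]
    congr 1
    refine Finset.sum_congr rfl fun i _ => ?_
    rw [exC_sub, mul_sub]
  have h2 : ∀ i : ZMod 3, ‖omz i * exC V fun T => zV S V A i (T : Set ℂ) z -
      zV S V B i (T : Set ℂ) z‖ ≤ 2 * k * pr V (Arms S V m ρ η h R) := by
    intro i
    rw [norm_mul, norm_omz, one_mul]
    refine norm_exC_event (fun T _ => ?_) fun T _ hT => ?_
    · refine (norm_sub_le _ _).trans ?_
      have a1 := norm_zV (S := S) (V := V) (B := A) (i := i) (T := (T : Set ℂ)) hk (hA i)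
      have a2 := norm_zV (S := S) (V := V) (B := B) (i := i) (T := (T : Set ℂ)) hk (hB i)
      linarith
    · rw [zV_congr (fun t => hit_iff hS M K (ok_of hT) i t) z, sub_self]
  have h3 : ‖∑ i : ZMod 3, omz i * exC V fun T => zV S V A i (T : Set ℂ) z -
      zV S V B i (T : Set ℂ) z‖ ≤ 3 * (2 * k * pr V (Arms S V m ρ η h R)) := by
    refine (norm_sum_le _ _).trans ?_
    refine (Finset.sum_le_sum fun i _ => h2 i).trans ?_
    rw [Finset.sum_const, Finset.card_univ, ZMod.card, nsmul_eq_mul]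
    push_cast
    exact le_rfl
  have h4 := mul_le_mul_of_nonneg_left (pr_arms (S := S) (V := V) (m := m) (ρ := ρ) (η := η)
    (h := h) (R := R)) hk
  rw [h1, norm_mul, Complex.norm_ofNat]
  linarith

/-- a proper triple without triangle centre has no degenerate hit -/
theorem deg_of (hT : ∀ t, ¬ CtrT S A t) {i : ZMod 3} {T : Finset ℂ}
    {t : ℂ × ℂ × ℂ} (H : HitO S A i T t) : t.2.1 ∈ ff S A ∨ t.2.2 ∈ ff S A := by
  by_contra hc
  push Not at hc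
  obtain ⟨y, b, w⟩ := t
  obtain ⟨h1, h2, h3, h4⟩ := H
  simp only at h2 h3 h4 hc
  have hb : b ∈ A (i + 1) := by
    rcases foot h3 with h | ⟨c, -, p, -, h⟩
    · exact h
    · exact absurd (mem_ff.2 h.snd.1) hc.1
  have hw : w ∈ A (i + 2) := by
    rcases foot h4 with h | ⟨c, -, p, -, h⟩
    · exact h
    · exact absurd (mem_ff.2 h.snd.1) hc.2
  refine hT (y, b, w) ⟨h1, fun l => ?_⟩
  rcases z3 i l with rfl | rfl | rfl
  · exact ⟨y, Or.inl rfl, h2⟩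
  · exact ⟨b, Or.inr (Or.inl rfl), hb⟩
  · exact ⟨w, Or.inr (Or.inr rfl), hw⟩

/-- **STAB'** -/
theorem stab [Fintype ι] (hS : GP (S : Set ℂ)) (hX : Hex S A) (hT : ∀ t, ¬ CtrT S A t)
    (M : Mk S V A B m e N ρ D) (K : Cst S V m ρ η h R D) {z : ℂ → ℂ} {k : ℝ} (hk : 0 ≤ k)
    (hA : ∀ i, ∀ v ∈ A i, ‖z v‖ ≤ k) (hB : ∀ i, ∀ v ∈ B i, ‖z v‖ ≤ k) :
    ‖TS S A z - TV S V B z‖ ≤
      18 * k * ∑ b, (pr V (Arm2 S V (m b) ρ η) + pr V (Arm2 S V (m b) (η + h) R)) := by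
  rw [TS_eq_TV hX (fun i T _ t H => deg_of hT H) z, M.fV]
  exact stab_TV hS M K hk hA hB

/-- the hit vertex of `A` is the value of `zV` of `B` -/
theorem zV_hv (hS : GP (S : Set ℂ)) (hX : Hex S A) (hT : ∀ t, ¬ CtrT S A t)
    (M : Mk S V A B m e N ρ D) (K : Cst S V m ρ η h R D) {T : Finset ℂ} (hTV : T ⊆ V)
    (hN : ¬ Arms S V m ρ η h R T) (i : ZMod 3) (z : ℂ → ℂ) :
    zV S V B i (T : Set ℂ) z = z (hv S A i T) := by
  have hf := M.fV
  have hTf : T ⊆ ff S A := hf ▸ hTV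
  obtain ⟨t, h, hu⟩ := hX i T hTf
  have e0 : {x | x ∈ V} = fr S A := by
    ext v
    rw [← mem_ff, hf]
    exact Iff.rfl
  have h1 : ∀ t', HitV S V A i T t' ↔ HitO S A i T t' := by
    intro t'
    constructor
    · rintro ⟨a1, a2, -, a4, a5⟩
      rw [e0] at a4 a5
      exact ⟨a1, a2, a4, a5⟩
    · intro h'
      have := deg_of hT h'
      rw [hf] at this
      refine ⟨h'.1, h'.2.1, this, ?_, ?_⟩
      · rw [e0]; exact h'.2.2.1
      · rw [e0]; exact h'.2.2.2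
  rw [← zV_congr (fun t => hit_iff hS M K (ok_of hN) i t) z,
    zV_eq ((h1 t).2 h) (fun t' h' => hu t' ((h1 t').1 h')), hv_eq hX hTf h]

end Crest.Agent.R143.Stbx331
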