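import Crest.Agent.R143.NetV_346
import Crest.Agent.R143.ContT_571
import Crest.Agent.R143.Fresh_920

/-!
# Row 143 (S0194), CONT: labels near the marks do not matter, slit side (helper660, note 3814)

`V` free sites, `A` a proper triple of giants, `B` three position classes. Marks `b : ZMod 3`:
point `p b`, third label `e b`, local set `Nb b` of free sites.

* `Ar S W p r R` : chain of sites of `W` across the annulus
* `Dead S V A B e v` (359, 741) : no site with the label `e` is next to the `V`-component of `v`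
* `Mk` : every site off `V` next to `V` has the same labels in `A` and in `B`, or all its neighbours
  in `V` are in `Nb b` or dead and it does not have the label `e b`; `Nb b` is connected, in
  `closedBall (p b) ρ`, next to the two other giants
* `core` : no hit uses a disputed site if there is no arm and no centre in `closedBall (p b) D`
* **`hit_iff`** : the hits of `A` are the hits of `B`
* **`stab`** : `‖TS S A z - TV S V B z‖ ≤ 18 β * ∑ arms`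
-/

set_option autoImplicit false

noncomputable section

open scoped Classical

namespace Crest.Agent.R143.Stbx660

open Set
open Crest.Agent.R143.B0x346 Crest.Agent.R143.JColx54 Crest.Agent.R143.RE0x723
  Crest.Agent.R143.K33x877 Crest.Agent.R143.NetUx346 Crest.Agent.R143.NetVx346
open Crest.Agent.R143.ContTx571 (cp cp_sub cp_con cp_self z3)
open Crest.Agent.R143.Harx315 (pr)
open Crest.Agent.R143.D3Fx802 (CArm)
open Crest.Agent.R143.Lawx872 (ConnIn)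

variable {S V : Finset ℂ} {A B C C' : ZMod 3 → Set ℂ}

/-- chain of sites of `W` across an annulus -/
def Ar (S : Finset ℂ) (W : Set ℂ) (p : ℂ) (r R : ℝ) : Prop :=
  ∃ a b, Pth S W a b ∧ ‖a - p‖ ≤ r ∧ R ≤ ‖b - p‖

/-- `c` is a foot of the chain of `b` -/
def Foot (S : Finset ℂ) (W : Set ℂ) (b c : ℂ) : Prop :=
  b = c ∨ ∃ q, Adj S c q ∧ Pth S W q b

theorem foot_of {W K : Set ℂ} {b : ℂ} (h : b ∈ Clu S W K) : ∃ c ∈ K, Foot S W b c := by
  obtain ⟨x, hx, h⟩ := h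
  refine h.ind (P := fun b => ∃ c ∈ K, Foot S W b c) ⟨x, hx, Or.inl rfl⟩ ?_
  rintro a b - hb hab ⟨c, hc, h1⟩
  rcases hb with hb | hb
  · rcases h1 with rfl | ⟨q, h2, h3⟩
    · exact ⟨a, hc, Or.inr ⟨b, hab, Pth.refl hb⟩⟩
    · exact ⟨c, hc, Or.inr ⟨q, h2, h3.tail hab hb⟩⟩
  · exact ⟨b, hb, Or.inl rfl⟩

theorem foot_clu {W K : Set ℂ} {b c : ℂ} (h : Foot S W b c) (hc : c ∈ K) : b ∈ Clu S W K := by
  rcases h with rfl | ⟨q, h1, h2⟩
  · exact ⟨b, hc, Pth.refl (Or.inr hc)⟩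
  · exact ⟨c, hc, (Pth.single (Or.inr hc) h1 (Or.inl h2.1)).trans
      (h2.mono Set.subset_union_left)⟩

/-- connected set of sites -/
def Cn (S : Finset ℂ) (X : Set ℂ) : Prop := ∀ x ∈ X, ∀ y ∈ X, Pth S X x y

theorem cn_union {X Y : Set ℂ} {x y : ℂ} (hX : Cn S X) (hY : Cn S Y) (hx : x ∈ X) (hy : y ∈ Y)
    (h : x = y ∨ Adj S x y) : Cn S (X ∪ Y) := by
  have key : ∀ a ∈ X ∪ Y, Pth S (X ∪ Y) a x := by
    rintro a (ha | ha)
    · exact (hX a ha x hx).mono Set.subset_union_left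
    · have h1 : Pth S (X ∪ Y) a y := (hY a ha y hy).mono Set.subset_union_right
      rcases h with rfl | h
      · exact h1
      · exact h1.tail h.symm (Or.inl hx)
  intro a ha b hb
  exact (key a ha).trans (key b hb).symm

theorem cn_cp {W : Set ℂ} {b : ℂ} : Cn S (cp S W b) := cp_con

/-- (359) no site with the label `e` is next to the `V`-component of `v` -/
def Dead (S V : Finset ℂ) (A B : ZMod 3 → Set ℂ) (e : ZMod 3) (v : ℂ) : Prop :=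
  ∀ v' y, Pth S {z | z ∈ V} v v' → y ∈ S → y ∉ V → Adj S v' y → y ∉ A e ∧ y ∉ B e

/-- the same for one structure -/
def Ded (S V : Finset ℂ) (C : ZMod 3 → Set ℂ) (e : ZMod 3) (v : ℂ) : Prop :=
  ∀ v' y, Pth S {z | z ∈ V} v v' → y ∈ S → y ∉ V → Adj S v' y → y ∉ C e

/-- the data at the marks -/
structure Mk (S V : Finset ℂ) (A B : ZMod 3 → Set ℂ) (p : ZMod 3 → ℂ) (e : ZMod 3 → ZMod 3)
    (Nb : ZMod 3 → Set ℂ) (ρ : ℝ) : Prop where
  sub : ∀ b, ∀ x ∈ Nb b, x ∈ V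
  con : ∀ b, Cn S (Nb b)
  near : ∀ b, ∀ x ∈ Nb b, ‖x - p b‖ ≤ ρ
  adj : ∀ b l, l ≠ e b → ∃ x ∈ Nb b, ∃ y ∈ A l, Adj S x y
  und : ∀ x, x ∉ V → (∃ v ∈ V, Adj S x v) → (∀ l, x ∈ A l ↔ x ∈ B l) ∨
    ∃ b, (∀ v ∈ V, Adj S x v → v ∈ Nb b ∨ Dead S V A B (e b) v) ∧ x ∉ A (e b) ∧ x ∉ B (e b)

/-- what `core` needs of a class structure: right labels, or disputed at a mark -/
def Lb (S V : Finset ℂ) (A : ZMod 3 → Set ℂ) (e : ZMod 3 → ZMod 3) (Nb : ZMod 3 → Set ℂ)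
    (C : ZMod 3 → Set ℂ) : Prop :=
  ∀ x, x ∉ V → (∃ v ∈ V, Adj S x v) → (∀ l, x ∈ C l → x ∈ A l) ∨
    ∃ b, (∀ v ∈ V, Adj S x v → v ∈ Nb b ∨ Ded S V C (e b) v) ∧ x ∉ C (e b)

section
variable {p : ZMod 3 → ℂ} {e : ZMod 3 → ZMod 3} {Nb : ZMod 3 → Set ℂ} {ρ η m D D' : ℝ}

/-- no chain of `W` across the annuli of the marks -/
def NoAr (S : Finset ℂ) (W : Set ℂ) (p : ZMod 3 → ℂ) (ρ η m D' : ℝ) : Prop :=
  ∀ b, ¬ Ar S W (p b) ρ η ∧ ¬ Ar S W (p b) (η + m) D'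

/-- the centre -/
theorem ctr_of (hM : Mk S V A B p e Nb ρ) (hC : Lb S V A e Nb C)
    (hAV : ∀ l, ∀ x ∈ A l, x ∉ V) (hD : D' + 2 * ρ ≤ D) (hρ : 0 ≤ ρ)
    (hNC : ∀ b, ∀ X : Set ℂ, (∀ x ∈ X, ‖x - p b‖ ≤ D) → ¬ CtrX S A X)
    {b0 : ZMod 3} {X : Set ℂ} (hXV : ∀ x ∈ X, x ∈ V) (hXD : ∀ x ∈ X, ‖x - p b0‖ ≤ D')
    (hXc : Cn S X) (hNX : ∀ x ∈ Nb b0, x ∈ X) {v x : ℂ} (hv : v ∈ C (e b0)) (hvV : v ∉ V)
    (hx : x ∈ X) (hvx : Adj S v x) (hnd : ∀ b, ¬ Ded S V C (e b) x) : False := by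
  have hdis : ∀ {Y : Set ℂ}, (∀ x ∈ Y, x ∈ V) → ∀ l, Disjoint Y (A l) := fun h l =>
    Set.disjoint_left.2 fun x hx hx' => hAV l x hx' (h x hx)
  rcases hC v hvV ⟨x, hXV x hx, hvx⟩ with h | ⟨b1, h1, h2⟩
  · refine hNC b0 X (fun x hx => (hXD x hx).trans (by linarith)) ⟨hdis hXV, hXc, fun l => ?_⟩
    by_cases hl : l = e b0
    · subst hl
      exact ⟨x, hx, v, h _ hv, hvx.symm⟩
    · obtain ⟨x', hx', y, hy, hxy⟩ := hM.adj b0 l hl
      exact ⟨x', hNX x' hx', y, hy, hxy⟩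
  · have hne : e b0 ≠ e b1 := fun he => h2 (he ▸ hv)
    have hx1 : x ∈ Nb b1 := (h1 x (hXV x hx) hvx).resolve_right (hnd b1)
    refine hNC b0 (X ∪ Nb b1) ?_ ⟨hdis ?_, cn_union hXc (hM.con b1) hx hx1 (Or.inl rfl),
      fun l => ?_⟩
    · rintro z (hz | hz)
      · exact (hXD z hz).trans (by linarith)
      · have e1 : z - p b0 = (z - p b1) + -(x - p b1) + (x - p b0) := by ring
        rw [e1]
        refine (norm_add_le _ _).trans ?_
        refine (add_le_add_left (norm_add_le _ _) _).trans ?_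
        rw [norm_neg]
        have := hM.near b1 z hz
        have := hM.near b1 x hx1
        have := hXD x hx
        linarith
    · rintro z (hz | hz)
      · exact hXV z hz
      · exact hM.sub b1 z hz
    · by_cases hl : l = e b0
      · subst hl
        obtain ⟨x', hx', y, hy, hxy⟩ := hM.adj b1 _ hne
        exact ⟨x', Or.inr hx', y, hy, hxy⟩
      · obtain ⟨x', hx', y, hy, hxy⟩ := hM.adj b0 l hl
        exact ⟨x', Or.inl (hNX x' hx'), y, hy, hxy⟩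

/-- **no hit uses a disputed site** -/
theorem core (hM : Mk S V A B p e Nb ρ) (hC : Lb S V A e Nb C)
    (hAV : ∀ l, ∀ x ∈ A l, x ∉ V) (hCV : ∀ l, ∀ x ∈ C l, x ∉ V)
    (hm : ∀ v ∈ V, ∀ x, Adj S v x → ‖v - x‖ ≤ m)
    (hρ : 0 ≤ ρ) (hρη : ρ ≤ η) (hηD : η ≤ D') (hD : D' + 2 * ρ ≤ D)
    (hNC : ∀ b, ∀ X : Set ℂ, (∀ x ∈ X, ‖x - p b‖ ≤ D) → ¬ CtrX S A X)
    {W1 W2 : Set ℂ} (hW1 : ∀ x ∈ W1, x ∈ V) (hW2 : ∀ x ∈ W2, x ∈ V)
    (hn1 : NoAr S W1 p ρ η m D') (hn2 : NoAr S W2 p ρ η m D')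
    {i j k : ZMod 3} (hij : i ≠ j) (hik : i ≠ k) (hjk : j ≠ k) {y b w c1 c2 : ℂ}
    (hyb : Adj S y b) (hyw : Adj S y w) (hbw : Adj S b w) (hbwV : b ∈ V ∨ w ∈ V)
    (hy : y ∈ C i) (h1 : c1 ∈ C j) (h2 : c2 ∈ C k) (hf1 : Foot S W1 b c1)
    (hf2 : Foot S W2 w c2) {b0 : ZMod 3}
    (hd : (∀ v ∈ V, Adj S y v → v ∈ Nb b0 ∨ Ded S V C (e b0) v) ∨
      (∀ v ∈ V, Adj S c1 v → v ∈ Nb b0 ∨ Ded S V C (e b0) v)) : False := by
  -- the set `X`
  set X : Set ℂ := (Nb b0 ∪ cp S W1 b) ∪ cp S W2 w with hX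
  have hP : ∀ {W : Set ℂ} {r R : ℝ} {s t q : ℂ}, ¬ Ar S W q r R → Pth S W s t → ‖s - q‖ ≤ r →
      ‖t - q‖ < R := by
    intro W r R s t q hn hp hs
    by_contra hc
    exact hn ⟨s, t, hp, hs, not_lt.1 hc⟩
  have hXV : ∀ x ∈ X, x ∈ V := by
    rintro x ((h | h) | h)
    · exact hM.sub b0 x h
    · exact hW1 x (cp_sub h)
    · exact hW2 x (cp_sub h)
  -- the feet are next to the chains
  have a1 : b ∈ V → ∃ x ∈ cp S W1 b ∪ cp S W2 w, Adj S c1 x := by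
    intro hb
    rcases hf1 with rfl | ⟨q, g1, g2⟩
    · exact absurd hb (hCV _ _ h1)
    · exact ⟨q, Or.inl g2.symm, g1⟩
  have a2 : w ∈ V → ∃ x ∈ cp S W1 b ∪ cp S W2 w, Adj S c2 x := by
    intro hw
    rcases hf2 with rfl | ⟨q, g1, g2⟩
    · exact absurd hw (hCV _ _ h2)
    · exact ⟨q, Or.inr g2.symm, g1⟩
  have d1 : b ∈ V → b ∈ W1 := by
    intro hb
    rcases hf1 with rfl | ⟨q, g1, g2⟩
    · exact absurd hb (hCV _ _ h1)
    · exact g2.snd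
  have d2 : w ∈ V → w ∈ W2 := by
    intro hw
    rcases hf2 with rfl | ⟨q, g1, g2⟩
    · exact absurd hw (hCV _ _ h2)
    · exact g2.snd
  have e1 : b ∉ V → ∀ x, x ∉ cp S W1 b := fun hb x hx => hb (hW1 b hx.1)
  have e2 : w ∉ V → ∀ x, x ∉ cp S W2 w := fun hw x hx => hw (hW2 w hx.1)
  have f1 : b ∉ V → b = c1 := by
    intro hb
    rcases hf1 with h | ⟨q, g1, g2⟩
    · exact h
    · exact absurd (hW1 b g2.snd) hb
  have f2 : w ∉ V → w = c2 := by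
    intro hw
    rcases hf2 with h | ⟨q, g1, g2⟩
    · exact h
    · exact absurd (hW2 w g2.snd) hw
  -- the two chains are joined inside `V`
  have join : ∀ x ∈ cp S W1 b ∪ cp S W2 w, ∀ x' ∈ cp S W1 b ∪ cp S W2 w,
      Pth S {z | z ∈ V} x x' := by
    have m1 : ∀ x ∈ cp S W1 b, Pth S {z | z ∈ V} b x := fun x hx => Pth.mono hW1 hx
    have m2 : ∀ x ∈ cp S W2 w, Pth S {z | z ∈ V} w x := fun x hx => Pth.mono hW2 hx
    have m3 : ∀ x ∈ cp S W1 b, ∀ x' ∈ cp S W2 w, Pth S {z | z ∈ V} x x' := fun x hx x' hx' =>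
      ((m1 x hx).symm.tail hbw (hW2 w hx'.1)).trans (m2 x' hx')
    rintro x (hx | hx) x' (hx' | hx')
    · exact (m1 x hx).symm.trans (m1 x' hx')
    · exact m3 x hx x' hx'
    · exact (m3 x' hx' x hx).symm
    · exact (m2 x hx).symm.trans (m2 x' hx')
  have b0' : ∃ x ∈ cp S W1 b ∪ cp S W2 w, Adj S y x := by
    rcases hbwV with h | h
    · exact ⟨b, Or.inl (cp_self (d1 h)), hyb⟩
    · exact ⟨w, Or.inr (cp_self (d2 h)), hyw⟩
  have b1' : ∃ x ∈ cp S W1 b ∪ cp S W2 w, Adj S c1 x := by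
    by_cases hb : b ∈ V
    · exact a1 hb
    · have hw : w ∈ V := hbwV.resolve_left hb
      exact ⟨w, Or.inr (cp_self (d2 hw)), f1 hb ▸ hbw⟩
  have b2' : ∃ x ∈ cp S W1 b ∪ cp S W2 w, Adj S c2 x := by
    by_cases hw : w ∈ V
    · exact a2 hw
    · have hb : b ∈ V := hbwV.resolve_right hw
      exact ⟨b, Or.inl (cp_self (d1 hb)), f2 hw ▸ hbw.symm⟩
  -- no dead site
  have nde : ∀ b1, ∀ x ∈ cp S W1 b ∪ cp S W2 w, ¬ Ded S V C (e b1) x := by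
    intro b1 x hx hde
    have key : ∀ {l : ZMod 3} {v : ℂ}, v ∈ C l → (∃ x' ∈ cp S W1 b ∪ cp S W2 w, Adj S v x') →
        l ≠ e b1 := by
      rintro l v hv ⟨x', hx', ha⟩ rfl
      exact hde x' v (join x hx x' hx') ha.mem.1 (hCV _ _ hv) ha.symm hv
    rcases z3 i j k hij hik hjk (e b1) with he | he | he
    · exact key hy b0' he.symm
    · exact key h1 b1' he.symm
    · exact key h2 b2' he.symm
  have sX : ∀ x ∈ cp S W1 b ∪ cp S W2 w, x ∈ X := by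
    rintro x (h | h)
    · exact Or.inl (Or.inr h)
    · exact Or.inr h
  -- enough: the shape of `X`
  have fin : (∀ x ∈ X, ‖x - p b0‖ ≤ D') → Cn S X → False := by
    intro g1 g2
    obtain ⟨x0, g3, g4⟩ := b0'
    obtain ⟨x1, g5, g6⟩ := b1'
    obtain ⟨x2, g7, g8⟩ := b2'
    have hN : ∀ x ∈ Nb b0, x ∈ X := fun x hx => Or.inl (Or.inl hx)
    rcases z3 i j k hij hik hjk (e b0) with he | he | he
    · exact ctr_of hM hC hAV hD hρ hNC hXV g1 g2 hN (he ▸ hy) (hCV _ _ hy) (sX _ g3) g4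
        fun b1 => nde b1 _ g3
    · exact ctr_of hM hC hAV hD hρ hNC hXV g1 g2 hN (he ▸ h1) (hCV _ _ h1) (sX _ g5) g6
        fun b1 => nde b1 _ g5
    · exact ctr_of hM hC hAV hD hρ hNC hXV g1 g2 hN (he ▸ h2) (hCV _ _ h2) (sX _ g7) g8
        fun b1 => nde b1 _ g7
  -- `b` and `w` in `Nb b0` as soon as they are in `V`
  have caseN : (b ∈ V → b ∈ Nb b0) → (w ∈ V → w ∈ Nb b0) → False := by
    intro k1 k2
    refine fin ?_ ?_
    · rintro x ((h | h) | h)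
      · exact (hM.near b0 x h).trans (by linarith)
      · exact (hP (hn1 b0).1 h (hM.near b0 b (k1 (hW1 b h.1)))).le.trans hηD
      · exact (hP (hn2 b0).1 h (hM.near b0 w (k2 (hW2 w h.1)))).le.trans hηD
    · have g1 : Cn S (Nb b0 ∪ cp S W1 b) := by
        by_cases hb : b ∈ V
        · exact cn_union (hM.con b0) cn_cp (k1 hb) (cp_self (d1 hb)) (Or.inl rfl)
        · have : Nb b0 ∪ cp S W1 b = Nb b0 := by
            ext x
            exact ⟨fun h => h.resolve_right (e1 hb x), Or.inl⟩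
          rw [this]
          exact hM.con b0
      by_cases hw : w ∈ V
      · exact cn_union g1 cn_cp (Or.inl (k2 hw)) (cp_self (d2 hw)) (Or.inl rfl)
      · have : X = Nb b0 ∪ cp S W1 b := by
          ext x
          exact ⟨fun h => h.resolve_right (e2 hw x), Or.inl⟩
        rw [this]
        exact g1
  rcases hd with hd | hd
  · exact caseN (fun h => (hd b h hyb).resolve_right (nde b0 b (Or.inl (cp_self (d1 h)))))
      fun h => (hd w h hyw).resolve_right (nde b0 w (Or.inr (cp_self (d2 h))))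
  · by_cases hb : b ∈ V
    · -- the chain of `b` starts in `Nb b0`
      obtain ⟨q, g1, g2⟩ := hf1.resolve_left fun h => hCV _ _ h1 (h ▸ hb)
      have hq : q ∈ Nb b0 := (hd q (hW1 q g2.1) g1).resolve_right (nde b0 q (Or.inl g2.symm))
      have hP1 : ∀ x ∈ cp S W1 b, ‖x - p b0‖ < η := fun x hx =>
        hP (hn1 b0).1 (g2.trans hx) (hM.near b0 q hq)
      have hbP : b ∈ cp S W1 b := cp_self (d1 hb)
      have g3 : Cn S (Nb b0 ∪ cp S W1 b) :=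
        cn_union (hM.con b0) cn_cp hq (show q ∈ cp S W1 b from g2.symm) (Or.inl rfl)
      refine fin ?_ ?_
      · rintro x ((h | h) | h)
        · exact (hM.near b0 x h).trans (by linarith)
        · exact (hP1 x h).le.trans hηD
        · have hwV : w ∈ V := hW2 w h.1
          have hw1 : ‖w - p b0‖ ≤ η + m := by
            have e3 : w - p b0 = (w - b) + (b - p b0) := by ring
            rw [e3]
            refine (norm_add_le _ _).trans ?_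
            have := hm w hwV b hbw.symm
            have := hP1 b hbP
            linarith
          exact (hP (hn2 b0).2 h hw1).le
      · by_cases hw : w ∈ V
        · exact cn_union g3 cn_cp (Or.inr hbP) (cp_self (d2 hw)) (Or.inr hbw)
        · have : X = Nb b0 ∪ cp S W1 b := by
            ext x
            exact ⟨fun h => h.resolve_right (e2 hw x), Or.inl⟩
          rw [this]
          exact g3
    · exact caseN (fun h => absurd h hb) fun h =>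
        (hd w h (f1 hb ▸ hbw)).resolve_right (nde b0 w (Or.inr (cp_self (d2 h))))

/-- **the hits of one structure are hits of the other one** -/
theorem hit_trans (hS : GP (S : Set ℂ)) (hM : Mk S V A B p e Nb ρ) (hC : Lb S V A e Nb C)
    (hAV : ∀ l, ∀ x ∈ A l, x ∉ V) (hCV : ∀ l, ∀ x ∈ C l, x ∉ V)
    (hCC : ∀ x, x ∉ V → (∃ v ∈ V, Adj S x v) → (∀ l, x ∈ C l ↔ x ∈ C' l) ∨
      ∃ b, ∀ v ∈ V, Adj S x v → v ∈ Nb b ∨ Ded S V C (e b) v)
    (hm : ∀ v ∈ V, ∀ x, Adj S v x → ‖v - x‖ ≤ m)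
    (hρ : 0 ≤ ρ) (hρη : ρ ≤ η) (hηD : η ≤ D') (hD : D' + 2 * ρ ≤ D)
    (hNC : ∀ b, ∀ X : Set ℂ, (∀ x ∈ X, ‖x - p b‖ ≤ D) → ¬ CtrX S A X) {T : Set ℂ}
    (hn1 : NoAr S ({x | x ∈ V} ∩ T) p ρ η m D') (hn2 : NoAr S ({x | x ∈ V} \ T) p ρ η m D')
    {i : ZMod 3} {t : ℂ × ℂ × ℂ} (h : HitV S V C i T t) : HitV S V C' i T t := by
  obtain ⟨y, b, w⟩ := t
  obtain ⟨ht, hy, hV, hb, hw⟩ := h
  dsimp only at ht hy hV hb hw
  obtain ⟨c1, h1, f1⟩ := foot_of hb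
  obtain ⟨c2, h2, f2⟩ := foot_of hw
  have ad1 : Adj S y b := adj_tri ht
  have ad2 : Adj S b w := adj_tri' hS ht
  have ad3 : Adj S y w := (adj_tri'' hS ht).symm
  have hk : ∀ i : ZMod 3, i ≠ i + 1 ∧ i ≠ i + 2 ∧ i + 1 ≠ i + 2 := by decide
  obtain ⟨k1, k2, k3⟩ := hk i
  have hW1 : ∀ x ∈ ({x | x ∈ V} ∩ T : Set ℂ), x ∈ V := fun x h => h.1
  have hW2 : ∀ x ∈ ({x | x ∈ V} \ T : Set ℂ), x ∈ V := fun x h => h.1
  have R1 := fun {b0 : ZMod 3} => core (b0 := b0) hM hC hAV hCV hm hρ hρη hηD hD hNC hW1 hW2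
    hn1 hn2 k1 k2 k3 ad1 ad3 ad2 hV hy h1 h2 f1 f2
  have R2 := fun {b0 : ZMod 3} => core (b0 := b0) hM hC hAV hCV hm hρ hρη hηD hD hNC hW2 hW1
    hn2 hn1 k2 k1 k3.symm ad3 ad1 ad2.symm hV.symm hy h2 h1 f2 f1
  -- next to `V`
  have n0 : ∃ v ∈ V, Adj S y v := by
    rcases hV with h | h
    · exact ⟨b, h, ad1⟩
    · exact ⟨w, h, ad3⟩
  have n1 : ∃ v ∈ V, Adj S c1 v := by
    rcases f1 with rfl | ⟨q, g1, g2⟩
    · exact ⟨w, hV.resolve_left (hCV _ _ h1), ad2⟩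
    · exact ⟨q, g2.1.1, g1⟩
  have n2 : ∃ v ∈ V, Adj S c2 v := by
    rcases f2 with rfl | ⟨q, g1, g2⟩
    · exact ⟨b, hV.resolve_right (hCV _ _ h2), ad2.symm⟩
    · exact ⟨q, g2.1.1, g1⟩
  have u0 : y ∈ C' i := by
    rcases hCC y (hCV _ _ hy) n0 with g | ⟨b0, g⟩
    · exact (g i).1 hy
    · exact (R1 (Or.inl g)).elim
  have u1 : c1 ∈ C' (i + 1) := by
    rcases hCC c1 (hCV _ _ h1) n1 with g | ⟨b0, g⟩
    · exact (g _).1 h1
    · exact (R1 (Or.inr g)).elim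
  have u2 : c2 ∈ C' (i + 2) := by
    rcases hCC c2 (hCV _ _ h2) n2 with g | ⟨b0, g⟩
    · exact (g _).1 h2
    · exact (R2 (Or.inr g)).elim
  exact ⟨ht, u0, hV, foot_clu f1 u1, foot_clu f2 u2⟩

/-- **the hits of `A` are the hits of `B`** -/
theorem hit_iff (hS : GP (S : Set ℂ)) (hM : Mk S V A B p e Nb ρ)
    (hAV : ∀ l, ∀ x ∈ A l, x ∉ V) (hBV : ∀ l, ∀ x ∈ B l, x ∉ V)
    (hm : ∀ v ∈ V, ∀ x, Adj S v x → ‖v - x‖ ≤ m)
    (hρ : 0 ≤ ρ) (hρη : ρ ≤ η) (hηD : η ≤ D') (hD : D' + 2 * ρ ≤ D)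
    (hNC : ∀ b, ∀ X : Set ℂ, (∀ x ∈ X, ‖x - p b‖ ≤ D) → ¬ CtrX S A X) {T : Set ℂ}
    (hn1 : NoAr S ({x | x ∈ V} ∩ T) p ρ η m D') (hn2 : NoAr S ({x | x ∈ V} \ T) p ρ η m D')
    {i : ZMod 3} {t : ℂ × ℂ × ℂ} : HitV S V A i T t ↔ HitV S V B i T t := by
  have lA : Lb S V A e Nb A := fun x _ _ => Or.inl fun l h => h
  have dA : ∀ {l v}, Dead S V A B l v → Ded S V A l v := fun h v' y g1 g2 g3 g4 =>
    (h v' y g1 g2 g3 g4).1
  have dB : ∀ {l v}, Dead S V A B l v → Ded S V B l v := fun h v' y g1 g2 g3 g4 =>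
    (h v' y g1 g2 g3 g4).2
  have lB : Lb S V A e Nb B := fun x h1 h2 => by
    rcases hM.und x h1 h2 with h | ⟨b, h3, h4, h5⟩
    · exact Or.inl fun l h' => (h l).2 h'
    · exact Or.inr ⟨b, fun v g1 g2 => (h3 v g1 g2).imp_right dB, h5⟩
  constructor
  · refine hit_trans hS hM lA hAV hAV (fun x h1 h2 => ?_) hm hρ hρη hηD hD hNC hn1 hn2
    rcases hM.und x h1 h2 with h | ⟨b, h3, -⟩
    · exact Or.inl h
    · exact Or.inr ⟨b, fun v g1 g2 => (h3 v g1 g2).imp_right dA⟩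
  · refine hit_trans hS hM lB hAV hBV (fun x h1 h2 => ?_) hm hρ hρη hηD hD hNC hn1 hn2
    rcases hM.und x h1 h2 with h | ⟨b, h3, -⟩
    · exact Or.inl fun l => (h l).symm
    · exact Or.inr ⟨b, fun v g1 g2 => (h3 v g1 g2).imp_right dB⟩

/-! ### probability -/

/-- some arm at a mark -/
def BadT (S V : Finset ℂ) (p : ZMod 3 → ℂ) (ρ η m D' : ℝ) (T : Finset ℂ) : Prop :=
  ∃ b : ZMod 3, (CArm S T (p b) ρ η ∨ CArm S (V \ T) (p b) ρ η) ∨
    (CArm S T (p b) (η + m) D' ∨ CArm S (V \ T) (p b) (η + m) D')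

theorem carm_of {W : Set ℂ} {β : Finset ℂ} {q : ℂ} {r R : ℝ} (hW : ∀ x ∈ W, x ∈ β)
    (h : Ar S W q r R) : CArm S β q r R := by
  obtain ⟨a, b, h1, h2, h3⟩ := h
  refine ⟨a, b, hW a h1.1, hW b h1.snd, h2, h3, ?_⟩
  exact h1.ind (P := fun x => ConnIn S β a x) Relation.ReflTransGen.refl
    fun c e g1 g2 g3 g4 => g4.tail ⟨g3, hW c g1, hW e g2⟩

theorem noAr_of {T : Finset ℂ} (h : ¬ BadT S V p ρ η m D' T) :
    NoAr S ({x | x ∈ V} ∩ (T : Set ℂ)) p ρ η m D' ∧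
      NoAr S ({x | x ∈ V} \ (T : Set ℂ)) p ρ η m D' := by
  have c1 : ∀ x ∈ ({x | x ∈ V} ∩ (T : Set ℂ) : Set ℂ), x ∈ T := fun x hx => hx.2
  have c2 : ∀ x ∈ ({x | x ∈ V} \ (T : Set ℂ) : Set ℂ), x ∈ V \ T := fun x hx =>
    Finset.mem_sdiff.2 ⟨hx.1, hx.2⟩
  unfold BadT at h
  push Not at h
  exact ⟨fun b => ⟨fun h' => (h b).1.1 (carm_of c1 h'), fun h' => (h b).2.1 (carm_of c1 h')⟩,
    fun b => ⟨fun h' => (h b).1.2 (carm_of c2 h'), fun h' => (h b).2.2 (carm_of c2 h')⟩⟩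

theorem pr_bad {q1 q2 : ZMod 3 → ℝ} (h1 : ∀ b, pr V (fun β => CArm S β (p b) ρ η) ≤ q1 b)
    (h2 : ∀ b, pr V (fun β => CArm S β (p b) (η + m) D') ≤ q2 b) :
    pr V (BadT S V p ρ η m D') ≤ ∑ b, 2 * (q1 b + q2 b) := by
  have k : ∀ {r R : ℝ} {q : ℂ} {c : ℝ}, pr V (fun β => CArm S β q r R) ≤ c →
      pr V (fun β => CArm S β q r R ∨ CArm S (V \ β) q r R) ≤ c + c := fun {r R q c} h =>
    Harx315.pr_or_le.trans (add_le_add h (by
      rw [Harx315.pr_flip V fun β => CArm S β q r R]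
      exact h))
  have e : BadT S V p ρ η m D' = fun T => ∃ b ∈ (Finset.univ : Finset (ZMod 3)),
      (CArm S T (p b) ρ η ∨ CArm S (V \ T) (p b) ρ η) ∨
        (CArm S T (p b) (η + m) D' ∨ CArm S (V \ T) (p b) (η + m) D') := by
    funext T
    unfold BadT
    simp
  rw [e]
  refine (Harx315.pr_exists_le _ _).trans (Finset.sum_le_sum fun b _ => ?_)
  refine Harx315.pr_or_le.trans ?_
  have := k (h1 b)
  have := k (h2 b)
  linarith

/-- no degenerate hit -/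
theorem hdeg {i : ZMod 3} (hCT : ∀ t, ¬ CtrT S A t) {T : Set ℂ} {t : ℂ × ℂ × ℂ}
    (h : HitO S A i T t) : t.2.1 ∈ ff S A ∨ t.2.2 ∈ ff S A := by
  by_contra hc
  rw [not_or] at hc
  obtain ⟨y, b, w⟩ := t
  obtain ⟨ht, hy, hb, hw⟩ := h
  dsimp only at ht hy hb hw hc
  have h1 : b ∈ A (i + 1) := by
    obtain ⟨x, _, h⟩ := hb
    rcases h.snd with h | h
    · exact absurd (mem_ff.2 h.1) hc.1
    · exact h
  have h2 : w ∈ A (i + 2) := by
    obtain ⟨x, _, h⟩ := hw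
    rcases h.snd with h | h
    · exact absurd (mem_ff.2 h.1) hc.2
    · exact h
  refine hCT (y, b, w) ⟨ht, fun l => ?_⟩
  have hl : ∀ i l : ZMod 3, l = i ∨ l = i + 1 ∨ l = i + 2 := by decide
  rcases hl i l with rfl | rfl | rfl
  · exact ⟨y, Or.inl rfl, hy⟩
  · exact ⟨b, Or.inr (Or.inl rfl), h1⟩
  · exact ⟨w, Or.inr (Or.inr rfl), h2⟩

theorem TV_sub {z : ℂ → ℂ} {k : ℝ} {P : Finset ℂ → Prop} (hk : 0 ≤ k)
    (hA : ∀ l, ∀ v ∈ A l, ‖z v‖ ≤ k) (hB : ∀ l, ∀ v ∈ B l, ‖z v‖ ≤ k)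
    (h : ∀ T ⊆ V, ¬ P T → ∀ i t, HitV S V A i (T : Set ℂ) t ↔ HitV S V B i (T : Set ℂ) t) :
    ‖TV S V A z - TV S V B z‖ ≤ 18 * k * pr V P := by
  have h1 : ∀ i : ZMod 3, ‖exC V (fun T => zV S V A i (T : Set ℂ) z) -
      exC V (fun T => zV S V B i (T : Set ℂ) z)‖ ≤ 2 * k * pr V P := by
    intro i
    rw [← exC_sub]
    refine (norm_exC_le _ _).trans ?_
    have hp : (0 : ℝ) < 2 ^ V.card := by positivity
    rw [div_le_iff₀ hp]
    have h2 : ∀ T ∈ V.powerset, ‖zV S V A i (T : Set ℂ) z - zV S V B i (T : Set ℂ) z‖ ≤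
        if P T then 2 * k else 0 := by
      intro T hT
      by_cases hPT : P T
      · rw [if_pos hPT]
        refine (norm_sub_le _ _).trans ?_
        have := norm_zV (S := S) (V := V) (B := A) (i := i) (T := (T : Set ℂ)) hk (hA i)
        have := norm_zV (S := S) (V := V) (B := B) (i := i) (T := (T : Set ℂ)) hk (hB i)
        linarith
      · rw [if_neg hPT]
        have e : hitsV S V A i (T : Set ℂ) = hitsV S V B i (T : Set ℂ) := by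
          ext t
          rw [mem_hitsV, mem_hitsV]
          exact h T (Finset.mem_powerset.1 hT) hPT i t
        unfold zV
        rw [e, sub_self, norm_zero]
    refine (Finset.sum_le_sum h2).trans (le_of_eq ?_)
    rw [← Finset.sum_filter, Finset.sum_const, nsmul_eq_mul]
    have e : (V.powerset.filter P).card = Harx315.nb V P := rfl
    rw [e]
    unfold pr
    field_simp
  unfold TV
  rw [← mul_sub, ← Finset.sum_sub_distrib, norm_mul, Complex.norm_ofNat]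
  have h3 := norm_sum_le (Finset.univ : Finset (ZMod 3)) fun i =>
    omz i * exC V (fun T => zV S V A i (T : Set ℂ) z) -
      omz i * exC V (fun T => zV S V B i (T : Set ℂ) z)
  have h4 : ∑ i : ZMod 3, ‖omz i * exC V (fun T => zV S V A i (T : Set ℂ) z) -
      omz i * exC V (fun T => zV S V B i (T : Set ℂ) z)‖ ≤ ∑ _i : ZMod 3, 2 * k * pr V P := by
    refine Finset.sum_le_sum fun i _ => ?_
    rw [← mul_sub, norm_mul, norm_omz, one_mul]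
    exact h1 i
  rw [Finset.sum_const, Finset.card_univ, ZMod.card, nsmul_eq_mul] at h4
  push_cast at h4
  linarith

/-- **STAB'** -/
theorem stab (hS : GP (S : Set ℂ)) (hX : Hex S A) (hCT : ∀ t, ¬ CtrT S A t)
    (hM : Mk S (ff S A) A B p e Nb ρ) (hBV : ∀ l, ∀ x ∈ B l, x ∉ ff S A)
    (hm : ∀ v ∈ ff S A, ∀ x, Adj S v x → ‖v - x‖ ≤ m)
    (hρ : 0 ≤ ρ) (hρη : ρ ≤ η) (hηD : η ≤ D') (hD : D' + 2 * ρ ≤ D)
    (hNC : ∀ b, ∀ X : Set ℂ, (∀ x ∈ X, ‖x - p b‖ ≤ D) → ¬ CtrX S A X)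
    {z : ℂ → ℂ} {k : ℝ} (hk : 0 ≤ k)
    (hA : ∀ l, ∀ v ∈ A l, ‖z v‖ ≤ k) (hB : ∀ l, ∀ v ∈ B l, ‖z v‖ ≤ k) :
    ‖TS S A z - TV S (ff S A) B z‖ ≤ 18 * k * pr (ff S A) (BadT S (ff S A) p ρ η m D') := by
  rw [TS_eq_TV hX (fun i T _ t h => hdeg hCT h) z]
  refine TV_sub hk hA hB fun T _ hT i t => ?_
  obtain ⟨n1, n2⟩ := noAr_of hT
  have hAV : ∀ l, ∀ x ∈ A l, x ∉ ff S A := fun l x hx h => (mem_ff.1 h).2 l hx
  exact hit_iff hS hM hAV hBV hm hρ hρη hηD hD hNC n1 n2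

/-- **STAB'** with the arm bounds -/
theorem stab_le (hS : GP (S : Set ℂ)) (hX : Hex S A) (hCT : ∀ t, ¬ CtrT S A t)
    (hM : Mk S (ff S A) A B p e Nb ρ) (hBV : ∀ l, ∀ x ∈ B l, x ∉ ff S A)
    (hm : ∀ v ∈ ff S A, ∀ x, Adj S v x → ‖v - x‖ ≤ m)
    (hρ : 0 ≤ ρ) (hρη : ρ ≤ η) (hηD : η ≤ D') (hD : D' + 2 * ρ ≤ D)
    (hNC : ∀ b, ∀ X : Set ℂ, (∀ x ∈ X, ‖x - p b‖ ≤ D) → ¬ CtrX S A X)
    {z : ℂ → ℂ} {k q1 q2 : ℝ} (hk : 0 ≤ k)
    (hA : ∀ l, ∀ v ∈ A l, ‖z v‖ ≤ k) (hB : ∀ l, ∀ v ∈ B l, ‖z v‖ ≤ k)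
    (h1 : ∀ b, pr (ff S A) (fun β => CArm S β (p b) ρ η) ≤ q1)
    (h2 : ∀ b, pr (ff S A) (fun β => CArm S β (p b) (η + m) D') ≤ q2) :
    ‖TS S A z - TV S (ff S A) B z‖ ≤ 108 * k * (q1 + q2) := by
  refine (stab hS hX hCT hM hBV hm hρ hρη hηD hD hNC hk hA hB).trans ?_
  have h3 := pr_bad (S := S) (V := ff S A) (p := p) (ρ := ρ) (η := η) (m := m) (D' := D')
    (q1 := fun _ => q1) (q2 := fun _ => q2) h1 h2
  rw [Finset.sum_const, Finset.card_univ, ZMod.card, nsmul_eq_mul] at h3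
  push_cast at h3
  have h4 := mul_le_mul_of_nonneg_left h3 (show 0 ≤ 18 * k by linarith)
  linarith

end

end Crest.Agent.R143.Stbx660
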