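import Crest.Agent.R143.DefsN_346
import Crest.Agent.R143.B1h_991

/-!
# Row 143 (S0194), block S4f: root block sums and the amplitudes `Q` (helper336)

For every network `HNet S N` (source darts `inr k` of the closed map `cm h` of `Frame5_395`):
* `EV_Q` : `EV (cm h) (fld f) (inr 0) = (1 / 3) * ∑ t ∈ delT S, f (t.1, t.2.1) * N.Q t` for every
  field of spin `om ^ 2`
* `Q_rot` : `N.Q (rt t) = om * N.Q t`
* `sum_R`, `sum_P` : the sums of the discrete Stokes identities with the test function evaluated at the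
  centre of the triangle are the root block sums of `Rv`, `Pv`
-/

set_option autoImplicit false

noncomputable section

open scoped Classical

namespace Crest.Agent.R143.StkDx336

open Crest.Agent.R143.B0x346 Crest.Agent.R143.DelGx806 Crest.Agent.R143.DelRx806
  Crest.Agent.R143.JColx54 Crest.Agent.R143.JCardx872 Crest.Agent.R143.Planarx54
  Crest.Agent.R143.Sidesx697
open Crest.Agent.R143.Frame1x395 Crest.Agent.R143.Frame2x395 Crest.Agent.R143.Frame3x395
  Crest.Agent.R143.Frame4x395 Crest.Agent.R143.Frame5x395 Crest.Agent.R143.Frame6x395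
  Crest.Agent.R143.Frame7x395 Crest.Agent.R143.Frame8x395 Crest.Agent.R143.DefsNx346
open Crest.Agent.R143.B1x991 (rt rt_mem sum_rt)

section abs

variable {D C : Type} [Fintype D] {M : CMap D C}

theorem nP_le (g h : D) : nP M g h ≤ nG M g := by
  unfold nP nG
  refine Finset.card_le_card fun x hx => ?_
  rw [Finset.mem_filter] at hx ⊢
  exact ⟨hx.1, hx.2.1, hx.2.2.1⟩

theorem nT_le {o g : D} (hg : g ∉ Fa M o) : nT M o g ≤ nG M o := by
  rw [← nP_eq hg]
  exact nP_le o g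

/-- no theta if a gap of the source face is impossible -/
theorem nT_zero {o g : D} (hg : g ∉ Fa M o) (h : nG M o = 0 ∨ nG M (M.rho o) = 0) :
    nT M o g = 0 := by
  rcases h with h | h
  · have := nT_le hg
    omega
  · have h1 : M.rho (M.rho g) ∉ Fa M (M.rho o) := by
      rw [fa_rot, fa_inv M o, fa_inv M o]
      exact hg
    have h2 := nT_le h1
    rw [nT_rot, h] at h2
    omega

theorem gap_cells {o : D} (h : nG M o ≠ 0) : M.cell o ≠ M.cell (M.rho (M.rho o)) ∧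
    M.cell (M.rho o) ≠ M.cell (M.rho (M.rho o)) := by
  unfold nG at h
  obtain ⟨x, hx⟩ := Finset.card_pos.1 (Nat.pos_of_ne_zero h)
  obtain ⟨-, h1, h2⟩ := Finset.mem_filter.1 hx
  obtain ⟨χ, rfl⟩ := exists_cfg h1
  have e0 : χ (M.cell o) + χ (M.cell (M.rho o)) = 0 := h2.1
  have e1 : χ (M.cell (M.rho o)) + χ (M.cell (M.rho (M.rho o))) = 1 := h2.2
  constructor
  · intro h3
    rw [← h3, add_comm, e0] at e1
    exact absurd e1 (by decide)
  · intro h3
    rw [← h3, z_self] at e1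
    exact absurd e1 (by decide)

/-- each gap of a face has probability one quarter if two of them are possible -/
theorem nG_four {o : D} (h0 : nG M o ≠ 0) (h1 : nG M (M.rho o) ≠ 0) :
    4 * nG M o = nE M ∧ 4 * nZ M o = nE M := by
  obtain ⟨c0, c1⟩ := gap_cells h0
  obtain ⟨c2, c3⟩ := gap_cells h1
  rw [M.rho3] at c2 c3
  have k1 := c2.symm
  have a0 : 4 * nG M o = nE M := nG_eq c2.symm.symm.symm c1 c0.symm
  have a1 : 4 * nG M (M.rho o) = nE M := nG_eq c1 (by rw [M.rho3]; exact c0.symm)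
    (by rw [M.rho3]; exact k1)
  have a2 : 4 * nG M (M.rho (M.rho o)) = nE M := nG_eq (by rw [M.rho3]; exact c0.symm)
    (by rw [M.rho3]; exact k1) (by rw [M.rho3]; exact c1)
  have := nE_eq (M := M) o
  exact ⟨a0, by omega⟩

end abs

/-! ### amplitudes -/

variable {S : Finset ℂ} {N : Net ℂ} {t : ℂ × ℂ × ℂ}

/-- number of thetas from the source to the first side of `t` -/
def FT (h : HNet S N) (t : ℂ × ℂ × ℂ) : ℕ :=
  if ht : t ∈ delT S then nT (cm h) (Sum.inr 0) (sdt h ht 0) else 0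

theorem FT_eq (h : HNet S N) (ht : t ∈ delT S) :
    FT h t = nT (cm h) (Sum.inr 0) (sdt h ht 0) := dif_pos ht

theorem FT_rt (h : HNet S N) (ht : t ∈ delT S) :
    FT h (rt t) = nT (cm h) (Sum.inr 0) ((cm h).rho (sdt h ht 0)) := by
  rw [FT_eq h (rt_mem h.gp ht), rho_sdt]
  rfl

theorem FT_rt2 (h : HNet S N) (ht : t ∈ delT S) :
    FT h (rt (rt t)) = nT (cm h) (Sum.inr 0) ((cm h).rho ((cm h).rho (sdt h ht 0))) := by
  rw [FT_eq h (rt_mem h.gp (rt_mem h.gp ht)), rho_sdt, rho_sdt]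
  rfl

theorem sdt_fa (h : HNet S N) (ht : t ∈ delT S) (i : ZMod 3) :
    sdt h ht i ∉ Fa (cm h) (Sum.inr 0) := by
  rintro (hd | hd | hd)
  · exact absurd hd (by simp [sdt])
  · exact absurd (show (Sum.inl _ : Dt S) = Sum.inr (0 - 1) from hd) (by simp)
  · exact absurd (show (Sum.inl _ : Dt S) = Sum.inr (0 - 1 - 1) from hd) (by simp)

theorem tj_le (h : HNet S N) (ht : t ∈ delT S) :
    (N.tj t).card ≤ nZ (cm h) (Sum.inr 0) := by
  have hinj : Set.InjOn (toY S) (N.tj t : Set (Finset (ℂ × ℂ))) := by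
    intro J hJ J' hJ' e
    have h1 := mem_joins.1 (Finset.mem_coe.1 hJ)
    have h2 := mem_joins.1 (Finset.mem_coe.1 hJ')
    rw [← ofY_toY h h1, ← ofY_toY h h2, e]
  rw [← Finset.card_image_of_injOn hinj]
  refine coset_le (O := Bt h ht) _ ?_ ?_
  · intro x hx
    obtain ⟨J, hJ, rfl⟩ := Finset.mem_image.1 hx
    exact toY_isC h ht (mem_joins.1 hJ)
  · intro x hx y hy
    obtain ⟨J, -, rfl⟩ := Finset.mem_image.1 hx
    obtain ⟨J', -, rfl⟩ := Finset.mem_image.1 hy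
    exact ⟨rfl, rfl, rfl⟩

/-- the amplitudes and the thetas -/
theorem Q_card (h : HNet S N) : ∃ A : ℂ, A ≠ 0 ∧ (∀ t ∈ delT S, N.Q t * A =
    (FT h t : ℂ) + om ^ 2 * FT h (rt t) + (om ^ 2) ^ 2 * FT h (rt (rt t))) ∧
    ((nG (cm h) (Sum.inr 0) : ℂ) = A ∨ ∀ t ∈ delT S, FT h t = 0) := by
  have hempty : ∀ t, (ht : t ∈ delT S) → N.tj t = ∅ → N.Q t = 0 ∧
      ∀ k : ZMod 3, nT (cm h) (Sum.inr 0) (sdt h ht (-k)) = 0 := by
    intro t ht he
    constructor
    · unfold Net.Q Net.triA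
      rw [he]
      simp
    · intro k
      rw [← card_tri h ht k, he]
      simp
  have hF : ∀ t, (ht : t ∈ delT S) →
      ((FT h t : ℂ) + om ^ 2 * FT h (rt t) + (om ^ 2) ^ 2 * FT h (rt (rt t))) =
      (nT (cm h) (Sum.inr 0) (sdt h ht 0) : ℂ) +
      om ^ 2 * nT (cm h) (Sum.inr 0) ((cm h).rho (sdt h ht 0)) +
      (om ^ 2) ^ 2 * nT (cm h) (Sum.inr 0) ((cm h).rho ((cm h).rho (sdt h ht 0))) := by
    intro t ht
    rw [FT_eq h ht, FT_rt h ht, FT_rt2 h ht]
  by_cases hz : nG (cm h) (Sum.inr 0) = 0 ∨ nG (cm h) ((cm h).rho (Sum.inr 0)) = 0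
  · -- degenerate case: no thetas
    have h0 : ∀ t ∈ delT S, FT h t = 0 := by
      intro t ht
      rw [FT_eq h ht]
      exact nT_zero (sdt_fa h ht 0) hz
    refine ⟨1, one_ne_zero, ?_, Or.inr h0⟩
    intro t ht
    rw [h0 t ht, h0 _ (rt_mem h.gp ht), h0 _ (rt_mem h.gp (rt_mem h.gp ht))]
    rcases (N.tj t).eq_empty_or_nonempty with he | hne
    · rw [(hempty t ht he).1]
      simp
    · have h1 := Q_eq h ht hne
      rw [← hF t ht, h0 t ht, h0 _ (rt_mem h.gp ht), h0 _ (rt_mem h.gp (rt_mem h.gp ht))] at h1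
      have h2 : ((N.tj t).card : ℂ) ≠ 0 := by
        exact_mod_cast (Finset.card_pos.2 hne).ne'
      have h3 : N.Q t * ((N.tj t).card : ℂ) = 0 := by
        rw [h1]
        simp
      rcases mul_eq_zero.1 h3 with h4 | h4
      · rw [h4]
        simp
      · exact absurd h4 h2
  · push Not at hz
    obtain ⟨e1, e2⟩ := nG_four hz.1 hz.2
    refine ⟨(nG (cm h) (Sum.inr 0) : ℂ), by exact_mod_cast hz.1, ?_, Or.inl rfl⟩
    intro t ht
    rw [hF t ht]
    rcases (N.tj t).eq_empty_or_nonempty with he | hne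
    · obtain ⟨hQ, hk⟩ := hempty t ht he
      have k0 := hk 0
      have k1 := hk 1
      have k2 := hk 2
      rw [show -(0 : ZMod 3) = 0 by decide] at k0
      rw [show -(1 : ZMod 3) = 0 + 1 + 1 by decide, ← rho_sdt, ← rho_sdt] at k1
      rw [show -(2 : ZMod 3) = 0 + 1 by decide, ← rho_sdt] at k2
      rw [hQ, k0, k1, k2]
      simp
    · rw [← Q_eq h ht hne]
      have h1 := card_tj h ht hne
      have h2 := tj_le h ht
      have h3 : (N.tj t).card = nG (cm h) (Sum.inr 0) := by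
        have h4 : (nE (cm h) : ℝ) = 4 * nG (cm h) (Sum.inr 0) := by exact_mod_cast e1.symm
        have h5 : (nG (cm h) (Sum.inr 0) : ℝ) ≤ (N.tj t).card := by
          rw [h4] at h1
          linarith
        have h6 : nG (cm h) (Sum.inr 0) ≤ (N.tj t).card := by exact_mod_cast h5
        omega
      rw [h3]

/-- **the amplitude rotates** -/
theorem Q_rot (h : HNet S N) (ht : t ∈ delT S) : N.Q (rt t) = om * N.Q t := by
  obtain ⟨A, hA, h1, -⟩ := Q_card h
  have e1 := h1 t ht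
  have e2 := h1 _ (rt_mem h.gp ht)
  rw [B1x991.rt3] at e2
  refine mul_right_cancel₀ hA ?_
  rw [e2, mul_assoc, e1]
  linear_combination (-(FT h (rt t) : ℂ) - (om ^ 2 * FT h (rt (rt t))) + om * FT h t) * om3

/-- the sum of the root blocks in terms of thetas -/
theorem rs_sum (h : HNet S N) (f : ℂ × ℂ → ℂ) :
    rs (cm h) (fld f) (Sum.inr 0) = ∑ t ∈ delT S, f (t.1, t.2.1) * (FT h t : ℂ) := by
  rw [rs_pairT (fld_src h f 0), Fintype.sum_sum_type]
  have e2 : ∑ k : ZMod 3, fld (S := S) f (Sum.inr k) * (nT (cm h) (Sum.inr 0) (Sum.inr k) : ℂ) =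
      0 := Finset.sum_eq_zero fun k _ => by
    show (0 : ℂ) * _ = 0
    rw [zero_mul]
  rw [e2, add_zero]
  symm
  refine Finset.sum_bij (fun t ht => (⟨(t.1, t.2.1), mem_sd.2 ⟨t.2.2, ht⟩⟩ :
    {e : ℂ × ℂ // e ∈ sd S})) (fun t ht => Finset.mem_univ _) ?_ ?_ ?_
  · intro t ht t' ht' e
    have e1 : ((t.1, t.2.1) : ℂ × ℂ) = (t'.1, t'.2.1) := congrArg Subtype.val e
    have e3 := th_eq h (a := t.1) (b := t.2.1) (c := t.2.2) ht
    have e4 := th_eq h (a := t'.1) (b := t'.2.1) (c := t'.2.2) ht'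
    rw [e1, e4] at e3
    obtain ⟨e5, e6⟩ := Prod.mk.injEq .. ▸ e1
    exact Prod.ext e5 (Prod.ext e6 e3.symm)
  · intro e _
    exact ⟨(e.1.1, e.1.2, th S e.1), th_spec e.2, rfl⟩
  · intro t ht
    rw [FT_eq h ht]
    rfl

/-- **root block sums in terms of the amplitudes** -/
theorem EV_Q (h : HNet S N) {f : ℂ × ℂ → ℂ}
    (hf : ∀ a b c, (a, b, c) ∈ delT S → f (b, c) = om ^ 2 * f (a, b)) :
    EV (cm h) (fld f) (Sum.inr 0) = (1 / 3) * ∑ t ∈ delT S, f (t.1, t.2.1) * N.Q t := by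
  obtain ⟨A, hA, h1, h2⟩ := Q_card h
  unfold EV
  rw [rs_sum]
  set W : ℂ × ℂ × ℂ → ℂ := fun t => f (t.1, t.2.1) with hW
  have w1 : ∀ t ∈ delT S, W (rt t) = om ^ 2 * W t := fun t ht => hf t.1 t.2.1 t.2.2 ht
  have s1 : ∑ t ∈ delT S, W t * (FT h t : ℂ) = ∑ t ∈ delT S, W (rt t) * (FT h (rt t) : ℂ) :=
    (sum_rt h.gp fun t => W t * (FT h t : ℂ)).symm
  have s2 : ∑ t ∈ delT S, W (rt t) * (FT h (rt t) : ℂ) =
      ∑ t ∈ delT S, W (rt (rt t)) * (FT h (rt (rt t)) : ℂ) :=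
    (sum_rt h.gp fun t => W (rt t) * (FT h (rt t) : ℂ)).symm
  have k1 : ∑ t ∈ delT S, W t * (FT h (rt t) : ℂ) = om * ∑ t ∈ delT S, W t * (FT h t : ℂ) := by
    rw [s1, Finset.mul_sum]
    refine Finset.sum_congr rfl fun t ht => ?_
    rw [w1 t ht]
    linear_combination (-(W t) * (FT h (rt t) : ℂ)) * om3
  have k2 : ∑ t ∈ delT S, W t * (FT h (rt (rt t)) : ℂ) =
      om ^ 2 * ∑ t ∈ delT S, W t * (FT h t : ℂ) := by
    rw [s1, s2, Finset.mul_sum]
    refine Finset.sum_congr rfl fun t ht => ?_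
    rw [w1 _ (rt_mem h.gp ht), w1 t ht]
    linear_combination (-(W t) * (FT h (rt (rt t)) : ℂ)) * (om ^ 3 + 1) * om3
  have key : (∑ t ∈ delT S, W t * N.Q t) * A = 3 * ∑ t ∈ delT S, W t * (FT h t : ℂ) := by
    rw [Finset.sum_mul]
    calc ∑ t ∈ delT S, W t * N.Q t * A = ∑ t ∈ delT S, (W t * (FT h t : ℂ) +
          om ^ 2 * (W t * (FT h (rt t) : ℂ)) + (om ^ 2) ^ 2 * (W t * (FT h (rt (rt t)) : ℂ))) := by
          refine Finset.sum_congr rfl fun t ht => ?_
          rw [mul_assoc, h1 t ht]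
          ring
      _ = _ := by
          rw [Finset.sum_add_distrib, Finset.sum_add_distrib, ← Finset.mul_sum, ← Finset.mul_sum,
            k1, k2]
          linear_combination ((∑ t ∈ delT S, W t * (FT h t : ℂ)) * (om ^ 3 + 2)) * om3
  rcases h2 with h2 | h2
  · rw [h2, div_eq_iff hA, mul_assoc, key]
    ring
  · have z1 : ∑ t ∈ delT S, W t * (FT h t : ℂ) = 0 := Finset.sum_eq_zero fun t ht => by
      rw [h2 t ht]; simp
    rw [z1, mul_zero] at key
    rw [show (∑ t ∈ delT S, f (t.1, t.2.1) * (FT h t : ℂ)) = 0 from z1, zero_div,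
      (mul_eq_zero.1 key).resolve_right hA, mul_zero]

theorem EV_conj {D C : Type} [Fintype D] {M : CMap D C} (a : D → ℂ) (o : D) :
    EV M (fun d => (starRingEnd ℂ) (a d)) o = (starRingEnd ℂ) (EV M a o) := by
  unfold EV rs bs
  rw [map_div₀, map_sum, Complex.conj_natCast]
  congr 1
  refine Finset.sum_congr rfl fun x _ => ?_
  rw [map_sum]

theorem cE_eq (h : HNet S N) (ht : t ∈ delT S) :
    cE S (t.1, t.2.1) = (t.1 + t.2.1 + t.2.2) / 3 := by
  unfold cE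
  rw [th_eq h (c := t.2.2) ht]

theorem cE_rt (h : HNet S N) (ht : t ∈ delT S) :
    cE S ((rt t).1, (rt t).2.1) = cE S (t.1, t.2.1) := by
  rw [cE_eq h ht, cE_eq h (rt_mem h.gp ht)]
  simp only [rt]
  ring

/-- the three rotations of a summand -/
theorem sum_three (hS : B0x346.GP (S : Set ℂ)) (g : ℂ × ℂ × ℂ → ℂ) :
    3 * ∑ t ∈ delT S, g t = ∑ t ∈ delT S, (g t + g (rt t) + g (rt (rt t))) := by
  rw [Finset.sum_add_distrib, Finset.sum_add_distrib, sum_rt hS (fun t => g (rt t)), sum_rt hS g]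
  ring

theorem sum_R (h : HNet S N) (φ : ℂ → ℂ) :
    ∑ t ∈ delT S, N.Q t * ((t.2.1 - t.1) * φ (cE S (t.1, t.2.1))) =
      (om - om ^ 2) * EV (cm h) (Rv φ) (Sum.inr 0) := by
  have hspin : ∀ a b c, (a, b, c) ∈ delT S →
      (fun e : ℂ × ℂ => φ (cE S e) * RE S e) (b, c) =
        om ^ 2 * (fun e : ℂ × ℂ => φ (cE S e) * RE S e) (a, b) := by
    intro a b c ht
    simp only
    rw [cE_rot h ht]
    unfold RE
    rw [th_eq h ht, th_eq h (rot_mem h ht)]
    linear_combination (-(φ (cE S (a, b))) * a - φ (cE S (a, b)) * om * b) * om3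
  have h1 := EV_Q h (f := fun e : ℂ × ℂ => φ (cE S e) * RE S e) hspin
  unfold Rv
  rw [h1]
  have h2 := sum_three h.gp fun t => N.Q t * ((t.2.1 - t.1) * φ (cE S (t.1, t.2.1)))
  have h3 : ∑ t ∈ delT S, N.Q t * ((t.2.1 - t.1) * φ (cE S (t.1, t.2.1))) =
      (1 / 3) * (3 * ∑ t ∈ delT S, N.Q t * ((t.2.1 - t.1) * φ (cE S (t.1, t.2.1)))) := by ring
  rw [h3, h2, Finset.mul_sum, Finset.mul_sum, Finset.mul_sum]
  refine Finset.sum_congr rfl fun t ht => ?_
  rw [Q_rot h (rt_mem h.gp ht), Q_rot h ht, cE_rt h (rt_mem h.gp ht), cE_rt h ht]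
  unfold RE
  rw [th_eq h (c := t.2.2) ht]
  simp only [rt]
  linear_combination (1 / 3 * N.Q t * φ (cE S (t.1, t.2.1)) * (t.1 - t.2.1 + om * t.2.1)) * om3

theorem sum_P (h : HNet S N) {φ : ℂ → ℂ} (hφ : ∀ z, (starRingEnd ℂ) (φ z) = φ z) :
    ∑ t ∈ delT S, N.Q t * ((starRingEnd ℂ) (t.2.1 - t.1) * φ (cE S (t.1, t.2.1))) =
      (om - om ^ 2) * (starRingEnd ℂ) (EV (cm h) (Pv φ) (Sum.inr 0)) := by
  have hoc : (starRingEnd ℂ) om = om ^ 2 := om_conj
  have hspin : ∀ a b c, (a, b, c) ∈ delT S →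
      (fun e : ℂ × ℂ => φ (cE S e) * (starRingEnd ℂ) (PE S e)) (b, c) =
        om ^ 2 * (fun e : ℂ × ℂ => φ (cE S e) * (starRingEnd ℂ) (PE S e)) (a, b) := by
    intro a b c ht
    simp only
    rw [cE_rot h ht]
    unfold PE
    rw [th_eq h ht, th_eq h (rot_mem h ht)]
    simp only [map_add, map_mul, map_pow, hoc]
    linear_combination (-(φ (cE S (a, b))) * (starRingEnd ℂ) a * (om ^ 3 + 1)) * om3
  have h1 := EV_Q h (f := fun e : ℂ × ℂ => φ (cE S e) * (starRingEnd ℂ) (PE S e)) hspin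
  have h0 : (starRingEnd ℂ) (EV (cm h) (Pv φ) (Sum.inr 0)) =
      EV (cm h) (fld fun e : ℂ × ℂ => φ (cE S e) * (starRingEnd ℂ) (PE S e)) (Sum.inr 0) := by
    rw [← EV_conj]
    congr 1
    funext d
    rcases d with e | k
    · show (starRingEnd ℂ) (φ (cE S e.1) * PE S e.1) = φ (cE S e.1) * (starRingEnd ℂ) (PE S e.1)
      rw [map_mul, hφ]
    · show (starRingEnd ℂ) 0 = 0
      simp
  rw [h0, h1]
  have h2 := sum_three h.gp fun t => N.Q t * ((starRingEnd ℂ) (t.2.1 - t.1) *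
    φ (cE S (t.1, t.2.1)))
  have h3 : ∑ t ∈ delT S, N.Q t * ((starRingEnd ℂ) (t.2.1 - t.1) * φ (cE S (t.1, t.2.1))) =
      (1 / 3) * (3 * ∑ t ∈ delT S, N.Q t * ((starRingEnd ℂ) (t.2.1 - t.1) *
        φ (cE S (t.1, t.2.1)))) := by ring
  rw [h3, h2, Finset.mul_sum, Finset.mul_sum, Finset.mul_sum]
  refine Finset.sum_congr rfl fun t ht => ?_
  rw [Q_rot h (rt_mem h.gp ht), Q_rot h ht, cE_rt h (rt_mem h.gp ht), cE_rt h ht]
  unfold PE
  rw [th_eq h (c := t.2.2) ht]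
  simp only [rt, map_sub, map_add, map_mul, map_pow, hoc]
  linear_combination (1 / 3 * N.Q t * φ (cE S (t.1, t.2.1)) * ((starRingEnd ℂ) t.2.1 * (om - 1) +
    (starRingEnd ℂ) t.1 * (om ^ 3 + 1 - om ^ 2))) * om3

end Crest.Agent.R143.StkDx336
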