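import Crest.Agent.R143.StkD_336
import Crest.Agent.R143.DicD_831

/-!
# Row 143 (S0194), block S4f: bridge between 831's sums and 346's root block sums (helper336)

* `Yb_eq` : `Yb D ε ω φ = (om - om ^ 2) * EV (cm h) (Rv φ) (inr 0)`
* `Yd_eq` : `Yd D ε ω φ = (om - om ^ 2) * conj (EV (cm h) (Pv φ) (inr 0))`
* `norm_c` : `‖om - om ^ 2‖ = √3`
-/

set_option autoImplicit false

noncomputable section

open scoped Classical

namespace Crest.Agent.R143.StkEx336

open Crest.ProbabilityR.Voronoi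
open Crest.Agent.R143.B0x346 Crest.Agent.R143.B0Dx346
open Crest.Agent.R143.Frame5x395 Crest.Agent.R143.DefsNx346 Crest.Agent.R143.StkDx336
open Crest.Agent.R143.DicDx831 (Yb Yd)
open Crest.Agent.R143.B6Ix903 (net)

theorem norm_c : ‖om - om ^ 2‖ = Real.sqrt 3 := by
  have h1 : om - om ^ 2 = ((Real.sqrt 3 : ℝ) : ℂ) * Complex.I := by
    rw [DefsNx346.om2_val, DefsNx346.om_val]
    unfold hi
    push_cast
    ring
  rw [h1, norm_mul, Complex.norm_I, mul_one, Complex.norm_real, Real.norm_eq_abs,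
    abs_of_nonneg (Real.sqrt_nonneg 3)]

theorem Yb_eq {D : Dom} {ε : ℝ} {ω : Sample} (h : HNet (D.sites ε ω) (net D ε ω)) (φ : ℂ → ℝ) :
    Yb D ε ω φ = (om - om ^ 2) * EV (cm h) (Rv fun z => (φ z : ℂ)) (Sum.inr 0) := by
  rw [← sum_R h fun z => (φ z : ℂ)]
  unfold Yb
  refine Finset.sum_congr rfl fun t ht => ?_
  rw [cE_eq h ht]
  rfl

theorem Yd_eq {D : Dom} {ε : ℝ} {ω : Sample} (h : HNet (D.sites ε ω) (net D ε ω)) (φ : ℂ → ℝ) :
    Yd D ε ω φ = (om - om ^ 2) *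
      (starRingEnd ℂ) (EV (cm h) (Pv fun z => (φ z : ℂ)) (Sum.inr 0)) := by
  rw [← sum_P h (φ := fun z => (φ z : ℂ)) fun z => Complex.conj_ofReal _]
  unfold Yd
  refine Finset.sum_congr rfl fun t ht => ?_
  rw [cE_eq h ht]
  rfl

end Crest.Agent.R143.StkEx336
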