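import Mathlib

/-!
# Row 143 (S0194): resampling outside a stopping set (helper795)

`V` = cells, `K` = colours. `S χ` = revealed cells of the colouring `χ` (stopping set: it does not
change if the colours outside are changed), `F χ` = function of the revealed cells and colours,
`E R χ` = event which depends on the colours outside `R` only, `E0 ⊆ E R` for all `R`.

* `stop` : `#E0 • ∑ F ≤ #all • ∑ F 1[E (S χ) χ]`
-/

set_option autoImplicit false

noncomputable section

open scoped Classical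

namespace Crest.Agent.R143.Stopx795

variable {V K : Type} {R : Set V} {χ ψ : V → K}

/-- `χ` on `R`, `ψ` off `R` -/
def mix (R : Set V) (χ ψ : V → K) : V → K := fun v => if v ∈ R then χ v else ψ v

theorem mix_in {v : V} (h : v ∈ R) : mix R χ ψ v = χ v := if_pos h

theorem mix_out {v : V} (h : v ∉ R) : mix R χ ψ v = ψ v := if_neg h

/-- the swap of the values outside the revealed set -/
def swp (S : (V → K) → Set V) (a : (V → K) × (V → K)) : (V → K) × (V → K) :=
  (mix (S a.1) a.1 a.2, mix (S a.1) a.2 a.1)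

theorem swp_invol {S : (V → K) → Set V}
    (hS : ∀ χ ψ, (∀ v ∈ S χ, ψ v = χ v) → S ψ = S χ) (a : (V → K) × (V → K)) :
    swp S (swp S a) = a := by
  obtain ⟨χ, ψ⟩ := a
  have e : S (mix (S χ) χ ψ) = S χ := hS _ _ fun v hv => mix_in hv
  unfold swp
  simp only [e]
  refine Prod.ext (funext fun v => ?_) (funext fun v => ?_)
  · show mix (S χ) (mix (S χ) χ ψ) (mix (S χ) ψ χ) v = χ v
    by_cases hv : v ∈ S χ
    · rw [mix_in hv, mix_in hv]
    · rw [mix_out hv, mix_out hv]
  · show mix (S χ) (mix (S χ) ψ χ) (mix (S χ) χ ψ) v = ψ v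
    by_cases hv : v ∈ S χ
    · rw [mix_in hv, mix_in hv]
    · rw [mix_out hv, mix_out hv]

/-- **resampling outside the revealed set** -/
theorem stop [Fintype V] [Fintype K] {A : Type} [AddCommMonoid A] [PartialOrder A]
    [IsOrderedAddMonoid A] {S : (V → K) → Set V}
    (hS : ∀ χ ψ, (∀ v ∈ S χ, ψ v = χ v) → S ψ = S χ)
    {F : (V → K) → A} (hF0 : ∀ χ, 0 ≤ F χ) (hF : ∀ χ ψ, (∀ v ∈ S χ, ψ v = χ v) → F ψ = F χ)
    {E0 : (V → K) → Prop} {E : Set V → (V → K) → Prop}
    (hE : ∀ R χ ψ, (∀ v, v ∉ R → ψ v = χ v) → E R χ → E R ψ)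
    (h0 : ∀ R χ, E0 χ → E R χ) :
    ((Finset.univ.filter E0).card) • ∑ χ, F χ ≤
      (Fintype.card (V → K)) • ∑ χ, (if E (S χ) χ then F χ else 0) := by
  have e1 : ((Finset.univ.filter E0).card) • ∑ χ, F χ =
      ∑ a : (V → K) × (V → K), if E0 a.2 then F a.1 else 0 := by
    rw [Fintype.sum_prod_type, Finset.smul_sum]
    refine Finset.sum_congr rfl fun χ _ => ?_
    show _ = ∑ ψ : V → K, if E0 ψ then F χ else 0
    rw [← Finset.sum_filter, Finset.sum_const]
  have e2 : (Fintype.card (V → K)) • ∑ χ, (if E (S χ) χ then F χ else 0) =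
      ∑ a : (V → K) × (V → K), if E (S a.1) a.1 then F a.1 else 0 := by
    rw [Fintype.sum_prod_type, Finset.smul_sum]
    refine Finset.sum_congr rfl fun χ _ => ?_
    show _ = ∑ _ψ : V → K, if E (S χ) χ then F χ else 0
    rw [Finset.sum_const, Finset.card_univ]
  rw [e1, e2]
  have hbij : Function.Bijective (swp S) :=
    Function.Involutive.bijective (swp_invol hS)
  rw [← hbij.sum_comp (fun a : (V → K) × (V → K) => if E (S a.1) a.1 then F a.1 else 0)]
  refine Finset.sum_le_sum fun a _ => ?_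
  obtain ⟨χ, ψ⟩ := a
  have eS : S (mix (S χ) χ ψ) = S χ := hS _ _ fun v hv => mix_in hv
  have eF : F (mix (S χ) χ ψ) = F χ := hF _ _ fun v hv => mix_in hv
  show (if E0 ψ then F χ else 0) ≤
    if E (S (mix (S χ) χ ψ)) (mix (S χ) χ ψ) then F (mix (S χ) χ ψ) else 0
  rw [eS, eF]
  by_cases h1 : E0 ψ
  · rw [if_pos h1, if_pos (hE (S χ) ψ _ (fun v hv => mix_out hv) (h0 _ _ h1))]
  · rw [if_neg h1]
    split_ifs
    · exact hF0 χ
    · exact le_rfl

end Crest.Agent.R143.Stopx795
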