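import Crest.Agent.R143.StrD_795
import Crest.Agent.R143.BK_315
import Crest.Agent.R143.CntS_197

/-!
# Row 143 (S0194), block H, inputs [B] and [N] (helper795): counting the deep chords

* `CountLe C` : statement of the counting lemma; `countLe` (helper197, `CntS_197`)
* `ArmC M Nr Fr K` : the finset of cells `K` contains a chain from `Nr` to `Fr`
* `pairs_count` : pairs (forward strand `p`, backward strand `q`, `q` close to `p`)
* `fwd_count` : forward strands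
* `close_chords` : **[B]** over the colourings (abstract arms)
-/

set_option autoImplicit false

noncomputable section

open scoped Classical

namespace Crest.Agent.R143.StrCx795

open Crest.Agent.R143.Harx315 Crest.Agent.R143.BKx315
open Crest.Agent.R143.Frame1x395 Crest.Agent.R143.Frame2x395 Crest.Agent.R143.Frame3x395
  Crest.Agent.R143.Frame4x395 Crest.Agent.R143.Frame8x395 Crest.Agent.R143.Frame9x395
  Crest.Agent.R143.Frame11x395
  Crest.Agent.R143.NonXx592 Crest.Agent.R143.Coarsex166 Crest.Agent.R143.Coarse2x166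
  Crest.Agent.R143.CFramex358 Crest.Agent.R143.Runx535 Crest.Agent.R143.Gntx535
  Crest.Agent.R143.Chordx795 Crest.Agent.R143.StrFx795 Crest.Agent.R143.StrDx795

variable {D C : Type} {M : CMap D C} {A : C} {Dp : Finset C} {p q : D}

/-- the counting lemma: disjoint fresh arms after a stopping rule -/
def CountLe (C : Type) [Fintype C] : Prop :=
  ∀ (R : (C → ZMod 2) → Finset C), Stp R → ∀ W : (C → ZMod 2) → ℝ, (∀ χ, 0 ≤ W χ) →
    (∀ χ, ∀ χ' ∈ Prs (R χ) χ, W χ' = W χ) →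
    ∀ Arm : Finset C → Prop, Up Finset.univ Arm → ∀ θ : ℝ, 0 ≤ θ → θ < 1 →
    (∀ χ, W χ ≠ 0 → pr (Finset.univ \ R χ) Arm ≤ θ) →
    ∀ n : (C → ZMod 2) → ℕ,
    (∀ χ, W χ ≠ 0 → DisK (n χ) Arm ((Finset.univ \ R χ).filter fun c => χ c = 0)) →
    ∑ χ, W χ * n χ ≤ θ / (1 - θ) * ∑ χ, W χ

/-- the counting lemma (helper197, `CntS_197`) -/
theorem countLe [Fintype C] : CountLe C := fun _ hR _ hW hWR _ hA _ h0 h1 hth n hn =>
  Crest.Agent.R143.CntSx197.count_le' hR hW hWR hA h0 h1 hth n hn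

/-- `K` contains a chain of cells from `Nr` to `Fr` -/
def ArmC (M : CMap D C) (Nr Fr : Set C) (K : Finset C) : Prop :=
  ∃ c ∈ K, ∃ c' ∈ K, c ∈ Nr ∧ c' ∈ Fr ∧ Relation.EqvGen (AdjS M K) c c'

theorem armC_up [Fintype C] (Nr Fr : Set C) : Up Finset.univ (ArmC M Nr Fr) := by
  rintro K K' h - ⟨c, hc, c', hc', h1, h2, h3⟩
  exact ⟨c, h hc, c', h hc', h1, h2, con_mono h h3⟩

/-- cells of the deep faces -/
def FrD (M : CMap D C) (Dp : Finset C) : Set C := {c | ∃ d ∈ Fd M Dp, c = M.cell d}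

/-- cells next to `A` at the end darts `Q` -/
def NrD (M : CMap D C) (Q : Finset D) : Set C := {c | ∃ q ∈ Q, c = M.cell (M.rho (M.rho q))}

/-- a finite set of disjoint arms -/
theorem disK_of {J : Type} {s : Finset J} {w : J → Finset C} {Arm : Finset C → Prop}
    {β : Finset C} (h1 : ∀ i ∈ s, w i ⊆ β) (h2 : ∀ i ∈ s, ∀ j ∈ s, i ≠ j → Disjoint (w i) (w j))
    (h3 : ∀ i ∈ s, Arm (w i)) : DisK s.card Arm β := by
  refine ⟨fun i => w (s.equivFin.symm i).1, fun i => h1 _ (s.equivFin.symm i).2,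
    fun i j hij => h2 _ (s.equivFin.symm i).2 _ (s.equivFin.symm j).2 ?_,
    fun i => h3 _ (s.equivFin.symm i).2⟩
  intro e
  exact hij (s.equivFin.symm.injective (Subtype.ext e))

section count

variable [Fintype D] [Fintype C]

omit [Fintype C] in
/-- the black cells of a backward strand give an arm -/
theorem bw_arm (hKA : ∀ d ∈ Kd M (Fd M Dp), M.cell d ≠ A) {Q : Finset D} (hqQ : q ∈ Q)
    (hq : M.cell (M.rho q) = A) {χ : C → ZMod 2} (H : Bw M A (Fd M Dp) q χ) :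
    ArmC M (NrD M Q) (FrD M Dp) ((LB M A (Fd M Dp) q χ).erase A) := by
  obtain ⟨h1, ⟨d, hd, h2⟩, -, h4⟩ := bwd_chain hKA hq H
  exact ⟨_, h1, _, h2, ⟨q, hqQ, rfl⟩, ⟨M.rho d, (fd_inv d).2 hd, rfl⟩, h4 _ h1 _ h2⟩

omit [Fintype C] in
/-- the black cells of a forward strand give an arm -/
theorem fw_arm (hKA : ∀ d ∈ Kd M (Fd M Dp), M.cell d ≠ A) {Q : Finset D} (hpQ : p ∈ Q)
    (hp : M.cell p = A) {χ : C → ZMod 2} (H : Fw M A (Fd M Dp) p χ) :
    ArmC M (NrD M Q) (FrD M Dp) ((LF M A (Fd M Dp) p χ).erase A) := by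
  obtain ⟨h1, ⟨d, hd, h2⟩, -, h4⟩ := fwd_chain hKA hp H
  exact ⟨_, h1, _, h2, ⟨p, hpQ, rfl⟩, ⟨d, hd, rfl⟩, h4 _ h1 _ h2⟩

/-- **pairs of strands** : given the forward strand, the backward strands close to it -/
theorem pairs_count
    (hD : ∀ c ∈ Dp, ∀ c' ∈ Dp, Relation.EqvGen (AdjS M Dp) c c')
    (hKA : ∀ d ∈ Kd M (Fd M Dp), M.cell d ≠ A) (hp : M.cell p = A) {Q : Finset D}
    (hQ : ∀ q ∈ Q, M.cell (M.rho q) = A) {θ : ℝ} (h0 : 0 ≤ θ) (h1 : θ < 1)
    (hθ : ∀ V : Finset C, A ∉ V → pr V (ArmC M (NrD M Q) (FrD M Dp)) ≤ θ) :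
    ∑ q ∈ Q, ((Finset.univ.filter (Wp M A (Fd M Dp) p q)).card : ℝ) ≤
      θ / (1 - θ) * ((Finset.univ.filter (Fw M A (Fd M Dp) p)).card : ℝ) := by
  set R : (C → ZMod 2) → Finset C := fun χ => {A} ∪ Rw M p (Bf M A (Fd M Dp)) χ with hR
  have hstp : Stp R := by
    have e1 : Stp (fun _ : C → ZMod 2 => ({A} : Finset C)) := fun _ _ _ => rfl
    exact Stp.union e1 (Rw_stp (Or.inl hp))
  have himp : ∀ χ χ' : C → ZMod 2, (∀ c ∈ R χ, χ' c = χ c) → Fw M A (Fd M Dp) p χ →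
      Fw M A (Fd M Dp) p χ' := by
    rintro χ χ' ha ⟨a0, a1, a2⟩
    obtain ⟨b1, b2, b3⟩ := hit_agree (B := Bf M A (Fd M Dp)) (Or.inl hp) a1 fun c hc =>
      ha c (Finset.mem_union_right _ hc)
    refine ⟨?_, b1, ?_⟩
    · rw [ha A (Finset.mem_union_left _ (Finset.mem_singleton_self A)), a0]
    · rw [b2, b3 _ le_rfl]; exact a2
  have key := countLe (C := C) R hstp (fun χ => if Fw M A (Fd M Dp) p χ then (1 : ℝ) else 0)
    (fun χ => by split_ifs <;> norm_num) ?_ (ArmC M (NrD M Q) (FrD M Dp)) (armC_up _ _) θ h0 h1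
    ?_ (fun χ => (Q.filter fun q => Wp M A (Fd M Dp) p q χ).card) ?_
  · have e1 : ∑ χ : C → ZMod 2, (if Fw M A (Fd M Dp) p χ then (1 : ℝ) else 0) =
        ((Finset.univ.filter (Fw M A (Fd M Dp) p)).card : ℝ) := by
      rw [Finset.sum_boole]
    rw [e1] at key
    refine le_trans (le_of_eq ?_) key
    calc ∑ q ∈ Q, ((Finset.univ.filter (Wp M A (Fd M Dp) p q)).card : ℝ)
        = ∑ q ∈ Q, ∑ χ : C → ZMod 2, (if Wp M A (Fd M Dp) p q χ then (1 : ℝ) else 0) := by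
          refine Finset.sum_congr rfl fun q _ => ?_
          rw [Finset.sum_boole]
      _ = ∑ χ : C → ZMod 2, ∑ q ∈ Q, (if Wp M A (Fd M Dp) p q χ then (1 : ℝ) else 0) :=
          Finset.sum_comm
      _ = _ := by
          refine Finset.sum_congr rfl fun χ _ => ?_
          rw [Finset.sum_boole]
          by_cases hF : Fw M A (Fd M Dp) p χ
          · simp only [if_pos hF, one_mul]
          · have h2 : (Q.filter fun q => Wp M A (Fd M Dp) p q χ) = ∅ := by
              rw [Finset.filter_eq_empty_iff]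
              intro q _ hW
              exact hF (Wp_iff.1 hW).1
            simp only [h2, if_neg hF, Finset.card_empty, Nat.cast_zero, mul_zero]
  · intro χ χ' hχ'
    have h2 := mem_Prs.1 hχ'
    have h3 : R χ' = R χ := hstp χ χ' h2
    have h4 : Fw M A (Fd M Dp) p χ' ↔ Fw M A (Fd M Dp) p χ := by
      constructor
      · refine himp χ' χ fun c hc => ?_
        rw [h3] at hc
        exact (h2 c hc).symm
      · exact himp χ χ' h2
    simp only [h4]
  · intro χ _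
    refine hθ _ fun hA => ?_
    rw [Finset.mem_sdiff] at hA
    exact hA.2 (Finset.mem_union_left _ (Finset.mem_singleton_self A))
  · intro χ hW
    have hF : Fw M A (Fd M Dp) p χ := by
      by_contra hn
      exact hW (if_neg hn)
    refine disK_of (w := fun q => (LB M A (Fd M Dp) q χ).erase A) ?_ ?_ ?_
    · intro q hq c hc
      obtain ⟨hqQ, hWp⟩ := Finset.mem_filter.1 hq
      obtain ⟨-, hB, hdis⟩ := Wp_iff.1 hWp
      have hcol := (bwd_chain hKA (hQ q hqQ) hB).2.2.1 c hc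
      obtain ⟨hcA, hcL⟩ := Finset.mem_erase.1 hc
      refine Finset.mem_filter.2 ⟨Finset.mem_sdiff.2 ⟨Finset.mem_univ c, fun hcR => ?_⟩, hcol⟩
      rcases Finset.mem_union.1 hcR with h5 | h5
      · exact hcA (Finset.mem_singleton.1 h5)
      · unfold Rw at h5
        rw [if_pos hF.2.1] at h5
        rcases Finset.mem_union.1 h5 with h6 | h6
        · exact hcA (hdis c h6 hcL)
        · have h7 := wr_col hF.2.1 h6
          rw [hcol, hp, hF.1] at h7
          exact absurd h7 (by decide)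
    · intro q hq q' hq' hne
      rw [Finset.disjoint_left]
      intro c hc hc'
      obtain ⟨hqQ, hWp⟩ := Finset.mem_filter.1 hq
      obtain ⟨hqQ', hWp'⟩ := Finset.mem_filter.1 hq'
      obtain ⟨hcA, hcL⟩ := Finset.mem_erase.1 hc
      exact hcA (bwd_disj hD hKA (hQ q hqQ) (hQ q' hqQ') hne.symm (Wp_iff.1 hWp).2.1
        (Wp_iff.1 hWp').2.1 hcL (Finset.mem_erase.1 hc').2)
    · intro q hq
      obtain ⟨hqQ, hWp⟩ := Finset.mem_filter.1 hq
      exact bw_arm hKA hqQ (hQ q hqQ) (Wp_iff.1 hWp).2.1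

/-- **forward strands**, `Arm i` = arms across `m` annuli -/
theorem fwd_count
    (hD : ∀ c ∈ Dp, ∀ c' ∈ Dp, Relation.EqvGen (AdjS M Dp) c c')
    (hKA : ∀ d ∈ Kd M (Fd M Dp), M.cell d ≠ A) {Ps : Finset D}
    (hP : ∀ p ∈ Ps, M.cell p = A) {I : Type} (s : Finset I) {Arm : I → Finset C → Prop}
    (hU : ∀ i ∈ s, Up Finset.univ (Arm i))
    (hcov : ∀ K : Finset C, ArmC M (NrD M Ps) (FrD M Dp) K → ∃ i ∈ s, Arm i K)
    {θ : ℝ} (h0 : 0 ≤ θ) (h1 : θ < 1)
    (hθ : ∀ i ∈ s, ∀ V : Finset C, A ∉ V → pr V (Arm i) ≤ θ) :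
    ∑ p ∈ Ps, ((Finset.univ.filter (Fw M A (Fd M Dp) p)).card : ℝ) ≤
      s.card * (θ / (1 - θ)) *
        ((Finset.univ.filter fun χ : C → ZMod 2 => χ A = 0).card : ℝ) := by
  -- the annulus of a strand
  set ic : D → (C → ZMod 2) → Option I := fun p χ =>
    if h : ∃ i ∈ s, Arm i ((LF M A (Fd M Dp) p χ).erase A) then some h.choose else none with hic
  have hic1 : ∀ p χ i, ic p χ = some i → i ∈ s ∧ Arm i ((LF M A (Fd M Dp) p χ).erase A) := by
    intro p χ i h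
    simp only [hic] at h
    split_ifs at h with h2
    rw [← Option.some.inj h]
    exact h2.choose_spec
  have hic2 : ∀ p ∈ Ps, ∀ χ, Fw M A (Fd M Dp) p χ → ∃ i ∈ s, ic p χ = some i := by
    intro p hp χ hF
    have h2 := hcov _ (fw_arm hKA hp (hP p hp) hF)
    refine ⟨h2.choose, h2.choose_spec.1, ?_⟩
    simp only [hic]
    rw [dif_pos h2]
  have hone : ∀ i ∈ s, ∑ χ : C → ZMod 2, (if χ A = 0 then (1 : ℝ) else 0) *
      ((Ps.filter fun p => Fw M A (Fd M Dp) p χ ∧ ic p χ = some i).card : ℝ) ≤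
      θ / (1 - θ) * ∑ χ : C → ZMod 2, (if χ A = 0 then (1 : ℝ) else 0) := by
    intro i hi
    refine countLe (C := C) (fun _ => {A}) (fun _ _ _ => rfl) (fun χ => if χ A = 0 then (1 : ℝ) else 0)
      (fun χ => by split_ifs <;> norm_num) ?_ (Arm i) (hU i hi) θ h0 h1 ?_
      (fun χ => (Ps.filter fun p => Fw M A (Fd M Dp) p χ ∧ ic p χ = some i).card) ?_
    · intro χ χ' hχ'
      have h2 := mem_Prs.1 hχ' A (Finset.mem_singleton_self A)
      simp only [h2]
    · intro χ _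
      refine hθ i hi _ fun hA => ?_
      rw [Finset.mem_sdiff] at hA
      exact hA.2 (Finset.mem_singleton_self A)
    · intro χ _
      refine disK_of (w := fun p => (LF M A (Fd M Dp) p χ).erase A) ?_ ?_ ?_
      · intro p hp c hc
        obtain ⟨hpP, hF, -⟩ := Finset.mem_filter.1 hp
        have hcol := (fwd_chain hKA (hP p hpP) hF).2.2.1 c hc
        refine Finset.mem_filter.2 ⟨Finset.mem_sdiff.2 ⟨Finset.mem_univ c, fun hcR => ?_⟩, hcol⟩
        exact (Finset.mem_erase.1 hc).1 (Finset.mem_singleton.1 hcR)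
      · intro p hp p' hp' hne
        rw [Finset.disjoint_left]
        intro c hc hc'
        obtain ⟨hpP, hF, -⟩ := Finset.mem_filter.1 hp
        obtain ⟨hpP', hF', -⟩ := Finset.mem_filter.1 hp'
        obtain ⟨hcA, hcL⟩ := Finset.mem_erase.1 hc
        exact hcA (fwd_disj hD hKA (hP p hpP) (hP p' hpP') hne.symm hF hF' hcL
          (Finset.mem_erase.1 hc').2)
      · intro p hp
        obtain ⟨hpP, hF, h2⟩ := Finset.mem_filter.1 hp
        exact (hic1 p χ i h2).2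
  have hpt : ∀ χ : C → ZMod 2, ((Ps.filter fun p => Fw M A (Fd M Dp) p χ).card : ℝ) =
      ∑ i ∈ s, (if χ A = 0 then (1 : ℝ) else 0) *
        ((Ps.filter fun p => Fw M A (Fd M Dp) p χ ∧ ic p χ = some i).card : ℝ) := by
    intro χ
    by_cases hA : χ A = 0
    · simp only [if_pos hA, one_mul]
      rw [← Nat.cast_sum]
      congr 1
      have e1 : (Ps.filter fun p => Fw M A (Fd M Dp) p χ) =
          s.biUnion fun i => Ps.filter fun p => Fw M A (Fd M Dp) p χ ∧ ic p χ = some i := by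
        ext p
        rw [Finset.mem_filter, Finset.mem_biUnion]
        constructor
        · rintro ⟨hp, hF⟩
          obtain ⟨i, hi, h2⟩ := hic2 p hp χ hF
          exact ⟨i, hi, Finset.mem_filter.2 ⟨hp, hF, h2⟩⟩
        · rintro ⟨i, -, h2⟩
          obtain ⟨hp, hF, -⟩ := Finset.mem_filter.1 h2
          exact ⟨hp, hF⟩
      rw [e1, Finset.card_biUnion]
      intro i _ j _ hij
      rw [Function.onFun, Finset.disjoint_left]
      intro p hp hp'
      have h2 := (Finset.mem_filter.1 hp).2.2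
      have h3 := (Finset.mem_filter.1 hp').2.2
      rw [h2] at h3
      exact hij (Option.some.inj h3)
    · have e1 : (Ps.filter fun p => Fw M A (Fd M Dp) p χ) = ∅ := by
        rw [Finset.filter_eq_empty_iff]
        intro p _ hF
        exact hA hF.1
      simp only [e1, if_neg hA, zero_mul, Finset.sum_const_zero, Finset.card_empty,
        Nat.cast_zero]
  calc ∑ p ∈ Ps, ((Finset.univ.filter (Fw M A (Fd M Dp) p)).card : ℝ)
      = ∑ p ∈ Ps, ∑ χ : C → ZMod 2, (if Fw M A (Fd M Dp) p χ then (1 : ℝ) else 0) := by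
        refine Finset.sum_congr rfl fun p _ => ?_
        rw [Finset.sum_boole]
    _ = ∑ χ : C → ZMod 2, ∑ p ∈ Ps, (if Fw M A (Fd M Dp) p χ then (1 : ℝ) else 0) :=
        Finset.sum_comm
    _ = ∑ χ : C → ZMod 2, ((Ps.filter fun p => Fw M A (Fd M Dp) p χ).card : ℝ) := by
        refine Finset.sum_congr rfl fun χ _ => ?_
        rw [Finset.sum_boole]
    _ = ∑ i ∈ s, ∑ χ : C → ZMod 2, (if χ A = 0 then (1 : ℝ) else 0) *
        ((Ps.filter fun p => Fw M A (Fd M Dp) p χ ∧ ic p χ = some i).card : ℝ) := by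
        rw [Finset.sum_comm]
        exact Finset.sum_congr rfl fun χ _ => hpt χ
    _ ≤ ∑ i ∈ s, θ / (1 - θ) * ∑ χ : C → ZMod 2, (if χ A = 0 then (1 : ℝ) else 0) :=
        Finset.sum_le_sum hone
    _ = _ := by
        rw [Finset.sum_const, nsmul_eq_mul, Finset.sum_boole]
        ring

/-- **[B]** the deep energy of the chords with close ends -/
theorem close_chords {w : ℂ} (w3 : w ^ 3 = 1) (w1 : w ≠ 1)
    (wc : (starRingEnd ℂ) w = w ^ 2) {a : D → ℂ} (hs : Spin M w a)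
    (ha : ∀ d, a d ≠ 0 → d ∈ Fd M Dp)
    (hD : ∀ c ∈ Dp, ∀ c' ∈ Dp, Relation.EqvGen (AdjS M Dp) c c')
    (hKA : ∀ d ∈ Kd M (Fd M Dp), M.cell d ≠ A) {Ps : Finset D}
    (hP : ∀ p ∈ Ps, M.cell p = A) {Q : D → Finset D}
    (hQ : ∀ p ∈ Ps, ∀ q ∈ Q p, M.cell (M.rho q) = A) {θ : ℝ} (t0 : 0 ≤ θ) (t1 : θ < 1)
    (hθ : ∀ p ∈ Ps, ∀ V : Finset C, A ∉ V → pr V (ArmC M (NrD M (Q p)) (FrD M Dp)) ≤ θ)
    {I : Type} (s : Finset I) {Arm : I → Finset C → Prop}
    (hU : ∀ i ∈ s, Up Finset.univ (Arm i))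
    (hcov : ∀ K : Finset C, ArmC M (NrD M Ps) (FrD M Dp) K → ∃ i ∈ s, Arm i K)
    {θ' : ℝ} (t0' : 0 ≤ θ') (t1' : θ' < 1)
    (hθ' : ∀ i ∈ s, ∀ V : Finset C, A ∉ V → pr V (Arm i) ≤ θ') :
    ∑ p ∈ Ps, ∑ q ∈ Q p, ∑ χ : C → ZMod 2, (if χ A = 0 ∧ Ends M A (cfg M χ) p q then
        ‖∑ g ∈ blk M (cfg M χ) (gp0 M p), a g‖ ^ 2 else 0) ≤
      (∑ g, ‖a g‖ ^ 2) * (θ / (1 - θ) * (s.card * (θ' / (1 - θ')))) *
        ((Finset.univ.filter fun χ : C → ZMod 2 => χ A = 0).card : ℝ) := by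
  have hE : 0 ≤ ∑ g, ‖a g‖ ^ 2 := Finset.sum_nonneg fun g _ => by positivity
  have hth : 0 ≤ θ / (1 - θ) := div_nonneg t0 (by linarith)
  have h1 := fwd_count hD hKA hP s hU hcov t0' t1' hθ'
  calc _ ≤ ∑ p ∈ Ps, ∑ q ∈ Q p, (∑ g, ‖a g‖ ^ 2) *
          ((Finset.univ.filter (Wp M A (Fd M Dp) p q)).card : ℝ) :=
        Finset.sum_le_sum fun p hp => Finset.sum_le_sum fun q hq =>
          pair_frame w3 w1 wc hs fd_inv hKA ha (hP p hp) (hQ p hp q hq)
    _ = (∑ g, ‖a g‖ ^ 2) * ∑ p ∈ Ps, ∑ q ∈ Q p,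
          ((Finset.univ.filter (Wp M A (Fd M Dp) p q)).card : ℝ) := by
        rw [Finset.mul_sum]
        exact Finset.sum_congr rfl fun p _ => by rw [Finset.mul_sum]
    _ ≤ (∑ g, ‖a g‖ ^ 2) * ∑ p ∈ Ps, θ / (1 - θ) *
          ((Finset.univ.filter (Fw M A (Fd M Dp) p)).card : ℝ) := by
        refine mul_le_mul_of_nonneg_left (Finset.sum_le_sum fun p hp => ?_) hE
        exact pairs_count hD hKA (hP p hp) (hQ p hp) t0 t1 (hθ p hp)
    _ = (∑ g, ‖a g‖ ^ 2) * (θ / (1 - θ) * ∑ p ∈ Ps,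
          ((Finset.univ.filter (Fw M A (Fd M Dp) p)).card : ℝ)) := by
        rw [← Finset.mul_sum]
    _ ≤ (∑ g, ‖a g‖ ^ 2) * (θ / (1 - θ) * (s.card * (θ' / (1 - θ')) *
          ((Finset.univ.filter fun χ : C → ZMod 2 => χ A = 0).card : ℝ))) := by
        gcongr
    _ = _ := by ring

end count

end Crest.Agent.R143.StrCx795
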