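import Crest.Agent.R143.StrF_795

/-!
# Row 143 (S0194): the strands between a giant and a deep set are disjoint (helper795)

`Dp` = connected set of deep cells, `Fd M Dp` = faces with a deep cell. Recolour `Dp` white: all
strands from `A` (black) to `Dp` are excursions of ONE loop (`Frame11.same_loop`), hence by
`NonX_592.noncross` different strands have disjoint left cells.

* `fwd_disj` : forward strands, `bwd_disj` : backward strands
* `bwd_con` : the black cells of a backward strand are connected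
-/

set_option autoImplicit false

noncomputable section

open scoped Classical

namespace Crest.Agent.R143.StrDx795

open Crest.Agent.R143.Frame1x395 Crest.Agent.R143.Frame2x395 Crest.Agent.R143.Frame3x395
  Crest.Agent.R143.Frame4x395 Crest.Agent.R143.Frame8x395 Crest.Agent.R143.Frame9x395
  Crest.Agent.R143.Frame11x395
  Crest.Agent.R143.NonXx592 Crest.Agent.R143.Coarsex166 Crest.Agent.R143.Coarse2x166
  Crest.Agent.R143.CFramex358 Crest.Agent.R143.Runx535 Crest.Agent.R143.Gntx535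
  Crest.Agent.R143.Chordx795 Crest.Agent.R143.StrFx795

variable {D C : Type} {M : CMap D C} {x : D → ZMod 2} {A : C} {Dp : Finset C} {p q p' q' : D}

/-- the faces with a deep cell -/
def Fd (M : CMap D C) (Dp : Finset C) : Set D :=
  {d | M.cell d ∈ Dp ∨ M.cell (M.rho d) ∈ Dp ∨ M.cell (M.rho (M.rho d)) ∈ Dp}

theorem fd_inv : Inv M (Fd M Dp) := by
  intro d
  unfold Fd
  simp only [Set.mem_ofPred_eq, M.rho3]
  constructor
  · rintro (h | h | h)
    · exact Or.inr (Or.inl h)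
    · exact Or.inr (Or.inr h)
    · exact Or.inl h
  · rintro (h | h | h)
    · exact Or.inr (Or.inr h)
    · exact Or.inl h
    · exact Or.inr (Or.inl h)

/-- `Dp` white -/
def rec (Dp : Finset C) (χ : C → ZMod 2) (c : C) : ZMod 2 := if c ∈ Dp then 1 else χ c

theorem rec_in {χ : C → ZMod 2} {c : C} (h : c ∈ Dp) : rec Dp χ c = 1 := if_pos h

theorem rec_out {χ : C → ZMod 2} {c : C} (h : c ∉ Dp) : rec Dp χ c = χ c := if_neg h

/-- the cells of the next state are cells of the face -/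
theorem stp_cells (hx : IsC M ∅ x) {d : D} (hd : x d = 1) :
    (M.cell (stp M x d) = M.cell d ∨ M.cell (stp M x d) = M.cell (M.rho (M.rho d))) ∧
    (M.cell (M.rho (stp M x d)) = M.cell (M.rho d) ∨
      M.cell (M.rho (stp M x d)) = M.cell (M.rho (M.rho d))) := by
  rcases stp_cases hx hd (Set.notMem_empty _) with ⟨h1, -, e⟩ | ⟨-, h1, e⟩
  · rw [e, M.cell_iota _ (hx.lv h1), cell_rho_iota M (hx.lv h1)]
    exact ⟨Or.inr rfl, Or.inl rfl⟩
  · rw [e, M.cell_iota _ (hx.lv h1), cell_rho_iota M (hx.lv h1), M.rho3]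
    exact ⟨Or.inl rfl, Or.inr rfl⟩

/-- the cells seen before the deep faces are not deep -/
theorem seen_out [Fintype D] {χ : C → ZMod 2} (hp : cfg M χ p = 1) (hpK : p ∉ Kd M (Fd M Dp))
    {n : ℕ} (hn : 1 ≤ n) (h : ∀ t, 1 ≤ t → t < n → P M (cfg M χ) p t ∉ Kd M (Fd M Dp)) :
    ∀ c ∈ wl M (cfg M χ) p n ∪ wr M (cfg M χ) p n, c ∉ Dp := by
  have hx : IsC M ∅ (cfg M χ) := cfg_isC χ
  have hK : ∀ t, t < n → P M (cfg M χ) p t ∉ Fd M Dp := by
    intro t ht h1
    rcases t with _ | t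
    · exact hpK (Or.inl h1)
    · exact h (t + 1) (by omega) ht (Or.inl h1)
  have key : ∀ t, t ≤ n → M.cell (P M (cfg M χ) p t) ∉ Dp ∧
      M.cell (M.rho (P M (cfg M χ) p t)) ∉ Dp := by
    intro t ht
    rcases t with _ | t
    · have h1 := hK 0 (by omega)
      exact ⟨fun h2 => h1 (Or.inl h2), fun h2 => h1 (Or.inr (Or.inl h2))⟩
    · have h1 := hK t (by omega)
      obtain ⟨h2, h3⟩ := stp_cells hx (P_occ hx hp t)
      rw [P_succ]
      constructor
      · rcases h2 with h2 | h2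
        · rw [h2]; exact fun h4 => h1 (Or.inl h4)
        · rw [h2]; exact fun h4 => h1 (Or.inr (Or.inr h4))
      · rcases h3 with h3 | h3
        · rw [h3]; exact fun h4 => h1 (Or.inr (Or.inl h4))
        · rw [h3]; exact fun h4 => h1 (Or.inr (Or.inr h4))
  intro c hc
  rcases Finset.mem_union.1 hc with hc | hc
  · obtain ⟨t, ht, rfl⟩ := mem_wl.1 hc
    exact (key t ht).1
  · obtain ⟨t, ht, rfl⟩ := mem_wr.1 hc
    exact (key t ht).2

/-- the third cell of the last face of a strand is deep -/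
theorem last_deep [Fintype D] {χ : C → ZMod 2} (hp : cfg M χ p = 1) (hpK : p ∉ Kd M (Fd M Dp))
    {n : ℕ} (hn : 1 ≤ n) (h : ∀ t, 1 ≤ t → t < n → P M (cfg M χ) p t ∉ Kd M (Fd M Dp))
    (hl : P M (cfg M χ) p n ∈ Kd M (Fd M Dp)) :
    M.cell (M.rho (M.rho (P M (cfg M χ) p n))) ∈ Dp := by
  have hx : IsC M ∅ (cfg M χ) := cfg_isC χ
  obtain ⟨m, rfl⟩ : ∃ m, n = m + 1 := ⟨n - 1, by omega⟩
  have h0 : P M (cfg M χ) p m ∉ Fd M Dp := by
    intro h1
    rcases m with _ | m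
    · exact hpK (Or.inl h1)
    · exact h (m + 1) (by omega) (by omega) (Or.inl h1)
  have h1 : M.iota (P M (cfg M χ) p (m + 1)) ∉ Fd M Dp := by
    rw [P_succ]
    exact exit_mem hx fd_inv (P_occ hx hp m) (Set.notMem_empty _) h0
  have h2 : P M (cfg M χ) p (m + 1) ∈ Fd M Dp := by
    rcases hl with h3 | h3
    · exact h3
    · exact absurd h3 h1
  have h3 := seen_out hp hpK hn h
  rcases h2 with h4 | h4 | h4
  · exact absurd h4 (h3 _ (Finset.mem_union_left _ (mem_wl.2 ⟨m + 1, le_rfl, rfl⟩)))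
  · exact absurd h4 (h3 _ (Finset.mem_union_right _ (mem_wr.2 ⟨m + 1, le_rfl, rfl⟩)))
  · exact h4

/-- right cells along a walk are in one cluster -/
theorem con_right (hx : IsC M ∅ x) (hp : x p = 1) (n : ℕ) :
    Con M x (M.cell (M.rho p)) (M.cell (M.rho (P M x p n))) := by
  induction n with
  | zero => exact Relation.EqvGen.refl _
  | succ n ih =>
    refine Relation.EqvGen.trans _ _ _ ih ?_
    rcases right_cases hx hp n with ⟨-, h1⟩ | ⟨h1, h2⟩
    · have h1' : M.cell (M.rho (P M x p (n + 1))) = M.cell (M.rho (P M x p n)) := h1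
      rw [h1']
      exact Relation.EqvGen.refl _
    · have h2' : M.cell (M.rho (P M x p (n + 1))) = M.cell (M.rho (M.rho (P M x p n))) := h2
      rw [h2']
      exact Relation.EqvGen.rel _ _ ⟨_, h1, rfl, rfl⟩

/-- left cells along a walk are in one cluster -/
theorem con_left (hx : IsC M ∅ x) (hp : x p = 1) (n : ℕ) :
    Con M x (M.cell p) (M.cell (P M x p n)) := by
  induction n with
  | zero => exact Relation.EqvGen.refl _
  | succ n ih =>
    refine Relation.EqvGen.trans _ _ _ ih ?_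
    by_cases h1 : M.cell (stp M x (P M x p n)) = M.cell (P M x p n)
    · rw [P_succ, h1]
      exact Relation.EqvGen.refl _
    · obtain ⟨g, hg1, hg2, hg3⟩ := gap_of_ne hx (P_occ hx hp n) h1
      refine Relation.EqvGen.symm _ _ (Relation.EqvGen.rel _ _ ⟨g, hg1.1, ?_, ?_⟩)
      · rw [P_succ, ← hg3, cell_out hx hg1]
      · rw [hg2]

/-- `Dp` is one cluster of the recoloured configuration -/
theorem con_deep (hD : ∀ c ∈ Dp, ∀ c' ∈ Dp, Relation.EqvGen (AdjS M Dp) c c')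
    {χ : C → ZMod 2} {c c' : C} (hc : c ∈ Dp) (hc' : c' ∈ Dp) :
    Con M (cfg M (rec Dp χ)) c c' := by
  have key : ∀ c c', Relation.EqvGen (AdjS M Dp) c c' → Con M (cfg M (rec Dp χ)) c c' := by
    intro c c' H
    induction H with
    | rel c c' h =>
      obtain ⟨h1, h2, d, -, rfl, rfl⟩ := h
      refine Relation.EqvGen.rel _ _ ⟨d, ?_, rfl, rfl⟩
      unfold cfg
      rw [rec_in h1, rec_in h2]
      decide
    | refl c => exact Relation.EqvGen.refl _
    | symm c c' _ ih => exact Relation.EqvGen.symm _ _ ih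
    | trans c c' c'' _ _ ih1 ih2 => exact Relation.EqvGen.trans _ _ _ ih1 ih2
  exact key c c' (hD c hc c' hc')

/-- the walk of a strand in the recoloured configuration -/
theorem rec_walk [Fintype D] {χ : C → ZMod 2} (hp : cfg M χ p = 1) (hpK : p ∉ Kd M (Fd M Dp))
    {n : ℕ} (hn : 1 ≤ n) (h : ∀ t, 1 ≤ t → t < n → P M (cfg M χ) p t ∉ Kd M (Fd M Dp)) :
    cfg M (rec Dp χ) p = 1 ∧
      ∀ t, t ≤ n → P M (cfg M (rec Dp χ)) p t = P M (cfg M χ) p t :=
  walk_agree hp fun c hc => rec_out (seen_out hp hpK hn h c hc)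

/-- the white side of a strand is joined to `Dp`: forward -/
theorem join_right [Fintype D] {χ : C → ZMod 2} (hp : cfg M χ p = 1)
    (hpK : p ∉ Kd M (Fd M Dp)) (hc : χ (M.cell (M.rho p)) = 1) {n : ℕ} (hn : 1 ≤ n)
    (h : ∀ t, 1 ≤ t → t < n → P M (cfg M χ) p t ∉ Kd M (Fd M Dp))
    (hl : P M (cfg M χ) p n ∈ Kd M (Fd M Dp)) :
    ∃ c ∈ Dp, Con M (cfg M (rec Dp χ)) (M.cell (M.rho p)) c := by
  have hx : IsC M ∅ (cfg M χ) := cfg_isC χ
  have hy : IsC M ∅ (cfg M (rec Dp χ)) := cfg_isC _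
  obtain ⟨h1, h2⟩ := rec_walk hp hpK hn h
  have h3 := last_deep hp hpK hn h hl
  refine ⟨_, h3, Relation.EqvGen.trans _ _ _ (con_right hy h1 n) ?_⟩
  rw [h2 n le_rfl]
  refine Relation.EqvGen.rel _ _ ⟨M.rho (P M (cfg M χ) p n), ?_, rfl, rfl⟩
  show rec Dp χ (M.cell (M.rho (P M (cfg M χ) p n))) +
    rec Dp χ (M.cell (M.rho (M.rho (P M (cfg M χ) p n)))) = 0
  have h4 : M.cell (M.rho (P M (cfg M χ) p n)) ∈ wr M (cfg M χ) p n := mem_wr.2 ⟨n, le_rfl, rfl⟩
  have h5 := seen_out hp hpK hn h _ (Finset.mem_union_right _ h4)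
  rw [rec_in h3, rec_out h5, wr_col hp h4]
  have h6 := cfg_one.1 hp
  rw [← h6, hc]
  decide

/-- the white side of a strand is joined to `Dp`: backward -/
theorem join_left [Fintype D] {χ : C → ZMod 2} (hp : cfg M χ p = 1)
    (hpK : p ∉ Kd M (Fd M Dp)) (hc : χ (M.cell p) = 1) {n : ℕ} (hn : 1 ≤ n)
    (h : ∀ t, 1 ≤ t → t < n → P M (cfg M χ) p t ∉ Kd M (Fd M Dp))
    (hl : P M (cfg M χ) p n ∈ Kd M (Fd M Dp)) :
    ∃ c ∈ Dp, Con M (cfg M (rec Dp χ)) (M.cell p) c := by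
  have hx : IsC M ∅ (cfg M χ) := cfg_isC χ
  have hy : IsC M ∅ (cfg M (rec Dp χ)) := cfg_isC _
  obtain ⟨h1, h2⟩ := rec_walk hp hpK hn h
  have h3 := last_deep hp hpK hn h hl
  refine ⟨_, h3, Relation.EqvGen.trans _ _ _ (con_left hy h1 n) ?_⟩
  rw [h2 n le_rfl]
  refine Relation.EqvGen.symm _ _ (Relation.EqvGen.rel _ _
    ⟨M.rho (M.rho (P M (cfg M χ) p n)), ?_, rfl, by rw [M.rho3]⟩)
  show rec Dp χ (M.cell (M.rho (M.rho (P M (cfg M χ) p n)))) +
    rec Dp χ (M.cell (M.rho (M.rho (M.rho (P M (cfg M χ) p n))))) = 0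
  rw [M.rho3]
  have h4 : M.cell (P M (cfg M χ) p n) ∈ wl M (cfg M χ) p n := mem_wl.2 ⟨n, le_rfl, rfl⟩
  have h5 := seen_out hp hpK hn h _ (Finset.mem_union_left _ h4)
  rw [rec_in h3, rec_out h5, wl_col hp h4, hc]
  decide

/-- period of any state -/
theorem ex_per [Finite D] (hx : IsC M ∅ x) (hp : x p = 1) :
    ∃ N, 0 < N ∧ P M x p N = p ∧ ∀ a b, a < b → b < N → P M x p a ≠ P M x p b := by
  have hex : ∃ N, 0 < N ∧ P M x p N = p := periodic hx hp
  refine ⟨Nat.find hex, (Nat.find_spec hex).1, (Nat.find_spec hex).2, ?_⟩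
  intro a b hab hb e
  have h1 : P M x p (b - a) = p := by
    have h2 : (stp M x)^[a] (P M x p (b - a)) = (stp M x)^[a] p := by
      show _ = P M x p a
      rw [e]
      show P M x (P M x p (b - a)) a = _
      rw [← P_add]
      congr 1
      omega
    exact it_inj hx (occ_it hx hp _) hp a h2
  exact absurd (Nat.find_min' hex ⟨by omega, h1⟩) (by omega)

/-- **two excursions of one loop have disjoint left cells** -/
theorem exc_disj [Finite D] (hy : IsC M ∅ x) (hp : x p = 1) (hA : M.cell p = A)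
    (hA' : M.cell p' = A) (hne : p' ≠ p) (hloop : ∃ n, P M x p n = p') {j j' : ℕ}
    (h1 : ∀ t, 1 ≤ t → t ≤ j → M.cell (P M x p t) ≠ A)
    (h2 : ∀ t, 1 ≤ t → t ≤ j' → M.cell (P M x p' t) ≠ A) {u v : ℕ} (hu1 : 1 ≤ u) (hu : u ≤ j)
    (hv1 : 1 ≤ v) (hv : v ≤ j') : M.cell (P M x p u) ≠ M.cell (P M x p' v) := by
  intro e
  obtain ⟨N, hN, hper, hinj⟩ := ex_per hy hp
  obtain ⟨n, hn⟩ := hloop
  obtain ⟨n', hn', e'⟩ := time_mod hN hper hn
  have hn0 : n' ≠ 0 := by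
    rintro rfl
    exact hne e'
  have hjn : j < n' := by
    by_contra hc
    refine h1 n' (by omega) (by omega) ?_
    rw [← e', hA']
  have hvN : n' + v < N := by
    by_contra hc
    refine h2 (N - n') (by omega) (by omega) ?_
    rw [e', ← P_add, show N - n' + n' = N by omega, hper, hA]
  have e2 : P M x p' v = P M x p (n' + v) := by
    rw [e', ← P_add, Nat.add_comm]
  have key := NonXx592.noncross hy hp (k := u) (j := n') (l := n' + v) (by omega) (by omega)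
    (by omega) (fun a b hab hb => hinj a b hab (by omega)) (by rw [← e', hA', hA])
    (by rw [e, e2])
  exact h1 u hu1 hu (key.trans hA)

/-- the same for the backward walks: right cells -/
theorem exc_disj' [Finite D] (hy : IsC M ∅ x) (hq : x q = 1) (hq' : x q' = 1)
    (hA : M.cell (M.rho q) = A)
    (hA' : M.cell (M.rho q') = A) (hne : q' ≠ q) (hloop : ∃ n, P M x (M.iota q) n = M.iota q')
    {m m' : ℕ} (h1 : ∀ t, 1 ≤ t → t ≤ m → M.cell (M.rho (P M x q t)) ≠ A)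
    (h2 : ∀ t, 1 ≤ t → t ≤ m' → M.cell (M.rho (P M x q' t)) ≠ A) {u v : ℕ} (hu1 : 1 ≤ u)
    (hu : u ≤ m) (hv1 : 1 ≤ v) (hv : v ≤ m') :
    M.cell (M.rho (P M x q u)) ≠ M.cell (M.rho (P M x q' v)) := by
  intro e0
  set e := M.iota q with he
  have hxe : x e = 1 := by rw [he, hy.iot]; exact hq
  have hcA : M.cell e = A := by rw [he, cell_iota' hy hq]; exact hA
  obtain ⟨N, hN, hper, hinj⟩ := ex_per hy hxe
  obtain ⟨n, hn⟩ := hloop
  obtain ⟨n', hn', e'⟩ := time_mod hN hper hn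
  have hcA' : M.cell (P M x e n') = A := by rw [← e', cell_iota' hy hq']; exact hA'
  have hn0 : n' ≠ 0 := by
    rintro rfl
    exact hne (iota_inj M e')
  have hq1 : ∀ t, t ≤ N → M.cell (M.rho (P M x q t)) = M.cell (P M x e (N - t)) := by
    intro t ht
    have h3 := P_rev hy hxe ht
    rw [hper, he, M.iota2] at h3
    rw [h3, cell_rho_iota M (hy.lv (P_occ hy hxe _))]
  have hq2 : ∀ t, t ≤ n' → M.cell (M.rho (P M x q' t)) = M.cell (P M x e (n' - t)) := by
    intro t ht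
    have h3 := P_rev hy hxe ht
    rw [← e', M.iota2] at h3
    rw [h3, cell_rho_iota M (hy.lv (P_occ hy hxe _))]
  have hmn : n' < N - m := by
    by_contra hc
    refine h1 (N - n') (by omega) (by omega) ?_
    rw [hq1 _ (by omega), show N - (N - n') = n' by omega, hcA']
  have hmn' : m' < n' := by
    by_contra hc
    refine h2 n' (by omega) (by omega) ?_
    rw [hq2 _ le_rfl, Nat.sub_self]
    exact hcA
  rw [hq1 u (by omega), hq2 v (by omega)] at e0
  have key := NonXx592.noncross hy hxe (k := n' - v) (j := n') (l := N - u) (by omega) (by omega)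
    (by omega) (fun a b hab hb => hinj a b hab (by omega)) (hcA'.trans hcA.symm) e0.symm
  refine h2 v hv1 hv ?_
  rw [hq2 v (by omega), key, hcA]

section strands

variable [Fintype D] {χ : C → ZMod 2}

/-- forward strand -/
def Fw (M : CMap D C) (A : C) (Fs : Set D) (p : D) (χ : C → ZMod 2) : Prop :=
  χ A = 0 ∧ cfg M χ p = 1 ∧ P M (cfg M χ) p (hit M (cfg M χ) p (Bf M A Fs)) ∈ Kd M Fs

/-- backward strand -/
def Bw (M : CMap D C) (A : C) (Fs : Set D) (q : D) (χ : C → ZMod 2) : Prop :=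
  χ A = 0 ∧ cfg M χ q = 1 ∧ P M (cfg M χ) q (hit M (cfg M χ) q (Bb M A Fs)) ∈ Kd M Fs

/-- left cells of the forward strand -/
def LF (M : CMap D C) (A : C) (Fs : Set D) (p : D) (χ : C → ZMod 2) : Finset C :=
  wl M (cfg M χ) p (hit M (cfg M χ) p (Bf M A Fs))

/-- black cells of the backward strand -/
def LB (M : CMap D C) (A : C) (Fs : Set D) (q : D) (χ : C → ZMod 2) : Finset C :=
  wr M (cfg M χ) q (hit M (cfg M χ) q (Bb M A Fs))

omit [Fintype D] in
theorem Wp_iff {Fs : Set D} : Wp M A Fs p q χ ↔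
    Fw M A Fs p χ ∧ Bw M A Fs q χ ∧ ∀ c, c ∈ LF M A Fs p χ → c ∈ LB M A Fs q χ → c = A := by
  unfold Wp Fw Bw LF LB
  tauto

/-- the times of a forward strand -/
theorem fw_times {Fs : Set D} (hKA : ∀ d ∈ Kd M Fs, M.cell d ≠ A) (hp : M.cell p = A)
    (H : Fw M A Fs p χ) :
    1 ≤ hit M (cfg M χ) p (Bf M A Fs) ∧ p ∉ Kd M Fs ∧
    (∀ t, 1 ≤ t → t < hit M (cfg M χ) p (Bf M A Fs) → P M (cfg M χ) p t ∉ Kd M Fs) ∧
    ∀ t, 1 ≤ t → t ≤ hit M (cfg M χ) p (Bf M A Fs) → M.cell (P M (cfg M χ) p t) ≠ A := by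
  have hx : IsC M ∅ (cfg M χ) := cfg_isC χ
  have hex := hit_ex hx H.2.1 (B := Bf M A Fs) (Or.inl hp)
  have h1 := hit_spec hex
  refine ⟨h1.1, fun h2 => hKA _ h2 hp, fun t ht1 ht2 h3 => hit_min hex ht2 ht1 (Or.inr h3),
    fun t ht1 ht2 h3 => ?_⟩
  rcases Nat.lt_or_ge t (hit M (cfg M χ) p (Bf M A Fs)) with h4 | h4
  · exact hit_min hex h4 ht1 (Or.inl h3)
  · have h5 : t = hit M (cfg M χ) p (Bf M A Fs) := by omega
    rw [h5] at h3
    exact hKA _ H.2.2 h3

/-- the times of a backward strand -/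
theorem bw_times {Fs : Set D} (hKA : ∀ d ∈ Kd M Fs, M.cell d ≠ A) (hq : M.cell (M.rho q) = A)
    (H : Bw M A Fs q χ) :
    1 ≤ hit M (cfg M χ) q (Bb M A Fs) ∧ q ∉ Kd M Fs ∧
    (∀ t, 1 ≤ t → t < hit M (cfg M χ) q (Bb M A Fs) → P M (cfg M χ) q t ∉ Kd M Fs) ∧
    ∀ t, 1 ≤ t → t ≤ hit M (cfg M χ) q (Bb M A Fs) →
      M.cell (M.rho (P M (cfg M χ) q t)) ≠ A := by
  have hx : IsC M ∅ (cfg M χ) := cfg_isC χ
  have hex := hit_ex hx H.2.1 (B := Bb M A Fs) (Or.inl hq)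
  have h1 := hit_spec hex
  have hK : ∀ d, cfg M χ d = 1 → d ∈ Kd M Fs → M.cell (M.rho d) ≠ A := by
    intro d hd h2 h3
    refine hKA _ (kd_iota.2 h2) ?_
    rw [cell_iota' hx hd]
    exact h3
  refine ⟨h1.1, fun h2 => hK _ H.2.1 h2 hq, fun t ht1 ht2 h3 => hit_min hex ht2 ht1 (Or.inr h3),
    fun t ht1 ht2 h3 => ?_⟩
  rcases Nat.lt_or_ge t (hit M (cfg M χ) q (Bb M A Fs)) with h4 | h4
  · exact hit_min hex h4 ht1 (Or.inl h3)
  · have h5 : t = hit M (cfg M χ) q (Bb M A Fs) := by omega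
    rw [h5] at h3
    exact hK _ (P_occ hx H.2.1 _) H.2.2 h3

/-- **different forward strands have disjoint left cells** -/
theorem fwd_disj (hD : ∀ c ∈ Dp, ∀ c' ∈ Dp, Relation.EqvGen (AdjS M Dp) c c')
    (hKA : ∀ d ∈ Kd M (Fd M Dp), M.cell d ≠ A) (hp : M.cell p = A) (hp' : M.cell p' = A)
    (hne : p' ≠ p) (H : Fw M A (Fd M Dp) p χ) (H' : Fw M A (Fd M Dp) p' χ) {c : C}
    (hc : c ∈ LF M A (Fd M Dp) p χ) (hc' : c ∈ LF M A (Fd M Dp) p' χ) : c = A := by
  obtain ⟨a1, a2, a3, a4⟩ := fw_times hKA hp H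
  obtain ⟨b1, b2, b3, b4⟩ := fw_times hKA hp' H'
  have hx : IsC M ∅ (cfg M χ) := cfg_isC χ
  have hy : IsC M ∅ (cfg M (rec Dp χ)) := cfg_isC _
  obtain ⟨w1, w2⟩ := rec_walk H.2.1 a2 a1 a3
  obtain ⟨w1', w2'⟩ := rec_walk H'.2.1 b2 b1 b3
  have hr : χ (M.cell (M.rho p)) = 1 := by
    rw [cfg_one.1 H.2.1, hp, H.1]; decide
  have hr' : χ (M.cell (M.rho p')) = 1 := by
    rw [cfg_one.1 H'.2.1, hp', H'.1]; decide
  obtain ⟨e, he, k1⟩ := join_right H.2.1 a2 hr a1 a3 H.2.2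
  obtain ⟨e', he', k1'⟩ := join_right H'.2.1 b2 hr' b1 b3 H'.2.2
  have hloop := same_loop hy w1 w1' (by rw [hp, hp']; exact Relation.EqvGen.refl _)
    (Relation.EqvGen.trans _ _ _ k1 (Relation.EqvGen.trans _ _ _ (con_deep hD he he')
      (Relation.EqvGen.symm _ _ k1')))
  unfold LF at hc hc'
  obtain ⟨u, hu, e1⟩ := mem_wl.1 hc
  obtain ⟨v, hv, e2⟩ := mem_wl.1 hc'
  rcases Nat.eq_zero_or_pos u with rfl | hu0
  · rw [← e1]; exact hp
  rcases Nat.eq_zero_or_pos v with rfl | hv0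
  · rw [← e2]; exact hp'
  exfalso
  refine exc_disj hy w1 hp hp' hne hloop (j := hit M (cfg M χ) p (Bf M A (Fd M Dp)))
    (j' := hit M (cfg M χ) p' (Bf M A (Fd M Dp))) ?_ ?_ hu0 hu hv0 hv ?_
  · intro t h1 h2
    rw [w2 t h2]
    exact a4 t h1 h2
  · intro t h1 h2
    rw [w2' t h2]
    exact b4 t h1 h2
  · rw [w2 u hu, w2' v hv, e1, e2]

/-- **different backward strands have disjoint black cells** -/
theorem bwd_disj (hD : ∀ c ∈ Dp, ∀ c' ∈ Dp, Relation.EqvGen (AdjS M Dp) c c')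
    (hKA : ∀ d ∈ Kd M (Fd M Dp), M.cell d ≠ A) (hq : M.cell (M.rho q) = A)
    (hq' : M.cell (M.rho q') = A)
    (hne : q' ≠ q) (H : Bw M A (Fd M Dp) q χ) (H' : Bw M A (Fd M Dp) q' χ) {c : C}
    (hc : c ∈ LB M A (Fd M Dp) q χ) (hc' : c ∈ LB M A (Fd M Dp) q' χ) : c = A := by
  obtain ⟨a1, a2, a3, a4⟩ := bw_times hKA hq H
  obtain ⟨b1, b2, b3, b4⟩ := bw_times hKA hq' H'
  have hx : IsC M ∅ (cfg M χ) := cfg_isC χ
  have hy : IsC M ∅ (cfg M (rec Dp χ)) := cfg_isC _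
  obtain ⟨w1, w2⟩ := rec_walk H.2.1 a2 a1 a3
  obtain ⟨w1', w2'⟩ := rec_walk H'.2.1 b2 b1 b3
  have hr : χ (M.cell q) = 1 := by
    have h1 := cfg_one.1 H.2.1
    rw [hq, H.1] at h1
    revert h1
    generalize χ (M.cell q) = b
    revert b; decide
  have hr' : χ (M.cell q') = 1 := by
    have h1 := cfg_one.1 H'.2.1
    rw [hq', H'.1] at h1
    revert h1
    generalize χ (M.cell q') = b
    revert b; decide
  obtain ⟨e, he, k1⟩ := join_left H.2.1 a2 hr a1 a3 H.2.2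
  obtain ⟨e', he', k1'⟩ := join_left H'.2.1 b2 hr' b1 b3 H'.2.2
  have hloop := same_loop (p := M.iota q) (q := M.iota q') hy (by rw [hy.iot]; exact w1)
    (by rw [hy.iot]; exact w1')
    (by
      rw [cell_iota' hy w1, cell_iota' hy w1']
      show Con M _ (M.cell (M.rho q)) (M.cell (M.rho q'))
      rw [hq, hq']
      exact Relation.EqvGen.refl _)
    (by
      rw [cell_rho_iota M (hy.lv w1), cell_rho_iota M (hy.lv w1')]
      exact Relation.EqvGen.trans _ _ _ k1 (Relation.EqvGen.trans _ _ _ (con_deep hD he he')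
        (Relation.EqvGen.symm _ _ k1')))
  unfold LB at hc hc'
  obtain ⟨u, hu, e1⟩ := mem_wr.1 hc
  obtain ⟨v, hv, e2⟩ := mem_wr.1 hc'
  rcases Nat.eq_zero_or_pos u with rfl | hu0
  · rw [← e1]; exact hq
  rcases Nat.eq_zero_or_pos v with rfl | hv0
  · rw [← e2]; exact hq'
  exfalso
  refine exc_disj' hy w1 w1' hq hq' hne hloop (m := hit M (cfg M χ) q (Bb M A (Fd M Dp)))
    (m' := hit M (cfg M χ) q' (Bb M A (Fd M Dp))) ?_ ?_ hu0 hu hv0 hv ?_
  · intro t h1 h2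
    rw [w2 t h2]
    exact a4 t h1 h2
  · intro t h1 h2
    rw [w2' t h2]
    exact b4 t h1 h2
  · rw [w2 u hu, w2' v hv]
    exact e1.trans e2.symm

/-- **the black cells of a backward strand off `A`** : connected, from the face of `q` to a deep
face -/
theorem bwd_chain (hKA : ∀ d ∈ Kd M (Fd M Dp), M.cell d ≠ A) (hq : M.cell (M.rho q) = A)
    (H : Bw M A (Fd M Dp) q χ) :
    M.cell (M.rho (M.rho q)) ∈ (LB M A (Fd M Dp) q χ).erase A ∧
    (∃ d ∈ Fd M Dp, M.cell (M.rho d) ∈ (LB M A (Fd M Dp) q χ).erase A) ∧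
    (∀ c ∈ (LB M A (Fd M Dp) q χ).erase A, χ c = 0) ∧
    ∀ c ∈ (LB M A (Fd M Dp) q χ).erase A, ∀ c' ∈ (LB M A (Fd M Dp) q χ).erase A,
      Relation.EqvGen (AdjS M ((LB M A (Fd M Dp) q χ).erase A)) c c' := by
  obtain ⟨a1, a2, a3, a4⟩ := bw_times hKA hq H
  have hx : IsC M ∅ (cfg M χ) := cfg_isC χ
  have hcol : ∀ c ∈ LB M A (Fd M Dp) q χ, χ c = 0 := by
    intro c hc
    rw [wr_col H.2.1 hc, ← cfg_one.1 H.2.1, hq, H.1]
  set m := hit M (cfg M χ) q (Bb M A (Fd M Dp)) with hm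
  have h1 : M.cell (M.rho (P M (cfg M χ) q 1)) = M.cell (M.rho (M.rho q)) := by
    rcases (stp_cells hx H.2.1).2 with h2 | h2
    · exfalso
      exact a4 1 le_rfl a1 (by rw [show P M (cfg M χ) q 1 = stp M (cfg M χ) q from rfl, h2, hq])
    · exact h2
  have hset : (LB M A (Fd M Dp) q χ).erase A = wr M (cfg M χ) (P M (cfg M χ) q 1) (m - 1) := by
    ext c
    rw [Finset.mem_erase]
    unfold LB
    rw [mem_wr, mem_wr]
    constructor
    · rintro ⟨hne, t, ht, e⟩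
      rcases Nat.eq_zero_or_pos t with rfl | h0
      · exact absurd (by rw [← e]; exact hq) hne
      · exact ⟨t - 1, by omega, by rw [← P_add, show t - 1 + 1 = t by omega]; exact e⟩
    · rintro ⟨t, ht, e⟩
      rw [← P_add] at e
      exact ⟨by rw [← e]; exact a4 (t + 1) (by omega) (by omega), t + 1, by omega, e⟩
  refine ⟨?_, ?_, fun c hc => hcol c (Finset.mem_of_mem_erase hc), ?_⟩
  · rw [hset, ← h1]
    exact mem_wr.2 ⟨0, Nat.zero_le _, rfl⟩
  · have h3 : M.cell (M.rho (M.rho (P M (cfg M χ) q m))) ∈ Dp :=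
      last_deep H.2.1 a2 a1 a3 H.2.2
    refine ⟨P M (cfg M χ) q m, Or.inr (Or.inr h3), ?_⟩
    rw [hset]
    refine mem_wr.2 ⟨m - 1, le_rfl, ?_⟩
    rw [← P_add, show m - 1 + 1 = m by omega]
  · rw [hset]
    intro c hc c' hc'
    exact wr_con hx (P_occ hx H.2.1 1) hc hc'

/-- **the black cells of a forward strand off `A`** -/
theorem fwd_chain (hKA : ∀ d ∈ Kd M (Fd M Dp), M.cell d ≠ A) (hp : M.cell p = A)
    (H : Fw M A (Fd M Dp) p χ) :
    M.cell (M.rho (M.rho p)) ∈ (LF M A (Fd M Dp) p χ).erase A ∧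
    (∃ d ∈ Fd M Dp, M.cell d ∈ (LF M A (Fd M Dp) p χ).erase A) ∧
    (∀ c ∈ (LF M A (Fd M Dp) p χ).erase A, χ c = 0) ∧
    ∀ c ∈ (LF M A (Fd M Dp) p χ).erase A, ∀ c' ∈ (LF M A (Fd M Dp) p χ).erase A,
      Relation.EqvGen (AdjS M ((LF M A (Fd M Dp) p χ).erase A)) c c' := by
  obtain ⟨a1, a2, a3, a4⟩ := fw_times hKA hp H
  have hx : IsC M ∅ (cfg M χ) := cfg_isC χ
  have hcol : ∀ c ∈ LF M A (Fd M Dp) p χ, χ c = 0 := by
    intro c hc
    rw [wl_col H.2.1 hc, hp, H.1]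
  set m := hit M (cfg M χ) p (Bf M A (Fd M Dp)) with hm
  have h1 : M.cell (P M (cfg M χ) p 1) = M.cell (M.rho (M.rho p)) := by
    rcases (stp_cells hx H.2.1).1 with h2 | h2
    · exfalso
      exact a4 1 le_rfl a1 (by rw [show P M (cfg M χ) p 1 = stp M (cfg M χ) p from rfl, h2, hp])
    · exact h2
  have hset : (LF M A (Fd M Dp) p χ).erase A = wl M (cfg M χ) (P M (cfg M χ) p 1) (m - 1) := by
    ext c
    rw [Finset.mem_erase]
    unfold LF
    rw [mem_wl, mem_wl]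
    constructor
    · rintro ⟨hne, t, ht, e⟩
      rcases Nat.eq_zero_or_pos t with rfl | h0
      · exact absurd (by rw [← e]; exact hp) hne
      · exact ⟨t - 1, by omega, by rw [← P_add, show t - 1 + 1 = t by omega]; exact e⟩
    · rintro ⟨t, ht, e⟩
      rw [← P_add] at e
      exact ⟨by rw [← e]; exact a4 (t + 1) (by omega) (by omega), t + 1, by omega, e⟩
  refine ⟨?_, ?_, fun c hc => hcol c (Finset.mem_of_mem_erase hc), ?_⟩
  · rw [hset, ← h1]
    exact mem_wl.2 ⟨0, Nat.zero_le _, rfl⟩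
  · have h3 : M.cell (M.rho (M.rho (P M (cfg M χ) p m))) ∈ Dp :=
      last_deep H.2.1 a2 a1 a3 H.2.2
    refine ⟨P M (cfg M χ) p m, Or.inr (Or.inr h3), ?_⟩
    rw [hset]
    refine mem_wl.2 ⟨m - 1, le_rfl, ?_⟩
    rw [← P_add, show m - 1 + 1 = m by omega]
  · rw [hset]
    intro c hc c' hc'
    exact wl_con hx (P_occ hx H.2.1 1) hc hc'

end strands

end Crest.Agent.R143.StrDx795
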