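import Crest.Agent.R143.StrC_795
import Crest.Agent.R143.CntG_197
import Crest.Agent.R143.FinC_811

/-!
# Row 143 (S0194), block H, inputs [B] and [N] (helper795): the chords of a map with a giant cell

`M` closed map with the giant cell `o`; the other cells are sites (`Sites M S {c | c ≠ o} j` of
`CntG_197`); `z d` = position of the cell of the dart `d` (used when it is in the giant); `Dp` =
connected set of deep cells; `Geo` = the geometry (`Rad`, `R`, `d1`).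

* `Ret M o x k n` : `k` = gap which leaves the giant, first return after `n` steps (355's `Gc`)
* `dch M o Dp x` : chords with a gap in a deep face; `cch M o z r x` : chords with ends at distance
  `< r`
* `chords` : **[N]** `∑ x ∈ ev M, #dch ≤ m * #ev`, and **[B]**
  `∑ x ∈ ev M, ∑ β ∈ cch (2 * R), ‖∑ β a‖² ≤ (∑ ‖a‖²) * (C0 (R / d1)^c * m) * #ev` for every field
  `a` of spin `w` supported in the deep faces
-/

set_option autoImplicit false

noncomputable section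

open scoped Classical

namespace Crest.Agent.R143.StrEx795

open Crest.Agent.R143.Harx315 (pr pr_mono)
open Crest.Agent.R143.Frame1x395 Crest.Agent.R143.Frame2x395 Crest.Agent.R143.Frame3x395
  Crest.Agent.R143.Frame4x395 Crest.Agent.R143.Frame8x395 Crest.Agent.R143.Frame9x395
open Crest.Agent.R143.NonXx592 (P P_add P_occ P_succ P_per)
open Crest.Agent.R143.CFramex358 (Prs Stp cfg_flip nK_mul_nE)
open Crest.Agent.R143.Gntx535 (AdjS)
open Crest.Agent.R143.Mass3x302 (restr isC_restr)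
open Crest.Agent.R143.FinCx811
open Crest.Agent.R143.Chordx795 Crest.Agent.R143.StrFx795 Crest.Agent.R143.StrDx795
  Crest.Agent.R143.StrCx795
open Crest.Agent.R143.CntGx197 (Sites Dense)

variable {D C : Type} {M : CMap D C} {o : C} {Dp : Finset C} {j : C → ℂ} {z : D → ℂ} {z0 : ℂ}
  {Rad R d1 r : ℝ} {x : D → ZMod 2}

/-! ### definitions -/

/-- start gap `k` of a chord, first return after `n` steps -/
def Ret (M : CMap D C) (o : C) (x : D → ZMod 2) (k : D) (n : ℕ) : Prop :=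
  0 < n ∧ M.cell (M.rho k) = o ∧ M.cell (P M x (M.rho k) n) = o ∧
    ∀ u, 0 < u → u < n → M.cell (P M x (M.rho k) u) ≠ o

/-- chords with a gap in a deep face -/
def dch [Fintype D] (M : CMap D C) (o : C) (Dp : Finset C) (x : D → ZMod 2) :
    Finset (Finset D) :=
  (blks M x).filter fun β => (∃ k ∈ β, M.cell (M.rho k) = o) ∧ ∃ g ∈ β, g ∈ Fd M Dp

/-- chords with the ends at distance less than `r` -/
def cch [Fintype D] (M : CMap D C) (o : C) (z : D → ℂ) (r : ℝ) (x : D → ZMod 2) :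
    Finset (Finset D) :=
  (blks M x).filter fun β => ∃ k ∈ β, ∃ n, Ret M o x k n ∧
    ‖z (M.rho k) - z (P M x (M.rho k) n)‖ < r

theorem mem_dch [Fintype D] {β : Finset D} : β ∈ dch M o Dp x ↔
    β ∈ blks M x ∧ (∃ k ∈ β, M.cell (M.rho k) = o) ∧ ∃ g ∈ β, g ∈ Fd M Dp := Finset.mem_filter

theorem mem_cch [Fintype D] {β : Finset D} : β ∈ cch M o z r x ↔
    β ∈ blks M x ∧ ∃ k ∈ β, ∃ n, Ret M o x k n ∧
      ‖z (M.rho k) - z (P M x (M.rho k) n)‖ < r := Finset.mem_filter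

/-- the geometry: faces with one dart `p` at the giant -/
structure Geo (M : CMap D C) (o : C) (Dp : Finset C) (j : C → ℂ) (z : D → ℂ) (z0 : ℂ)
    (Rad R d1 : ℝ) : Prop where
  con : ∀ c ∈ Dp, ∀ c' ∈ Dp, Relation.EqvGen (AdjS M Dp) c c'
  far : ∀ d ∈ Kd M (Fd M Dp), M.cell d ≠ o
  zio : ∀ d ∈ M.live, M.cell (M.rho d) = o → z (M.iota d) = z (M.rho d)
  rad : ∀ p, M.cell p = o → M.cell (M.rho p) ≠ o → M.cell (M.rho (M.rho p)) ≠ o →
    ‖z p - z0‖ ≤ Rad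
  nr : ∀ p, M.cell p = o → M.cell (M.rho p) ≠ o → M.cell (M.rho (M.rho p)) ≠ o →
    ‖j (M.cell (M.rho p)) - z p‖ ≤ R ∧ ‖j (M.cell (M.rho (M.rho p))) - z p‖ ≤ R
  dp : ∀ p, M.cell p = o → M.cell (M.rho p) ≠ o → M.cell (M.rho (M.rho p)) ≠ o →
    ∀ d ∈ Fd M Dp, d1 ≤ ‖j (M.cell d) - z p‖

/-! ### the ends of a chord -/

/-- start darts -/
def Ps [Fintype D] (M : CMap D C) (o : C) : Finset D :=
  Finset.univ.filter fun p => M.cell p = o ∧ M.cell (M.rho p) ≠ o ∧ M.cell (M.rho (M.rho p)) ≠ o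

/-- end darts close to `p` -/
def Qc [Fintype D] (M : CMap D C) (o : C) (z : D → ℂ) (r : ℝ) (p : D) : Finset D :=
  Finset.univ.filter fun q => M.cell (M.rho q) = o ∧ M.cell q ≠ o ∧
    M.cell (M.rho (M.rho q)) ≠ o ∧ ‖z p - z (M.rho q)‖ < r

theorem gp0_rho (k : D) : gp0 M (M.rho k) = k := M.rho3 k

variable [Fintype D]

omit [Fintype D] in
/-- the return time -/
theorem Ret.tR (hx : IsC M ∅ x) {k : D} (hk : Gp M x k) {n : ℕ} (H : Ret M o x k n) :
    Chordx795.tR M (id : C → C) o x k = n - 1 ∧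
      P M x (out M k) (n - 1) = P M x (M.rho k) n := by
  obtain ⟨h1, h2, h3, h4⟩ := H
  have hP : ∀ t, P M x (M.rho k) (t + 1) = P M x (out M k) t := by
    intro t
    have := P_gp0 (p := M.rho k) hx (by rw [gp0_rho]; exact hk) t
    rwa [gp0_rho] at this
  obtain ⟨s, rfl⟩ : ∃ s, n = s + 1 := ⟨n - 1, by omega⟩
  rw [Nat.add_sub_cancel]
  refine ⟨?_, (hP s).symm⟩
  have hs : s ∈ {t | id (Lc M x k t) = o} := by
    show M.cell (P M x (out M k) s) = o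
    rw [← hP]; exact h3
  refine le_antisymm (Nat.sInf_le hs) ?_
  by_contra hc
  have h5 : id (Lc M x k (Chordx795.tR M (id : C → C) o x k)) = o := Nat.sInf_mem ⟨s, hs⟩
  have h6 : M.cell (P M x (out M k) (Chordx795.tR M (id : C → C) o x k)) = o := h5
  rw [← hP] at h6
  exact h4 _ (Nat.succ_pos _) (by omega) h6

omit [Fintype D] in
/-- **the ends** -/
theorem Ret.ends (hx : IsC M ∅ x) {k : D} (hk : Gp M x k) {n : ℕ} (H : Ret M o x k n) :
    Ends M o x (M.rho k) (M.iota (P M x (M.rho k) n)) := by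
  obtain ⟨h1, h2⟩ := H.tR hx hk
  refine ⟨by rw [gp0_rho]; exact hk, ?_⟩
  rw [gp0_rho, M.iota2, h1, h2]

omit [Fintype D] in
theorem Ret.q (hx : IsC M ∅ x) {k : D} (hk : Gp M x k) {n : ℕ} (H : Ret M o x k n) :
    M.iota (P M x (M.rho k) n) ∈ M.live ∧ M.cell (M.rho (M.iota (P M x (M.rho k) n))) = o := by
  have h1 : x (P M x (M.rho k) n) = 1 := P_occ hx hk.2 n
  refine ⟨M.iota_live _ (hx.lv h1), ?_⟩
  rw [cell_rho_iota M (hx.lv h1)]
  exact H.2.2.1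

/-- every gap which leaves the giant starts a chord -/
theorem exists_ret (hx : IsC M ∅ x) {k : D} (hk : Gp M x k) (h0 : M.cell (M.rho k) = o) :
    ∃ n, Ret M o x k n := by
  obtain ⟨N, hN, hN'⟩ := periodic hx (p := M.rho k) hk.2
  have h : ∃ n, 0 < n ∧ M.cell (P M x (M.rho k) n) = o := by
    refine ⟨N, hN, ?_⟩
    have e : P M x (M.rho k) N = M.rho k := hN'
    rw [e]
    exact h0
  exact ⟨Nat.find h, (Nat.find_spec h).1, h0, (Nat.find_spec h).2, fun u h1 h2 h3 =>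
    Nat.find_min h h2 ⟨h1, h3⟩⟩

/-- the faces of the ends of a deep chord -/
theorem deep_ends (hKA : ∀ d ∈ Kd M (Fd M Dp), M.cell d ≠ o) {χ : C → ZMod 2} (h0 : χ o = 0)
    {k : D} (hk : Gp M (cfg M χ) k) {n : ℕ} (H : Ret M o (cfg M χ) k n) {g : D}
    (hg : g ∈ blk M (cfg M χ) k) (hgF : g ∈ Fd M Dp) :
    M.rho k ∈ Ps M o ∧ Fw M o (Fd M Dp) (M.rho k) χ ∧
      M.cell (M.iota (P M (cfg M χ) (M.rho k) n)) ≠ o ∧
      M.cell (M.rho (M.rho (M.iota (P M (cfg M χ) (M.rho k) n)))) ≠ o := by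
  have hx : IsC M ∅ (cfg M χ) := cfg_isC χ
  have hE := H.ends hx hk
  obtain ⟨hl, hq⟩ := H.q hx hk
  set q := M.iota (P M (cfg M χ) (M.rho k) n) with hqd
  have hW := Wp_of (p := M.rho k) (q := q) fd_inv hKA H.2.1 h0 hE
    (by rw [gp0_rho]; exact hg) hgF
  obtain ⟨hF, hB, -⟩ := Wp_iff.1 hW
  obtain ⟨f1, -, -, -⟩ := fwd_chain hKA H.2.1 hF
  obtain ⟨b1, -, -, -⟩ := bwd_chain hKA hq hB
  have c1 : χ (M.cell (M.rho k)) + χ (M.cell (M.rho (M.rho k))) = 1 := hF.2.1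
  have c2 : χ (M.cell q) + χ (M.cell (M.rho q)) = 1 := hB.2.1
  refine ⟨Finset.mem_filter.2 ⟨Finset.mem_univ _, H.2.1, ?_, (Finset.mem_erase.1 f1).1⟩, hF, ?_,
    (Finset.mem_erase.1 b1).1⟩
  · intro e
    rw [H.2.1, e, h0] at c1
    exact absurd c1 (by decide)
  · intro e
    rw [hq, e, h0] at c2
    exact absurd c2 (by decide)

/-- **close chords and pairs of darts** -/
theorem close_le (hKA : ∀ d ∈ Kd M (Fd M Dp), M.cell d ≠ o)
    (hz : ∀ d ∈ M.live, M.cell (M.rho d) = o → z (M.iota d) = z (M.rho d))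
    {a : D → ℂ} (ha : ∀ d, a d ≠ 0 → d ∈ Fd M Dp) {χ : C → ZMod 2} (h0 : χ o = 0) :
    ∑ β ∈ cch M o z r (cfg M χ), ‖∑ g ∈ β, a g‖ ^ 2 ≤
      ∑ p ∈ Ps M o, ∑ q ∈ Qc M o z r p, (if χ o = 0 ∧ Ends M o (cfg M χ) p q then
        ‖∑ g ∈ blk M (cfg M χ) (gp0 M p), a g‖ ^ 2 else 0) := by
  set x := cfg M χ with hxd
  have hx : IsC M ∅ x := cfg_isC χ
  set 𝒟 := (cch M o z r x).filter fun β => ∑ g ∈ β, a g ≠ 0 with h𝒟
  set Γ := (Ps M o).filter fun p => ∃ q ∈ Qc M o z r p, Ends M o x p q with hΓ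
  have e1 : ∑ β ∈ cch M o z r x, ‖∑ g ∈ β, a g‖ ^ 2 = ∑ β ∈ 𝒟, ‖∑ g ∈ β, a g‖ ^ 2 := by
    rw [h𝒟, Finset.sum_filter]
    refine Finset.sum_congr rfl fun β _ => ?_
    by_cases h : ∑ g ∈ β, a g = 0
    · rw [if_neg (not_not.2 h), h]; norm_num
    · rw [if_pos h]
  have s1 : 𝒟 ⊆ Γ.image fun p => blk M x (gp0 M p) := by
    intro β hβ
    obtain ⟨h1, h2⟩ := Finset.mem_filter.1 hβ
    obtain ⟨h3, k, hk, n, hR, hr⟩ := Finset.mem_filter.1 h1
    obtain ⟨hgk, hb⟩ := mem_blks hx h3 hk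
    obtain ⟨g, hg, hag⟩ := Finset.exists_ne_zero_of_sum_ne_zero h2
    rw [hb] at hg
    obtain ⟨d1, -, d3, d4⟩ := deep_ends hKA h0 hgk hR hg (ha g hag)
    obtain ⟨hl, hq⟩ := hR.q hx hgk
    refine Finset.mem_image.2 ⟨M.rho k, Finset.mem_filter.2 ⟨d1,
      M.iota (P M x (M.rho k) n), Finset.mem_filter.2 ⟨Finset.mem_univ _, hq, d3, d4, ?_⟩,
      hR.ends hx hgk⟩, ?_⟩
    · rw [← hz _ hl hq, M.iota2]
      exact hr
    · show blk M x (gp0 M (M.rho k)) = β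
      rw [gp0_rho]; exact hb.symm
  have s2 : ∑ β ∈ 𝒟, ‖∑ g ∈ β, a g‖ ^ 2 ≤
      ∑ p ∈ Γ, ‖∑ g ∈ blk M x (gp0 M p), a g‖ ^ 2 :=
    (Finset.sum_le_sum_of_subset_of_nonneg s1 fun _ _ _ => by positivity).trans
      (Finset.sum_image_le_of_nonneg (s := Γ) (g := fun p => blk M x (gp0 M p))
        (f := fun β => ‖∑ h ∈ β, a h‖ ^ 2) (fun _ _ => by positivity))
  rw [e1]
  refine s2.trans ?_
  rw [hΓ, Finset.sum_filter]
  refine Finset.sum_le_sum fun p _ => ?_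
  have hnn : ∀ q ∈ Qc M o z r p, 0 ≤ (if χ o = 0 ∧ Ends M o x p q then
      ‖∑ g ∈ blk M x (gp0 M p), a g‖ ^ 2 else 0) := by
    intro q _
    split_ifs <;> positivity
  split_ifs with h
  · obtain ⟨q, hq, hE⟩ := h
    refine le_trans ?_ (Finset.single_le_sum hnn hq)
    rw [if_pos ⟨h0, hE⟩]
  · exact Finset.sum_nonneg hnn

/-- **deep chords and forward strands** -/
theorem deep_le (hKA : ∀ d ∈ Kd M (Fd M Dp), M.cell d ≠ o) {χ : C → ZMod 2} (h0 : χ o = 0) :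
    (dch M o Dp (cfg M χ)).card ≤
      ((Ps M o).filter fun p => Fw M o (Fd M Dp) p χ).card := by
  set x := cfg M χ with hxd
  have hx : IsC M ∅ x := cfg_isC χ
  refine (Finset.card_le_card ?_).trans
    (Finset.card_image_le (f := fun p => blk M x (gp0 M p)))
  intro β hβ
  obtain ⟨h1, ⟨k, hk, hko⟩, g, hg, hgF⟩ := Finset.mem_filter.1 hβ
  obtain ⟨hgk, hb⟩ := mem_blks hx h1 hk
  obtain ⟨n, hR⟩ := exists_ret hx hgk hko
  rw [hb] at hg
  obtain ⟨d1, d2, -, -⟩ := deep_ends hKA h0 hgk hR hg hgF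
  refine Finset.mem_image.2 ⟨M.rho k, Finset.mem_filter.2 ⟨d1, d2⟩, ?_⟩
  show blk M x (gp0 M (M.rho k)) = β
  rw [gp0_rho]; exact hb.symm

/-! ### half of the colourings -/

omit [Fintype D] in
theorem half [Fintype C] (F : (D → ZMod 2) → ℝ) :
    2 * ∑ χ : C → ZMod 2, (if χ o = 0 then F (cfg M χ) else 0) =
      ∑ χ : C → ZMod 2, F (cfg M χ) := by
  have e1 : ∑ χ : C → ZMod 2, (if χ o = 0 then F (cfg M χ) else 0) =
      ∑ χ : C → ZMod 2, (if χ o = 0 then 0 else F (cfg M χ)) := by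
    refine Fintype.sum_equiv (Equiv.addRight (fun _ : C => (1 : ZMod 2))) _ _ fun χ => ?_
    have h1 : (Equiv.addRight (fun _ : C => (1 : ZMod 2))) χ = fun c => χ c + 1 := rfl
    rw [h1, cfg_flip]
    rcases z01 (χ o) with h | h
    · rw [if_pos h, if_neg (by show ¬ (χ o + 1 = 0); rw [h]; decide)]
    · rw [if_neg (by rw [h]; decide), if_pos (by show χ o + 1 = 0; rw [h]; decide)]
  rw [two_mul]
  nth_rewrite 2 [e1]
  rw [← Finset.sum_add_distrib]
  refine Finset.sum_congr rfl fun χ _ => ?_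
  split_ifs <;> simp

theorem half_ev [Fintype C] (F : (D → ZMod 2) → ℝ) {B : ℝ}
    (h : ∑ χ : C → ZMod 2, (if χ o = 0 then F (cfg M χ) else 0) ≤ B * 2 ^ Fintype.card C) :
    ∑ x ∈ ev M, F x ≤ 2 * B * (ev M).card := by
  have h1 := half (M := M) (o := o) F
  rw [sum_cfg F, nsmul_eq_mul] at h1
  have h2 : (nK M : ℝ) * nE M = 2 ^ Fintype.card C := by exact_mod_cast nK_mul_nE (M := M)
  have h3 : (nE M : ℝ) = (ev M).card := rfl
  rw [h3] at h2
  have h4 : (0 : ℝ) < nK M := by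
    have h5 : (0 : ℝ) < 2 ^ Fintype.card C := by positivity
    rw [← h2] at h5
    by_contra hc
    have h6 : (nK M : ℝ) = 0 := le_antisymm (not_lt.1 hc) (Nat.cast_nonneg _)
    rw [h6, zero_mul] at h5
    exact lt_irrefl _ h5
  rw [← h2] at h
  have h5 : (nK M : ℝ) * ∑ x ∈ ev M, F x ≤ (nK M : ℝ) * (2 * B * (ev M).card) := by
    rw [← h1]
    linarith
  exact le_of_mul_le_mul_left h5 h4

/-! ### finitely many cells -/

omit [Fintype D] in
/-- the arms -/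
theorem arm_of {Q : Finset D} {y : ℂ} {r1 : ℝ}
    (hQ : ∀ q ∈ Q, ‖j (M.cell (M.rho (M.rho q))) - y‖ ≤ r1)
    (hd : ∀ d ∈ Fd M Dp, d1 ≤ ‖j (M.cell d) - y‖) {K : Finset C}
    (H : ArmC M (NrD M Q) (FrD M Dp) K) : CntGx197.ArmC M j y r1 d1 K := by
  obtain ⟨c, hc, c', hc', ⟨q, hq, rfl⟩, ⟨d, hdF, rfl⟩, h3⟩ := H
  exact ⟨_, hc, _, hc', hQ q hq, hd d hdF, h3⟩

theorem chords_fin : ∀ C4 : ℝ, 0 ≤ C4 → ∃ C0 c c1 c2 K η : ℝ, 0 < C0 ∧ 0 < c ∧ 0 < c1 ∧
    0 < c2 ∧ c2 ≤ 1 ∧ 1 ≤ K ∧ 0 < η ∧ η ≤ 1 ∧ ∀ Rad d1 : ℝ, 0 < d1 → ∃ m : ℕ,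
    ∀ (S : Finset ℂ) (z0 : ℂ) (d R : ℝ), 0 < R → R ≤ η * d1 → d ≤ c1 * R →
    Dense S z0 Rad K d c2 R d1 C4 →
    ∀ {D C : Type} [Fintype D] [Fintype C] (M : CMap D C) (o : C) (j : C → ℂ),
    Sites M S {c | c ≠ o} j → ∀ (Dp : Finset C) (z : D → ℂ), Geo M o Dp j z z0 Rad R d1 →
    (∑ x ∈ ev M, ((dch M o Dp x).card : ℝ) ≤ m * (ev M).card) ∧
    ∀ w : ℂ, w ^ 3 = 1 → w ≠ 1 → (starRingEnd ℂ) w = w ^ 2 → ∀ a : D → ℂ, Spin M w a →
      (∀ d, a d ≠ 0 → d ∈ Fd M Dp) →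
      ∑ x ∈ ev M, ∑ β ∈ cch M o z (2 * R) x, ‖∑ g ∈ β, a g‖ ^ 2 ≤
        (∑ g, ‖a g‖ ^ 2) * (C0 * (R / d1) ^ c * m) * (ev M).card := by
  intro C4 hC4
  obtain ⟨C0, c, c1, c2, K, η, h1, h2, h3, h4, h5, h6, h7, h8, H⟩ := CntGx197.strands C4 hC4
  refine ⟨2 * C0, c, c1, c2, K, η, by positivity, h2, h3, h4, h5, h6, h7, h8, ?_⟩
  intro Rad d1 hd1
  obtain ⟨m, hm⟩ := H Rad d1 hd1
  refine ⟨2 * m, ?_⟩
  intro S z0 d R hR hRd hdR hD D C _ _ M o j HS Dp z G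
  obtain ⟨a1, a2, -⟩ := hm S z0 d R hR hRd hdR hD M o j HS
  -- forward strands
  have hPs : ∀ p ∈ Ps M o, M.cell p = o ∧ M.cell (M.rho p) ≠ o ∧
      M.cell (M.rho (M.rho p)) ≠ o := fun p hp => (Finset.mem_filter.1 hp).2
  have f1 : ∑ χ : C → ZMod 2, (((Ps M o).filter fun p => Fw M o (Fd M Dp) p χ).card : ℝ) ≤
      m * 2 ^ Fintype.card C := by
    refine a2 (fun χ => (Ps M o).filter fun p => Fw M o (Fd M Dp) p χ) z
      (fun χ p => (LF M o (Fd M Dp) p χ).erase o) ?_ ?_ ?_ ?_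
    · intro χ p hp
      obtain ⟨b1, b2, b3⟩ := hPs p (Finset.mem_filter.1 hp).1
      exact G.rad p b1 b2 b3
    · intro χ p hp c hc
      obtain ⟨hpP, hF⟩ := Finset.mem_filter.1 hp
      exact ⟨(Finset.mem_erase.1 hc).1, (fwd_chain G.far (hPs p hpP).1 hF).2.2.1 c hc⟩
    · intro χ p hp p' hp' hne
      obtain ⟨hpP, hF⟩ := Finset.mem_filter.1 hp
      obtain ⟨hpP', hF'⟩ := Finset.mem_filter.1 hp'
      rw [Finset.disjoint_left]
      intro c hc hc'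
      obtain ⟨hcA, hcL⟩ := Finset.mem_erase.1 hc
      exact hcA (fwd_disj G.con G.far (hPs p hpP).1 (hPs p' hpP').1 hne.symm hF hF' hcL
        (Finset.mem_erase.1 hc').2)
    · intro χ p hp
      obtain ⟨hpP, hF⟩ := Finset.mem_filter.1 hp
      obtain ⟨b1, b2, b3⟩ := hPs p hpP
      obtain ⟨c1, ⟨d, hd, c2⟩, -, c4⟩ := fwd_chain G.far b1 hF
      exact ⟨_, c1, _, c2, (G.nr p b1 b2 b3).2, G.dp p b1 b2 b3 d hd, c4 _ c1 _ c2⟩
  constructor
  · -- [N]
    have h := half_ev (M := M) (o := o) (fun x => ((dch M o Dp x).card : ℝ)) (B := m) ?_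
    · refine h.trans (le_of_eq ?_)
      push_cast
      ring
    · refine (Finset.sum_le_sum fun χ _ => ?_).trans f1
      show (if χ o = 0 then ((dch M o Dp (cfg M χ)).card : ℝ) else 0) ≤ _
      split_ifs with h0
      · exact_mod_cast deep_le G.far h0
      · exact Nat.cast_nonneg _
  · -- [B]
    intro w w3 w1 wc a hs ha
    have hE : 0 ≤ ∑ g, ‖a g‖ ^ 2 := Finset.sum_nonneg fun g _ => by positivity
    set θ : ℝ := C0 * (R / d1) ^ c with hθd
    have hθ0 : 0 ≤ θ := by positivity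
    have hpq : ∀ p ∈ Ps M o, ∑ q ∈ Qc M o z (2 * R) p,
        ((Finset.univ.filter (Wp M o (Fd M Dp) p q)).card : ℝ) ≤
        2 * θ * ((Finset.univ.filter (Fw M o (Fd M Dp) p)).card : ℝ) := by
      intro p hp
      obtain ⟨b1, b2, b3⟩ := hPs p hp
      have hy := G.rad p b1 b2 b3
      obtain ⟨-, k2⟩ := a1 (z p) hy ∅ (Finset.notMem_empty _)
      have h9 := pairs_count (M := M) (A := o) (Dp := Dp) (p := p) G.con G.far b1
        (Q := Qc M o z (2 * R) p) (fun q hq => (Finset.mem_filter.1 hq).2.1) (θ := θ) hθ0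
        (by linarith) ?_
      · refine h9.trans (mul_le_mul_of_nonneg_right ?_ (Nat.cast_nonneg _))
        rw [div_le_iff₀ (by linarith)]
        nlinarith
      · intro V hV
        refine (pr_mono fun K _ hK => ?_).trans (a1 (z p) hy V hV).1
        refine arm_of ?_ (G.dp p b1 b2 b3) hK
        intro q hq
        obtain ⟨-, q1, q2, q3, q4⟩ := Finset.mem_filter.1 hq
        have h10 := (G.nr (M.rho q) q1 q3 (by rw [M.rho3]; exact q2)).1
        have e : j (M.cell (M.rho (M.rho q))) - z p =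
            (j (M.cell (M.rho (M.rho q))) - z (M.rho q)) - (z p - z (M.rho q)) := by ring
        rw [e]
        refine (norm_sub_le _ _).trans ?_
        linarith
    have f2 : ∑ p ∈ Ps M o, ((Finset.univ.filter (Fw M o (Fd M Dp) p)).card : ℝ) ≤
        m * 2 ^ Fintype.card C := by
      refine le_trans (le_of_eq ?_) f1
      calc ∑ p ∈ Ps M o, ((Finset.univ.filter (Fw M o (Fd M Dp) p)).card : ℝ)
          = ∑ p ∈ Ps M o, ∑ χ : C → ZMod 2, (if Fw M o (Fd M Dp) p χ then (1 : ℝ) else 0) := by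
            refine Finset.sum_congr rfl fun p _ => ?_
            rw [Finset.sum_boole]
        _ = ∑ χ : C → ZMod 2, ∑ p ∈ Ps M o, (if Fw M o (Fd M Dp) p χ then (1 : ℝ) else 0) :=
            Finset.sum_comm
        _ = _ := by
            refine Finset.sum_congr rfl fun χ _ => ?_
            rw [Finset.sum_boole]
    have h := half_ev (M := M) (o := o)
      (fun x => ∑ β ∈ cch M o z (2 * R) x, ‖∑ g ∈ β, a g‖ ^ 2)
      (B := (∑ g, ‖a g‖ ^ 2) * (2 * θ * m)) ?_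
    · refine h.trans (le_of_eq ?_)
      rw [hθd]
      push_cast
      ring
    · calc ∑ χ : C → ZMod 2, (if χ o = 0 then
            ∑ β ∈ cch M o z (2 * R) (cfg M χ), ‖∑ g ∈ β, a g‖ ^ 2 else 0)
          ≤ ∑ χ : C → ZMod 2, ∑ p ∈ Ps M o, ∑ q ∈ Qc M o z (2 * R) p,
            (if χ o = 0 ∧ Ends M o (cfg M χ) p q then
              ‖∑ g ∈ blk M (cfg M χ) (gp0 M p), a g‖ ^ 2 else 0) := by
            refine Finset.sum_le_sum fun χ _ => ?_
            by_cases h0 : χ o = 0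
            · rw [if_pos h0]
              exact close_le G.far G.zio ha h0
            · rw [if_neg h0]
              refine Finset.sum_nonneg fun p _ => Finset.sum_nonneg fun q _ => ?_
              split_ifs <;> positivity
        _ = ∑ p ∈ Ps M o, ∑ q ∈ Qc M o z (2 * R) p, ∑ χ : C → ZMod 2,
            (if χ o = 0 ∧ Ends M o (cfg M χ) p q then
              ‖∑ g ∈ blk M (cfg M χ) (gp0 M p), a g‖ ^ 2 else 0) := by
            rw [Finset.sum_comm]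
            refine Finset.sum_congr rfl fun p _ => ?_
            rw [Finset.sum_comm]
        _ ≤ ∑ p ∈ Ps M o, ∑ q ∈ Qc M o z (2 * R) p, (∑ g, ‖a g‖ ^ 2) *
            ((Finset.univ.filter (Wp M o (Fd M Dp) p q)).card : ℝ) := by
            refine Finset.sum_le_sum fun p hp => Finset.sum_le_sum fun q hq => ?_
            exact pair_frame w3 w1 wc hs fd_inv G.far ha (hPs p hp).1
              (Finset.mem_filter.1 hq).2.1
        _ = (∑ g, ‖a g‖ ^ 2) * ∑ p ∈ Ps M o, ∑ q ∈ Qc M o z (2 * R) p,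
            ((Finset.univ.filter (Wp M o (Fd M Dp) p q)).card : ℝ) := by
            rw [Finset.mul_sum]
            exact Finset.sum_congr rfl fun p _ => by rw [Finset.mul_sum]
        _ ≤ (∑ g, ‖a g‖ ^ 2) * ∑ p ∈ Ps M o, 2 * θ *
            ((Finset.univ.filter (Fw M o (Fd M Dp) p)).card : ℝ) :=
            mul_le_mul_of_nonneg_left (Finset.sum_le_sum hpq) hE
        _ = (∑ g, ‖a g‖ ^ 2) * (2 * θ * ∑ p ∈ Ps M o,
            ((Finset.univ.filter (Fw M o (Fd M Dp) p)).card : ℝ)) := by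
            rw [← Finset.mul_sum]
        _ ≤ (∑ g, ‖a g‖ ^ 2) * (2 * θ * (m * 2 ^ Fintype.card C)) := by
            gcongr
        _ = _ := by ring

/-! ### infinitely many cells -/

omit [Fintype D] in
theorem con_restr {c c' : C} (H : Relation.EqvGen (AdjS M Dp) c c') {Dp' : Finset (Set.range M.cell)}
    (hD : ∀ c, c ∈ Dp' ↔ c.1 ∈ Dp) : c = c' ∨ ∃ (h : c ∈ Set.range M.cell)
      (h' : c' ∈ Set.range M.cell), Relation.EqvGen (AdjS (restr M) Dp') ⟨c, h⟩ ⟨c', h'⟩ := by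
  induction H with
  | rel c c' h =>
    obtain ⟨h1, h2, d, hd, e, e'⟩ := h
    refine Or.inr ⟨⟨d, e⟩, ⟨_, e'⟩, Relation.EqvGen.rel _ _ ⟨(hD _).2 h1, (hD _).2 h2, d, hd,
      Subtype.ext e, Subtype.ext e'⟩⟩
  | refl c => exact Or.inl rfl
  | symm c c' _ ih =>
    rcases ih with h | ⟨h, h', H⟩
    · exact Or.inl h.symm
    · exact Or.inr ⟨h', h, Relation.EqvGen.symm _ _ H⟩
  | trans c c' c'' _ _ ih1 ih2 =>
    rcases ih1 with h1 | ⟨h1, h1', H1⟩
    · rw [h1]; exact ih2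
    · rcases ih2 with h2 | ⟨h2, h2', H2⟩
      · rw [← h2]; exact Or.inr ⟨h1, h1', H1⟩
      · exact Or.inr ⟨h1, h2', Relation.EqvGen.trans _ _ _ H1 H2⟩

/-- the deep cells of `restr M` -/
def dr (M : CMap D C) (Dp : Finset C) : Finset (Set.range M.cell) :=
  Finset.univ.filter fun c => c.1 ∈ Dp

theorem mem_dr {c : Set.range M.cell} : c ∈ dr M Dp ↔ c.1 ∈ Dp := by
  unfold dr
  simp

theorem fd_restr {d : D} : d ∈ Fd (restr M) (dr M Dp) ↔ d ∈ Fd M Dp := by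
  unfold Fd
  simp only [Set.mem_ofPred_eq, mem_dr]
  exact Iff.rfl

theorem geo_restr (G : Geo M o Dp j z z0 Rad R d1) (ho : o ∈ Set.range M.cell) :
    Geo (restr M) ⟨o, ho⟩ (dr M Dp) (fun c => j c.1) z z0 Rad R d1 := by
  have hc : ∀ {d : D}, (restr M).cell d = ⟨o, ho⟩ ↔ M.cell d = o := fun {d} =>
    ⟨fun h => congrArg Subtype.val h, fun h => Subtype.ext h⟩
  have hf : ∀ {d : D}, d ∈ Kd (restr M) (Fd (restr M) (dr M Dp)) ↔ d ∈ Kd M (Fd M Dp) := by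
    intro d
    unfold Kd
    simp only [Set.mem_ofPred_eq, fd_restr]
    exact Iff.rfl
  refine ⟨?_, ?_, ?_, ?_, ?_, ?_⟩
  · intro c h c' h'
    rw [mem_dr] at h h'
    rcases con_restr (Dp' := dr M Dp) (G.con c.1 h c'.1 h') (fun _ => mem_dr) with e | ⟨_, _, H⟩
    · have e' : c = c' := Subtype.ext e
      rw [e']
      exact Relation.EqvGen.refl _
    · exact H
  · intro d hd h
    exact G.far d (hf.1 hd) (hc.1 h)
  · intro d hd h
    exact G.zio d hd (hc.1 h)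
  · intro p h1 h2 h3
    exact G.rad p (hc.1 h1) (fun h => h2 (hc.2 h)) (fun h => h3 (hc.2 h))
  · intro p h1 h2 h3
    exact G.nr p (hc.1 h1) (fun h => h2 (hc.2 h)) (fun h => h3 (hc.2 h))
  · intro p h1 h2 h3 d hd
    exact G.dp p (hc.1 h1) (fun h => h2 (hc.2 h)) (fun h => h3 (hc.2 h)) d (fd_restr.1 hd)

omit [Fintype D] in
theorem sites_restr {S : Finset ℂ} (H : Sites M S {c | c ≠ o ∧ c ∈ Set.range M.cell} j)
    (ho : o ∈ Set.range M.cell) :
    Sites (restr M) S {c | c ≠ ⟨o, ho⟩} (fun c => j c.1) := by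
  have hc : ∀ {c : Set.range M.cell}, c ∈ {c | c ≠ (⟨o, ho⟩ : Set.range M.cell)} →
      c.1 ∈ {c | c ≠ o ∧ c ∈ Set.range M.cell} := fun {c} h => ⟨fun h' => h (Subtype.ext h'), c.2⟩
  exact ⟨fun c h c' h' e => Subtype.ext (H.inj _ (hc h) _ (hc h') e), fun c h => H.mem _ (hc h),
    fun d hd h1 h2 => H.adj d hd (hc h1) (hc h2)⟩

theorem dch_restr (ho : o ∈ Set.range M.cell) :
    dch (restr M) ⟨o, ho⟩ (dr M Dp) x = dch M o Dp x := by
  ext β
  rw [mem_dch, mem_dch, blks_restr]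
  refine and_congr Iff.rfl (and_congr ?_ ?_)
  · exact exists_congr fun k => and_congr Iff.rfl
      ⟨fun h => congrArg Subtype.val h, fun h => Subtype.ext h⟩
  · exact exists_congr fun g => and_congr Iff.rfl fd_restr

theorem cch_restr (ho : o ∈ Set.range M.cell) :
    cch (restr M) ⟨o, ho⟩ z r x = cch M o z r x := by
  have hc : ∀ {d : D}, (restr M).cell d = ⟨o, ho⟩ ↔ M.cell d = o := fun {d} =>
    ⟨fun h => congrArg Subtype.val h, fun h => Subtype.ext h⟩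
  ext β
  rw [mem_cch, mem_cch, blks_restr]
  refine and_congr Iff.rfl (exists_congr fun k => and_congr Iff.rfl
    (exists_congr fun n => and_congr ?_ Iff.rfl))
  unfold Ret
  refine and_congr Iff.rfl (and_congr hc (and_congr hc ?_))
  exact forall_congr' fun u => imp_congr Iff.rfl (imp_congr Iff.rfl (not_congr hc))

omit [Fintype D] in
theorem sum_noc [Fintype D] (ho : o ∉ Set.range M.cell) :
    (∀ x, dch M o Dp x = ∅) ∧ ∀ x, cch M o z r x = ∅ := by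
  constructor
  · intro x
    refine Finset.filter_eq_empty_iff.2 fun β _ h => ?_
    obtain ⟨⟨k, -, hk⟩, -⟩ := h
    exact ho ⟨_, hk⟩
  · intro x
    refine Finset.filter_eq_empty_iff.2 fun β _ h => ?_
    obtain ⟨k, -, n, hR, -⟩ := h
    exact ho ⟨_, hR.2.1⟩

/-- **[N], [B]** : the chords of a map with a giant cell -/
theorem chords : ∀ C4 : ℝ, 0 ≤ C4 → ∃ C0 c c1 c2 K η : ℝ, 0 < C0 ∧ 0 < c ∧ 0 < c1 ∧
    0 < c2 ∧ c2 ≤ 1 ∧ 1 ≤ K ∧ 0 < η ∧ η ≤ 1 ∧ ∀ Rad d1 : ℝ, 0 < d1 → ∃ m : ℕ,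
    ∀ (S : Finset ℂ) (z0 : ℂ) (d R : ℝ), 0 < R → R ≤ η * d1 → d ≤ c1 * R →
    Dense S z0 Rad K d c2 R d1 C4 →
    ∀ {D C : Type} [Fintype D] (M : CMap D C) (o : C) (j : C → ℂ),
    Sites M S {c | c ≠ o ∧ c ∈ Set.range M.cell} j → ∀ (Dp : Finset C) (z : D → ℂ), Geo M o Dp j z z0 Rad R d1 →
    (∑ x ∈ ev M, ((dch M o Dp x).card : ℝ) ≤ m * (ev M).card) ∧
    ∀ w : ℂ, w ^ 3 = 1 → w ≠ 1 → (starRingEnd ℂ) w = w ^ 2 → ∀ a : D → ℂ, Spin M w a →
      (∀ d, a d ≠ 0 → d ∈ Fd M Dp) →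
      ∑ x ∈ ev M, ∑ β ∈ cch M o z (2 * R) x, ‖∑ g ∈ β, a g‖ ^ 2 ≤
        (∑ g, ‖a g‖ ^ 2) * (C0 * (R / d1) ^ c * m) * (ev M).card := by
  intro C4 hC4
  obtain ⟨C0, c, c1, c2, K, η, h1, h2, h3, h4, h5, h6, h7, h8, H⟩ := chords_fin C4 hC4
  refine ⟨C0, c, c1, c2, K, η, h1, h2, h3, h4, h5, h6, h7, h8, ?_⟩
  intro Rad d1 hd1
  obtain ⟨m, hm⟩ := H Rad d1 hd1
  refine ⟨m, ?_⟩
  intro S z0 d R hR hRd hdR hD D C _ M o j HS Dp z G
  by_cases ho : o ∈ Set.range M.cell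
  · have : Fintype (Set.range M.cell) := Fintype.ofFinite _
    obtain ⟨a1, a2⟩ := hm S z0 d R hR hRd hdR hD (restr M) ⟨o, ho⟩ (fun c => j c.1)
      (sites_restr HS ho) (dr M Dp) z (geo_restr G ho)
    rw [ev_restr] at a1 a2
    simp only [dch_restr ho] at a1
    refine ⟨a1, fun w w3 w1 wc a hs ha => ?_⟩
    have a3 := a2 w w3 w1 wc a hs fun d hd => fd_restr.2 (ha d hd)
    simp only [cch_restr ho] at a3
    exact a3
  · obtain ⟨e1, e2⟩ := sum_noc (M := M) (o := o) (Dp := Dp) (z := z) (r := 2 * R) ho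
    constructor
    · simp only [e1, Finset.card_empty, Nat.cast_zero, Finset.sum_const_zero]
      positivity
    · intro w _ _ _ a _ _
      simp only [e2, Finset.sum_empty, Finset.sum_const_zero]
      have hE : 0 ≤ ∑ g, ‖a g‖ ^ 2 := Finset.sum_nonneg fun g _ => by positivity
      positivity

end Crest.Agent.R143.StrEx795
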