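import Crest.Agent.R143.Chord_795
import Crest.Agent.R143.Gnt_535

/-!
# Row 143 (S0194): pairs of strands of a chord (helper795, after notes 3505, 3606)

`M` closed map with a giant cell `A`; `Fs` = deep faces (support of the field `a`), far from `A`.
A chord = block of the gap `rho (rho p)`, `cell p = A`; the loop returns to `A` at the state `iota q`.

* `Kd`, `Bf`, `Bb` : stop sets of the forward walker `p` and of the backward walker `q`
* `Wp` : both strands reach the deep faces, their left cells are disjoint off `A`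
* `pair_frame` : `∑ χ, 1[p, q are the ends of a chord] ‖∑_chord a‖² ≤ ∑ ‖a‖² * #{χ | Wp}`
-/

set_option autoImplicit false

noncomputable section

open scoped Classical

namespace Crest.Agent.R143.StrFx795

open Crest.Agent.R143.Frame1x395 Crest.Agent.R143.Frame2x395 Crest.Agent.R143.Frame3x395
  Crest.Agent.R143.Frame4x395 Crest.Agent.R143.Frame8x395 Crest.Agent.R143.Frame9x395
  Crest.Agent.R143.NonXx592 Crest.Agent.R143.Coarsex166 Crest.Agent.R143.Coarse2x166
  Crest.Agent.R143.CFramex358 Crest.Agent.R143.Runx535 Crest.Agent.R143.Gntx535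
  Crest.Agent.R143.Chordx795

variable {D C : Type} {M : CMap D C} {x : D → ZMod 2} {A : C} {Fs : Set D} {p q : D}

/-! ### a chord of a map with a giant cell -/

theorem clsId (M : CMap D C) : ClsCon M (id : C → C) := by
  intro a b e
  have e' : M.cell a = M.cell b := e
  rw [e']
  exact Relation.EqvGen.refl _

theorem isC_id [Fintype D] (hx : IsC M ∅ x) : IsC (coarse M (id : C → C) (clsId M)) ∅ x := by
  refine isC_coarse.2 ⟨hx, fun d _ e => ?_⟩
  obtain ⟨χ, hχ⟩ := exists_cfg hx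
  have e' : M.cell d = M.cell (M.rho d) := e
  rw [← hχ]
  show χ (M.cell d) + χ (M.cell (M.rho d)) = 0
  rw [← e', z_self]

/-- the gap whose face contains the start dart -/
abbrev gp0 (M : CMap D C) (p : D) : D := M.rho (M.rho p)

theorem rho_gp0 (p : D) : M.rho (gp0 M p) = p := M.rho3 p

/-- the walk from `p` and the walk from `out (gp0 p)` -/
theorem P_gp0 (hx : IsC M ∅ x) (hg : Gp M x (gp0 M p)) (t : ℕ) :
    P M x p (t + 1) = P M x (out M (gp0 M p)) t := by
  have h1 := hg.stp hx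
  rw [rho_gp0] at h1
  rw [P_add, show P M x p 1 = stp M x p from rfl, h1]

/-- chord data for `p` -/
abbrev Ch (M : CMap D C) (A : C) (x : D → ZMod 2) (p : D) (N T : ℕ) : Prop :=
  Cho M (id : C → C) A x (gp0 M p) N T

theorem Ch.sep [Fintype D] (hx : IsC M ∅ x) {N T : ℕ} (H : Ch M A x p N T) {u v : ℕ}
    (hu : u < T) (hv : T ≤ v) (hvN : v < N) : Lc M x (gp0 M p) u ≠ Lc M x (gp0 M p) v :=
  Cho.sep (hπ := clsId M) (isC_id hx) H hu hv hvN

/-- the gaps of the chord -/
theorem Ch.blk [Fintype D] (hx : IsC M ∅ x) {N T : ℕ} (H : Ch M A x p N T) {g : D}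
    (hg : g ∈ blk M x (gp0 M p)) (hne : g ≠ gp0 M p) :
    ∃ b, b < T ∧ M.rho g = P M x (out M (gp0 M p)) b ∧
      out M g = P M x (out M (gp0 M p)) (b + 1) ∧
      ∀ u, u ≤ b → ∀ v, b < v → v < N → Lc M x (gp0 M p) u ≠ Lc M x (gp0 M p) v := by
  obtain ⟨b, hb, e⟩ := blk_time hx H hg hne
  have hgp := (mem_blk.1 hg).1
  have h1 := (H.mem_fine hx hb hgp e).1 hg
  have hTN := H.lt
  refine ⟨b, ?_, e, out_eq hx hgp e, h1⟩
  by_contra hc
  exact h1 T (not_lt.1 hc) (N - 1) (by omega) (by omega) (H.ret.trans H.lastA.symm)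

/-! ### stop sets -/

/-- darts of the deep faces, and their other sides -/
def Kd (M : CMap D C) (Fs : Set D) : Set D := {d | d ∈ Fs ∨ M.iota d ∈ Fs}

def Bf (M : CMap D C) (A : C) (Fs : Set D) : Set D := {d | M.cell d = A} ∪ Kd M Fs

def Bb (M : CMap D C) (A : C) (Fs : Set D) : Set D := {d | M.cell (M.rho d) = A} ∪ Kd M Fs

theorem kd_iota {d : D} : M.iota d ∈ Kd M Fs ↔ d ∈ Kd M Fs := by
  unfold Kd
  simp only [Set.mem_ofPred_eq, M.iota2]
  exact or_comm

/-- both strands reach the deep faces and have no common left cell -/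
def Wp (M : CMap D C) (A : C) (Fs : Set D) (p q : D) (χ : C → ZMod 2) : Prop :=
  χ A = 0 ∧ cfg M χ p = 1 ∧ cfg M χ q = 1 ∧
    P M (cfg M χ) p (hit M (cfg M χ) p (Bf M A Fs)) ∈ Kd M Fs ∧
    P M (cfg M χ) q (hit M (cfg M χ) q (Bb M A Fs)) ∈ Kd M Fs ∧
    ∀ c, c ∈ wl M (cfg M χ) p (hit M (cfg M χ) p (Bf M A Fs)) →
      c ∈ wr M (cfg M χ) q (hit M (cfg M χ) q (Bb M A Fs)) → c = A

/-- `p`, `q` are the ends of a chord -/
def Ends (M : CMap D C) (A : C) (x : D → ZMod 2) (p q : D) : Prop :=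
  Gp M x (gp0 M p) ∧
    M.iota q = P M x (out M (gp0 M p)) (tR M (id : C → C) A x (gp0 M p))

/-- the revealed cells -/
def RR (M : CMap D C) (A : C) (Fs : Set D) (p q : D) (χ : C → ZMod 2) : Finset C :=
  {A} ∪ (Rw M p (Bf M A Fs) χ ∪ Rw M q (Bb M A Fs) χ)

variable [Fintype D]

theorem RR_stp (hp : M.cell p = A) (hq : M.cell (M.rho q) = A) : Stp (RR M A Fs p q) := by
  have h1 : Stp (fun _ : C → ZMod 2 => ({A} : Finset C)) := fun _ _ _ => rfl
  exact Stp.union h1 (Stp.union (Rw_stp (Or.inl hp)) (Rw_stp (Or.inl hq)))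

theorem Wp_imp (hp : M.cell p = A) (hq : M.cell (M.rho q) = A) {χ χ' : C → ZMod 2}
    (ha : ∀ c ∈ RR M A Fs p q χ, χ' c = χ c) (H : Wp M A Fs p q χ) : Wp M A Fs p q χ' := by
  obtain ⟨h0, h1, h2, h3, h4, h5⟩ := H
  obtain ⟨a1, a2, a3⟩ := hit_agree (B := Bf M A Fs) (Or.inl hp) h1 fun c hc =>
    ha c (Finset.mem_union_right _ (Finset.mem_union_left _ hc))
  obtain ⟨b1, b2, b3⟩ := hit_agree (B := Bb M A Fs) (Or.inl hq) h2 fun c hc =>
    ha c (Finset.mem_union_right _ (Finset.mem_union_right _ hc))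
  refine ⟨?_, a1, b1, ?_, ?_, ?_⟩
  · rw [ha A (Finset.mem_union_left _ (Finset.mem_singleton_self A)), h0]
  · rw [a2, a3 _ le_rfl]; exact h3
  · rw [b2, b3 _ le_rfl]; exact h4
  · intro c hc1 hc2
    rw [mem_wl, a2] at hc1
    rw [mem_wr, b2] at hc2
    obtain ⟨t, ht, e⟩ := hc1
    obtain ⟨s, hs, e'⟩ := hc2
    rw [a3 t ht] at e
    rw [b3 s hs] at e'
    exact h5 c (mem_wl.2 ⟨t, ht, e⟩) (mem_wr.2 ⟨s, hs, e'⟩)

/-! ### the three giants -/

omit [Fintype D] in
theorem con_mono {S T : Finset C} (h : S ⊆ T) {c c' : C}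
    (H : Relation.EqvGen (AdjS M S) c c') : Relation.EqvGen (AdjS M T) c c' := by
  induction H with
  | rel c c' h1 => exact Relation.EqvGen.rel _ _ ⟨h h1.1, h h1.2.1, h1.2.2⟩
  | refl c => exact Relation.EqvGen.refl _
  | symm c c' _ ih => exact Relation.EqvGen.symm _ _ ih
  | trans c c' c'' _ _ ih1 ih2 => exact Relation.EqvGen.trans _ _ _ ih1 ih2

omit [Fintype D] in
theorem con_union {S T : Finset C} (hS : ∀ c ∈ S, ∀ c' ∈ S, Relation.EqvGen (AdjS M S) c c')
    (hT : ∀ c ∈ T, ∀ c' ∈ T, Relation.EqvGen (AdjS M T) c c') {e : C} (he : e ∈ S) (he' : e ∈ T) :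
    ∀ c ∈ S ∪ T, ∀ c' ∈ S ∪ T, Relation.EqvGen (AdjS M (S ∪ T)) c c' := by
  have key : ∀ c ∈ S ∪ T, Relation.EqvGen (AdjS M (S ∪ T)) e c := by
    intro c hc
    rcases Finset.mem_union.1 hc with h | h
    · exact con_mono Finset.subset_union_left (hS e he c h)
    · exact con_mono Finset.subset_union_right (hT e he' c h)
  intro c hc c' hc'
  exact Relation.EqvGen.trans _ _ _ (Relation.EqvGen.symm _ _ (key c hc)) (key c' hc')

/-- the three giants -/
def F3 (S0 S1 S2 : Finset C) (i : Fin 3) : Finset C :=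
  if i = 0 then S0 else if i = 1 then (if Disjoint S1 S2 then S1 else S1 ∪ S2)
    else (if Disjoint S1 S2 then S2 else ∅)

omit [Fintype D] in
theorem F3_sub {S0 S1 S2 : Finset C} {i : Fin 3} (hi : i ≠ 0) {c : C} (hc : c ∈ F3 S0 S1 S2 i) :
    c ∈ S1 ∪ S2 := by
  unfold F3 at hc
  rw [if_neg hi] at hc
  split_ifs at hc with h1 h2 h2
  · exact Finset.mem_union_left _ hc
  · exact hc
  · exact Finset.mem_union_right _ hc
  · exact absurd hc (Finset.notMem_empty _)

omit [Fintype D] in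
theorem F3_disj {S0 S1 S2 : Finset C} (h : Disjoint S0 (S1 ∪ S2)) :
    ∀ i j c, c ∈ F3 S0 S1 S2 i → c ∈ F3 S0 S1 S2 j → i = j := by
  have h0 : ∀ c, c ∈ F3 S0 S1 S2 0 → c ∈ S0 := by
    intro c hc
    unfold F3 at hc
    rwa [if_pos rfl] at hc
  have h12 : ∀ c, c ∈ F3 S0 S1 S2 1 → c ∈ F3 S0 S1 S2 2 → False := by
    intro c hc hc'
    unfold F3 at hc hc'
    rw [if_neg (by decide), if_pos rfl] at hc
    rw [if_neg (by decide), if_neg (by decide)] at hc'
    by_cases hd : Disjoint S1 S2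
    · rw [if_pos hd] at hc hc'
      exact Finset.disjoint_left.1 hd hc hc'
    · rw [if_neg hd] at hc'
      exact absurd hc' (Finset.notMem_empty _)
  have h3 : ∀ i : Fin 3, i ≠ 0 → ∀ c, c ∈ F3 S0 S1 S2 0 → c ∈ F3 S0 S1 S2 i → False :=
    fun i hi c hc hc' => Finset.disjoint_left.1 h (h0 c hc) (F3_sub hi hc')
  intro i j c hi hj
  by_contra hne
  fin_cases i <;> fin_cases j
  · exact hne rfl
  · exact h3 1 (by decide) c hi hj
  · exact h3 2 (by decide) c hi hj
  · exact h3 1 (by decide) c hj hi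
  · exact hne rfl
  · exact h12 c hi hj
  · exact h3 2 (by decide) c hj hi
  · exact h12 c hj hi
  · exact hne rfl

omit [Fintype D] in
theorem F3_con {S0 S1 S2 : Finset C}
    (h0 : ∀ c ∈ S0, ∀ c' ∈ S0, Relation.EqvGen (AdjS M S0) c c')
    (h1 : ∀ c ∈ S1, ∀ c' ∈ S1, Relation.EqvGen (AdjS M S1) c c')
    (h2 : ∀ c ∈ S2, ∀ c' ∈ S2, Relation.EqvGen (AdjS M S2) c c') :
    ∀ i, ∀ c ∈ F3 S0 S1 S2 i, ∀ c' ∈ F3 S0 S1 S2 i,
      Relation.EqvGen (AdjS M (F3 S0 S1 S2 i)) c c' := by
  intro i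
  unfold F3
  split_ifs with a1 a2 a3 a3
  · exact h0
  · exact h1
  · obtain ⟨e, he, he'⟩ := Finset.not_disjoint_iff.1 a3
    exact con_union h1 h2 he he'
  · exact h2
  · intro c hc
    exact absurd hc (Finset.notMem_empty _)

omit [Fintype D] in
theorem F3_union (S0 S1 S2 : Finset C) :
    Finset.univ.biUnion (F3 S0 S1 S2) = S0 ∪ (S1 ∪ S2) := by
  ext c
  rw [Finset.mem_biUnion, Finset.mem_union]
  constructor
  · rintro ⟨i, -, hc⟩
    by_cases hi : i = 0
    · left
      subst hi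
      unfold F3 at hc
      rwa [if_pos rfl] at hc
    · exact Or.inr (F3_sub hi hc)
  · rintro (hc | hc)
    · refine ⟨0, Finset.mem_univ _, ?_⟩
      unfold F3
      rwa [if_pos rfl]
    · by_cases hd : Disjoint S1 S2
      · rcases Finset.mem_union.1 hc with h | h
        · refine ⟨1, Finset.mem_univ _, ?_⟩
          unfold F3
          rwa [if_neg (by decide), if_pos rfl, if_pos hd]
        · refine ⟨2, Finset.mem_univ _, ?_⟩
          unfold F3
          rwa [if_neg (by decide), if_neg (by decide), if_pos hd]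
      · refine ⟨1, Finset.mem_univ _, ?_⟩
        unfold F3
        rwa [if_neg (by decide), if_pos rfl, if_neg hd]

/-! ### the times of the deep gaps of a chord -/

omit [Fintype D] in
theorem hit_le {B : Set D} {n : ℕ} (h1 : 1 ≤ n) (h2 : P M x p n ∈ B) : hit M x p B ≤ n := by
  have h : ∃ n, 1 ≤ n ∧ P M x p n ∈ B := ⟨n, h1, h2⟩
  by_contra hc
  exact hit_min h (not_le.1 hc) h1 h2

/-- the deep gaps of a chord come after the forward strand and before the backward strand -/
theorem deep_time (hx : IsC M ∅ x) (hFs : Inv M Fs) (hKA : ∀ d ∈ Kd M Fs, M.cell d ≠ A)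
    {N T : ℕ} (H : Ch M A x p N T) (hq : M.iota q = P M x (out M (gp0 M p)) T) {g : D}
    (hg : g ∈ blk M x (gp0 M p)) (hgF : g ∈ Fs) :
    ∃ b, b + 1 < T ∧ M.rho g = P M x (out M (gp0 M p)) b ∧
      hit M x p (Bf M A Fs) ≤ b + 1 ∧ P M x p (b + 1) ∈ Bf M A Fs ∧
      hit M x q (Bb M A Fs) ≤ T - (b + 1) ∧ P M x q (T - (b + 1)) ∈ Bb M A Fs ∧
      ∀ u, u ≤ b → ∀ v, b < v → v < N → Lc M x (gp0 M p) u ≠ Lc M x (gp0 M p) v := by
  have hgp := H.gp
  have k1 : M.rho g ∈ Kd M Fs := Or.inl ((hFs g).2 hgF)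
  have k2 : out M g ∈ Kd M Fs := Or.inr (by
    unfold out
    rw [M.iota2, hFs, hFs]
    exact hgF)
  have hne : g ≠ gp0 M p := by
    rintro rfl
    have h1 := hKA _ k1
    exact h1 H.old
  obtain ⟨b, hb, e1, e2, h3⟩ := H.blk hx hg hne
  have hbT : b + 1 < T := by
    rcases Nat.lt_or_ge (b + 1) T with h | h
    · exact h
    · exfalso
      have h4 : b + 1 = T := by omega
      have h5 := hKA _ k2
      rw [e2, h4] at h5
      exact h5 H.ret
  have f1 : P M x p (b + 1) ∈ Bf M A Fs := by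
    rw [P_gp0 hx hgp, ← e1]
    exact Or.inr k1
  have f2 : P M x q (T - (b + 1)) ∈ Bb M A Fs := by
    have h4 : q = M.iota (P M x (out M (gp0 M p)) T) := by rw [← hq, M.iota2]
    rw [h4, P_rev hx (hgp.out hx) (by omega), show T - (T - (b + 1)) = b + 1 by omega, ← e2]
    exact Or.inr (kd_iota.2 k2)
  exact ⟨b, hbT, e1, hit_le (by omega) f1, f1, hit_le (by omega) f2, f2, h3⟩

/-- **the runs of the two strands** -/
theorem runs_chord (hFs : Inv M Fs) (hKA : ∀ d ∈ Kd M Fs, M.cell d ≠ A) {χ : C → ZMod 2}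
    {a : D → ℂ} (ha : ∀ d, a d ≠ 0 → d ∈ Fs) (hp : M.cell p = A) (h0 : χ A = 0)
    (hE : Ends M A (cfg M χ) p q) {S : Fin 3 → Finset C}
    {hS : ∀ i j c, c ∈ S i → c ∈ S j → i = j}
    (hS0 : S 0 = wl M (cfg M χ) p (hit M (cfg M χ) p (Bf M A Fs)) ∪
      wr M (cfg M χ) q (hit M (cfg M χ) q (Bb M A Fs)))
    (hSi : ∀ i, i ≠ 0 → ∀ c ∈ S i, χ c = 1) :
    ∃ (p' : D) (N : ℕ) (𝓡 : Set (ℕ × ℕ)), Runs M (gq S hS) (cfg M χ) p' N 𝓡 ∧
      ∀ g ∈ blk M (cfg M χ) (gp0 M p), a g ≠ 0 →
        ∃ t, t < N ∧ Fresh 𝓡 t ∧ M.rho g = P M (cfg M χ) p' t := by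
  set x := cfg M χ with hxdef
  have hx : IsC M ∅ x := cfg_isC χ
  obtain ⟨hgp, hq⟩ := hE
  obtain ⟨N, T, H⟩ := exists_cho (π := (id : C → C)) (A := A) hx hgp (by rw [rho_gp0]; exact hp)
  rw [H.tR_eq] at hq
  have hH : Ch M A x p N T := H
  set o := out M (gp0 M p) with hodef
  have hTN := H.lt
  have hper : P M x o N = o := H.per
  by_cases hex : ∃ g ∈ blk M x (gp0 M p), a g ≠ 0
  · obtain ⟨g, hg, hag⟩ := hex
    obtain ⟨b, hb, -, hb1, hb1', hb2, hb2', -⟩ := deep_time hx hFs hKA hH hq hg (ha g hag)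
    have sp1 := hit_spec (p := p) (B := Bf M A Fs) (M := M) (x := x) ⟨b + 1, by omega, hb1'⟩
    have sp2 := hit_spec (p := q) (B := Bb M A Fs) (M := M) (x := x)
      ⟨T - (b + 1), by omega, hb2'⟩
    have hS0' := hS0
    set j := hit M x p (Bf M A Fs) with hj
    set m := hit M x q (Bb M A Fs) with hm
    obtain ⟨l, hl⟩ : ∃ l, l = T - m := ⟨_, rfl⟩
    have hlb : b + 1 ≤ l := by omega
    have hlT : l + 1 ≤ T := by omega
    have hPl : ∀ w, P M x (P M x o l) w = P M x o (w + l) := fun w => (P_add _ _ _).symm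
    have hxp : x p = 1 := by
      have := hgp.2
      rwa [rho_gp0] at this
    refine ⟨P M x o l, N, {(0, N - l + j)}, ?_, ?_⟩
    · refine runs_of_giants ?_ ?_ ?_
      · rw [hPl, Nat.add_comm, P_per hper]
      · intro u v huv hvN e
        rw [hPl, hPl, Nat.add_comm u, Nat.add_comm v, P_add, P_add] at e
        have e' := it_inj hx (occ_it hx (hgp.out hx) u) (occ_it hx (hgp.out hx) v) l e
        exact H.inj u v huv hvN e'
      · rintro i ⟨u, hu, hu'⟩
        by_cases hi : i = 0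
        · subst hi
          refine ⟨(0, N - l + j), rfl, fun w hw hw' => ?_⟩
          rw [hS0', Finset.mem_union] at hw'
          rcases hw' with hw' | hw'
          · obtain ⟨t, ht, e⟩ := mem_wl.1 hw'
            rcases t with _ | t
            · refine ⟨N - 1 - l, Nat.zero_le _, by show N - 1 - l < N - l + j; omega,
                by omega, ?_⟩
              rw [hPl, show N - 1 - l + l = N - 1 by omega, ← H.last, rho_gp0]
              exact e
            · refine ⟨N - l + t, Nat.zero_le _, by show N - l + t < N - l + j; omega,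
                by omega, ?_⟩
              rw [hPl, show N - l + t + l = t + N by omega, P_per hper]
              rw [← e, P_gp0 hx hgp]
          · obtain ⟨t, ht, e⟩ := mem_wr.1 hw'
            have h4 : q = M.iota (P M x o T) := by rw [← hq, M.iota2]
            rw [h4, P_rev hx (hgp.out hx) (by omega), rc_iota hx (P_occ hx (hgp.out hx) _)] at e
            refine ⟨T - t - l, Nat.zero_le _, by show T - t - l < N - l + j; omega,
              by omega, ?_⟩
            rw [hPl, show T - t - l + l = T - t by omega]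
            exact e
        · exfalso
          have h5 := hSi i hi _ hu'
          have h6 : M.cell (P M x (P M x o l) u) ∈ wl M (cfg M χ) p (u + l + 1) := by
            refine mem_wl.2 ⟨u + l + 1, le_rfl, ?_⟩
            rw [hPl, ← hxdef, P_gp0 hx hgp]
          rw [wl_col hxp h6, hp, h0] at h5
          exact absurd h5 (by decide)
    · intro g' hg' hag'
      obtain ⟨b', hb', e', c1, -, c2, -, -⟩ := deep_time hx hFs hKA hH hq hg' (ha g' hag')
      rw [← hj] at c1
      rw [← hm] at c2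
      refine ⟨b' + N - l, by omega, ?_, ?_⟩
      · rintro r rfl
        right
        show N - l + j ≤ b' + N - l + 1
        omega
      · rw [hPl, show b' + N - l + l = b' + N by omega, P_per hper]
        exact e'
  · refine ⟨o, N, {(0, N)}, ?_, ?_⟩
    · refine runs_of_giants H.per H.inj ?_
      rintro i -
      exact ⟨(0, N), rfl, fun w hw _ => ⟨w, Nat.zero_le _, hw, hw, rfl⟩⟩
    · intro g hg hag
      exact absurd ⟨g, hg, hag⟩ hex

/-- **a chord with a deep gap has two disjoint strands** -/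
theorem Wp_of (hFs : Inv M Fs) (hKA : ∀ d ∈ Kd M Fs, M.cell d ≠ A) {χ : C → ZMod 2}
    (hp : M.cell p = A) (h0 : χ A = 0)
    (hE : Ends M A (cfg M χ) p q) {g : D} (hg : g ∈ blk M (cfg M χ) (gp0 M p)) (hgF : g ∈ Fs) :
    Wp M A Fs p q χ := by
  set x := cfg M χ with hxdef
  have hx : IsC M ∅ x := cfg_isC χ
  obtain ⟨hgp, hq'⟩ := hE
  obtain ⟨N, T, H⟩ := exists_cho (π := (id : C → C)) (A := A) hx hgp (by rw [rho_gp0]; exact hp)
  rw [H.tR_eq] at hq'
  have hH : Ch M A x p N T := H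
  obtain ⟨b, hb, -, hb1, hb1', hb2, hb2', hsep⟩ := deep_time hx hFs hKA hH hq' hg hgF
  have sp1 := hit_spec (p := p) (B := Bf M A Fs) (M := M) (x := x) ⟨b + 1, by omega, hb1'⟩
  have sp2 := hit_spec (p := q) (B := Bb M A Fs) (M := M) (x := x)
    ⟨T - (b + 1), by omega, hb2'⟩
  have h4 : q = M.iota (P M x (out M (gp0 M p)) T) := by rw [← hq', M.iota2]
  have hxp : x p = 1 := by
    have := hgp.2
    rwa [rho_gp0] at this
  have hPq : ∀ t, t ≤ T → P M x q t = M.iota (P M x (out M (gp0 M p)) (T - t)) := by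
    intro t ht
    rw [h4]
    exact P_rev hx (hgp.out hx) ht
  have hRq : ∀ t, t ≤ T → Rc M (P M x q t) = Lc M x (gp0 M p) (T - t) := by
    intro t ht
    rw [hPq t ht, rc_iota hx (P_occ hx (hgp.out hx) _)]
  have hxq : x q = 1 := by
    have := hPq 0 (Nat.zero_le _)
    rw [show P M x q 0 = q from rfl] at this
    rw [this, hx.iot]
    exact P_occ hx (hgp.out hx) _
  have hTN := H.lt
  refine ⟨h0, hxp, hxq, ?_, ?_, ?_⟩
  · -- forward strand
    rcases sp1.2 with h5 | h5
    · exfalso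
      obtain ⟨t, ht⟩ : ∃ t, hit M x p (Bf M A Fs) = t + 1 := ⟨_, (Nat.sub_add_cancel sp1.1).symm⟩
      have h6 : M.cell (P M x p (hit M x p (Bf M A Fs))) = A := h5
      rw [ht, P_gp0 hx hgp] at h6
      exact H.off t (by omega) h6
    · exact h5
  · rcases sp2.2 with h5 | h5
    · exfalso
      have h6 : Rc M (P M x q (hit M x q (Bb M A Fs))) = A := h5
      rw [hRq _ (by omega)] at h6
      exact H.off _ (by omega) h6
    · exact h5
  · intro c hc1 hc2
    obtain ⟨t, ht, e⟩ := mem_wl.1 hc1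
    obtain ⟨s, hs, e'⟩ := mem_wr.1 hc2
    rw [← hxdef] at ht e hs e'
    rcases t with _ | t
    · rw [← e]
      exact hp
    · rw [P_gp0 hx hgp] at e
      rw [hRq s (by omega)] at e'
      exact absurd (e.trans e'.symm) (hsep t (by omega) (T - s) (by omega) (by omega))

/-- **second moment of the chords with the ends `p`, `q`** -/
theorem pair_frame [Fintype C] {w : ℂ} (w3 : w ^ 3 = 1) (w1 : w ≠ 1)
    (wc : (starRingEnd ℂ) w = w ^ 2) {a : D → ℂ} (hs : Spin M w a) (hFs : Inv M Fs)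
    (hKA : ∀ d ∈ Kd M Fs, M.cell d ≠ A) (ha : ∀ d, a d ≠ 0 → d ∈ Fs)
    (hp : M.cell p = A) (hq : M.cell (M.rho q) = A) :
    ∑ χ : C → ZMod 2, (if χ A = 0 ∧ Ends M A (cfg M χ) p q then
        ‖∑ g ∈ blk M (cfg M χ) (gp0 M p), a g‖ ^ 2 else 0) ≤
      (∑ g, ‖a g‖ ^ 2) * ((Finset.univ.filter (Wp M A Fs p q)).card : ℝ) := by
  have hR := RR_stp (Fs := Fs) hp hq
  have key := tower_blk w3 w1 wc hs hR (W := fun χ => if Wp M A Fs p q χ then (1 : ℝ) else 0)
    (fun χ => by split_ifs <;> norm_num) ?_ (m := 3)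
    (fun χ => χ A = 0 ∧ Ends M A (cfg M χ) p q) (fun _ => gp0 M p) ?_
  · have e1 : ∑ χ : C → ZMod 2, (if Wp M A Fs p q χ then (1 : ℝ) else 0) =
        ((Finset.univ.filter (Wp M A Fs p q)).card : ℝ) := by
      rw [Finset.sum_boole]
    rw [e1] at key
    refine le_trans (le_of_eq ?_) (key.trans (le_of_eq ?_))
    · refine Finset.sum_congr rfl fun χ _ => ?_
      by_cases hE : χ A = 0 ∧ Ends M A (cfg M χ) p q
      · rw [if_pos hE]
        by_cases hW : Wp M A Fs p q χ
        · rw [if_pos hW, one_mul, if_pos hE]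
        · rw [if_neg hW, zero_mul]
          have h1 : ∑ g ∈ blk M (cfg M χ) (gp0 M p), a g = 0 := by
            refine Finset.sum_eq_zero fun g hg => ?_
            by_contra hne
            exact hW (Wp_of hFs hKA hp hE.1 hE.2 hg (ha g hne))
          rw [h1]
          norm_num
      · rw [if_neg hE, if_neg hE, mul_zero]
    · norm_num
  · intro χ χ' hχ'
    have h1 := mem_Prs.1 hχ'
    have h2 : RR M A Fs p q χ' = RR M A Fs p q χ := hR χ χ' h1
    have h3 : Wp M A Fs p q χ' ↔ Wp M A Fs p q χ := by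
      constructor
      · refine Wp_imp hp hq fun c hc => ?_
        rw [h2] at hc
        exact (h1 c hc).symm
      · exact Wp_imp hp hq h1
    simp only [h3]
  · intro χ hW
    have hWp : Wp M A Fs p q χ := by
      by_contra hn
      exact hW (if_neg hn)
    have hWp' := hWp
    obtain ⟨h0, h1, h2, h3, h4, h5⟩ := hWp
    set S0 := wl M (cfg M χ) p (hit M (cfg M χ) p (Bf M A Fs)) ∪
      wr M (cfg M χ) q (hit M (cfg M χ) q (Bb M A Fs)) with hS0
    set S1 := wr M (cfg M χ) p (hit M (cfg M χ) p (Bf M A Fs)) with hS1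
    set S2 := wl M (cfg M χ) q (hit M (cfg M χ) q (Bb M A Fs)) with hS2
    have hx : IsC M ∅ (cfg M χ) := cfg_isC χ
    have hcq : χ (M.cell q) = 1 := by
      have h6 := cfg_one.1 h2
      rw [hq, h0] at h6
      revert h6
      generalize χ (M.cell q) = b
      revert b; decide
    have c0 : ∀ c ∈ S0, χ c = 0 := by
      intro c hc
      rcases Finset.mem_union.1 hc with h | h
      · rw [wl_col h1 h, hp, h0]
      · rw [wr_col h2 h, hcq]; decide
    have c12 : ∀ c ∈ S1 ∪ S2, χ c = 1 := by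
      intro c hc
      rcases Finset.mem_union.1 hc with h | h
      · rw [wr_col h1 h, hp, h0]; decide
      · rw [wl_col h2 h, hcq]
    have hd : Disjoint S0 (S1 ∪ S2) := by
      rw [Finset.disjoint_left]
      intro c hc hc'
      have h6 := c0 c hc
      rw [c12 c hc'] at h6
      exact absurd h6 (by decide)
    have hAl : A ∈ wl M (cfg M χ) p (hit M (cfg M χ) p (Bf M A Fs)) :=
      mem_wl.2 ⟨0, Nat.zero_le _, hp⟩
    have hAr : A ∈ wr M (cfg M χ) q (hit M (cfg M χ) q (Bb M A Fs)) :=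
      mem_wr.2 ⟨0, Nat.zero_le _, hq⟩
    have hdis := F3_disj hd
    have hcon := F3_con (M := M) (S0 := S0) (S1 := S1) (S2 := S2)
      (con_union (fun c hc c' hc' => wl_con hx h1 hc hc') (fun c hc c' hc' => wr_con hx h2 hc hc')
        hAl hAr) (fun c hc c' hc' => wr_con hx h1 hc hc') (fun c hc c' hc' => wl_con hx h2 hc hc')
    have hRR : Finset.univ.biUnion (F3 S0 S1 S2) = RR M A Fs p q χ := by
      rw [F3_union]
      unfold RR Rw
      rw [if_pos h1, if_pos h2]
      ext c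
      simp only [Finset.mem_union, Finset.mem_singleton, hS0, hS1, hS2]
      constructor
      · rintro ((h | h) | (h | h))
        · exact Or.inr (Or.inl (Or.inl h))
        · exact Or.inr (Or.inr (Or.inr h))
        · exact Or.inr (Or.inl (Or.inr h))
        · exact Or.inr (Or.inr (Or.inl h))
      · rintro (h | (h | h) | (h | h))
        · rw [h]; exact Or.inl (Or.inl hAl)
        · exact Or.inl (Or.inl h)
        · exact Or.inr (Or.inl h)
        · exact Or.inr (Or.inr h)
        · exact Or.inl (Or.inr h)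
    refine ⟨GQ (F3 S0 S1 S2) hdis, Fintype.ofFinite _, gq (F3 S0 S1 S2) hdis, gq_con hcon,
      ?_, ⟨A, Finset.mem_union_left _ (Finset.mem_singleton_self A)⟩, ?_, ?_⟩
    · rw [← hRR]
      refine gq_ctr ?_
      intro i c hc c' hc'
      by_cases hi : i = 0
      · subst hi
        have e : F3 S0 S1 S2 0 = S0 := by unfold F3; rw [if_pos rfl]
        rw [e] at hc hc'
        rw [c0 c hc, c0 c' hc']
      · rw [c12 c (F3_sub hi hc), c12 c' (F3_sub hi hc')]
    · rw [← hRR]
      have h6 := gq_card (ι := Fin 3) (S := F3 S0 S1 S2) (hS := hdis)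
      rw [Fintype.card_fin] at h6
      convert h6
    · rintro χ' hχ' ⟨h0', hE⟩
      have hag := mem_Prs.1 hχ'
      refine ⟨hE.1, ?_⟩
      obtain ⟨a1, a2, a3⟩ := hit_agree (B := Bf M A Fs) (Or.inl hp) h1 fun c hc =>
        hag c (Finset.mem_union_right _ (Finset.mem_union_left _ hc))
      obtain ⟨b1, b2, b3⟩ := hit_agree (B := Bb M A Fs) (Or.inl hq) h2 fun c hc =>
        hag c (Finset.mem_union_right _ (Finset.mem_union_right _ hc))
      refine runs_chord hFs hKA ha hp h0' hE (S := F3 S0 S1 S2) ?_ ?_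
      · have e : F3 S0 S1 S2 0 = S0 := by unfold F3; rw [if_pos rfl]
        rw [e, hS0, a2, b2]
        congr 1
        · ext c
          rw [mem_wl, mem_wl]
          exact ⟨fun ⟨t, ht, e⟩ => ⟨t, ht, by rw [a3 t ht]; exact e⟩,
            fun ⟨t, ht, e⟩ => ⟨t, ht, by rw [← a3 t ht]; exact e⟩⟩
        · ext c
          rw [mem_wr, mem_wr]
          exact ⟨fun ⟨t, ht, e⟩ => ⟨t, ht, by rw [b3 t ht]; exact e⟩,
            fun ⟨t, ht, e⟩ => ⟨t, ht, by rw [← b3 t ht]; exact e⟩⟩
      · intro i hi c hc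
        have h6 : c ∈ RR M A Fs p q χ := by
          rw [← hRR, Finset.mem_biUnion]
          exact ⟨i, Finset.mem_univ _, hc⟩
        rw [hag c h6]
        exact c12 c (F3_sub hi hc)

end Crest.Agent.R143.StrFx795
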