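import Crest.Agent.R143.StrE_795
import Crest.Agent.R143.HInst2_432
import Crest.Agent.R143.O_355
import Crest.Agent.R143.G6W_723

/-!
# Row 143 (S0194), block H, inputs [B] and [N] (helper795): the instance

`M' = coarse (cm0 hS) (pe E) hπ`, `E` = cells on or outside `K` (contains the hull), `B` = connected
set inside, `Vp S B` = sites whose Voronoi cell meets `B`, `Df S B` = darts of the faces with a site in
`Vp S B` (support of the deep field).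
* `Cfg` : the geometry (`μ` = size of the faces at the fresh sites)
* `geo_cm0`, `sites_cm0` : hypotheses of `StrE_795.chords`
* `chords_E` : **[N]**, **[B]** as means over `ev M'` (432's `mE`, `chd`, `en`, 355's `Gc`)
-/

set_option autoImplicit false

noncomputable section

open scoped Classical

namespace Crest.Agent.R143.StrHx795

open Crest.ProbabilityR.Voronoi
open Crest.Agent.R143.B0x346 Crest.Agent.R143.JColx54 Crest.Agent.R143.B0Dx346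
open Crest.Agent.R143.Frame1x395 Crest.Agent.R143.Frame2x395 Crest.Agent.R143.Frame3x395
  Crest.Agent.R143.Frame4x395 Crest.Agent.R143.Frame8x395 Crest.Agent.R143.Frame9x395
  Crest.Agent.R143.Frame10x395
open Crest.Agent.R143.Frame5x395 (sd mem_sd th th_spec)
open Crest.Agent.R143.NonXx592 (P)
open Crest.Agent.R143.Gntx535 (AdjS)
open Crest.Agent.R143.Coarsex166 (ClsCon coarse)
open Crest.Agent.R143.Budx432 (Cls)
open Crest.Agent.R143.Bud2x432 (chd en)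
open Crest.Agent.R143.HInst1x432 (pe pe_none pe_eq)
open Crest.Agent.R143.HInst2x432 (mE card_ev)
open Crest.Agent.R143.G6Wx723 (chain_of_conn_fin)
open Crest.Agent.R143.StrFx795 (Kd)
open Crest.Agent.R143.StrDx795 (Fd)
open Crest.Agent.R143.StrEx795
open Crest.Agent.R143.CntGx197 (Sites Dense Free siteOf cellsOf sites_coarse)
open Crest.Agent.R143.Ox355 (Gc)
open scoped ENNReal

variable {S : Finset ℂ} {E : Set (Quot (hullE S))} {B : Set ℂ} {z0 : ℂ} {Rad R d1 μ : ℝ}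

/-- fresh sites -/
def fs (S : Finset ℂ) (E : Set (Quot (hullE S))) : Finset ℂ :=
  S.filter fun v => (Quot.mk _ v : Quot (hullE S)) ∉ E

/-- deep sites -/
def Vp (S : Finset ℂ) (B : Set ℂ) : Finset ℂ :=
  S.filter fun v => (B ∩ voronoiCell (S : Set ℂ) v).Nonempty

/-- darts of the faces with a deep site -/
def Df (S : Finset ℂ) (B : Set ℂ) : Set (D0 S) :=
  {d | d.1.1 ∈ Vp S B ∨ d.1.2 ∈ Vp S B ∨ th S d.1 ∈ Vp S B}

/-- the cells of the deep sites -/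
def Dc (S : Finset ℂ) (E : Set (Quot (hullE S))) (B : Set ℂ) : Finset (Option (Quot (hullE S))) :=
  (Vp S B).image fun v => pe E (Quot.mk _ v)

/-- deep chords -/
def dchE (hS : GP (S : Set ℂ)) (hπ : ClsCon (cm0 hS) (pe E)) (B : Set ℂ) (x : D0 S → ZMod 2) :
    Finset (Finset (D0 S)) :=
  (chd (cm0 hS) (pe E) hπ none x).filter fun β => ∃ g ∈ β, g ∈ Df S B

/-- chords with the ends at distance less than `r` -/
def cchE (hS : GP (S : Set ℂ)) (hπ : ClsCon (cm0 hS) (pe E)) (r : ℝ) (x : D0 S → ZMod 2) :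
    Finset (Finset (D0 S)) :=
  (chd (cm0 hS) (pe E) hπ none x).filter fun β => ∃ k ∈ β, ∃ n, Gc (cm0 hS) (pe E) none x k n ∧
    ‖((cm0 hS).rho k).1.1 - (P (cm0 hS) x ((cm0 hS).rho k) n).1.1‖ < r

/-- the geometry -/
structure Cfg (S : Finset ℂ) (E : Set (Quot (hullE S))) (B : Set ℂ) (z0 : ℂ) (Rad R d1 μ : ℝ) :
    Prop where
  gp : GP (S : Set ℂ)
  h3 : 3 ≤ S.card
  hull : ∀ v, OnHull S v → (Quot.mk _ v : Quot (hullE S)) ∈ E
  pc : IsPreconnected B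
  mu0 : 0 ≤ μ
  muR : μ ≤ R
  d10 : 0 < d1
  msh : ∀ a b c, (a, b, c) ∈ delT S → (Quot.mk _ a : Quot (hullE S)) ∉ E →
    ‖b - a‖ ≤ μ ∧ ‖c - a‖ ≤ μ
  rad : ∀ v ∈ S, (Quot.mk _ v : Quot (hullE S)) ∉ E → ‖v - z0‖ + μ ≤ Rad
  dep : ∀ v ∈ Vp S B, ∀ e ∈ S, (Quot.mk _ e : Quot (hullE S)) ∈ E → d1 + 2 * μ ≤ ‖e - v‖

theorem mem_fs {v : ℂ} : v ∈ fs S E ↔ v ∈ S ∧ (Quot.mk _ v : Quot (hullE S)) ∉ E :=
  Finset.mem_filter

theorem mem_Vp {v : ℂ} : v ∈ Vp S B ↔ v ∈ S ∧ (B ∩ voronoiCell (S : Set ℂ) v).Nonempty :=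
  Finset.mem_filter

theorem free_pe (hull : ∀ v, OnHull S v → (Quot.mk _ v : Quot (hullE S)) ∈ E) :
    Free S (pe E) (fs S E) := by
  refine ⟨Finset.filter_subset _ _, fun v hv h => (mem_fs.1 hv).2 (hull v h), ?_⟩
  intro v hv c e
  rcases pe_eq e with h | h
  · exact h
  · exact absurd (pe_none.1 (e ▸ h)) (mem_fs.1 hv).2

variable (G : Cfg S E B z0 Rad R d1 μ)

include G in
theorem Cfg.deep {v : ℂ} (hv : v ∈ Vp S B) : v ∈ fs S E := by
  refine mem_fs.2 ⟨(mem_Vp.1 hv).1, fun h => ?_⟩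
  have h1 := G.dep v hv v (mem_Vp.1 hv).1 h
  rw [sub_self, norm_zero] at h1
  linarith [G.d10, G.mu0]

/-- the site of a cell -/
abbrev js (S : Finset ℂ) (E : Set (Quot (hullE S))) : Option (Quot (hullE S)) → ℂ :=
  siteOf S (pe E) (fs S E)

include G in
theorem Cfg.js {a : ℂ} (ha : a ∈ fs S E) :
    StrHx795.js S E (pe E (Quot.mk _ a)) = a :=
  (free_pe G.hull).site G.gp ha

include G in
/-- a site of a fresh cell -/
theorem Cfg.eq {v a : ℂ} (hv : v ∈ fs S E)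
    (e : pe E (Quot.mk _ a : Quot (hullE S)) = pe E (Quot.mk _ v)) : a = v :=
  (free_pe G.hull).eq G.gp hv e

theorem fresh {a : ℂ} (ha : a ∈ S) (h : pe E (Quot.mk _ a : Quot (hullE S)) ≠ none) :
    a ∈ fs S E := mem_fs.2 ⟨ha, fun h' => h (pe_none.2 h')⟩

theorem dart_mem {d : D0 S} : d.1.1 ∈ S ∧ d.1.2 ∈ S ∧ th S d.1 ∈ S := by
  have h : (d.1.1, d.1.2, th S d.1) ∈ delT S := th_spec d.2
  exact ⟨(DelGx806.mem_delT.1 h).1, (DelGx806.mem_delT.1 h).2.1, (DelGx806.mem_delT.1 h).2.2.1⟩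

theorem dart_tri (d : D0 S) : (d.1.1, d.1.2, th S d.1) ∈ delT S := th_spec d.2

variable {hπ : ClsCon (cm0 G.gp) (pe E)}

/-- the face of a deep dart -/
theorem Cfg.fd {d : D0 S} (hd : d ∈ Fd (coarse (cm0 G.gp) (pe E) hπ) (Dc S E B)) :
    d ∈ Df S B := by
  have key : ∀ a : ℂ, pe E (Quot.mk _ a : Quot (hullE S)) ∈ Dc S E B → a ∈ Vp S B := by
    intro a ha
    obtain ⟨v, hv, e⟩ := Finset.mem_image.1 ha
    rw [G.eq (G.deep hv) e.symm]
    exact hv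
  rcases hd with h | h | h
  · exact Or.inl (key _ h)
  · exact Or.inr (Or.inl (key _ h))
  · exact Or.inr (Or.inr (key _ h))

omit G in
theorem df_fd {hS : GP (S : Set ℂ)} {hπ : ClsCon (cm0 hS) (pe E)} {d : D0 S} (hd : d ∈ Df S B) :
    d ∈ Fd (coarse (cm0 hS) (pe E) hπ) (Dc S E B) := by
  have key : ∀ a ∈ Vp S B, pe E (Quot.mk _ a : Quot (hullE S)) ∈ Dc S E B := fun a ha =>
    Finset.mem_image_of_mem _ ha
  rcases hd with h | h | h
  · exact Or.inl (key _ h)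
  · exact Or.inr (Or.inl (key _ h))
  · exact Or.inr (Or.inr (key _ h))

include G in
/-- the sites of a deep face are close to a deep site -/
theorem Cfg.near {d : D0 S} (hd : d ∈ Df S B) {u : ℂ}
    (hu : u = d.1.1 ∨ u = d.1.2 ∨ u = th S d.1) : ∃ v ∈ Vp S B, ‖u - v‖ ≤ μ := by
  have h1 := dart_tri d
  have h2 := delT_rot G.gp h1
  have h3 := delT_rot G.gp h2
  have hm := G.mu0
  have key : ∀ a b c, (a, b, c) ∈ delT S → a ∈ Vp S B → u = a ∨ u = b ∨ u = c →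
      ∃ v ∈ Vp S B, ‖u - v‖ ≤ μ := by
    clear hu
    intro a b c ht ha hu
    obtain ⟨h5, h6⟩ := G.msh a b c ht (mem_fs.1 (G.deep ha)).2
    refine ⟨a, ha, ?_⟩
    rcases hu with rfl | rfl | rfl
    · rw [sub_self, norm_zero]; exact hm
    · exact h5
    · exact h6
  rcases hd with h | h | h
  · exact key _ _ _ h1 h hu
  · exact key _ _ _ h2 h (by tauto)
  · exact key _ _ _ h3 h (by tauto)

include G in
theorem Cfg.dist {d : D0 S} (hd : d ∈ Df S B) {u e : ℂ}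
    (hu : u = d.1.1 ∨ u = d.1.2 ∨ u = th S d.1) (he : e ∈ S)
    (heE : (Quot.mk _ e : Quot (hullE S)) ∈ E) : d1 + μ ≤ ‖u - e‖ := by
  obtain ⟨v, hv, h1⟩ := G.near hd hu
  have h2 := G.dep v hv e he heE
  have h3 : e - v = (u - v) - (u - e) := by ring
  rw [h3] at h2
  have h4 := h2.trans (norm_sub_le _ _)
  linarith

/-- live darts between fresh sites -/
theorem Cfg.live {u w : ℂ} (hu : u ∈ fs S E) (hw : w ∈ fs S E) (h : (u, w) ∈ sd S) :
    (⟨(u, w), h⟩ : D0 S) ∈ (coarse (cm0 G.gp) (pe E) hπ).live := by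
  refine ⟨?_, ?_⟩
  · by_contra hc
    have h1 : hullE S u w := hull_of_dead (e := ⟨(u, w), h⟩) hc
    exact (mem_fs.1 hw).2 (G.hull w ⟨u, h1⟩)
  · intro e
    exact ne0 G.gp h (G.eq hw e)

/-- the deep cells are connected -/
theorem Cfg.con : ∀ c ∈ Dc S E B, ∀ c' ∈ Dc S E B,
    Relation.EqvGen (AdjS (coarse (cm0 G.gp) (pe E) hπ) (Dc S E B)) c c' := by
  intro c hc c' hc'
  obtain ⟨u, hu, rfl⟩ := Finset.mem_image.1 hc
  obtain ⟨w, hw, rfl⟩ := Finset.mem_image.1 hc'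
  have hch := chain_of_conn_fin G.gp G.h3 G.pc (mem_Vp.1 hu).1 (mem_Vp.1 hw).1 (mem_Vp.1 hu).2
    (mem_Vp.1 hw).2
  clear hc hc'
  revert hw
  induction hch with
  | refl => intro _; exact Relation.EqvGen.refl _
  | @tail a b _ h ih =>
    intro hb
    obtain ⟨hab, q, ⟨hq1, hq2⟩, hqB⟩ := h
    have ha : a ∈ Vp S B := mem_Vp.2 ⟨hab.mem.1, q, hqB, hq2⟩
    refine Relation.EqvGen.trans _ _ _ (ih ha) ?_
    have m1 : pe E (Quot.mk _ a : Quot (hullE S)) ∈ Dc S E B := Finset.mem_image_of_mem _ ha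
    have m2 : pe E (Quot.mk _ b : Quot (hullE S)) ∈ Dc S E B := Finset.mem_image_of_mem _ hb
    rcases hab with ⟨c, hc⟩ | ⟨c, hc⟩
    · exact Relation.EqvGen.rel _ _ ⟨m1, m2, ⟨(a, b), mem_sd.2 ⟨c, hc⟩⟩,
        G.live (G.deep ha) (G.deep hb) _, rfl, rfl⟩
    · exact Relation.EqvGen.symm _ _ (Relation.EqvGen.rel _ _ ⟨m2, m1,
        ⟨(b, a), mem_sd.2 ⟨c, hc⟩⟩, G.live (G.deep hb) (G.deep ha) _, rfl, rfl⟩)

/-- the sites -/
theorem Cfg.sites : Sites (coarse (cm0 G.gp) (pe E) hπ) S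
    {c | c ≠ none ∧ c ∈ Set.range (coarse (cm0 G.gp) (pe E) hπ).cell} (StrHx795.js S E) := by
  refine (sites_coarse (free_pe G.hull) G.gp hπ).mono ?_
  rintro _ ⟨h1, d, rfl⟩
  exact ⟨d.1.1, fresh dart_mem.1 h1, rfl⟩

/-- **the geometry of the chords** -/
theorem Cfg.geo : Geo (coarse (cm0 G.gp) (pe E) hπ) none (Dc S E B) (StrHx795.js S E)
    (fun d => d.1.1) z0 Rad R d1 := by
  have hm := G.mu0
  -- the faces with one dart at the giant
  have face : ∀ p : D0 S, (coarse (cm0 G.gp) (pe E) hπ).cell p = none →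
      (coarse (cm0 G.gp) (pe E) hπ).cell ((coarse (cm0 G.gp) (pe E) hπ).rho p) ≠ none →
      (coarse (cm0 G.gp) (pe E) hπ).cell ((coarse (cm0 G.gp) (pe E) hπ).rho
        ((coarse (cm0 G.gp) (pe E) hπ).rho p)) ≠ none →
      (Quot.mk _ p.1.1 : Quot (hullE S)) ∈ E ∧ p.1.2 ∈ fs S E ∧ th S p.1 ∈ fs S E := by
    intro p h1 h2 h3
    exact ⟨pe_none.1 h1, fresh dart_mem.2.1 h2, fresh dart_mem.2.2 h3⟩
  refine ⟨G.con, ?_, ?_, ?_, ?_, ?_⟩
  · -- far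
    intro d hd h
    have hE : (Quot.mk _ d.1.1 : Quot (hullE S)) ∈ E := pe_none.1 h
    have key : ∀ d' : D0 S, d' ∈ Df S B → (d.1.1 = d'.1.1 ∨ d.1.1 = d'.1.2 ∨
        d.1.1 = th S d'.1) → False := by
      intro d' hd' hu
      have h1 := G.dist hd' hu dart_mem.1 hE
      rw [sub_self, norm_zero] at h1
      linarith [G.d10]
    rcases hd with hd | hd
    · exact key d (G.fd hd) (Or.inl rfl)
    · have h2 := G.fd hd
      have h3 : (coarse (cm0 G.gp) (pe E) hπ).iota d = io0 d := rfl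
      rw [h3] at h2
      by_cases hl : (d.1.2, d.1.1) ∈ sd S
      · rw [io0_live hl] at h2
        exact key _ h2 (Or.inr (Or.inl rfl))
      · rw [io0_dead hl] at h2
        exact key _ h2 (Or.inl rfl)
  · -- positions
    intro d hd _
    have h1 : (d.1.2, d.1.1) ∈ sd S := hd.1
    show ((coarse (cm0 G.gp) (pe E) hπ).iota d).1.1 = ((coarse (cm0 G.gp) (pe E) hπ).rho d).1.1
    have h3 : (coarse (cm0 G.gp) (pe E) hπ).iota d = io0 d := rfl
    rw [h3, io0_live h1]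
    rfl
  · -- radius
    intro p h1 h2 h3
    obtain ⟨f1, f2, f3⟩ := face p h1 h2 h3
    obtain ⟨-, g2⟩ := G.msh _ _ _ (delT_rot G.gp (dart_tri p)) (mem_fs.1 f2).2
    have h4 := G.rad _ (mem_fs.1 f2).1 (mem_fs.1 f2).2
    have e : p.1.1 - z0 = (p.1.1 - p.1.2) + (p.1.2 - z0) := by ring
    show ‖p.1.1 - z0‖ ≤ Rad
    rw [e]
    refine (norm_add_le _ _).trans ?_
    linarith
  · -- mesh
    intro p h1 h2 h3
    obtain ⟨f1, f2, f3⟩ := face p h1 h2 h3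
    have t1 := delT_rot G.gp (dart_tri p)
    obtain ⟨-, g2⟩ := G.msh _ _ _ t1 (mem_fs.1 f2).2
    obtain ⟨g3, -⟩ := G.msh _ _ _ (delT_rot G.gp t1) (mem_fs.1 f3).2
    have e1 : StrHx795.js S E ((coarse (cm0 G.gp) (pe E) hπ).cell
        ((coarse (cm0 G.gp) (pe E) hπ).rho p)) = p.1.2 := G.js f2
    have e2 : StrHx795.js S E ((coarse (cm0 G.gp) (pe E) hπ).cell
        ((coarse (cm0 G.gp) (pe E) hπ).rho ((coarse (cm0 G.gp) (pe E) hπ).rho p))) =
        th S p.1 := G.js f3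
    rw [e1, e2]
    rw [norm_sub_rev] at g2 g3
    exact ⟨g2.trans G.muR, g3.trans G.muR⟩
  · -- depth
    intro p h1 h2 h3 d hd
    obtain ⟨f1, f2, f3⟩ := face p h1 h2 h3
    have h4 := G.fd hd
    have h5 : d.1.1 ∈ fs S E := by
      refine mem_fs.2 ⟨dart_mem.1, fun h => ?_⟩
      have h6 := G.dist h4 (Or.inl rfl) dart_mem.1 h
      rw [sub_self, norm_zero] at h6
      linarith [G.d10]
    have e1 : StrHx795.js S E ((coarse (cm0 G.gp) (pe E) hπ).cell d) = d.1.1 := G.js h5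
    rw [e1]
    have h7 := G.dist h4 (Or.inl rfl) (dart_mem (d := p)).1 f1
    show d1 ≤ ‖d.1.1 - p.1.1‖
    linarith

/-! ### [N] and [B] as means -/

omit G in
theorem cchE_sub {hS : GP (S : Set ℂ)} {hπ : ClsCon (cm0 hS) (pe E)} {r : ℝ}
    {x : D0 S → ZMod 2} : cchE hS hπ r x ⊆
      cch (coarse (cm0 hS) (pe E) hπ) none (fun d => d.1.1) r x := by
  intro β hβ
  obtain ⟨h1, k, hk, n, h2, h3⟩ := Finset.mem_filter.1 hβ
  refine mem_cch.2 ⟨(Finset.mem_filter.1 h1).1, k, hk, n, ⟨h2.pos, h2.c0, h2.c1, h2.int⟩, h3⟩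

omit G in
theorem dchE_sub {hS : GP (S : Set ℂ)} {hπ : ClsCon (cm0 hS) (pe E)} {x : D0 S → ZMod 2} :
    dchE hS hπ B x ⊆ dch (coarse (cm0 hS) (pe E) hπ) none (Dc S E B) x := by
  intro β hβ
  obtain ⟨h1, g, hg, hgD⟩ := Finset.mem_filter.1 hβ
  obtain ⟨h2, h3⟩ := Finset.mem_filter.1 h1
  unfold Cls at h3
  push Not at h3
  exact mem_dch.2 ⟨h2, h3, g, hg, df_fd hgD⟩

omit G in
theorem mE_le {hS : GP (S : Set ℂ)} {hπ : ClsCon (cm0 hS) (pe E)} {F : (D0 S → ZMod 2) → ℝ}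
    (hF : ∀ x, 0 ≤ F x) {b : ℝ} (hb : 0 ≤ b)
    (h : ∑ x ∈ ev (coarse (cm0 hS) (pe E) hπ), F x ≤
      b * (ev (coarse (cm0 hS) (pe E) hπ)).card) :
    mE (cm0 hS) (pe E) hπ (fun x => ENNReal.ofReal (F x)) ≤ ENNReal.ofReal b := by
  unfold mE
  refine ENNReal.div_le_of_le_mul ?_
  rw [← ENNReal.ofReal_sum_of_nonneg fun x _ => hF x]
  refine (ENNReal.ofReal_le_ofReal h).trans (le_of_eq ?_)
  rw [ENNReal.ofReal_mul hb, ENNReal.ofReal_natCast]

/-- **[N] and [B]** -/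
theorem chords_E : ∀ C4 : ℝ, 0 ≤ C4 → ∃ C0 c c1 c2 K η : ℝ, 0 < C0 ∧ 0 < c ∧ 0 < c1 ∧
    0 < c2 ∧ c2 ≤ 1 ∧ 1 ≤ K ∧ 0 < η ∧ η ≤ 1 ∧ ∀ Rad d1 : ℝ, 0 < d1 → ∃ m : ℕ,
    ∀ {S : Finset ℂ} {E : Set (Quot (hullE S))} {B : Set ℂ} {z0 : ℂ} {R μ d : ℝ}
    (G : Cfg S E B z0 Rad R d1 μ), 0 < R → R ≤ η * d1 → d ≤ c1 * R →
    Dense S z0 Rad K d c2 R d1 C4 → ∀ hπ : ClsCon (cm0 G.gp) (pe E),
    mE (cm0 G.gp) (pe E) hπ (fun x => ((dchE G.gp hπ B x).card : ℝ≥0∞)) ≤ (m : ℝ≥0∞) ∧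
    ∀ w : ℂ, w ^ 3 = 1 → w ≠ 1 → (starRingEnd ℂ) w = w ^ 2 → ∀ a : D0 S → ℂ,
      Spin (cm0 G.gp) w a → (∀ d, a d ≠ 0 → d ∈ Df S B) →
      mE (cm0 G.gp) (pe E) hπ (fun x => ∑ β ∈ cchE G.gp hπ (2 * R) x, en a β) ≤
        ENNReal.ofReal ((∑ g, ‖a g‖ ^ 2) * (C0 * (R / d1) ^ c * m)) := by
  intro C4 hC4
  obtain ⟨C0, c, c1, c2, K, η, h1, h2, h3, h4, h5, h6, h7, h8, H⟩ := chords C4 hC4
  refine ⟨C0, c, c1, c2, K, η, h1, h2, h3, h4, h5, h6, h7, h8, ?_⟩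
  intro Rad d1 hd1
  obtain ⟨m, hm⟩ := H Rad d1 hd1
  refine ⟨m, ?_⟩
  intro S E B z0 R μ d G hR hRd hdR hD hπ
  obtain ⟨a1, a2⟩ := hm S z0 d R hR hRd hdR hD (coarse (cm0 G.gp) (pe E) hπ) none
    (StrHx795.js S E) (G.sites (hπ := hπ)) (Dc S E B) (fun d => d.1.1) (G.geo (hπ := hπ))
  constructor
  · have e : (fun x => ((dchE G.gp hπ B x).card : ℝ≥0∞)) = fun x =>
        ENNReal.ofReal ((dchE G.gp hπ B x).card : ℝ) := by
      funext x
      rw [ENNReal.ofReal_natCast]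
    rw [e]
    refine (mE_le (fun x => Nat.cast_nonneg _) (b := (m : ℝ)) (Nat.cast_nonneg _) ?_).trans
      (le_of_eq (ENNReal.ofReal_natCast m))
    refine (Finset.sum_le_sum fun x _ => ?_).trans a1
    exact_mod_cast Finset.card_le_card dchE_sub
  · intro w w3 w1 wc a hs ha
    have hE : 0 ≤ ∑ g, ‖a g‖ ^ 2 := Finset.sum_nonneg fun g _ => by positivity
    have e : (fun x => ∑ β ∈ cchE G.gp hπ (2 * R) x, en a β) = fun x =>
        ENNReal.ofReal (∑ β ∈ cchE G.gp hπ (2 * R) x, ‖∑ g ∈ β, a g‖ ^ 2) := by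
      funext x
      rw [ENNReal.ofReal_sum_of_nonneg fun β _ => by positivity]
      rfl
    rw [e]
    refine mE_le (fun x => Finset.sum_nonneg fun β _ => by positivity) (by positivity) ?_
    refine (Finset.sum_le_sum fun x _ => ?_).trans
      (a2 w w3 w1 wc a hs fun d hd => df_fd (ha d hd))
    exact Finset.sum_le_sum_of_subset_of_nonneg cchE_sub fun _ _ _ => by positivity

end Crest.Agent.R143.StrHx795
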