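import Crest.Agent.R143.Gnt_535

/-!
# Row 143 (S0194), RIG, EXT design (notes 3646, 3765): the maximal strand of the walker off a fixed set

`Bo : Set D` = a FIXED set of darts (for the outer arc: the darts with a cell outside the strips of
the out tiles).

* `Sm M x Bo p q` : the walker goes from `p` to `q` through states off `Bo` (both ends off `Bo`)
* `Str M x Bo d` : the states of the maximal strand through `d`, in BOTH directions;
  `str_eq` : it does not depend on the base dart `d` of the strand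
* `StrP` : the strand with one more state at each end (entry, exit)
* `sl`, `sr`, `sc` : left cells, right cells, all cells of `StrP`
* `str_agree` : colourings which agree on `sc` have the same strand; `sc_agree`, `strp_agree`
* `sl_con`, `sr_con`, `sl_col`, `sr_col` : connected, colours
-/

set_option autoImplicit false
set_option linter.unusedSectionVars false

noncomputable section

open scoped Classical

namespace Crest.Agent.R143.Strandx903

open Crest.Agent.R143.Frame1x395 Crest.Agent.R143.Frame2x395 Crest.Agent.R143.Frame3x395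
  Crest.Agent.R143.Frame4x395 Crest.Agent.R143.Frame8x395 Crest.Agent.R143.NonXx592
  Crest.Agent.R143.Coarsex166 Crest.Agent.R143.CFramex358 Crest.Agent.R143.Runx535
  Crest.Agent.R143.Gntx535

variable {D C : Type} {M : CMap D C} {x y : D → ZMod 2} {Bo : Set D}

/-! ### the relation -/

/-- from `p` to `q` without a state in `Bo` -/
def Sm (M : CMap D C) (x : D → ZMod 2) (Bo : Set D) (p q : D) : Prop :=
  ∃ n, P M x p n = q ∧ ∀ j ≤ n, P M x p j ∉ Bo

theorem Sm.rfl' {p : D} (hp : p ∉ Bo) : Sm M x Bo p p :=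
  ⟨0, rfl, fun j hj => by obtain rfl : j = 0 := by omega
                          exact hp⟩

theorem Sm.left {p q : D} (h : Sm M x Bo p q) : p ∉ Bo := by
  obtain ⟨n, -, hn⟩ := h
  exact hn 0 (Nat.zero_le _)

theorem Sm.right {p q : D} (h : Sm M x Bo p q) : q ∉ Bo := by
  obtain ⟨n, rfl, hn⟩ := h
  exact hn n le_rfl

theorem Sm.trans {p q r : D} (h1 : Sm M x Bo p q) (h2 : Sm M x Bo q r) : Sm M x Bo p r := by
  obtain ⟨n, rfl, hn⟩ := h1
  obtain ⟨m, rfl, hm⟩ := h2
  refine ⟨m + n, P_add p m n, fun j hj => ?_⟩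
  rcases le_or_gt j n with h | h
  · exact hn j h
  · obtain ⟨k, rfl⟩ := Nat.exists_eq_add_of_lt h
    have e : P M x p (n + k + 1) = P M x (P M x p n) (k + 1) := by
      rw [← P_add]
      congr 1
      omega
    rw [e]
    exact hm (k + 1) (by omega)

theorem Sm.fork {p q r : D} (h1 : Sm M x Bo p q) (h2 : Sm M x Bo p r) :
    Sm M x Bo q r ∨ Sm M x Bo r q := by
  obtain ⟨n, rfl, hn⟩ := h1
  obtain ⟨m, rfl, hm⟩ := h2
  rcases le_total n m with h | h
  · obtain ⟨k, rfl⟩ := Nat.exists_eq_add_of_le h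
    left
    refine ⟨k, ?_, fun j hj => ?_⟩
    · rw [← P_add, Nat.add_comm]
    · rw [← P_add]
      exact hm _ (by omega)
  · obtain ⟨k, rfl⟩ := Nat.exists_eq_add_of_le h
    right
    refine ⟨k, ?_, fun j hj => ?_⟩
    · rw [← P_add, Nat.add_comm]
    · rw [← P_add]
      exact hn _ (by omega)

theorem Sm.join (hx : IsC M ∅ x) {q r d : D} (hq : x q = 1) (hr : x r = 1)
    (h1 : Sm M x Bo q d) (h2 : Sm M x Bo r d) : Sm M x Bo q r ∨ Sm M x Bo r q := by
  obtain ⟨n, en, hn⟩ := h1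
  obtain ⟨m, em, hm⟩ := h2
  rcases le_total n m with h | h
  · obtain ⟨k, rfl⟩ := Nat.exists_eq_add_of_le h
    right
    have e : P M x r k = q := by
      apply it_inj hx (P_occ hx hr k) hq n
      show P M x (P M x r k) n = P M x q n
      rw [← P_add, em, en]
    exact ⟨k, e, fun j hj => hm j (by omega)⟩
  · obtain ⟨k, rfl⟩ := Nat.exists_eq_add_of_le h
    left
    have e : P M x q k = r := by
      apply it_inj hx (P_occ hx hq k) hr m
      show P M x (P M x q k) m = P M x r m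
      rw [← P_add, em, en]
    exact ⟨k, e, fun j hj => hn j (by omega)⟩

/-- states of the strand: every state between `p` and `q` -/
theorem Sm.mid {p : D} {n j : ℕ} (hn : ∀ j ≤ n, P M x p j ∉ Bo) (hj : j ≤ n) :
    Sm M x Bo p (P M x p j) ∧ Sm M x Bo (P M x p j) (P M x p n) := by
  refine ⟨⟨j, rfl, fun i hi => hn i (by omega)⟩, n - j, ?_, fun i hi => ?_⟩
  · rw [← P_add]
    congr 1
    omega
  · rw [← P_add]
    exact hn _ (by omega)

/-! ### the strand -/

/-- the states of the maximal strand through `d` off `Bo` -/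
def Str (M : CMap D C) (x : D → ZMod 2) (Bo : Set D) (d : D) : Set D :=
  {q | x q = 1 ∧ (Sm M x Bo d q ∨ Sm M x Bo q d)}

theorem mem_str {d q : D} : q ∈ Str M x Bo d ↔ x q = 1 ∧ (Sm M x Bo d q ∨ Sm M x Bo q d) := Iff.rfl

theorem str_self {d : D} (hd : x d = 1) (hb : d ∉ Bo) : d ∈ Str M x Bo d := ⟨hd, Or.inl (Sm.rfl' hb)⟩

theorem str_off {d q : D} (h : q ∈ Str M x Bo d) : q ∉ Bo := by
  rcases h.2 with h1 | h1
  · exact h1.right
  · exact h1.left

theorem str_symm {d q : D} (hd : x d = 1) (h : q ∈ Str M x Bo d) : d ∈ Str M x Bo q :=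
  ⟨hd, h.2.symm⟩

theorem str_trans (hx : IsC M ∅ x) {d q r : D} (hd : x d = 1) (h : q ∈ Str M x Bo d)
    (h' : r ∈ Str M x Bo q) : r ∈ Str M x Bo d := by
  refine ⟨h'.1, ?_⟩
  rcases h.2 with h1 | h1 <;> rcases h'.2 with h2 | h2
  · exact Or.inl (h1.trans h2)
  · exact Sm.join hx hd h'.1 h1 h2
  · exact Sm.fork h1 h2
  · exact Or.inr (h2.trans h1)

/-- **the strand does not depend on the base dart** -/
theorem str_eq (hx : IsC M ∅ x) {d q : D} (hd : x d = 1) (h : q ∈ Str M x Bo d) :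
    Str M x Bo q = Str M x Bo d := by
  ext r
  constructor
  · exact fun h' => str_trans hx hd h h'
  · exact fun h' => str_trans hx h.1 (str_symm hd h) h'

theorem str_next (hx : IsC M ∅ x) {d q : D} (hd : x d = 1) (h : q ∈ Str M x Bo d)
    (hq : stp M x q ∉ Bo) : stp M x q ∈ Str M x Bo d := by
  refine str_trans hx hd h ⟨stp_occ hx h.1 (Set.notMem_empty _), Or.inl ⟨1, rfl, fun j hj => ?_⟩⟩
  rcases Nat.le_one_iff_eq_zero_or_eq_one.1 hj with rfl | rfl
  · exact str_off h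
  · exact hq

theorem str_prev (hx : IsC M ∅ x) {d q : D} (hd : x d = 1) (h : stp M x q ∈ Str M x Bo d)
    (hq1 : x q = 1) (hq : q ∉ Bo) : q ∈ Str M x Bo d := by
  refine str_trans hx hd h ⟨hq1, Or.inr ⟨1, rfl, fun j hj => ?_⟩⟩
  rcases Nat.le_one_iff_eq_zero_or_eq_one.1 hj with rfl | rfl
  · exact hq
  · exact str_off h

/-- the strand with one more state at each end -/
def StrP (M : CMap D C) (x : D → ZMod 2) (Bo : Set D) (d : D) : Set D :=
  {q | x q = 1 ∧ (q ∈ Str M x Bo d ∨ (∃ r ∈ Str M x Bo d, stp M x r = q) ∨ stp M x q ∈ Str M x Bo d)}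

theorem str_sub {d : D} : Str M x Bo d ⊆ StrP M x Bo d := fun _ h => ⟨h.1, Or.inl h⟩

theorem stp_mem (hx : IsC M ∅ x) {d q : D} (h : q ∈ Str M x Bo d) : stp M x q ∈ StrP M x Bo d :=
  ⟨stp_occ hx h.1 (Set.notMem_empty _), Or.inr (Or.inl ⟨q, h, rfl⟩)⟩

theorem strp_eq (hx : IsC M ∅ x) {d q : D} (hd : x d = 1) (h : q ∈ Str M x Bo d) :
    StrP M x Bo q = StrP M x Bo d := by
  unfold StrP
  rw [str_eq hx hd h]

/-! ### cells -/

section cells

variable [Fintype D]

/-- left cells -/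
def sl (M : CMap D C) (x : D → ZMod 2) (Bo : Set D) (d : D) : Finset C :=
  (Finset.univ.filter (· ∈ StrP M x Bo d)).image M.cell

/-- right cells -/
def sr (M : CMap D C) (x : D → ZMod 2) (Bo : Set D) (d : D) : Finset C :=
  (Finset.univ.filter (· ∈ StrP M x Bo d)).image (Rc M)

/-- all cells of the strand, with the entry and the exit state -/
def sc (M : CMap D C) (x : D → ZMod 2) (Bo : Set D) (d : D) : Finset C :=
  sl M x Bo d ∪ sr M x Bo d

theorem mem_sl {d : D} {c : C} : c ∈ sl M x Bo d ↔ ∃ q ∈ StrP M x Bo d, M.cell q = c := by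
  simp [sl]

theorem mem_sr {d : D} {c : C} : c ∈ sr M x Bo d ↔ ∃ q ∈ StrP M x Bo d, Rc M q = c := by
  simp [sr]

theorem mem_sc {d : D} {c : C} :
    c ∈ sc M x Bo d ↔ ∃ q ∈ StrP M x Bo d, M.cell q = c ∨ Rc M q = c := by
  unfold sc
  rw [Finset.mem_union, mem_sl, mem_sr]
  constructor
  · rintro (⟨q, hq, e⟩ | ⟨q, hq, e⟩)
    · exact ⟨q, hq, Or.inl e⟩
    · exact ⟨q, hq, Or.inr e⟩
  · rintro ⟨q, hq, e | e⟩
    · exact Or.inl ⟨q, hq, e⟩
    · exact Or.inr ⟨q, hq, e⟩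

theorem sc_eq (hx : IsC M ∅ x) {d q : D} (hd : x d = 1) (h : q ∈ Str M x Bo d) :
    sc M x Bo q = sc M x Bo d := by
  unfold sc sl sr
  rw [strp_eq hx hd h]

/-- the third cell of the face of a state of the strand -/
theorem third_sc (hx : IsC M ∅ x) {d q : D} (h : q ∈ Str M x Bo d) :
    M.cell (M.rho (M.rho q)) ∈ sc M x Bo d := by
  rw [mem_sc]
  refine ⟨stp M x q, stp_mem hx h, ?_⟩
  rcases stp_cases hx h.1 (Set.notMem_empty _) with ⟨h1, -, e⟩ | ⟨-, h2, e⟩
  · left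
    rw [e, M.cell_iota _ (hx.lv h1)]
  · right
    rw [e]
    exact cell_rho_iota M (hx.lv h2)

/-- the previous state -/
theorem prev (hx : IsC M ∅ x) {q : D} (hq : x q = 1) :
    x (M.iota (stp M x (M.iota q))) = 1 ∧ stp M x (M.iota (stp M x (M.iota q))) = q := by
  have h1 : x (M.iota q) = 1 := by rw [hx.iot, hq]
  refine ⟨?_, ?_⟩
  · rw [hx.iot]
    exact stp_occ hx h1 (Set.notMem_empty _)
  · rw [stp_rev hx h1 (Set.notMem_empty _), M.iota2]

theorem prev_unique (hx : IsC M ∅ x) {q r : D} (hr : x r = 1) (e : stp M x r = q) :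
    r = M.iota (stp M x (M.iota q)) := by
  rw [← e, stp_rev hx hr (Set.notMem_empty _), M.iota2]

/-- the third cell of the face on the other side of a state of the strand -/
theorem third_sc' (hx : IsC M ∅ x) {d q : D} (h : q ∈ Str M x Bo d) :
    M.cell (M.rho (M.rho (M.iota q))) ∈ sc M x Bo d := by
  rw [mem_sc]
  obtain ⟨h1, h2⟩ := prev hx h.1
  have hi : x (M.iota q) = 1 := by rw [hx.iot, h.1]
  refine ⟨_, ⟨h1, Or.inr (Or.inr (by rw [h2]; exact h))⟩, ?_⟩
  rcases stp_cases hx hi (Set.notMem_empty _) with ⟨g1, -, e⟩ | ⟨-, g2, e⟩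
  · right
    rw [e, M.iota2]
  · left
    rw [e, M.iota2]

variable {χ χ' : C → ZMod 2}

/-- agreement on the cells ⟹ the two faces of a state of the strand look the same -/
theorem face_agree {d : D} (ha : ∀ c ∈ sc M (cfg M χ) Bo d, χ' c = χ c) {q : D}
    (h : q ∈ Str M (cfg M χ) Bo d) :
    cfg M χ' q = cfg M χ q ∧ cfg M χ' (M.rho q) = cfg M χ (M.rho q) ∧
      cfg M χ' (M.rho (M.iota q)) = cfg M χ (M.rho (M.iota q)) := by
  have hx : IsC M ∅ (cfg M χ) := cfg_isC χ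
  have hl : q ∈ M.live := hx.lv h.1
  have h0 : χ' (M.cell q) = χ (M.cell q) := ha _ (mem_sc.2 ⟨q, str_sub h, Or.inl rfl⟩)
  have h1 : χ' (M.cell (M.rho q)) = χ (M.cell (M.rho q)) :=
    ha _ (mem_sc.2 ⟨q, str_sub h, Or.inr rfl⟩)
  have h2 : χ' (M.cell (M.rho (M.rho q))) = χ (M.cell (M.rho (M.rho q))) := ha _ (third_sc hx h)
  have h3 : χ' (M.cell (M.rho (M.rho (M.iota q)))) = χ (M.cell (M.rho (M.rho (M.iota q)))) :=
    ha _ (third_sc' hx h)
  refine ⟨?_, ?_, ?_⟩
  · unfold cfg; rw [h0, h1]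
  · unfold cfg; rw [h1, h2]
  · have e : M.cell (M.rho (M.iota q)) = M.cell q := cell_rho_iota M hl
    unfold cfg; rw [e, h0, h3]

theorem stp_agree {d : D} (ha : ∀ c ∈ sc M (cfg M χ) Bo d, χ' c = χ c) {q : D}
    (h : q ∈ Str M (cfg M χ) Bo d) : stp M (cfg M χ') q = stp M (cfg M χ) q := by
  unfold stp
  rw [(face_agree ha h).2.1]

/-- the previous state is the same -/
theorem prev_agree {d : D} (ha : ∀ c ∈ sc M (cfg M χ) Bo d, χ' c = χ c) {q r : D}
    (h : q ∈ Str M (cfg M χ) Bo d) (hr : cfg M χ' r = 1) (e : stp M (cfg M χ') r = q) :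
    cfg M χ r = 1 ∧ stp M (cfg M χ) r = q := by
  have h1 := prev_unique (cfg_isC χ') hr e
  have h2 : stp M (cfg M χ') (M.iota q) = stp M (cfg M χ) (M.iota q) := by
    unfold stp
    rw [(face_agree ha h).2.2]
  rw [h2] at h1
  obtain ⟨h3, h4⟩ := prev (cfg_isC χ) h.1
  rw [h1]
  exact ⟨h3, h4⟩

theorem prev_agree' {d : D} (ha : ∀ c ∈ sc M (cfg M χ) Bo d, χ' c = χ c) {q r : D}
    (h : q ∈ Str M (cfg M χ) Bo d) (hr : cfg M χ r = 1) (e : stp M (cfg M χ) r = q) :
    cfg M χ' r = 1 ∧ stp M (cfg M χ') r = q := by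
  have h1 := prev_unique (cfg_isC χ) hr e
  have h2 : stp M (cfg M χ') (M.iota q) = stp M (cfg M χ) (M.iota q) := by
    unfold stp
    rw [(face_agree ha h).2.2]
  rw [← h2] at h1
  have hq : cfg M χ' q = 1 := by rw [(face_agree ha h).1]; exact h.1
  obtain ⟨h3, h4⟩ := prev (cfg_isC χ') hq
  rw [h1]
  exact ⟨h3, h4⟩

/-- **the strand is a stopping rule** -/
theorem str_agree {d : D} (hd : cfg M χ d = 1) (ha : ∀ c ∈ sc M (cfg M χ) Bo d, χ' c = χ c) :
    Str M (cfg M χ') Bo d = Str M (cfg M χ) Bo d := by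
  have hx : IsC M ∅ (cfg M χ) := cfg_isC χ
  have hy : IsC M ∅ (cfg M χ') := cfg_isC χ'
  -- forward
  have fwd : ∀ n, (∀ j ≤ n, P M (cfg M χ) d j ∉ Bo) →
      ∀ j ≤ n, P M (cfg M χ') d j = P M (cfg M χ) d j := by
    intro n hn j hj
    induction j with
    | zero => rfl
    | succ j ih =>
      rw [P_succ, P_succ, ih (by omega)]
      refine stp_agree ha ⟨P_occ hx hd j, Or.inl (Sm.mid hn (by omega)).1⟩
  have fwd' : ∀ n, (∀ j ≤ n, P M (cfg M χ') d j ∉ Bo) →
      ∀ j ≤ n, P M (cfg M χ') d j = P M (cfg M χ) d j := by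
    intro n hn j
    induction j using Nat.strong_induction_on with
    | _ j ih =>
      intro hj
      rcases j with _ | j
      · rfl
      · have h1 : ∀ i ≤ j, P M (cfg M χ) d i ∉ Bo := fun i hi => by
          rw [← ih i (by omega) (by omega)]
          exact hn i (by omega)
        rw [P_succ, P_succ, ih j (by omega) (by omega)]
        exact stp_agree ha ⟨P_occ hx hd j, Or.inl ⟨j, rfl, h1⟩⟩
  -- backward
  have bwd : ∀ n q, cfg M χ q = 1 → P M (cfg M χ) q n = d → (∀ j ≤ n, P M (cfg M χ) q j ∉ Bo) →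
      ∀ j ≤ n, P M (cfg M χ') q j = P M (cfg M χ) q j := by
    intro n q hq e hn j hj
    induction j with
    | zero => rfl
    | succ j ih =>
      rw [P_succ, P_succ, ih (by omega)]
      refine stp_agree ha ⟨P_occ hx hq j, Or.inr ?_⟩
      rw [← e]
      exact (Sm.mid hn (by omega)).2
  have bwd' : ∀ n q, cfg M χ' q = 1 → P M (cfg M χ') q n = d →
      (∀ j ≤ n, P M (cfg M χ') q j ∉ Bo) → q ∈ Str M (cfg M χ) Bo d ∧ Sm M (cfg M χ) Bo q d := by
    intro n
    induction n with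
    | zero =>
      intro q hq e hn
      have e' : q = d := e
      subst e'
      exact ⟨str_self hd (hn 0 le_rfl), Sm.rfl' (hn 0 le_rfl)⟩
    | succ n ih =>
      intro q hq e hn
      have h1 : P M (cfg M χ') (stp M (cfg M χ') q) n = d := by
        rw [← e]
        exact (Function.iterate_succ_apply _ _ _).symm
      have h2 : ∀ j ≤ n, P M (cfg M χ') (stp M (cfg M χ') q) j ∉ Bo := by
        intro j hj
        have := hn (j + 1) (by omega)
        rwa [show P M (cfg M χ') q (j + 1) = P M (cfg M χ') (stp M (cfg M χ') q) j from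
          Function.iterate_succ_apply _ _ _] at this
      obtain ⟨g1, g2⟩ := ih _ (stp_occ hy hq (Set.notMem_empty _)) h1 h2
      obtain ⟨g3, g4⟩ := prev_agree ha g1 hq rfl
      have hb : q ∉ Bo := hn 0 (Nat.zero_le _)
      have g5 : Sm M (cfg M χ) Bo q (stp M (cfg M χ') q) := by
        refine ⟨1, g4, fun j hj => ?_⟩
        rcases Nat.le_one_iff_eq_zero_or_eq_one.1 hj with rfl | rfl
        · exact hb
        · show stp M (cfg M χ) q ∉ Bo
          rw [g4]
          exact str_off g1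
      exact ⟨⟨g3, Or.inr (g5.trans g2)⟩, g5.trans g2⟩
  ext q
  constructor
  · rintro ⟨hq, h⟩
    rcases h with ⟨n, e, hn⟩ | ⟨n, e, hn⟩
    · have h1 := fwd' n hn
      refine ⟨?_, Or.inl ⟨n, by rw [← h1 n le_rfl, e], fun j hj => by rw [← h1 j hj]; exact hn j hj⟩⟩
      rw [← e, h1 n le_rfl]
      exact P_occ hx hd n
    · exact (bwd' n q hq e hn).1
  · rintro ⟨hq, h⟩
    refine ⟨by rw [(face_agree ha ⟨hq, h⟩).1]; exact hq, ?_⟩
    rcases h with ⟨n, e, hn⟩ | ⟨n, e, hn⟩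
    · have h1 := fwd n hn
      exact Or.inl ⟨n, by rw [h1 n le_rfl, e], fun j hj => by rw [h1 j hj]; exact hn j hj⟩
    · have h1 := bwd n q hq e hn
      exact Or.inr ⟨n, by rw [h1 n le_rfl, e], fun j hj => by rw [h1 j hj]; exact hn j hj⟩

theorem strp_agree {d : D} (hd : cfg M χ d = 1) (ha : ∀ c ∈ sc M (cfg M χ) Bo d, χ' c = χ c) :
    StrP M (cfg M χ') Bo d = StrP M (cfg M χ) Bo d := by
  have h0 := str_agree hd ha
  ext q
  unfold StrP
  rw [h0]
  constructor
  · rintro ⟨hq, h | ⟨r, hr, e⟩ | h⟩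
    · exact ⟨h.1, Or.inl h⟩
    · rw [stp_agree ha hr] at e
      exact ⟨by rw [← e]; exact stp_occ (cfg_isC χ) hr.1 (Set.notMem_empty _), Or.inr (Or.inl ⟨r, hr, e⟩)⟩
    · obtain ⟨h1, h2⟩ := prev_agree ha h hq rfl
      exact ⟨h1, Or.inr (Or.inr (by rw [h2]; exact h))⟩
  · rintro ⟨hq, h | ⟨r, hr, e⟩ | h⟩
    · exact ⟨by rw [(face_agree ha h).1]; exact h.1, Or.inl h⟩
    · rw [← stp_agree ha hr] at e
      have hr1 : cfg M χ' r = 1 := by rw [(face_agree ha hr).1]; exact hr.1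
      exact ⟨by rw [← e]; exact stp_occ (cfg_isC χ') hr1 (Set.notMem_empty _), Or.inr (Or.inl ⟨r, hr, e⟩)⟩
    · obtain ⟨h1, h2⟩ := prev_agree' ha h hq rfl
      exact ⟨h1, Or.inr (Or.inr (by rw [h2]; exact h))⟩

theorem sl_agree {d : D} (hd : cfg M χ d = 1) (ha : ∀ c ∈ sc M (cfg M χ) Bo d, χ' c = χ c) :
    sl M (cfg M χ') Bo d = sl M (cfg M χ) Bo d := by
  unfold sl
  rw [strp_agree hd ha]

theorem sr_agree {d : D} (hd : cfg M χ d = 1) (ha : ∀ c ∈ sc M (cfg M χ) Bo d, χ' c = χ c) :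
    sr M (cfg M χ') Bo d = sr M (cfg M χ) Bo d := by
  unfold sr
  rw [strp_agree hd ha]

theorem sc_agree {d : D} (hd : cfg M χ d = 1) (ha : ∀ c ∈ sc M (cfg M χ) Bo d, χ' c = χ c) :
    sc M (cfg M χ') Bo d = sc M (cfg M χ) Bo d := by
  unfold sc
  rw [sl_agree hd ha, sr_agree hd ha]

/-! ### colours and connectedness -/

/-- one step -/
theorem step_con (hx : IsC M ∅ x) {d q : D} (hq : q ∈ StrP M x Bo d)
    (hq' : stp M x q ∈ StrP M x Bo d) :
    Relation.EqvGen (AdjS M (sl M x Bo d)) (M.cell q) (M.cell (stp M x q)) ∧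
    Relation.EqvGen (AdjS M (sr M x Bo d)) (Rc M q) (Rc M (stp M x q)) := by
  constructor
  · rcases left_step hx hq.1 with e | ⟨hl, e⟩
    · rw [e]; exact Relation.EqvGen.refl _
    · refine Relation.EqvGen.symm _ _ (Relation.EqvGen.rel _ _
        ⟨mem_sl.2 ⟨_, hq', rfl⟩, mem_sl.2 ⟨_, hq, rfl⟩, _, hl, e.symm, ?_⟩)
      rw [M.rho3]
  · rcases right_step hx hq.1 with e | ⟨hl, e⟩
    · rw [e]; exact Relation.EqvGen.refl _
    · exact Relation.EqvGen.rel _ _
        ⟨mem_sr.2 ⟨_, hq, rfl⟩, mem_sr.2 ⟨_, hq', rfl⟩, _, hl, rfl, e.symm⟩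

theorem walk_con (hx : IsC M ∅ x) {d q : D} {n : ℕ} (h : ∀ j ≤ n, P M x q j ∈ StrP M x Bo d) :
    Relation.EqvGen (AdjS M (sl M x Bo d)) (M.cell q) (M.cell (P M x q n)) ∧
    Relation.EqvGen (AdjS M (sr M x Bo d)) (Rc M q) (Rc M (P M x q n)) := by
  induction n with
  | zero => exact ⟨Relation.EqvGen.refl _, Relation.EqvGen.refl _⟩
  | succ n ih =>
    obtain ⟨h1, h2⟩ := ih fun j hj => h j (by omega)
    have h3 := h (n + 1) le_rfl
    rw [P_succ] at h3 ⊢
    obtain ⟨g1, g2⟩ := step_con hx (h n (by omega)) h3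
    exact ⟨h1.trans _ _ _ g1, h2.trans _ _ _ g2⟩

theorem str_con (hx : IsC M ∅ x) {d : D} (hd : x d = 1) {q : D}
    (hq : q ∈ StrP M x Bo d) :
    Relation.EqvGen (AdjS M (sl M x Bo d)) (M.cell d) (M.cell q) ∧
    Relation.EqvGen (AdjS M (sr M x Bo d)) (Rc M d) (Rc M q) := by
  have key : ∀ r ∈ Str M x Bo d,
      Relation.EqvGen (AdjS M (sl M x Bo d)) (M.cell d) (M.cell r) ∧
      Relation.EqvGen (AdjS M (sr M x Bo d)) (Rc M d) (Rc M r) := by
    rintro r ⟨hr, ⟨n, e, hn⟩ | ⟨n, e, hn⟩⟩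
    · rw [← e]
      exact walk_con hx fun j hj => str_sub ⟨P_occ hx hd j, Or.inl (Sm.mid hn hj).1⟩
    · have h1 : ∀ j ≤ n, P M x r j ∈ StrP M x Bo d := fun j hj =>
        str_sub ⟨P_occ hx hr j, Or.inr (by rw [← e]; exact (Sm.mid hn hj).2)⟩
      obtain ⟨g1, g2⟩ := walk_con hx h1
      rw [e] at g1 g2
      exact ⟨g1.symm, g2.symm⟩
  rcases hq.2 with h | ⟨r, hr, e⟩ | h
  · exact key q h
  · obtain ⟨g1, g2⟩ := key r hr
    obtain ⟨g3, g4⟩ := step_con hx (str_sub hr) (by rw [e]; exact hq)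
    rw [e] at g3 g4
    exact ⟨g1.trans _ _ _ g3, g2.trans _ _ _ g4⟩
  · obtain ⟨g1, g2⟩ := key _ h
    obtain ⟨g3, g4⟩ := step_con hx hq (str_sub h)
    exact ⟨g1.trans _ _ _ g3.symm, g2.trans _ _ _ g4.symm⟩

/-- the left cells are connected -/
theorem sl_con (hx : IsC M ∅ x) {d : D} (hd : x d = 1) {c : C}
    (hc : c ∈ sl M x Bo d) : Relation.EqvGen (AdjS M (sl M x Bo d)) (M.cell d) c := by
  obtain ⟨q, hq, rfl⟩ := mem_sl.1 hc
  exact (str_con hx hd hq).1

/-- the right cells are connected -/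
theorem sr_con (hx : IsC M ∅ x) {d : D} (hd : x d = 1) {c : C}
    (hc : c ∈ sr M x Bo d) : Relation.EqvGen (AdjS M (sr M x Bo d)) (Rc M d) c := by
  obtain ⟨q, hq, rfl⟩ := mem_sr.1 hc
  exact (str_con hx hd hq).2

theorem step_col {q : D} (hq : cfg M χ q = 1) :
    χ (M.cell (stp M (cfg M χ) q)) = χ (M.cell q) := by
  have h := it_col (cfg_isC χ) hq (fun d hd => cfg_zero.1 hd) 1
  exact h

theorem strp_col {d : D} (hd : cfg M χ d = 1) {q : D} (hq : q ∈ StrP M (cfg M χ) Bo d) :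
    χ (M.cell q) = χ (M.cell d) ∧ χ (Rc M q) = χ (M.cell d) + 1 := by
  have hx : IsC M ∅ (cfg M χ) := cfg_isC χ
  have key : ∀ r ∈ Str M (cfg M χ) Bo d, χ (M.cell r) = χ (M.cell d) := by
    rintro r ⟨hr, ⟨n, e, -⟩ | ⟨n, e, -⟩⟩
    · rw [← e]
      exact it_col hx hd (fun d hd => cfg_zero.1 hd) n
    · rw [← e]
      exact (it_col hx hr (fun d hd => cfg_zero.1 hd) n).symm
  have h1 : χ (M.cell q) = χ (M.cell d) := by
    rcases hq.2 with h | ⟨r, hr, e⟩ | h
    · exact key q h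
    · rw [← e, step_col hr.1, key r hr]
    · rw [← step_col hq.1, key _ h]
  refine ⟨h1, ?_⟩
  have h2 := cfg_one.1 hq.1
  rw [← h1]
  exact h2

theorem sl_col {d : D} (hd : cfg M χ d = 1) {c : C} (hc : c ∈ sl M (cfg M χ) Bo d) :
    χ c = χ (M.cell d) := by
  obtain ⟨q, hq, rfl⟩ := mem_sl.1 hc
  exact (strp_col hd hq).1

theorem sr_col {d : D} (hd : cfg M χ d = 1) {c : C} (hc : c ∈ sr M (cfg M χ) Bo d) :
    χ c = χ (M.cell d) + 1 := by
  obtain ⟨q, hq, rfl⟩ := mem_sr.1 hc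
  exact (strp_col hd hq).2

theorem sl_sr_disj {d : D} (hd : cfg M χ d = 1) :
    Disjoint (sl M (cfg M χ) Bo d) (sr M (cfg M χ) Bo d) := by
  rw [Finset.disjoint_left]
  intro c h1 h2
  have h3 := sl_col hd h1
  rw [sr_col hd h2] at h3
  revert h3
  generalize χ (M.cell d) = a
  revert a; decide

end cells

end Crest.Agent.R143.Strandx903
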