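import Crest.Agent.R143.QAF_136

/-!
# Row 143 (S0194), block H (helper197): the tube events, constants UNIFORM in the tile size

707's `strip_pr` and 136's `geoA_env` have constants which depend on the record `Par`, so on
`hB = 1/2 + h`, `a2 = 16 h`. Here they depend only on `l`, `r1`, `et` and an upper bound `H` of the
half side.
* **`strip_pru`** : the probability of the tube events
* **`geoA_envu`**, **`qa_ofu`** : 136's `geoA_env` and `qa_of`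
-/

set_option autoImplicit false

noncomputable section

open scoped Classical ENNReal

namespace Crest.Agent.R143.StripUx197

open MeasureTheory Filter Topology
open Crest.ProbabilityR.Voronoi
open Crest.Agent.R143.Mass1x302 Crest.Agent.R143.Mass2x302 Crest.Agent.R143.Mass3x302
  Crest.Agent.R143.Mass4x302 Crest.Agent.R143.Mass5x302 Crest.Agent.R143.MassQx304
  Crest.Agent.R143.Asm4x414 Crest.Agent.R143.PP0x831
open Crest.Agent.R143.Dbl2x609 (Ap paint coe_Ap)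
open Crest.Agent.R143.B0x346 Crest.Agent.R143.DelGx806 Crest.Agent.R143.DelRx806
  Crest.Agent.R143.SmallAx304 Crest.Agent.R143.Frame10x395 Crest.Agent.R143.RevCx389
  Crest.Agent.R143.RevEx389 Crest.Agent.R143.Harx315
  Crest.Agent.R143.SumAx389 Crest.Agent.R143.Meetx707 Crest.Agent.R143.Meet2x707
  Crest.Agent.R143.Stripx707 Crest.Agent.R143.MajAx136 Crest.Agent.R143.BigFx357
  Crest.Agent.R143.GeoIx136
open Crest.Agent.R143.EnvRx795 (EnvS Ce Ce_pos)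
open Crest.Agent.R143.CircPx838 (sup sup_le_norm norm_le_sup)
open Crest.Agent.R143.TubeWx707 (TW tube_pr)
open Crest.Agent.R143.RBmx838 (NvA)
open Crest.Agent.R143.Multix838 (Rect)
open Crest.Agent.R143.FinCx811 (Cs rc0)
open Crest.Agent.R143.FarIx355 (allI)
open Crest.Agent.R143.Engx490 (nn)
open Crest.Agent.R143.StgIx432 (exists_dart)
open Crest.Agent.R143.QAFx136 (RF RW)

/-- **probability of the tube events, the same constants for all windows, cores and tile sizes** -/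
theorem strip_pru (hRB : RBmx838.RBm) {l r1 et H : ℝ} (hl : 0 < l) (hr : 0 < r1) (he0 : 0 < et)
    (hH : 0 ≤ H) : ∀ C4 : ℝ, 0 ≤ C4 →
    ∃ p c1 c2 K : ℝ, 0 < p ∧ 0 < c1 ∧ 0 < c2 ∧ c2 ≤ 1 ∧ 0 < K ∧
    ∀ {hB d0 t0 a2 E : ℝ} (_ : Par hB d0 l t0 a2 r1 et E), hB ≤ H →
    ∀ (S : Finset ℂ) (z0 : ℂ) (R d : ℝ), NvA S z0 R c2 r1 d C4 → d ≤ c1 * r1 →
    ∀ V : Finset ℂ, V ⊆ S → ∀ u zB z1 : ℂ, ∀ c0 : ℝ, Pos u zB z1 hB d0 l c0 →
    ‖z1 - z0‖ + K * r1 ≤ R → (∀ s ∈ S, sup (s - zB) ≤ hB + l → s ∈ V) →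
    p ≤ pr V (TW S V z1 r1 (strip u zB hB c0 z1 E et)) := by
  intro C4 hC4
  set k : ℝ := 1 + (3 * H + l) / r1 + r1 / et with hk
  have k1 : 1 ≤ k := by
    have h1 : 0 ≤ (3 * H + l) / r1 := by positivity
    have h2 : 0 ≤ r1 / et := by positivity
    linarith
  have k2' : 3 * H + l ≤ k * r1 := by
    have h1 : (3 * H + l) / r1 * r1 = 3 * H + l := by field_simp
    have h2 : 0 ≤ r1 / et * r1 := by positivity
    have : k * r1 = r1 + (3 * H + l) / r1 * r1 + r1 / et * r1 := by rw [hk]; ring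
    linarith
  have k3 : r1 ≤ k * et := by
    have h1 : r1 / et * et = r1 := by field_simp
    have h2 : 0 ≤ (3 * H + l) / r1 * et := by positivity
    have : k * et = et + (3 * H + l) / r1 * et + r1 / et * et := by rw [hk]; ring
    linarith
  obtain ⟨p, c1, c2, K, hp, hc1, hc2, hc2', hK, H'⟩ := tube_pr hRB k k1 C4 hC4
  refine ⟨p, c1, c2, K, hp, hc1, hc2, hc2', hK, ?_⟩
  intro hB d0 t0 a2 E P hBH S z0 R d hN hd V hV u zB z1 c0 Q hR hVs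
  have k2 : 3 * hB + l ≤ k * r1 := by linarith
  refine H' S z0 R r1 d hr hN hd V hV z1 r1 _ (by nlinarith) le_rfl hR hR (strip_fit P Q k2 k3 k1)
    (fun s hs _ h => hVs s hs ?_) (fun s hs h => hVs s hs (strip_sup P Q h))
  have h1 := core_dp P Q h
  have h2 := P.pe
  have h3 := P.et_t0
  linarith

/-- **136's `geoA_env`, uniform** -/
theorem geoA_envu {l r1 et H : ℝ} (hl : 0 < l) (hr : 0 < r1) (he0 : 0 < et) (hH : 0 ≤ H) :
    ∃ p c1 c2 K : ℝ, 0 < p ∧ 0 < c1 ∧ 0 < c2 ∧ c2 ≤ 1 ∧ 0 < K ∧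
    ∀ {hB d0 t0 a2 E : ℝ} (_ : Par hB d0 l t0 a2 r1 et E), hB ≤ H →
    ∀ (A : Finset ℂ) (R d ρ0 : ℝ) (zB : ℂ), EnvS A R d ρ0 → d ≤ c1 * r1 → d ≤ 1 / 2 →
      ρ0 ≤ 1 / 2 → ρ0 ≤ c2 * r1 → ‖zB‖ + 2 * hB + 2 * l + 2 * a2 + K * r1 + r1 + 2 < R →
    ∀ (hS : GP (A : Set ℂ)) (h3 : 3 ≤ A.card) (m₀ : ℕ) (u : ℕ → ℂ) (c0 : ℕ → ℝ)
      (G : ℕ → Rg (D0 A) (Cs hS)) (Gf : Rg (D0 A) (Cs hS)),
      RegH zB hB l t0 a2 m₀ u c0 hS h3 G Gf →
    ∀ Z : Finset ℂ, (∀ z ∈ Z, sup (z - zB) ≤ hB - d0) → ∀ k : ℝ, 2 * k ≤ r1 →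
      GeoA (Metric.closedBall 0 R) k p m₀ A hS h3 G Gf (inS A) Z id (fun _ => r1) zB (hB + a2)
        fun i z => strip (u i) zB hB (c0 i) z E et := by
  obtain ⟨p, c1, c2, K, hp, hc1, hc2, hc2', hK, H'⟩ := strip_pru RBmFx54.rbm hl hr he0 hH Ce
    Ce_pos.le
  refine ⟨p, c1, c2, K, hp, hc1, hc2, hc2', hK, ?_⟩
  intro hB d0 t0 a2 E P hBH A R d ρ0 zB hE hd hd2 hρ hρ2 hR hS h3 m₀ u c0 G Gf hG Z hZ k hk
  have hB0 := P.pB
  have hd0 := P.pd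
  have ha := P.pa
  have hKr : 0 < K * r1 := by positivity
  have hdp := hE.dpos
  have hVi : ∀ s ∈ inS A, ¬ OnHull A s := fun s hs => (Finset.mem_filter.1 hs).2
  have hVA : inS A ⊆ A := Finset.filter_subset _ _
  refine ⟨?_, ?_, hG.h0, hG.le, hG.th, hVA, hVi, hG.far, ?_, fun _ _ => hk, ?_⟩
  · intro v _ hv
    rw [mem_closedBall_zero_iff] at hv
    exact hE.inn (by linarith)
  · refine dn_of_hol hdp (hE.holU ?_) ?_
    · intro v hv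
      have hv' : sup (v - zB) < hB + a2 := hv
      have := norm_le_of_sup hv'.le
      linarith
    · intro v hv z hz
      have hv' : sup (v - zB) < hB + a2 := hv
      have h1 := norm_le_of_sup hv'.le
      have h2 := norm_add_le (z - v) v
      rw [sub_add_cancel] at h2
      rw [mem_closedBall_zero_iff]
      linarith
  · intro i hi z hz
    exact geo P ⟨hG.dir i hi, hZ z hz, hG.win i hi⟩ (hG.far i hi) (hG.sec i hi) (hG.deep i hi)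
      hVA hVi
  · intro i hi z hz
    have h4 := hZ z hz
    have h5 : ‖z - zB‖ ≤ 2 * (hB - d0) := (norm_le_sup _).trans (by linarith)
    refine H' P hBH A zB (2 * hB + K * r1) d (hE.nvaL hρ (by linarith) ?_ hr.le hρ2) hd (inS A) hVA
      (u i) zB z (c0 i) ⟨hG.dir i hi, hZ z hz, hG.win i hi⟩ ?_ ?_
    · linarith
    · linarith
    · intro s hs h6
      refine Finset.mem_filter.2 ⟨hs, hE.inn ?_⟩
      have := norm_le_of_sup h6
      linarith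

/-- **136's `qa_of`, uniform** -/
theorem qa_ofu {l r1 et H : ℝ} (hl : 0 < l) (hr : 0 < r1) (he0 : 0 < et) (hH : 0 ≤ H) :
    ∃ p c1 c2 K : ℝ, 0 < p ∧ 0 < c1 ∧ 0 < c2 ∧ c2 ≤ 1 ∧ 0 < K ∧
    ∀ {hB d0 t0 a2 E0 : ℝ} (_ : Par hB d0 l t0 a2 r1 et E0), hB ≤ H →
    ∀ (R d ρ0 : ℝ) (zB : ℂ), d ≤ c1 * r1 → d ≤ 1 / 2 → ρ0 ≤ 1 / 2 → ρ0 ≤ c2 * r1 →
      ‖zB‖ + 2 * hB + 2 * l + 2 * a2 + K * r1 + r1 + 2 < R →
    ∀ (m₀ : ℕ) (u : ℕ → ℂ) (c0 : ℕ → ℝ) (Gr : RF) (Gw : RW) (Z : Finset ℂ),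
      (∀ z ∈ Z, sup (z - zB) ≤ hB - d0) →
    ∀ (ε : ℝ), 0 < ε → ∀ B : Set ℂ, Bornology.IsBounded B → Metric.closedBall 0 R ⊆ B →
    ∀ (g : Set (ℂ × Bool) → ℝ≥0∞) (Y : Finset ℂ → Finset ℂ → ℝ≥0∞),
      (∀ (A β : Finset ℂ) (hS : GP (A : Set ℂ)) (h3 : 3 ≤ A.card), Y A β ≤
        8 * avPhi m₀ hS h3 (Gw A hS h3) (Gr A hS h3) Z id (fun _ => r1) (allI (D0 A)) (nn A) β) →
      (∀ᵐ ω ∂sampleLaw, ∀ β ∈ (Ap ε B ω).powerset, g (paint (Ap ε B ω) β) ≠ 0 →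
        EnvS (Ap ε B ω) R d ρ0 ∧
        ∃ (hS : GP ((Ap ε B ω : Finset ℂ) : Set ℂ)) (h3 : 3 ≤ (Ap ε B ω).card),
          RegH zB hB l t0 a2 m₀ u c0 hS h3 (Gw _ hS h3) (Gr _ hS h3) ∧
          ∃ r, Rd (rc0 hS) (Gr _ hS h3) (Gw _ hS h3) m₀ (chiS hS h3 β) r) →
      ∀ᵐ ω ∂sampleLaw, QA ℂ 8 (r1 / 2) p m₀ Z.card (points ε ω) (Metric.closedBall 0 R)
        (Ap ε B ω) (fun β => g (paint (Ap ε B ω) β)) (Y (Ap ε B ω)) := by
  obtain ⟨p, c1, c2, K, hp, hc1, hc2, hc2', hK, H'⟩ := geoA_envu hl hr he0 hH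
  refine ⟨p, c1, c2, K, hp, hc1, hc2, hc2', hK, ?_⟩
  intro hB d0 t0 a2 E0 P hBH R d ρ0 zB e2 e3 e4 e5 hR m₀ u c0 Gr Gw Z hZ ε hε B hBb hUB g Y hY hD
  filter_upwards [hD] with ω hD
  by_cases h0 : ∀ β, β ⊆ Ap ε B ω → g (paint (Ap ε B ω) β) = 0
  · refine Or.inl fun β hβ => ?_
    show g (paint (Ap ε B ω) β) * Y (Ap ε B ω) β = 0
    rw [h0 β hβ, zero_mul]
  right
  push Not at h0
  obtain ⟨β0, hβ0, hg0⟩ := h0
  obtain ⟨e1, hS, h3, hG, -⟩ := hD β0 (Finset.mem_powerset.2 hβ0) hg0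
  obtain ⟨e0⟩ := exists_dart hS h3
  have hA := coe_Ap hε hBb ω
  have hPS : ∀ z ∈ Metric.closedBall (0 : ℂ) R, z ∈ ((Ap ε B ω : Finset ℂ) : Set ℂ) ↔
      z ∈ points ε ω := by
    intro z hz
    rw [hA]
    exact ⟨fun h => h.1, fun h => ⟨h, hUB hz⟩⟩
  refine ⟨hS, h3, e0, nn _, Gw _ hS h3, Gr _ hS h3, inS _, Z, id, fun _ => r1, zB, hB + a2, _,
    allI _, fldU_congr hPS (Fld.toU (Or.inl fun t ht => ?_)),
    H' P hBH _ R d ρ0 zB e1 e2 e3 e4 e5 hR hS h3 m₀ u c0 _ _ hG Z hZ _ (by linarith only), le_rfl,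
    ?_, ?_⟩
  · exact (StgIx432.fld_nn (Metric.closedBall 0 R)).nn _ hS e0 t ht
  · intro β hβ hg
    obtain ⟨-, _, _, -, h4⟩ := hD β (Finset.mem_powerset.2 hβ) hg
    exact h4
  · intro β _ _
    exact hY _ β hS h3

end Crest.Agent.R143.StripUx197
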