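import Crest.Agent.R143.SubS_117
import Crest.Agent.R143.RcT_422

/-!
# Row 143 (S0194), part B without E3: the pieces of the strand of a corridor around a window
(helper117)

`T₁` = a set of sites (the window), `UB B a b` = the tiles `a ≤ k < b`. All arcs backward: time order
`k` = tile `n - 1 - k`.

* `first_dc` : first piece = tiles `b' ≤ k < n - 1` off `T₁`, up to the first entrance into `T₁`
* `second_dc` : second piece = tiles `1 ≤ k < a'` off `T₁`, from the last exit out of `T₁`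
* `strd_first`, `strd_second` : the two pieces are out strands (`Uniqx323.Strd`) on `rc0 hS`
* `rest_first`, `rest_second`, `rest_mid` : tiles of the other states
-/

set_option autoImplicit false

noncomputable section

open scoped Classical

namespace Crest.Agent.R143.SubDx117

open Crest.Agent.R143.B0x346 Crest.Agent.R143.DelGx806 Crest.Agent.R143.DelRx806
  Crest.Agent.R143.JColx54
open Crest.Agent.R143.Frame1x395 Crest.Agent.R143.Frame2x395 Crest.Agent.R143.Frame3x395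
  Crest.Agent.R143.Frame4x395 Crest.Agent.R143.Frame8x395 Crest.Agent.R143.Frame9x395
  Crest.Agent.R143.Frame10x395 Crest.Agent.R143.Frame11x395
open Crest.Agent.R143.Splx117 Crest.Agent.R143.WLocx713 Crest.Agent.R143.RingDx117
  Crest.Agent.R143.CorrDx117 Crest.Agent.R143.StrBx117
open Crest.Agent.R143.NonXx592 (Rc P)
open Crest.Agent.R143.K33x137 Crest.Agent.R143.Uniqx323
open Crest.Agent.R143.FinCx811 (Cs rc0 cs rcol)
open Crest.Agent.R143.Mass3x302 (restr)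

/-- the tiles `a ≤ k < b` -/
def UB (B : ℕ → Set ℂ) (a b : ℕ) : Set ℂ := {s | ∃ k, a ≤ k ∧ k < b ∧ s ∈ B k}

theorem UB_mono {B : ℕ → Set ℂ} {a b a' b' : ℕ} (h1 : a' ≤ a) (h2 : b ≤ b') :
    UB B a b ⊆ UB B a' b' := fun _ ⟨k, k1, k2, k3⟩ => ⟨k, h1.trans k1, k2.trans_le h2, k3⟩

theorem sub_UB {B : ℕ → Set ℂ} {a b k : ℕ} (h1 : a ≤ k) (h2 : k < b) : B k ⊆ UB B a b :=
  fun _ h => ⟨k, h1, h2, h⟩

variable {S : Finset ℂ} {χ : ℂ → ZMod 2} {hS : GP (S : Set ℂ)} {hχ : HullC S χ} {n N : ℕ}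
  {y z : ℕ → ℂ} {A B : ℕ → Set ℂ} {p : ℕ → D0 S} {q : D0 S} {T : ℕ → ℕ} {T₁ : Set ℂ}

theorem RD_mono {B B' : Set ℂ} (h : B ⊆ B') : RD S B ⊆ RD S B' := fun _ hd => ⟨h hd.1, h hd.2⟩

/-- the strand of the corridor in the tiles `1, .., n - 2` -/
abbrev HStr (hS : GP (S : Set ℂ)) (hχ : HullC S χ) (n : ℕ) (B : ℕ → Set ℂ) (p : ℕ → D0 S)
    (q : D0 S) (N : ℕ) (T : ℕ → ℕ) : Prop :=
  Str (cm0 hS) (xc hS hχ) n (RD S (UB B 1 (n - 1))) (fun k => p (n - k))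
    (fun k => RD S (B (n - 1 - k))) q N T

/-- **the first piece** -/
theorem first_dc (R : DCorr hS hχ n y z A B p) (H : HStr hS hχ n B p q N T)
    (dis : ∀ j k, j + 2 ≤ k → k < n → Disjoint (B j) (B k)) {b' : ℕ} (hb0 : 0 < b')
    (hb : b' + 3 ≤ n) (hT : ∀ k, b' < k → k < n → Disjoint (B k) T₁)
    (hy : y b' ∈ T₁ ∨ z b' ∈ T₁) :
    ∃ e, T (n - b' - 1) ≤ e ∧ e < T (n - b') ∧
      (stp (cm0 hS) (xc hS hχ))^[e + 1] q ∉ RD S (UB B b' (n - 1) \ T₁) ∧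
      Str (cm0 hS) (xc hS hχ) (n - b') (RD S (UB B b' (n - 1) \ T₁)) (fun k => p (n - k))
        (fun k => RD S (B (n - 1 - k))) q N (sT T (n - b') 0 e) := by
  have H1 : (fun k => RD S (B (n - 1 - k))) 0 ∩ RD S (UB B 1 (n - 1)) ⊆
      RD S (UB B b' (n - 1) \ T₁) := by
    have key : ∀ s, s ∈ B (n - 1) → s ∈ UB B 1 (n - 1) → s ∈ UB B b' (n - 1) \ T₁ := by
      rintro s h1 ⟨k, k1, k2, k3⟩
      refine ⟨⟨k, ?_, k2, k3⟩, Set.disjoint_left.1 (hT (n - 1) (by omega) (by omega)) h1⟩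
      by_contra hc
      exact Set.disjoint_left.1 (dis k (n - 1) (by omega) (by omega)) k3 h1
    rintro d ⟨h1, h2⟩
    change d ∈ RD S (B (n - 1 - 0)) at h1
    rw [Nat.sub_zero] at h1
    exact ⟨key _ h1.1 h2.1, key _ h1.2 h2.2⟩
  have H2 : ∀ k, 0 < k → k + 1 < n - b' → (fun k => RD S (B (n - 1 - k))) k ⊆
      RD S (UB B b' (n - 1) \ T₁) := by
    intro k k1 k2
    have hsub : B (n - 1 - k) ⊆ UB B b' (n - 1) \ T₁ := fun s hs =>
      ⟨⟨n - 1 - k, by omega, by omega, hs⟩,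
        Set.disjoint_left.1 (hT (n - 1 - k) (by omega) (by omega)) hs⟩
    exact RD_mono hsub
  have H3 : RD S (UB B b' (n - 1) \ T₁) ⊆ RD S (UB B 1 (n - 1)) :=
    RD_mono fun s hs => UB_mono (by omega) le_rfl hs.1
  have H4 : (fun k => p (n - k)) (n - b') ∉ RD S (UB B b' (n - 1) \ T₁) := by
    intro h
    change p (n - (n - b')) ∈ RD S (UB B b' (n - 1) \ T₁) at h
    rw [show n - (n - b') = b' by omega] at h
    obtain ⟨h1, h2⟩ := h
    rw [R.st b' (by omega)] at h1 h2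
    rcases hy with hy | hy
    · exact h1.2 hy
    · exact h2.2 hy
  obtain ⟨e, e1, e2, -, e3, HH⟩ := Str.first (b := n - b') H (by omega) (by omega) H1 H2 H3 H4
  exact ⟨e, e1, e2, e3, HH⟩

/-- **the second piece** -/
theorem second_dc (R : DCorr hS hχ n y z A B p) (H : HStr hS hχ n B p q N T)
    (dis : ∀ j k, j + 2 ≤ k → k < n → Disjoint (B j) (B k)) {a' : ℕ} (ha0 : 3 ≤ a')
    (ha : a' < n) (hT : ∀ k, k + 1 < a' → Disjoint (B k) T₁)
    (hy : y a' ∈ T₁ ∨ z a' ∈ T₁) :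
    ∃ s, T (n - a') < s ∧ s ≤ T (n - a' + 1) ∧
      (stp (cm0 hS) (xc hS hχ))^[s - 1] q ∉ RD S (UB B 1 a' \ T₁) ∧
      Str (cm0 hS) (xc hS hχ) a' (RD S (UB B 1 a' \ T₁)) (fun k => p (a' - k))
        (fun k => RD S (B (a' - 1 - k))) ((stp (cm0 hS) (xc hS hχ))^[s] q) N
        (fun k => sT (fun k => T (n - a' + k)) a' s (T n) k - s) := by
  have H1 : (fun k => RD S (B (n - 1 - k))) (n - 1) ∩ RD S (UB B 1 (n - 1)) ⊆
      RD S (UB B 1 a' \ T₁) := by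
    have key : ∀ s, s ∈ B 0 → s ∈ UB B 1 (n - 1) → s ∈ UB B 1 a' \ T₁ := by
      rintro s h1 ⟨k, k1, k2, k3⟩
      refine ⟨⟨k, k1, ?_, k3⟩, Set.disjoint_left.1 (hT 0 (by omega)) h1⟩
      by_contra hc
      exact Set.disjoint_left.1 (dis 0 k (by omega) (by omega)) h1 k3
    rintro d ⟨h1, h2⟩
    change d ∈ RD S (B (n - 1 - (n - 1))) at h1
    rw [Nat.sub_self] at h1
    exact ⟨key _ h1.1 h2.1, key _ h1.2 h2.2⟩
  have H2 : ∀ k, n - a' < k → k + 1 < n → (fun k => RD S (B (n - 1 - k))) k ⊆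
      RD S (UB B 1 a' \ T₁) := by
    intro k k1 k2
    have hsub : B (n - 1 - k) ⊆ UB B 1 a' \ T₁ := fun s hs =>
      ⟨⟨n - 1 - k, by omega, by omega, hs⟩,
        Set.disjoint_left.1 (hT (n - 1 - k) (by omega)) hs⟩
    exact RD_mono hsub
  have H3 : RD S (UB B 1 a' \ T₁) ⊆ RD S (UB B 1 (n - 1)) :=
    RD_mono fun s hs => UB_mono le_rfl (by omega) hs.1
  have H4 : (fun k => p (n - k)) (n - a') ∉ RD S (UB B 1 a' \ T₁) := by
    intro h
    change p (n - (n - a')) ∈ RD S (UB B 1 a' \ T₁) at h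
    rw [show n - (n - a') = a' by omega] at h
    obtain ⟨h1, h2⟩ := h
    rw [R.st a' (by omega)] at h1 h2
    rcases hy with hy | hy
    · exact h1.2 hy
    · exact h2.2 hy
  obtain ⟨s, s1, s2, -, s3, HH⟩ := Str.second (a := n - a') H (by omega) (by omega) H1 H2 H3 H4
  refine ⟨s, s1, s2, s3, ?_⟩
  have e1 : n - (n - a') = a' := by omega
  have e2 : (fun k => p (n - (n - a' + k))) = fun k => p (a' - k) := by
    funext k
    rw [show n - (n - a' + k) = a' - k by omega]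
  have e3 : (fun k => RD S (B (n - 1 - (n - a' + k)))) = fun k => RD S (B (a' - 1 - k)) := by
    funext k
    rw [show n - 1 - (n - a' + k) = a' - 1 - k by omega]
  rw [e1] at HH
  change Str (cm0 hS) (xc hS hχ) a' (RD S (UB B 1 a' \ T₁)) (fun k => p (n - (n - a' + k)))
    (fun k => RD S (B (n - 1 - (n - a' + k)))) _ N _ at HH
  rw [e2, e3] at HH
  exact HH

/-! ### tiles of the other states -/

/-- the states after the first piece are in the tiles `≤ b'` -/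
theorem rest_first (H : HStr hS hχ n B p q N T) {b' e i : ℕ} (hb : b' + 1 ≤ n)
    (he : T (n - b' - 1) ≤ e) (h1 : e < i) (h2 : i ≤ T n) :
    ∃ k, k ≤ b' ∧ (stp (cm0 hS) (xc hS hχ))^[i] q ∈ RD S (B k) := by
  obtain ⟨k, k1, k2, k3, k4⟩ := arc_of (T := T) (a := n - b' - 1) (b := n) (u := i) (by omega)
    (by omega) h2
  exact ⟨n - 1 - k, by omega, H.arc k k2 i k3 k4⟩

/-- the states before the second piece are in the tiles `≥ a' - 1` -/
theorem rest_second (H : HStr hS hχ n B p q N T) {a' s i : ℕ} (ha0 : 0 < a') (ha : a' ≤ n)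
    (hs : s ≤ T (n - a' + 1)) (h2 : i < s) :
    ∃ k, a' - 1 ≤ k ∧ k < n ∧ (stp (cm0 hS) (xc hS hχ))^[i] q ∈ RD S (B k) := by
  obtain ⟨k, k1, k2, k3, k4⟩ := arc_of (T := T) (a := 0) (b := n - a' + 1) (u := i) (by omega)
    (by rw [H.T0]; omega) (by omega)
  have h3 := H.n3
  exact ⟨n - 1 - k, by omega, by omega, H.arc k (by omega) i k3 k4⟩

/-- the states between the two pieces are in the tiles `a' - 1, .., b'` -/
theorem rest_mid (H : HStr hS hχ n B p q N T) {a' b' e s i : ℕ} (ha0 : 0 < a') (hab : a' ≤ b')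
    (hb : b' + 1 ≤ n) (he : T (n - b' - 1) ≤ e) (hs : s ≤ T (n - a' + 1)) (h1 : e < i)
    (h2 : i < s) :
    ∃ k, a' - 1 ≤ k ∧ k ≤ b' ∧ (stp (cm0 hS) (xc hS hχ))^[i] q ∈ RD S (B k) := by
  obtain ⟨k, k1, k2, k3, k4⟩ := arc_of (T := T) (a := n - b' - 1) (b := n - a' + 1) (u := i)
    (by omega) (by omega) (by omega)
  exact ⟨n - 1 - k, by omega, by omega, H.arc k (by omega) i k3 k4⟩

/-! ### the pieces are out strands -/

/-- colour of the first left cell of a strand -/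
theorem col_q {m : ℕ} {Rs : Set (D0 S)} {pp : ℕ → D0 S} {RR : ℕ → Set (D0 S)} {q : D0 S}
    {T : ℕ → ℕ} (H : Str (cm0 hS) (xc hS hχ) m Rs pp RR q N T) {i : ℕ}
    (hi : χ ((stp (cm0 hS) (xc hS hχ))^[i] q).1.1 = 1) :
    rcol hS χ hχ ((rc0 hS).cell q) = 1 := by
  have h1 : (rc0 hS).cell (P (rc0 hS) (xc hS hχ) q i) ∈ Gntx535.wl (rc0 hS) (xc hS hχ) q i :=
    Gntx535.mem_wl.2 ⟨i, le_rfl, rfl⟩
  have h2 := Gntx535.wl_col (M := rc0 hS) (χ := rcol hS χ hχ) (p := q) H.lp.occ h1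
  rw [← h2]
  exact hi

/-- general form -/
theorem strd_rc {m : ℕ} {U : Set ℂ} {pp : ℕ → D0 S} {BB : ℕ → Set ℂ} {q : D0 S} {T : ℕ → ℕ}
    {Z : Zn (rc0 hS)} (hZ : EvGx117.Rd (rc0 hS) Z.R = RD S U)
    (H : Str (cm0 hS) (xc hS hχ) m (RD S U) pp (fun k => RD S (BB k)) q N T) {j : ℕ}
    (hj0 : 0 < j) (hj : j < m) (hcol : χ (pp j).1.1 = 1)
    (h0 : ∀ d ∈ RD S (BB 0), ∀ c, (c = (rc0 hS).cell d ∨ c = Rc (rc0 hS) d) → c ∉ Z.R → c ∈ Z.E)
    (h1 : ∀ d ∈ RD S (BB (m - 1)), ∀ c, (c = (rc0 hS).cell d ∨ c = Rc (rc0 hS) d) → c ∉ Z.R →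
      c ∈ Z.W)
    (hk : ∃ t ∈ Z.T, Lk (rc0 hS) ({c | c ∈ Z.K ∧ rcol hS χ hχ c = 0} ∪ Z.T)
      (Rc (rc0 hS) (pp j)) t) :
    Strd (rc0 hS) Z 1 (rcol hS χ hχ) q (T m) := by
  have H' : Str (rc0 hS) (cfg (rc0 hS) (rcol hS χ hχ)) m (EvGx117.Rd (rc0 hS) Z.R) pp
      (fun k => RD S (BB k)) q N T := by
    rw [hZ]
    exact RcTx422.str_restr.2 H
  have hc : rcol hS χ hχ ((rc0 hS).cell q) = 1 := by
    refine col_q H (i := T j) ?_
    rw [H.at_ j hj0 hj]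
    exact hcol
  refine EvGx117.strd_of H' hc h0 h1 ⟨T j, H.T_le hj.le le_rfl, ?_⟩
  obtain ⟨t, ht, hl⟩ := hk
  refine ⟨t, ht, ?_⟩
  have e : P (rc0 hS) (cfg (rc0 hS) (rcol hS χ hχ)) q (T j) = pp j := H.at_ j hj0 hj
  rw [e]
  exact hl

/-- **the first piece is an out strand** of the zones `Z` (`Z.R` = cells of the tiles `≥ b'` off `T₁`),
column at the gate `g`, `b' < g < n` -/
theorem strd_first (R : DCorr hS hχ n y z A B p) {b' e : ℕ} (hb : b' + 3 ≤ n)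
    (H : Str (cm0 hS) (xc hS hχ) (n - b') (RD S (UB B b' (n - 1) \ T₁)) (fun k => p (n - k))
        (fun k => RD S (B (n - 1 - k))) q N (sT T (n - b') 0 e))
    {Z : Zn (rc0 hS)} (hZ : EvGx117.Rd (rc0 hS) Z.R = RD S (UB B b' (n - 1) \ T₁)) {g : ℕ}
    (g0 : b' < g) (gn : g < n) (hcol : χ (y g) = 1)
    (h0 : ∀ d ∈ RD S (B (n - 1)), ∀ c, (c = (rc0 hS).cell d ∨ c = Rc (rc0 hS) d) → c ∉ Z.R →
      c ∈ Z.E)
    (h1 : ∀ d ∈ RD S (B b'), ∀ c, (c = (rc0 hS).cell d ∨ c = Rc (rc0 hS) d) → c ∉ Z.R →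
      c ∈ Z.W)
    (hk : ∃ t ∈ Z.T, Lk (rc0 hS) ({c | c ∈ Z.K ∧ rcol hS χ hχ c = 0} ∪ Z.T)
      (Rc (rc0 hS) (p g)) t) :
    Strd (rc0 hS) Z 1 (rcol hS χ hχ) q e := by
  have e1 : n - (n - g) = g := by omega
  have h := strd_rc (BB := fun k => B (n - 1 - k)) hZ H (j := n - g) (by omega) (by omega) (by
    show χ (p (n - (n - g))).1.1 = 1
    rw [e1, R.st g gn.le]
    exact hcol) (by
    show ∀ d ∈ RD S (B (n - 1 - 0)), _
    rw [Nat.sub_zero]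
    exact h0) (by
    show ∀ d ∈ RD S (B (n - 1 - (n - b' - 1))), _
    rw [show n - 1 - (n - b' - 1) = b' by omega]
    exact h1) (by
    show ∃ t ∈ Z.T, Lk (rc0 hS) _ (Rc (rc0 hS) (p (n - (n - g)))) t
    rw [e1]
    exact hk)
  rwa [sT_end (by omega)] at h

/-- **the second piece is an out strand** of the zones `Z` (`Z.R` = cells of the tiles `< a'` off
`T₁`), column at the gate `g`, `0 < g < a'` -/
theorem strd_second (R : DCorr hS hχ n y z A B p) {a' s : ℕ} (ha0 : 3 ≤ a') (ha : a' ≤ n)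
    (H : Str (cm0 hS) (xc hS hχ) a' (RD S (UB B 1 a' \ T₁)) (fun k => p (a' - k))
        (fun k => RD S (B (a' - 1 - k))) ((stp (cm0 hS) (xc hS hχ))^[s] q) N
        (fun k => sT (fun k => T (n - a' + k)) a' s (T n) k - s))
    {Z : Zn (rc0 hS)} (hZ : EvGx117.Rd (rc0 hS) Z.R = RD S (UB B 1 a' \ T₁)) {g : ℕ}
    (g0 : 0 < g) (ga : g < a') (hcol : χ (y g) = 1)
    (h0 : ∀ d ∈ RD S (B (a' - 1)), ∀ c, (c = (rc0 hS).cell d ∨ c = Rc (rc0 hS) d) → c ∉ Z.R →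
      c ∈ Z.E)
    (h1 : ∀ d ∈ RD S (B 0), ∀ c, (c = (rc0 hS).cell d ∨ c = Rc (rc0 hS) d) → c ∉ Z.R →
      c ∈ Z.W)
    (hk : ∃ t ∈ Z.T, Lk (rc0 hS) ({c | c ∈ Z.K ∧ rcol hS χ hχ c = 0} ∪ Z.T)
      (Rc (rc0 hS) (p g)) t) :
    Strd (rc0 hS) Z 1 (rcol hS χ hχ) ((stp (cm0 hS) (xc hS hχ))^[s] q) (T n - s) := by
  have e1 : a' - (a' - g) = g := by omega
  have h := strd_rc (BB := fun k => B (a' - 1 - k)) hZ H (j := a' - g) (by omega) (by omega) (by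
    show χ (p (a' - (a' - g))).1.1 = 1
    rw [e1, R.st g (by omega)]
    exact hcol) (by
    show ∀ d ∈ RD S (B (a' - 1 - 0)), _
    rw [Nat.sub_zero]
    exact h0) (by
    show ∀ d ∈ RD S (B (a' - 1 - (a' - 1))), _
    rw [Nat.sub_self]
    exact h1) (by
    show ∃ t ∈ Z.T, Lk (rc0 hS) _ (Rc (rc0 hS) (p (a' - (a' - g)))) t
    rw [e1]
    exact hk)
  change Strd (rc0 hS) Z 1 (rcol hS χ hχ) _ (sT (fun k => T (n - a' + k)) a' s (T n) a' - s) at h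
  rwa [sT_end (by omega)] at h

end Crest.Agent.R143.SubDx117
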