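import Crest.Agent.R143.EvG_117

/-!
# Row 143 (S0194), part B without E3: the two pieces of a strand around a window (helper117)

`A : Str M x n Rs p R q N T` is the strand; a window consists of the arcs `b, .., a - 1` (time order).

* `Str.first` : the first piece (same first state, up to the first entrance into the window) is a strand
  of the fixed set `Rs₁ ⊆ Rs`
* `Str.second` : the second piece (from the last exit, same last state)
* `Str.mid` : the states between the two pieces are in `R k`, `b - 1 ≤ k ≤ a`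
* `Str.win` : the three statements together
-/

set_option autoImplicit false

noncomputable section

open scoped Classical

namespace Crest.Agent.R143.StrBx117

open Crest.Agent.R143.Frame1x395 Crest.Agent.R143.Frame2x395 Crest.Agent.R143.Frame3x395
  Crest.Agent.R143.Frame4x395 Crest.Agent.R143.Frame8x395 Crest.Agent.R143.Frame9x395
open Crest.Agent.R143.Splx117

variable {D C : Type} {M : CMap D C} {x : D → ZMod 2} {N : ℕ} {q : D} {n : ℕ} {Rs : Set D}
  {p : ℕ → D} {R : ℕ → Set D} {T : ℕ → ℕ}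

theorem Str.T_le (A : Str M x n Rs p R q N T) {a b : ℕ} (hab : a ≤ b) (hb : b ≤ n) : T a ≤ T b :=
  mono_of (a := 0) (b := n) (fun k _ h => A.mono k h) (Nat.zero_le a) hab hb

/-- **the first piece**: same first state, up to the first entrance into the window -/
theorem Str.first (A : Str M x n Rs p R q N T) {b : ℕ} (b3 : 3 ≤ b) (bn : b < n) {Rs₁ : Set D}
    (h0 : R 0 ∩ Rs ⊆ Rs₁) (hR : ∀ k, 0 < k → k + 1 < b → R k ⊆ Rs₁) (hs : Rs₁ ⊆ Rs)
    (hb : p b ∉ Rs₁) :
    ∃ e, T (b - 1) ≤ e ∧ e < T b ∧ (∀ i, i ≤ e → (stp M x)^[i] q ∈ Rs₁) ∧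
      (stp M x)^[e + 1] q ∉ Rs₁ ∧ Str M x b Rs₁ p R q N (sT T b 0 e) := by
  have hin : ∀ i, i ≤ T (b - 1) → (stp M x)^[i] q ∈ Rs₁ := by
    intro i hi
    obtain ⟨k, k1, k2, k3, k4⟩ := arc_of (T := T) (a := 0) (b := b - 1) (u := i) (by omega)
      (by rw [A.T0]; exact Nat.zero_le _) hi
    rcases Nat.eq_zero_or_pos k with rfl | hk
    · exact h0 ⟨A.arc 0 (by omega) i k3 k4, A.mem i (hi.trans (A.T_le (by omega) le_rfl))⟩
    · exact hR k hk (by omega) (A.arc k (by omega) i k3 k4)
  have hlt : T (b - 1) < T b := by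
    have := A.lt (b - 1) (by omega) (by omega)
    rwa [show b - 1 + 1 = b by omega] at this
  obtain ⟨j, j1, j2, j3, j4⟩ := first_time (Q := fun i => (stp M x)^[i] q ∉ Rs₁) (m := T (b - 1))
    (v := T b) hlt (by rw [A.at_ b (by omega) bn]; exact hb) (fun h => h (hin _ le_rfl))
  have e1 : T (b - 1) ≤ j - 1 := by omega
  have e2 : j - 1 < T b := by omega
  have mem : ∀ i, i ≤ j - 1 → (stp M x)^[i] q ∈ Rs₁ := by
    intro i hi
    rcases Nat.lt_or_ge (T (b - 1)) i with h | h
    · by_contra h5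
      exact j4 i h.le (by omega) h5
    · exact hin i h
  have aft : (stp M x)^[j - 1 + 1] q ∉ Rs₁ := by
    rw [show j - 1 + 1 = j by omega]
    exact j3
  have T1 : 0 ≤ T 1 := Nat.zero_le _
  have hTn : T b ≤ T n := A.T_le bn.le le_rfl
  refine ⟨j - 1, e1, e2, mem, aft, ?_⟩
  exact
    { n3 := b3
      lp := A.lp
      T0 := sT_zero
      TN := by
        rw [sT_end (by omega)]
        have := A.TN
        omega
      mono := fun k hk => sT_mono (by omega) T1 e1 (fun k hk => A.mono k (by omega)) hk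
      lt := fun k h1 h2 => by
        rw [sT_mid h1 (by omega), sT_mid (by omega) h2]
        exact A.lt k h1 (by omega)
      at_ := fun k h1 h2 => by
        rw [sT_mid h1 h2]
        exact A.at_ k h1 (by omega)
      arc := fun k hk i h1 h2 => by
        obtain ⟨b3, -⟩ := sT_lo (s := 0) (e := j - 1) (T := T) (n := b) A.T0.le hk
        have b4 := sT_hi (s := 0) (e := j - 1) (T := T) (n := b) (by omega) e2.le hk
        exact A.arc k (by omega) i (b3.trans h1) (h2.trans b4)
      mem := fun i hi => by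
        rw [sT_end (by omega)] at hi
        exact mem i hi
      bef := fun h => A.bef (hs h)
      aft := by
        rw [sT_end (by omega)]
        exact aft
      cut := Cut.shrink (by omega) A.T0.le e2.le (A.cut.sub le_rfl bn.le)
      befR := A.befR
      aftR := by
        rw [sT_end (by omega)]
        exact A.arc (b - 1) (by omega) (j - 1 + 1) (by omega) (by
          rw [show b - 1 + 1 = b by omega]
          omega) }

/-- **the second piece**: from the last exit out of the window, same last state -/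
theorem Str.second (A : Str M x n Rs p R q N T) {a : ℕ} (ha : 0 < a) (an : a + 3 ≤ n)
    {Rs₂ : Set D} (hn : R (n - 1) ∩ Rs ⊆ Rs₂) (hR : ∀ k, a < k → k + 1 < n → R k ⊆ Rs₂)
    (hs : Rs₂ ⊆ Rs) (hpa : p a ∉ Rs₂) :
    ∃ s, T a < s ∧ s ≤ T (a + 1) ∧ (∀ i, s ≤ i → i ≤ T n → (stp M x)^[i] q ∈ Rs₂) ∧
      (stp M x)^[s - 1] q ∉ Rs₂ ∧
      Str M x (n - a) Rs₂ (fun k => p (a + k)) (fun k => R (a + k)) ((stp M x)^[s] q) N
        fun k => sT (fun k => T (a + k)) (n - a) s (T n) k - s := by
  have hin : ∀ i, T (a + 1) ≤ i → i ≤ T n → (stp M x)^[i] q ∈ Rs₂ := by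
    intro i h1 h2
    obtain ⟨k, k1, k2, k3, k4⟩ := arc_of (T := T) (a := a + 1) (b := n) (u := i) (by omega) h1 h2
    rcases Nat.lt_or_ge (k + 1) n with hk | hk
    · exact hR k (by omega) hk (A.arc k k2 i k3 k4)
    · obtain rfl : k = n - 1 := by omega
      exact hn ⟨A.arc _ k2 i k3 k4, A.mem i h2⟩
  have hlt : T a < T (a + 1) := A.lt a ha (by omega)
  obtain ⟨j, j1, j2, j3, j4⟩ := last_time (Q := fun i => (stp M x)^[i] q ∉ Rs₂) (u := T a)
    (m := T (a + 1)) hlt (by rw [A.at_ a ha (by omega)]; exact hpa)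
    (fun h => h (hin _ le_rfl (A.T_le (by omega) le_rfl)))
  have s1 : T a < j + 1 := by omega
  have s2 : j + 1 ≤ T (a + 1) := by omega
  have T1n : T (a + 1) ≤ T n := A.T_le (by omega) le_rfl
  have TNn := A.TN
  have mem : ∀ i, j + 1 ≤ i → i ≤ T n → (stp M x)^[i] q ∈ Rs₂ := by
    intro i h1 h2
    rcases Nat.lt_or_ge i (T (a + 1)) with h | h
    · by_contra h5
      exact j4 i (by omega) h.le h5
    · exact hin i h h2
  have bef : (stp M x)^[j + 1 - 1] q ∉ Rs₂ := by
    rw [Nat.add_sub_cancel]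
    exact j3
  set T' : ℕ → ℕ := fun k => T (a + k) with hT'
  have Tm : ∀ k, k < n - a → T' k ≤ T' (k + 1) := fun k hk => A.mono (a + k) (by omega)
  have cut' : Cut M x q T' 0 (n - a) := by
    intro k k' h0 h1 h2 u v a1 a2 a3 a4 a5
    obtain ⟨c1, c2⟩ := A.cut (a + k) (a + k') (Nat.zero_le _) (by omega) (by omega) u v a1
      a2 a3 a4 a5
    exact ⟨by omega, c2⟩
  have last : T' (n - a) = T n := by
    show T (a + (n - a)) = T n
    rw [show a + (n - a) = n by omega]
  have he0 : T' (n - a - 1) ≤ T n := A.T_le (a := a + (n - a - 1)) (by omega) le_rfl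
  have base : ∀ k, k ≤ n - a → j + 1 ≤ sT T' (n - a) (j + 1) (T n) k := by
    intro k hk
    have := mono_of (T := sT T' (n - a) (j + 1) (T n)) (a := 0) (b := n - a)
      (fun k _ h => sT_mono (by omega) s2 he0 Tm h) (le_refl 0)
      (Nat.zero_le k) hk
    rwa [sT_zero] at this
  refine ⟨j + 1, s1, s2, mem, bef, ?_⟩
  exact
    { n3 := by omega
      lp := Lp.shift A.lp (j + 1)
      T0 := by
        show sT T' (n - a) (j + 1) (T n) 0 - (j + 1) = 0
        rw [sT_zero, Nat.sub_self]
      TN := by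
        show sT T' (n - a) (j + 1) (T n) (n - a) - (j + 1) + 1 < N
        rw [sT_end (by omega)]
        omega
      mono := fun k hk => Nat.sub_le_sub_right (sT_mono (by omega) s2 he0 Tm hk) (j + 1)
      lt := fun k h1 h2 => by
        show sT T' (n - a) (j + 1) (T n) k - (j + 1) < sT T' (n - a) (j + 1) (T n) (k + 1) - (j + 1)
        have hb := base k (by omega)
        rw [sT_mid h1 (by omega)] at hb ⊢
        rw [sT_mid (by omega) h2]
        have : T' k < T' (k + 1) := A.lt (a + k) (by omega) (by omega)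
        omega
      at_ := fun k h1 h2 => by
        have hb := base k (by omega)
        show (stp M x)^[sT T' (n - a) (j + 1) (T n) k - (j + 1)] _ = _
        rw [it_add, sT_mid h1 h2]
        rw [sT_mid h1 h2] at hb
        rw [show T' k - (j + 1) + (j + 1) = T (a + k) by
          change T (a + k) - (j + 1) + (j + 1) = T (a + k)
          change j + 1 ≤ T (a + k) at hb
          omega]
        exact A.at_ (a + k) (by omega) (by omega)
      arc := fun k hk i h1 h2 => by
        have b1 := base k (by omega)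
        have b2 := base (k + 1) (by omega)
        obtain ⟨b3, -⟩ := sT_lo (s := j + 1) (e := T n) (T := T') (n := n - a) s1.le hk
        have b4 := sT_hi (s := j + 1) (e := T n) (T := T') (n := n - a) (by omega) last.ge hk
        rw [it_add]
        change T (a + k) ≤ _ at b3
        change _ ≤ T (a + (k + 1)) at b4
        exact A.arc (a + k) (by omega) (i + (j + 1)) (by omega)
          (by rw [show a + k + 1 = a + (k + 1) by omega]; omega)
      mem := fun i hi => by
        have hi' : i ≤ sT T' (n - a) (j + 1) (T n) (n - a) - (j + 1) := hi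
        rw [sT_end (by omega)] at hi'
        rw [it_add]
        exact mem _ (by omega) (by omega)
      bef := by
        rw [it_add, show N - 1 + (j + 1) = (j + 1 - 1) + N by omega, A.lp.add]
        exact bef
      aft := by
        show (stp M x)^[sT T' (n - a) (j + 1) (T n) (n - a) - (j + 1) + 1] _ ∉ Rs₂
        rw [it_add, sT_end (by omega), show T n - (j + 1) + 1 + (j + 1) = T n + 1 by omega]
        exact fun h => A.aft (hs h)
      cut := Cut.shift (fun k _ hk => base k hk)
        (Cut.shrink (by omega) (by change T (a + 0) ≤ _; exact s1.le) last.ge cut')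
      befR := by
        rw [it_add, show N - 1 + (j + 1) = (j + 1 - 1) + N by omega, A.lp.add]
        exact A.arc a (by omega) (j + 1 - 1) (by omega) (by omega)
      aftR := by
        show (stp M x)^[sT T' (n - a) (j + 1) (T n) (n - a) - (j + 1) + 1] _ ∈ R (a + (n - a - 1))
        rw [it_add, sT_end (by omega), show T n - (j + 1) + 1 + (j + 1) = T n + 1 by omega,
          show a + (n - a - 1) = n - 1 by omega]
        exact A.aftR }

/-- **between the two pieces** the states are in the arcs `b - 1, .., a` -/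
theorem Str.mid (A : Str M x n Rs p R q N T) {a b e s i : ℕ} (hb : b ≤ a + 1) (b0 : 0 < b)
    (an : a < n) (he : T (b - 1) ≤ e) (hs : s ≤ T (a + 1)) (h1 : e < i) (h2 : i < s) :
    ∃ k, b - 1 ≤ k ∧ k ≤ a ∧ (stp M x)^[i] q ∈ R k := by
  obtain ⟨k, k1, k2, k3, k4⟩ := arc_of (T := T) (a := b - 1) (b := a + 1) (u := i) (by omega)
    (by omega) (by omega)
  exact ⟨k, k1, by omega, A.arc k (by omega) i k3 k4⟩

/-- **the two pieces around a window** (arcs `b, .., a - 1`): first piece `[0, e]`, second piece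
`[s, T n]`, the rest in `R k`, `b - 1 ≤ k ≤ a` -/
theorem Str.win (A : Str M x n Rs p R q N T) {a b : ℕ} (b3 : 3 ≤ b) (hba : b ≤ a)
    (an : a + 3 ≤ n) {Rs₁ Rs₂ : Set D} (h0 : R 0 ∩ Rs ⊆ Rs₁)
    (h1 : ∀ k, 0 < k → k + 1 < b → R k ⊆ Rs₁) (hs₁ : Rs₁ ⊆ Rs) (hb : p b ∉ Rs₁)
    (hn : R (n - 1) ∩ Rs ⊆ Rs₂) (h2 : ∀ k, a < k → k + 1 < n → R k ⊆ Rs₂) (hs₂ : Rs₂ ⊆ Rs)
    (hpa : p a ∉ Rs₂) :
    ∃ e s, T (b - 1) ≤ e ∧ e < T b ∧ T a < s ∧ s ≤ T (a + 1) ∧ e < s ∧
      Str M x b Rs₁ p R q N (sT T b 0 e) ∧ sT T b 0 e b = e ∧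
      Str M x (n - a) Rs₂ (fun k => p (a + k)) (fun k => R (a + k)) ((stp M x)^[s] q) N
        (fun k => sT (fun k => T (a + k)) (n - a) s (T n) k - s) ∧
      sT (fun k => T (a + k)) (n - a) s (T n) (n - a) - s = T n - s ∧
      ∀ i, e < i → i < s → ∃ k, b - 1 ≤ k ∧ k ≤ a ∧ (stp M x)^[i] q ∈ R k := by
  obtain ⟨e, e1, e2, -, -, H1⟩ := A.first b3 (by omega) h0 h1 hs₁ hb
  obtain ⟨s, s1, s2, -, -, H2⟩ := A.second (by omega) an hn h2 hs₂ hpa
  refine ⟨e, s, e1, e2, s1, s2, ?_, H1, sT_end (by omega), H2, ?_, fun i h3 h4 =>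
    A.mid (by omega) (by omega) (by omega) e1 s2 h3 h4⟩
  · exact e2.trans_le ((A.T_le hba (by omega)).trans s1.le)
  · rw [sT_end (by omega)]

end Crest.Agent.R143.StrBx117
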