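import Mathlib

/-!
# Row 143, sum over scales, abstract form (helper368; notes 2649 (3), 2557 (ii), 2958 (A))

`G R` = expected energy `E Σ_{closed blocks inside a square of side R} |X_β|²`: nonnegative,
`G R ≤ C R²` (frame), and superadditive (`n²` disjoint squares of side `r` inside a square of side
`R ≥ n r`).

* `tendsto_sup` : `G R / R² → L = sup`.
* `mid_small` : `(G R - n² G (R / n)) / R² → 0` for every fixed `n` : the blocks of the square of
  side `R` which are in none of the `n²` squares of side `R / n` carry `o (R²)`.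
* `mid_small_ratio` : the same with side `r` comparable to `R` and any number `m` of disjoint
  squares of side `r R`, `m r² ≥ 1 - δ`.
-/

set_option autoImplicit false

open Filter Topology

namespace Crest.Agent.R143.SupAddx368

variable {G : ℝ → ℝ} {C : ℝ}

/-- superadditivity in squares -/
def SupAdd (G : ℝ → ℝ) : Prop :=
  ∀ (r R : ℝ) (n : ℕ), 0 < r → (n : ℝ) * r ≤ R → (n : ℝ) ^ 2 * G r ≤ G R

theorem bdd (hC : ∀ R, 0 < R → G R ≤ C * R ^ 2) :
    BddAbove ((fun R => G R / R ^ 2) '' Set.Ioi 0) := by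
  refine ⟨C, ?_⟩
  rintro _ ⟨R, hR, rfl⟩
  have hR' : (0 : ℝ) < R := hR
  show G R / R ^ 2 ≤ C
  rw [div_le_iff₀ (by positivity)]
  exact hC R hR'

/-- `G R / R²` converges to its supremum -/
theorem tendsto_sup (hC : ∀ R, 0 < R → G R ≤ C * R ^ 2)
    (h0 : ∀ R, 0 < R → 0 ≤ G R) (hs : SupAdd G) :
    Tendsto (fun R => G R / R ^ 2) atTop (𝓝 (sSup ((fun R => G R / R ^ 2) '' Set.Ioi 0))) := by
  set L := sSup ((fun R => G R / R ^ 2) '' Set.Ioi 0) with hL
  have hb := bdd (G := G) hC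
  have hne : ((fun R => G R / R ^ 2) '' Set.Ioi (0 : ℝ)).Nonempty := ⟨_, 1, Set.mem_Ioi.mpr one_pos, rfl⟩
  rw [Metric.tendsto_atTop]
  intro e he
  obtain ⟨_, ⟨r, hr, rfl⟩, hr2⟩ := exists_lt_of_lt_csSup hne (show L - e / 2 < L by linarith)
  have hr' : (0 : ℝ) < r := hr
  have hr2' : L - e / 2 < G r / r ^ 2 := hr2
  -- choose R large: ((R - r) / R)^2 * (L - e/2) > L - e when L - e/2 > 0
  have hLn : 0 ≤ L := by
    have h1 : G r / r ^ 2 ≤ L := le_csSup hb ⟨r, hr, rfl⟩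
    have h2 : 0 ≤ G r / r ^ 2 := div_nonneg (h0 r hr') (by positivity)
    linarith
  have hg0 : 0 ≤ G r / r ^ 2 := div_nonneg (h0 r hr') (by positivity)
  have hgL : G r / r ^ 2 ≤ L := le_csSup hb ⟨r, hr, rfl⟩
  refine ⟨max r (4 * r * (L + 1) / e), ?_⟩
  intro R hR
  have hRr : r ≤ R := le_trans (le_max_left _ _) hR
  have hR2 : 4 * r * (L + 1) / e ≤ R := le_trans (le_max_right _ _) hR
  have hR0 : 0 < R := lt_of_lt_of_le hr' hRr
  have hup : G R / R ^ 2 ≤ L := le_csSup hb ⟨R, hR0, rfl⟩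
  have hlow : L - e < G R / R ^ 2 := by
    have hn : ((⌊R / r⌋₊ : ℕ) : ℝ) * r ≤ R := by
      have := Nat.floor_le (show 0 ≤ R / r by positivity)
      rwa [le_div_iff₀ hr'] at this
    have hn2 : R - r ≤ ((⌊R / r⌋₊ : ℕ) : ℝ) * r := by
      have := Nat.lt_floor_add_one (R / r)
      rw [div_lt_iff₀ hr'] at this
      linarith
    have h1 := hs r R ⌊R / r⌋₊ hr' hn
    have h2 : (R - r) ^ 2 * (G r / r ^ 2) ≤ G R := by
      calc (R - r) ^ 2 * (G r / r ^ 2)
          ≤ (((⌊R / r⌋₊ : ℕ) : ℝ) * r) ^ 2 * (G r / r ^ 2) := by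
            apply mul_le_mul_of_nonneg_right _ hg0
            apply pow_le_pow_left₀ (by linarith) hn2
        _ = ((⌊R / r⌋₊ : ℕ) : ℝ) ^ 2 * G r := by field_simp
        _ ≤ G R := h1
    rw [lt_div_iff₀ (by positivity)]
    have h3 : (L + 1) * (4 * r) ≤ e * R := by
      rw [div_le_iff₀ he] at hR2
      linarith
    -- (R - r)^2 ≥ R^2 - 2 r R
    have h4 : (R ^ 2 - 2 * r * R) * (G r / r ^ 2) ≤ (R - r) ^ 2 * (G r / r ^ 2) := by
      apply mul_le_mul_of_nonneg_right _ hg0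
      nlinarith [sq_nonneg r]
    have h5 : (L - e / 2) * R ^ 2 - 2 * r * R * L ≤ (R ^ 2 - 2 * r * R) * (G r / r ^ 2) := by
      have a1 : (L - e / 2) * R ^ 2 ≤ R ^ 2 * (G r / r ^ 2) := by
        have : 0 < R ^ 2 := by positivity
        nlinarith
      have a2 : 2 * r * R * (G r / r ^ 2) ≤ 2 * r * R * L := by
        apply mul_le_mul_of_nonneg_left hgL (by positivity)
      nlinarith
    have h6 : 2 * r * R * L < e / 2 * R ^ 2 := by
      have : 4 * r * L < e * R := by nlinarith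
      nlinarith
    nlinarith
  rw [Real.dist_eq, abs_lt]
  constructor <;> linarith

/-- the mid blocks carry a small part: `n` fixed -/
theorem mid_small (hC : ∀ R, 0 < R → G R ≤ C * R ^ 2)
    (h0 : ∀ R, 0 < R → 0 ≤ G R) (hs : SupAdd G) (n : ℕ) (hn : 0 < n) :
    Tendsto (fun R => (G R - (n : ℝ) ^ 2 * G (R / n)) / R ^ 2) atTop (𝓝 0) := by
  have hn' : (0 : ℝ) < n := by exact_mod_cast hn
  have h1 := tendsto_sup hC h0 hs
  have h2 : Tendsto (fun R : ℝ => R / n) atTop atTop := tendsto_id.atTop_div_const hn'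
  have h3 := h1.comp h2
  have h4 := h1.sub h3
  rw [sub_self] at h4
  refine h4.congr' ?_
  filter_upwards [eventually_gt_atTop 0] with R hR
  simp only [Function.comp_apply]
  field_simp

/-- a packing of the square by `m` squares of side `a R` which covers the part `1 - δ` of the
area: the blocks which are in none of them carry at most `(L δ + o (1)) R²` -/
theorem mid_small_ratio (hC : ∀ R, 0 < R → G R ≤ C * R ^ 2)
    (h0 : ∀ R, 0 < R → 0 ≤ G R) (hs : SupAdd G) (m : ℕ) {a δ : ℝ} (ha : 0 < a)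
    (hm : 1 - δ ≤ (m : ℝ) * a ^ 2) {e : ℝ} (he : 0 < e) :
    ∀ᶠ R in atTop, G R - (m : ℝ) * G (a * R) ≤
      (sSup ((fun R => G R / R ^ 2) '' Set.Ioi 0) * δ + e) * R ^ 2 := by
  have h1 := tendsto_sup hC h0 hs
  set L := sSup ((fun R => G R / R ^ 2) '' Set.Ioi 0) with hL
  have hb := bdd (G := G) hC
  have hLn : 0 ≤ L := by
    have h1 : G 1 / 1 ^ 2 ≤ L := le_csSup hb ⟨1, Set.mem_Ioi.mpr one_pos, rfl⟩
    have h2 : 0 ≤ G 1 / 1 ^ 2 := div_nonneg (h0 1 one_pos) (by positivity)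
    linarith
  have h2 : Tendsto (fun R : ℝ => a * R) atTop atTop := tendsto_id.const_mul_atTop ha
  have h3 := h1.comp h2
  -- G (a R) ≥ (L - e') (a R)^2
  have hK : 0 < (m : ℝ) * a ^ 2 + 1 := by positivity
  have he' : 0 < e / ((m : ℝ) * a ^ 2 + 1) := by positivity
  have h4 := h3.eventually (lt_mem_nhds (show L - e / ((m : ℝ) * a ^ 2 + 1) < L by linarith))
  filter_upwards [h4, eventually_gt_atTop 0] with R hR hR0
  simp only [Function.comp_apply] at hR
  have hup : G R ≤ L * R ^ 2 := by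
    have : G R / R ^ 2 ≤ L := le_csSup hb ⟨R, hR0, rfl⟩
    rwa [div_le_iff₀ (by positivity)] at this
  have hlow : (L - e / ((m : ℝ) * a ^ 2 + 1)) * (a * R) ^ 2 ≤ G (a * R) := by
    rw [lt_div_iff₀ (by positivity)] at hR
    exact hR.le
  have h5 : (m : ℝ) * ((L - e / ((m : ℝ) * a ^ 2 + 1)) * (a * R) ^ 2) ≤ m * G (a * R) :=
    mul_le_mul_of_nonneg_left hlow (Nat.cast_nonneg m)
  have h6 : (m : ℝ) * ((L - e / ((m : ℝ) * a ^ 2 + 1)) * (a * R) ^ 2) =
      L * (m * a ^ 2) * R ^ 2 - e * ((m * a ^ 2) / ((m : ℝ) * a ^ 2 + 1)) * R ^ 2 := by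
    ring
  have h7 : (m : ℝ) * a ^ 2 / ((m : ℝ) * a ^ 2 + 1) ≤ 1 := by
    rw [div_le_one hK]; linarith
  have h8 : e * ((m * a ^ 2) / ((m : ℝ) * a ^ 2 + 1)) * R ^ 2 ≤ e * R ^ 2 := by
    have : 0 ≤ e * R ^ 2 := by positivity
    nlinarith
  have h9 : L * (1 - δ) * R ^ 2 ≤ L * (m * a ^ 2) * R ^ 2 := by
    have : 0 ≤ L * R ^ 2 := by positivity
    nlinarith
  nlinarith

end Crest.Agent.R143.SupAddx368
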