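import Crest.Agent.R143.PoS_983
import Crest.Agent.R143.SubH_117
import Crest.Agent.R143.PLI_228
import Crest.Agent.R143.CorrB_831
import Crest.Agent.R143.SpR2_169

/-!
# Row 143 (S0194), RIG box Q2: the hypothesis `sup` of the windows of a corridor (helper827)

* `qx_far` : a tile which is not `l - 1`, `l`, `l + 1` is far from 169's region `QX .. l`
* under `CorH` (713): `qx_U`, `qx_hol`, `qx_off` : the regions are in the environment
* **`sup_cor`** : the three cells of a face of `Ft .. l` (831) are not cells of sites of the tiles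
  `a ≤ k < b`, if `b + 1 ≤ n - 1 - l` or `n - 1 - l + 2 ≤ a`
* **`spt_two`**, `spt_right`, `spt_left` : 228's `Spt` for the three windows
-/

set_option autoImplicit false
set_option linter.unusedSectionVars false

noncomputable section

open scoped Classical

namespace Crest.Agent.R143.SupGx827

open Set
open Crest.Agent.R143.B0x346 Crest.Agent.R143.DelGx806
open Crest.Agent.R143.Frame1x395 Crest.Agent.R143.Frame2x395 Crest.Agent.R143.Frame3x395
  Crest.Agent.R143.Frame4x395 Crest.Agent.R143.Frame8x395 Crest.Agent.R143.Frame10x395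
open Crest.Agent.R143.Splx117 Crest.Agent.R143.WLocx713 Crest.Agent.R143.PP0x831
open Crest.Agent.R143.TileRx228 Crest.Agent.R143.SpRx169
open Crest.Agent.R143.CorHx713 Crest.Agent.R143.CorrIx831
open Crest.Agent.R143.FinCx811 (Cs rc0)
open Crest.Agent.R143.SubDx117 (UB)
open Crest.Agent.R143.SubHx117 (clS clS_eq)
open Crest.Agent.R143.RcTx422 (RC)
open Crest.Agent.R143.Locx922 (Hol)
open Sptx169 (rst)
open Sptx832 (FQ)
open PLIx228 (Spt)

/-! ### geometry -/

section geo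

variable {A B h d : ℝ} {M : ℕ} {W : ℤ → ℤ × ℤ} {o : ℤ} {n k l : ℕ}

/-- **a tile which is not a neighbour is far from the region** -/
theorem qx_far (P : FPath M W) (hh : 0 < h) (hd : 0 ≤ d) (hA0 : 0 ≤ A) (hA : A + d ≤ h / 2)
    (hB : B + d ≤ h) (hM : M = 0 ∨ n + 1 < M) (hk : k < n) (hl : l < n)
    (hkl : k + 2 ≤ l ∨ l + 2 ≤ k) :
    Disjoint (RR A B h W (o + k)) (Metric.thickening d (QX h W o n l)) := by
  rw [Set.disjoint_left]
  intro t ht h1
  obtain ⟨z, hz, hzt⟩ := Metric.mem_thickening_iff.1 h1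
  rw [dist_comm, dist_eq_norm] at hzt
  obtain ⟨i, hi, hil⟩ := qx_mem hz
  have key : ∀ a : ℤ, (M : ℤ) ∣ a → |a| ≤ (n + 1 : ℕ) → a = 0 := fun a => dvd_small hM
  have hb : ∀ c : ℤ, -1 ≤ c → c ≤ 1 → |i - (k + c)| ≤ ((n + 1 : ℕ) : ℤ) := by
    intro c h1 h2
    rw [abs_le]
    push_cast
    omega
  rcases Rg_near' P hh hd hA0 hA hB ht hzt.le hi with h2 | h2 | h2
  · have h3 := key (i - (k + -1)) (by convert h2 using 1; ring) (hb _ (by norm_num) (by norm_num))
    omega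
  · have h3 := key (i - (k + 0)) (by convert h2 using 1; ring) (hb _ (by norm_num) (by norm_num))
    omega
  · have h3 := key (i - (k + 1)) (by convert h2 using 1; ring) (hb _ (by norm_num) (by norm_num))
    omega

end geo

/-! ### the environment -/

section env

variable {X : Set (ℂ × Bool)} {U : Set ℂ} {M : ℕ} {W : ℤ → ℤ × ℤ} {η d : ℝ} {o : ℤ} {n l : ℕ}

/-- the vertex of a tile is in the tile -/
theorem cen_RR {A B h : ℝ} (hA : 0 < A) (hB : 0 < B) (a : ℤ) :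
    cen h W a ∈ RR A B h W a := by
  left
  refine ⟨⟨?_, ?_⟩, ?_⟩
  · have : Gatex838.X (cen h W a) (cz (W (a - 1) - W a)) (cen h W a) = 0 := by
      unfold Gatex838.X
      simp
    rw [this]
    linarith
  · have : Gatex838.X (cen h W a) (cz (W (a - 1) - W a)) (cen h W a) = 0 := by
      unfold Gatex838.X
      simp
    rw [this]
    linarith
  · have : Gatex838.Y (cen h W a) (cz (W (a - 1) - W a)) (cen h W a) = 0 := by
      unfold Gatex838.Y
      simp
    rw [this, abs_zero]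
    exact hA

/-- **the neighbourhood of a region is in the environment** -/
theorem Rg_U (H : CorH X U M W η d o n) (a : ℤ) {z v : ℂ} (hz : z ∈ Rg (100 * η) W a)
    (hv : ‖v - z‖ ≤ η) : v ∈ U := by
  have h1 := H.e0
  refine H.fat a (cen (100 * η) W a) (cen_RR (by linarith) (by linarith) a) v ?_
  obtain ⟨h2, h3⟩ := Rg_ball H.path hz
  have h4 : ‖z - cen (100 * η) W a‖ ≤ 75 * η := by
    refine le_of_sq_le_sq ?_ (by linarith)
    rw [← Complex.normSq_eq_norm_sq, Complex.normSq_apply]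
    obtain ⟨a1, a2⟩ := abs_le.1 h2
    obtain ⟨b1, b2⟩ := abs_le.1 h3
    nlinarith
  calc ‖v - cen (100 * η) W a‖ = ‖(v - z) + (z - cen (100 * η) W a)‖ := by rw [sub_add_sub_cancel]
    _ ≤ ‖v - z‖ + ‖z - cen (100 * η) W a‖ := norm_add_le _ _
    _ ≤ 100 * η := by linarith

theorem qx_U (H : CorH X U M W η d o n) {z v : ℂ} (hz : z ∈ QX (100 * η) W o n l)
    (hv : ‖v - z‖ ≤ η) : v ∈ U := by
  obtain ⟨i, hi, -⟩ := qx_mem hz
  exact Rg_U H _ hi hv

/-- **`hH` of `sup_rc`** -/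
theorem qx_hol (H : CorH X U M W η d o n) : Hol (sX X : Set ℂ) (QX (100 * η) W o n l) d :=
  H.holS.mono fun z hz => qx_U H hz (by rw [sub_self, norm_zero]; exact H.e0.le)

/-- **`hoff` of `sup_rc`** -/
theorem qx_off (H : CorH X U M W η d o n) : ∀ z ∈ QX (100 * η) W o n l, ∀ v, ‖v - z‖ < d →
    ¬ OnHull (sX X) v := fun z hz v hv => H.inn (qx_U H hz (by
      have h1 := H.d0
      have h2 := H.de
      linarith))

/-- **the tiles `a ≤ k < b` are far from the region of the tile `l`** -/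
theorem ub_far (H : CorH X U M W η d o n) (hl : l < n) {a b : ℕ} (hb : b ≤ n)
    (hab : b + 1 ≤ l ∨ l + 2 ≤ a) :
    Disjoint (UB (SubHx117.Bk η W o) a b)
      (Metric.thickening d (QX (100 * η) W o n l)) := by
  have h1 := H.e0
  have h2 := H.d0
  have h3 := H.de
  have h4 := H.nM
  rw [Set.disjoint_left]
  rintro s ⟨k, hk1, hk2, hk⟩ hs
  exact Set.disjoint_left.1 (qx_far H.path (h := 100 * η) (by linarith) h2.le (by linarith)
    (by linarith) (by linarith) (Or.inr (by omega)) (by omega) hl (by omega)) hk hs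

/-- **the hypothesis `sup`** for one zone: tiles `a ≤ k < b`, window of the tile `l` (order of time) -/
theorem sup_cor (H : CorH X U M W η d o n) (hl : l < n) {a b : ℕ} (hb : b ≤ n)
    (hab : b + 1 ≤ n - 1 - l ∨ n - 1 - l + 2 ≤ a) {R : Set (Cs H.gp)}
    (hR : R ⊆ RC H.gp (UB (SubHx117.Bk η W o) a b)) {z : D0 (sX X) → ℂ} (h : D0 (sX X))
    (h0 : rst z (CorrIx831.Ft (sX X) η W o n l) h ≠ 0) :
    (rc0 H.gp).cell h ∉ R ∧ (rc0 H.gp).cell ((rc0 H.gp).rho h) ∉ R ∧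
      (rc0 H.gp).cell ((rc0 H.gp).rho ((rc0 H.gp).rho h)) ∉ R :=
  PoSx983.sup_rc (Q := fun l => QX (100 * η) W o n (n - 1 - l)) H.d0 (qx_hol H) (qx_off H)
    (ub_far H (by omega) hb hab) hR h h0

end env

/-! ### 228's `Spt` -/

section spt

variable {X : Set (ℂ × Bool)} {U : Set ℂ} {M : ℕ} {W : ℤ → ℤ × ℤ} {η d : ℝ} {o : ℤ} {n l : ℕ}
  {T₁ : Set ℂ} {a' b' : ℕ}

theorem spt_of (H : CorH X U M W η d o n) (hl : l < n) (z : D0 (sX X) → ℂ) {κ : Type}
    {Z : κ → Uniqx323.Zn (rc0 H.gp)}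
    (hZ : ∀ k, ∃ a b : ℕ, b ≤ n ∧ (b + 1 ≤ n - 1 - l ∨ n - 1 - l + 2 ≤ a) ∧
      (Z k).R ⊆ RC H.gp (UB (SubHx117.Bk η W o) a b)) :
    Spt z (CorrIx831.Ft (sX X) η W o n l) Z := by
  intro h h0 k h1
  obtain ⟨a, b, hb, hab, hR⟩ := hZ k
  exact (sup_cor H hl hb hab hR h h0).1 h1.1

/-- `clS` of a part of the tiles -/
theorem clS_sub (H : CorH X U M W η d o n) {a b : ℕ} {F : Set ℂ} (hF : F ⊆ UB (SubHx117.Bk η W o) a b) :
    clS H.gp F ⊆ RC H.gp (UB (SubHx117.Bk η W o) a b) := by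
  rintro c ⟨s, h1, h2, h3⟩
  exact ⟨s, h1, hF h2, SubHx117.inn H s h1 (hF h2), h3⟩

theorem RC_sub (H : CorH X U M W η d o n) {a b : ℕ} {F : Set ℂ} (hF : F ⊆ UB (SubHx117.Bk η W o) a b) :
    RC H.gp F ⊆ RC H.gp (UB (SubHx117.Bk η W o) a b) := RcTx422.RC_mono hF

/-- **two sides** -/
theorem spt_two (H : CorH X U M W η d o n) (hl : l < n) (z : D0 (sX X) → ℂ)
    {Z : Bool → Uniqx323.Zn (rc0 H.gp)} (ha : a' + 1 ≤ n - 1 - l) (hb : n - 1 - l + 2 ≤ b')
    (hR : (Z false).R = clS H.gp (UB (SubHx117.Bk η W o) b' (n - 1) \ T₁))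
    (hL : (Z true).R = clS H.gp (UB (SubHx117.Bk η W o) 1 a' \ T₁)) :
    Spt z (CorrIx831.Ft (sX X) η W o n l) Z := by
  refine spt_of H hl z fun k => ?_
  cases k
  · exact ⟨b', n - 1, by omega, Or.inr hb, by rw [hR]; exact clS_sub H Set.sdiff_subset⟩
  · exact ⟨1, a', by omega, Or.inl ha, by rw [hL]; exact clS_sub H Set.sdiff_subset⟩

/-- **one side**, tiles `≥ b'` -/
theorem spt_right (H : CorH X U M W η d o n) (hl : l < n) (z : D0 (sX X) → ℂ)
    {Z : Unit → Uniqx323.Zn (rc0 H.gp)} (hb : n - 1 - l + 2 ≤ b')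
    (hR : (Z ()).R = clS H.gp (UB (SubHx117.Bk η W o) b' (n - 1) \ T₁)) :
    Spt z (CorrIx831.Ft (sX X) η W o n l) Z :=
  spt_of H hl z fun _ =>
    ⟨b', n - 1, by omega, Or.inr hb, by rw [hR]; exact clS_sub H Set.sdiff_subset⟩

/-- **one side**, tiles `< a'` -/
theorem spt_left (H : CorH X U M W η d o n) (hl : l < n) (z : D0 (sX X) → ℂ)
    {Z : Unit → Uniqx323.Zn (rc0 H.gp)} (ha : a' + 1 ≤ n - 1 - l)
    (hL : (Z ()).R = clS H.gp (UB (SubHx117.Bk η W o) 1 a' \ T₁)) :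
    Spt z (CorrIx831.Ft (sX X) η W o n l) Z :=
  spt_of H hl z fun _ =>
    ⟨1, a', by omega, Or.inl ha, by rw [hL]; exact clS_sub H Set.sdiff_subset⟩

end spt

end Crest.Agent.R143.SupGx827
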