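import Mathlib

/-!
# R143 (helper832): superadditive functions of the size of a square

`a L` = expected energy of the blocks inside a square of side `L` (unit mesh).  If `a` is monotone,
`n² a(L) ≤ a(n L)` and `a(L) ≤ C L²`, then `a(L) / L²` converges and
`(a(n L) - n² a(L)) / L² → 0` : the energy of the blocks which are inside the square of side `n L`
but inside no cell of side `L` is `o(L²)`.
-/

set_option autoImplicit false

noncomputable section

namespace Crest.Agent.R143.Superx832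

open Filter Topology Set

/-- the hypotheses -/
structure Sup (a : ℝ → ℝ) (C : ℝ) : Prop where
  mono : ∀ x y : ℝ, 0 < x → x ≤ y → a x ≤ a y
  nonneg : ∀ x : ℝ, 0 < x → 0 ≤ a x
  sup : ∀ (n : ℕ) (x : ℝ), 0 < n → 0 < x → (n : ℝ) ^ 2 * a x ≤ a (n * x)
  bd : ∀ x : ℝ, 1 ≤ x → a x ≤ C * x ^ 2

variable {a : ℝ → ℝ} {C : ℝ}

/-- the limit of `a L / L²` is its supremum -/
theorem Sup.tendsto (h : Sup a C) :
    ∃ s : ℝ, 0 ≤ s ∧ s ≤ C ∧ Tendsto (fun x => a x / x ^ 2) atTop (𝓝 s) ∧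
      ∀ x : ℝ, 0 < x → a x / x ^ 2 ≤ s := by
  -- every value is bounded by `C`
  have hle : ∀ x : ℝ, 0 < x → a x / x ^ 2 ≤ C := by
    intro x hx
    obtain ⟨n, hn⟩ := exists_nat_gt (1 / x)
    have hn0 : 0 < n := by
      have : (0 : ℝ) < n := lt_trans (by positivity) hn
      exact_mod_cast this
    have hn0' : (0 : ℝ) < n := by exact_mod_cast hn0
    have h1 : 1 ≤ n * x := by
      rw [div_lt_iff₀ hx] at hn
      linarith
    have h2 := h.sup n x hn0 hx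
    have h3 := h.bd (n * x) h1
    rw [div_le_iff₀ (by positivity)]
    have h4 : (n : ℝ) ^ 2 * a x ≤ (n : ℝ) ^ 2 * (C * x ^ 2) := by
      calc (n : ℝ) ^ 2 * a x ≤ a (n * x) := h2
        _ ≤ C * (n * x) ^ 2 := h3
        _ = (n : ℝ) ^ 2 * (C * x ^ 2) := by ring
    exact le_of_mul_le_mul_left h4 (by positivity)
  set s : ℝ := sSup ((fun x => a x / x ^ 2) '' Ioi 0) with hs
  have hbdd : BddAbove ((fun x => a x / x ^ 2) '' Ioi (0 : ℝ)) := by
    refine ⟨C, ?_⟩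
    rintro _ ⟨x, hx, rfl⟩
    exact hle x hx
  have hne : ((fun x => a x / x ^ 2) '' Ioi (0 : ℝ)).Nonempty := ⟨_, 1, by simp, rfl⟩
  have hsup : ∀ x : ℝ, 0 < x → a x / x ^ 2 ≤ s := fun x hx => le_csSup hbdd ⟨x, hx, rfl⟩
  have hs0 : 0 ≤ s := by
    refine le_trans ?_ (hsup 1 one_pos)
    have := h.nonneg 1 one_pos
    positivity
  have hsC : s ≤ C := csSup_le hne (by rintro _ ⟨x, hx, rfl⟩; exact hle x hx)
  refine ⟨s, hs0, hsC, ?_, hsup⟩
  rw [Metric.tendsto_nhds]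
  intro ε hε
  -- an almost optimal size
  obtain ⟨_, ⟨L, hL, rfl⟩, hL1⟩ := exists_lt_of_lt_csSup hne (show s - ε / 2 < s by linarith)
  have hL0 : (0 : ℝ) < L := hL
  have hlim : Tendsto (fun x : ℝ => (1 - L / x) ^ 2 * (s - ε / 2)) atTop (𝓝 (s - ε / 2)) := by
    have h1 : Tendsto (fun x : ℝ => L / x) atTop (𝓝 0) := tendsto_const_nhds.div_atTop tendsto_id
    have h2 : Tendsto (fun x : ℝ => (1 - L / x) ^ 2 * (s - ε / 2)) atTop
        (𝓝 ((1 - 0) ^ 2 * (s - ε / 2))) := ((tendsto_const_nhds.sub h1).pow 2).mul_const _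
    simpa using h2
  have hev : ∀ᶠ x : ℝ in atTop, s - ε < (1 - L / x) ^ 2 * (s - ε / 2) :=
    hlim.eventually (lt_mem_nhds (by linarith))
  filter_upwards [hev, eventually_ge_atTop L] with x hx1 hx2
  have hx0 : 0 < x := lt_of_lt_of_le hL0 hx2
  rw [Real.dist_eq, abs_lt]
  refine ⟨?_, by linarith [hsup x hx0]⟩
  -- lower bound
  set n : ℕ := ⌊x / L⌋₊ with hn
  have hn1 : 1 ≤ x / L := by rw [le_div_iff₀ hL0]; linarith
  have hnpos : 0 < n := Nat.floor_pos.2 hn1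
  have hn' : (n : ℝ) ≤ x / L := Nat.floor_le (by positivity)
  have hn'' : x / L < n + 1 := Nat.lt_floor_add_one _
  have h1 : (n : ℝ) * L ≤ x := by rwa [le_div_iff₀ hL0] at hn'
  have h2 : x - L ≤ (n : ℝ) * L := by
    rw [div_lt_iff₀ hL0] at hn''
    linarith
  have hn0' : (0 : ℝ) < n := by exact_mod_cast hnpos
  have h3 : (n : ℝ) ^ 2 * a L ≤ a x := (h.sup n L hnpos hL0).trans (h.mono _ _ (by positivity) h1)
  have h4 : (1 - L / x) ^ 2 * (a L / L ^ 2) ≤ a x / x ^ 2 := by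
    rw [le_div_iff₀ (by positivity)]
    calc (1 - L / x) ^ 2 * (a L / L ^ 2) * x ^ 2 = (x - L) ^ 2 * (a L / L ^ 2) := by
          field_simp
      _ ≤ ((n : ℝ) * L) ^ 2 * (a L / L ^ 2) := by
          have h5 : 0 ≤ a L / L ^ 2 := div_nonneg (h.nonneg L hL0) (by positivity)
          have h6 : 0 ≤ x - L := by linarith
          gcongr
      _ = (n : ℝ) ^ 2 * a L := by field_simp
      _ ≤ a x := h3
  have h5 : (1 - L / x) ^ 2 * (s - ε / 2) ≤ (1 - L / x) ^ 2 * (a L / L ^ 2) := by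
    have := hL1.le
    gcongr
  linarith

/-- **mass lemma**: the middle energy is `o(L²)` -/
theorem Sup.mid (h : Sup a C) (n : ℕ) (hn : 0 < n) :
    Tendsto (fun x => (a (n * x) - (n : ℝ) ^ 2 * a x) / x ^ 2) atTop (𝓝 0) := by
  obtain ⟨s, _, _, h1, _⟩ := h.tendsto
  have hn' : (0 : ℝ) < n := by exact_mod_cast hn
  have h2 : Tendsto (fun x : ℝ => (n : ℝ) * x) atTop atTop := tendsto_id.const_mul_atTop hn'
  have h3 := h1.comp h2
  have h4 : Tendsto (fun x : ℝ => (n : ℝ) ^ 2 * (a (n * x) / (n * x) ^ 2 - a x / x ^ 2)) atTop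
      (𝓝 ((n : ℝ) ^ 2 * (s - s))) := (h3.sub h1).const_mul _
  rw [sub_self, mul_zero] at h4
  refine h4.congr' ?_
  filter_upwards [eventually_gt_atTop 0] with x hx
  field_simp

/-- the same in the mesh `ε = 1 / L → 0`: `ε² (a(n / ε) - n² a(1 / ε)) → 0` -/
theorem Sup.mid_eps (h : Sup a C) (n : ℕ) (hn : 0 < n) :
    Tendsto (fun ε : ℝ => ε ^ 2 * (a (n / ε) - (n : ℝ) ^ 2 * a (1 / ε))) (𝓝[>] 0) (𝓝 0) := by
  have h1 : Tendsto (fun ε : ℝ => ε⁻¹) (𝓝[>] 0) atTop := tendsto_inv_nhdsGT_zero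
  refine ((h.mid n hn).comp h1).congr' ?_
  filter_upwards [self_mem_nhdsWithin] with ε hε
  have hε' : (0 : ℝ) < ε := hε
  simp only [Function.comp]
  rw [div_eq_mul_inv (n : ℝ) ε, one_div]
  field_simp

end Crest.Agent.R143.Superx832
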