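import Crest.Agent.R143.Vis_313

/-!
# Row 143 (S0194), CONT: a set of sites without hull sites is surrounded by a loop (helper313)

`surround`: `K` any set of sites without hull sites, `q ∈ K`: there is a closed chain of sites which
are NOT in `K` but adjacent to `K`, with nonzero winding around `q`.
`surround_conn`: for connected `K` one closed chain with nonzero winding around every site of `K`.

Proof (no boundary walk): if every closed chain of outer neighbours has winding `0` around `q`, the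
angle seen from `q` is the difference of a function `f` on the outer neighbours; replacing the angle
by the difference of `f` on all edges which touch `K` gives a closed antisymmetric function of the
Delaunay edges, it is exact (54's simple connectivity `JColx54.exact`), but its sum along the hull
is the sum of the angles of the hull edges seen from `q`, all positive.
-/

set_option autoImplicit false

noncomputable section

open scoped Classical

namespace Crest.Agent.R143.Surx313

open Crest.Agent.R143.B0x346 Crest.Agent.R143.DelGx806 Crest.Agent.R143.DelRx806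
open Crest.Agent.R143.ToolWx838 Crest.Agent.R143.Blkx838 Crest.Agent.R143.ToolW2x838
open Crest.Agent.R143.ToolW3x838 Crest.Agent.R143.Visx313
open Crest.Agent.R143.RE0x723 (Pth)

variable {S : Finset ℂ} {K : Set ℂ} {q : ℂ}

/-- the outer neighbours of `K` -/
def Bd (S : Finset ℂ) (K : Set ℂ) : Set ℂ := {v | v ∈ S ∧ v ∉ K ∧ ∃ u ∈ K, DE S v u}

/-- a Delaunay triangle does not wind around a site which is not a vertex of it -/
theorem ang_tri (hS : GP (S : Set ℂ)) {a b c : ℂ} (h : (a, b, c) ∈ delT S) (hq : q ∈ S)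
    (ha : a ≠ q) (hb : b ≠ q) (hc : c ≠ q) : ang q a b + ang q b c + ang q c a = 0 := by
  obtain ⟨o, ho⟩ := mem_delT_iff.1 h
  have hout := ho.out hS hq ha hb hc
  have hnot : ¬ InT q a b c := fun hin => by
    have := pw_nonpos ho hin
    linarith
  have key : ∀ {x y z : ℂ}, (x, y, z) ∈ delT S → cr (y - x) (q - x) < 0 →
      ang q x y + ang q y z + ang q z x = 0 := by
    intro x y z hxyz hlt
    obtain ⟨o', ho'⟩ := mem_delT_iff.1 hxyz
    exact tri_out ho'.pos (by unfold Lft; rw [cr_swap]; linarith)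
  by_cases h1 : 0 ≤ cr (b - a) (q - a)
  · by_cases h2 : 0 ≤ cr (c - b) (q - b)
    · have h3 : ¬ 0 ≤ cr (a - c) (q - c) := fun h3 => hnot ⟨h1, h2, h3⟩
      have := key (rot_mem (rot_mem h)) (not_le.1 h3)
      linarith
    · have := key (rot_mem h) (not_le.1 h2)
      linarith
  · have := key h (not_le.1 h1)
    linarith

/-- **surround** -/
theorem surround (hS : GP (S : Set ℂ)) (h3 : 3 ≤ S.card) (hKS : K ⊆ (S : Set ℂ))
    (hK : ∀ v ∈ K, ¬ HullS S v) (hq : q ∈ K) :
    ∃ C, Loop S C ∧ (∀ v ∈ C, v ∈ Bd S K) ∧ asum q C ≠ 0 := by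
  by_contra hcon
  push Not at hcon
  have hqS : q ∈ S := by simpa using hKS hq
  have hqB : q ∉ Bd S K := fun h => h.2.1 hq
  -- base points and chains
  obtain ⟨g, hg⟩ : ∃ g : ℂ → ℂ, g = fun b => Classical.epsilon fun c => Pth S (Bd S K) c b :=
    ⟨_, rfl⟩
  have hgp : ∀ b ∈ Bd S K, Pth S (Bd S K) (g b) b := by
    intro b hb
    rw [hg]
    exact Classical.epsilon_spec (p := fun c => Pth S (Bd S K) c b) ⟨b, Pth.refl hb⟩
  have hgg : ∀ b ∈ Bd S K, ∀ b' ∈ Bd S K, DE S b b' → g b = g b' := by
    intro b hb b' hb' h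
    have : (fun c => Pth S (Bd S K) c b) = fun c => Pth S (Bd S K) c b' := by
      funext c
      exact propext ⟨fun h1 => h1.trans (Pth.single hb h hb'),
        fun h1 => h1.trans (Pth.single hb' h.symm hb)⟩
    rw [hg]
    show Classical.epsilon _ = Classical.epsilon _
    rw [this]
  have hex : ∀ b, ∃ l, b ∈ Bd S K → Chn S (Bd S K) (g b) b l := by
    intro b
    by_cases hb : b ∈ Bd S K
    · obtain ⟨l, hl⟩ := chn_of_pth (hgp b hb)
      exact ⟨l, fun _ => hl⟩
    · exact ⟨[], fun h => absurd h hb⟩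
  choose l hl using hex
  obtain ⟨f, hf0⟩ : ∃ f : ℂ → ℝ, f = fun b => if b ∈ K then 0 else asum q (l b) := ⟨_, rfl⟩
  have hf : ∀ b ∈ Bd S K, ∀ b' ∈ Bd S K, DE S b b' → ang q b b' = f b' - f b := by
    intro b hb b' hb' h
    have k1 := hl b hb
    have k3 := hl b' hb'
    have k2 : Chn S (Bd S K) b b' [b, b'] := (Chn.one hb').cons hb h
    obtain ⟨m, hm, -, am⟩ := k1.cat k2
    obtain ⟨n, hn, -, an⟩ := hm.cat k3.rev
    have hloop : Loop S n := ⟨by rw [hn.hd, hn.lt, hgg b hb b' hb' h], hn.del⟩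
    have h0 := hcon n hloop hn.sub
    have ho : Off q (l b') := off_of hS k3.del hqS fun h => hqB (k3.sub q h)
    rw [an q, am q, asum_reverse ho] at h0
    simp only [asum_cons, asum_one, add_zero] at h0
    have e1 : f b = asum q (l b) := by rw [hf0]; exact if_neg hb.2.1
    have e2 : f b' = asum q (l b') := by rw [hf0]; exact if_neg hb'.2.1
    rw [e1, e2]
    linarith
  -- the cochain
  obtain ⟨w, hw⟩ : ∃ w : ℂ → ℂ → ℝ,
      w = fun a b => if a ∈ K ∨ b ∈ K then f b - f a else ang q a b := ⟨_, rfl⟩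
  have hw1 : ∀ a b, (a ∈ K ∨ b ∈ K) → w a b = f b - f a := by
    intro a b h
    rw [hw]
    exact if_pos h
  have hw2 : ∀ a b, ¬ (a ∈ K ∨ b ∈ K) → w a b = ang q a b := by
    intro a b h
    rw [hw]
    exact if_neg h
  have hw3 : ∀ a b c, (a, b, c) ∈ delT S → (a ∈ K ∨ b ∈ K ∨ c ∈ K) → w a b = f b - f a := by
    intro a b c h h1
    by_cases h2 : a ∈ K ∨ b ∈ K
    · exact hw1 a b h2
    · have hc : c ∈ K := by
        rcases h1 with h1 | h1 | h1
        · exact absurd (Or.inl h1) h2
        · exact absurd (Or.inr h1) h2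
        · exact h1
      rw [hw2 a b h2]
      push Not at h2
      have d1 : DE S a b := Or.inl ⟨c, h⟩
      have d2 : DE S b c := Or.inl ⟨a, rot_mem h⟩
      have d3 : DE S c a := Or.inl ⟨b, rot_mem (rot_mem h)⟩
      exact hf a ⟨(Visx313.DE.mem hS d1).1, h2.1, c, hc, d3.symm⟩
        b ⟨(Visx313.DE.mem hS d1).2, h2.2, c, hc, d2⟩ d1
  have anti : ∀ a b, JColx54.Adj S a b → w b a = - w a b := by
    intro a b hab
    by_cases h : a ∈ K ∨ b ∈ K
    · rw [hw1 a b h, hw1 b a h.symm]
      ring
    · rw [hw2 a b h, hw2 b a fun h' => h h'.symm]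
      refine ang_comm fun hseg => ?_
      rcases edge_vertex hS (show DE S a b from hab) hqS hseg with h1 | h1
      · exact h (Or.inl (h1 ▸ hq))
      · exact h (Or.inr (h1 ▸ hq))
  have closed : ∀ a b c, (a, b, c) ∈ delT S → w a b + w b c + w c a = 0 := by
    intro a b c h
    by_cases h1 : a ∈ K ∨ b ∈ K ∨ c ∈ K
    · rw [hw3 a b c h h1, hw3 b c a (rot_mem h) (by tauto), hw3 c a b (rot_mem (rot_mem h))
        (by tauto)]
      ring
    · push Not at h1
      rw [hw2 a b (by tauto), hw2 b c (by tauto), hw2 c a (by tauto)]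
      exact ang_tri hS h hqS (fun e => h1.1 (e ▸ hq)) (fun e => h1.2.1 (e ▸ hq))
        fun e => h1.2.2 (e ▸ hq)
  obtain ⟨σ, hσ⟩ := JColx54.exact hS (A := ℝ) anti closed
  -- the hull
  obtain ⟨n, u, hu⟩ := hull_cycle hS h3
  have hpos : ∀ i : ℤ, 0 < σ (u (i + 1)) - σ (u i) := by
    intro i
    have he := hu.edge i
    rw [← hσ (u i) (u (i + 1)) (Or.inl he.1)]
    have n1 : u i ∉ K := fun h => hK _ h ⟨_, Or.inl he⟩
    have n2 : u (i + 1) ∉ K := fun h => hK _ h ⟨_, Or.inr he⟩
    rw [hw2 _ _ (by tauto)]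
    refine (ang_pos ?_).1
    rw [cr_view]
    exact hull_side_lt hS he hqS (fun e => n1 (e ▸ hq)) fun e => n2 (e ▸ hq)
  have hsum : ∀ m : ℕ, 0 < m → σ (u 0) < σ (u (m : ℤ)) := by
    intro m hm
    induction m with
    | zero => omega
    | succ m ih =>
      have h1 := hpos (m : ℤ)
      rcases Nat.eq_zero_or_pos m with rfl | h2
      · simpa using h1
      · have := ih h2
        push_cast
        linarith
  have h1 := hsum n hu.pos
  have h2 := hu.per 0
  rw [zero_add] at h2
  rw [h2] at h1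
  exact lt_irrefl _ h1

/-- the winding is constant on a connected set which avoids the loop -/
theorem asum_conn (hS : GP (S : Set ℂ)) {C : List ℂ} (hC : Loop S C) {W : Set ℂ} {p r : ℂ}
    (h : Pth S W p r) (hav : ∀ v ∈ W, v ∉ C) : asum p C = asum r C := by
  obtain ⟨m, hm⟩ := chn_of_pth h
  by_contra hne
  have h1 : m.head hm.ne = p := by
    have := hm.hd
    rw [List.head?_eq_some_head hm.ne] at this
    exact Option.some.inj this
  have h2 : m.getLast hm.ne = r := by
    have := hm.lt
    rw [List.getLast?_eq_some_getLast hm.ne] at this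
    exact Option.some.inj this
  obtain ⟨s, hs1, hs2⟩ := site_of_ne hS hC hm.del hm.ne (by rw [h1, h2]; exact hne)
  exact hav s (hm.sub s hs2) hs1

/-- **surround**, connected set: one loop of outer neighbours winds around every site of `K` -/
theorem surround_conn (hS : GP (S : Set ℂ)) (h3 : 3 ≤ S.card) (hKS : K ⊆ (S : Set ℂ))
    (hK : ∀ v ∈ K, ¬ HullS S v) (hne : K.Nonempty) (hc : ∀ u ∈ K, ∀ v ∈ K, Pth S K u v) :
    ∃ C, Loop S C ∧ (∀ v ∈ C, v ∈ Bd S K) ∧ ∀ v ∈ K, asum v C ≠ 0 := by
  obtain ⟨q, hq⟩ := hne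
  obtain ⟨C, hC, hB, h0⟩ := surround hS h3 hKS hK hq
  refine ⟨C, hC, hB, fun v hv => ?_⟩
  rw [← asum_conn hS hC (hc q hq v hv) fun s hs hs' => (hB s hs').2.1 hs]
  exact h0

end Crest.Agent.R143.Surx313
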