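import Crest.Agent.R143.B0D_346

/-!
# Row 143 (S0194), block D, leaf SWL: swallowing boundary arcs (helper922)

`R i` the regions (complement of body and tentacles), `G` the closed polygon (contains the closure of
the domain), `A i` the boundary arcs of the domain, `I` the set of the indices of the swallowed arcs:
`swl R A I G e i = R i ∪ (G ∩ thickening e (A i))` for `i ∈ I`, `= R i` otherwise.
-/

set_option autoImplicit false
set_option linter.all false

noncomputable section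

open scoped Classical Topology
open Set Metric

namespace Crest.Agent.R143.Swlx922

variable {ι : Type}

/-- the swallowed regions -/
def swl (R A : ι → Set ℂ) (I : Set ι) (G : Set ℂ) (e : ℝ) (i : ι) : Set ℂ :=
  {z | z ∈ R i ∨ (i ∈ I ∧ z ∈ G ∧ z ∈ thickening e (A i))}

/-- hypotheses: `e` = depth of the swallowed neighbourhood, `e'` = radius of control -/
structure Hyp (R A : ι → Set ℂ) (I : Set ι) (G : Set ℂ) (δ e e' : ℝ) : Prop where
  dpos : 0 < δ
  epos : 0 < e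
  ee : e + δ ≤ e'
  cl : IsClosed G
  disj : ∀ i, Disjoint (R i) G
  opn : ∀ i, IsOpen (R i)
  con : ∀ i, IsConnected (R i)
  far : ∀ i j, i ≠ j → ∀ z ∈ R i, ∀ w ∈ R j, δ ≤ ‖z - w‖
  /-- near the swallowed arc `i` there are only `G` and `R i` -/
  near : ∀ i ∈ I, ∀ y ∈ G, y ∈ thickening e' (A i) → G ∪ R i ∈ 𝓝 y
  Asub : ∀ i ∈ I, A i ⊆ G
  Acon : ∀ i ∈ I, IsPreconnected (A i)
  /-- there is a point outside of `G` near the arc -/
  out : ∀ i ∈ I, ∃ w, w ∉ G ∧ w ∈ thickening e (A i)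
  sep : ∀ i ∈ I, ∀ j ∈ I, i ≠ j → ∀ z ∈ A i, ∀ w ∈ A j, 2 * e + δ ≤ ‖z - w‖

variable {R A : ι → Set ℂ} {I : Set ι} {G : Set ℂ} {δ e e' : ℝ}

/-- the segment -/
def sg (z v : ℂ) (s : ℝ) : ℂ := z + (s : ℂ) * (v - z)

theorem sg_zero (z v : ℂ) : sg z v 0 = z := by simp [sg]

theorem sg_one (z v : ℂ) : sg z v 1 = v := by simp [sg]

theorem continuous_sg (z v : ℂ) : Continuous (sg z v) := by
  unfold sg; fun_prop

theorem sg_dist (z v : ℂ) (s r : ℝ) : ‖sg z v s - sg z v r‖ = |s - r| * ‖v - z‖ := by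
  have : sg z v s - sg z v r = ((s - r : ℝ) : ℂ) * (v - z) := by unfold sg; push_cast; ring
  rw [this, norm_mul, Complex.norm_real, Real.norm_eq_abs]

/-- every point of the segment is in a ball which contains both ends -/
theorem sg_ball {z v a : ℂ} {r : ℝ} (hz : ‖z - a‖ < r) (hv : ‖v - a‖ < r) {s : ℝ} (h0 : 0 ≤ s)
    (h1 : s ≤ 1) : ‖sg z v s - a‖ < r := by
  have e1 : sg z v s - a = ((1 - s : ℝ) : ℂ) * (z - a) + (s : ℂ) * (v - a) := by
    unfold sg; push_cast; ring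
  rw [e1]
  calc ‖((1 - s : ℝ) : ℂ) * (z - a) + (s : ℂ) * (v - a)‖ ≤
      ‖((1 - s : ℝ) : ℂ) * (z - a)‖ + ‖(s : ℂ) * (v - a)‖ := norm_add_le _ _
    _ = (1 - s) * ‖z - a‖ + s * ‖v - a‖ := by
        rw [norm_mul, norm_mul, Complex.norm_real, Complex.norm_real, Real.norm_of_nonneg h0,
          Real.norm_of_nonneg (sub_nonneg.2 h1)]
    _ < r := by
        rcases h0.eq_or_lt with h | h
        · rw [← h]; simpa using hz
        · have := mul_lt_mul_of_pos_left hv h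
          have := mul_le_mul_of_nonneg_left hz.le (sub_nonneg.2 h1)
          nlinarith

/-- **first exit from `G`** -/
theorem exit {z v : ℂ} {U : Set ℂ} (hG : IsClosed G) (hz : z ∈ G) (hv : v ∉ G)
    (hn : ∀ s : ℝ, 0 ≤ s → s ≤ 1 → sg z v s ∈ G → G ∪ U ∈ 𝓝 (sg z v s)) :
    ∃ s : ℝ, 0 ≤ s ∧ s ≤ 1 ∧ sg z v s ∈ U ∧ ∀ r, 0 ≤ r → r ≤ s → sg z v r ∈ G ∪ U := by
  set B : Set ℝ := {s | 0 ≤ s ∧ s ≤ 1 ∧ sg z v s ∉ G} with hB
  have h1B : (1 : ℝ) ∈ B := ⟨zero_le_one, le_rfl, by rw [sg_one]; exact hv⟩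
  have hbd : BddBelow B := ⟨0, fun s hs => hs.1⟩
  set s0 := sInf B with hs0
  have h0 : 0 ≤ s0 := le_csInf ⟨1, h1B⟩ fun s hs => hs.1
  have h1 : s0 ≤ 1 := csInf_le hbd h1B
  have hlt : ∀ r, 0 ≤ r → r < s0 → sg z v r ∈ G := by
    intro r hr hrs
    by_contra hcon
    exact absurd (csInf_le hbd ⟨hr, by linarith, hcon⟩) (not_le.2 hrs)
  have hs0G : sg z v s0 ∈ G := by
    rcases h0.eq_or_lt with h | h
    · rw [← h, sg_zero]; exact hz
    · have hmem : s0 ∈ closure (Ico 0 s0) := by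
        rw [closure_Ico h.ne]; exact ⟨h.le, le_rfl⟩
      have hc : IsClosed ((sg z v) ⁻¹' G) := hG.preimage (continuous_sg z v)
      exact (closure_minimal (fun r hr => hlt r hr.1 hr.2) hc) hmem
  have hnh := hn s0 h0 h1 hs0G
  have hpre : (sg z v) ⁻¹' (G ∪ U) ∈ 𝓝 s0 := (continuous_sg z v).continuousAt hnh
  obtain ⟨ρ, hρ, hball⟩ := Metric.mem_nhds_iff.1 hpre
  obtain ⟨s, hs, hslt⟩ := exists_lt_of_csInf_lt ⟨1, h1B⟩ (show sInf B < s0 + ρ by rw [← hs0]; linarith)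
  have hs0s : s0 ≤ s := csInf_le hbd hs
  have hmemball : ∀ r, s0 ≤ r → r ≤ s → sg z v r ∈ G ∪ U := by
    intro r h2 h3
    exact hball (by rw [Metric.mem_ball, Real.dist_eq, abs_of_nonneg (by linarith)]; linarith)
  refine ⟨s, hs.1, hs.2.1, (hmemball s hs0s le_rfl).resolve_left hs.2.2, fun r hr0 hrs => ?_⟩
  rcases lt_or_ge r s0 with h | h
  · exact Or.inl (hlt r hr0 h)
  · exact hmemball r h hrs

theorem isOpen_swl (h : Hyp R A I G δ e e') (i : ι) : IsOpen (swl R A I G e i) := by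
  rw [isOpen_iff_mem_nhds]
  rintro z (hz | ⟨hi, hzG, hzA⟩)
  · exact Filter.mem_of_superset ((h.opn i).mem_nhds hz) fun x hx => Or.inl hx
  · have h1 := h.near i hi z hzG (thickening_mono (by linarith [h.ee, h.dpos]) _ hzA)
    have h2 := isOpen_thickening.mem_nhds hzA
    filter_upwards [h1, h2] with x hx hx'
    rcases hx with hx | hx
    · exact Or.inr ⟨hi, hx, hx'⟩
    · exact Or.inl hx

/-- every point of the swallowed region is joined to `R i` -/
theorem join (h : Hyp R A I G δ e e') {i : ι} {z : ℂ} (hz : z ∈ swl R A I G e i) :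
    ∃ t, t ⊆ swl R A I G e i ∧ IsPreconnected t ∧ z ∈ t ∧ (t ∩ R i).Nonempty := by
  rcases hz with hz | ⟨hi, hzG, hzA⟩
  · exact ⟨{z}, by rintro _ rfl; exact Or.inl hz, isPreconnected_singleton, rfl, z, rfl, hz⟩
  -- a segment which leaves `G` near the arc
  have key : ∀ x v a : ℂ, x ∈ G → v ∉ G → a ∈ A i → ‖x - a‖ < e → ‖v - a‖ < e →
      ∃ t, t ⊆ swl R A I G e i ∧ IsPreconnected t ∧ x ∈ t ∧ (t ∩ R i).Nonempty := by
    intro x v a hx hv ha hxa hva
    have hth : ∀ s : ℝ, 0 ≤ s → s ≤ 1 → sg x v s ∈ thickening e (A i) := fun s h0 h1 =>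
      mem_thickening_iff.2 ⟨a, ha, by rw [dist_eq_norm]; exact sg_ball hxa hva h0 h1⟩
    obtain ⟨s, h0, h1, h2, h3⟩ := exit (U := R i) h.cl hx hv fun s h0 h1 hs =>
      h.near i hi _ hs (thickening_mono (by linarith [h.ee, h.dpos]) _ (hth s h0 h1))
    refine ⟨sg x v '' Icc 0 s, ?_, isPreconnected_Icc.image _ (continuous_sg x v).continuousOn,
      ⟨0, ⟨le_rfl, h0⟩, sg_zero x v⟩, sg x v s, ⟨s, ⟨h0, le_rfl⟩, rfl⟩, h2⟩
    rintro _ ⟨r, ⟨hr0, hr1⟩, rfl⟩
    rcases h3 r hr0 hr1 with h4 | h4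
    · exact Or.inr ⟨hi, h4, hth r hr0 (hr1.trans h1)⟩
    · exact Or.inl h4
  obtain ⟨a, ha, hza⟩ := mem_thickening_iff.1 hzA
  rw [dist_eq_norm] at hza
  -- the arc is joined to `R i`
  obtain ⟨w, hwG, hwA⟩ := h.out i hi
  obtain ⟨b, hb, hwb⟩ := mem_thickening_iff.1 hwA
  rw [dist_eq_norm] at hwb
  obtain ⟨t1, h1, h2, h3, h4⟩ := key b w b (h.Asub i hi hb) hwG hb (by simpa using h.epos) hwb
  by_cases hseg : ∃ s : ℝ, 0 ≤ s ∧ s ≤ 1 ∧ sg z a s ∉ G
  · obtain ⟨s, hs0, hs1, hs⟩ := hseg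
    exact key z (sg z a s) a hzG hs ha hza (sg_ball hza (by simpa using h.epos) hs0 hs1)
  · push Not at hseg
    have hAsw : A i ⊆ swl R A I G e i := fun x hx =>
      Or.inr ⟨hi, h.Asub i hi hx, self_subset_thickening h.epos _ hx⟩
    have hT : IsPreconnected (sg z a '' Icc 0 1) :=
      isPreconnected_Icc.image _ (continuous_sg z a).continuousOn
    refine ⟨(sg z a '' Icc 0 1 ∪ A i) ∪ t1, ?_, ?_, ?_, ?_⟩
    · rintro x ((⟨s, ⟨hs0, hs1⟩, rfl⟩ | hx) | hx)
      · refine Or.inr ⟨hi, hseg s hs0 hs1, mem_thickening_iff.2 ⟨a, ha, ?_⟩⟩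
        rw [dist_eq_norm]
        exact sg_ball hza (by simpa using h.epos) hs0 hs1
      · exact hAsw hx
      · exact h1 hx
    · refine IsPreconnected.union b (Or.inr hb) h3 ?_ h2
      exact IsPreconnected.union a ⟨1, ⟨zero_le_one, le_rfl⟩, sg_one z a⟩ ha hT (h.Acon i hi)
    · exact Or.inl (Or.inl ⟨0, ⟨le_rfl, zero_le_one⟩, sg_zero z a⟩)
    · obtain ⟨x, hx1, hx2⟩ := h4
      exact ⟨x, Or.inr hx1, hx2⟩

theorem isConnected_swl (h : Hyp R A I G δ e e') (i : ι) : IsConnected (swl R A I G e i) := by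
  obtain ⟨x, hx⟩ := (h.con i).nonempty
  refine ⟨⟨x, Or.inl hx⟩, isPreconnected_of_forall x fun y hy => ?_⟩
  obtain ⟨t, h1, h2, h3, u, hu1, hu2⟩ := join h hy
  refine ⟨R i ∪ t, ?_, Or.inl hx, Or.inr h3,
    IsPreconnected.union u hu2 hu1 (h.con i).isPreconnected h2⟩
  rintro w (hw | hw)
  · exact Or.inl hw
  · exact h1 hw

/-- a swallowed point is far from the other regions -/
theorem far_aux (h : Hyp R A I G δ e e') {i j : ι} (hij : i ≠ j) {z w : ℂ} (hi : i ∈ I)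
    (hz : z ∈ G) (hzA : z ∈ thickening e (A i)) (hw : w ∈ R j) : δ ≤ ‖z - w‖ := by
  by_contra hcon
  push Not at hcon
  obtain ⟨a, ha, hza⟩ := mem_thickening_iff.1 hzA
  rw [dist_eq_norm] at hza
  have hwG : w ∉ G := fun hw' => disjoint_left.1 (h.disj j) hw hw'
  have hee := h.ee
  have hdp := h.dpos
  have hwa : ‖w - a‖ < e' := by
    calc ‖w - a‖ ≤ ‖w - z‖ + ‖z - a‖ := norm_sub_le_norm_sub_add_norm_sub w z a
      _ < e' := by rw [norm_sub_rev w z]; linarith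
  obtain ⟨s, h0, h1, h2, -⟩ := exit (U := R i) h.cl hz hwG fun s h0 h1 hs =>
    h.near i hi _ hs (mem_thickening_iff.2 ⟨a, ha, by
      rw [dist_eq_norm]; exact sg_ball (by linarith) hwa h0 h1⟩)
  have h3 := h.far i j hij _ h2 w hw
  have h4 : ‖sg z w s - w‖ ≤ ‖z - w‖ := by
    have e1 : sg z w s - w = ((1 - s : ℝ) : ℂ) * (z - w) := by unfold sg; push_cast; ring
    rw [e1, norm_mul, Complex.norm_real, Real.norm_of_nonneg (sub_nonneg.2 h1)]
    have := norm_nonneg (z - w)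
    nlinarith
  linarith

theorem far_swl (h : Hyp R A I G δ e e') {i j : ι} (hij : i ≠ j) {z w : ℂ}
    (hz : z ∈ swl R A I G e i) (hw : w ∈ swl R A I G e j) : δ ≤ ‖z - w‖ := by
  rcases hz with hz | ⟨hi, hzG, hzA⟩
  · rcases hw with hw | ⟨hj, hwG, hwA⟩
    · exact h.far i j hij z hz w hw
    · rw [norm_sub_rev]
      exact far_aux h hij.symm hj hwG hwA hz
  · rcases hw with hw | ⟨hj, hwG, hwA⟩
    · exact far_aux h hij hi hzG hzA hw
    · obtain ⟨a, ha, hza⟩ := mem_thickening_iff.1 hzA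
      obtain ⟨b, hb, hwb⟩ := mem_thickening_iff.1 hwA
      rw [dist_eq_norm] at hza hwb
      have h1 := h.sep i hi j hj hij a ha b hb
      have h2 := norm_sub_le_norm_sub_add_norm_sub a z b
      have h3 := norm_sub_le_norm_sub_add_norm_sub z w b
      rw [norm_sub_rev a z] at h2
      linarith

/-- outside of `G` nothing changes -/
theorem mem_swl_of_not {i : ι} {z : ℂ} (hz : z ∉ G) : z ∈ swl R A I G e i ↔ z ∈ R i :=
  ⟨fun h => h.resolve_right fun h => hz h.2.1, Or.inl⟩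

/-- the swallowed arc -/
theorem arc_sub (h : Hyp R A I G δ e e') {i : ι} (hi : i ∈ I) : A i ⊆ swl R A I G e i :=
  fun _ hx => Or.inr ⟨hi, h.Asub i hi hx, self_subset_thickening h.epos _ hx⟩

/-- the regions which are not swallowed do not change -/
theorem swl_of_not {i : ι} (hi : i ∉ I) : swl R A I G e i = R i := by
  ext z
  exact ⟨fun h => h.resolve_right fun h => hi h.1, Or.inl⟩

end Crest.Agent.R143.Swlx922
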