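import Crest.Agent.R143.Ten_416
import Crest.Agent.R143.Swl_922

/-!
# Row 143 (S0194), block D, leaf SWL, second part (helper922)

`MacC` = the structure `Mac` of Cfg_416 without the fields `lk`, `lkm`.
`core` : outer polygon with shifted marks (`Pol4`) + tentacles (`Ten`) + metric facts about the arcs
(`Ars`) ⟹ `MacC` for all small `κ`.
-/

set_option autoImplicit false
set_option linter.all false

noncomputable section

open scoped Classical Topology
open Set Filter Metric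

namespace Crest.Agent.R143.Swl2x922

open Crest.Agent.R158.Sp896 Crest.Agent.R158.Jt785
open Crest.ProbabilityR.Percolation
open Crest.Agent.R143.Cfgx416 Crest.Agent.R143.Tenx416 Crest.Agent.R143.Swlx922

/-- `Mac` without the linking fields -/
structure MacC (D : Set ℂ) (A : ZMod 4 → Set ℂ) (m : ZMod 4 → ℂ) (T : Set (ZMod 4))
    (e : ℝ) (C : Cfg 4) (δ κ : ℝ) (G : Set ℂ) (B : ZMod 4 → Set ℂ) : Prop where
  ok : C.OK δ
  kpos : 0 < κ
  ke : κ < e
  bd : closure D ⊆ Metric.closedBall C.c (C.L / 4)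
  Gc : IsCompact G
  DG : closure D ⊆ interior G
  Gbd : G ⊆ Metric.closedBall C.c (C.L / 3)
  Ge : ∀ z ∈ G, Metric.infDist z (closure D) < e
  Bc : ∀ k, IsClosed (B k)
  body : C.outᶜ = (G \ C.out) ∪ ⋃ k, B k
  sw : ∀ i ∈ T, A i ⊆ C.R i
  sw' : ∀ i ∈ T, ∀ z ∈ G, Metric.infDist z (A i) ≤ κ → z ∈ C.R i
  ns : ∀ z ∈ G, z ∉ C.out → z ∉ D → ∃ i ∉ T, Metric.infDist z (A i) < e
  ot : ∀ i ∉ T, Disjoint (C.R i) G
  otD : ∀ i ∉ T, ∀ z ∈ closure D, ∀ w ∈ C.R i, κ ≤ dist z w
  nr : ∀ i, ∀ y ∈ G, ∀ w ∈ C.R i, dist w y < κ → Metric.infDist y (A i) < e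
  nr' : ∀ i, ∀ p ∈ A i, ∃ w ∈ C.R i, dist w p < e
  ex : ∀ y ∈ G, ∀ w, dist w y < κ → w ∈ G ∨ w ∈ C.out ∨ ∃ k, w ∈ B k ∧ dist w (m k) < e
  tb : ∀ k, ∀ y ∈ B k, ∀ w, dist w y < κ →
    w ∈ B k ∨ w ∈ C.R (k - 1) ∨ w ∈ C.R k ∨ (w ∈ G ∧ dist w (m k) < e)
  tbn : ∀ k, ∀ y ∈ B k, ∀ w, dist w y < κ → ∀ j, j ≠ k - 1 → j ≠ k → w ∉ C.R j
  tbt : ∀ j k, j ≠ k → ∀ y ∈ B j, ∀ w ∈ B k, κ ≤ dist y w
  tbc : ∀ k, C.cone δ k ⊆ B k
  tbD : ∀ k, ∀ y ∈ B k, ∀ z ∈ closure D, κ ≤ dist y z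
  tg : ∀ k, ∀ y ∈ B k, ∀ z ∈ G, dist y z < κ → dist z (m k) < e
  inD : ∀ z ∈ D, z ∈ C.out → Metric.infDist z (frontier D) < e

/-- metric facts about the arcs `A` and the shifted arcs `AA` : `e1` = depth of the swallowed
neighbourhood, `ρ` = scale of the polygon -/
structure Ars (D : Set ℂ) (A AA : ZMod 4 → Set ℂ) (m : ZMod 4 → ℂ) (T : Set (ZMod 4))
    (e e1 ρ : ℝ) : Prop where
  e1pos : 0 < e1
  rpos : 0 < ρ
  e1e : 4 * e1 ≤ e
  re : 8 * ρ ≤ e1
  Dop : IsOpen D
  Dbd : Bornology.IsBounded D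
  fr : frontier D = ⋃ i, A i
  Acon : ∀ i, IsPreconnected (A i)
  Anon : ∀ i, (A i).Nonempty
  sep : ∀ i ∈ T, ∀ j, j ≠ i → ∀ x ∈ A i, ∀ y ∈ AA j, 4 * e1 ≤ ‖x - y‖
  TT : ∀ i ∈ T, A i ⊆ AA i
  nr : ∀ i, ∀ y ∈ AA i, ∃ x ∈ A i, ‖y - x‖ < e / 4
  mrk : ∀ k z, Nr ρ (AA k) z → Nr ρ (AA (k - 1)) z → ‖z - m k‖ < e / 4
  ext : ∀ i ∈ T, ∃ p ∈ A i, ∃ w, ‖w - p‖ < e1 ∧ ∀ y ∈ closure D, ρ ≤ ‖w - y‖
  net : ∀ i, i ∉ T → ∀ p ∈ A i, ∃ p' ∈ closure D, ∃ w, ‖p - p'‖ < e / 4 ∧ ‖w - p'‖ < e / 4 ∧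
    (∀ y ∈ closure D, ρ ≤ ‖w - y‖) ∧
    ∀ y, ‖y - p'‖ ≤ ‖w - p'‖ → ∀ j, j ≠ i → ∀ x ∈ AA j, ρ ≤ ‖y - x‖

/-- the configuration with the swallowed arcs -/
def Csw (C : Cfg 4) (A : ZMod 4 → Set ℂ) (T : Set (ZMod 4)) (G : Set ℂ) (e1 : ℝ) : Cfg 4 :=
  { C with R := swl C.R A T G e1 }

variable {D : Set ℂ} {A AA : ZMod 4 → Set ℂ} {m : ZMod 4 → ℂ} {T : Set (ZMod 4)} {e e1 ρ e0 s : ℝ}
  {F : Set V} {N : ℕ} {v : ℕ → V} {mm : ℕ → ℕ} {C : Cfg 4} {δ κ0 : ℝ} {B : ZMod 4 → Set ℂ}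

/-! ### the polygon -/

theorem isCompact_Pg (hF : F.Finite) : IsCompact (Pg s F) := by
  refine hF.isCompact_biUnion fun q _ => ?_
  refine Metric.isCompact_of_isClosed_isBounded (isClosed_sq s q) ?_
  rw [Metric.isBounded_iff]
  refine ⟨2 * s, fun z hz w hw => ?_⟩
  rw [dist_eq_norm]
  exact sq_dist hz hw

theorem mem_Pg_of_cell (hs : 0 < s) {z : ℂ} (h : cellOf s z ∈ F) : z ∈ Pg s F :=
  mem_biUnion h (mem_cellOf hs z)

theorem closure_sub_interior (hP : Pol4 D AA e0 s F N v mm) : closure D ⊆ interior (Pg s F) :=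
  fun z hz => mem_interior_cells hP.s_pos fun q hq => hP.cover q ⟨z, hq, hz⟩

theorem z4 (k : ZMod 4) : k = 0 ∨ k = 1 ∨ k = 2 ∨ k = 3 := by revert k; decide

/-- the marked edges are near both arcs -/
theorem marked (hP : Pol4 D AA e0 s F N v mm) (k : ZMod 4) {z : ℂ}
    (hz : z ∈ ed s (v (mm k.val)) (v (mm k.val + 1))) : Nr e0 (AA k) z ∧ Nr e0 (AA (k - 1)) z := by
  have h01 := hP.m01
  have h12 := hP.m12
  have h23 := hP.m23
  have h3N := hP.m3N
  have hper := hP.cyc.per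
  have hk := z4 k
  rcases hk with rfl | rfl | rfl | rfl
  · refine ⟨hP.side 0 _ ⟨le_rfl, ?_⟩ z hz, ?_⟩
    · show mm 0 ≤ nx N mm 0
      unfold nx; rw [if_neg (by decide)]
      exact h01.le
    · have e1 : (0 : ZMod 4) - 1 = 3 := by decide
      rw [e1]
      refine hP.side 3 (mm 0 + N) ⟨?_, ?_⟩ z ?_
      · show mm 3 ≤ mm 0 + N
        omega
      · unfold nx; rw [if_pos rfl]
      · have h1 : v (mm 0 + N) = v (mm 0) := hper _
        have h2 : v (mm 0 + N + 1) = v (mm 0 + 1) := by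
          have : mm 0 + N + 1 = (mm 0 + 1) + N := by ring
          rw [this]; exact hper _
        rw [h1, h2]
        exact hz
  · refine ⟨hP.side 1 _ ⟨le_rfl, ?_⟩ z hz, ?_⟩
    · show mm 1 ≤ nx N mm 1
      unfold nx; rw [if_neg (by decide)]
      exact h12.le
    · have e1 : (1 : ZMod 4) - 1 = 0 := by decide
      rw [e1]
      refine hP.side 0 (mm 1) ⟨h01.le, ?_⟩ z hz
      unfold nx; rw [if_neg (by decide)]
      exact le_rfl
  · refine ⟨hP.side 2 _ ⟨le_rfl, ?_⟩ z hz, ?_⟩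
    · show mm 2 ≤ nx N mm 2
      unfold nx; rw [if_neg (by decide)]
      exact h23.le
    · have e1 : (2 : ZMod 4) - 1 = 1 := by decide
      rw [e1]
      refine hP.side 1 (mm 2) ⟨h12.le, ?_⟩ z hz
      unfold nx; rw [if_neg (by decide)]
      exact le_rfl
  · refine ⟨hP.side 3 _ ⟨le_rfl, ?_⟩ z hz, ?_⟩
    · show mm 3 ≤ nx N mm 3
      unfold nx; rw [if_pos rfl]
      omega
    · have e1 : (3 : ZMod 4) - 1 = 2 := by decide
      rw [e1]
      refine hP.side 2 (mm 3) ⟨h23.le, ?_⟩ z hz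
      unfold nx; rw [if_neg (by decide)]
      exact le_rfl

/-- points of a boundary edge are not in the interior of the polygon -/
theorem edge_not_interior (hP : Pol4 D AA e0 s F N v mm) (k : ℕ) {z : ℂ}
    (hz : z ∈ ed s (v k) (v (k + 1))) : z ∉ interior (Pg s F) := by
  have hs := hP.s_pos
  intro hi
  have hr := hP.cyc.right k
  have hzr := ed_sub_rc hs (hP.cyc.step k) hz
  set q := rc (v k) (v (k + 1)) with hq
  -- the centre of the right cell
  set p : ℂ := ⟨s * (q.1 + 1 / 2), s * (q.2 + 1 / 2)⟩ with hp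
  obtain ⟨r, hr0, hball⟩ := Metric.isOpen_iff.1 isOpen_interior z hi
  -- a point close to `z` in the open right cell
  obtain ⟨t, ht0, ht1, ht⟩ : ∃ t : ℝ, 0 < t ∧ t ≤ 1 ∧ t * ‖p - z‖ < r := by
    refine ⟨min 1 (r / (2 * (‖p - z‖ + 1))), by positivity, min_le_left _ _, ?_⟩
    have h1 : min 1 (r / (2 * (‖p - z‖ + 1))) ≤ r / (2 * (‖p - z‖ + 1)) := min_le_right _ _
    have h2 : 0 ≤ ‖p - z‖ := norm_nonneg _
    calc min 1 (r / (2 * (‖p - z‖ + 1))) * ‖p - z‖ ≤ r / (2 * (‖p - z‖ + 1)) * (‖p - z‖ + 1) := by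
          apply mul_le_mul h1 (by linarith) h2 (by positivity)
      _ = r / 2 := by field_simp
      _ < r := by linarith
  set w : ℂ := z + (t : ℂ) * (p - z) with hw
  have hwb : w ∈ Pg s F := interior_subset (hball (by
    rw [Metric.mem_ball, dist_eq_norm, hw, add_sub_cancel_left, norm_mul, Complex.norm_real,
      Real.norm_of_nonneg ht0.le]
    exact ht))
  obtain ⟨q', hq', hwq⟩ := mem_iUnion₂.1 hwb
  -- `w` is in the open cell `q`
  obtain ⟨z1, z2, z3, z4⟩ := hzr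
  have w1 : w.re = z.re + t * (s * (q.1 + 1 / 2) - z.re) := by
    rw [hw, hp]
    simp only [Complex.add_re, Complex.mul_re, Complex.ofReal_re, Complex.ofReal_im,
      Complex.sub_re, Complex.sub_im, zero_mul, sub_zero]
  have w2 : w.im = z.im + t * (s * (q.2 + 1 / 2) - z.im) := by
    rw [hw, hp]
    simp only [Complex.add_im, Complex.mul_im, Complex.ofReal_re, Complex.ofReal_im,
      Complex.sub_re, Complex.sub_im, zero_mul, add_zero]
  have a1 : s * q.1 < w.re := by rw [w1]; nlinarith [mul_pos ht0 hs]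
  have a2 : w.re < s * (q.1 + 1) := by rw [w1]; nlinarith [mul_pos ht0 hs]
  have a3 : s * q.2 < w.im := by rw [w2]; nlinarith [mul_pos ht0 hs]
  have a4 : w.im < s * (q.2 + 1) := by rw [w2]; nlinarith [mul_pos ht0 hs]
  obtain ⟨b1, b2, b3, b4⟩ := hwq
  have c1 : (q'.1 : ℝ) < q.1 + 1 := by
    by_contra hcon
    push Not at hcon
    nlinarith
  have c2 : (q.1 : ℝ) < q'.1 + 1 := by
    by_contra hcon
    push Not at hcon
    nlinarith
  have c3 : (q'.2 : ℝ) < q.2 + 1 := by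
    by_contra hcon
    push Not at hcon
    nlinarith
  have c4 : (q.2 : ℝ) < q'.2 + 1 := by
    by_contra hcon
    push Not at hcon
    nlinarith
  have d1 : q'.1 < q.1 + 1 := by exact_mod_cast c1
  have d2 : q.1 < q'.1 + 1 := by exact_mod_cast c2
  have d3 : q'.2 < q.2 + 1 := by exact_mod_cast c3
  have d4 : q.2 < q'.2 + 1 := by exact_mod_cast c4
  have : q' = q := Prod.ext (by omega) (by omega)
  rw [this] at hq'
  exact hr hq'

/-! ### the regions near the polygon -/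

theorem Pg_not_out (hT : Ten s F N v mm C δ κ0 B) {z : ℂ} (hz : z ∈ Pg s F) : z ∉ C.out := by
  have : z ∈ C.outᶜ := by rw [hT.body]; exact Or.inl hz
  exact this

theorem B_not_out (hT : Ten s F N v mm C δ κ0 B) {z : ℂ} {k : ZMod 4} (hz : z ∈ B k) :
    z ∉ C.out := by
  have : z ∈ C.outᶜ := by rw [hT.body]; exact Or.inr (mem_iUnion.2 ⟨k, hz⟩)
  exact this

theorem mem_out_iff {C : Cfg 4} {z : ℂ} : z ∈ C.out ↔ ∃ i, z ∈ C.R i := by
  unfold Cfg.out
  rw [mem_iUnion]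

theorem trio (hT : Ten s F N v mm C δ κ0 B) (z : ℂ) :
    z ∈ Pg s F ∨ (∃ k, z ∈ B k) ∨ ∃ i, z ∈ C.R i := by
  by_cases h : z ∈ C.out
  · exact Or.inr (Or.inr (mem_out_iff.1 h))
  · have h1 : z ∈ C.outᶜ := h
    rw [hT.body] at h1
    rcases h1 with h1 | h1
    · exact Or.inl h1
    · exact Or.inr (Or.inl (mem_iUnion.1 h1))

/-- **near the arc `i` and far from the other arcs there are only the polygon and the region `i`** -/
theorem nearL (hP : Pol4 D AA e0 s F N v mm) (hT : Ten s F N v mm C δ κ0 B) {y : ℂ}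
    (hy : y ∈ Pg s F) {i : ZMod 4} (hfar : ∀ j, j ≠ i → ∀ x ∈ AA j, 2 * e0 ≤ ‖y - x‖) :
    ball y κ0 ⊆ Pg s F ∪ C.R i := by
  have hk := hT.ks
  have hs := hP.s_lt
  intro w hw
  rw [mem_ball] at hw
  have aux : ∀ j, j ≠ i → ∀ z, dist z y < κ0 → Nr e0 (AA j) z → False := by
    rintro j hj z hz ⟨x, hx, hzx⟩
    have h1 := hfar j hj x hx
    rw [dist_eq_norm] at hz
    have h2 := norm_sub_le_norm_sub_add_norm_sub y z x
    rw [norm_sub_rev y z] at h2
    linarith
  rcases trio hT w with h | ⟨k, h⟩ | ⟨j, h⟩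
  · exact Or.inl h
  · exfalso
    obtain ⟨z, hz, h1, h2⟩ := hT.mth k w h y hy hw
    obtain ⟨h3, h4⟩ := marked hP k hz
    by_cases hki : k = i
    · refine aux (k - 1) ?_ z h2 h4
      rw [← hki]
      intro h5
      have : (1 : ZMod 4) = 0 := by
        have := congrArg (fun t => k - t) h5
        simpa using this
      exact absurd this (by decide)
    · exact aux k hki z h2 h3
  · by_cases hji : j = i
    · rw [← hji]; exact Or.inr h
    · exfalso
      obtain ⟨k, hk1, z, hz, h1⟩ := hT.nb y hy j w h hw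
      exact aux j hji z h1 (hP.side j k hk1 z hz)

/-- points far from `closure D` are not in the polygon -/
theorem not_Pg (hP : Pol4 D AA e0 s F N v mm) (h0 : 8 * e0 ≤ ρ) {w : ℂ}
    (hw : ∀ y ∈ closure D, ρ ≤ ‖w - y‖) : w ∉ Pg s F := by
  intro h
  obtain ⟨q, hq, hwq⟩ := mem_iUnion₂.1 h
  obtain ⟨y, hy, h1⟩ := hP.out q hq w hwq
  have h2 := hw y hy
  have h3 := hP.s_pos
  have h4 := hP.s_lt
  linarith

/-- `δ` is small -/
theorem delta_lt (hP : Pol4 D AA e0 s F N v mm) (hT : Ten s F N v mm C δ κ0 B) : δ < 6 * e0 := by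
  have hs := hP.s_pos
  have h01 := hP.m01
  have h12 := hP.m12
  have hz : pt s (v (mm 1)) ∈ ed s (v (mm 1)) (v (mm 1 + 1)) := left_mem_segment ℝ _ _
  obtain ⟨w0, h1, h2⟩ := hT.near 0 (mm 1) ⟨h01.le, by unfold nx; rw [if_neg (by decide)]; exact le_rfl⟩
    _ hz
  obtain ⟨w1, h3, h4⟩ := hT.near 1 (mm 1) ⟨le_rfl, by
    unfold nx; rw [if_neg (by decide)]; exact h12.le⟩ _ hz
  have h5 := hT.ok.far 0 1 (by decide) w0 h1 w1 h3
  rw [dist_eq_norm] at h2 h4
  have h6 := norm_sub_le_norm_sub_add_norm_sub w0 (pt s (v (mm 1))) w1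
  rw [norm_sub_rev (pt s (v (mm 1))) w1] at h6
  have := hP.s_lt
  linarith

theorem e0_pos (hP : Pol4 D AA e0 s F N v mm) : 0 < e0 := hP.s_pos.trans hP.s_lt

/-- the hypotheses of the swallowing lemma -/
theorem hyp (hA : Ars D A AA m T e e1 ρ) (hP : Pol4 D AA e0 s F N v mm) (h0 : 8 * e0 ≤ ρ)
    (hT : Ten s F N v mm C δ κ0 B) : Hyp C.R A T (Pg s F) δ e1 (2 * e1) := by
  have he1 := hA.e1pos
  have hρ := hA.rpos
  have hre := hA.re
  have he0 := e0_pos hP
  have hδ := delta_lt hP hT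
  refine ⟨hT.ok.dpos, he1, by linarith, (isCompact_Pg hP.fin).isClosed, fun i => ?_, hT.ok.opn,
    hT.ok.con, hT.ok.far, fun i hi y hy hyA => ?_, fun i hi x hx => ?_, fun i _ => hA.Acon i,
    fun i hi => ?_, fun i hi j hj hij z hz w hw => ?_⟩
  · refine disjoint_left.2 fun z h1 h2 => ?_
    exact Pg_not_out hT h2 (mem_out_iff.2 ⟨i, h1⟩)
  · obtain ⟨a, ha, hya⟩ := mem_thickening_iff.1 hyA
    rw [dist_eq_norm] at hya
    refine Filter.mem_of_superset (ball_mem_nhds y hT.kpos) (nearL hP hT hy fun j hj x hx => ?_)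
    have h1 := hA.sep i hi j hj a ha x hx
    have h2 := norm_sub_le_norm_sub_add_norm_sub a y x
    rw [norm_sub_rev a y] at h2
    linarith
  · have h1 : x ∈ frontier D := by rw [hA.fr]; exact mem_iUnion.2 ⟨i, hx⟩
    exact interior_subset (closure_sub_interior hP (frontier_subset_closure h1))
  · obtain ⟨p, hp, w, hw, hw'⟩ := hA.ext i hi
    exact ⟨w, not_Pg hP h0 hw', mem_thickening_iff.2 ⟨p, hp, by rw [dist_eq_norm]; exact hw⟩⟩
  · have := hA.sep i hi j hij.symm z hz w (hA.TT j hj hw)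
    linarith

theorem ok_sw (hA : Ars D A AA m T e e1 ρ) (hP : Pol4 D AA e0 s F N v mm) (h0 : 8 * e0 ≤ ρ)
    (hT : Ten s F N v mm C δ κ0 B) : (Csw C A T (Pg s F) e1).OK δ := by
  have hH := hyp hA hP h0 hT
  have hok := hT.ok
  have hL := hok.Lpos
  have hnG : ∀ z : ℂ, C.L / 2 < ‖z - C.c‖ → z ∉ Pg s F := fun z hz h => by
    have := hT.bd h
    rw [mem_closedBall, dist_eq_norm] at this
    linarith
  refine ⟨hL, hok.dpos, isOpen_swl hH, isConnected_swl hH, hok.qn, hok.ang,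
    fun i j hij z hz w hw => far_swl hH hij hz hw, fun z hz => ?_, fun k r hr => ?_⟩
  · refine Iff.trans ?_ (hok.tent z hz)
    exact forall_congr' fun i => not_congr (mem_swl_of_not (hnG z hz))
  · obtain ⟨ε, hε, h⟩ := hok.sect k r hr
    refine ⟨ε, hε, fun ψ h1 h2 => ?_⟩
    obtain ⟨h3, h4⟩ := h ψ h1 h2
    exact ⟨Or.inl h3, Or.inl h4⟩

theorem mem_out_sw {G : Set ℂ} {z : ℂ} : z ∈ (Csw C A T G e1).out ↔
    z ∈ C.out ∨ ∃ i ∈ T, z ∈ G ∧ z ∈ thickening e1 (A i) := by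
  rw [mem_out_iff, mem_out_iff]
  constructor
  · rintro ⟨i, h | ⟨h1, h2, h3⟩⟩
    · exact Or.inl ⟨i, h⟩
    · exact Or.inr ⟨i, h1, h2, h3⟩
  · rintro (⟨i, h⟩ | ⟨i, h1, h2, h3⟩)
    · exact ⟨i, Or.inl h⟩
    · exact ⟨i, Or.inr ⟨h1, h2, h3⟩⟩

theorem infDist_lt_of {K : Set ℂ} {z y : ℂ} {r : ℝ} (hy : y ∈ K) (h : ‖z - y‖ < r) :
    infDist z K < r := (infDist_le_dist_of_mem hy).trans_lt (by rw [dist_eq_norm]; exact h)

theorem km_ne (k : ZMod 4) : k - 1 ≠ k := by revert k; decide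

/-- near a marked edge there is no swallowed arc -/
theorem mark_far (hA : Ars D A AA m T e e1 ρ) (hP : Pol4 D AA e0 s F N v mm) (h0 : 8 * e0 ≤ ρ)
    {k i : ZMod 4} (hi : i ∈ T) {z w : ℂ} (hz : z ∈ ed s (v (mm k.val)) (v (mm k.val + 1)))
    (hw : w ∈ thickening e1 (A i)) : e1 ≤ ‖z - w‖ := by
  obtain ⟨a, ha, hwa⟩ := mem_thickening_iff.1 hw
  rw [dist_eq_norm] at hwa
  have he1 := hA.e1pos
  have hre := hA.re
  have he0 := e0_pos hP
  have hρ := hA.rpos
  obtain ⟨⟨x, hx, hzx⟩, ⟨x', hx', hzx'⟩⟩ := marked hP k hz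
  by_contra hcon
  push Not at hcon
  have key : ∀ j, j ≠ i → ∀ x ∈ AA j, ‖z - x‖ < e0 → False := by
    intro j hj x hx hzx
    have h1 := hA.sep i hi j hj a ha x hx
    have h2 := norm_sub_le_norm_sub_add_norm_sub a w x
    have h3 := norm_sub_le_norm_sub_add_norm_sub w z x
    rw [norm_sub_rev a w] at h2
    rw [norm_sub_rev w z] at h3
    linarith
  by_cases hki : k = i
  · exact key (k - 1) (by rw [← hki]; exact km_ne k) x' hx' hzx'
  · exact key k hki x hx hzx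

/-- the tentacles without the interior of the polygon -/
def Bp (B : ZMod 4 → Set ℂ) (s : ℝ) (F : Set V) (k : ZMod 4) : Set ℂ := B k \ interior (Pg s F)

/-- **the macroscopic configuration without the linking fields** -/
theorem core (hA : Ars D A AA m T e e1 ρ) (hP : Pol4 D AA e0 s F N v mm) (h0 : 8 * e0 ≤ ρ)
    (hT : Ten s F N v mm C δ κ0 B) : ∃ κ1 : ℝ, 0 < κ1 ∧ κ1 ≤ κ0 ∧ κ1 ≤ e1 / 2 ∧
      (∀ z ∈ closure D, ball z κ1 ⊆ Pg s F) ∧
      ∀ κ : ℝ, 0 < κ → κ ≤ κ1 → MacC D A m T e (Csw C A T (Pg s F) e1) δ κ (Pg s F)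
        (Bp B s F) := by
  have he1 := hA.e1pos
  have hρ := hA.rpos
  have hre := hA.re
  have he1e := hA.e1e
  have he0 := e0_pos hP
  have hs := hP.s_pos
  have hse := hP.s_lt
  have hks := hT.ks
  have hk0 := hT.kpos
  have hH := hyp hA hP h0 hT
  have hDc : IsCompact (closure D) := hA.Dbd.isCompact_closure
  have hDG := closure_sub_interior hP
  have hGc : IsCompact (Pg s F) := isCompact_Pg hP.fin
  -- margin around `closure D`
  obtain ⟨κ2, hκ2, hth⟩ := hDc.exists_thickening_subset_open isOpen_interior hDG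
  have hball : ∀ z ∈ closure D, ball z κ2 ⊆ interior (Pg s F) := fun z hz w hw =>
    hth (mem_thickening_iff.2 ⟨z, hz, hw⟩)
  set κ1 := min (min κ0 κ2) (e1 / 2) with hκ1
  have g1 : κ1 ≤ κ0 := (min_le_left _ _).trans (min_le_left _ _)
  have g2 : κ1 ≤ κ2 := (min_le_left _ _).trans (min_le_right _ _)
  have g3 : κ1 ≤ e1 / 2 := min_le_right _ _
  have g0 : 0 < κ1 := by positivity
  refine ⟨κ1, g0, g1, g3, fun z hz => (ball_subset_ball g2).trans
    ((hball z hz).trans interior_subset), fun κ hκ hκ' => ?_⟩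
  have hDsub : closure D ⊆ Pg s F := hDG.trans interior_subset
  have hfrD : ∀ i, A i ⊆ frontier D := fun i x hx => by rw [hA.fr]; exact mem_iUnion.2 ⟨i, hx⟩
  have hmk : ∀ (k : ZMod 4) (z : ℂ), z ∈ ed s (v (mm k.val)) (v (mm k.val + 1)) →
      ‖z - m k‖ < e / 4 := fun k z hz => by
    obtain ⟨h1, h2⟩ := marked hP k hz
    exact hA.mrk k z (h1.mono (by linarith)) (h2.mono (by linarith))
  -- no tentacle meets a swallowed neighbourhood
  have hBsw : ∀ k, ∀ y ∈ B k, ∀ w, dist w y < κ0 → ∀ i ∈ T, w ∈ Pg s F → w ∈ thickening e1 (A i) →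
      False := by
    intro k y hy w hwy i hi hwG hwA
    obtain ⟨z, hz, h1, h2⟩ := hT.mth k y hy w hwG (by rw [dist_comm]; exact hwy)
    have h3 := mark_far hA hP h0 hi hz hwA
    rw [dist_eq_norm] at h2
    linarith
  have hout : ∀ z, z ∉ (Csw C A T (Pg s F) e1).out → z ∉ C.out := fun z hz h =>
    hz (mem_out_sw.2 (Or.inl h))
  constructor
  · exact ok_sw hA hP h0 hT
  · exact hκ
  · linarith
  · exact hDsub.trans hT.bd
  · exact hGc
  · exact hDG
  · refine hT.bd.trans (closedBall_subset_closedBall ?_)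
    have := hT.ok.Lpos
    show C.L / 4 ≤ C.L / 3
    linarith
  · -- Ge
    intro z hz
    obtain ⟨q, hq, hzq⟩ := mem_iUnion₂.1 hz
    obtain ⟨y, hy, h1⟩ := hP.out q hq z hzq
    exact infDist_lt_of hy (by linarith)
  · exact fun k => (hT.Bc k).sdiff isOpen_interior
  · -- body
    ext z
    constructor
    · intro hz
      have hz' : z ∉ (Csw C A T (Pg s F) e1).out := hz
      rcases trio hT z with h | ⟨k, h⟩ | ⟨i, h⟩
      · exact Or.inl ⟨h, hz'⟩
      · by_cases hzi : z ∈ interior (Pg s F)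
        · exact Or.inl ⟨interior_subset hzi, hz'⟩
        · exact Or.inr (mem_iUnion.2 ⟨k, h, hzi⟩)
      · exact absurd (mem_out_iff.2 ⟨i, h⟩) (hout z hz')
    · rintro (⟨h1, h2⟩ | h)
      · exact h2
      · obtain ⟨k, hk, -⟩ := mem_iUnion.1 h
        intro hz
        rcases mem_out_sw.1 hz with h1 | ⟨i, hi, h2, h3⟩
        · exact B_not_out hT hk h1
        · exact hBsw k z hk z (by rw [dist_self]; exact hk0) i hi h2 h3
  · exact fun i hi => arc_sub hH hi
  · -- sw'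
    intro i hi z hz hd
    refine Or.inr ⟨hi, hz, ?_⟩
    rw [mem_thickening_iff_infDist_lt (hA.Anon i)]
    linarith
  · -- ns
    intro z hz hzo hzD
    obtain ⟨q, hq, hzq⟩ := mem_iUnion₂.1 hz
    obtain ⟨y, hy, h1⟩ := hP.out q hq z hzq
    -- a point of the frontier near `z`
    obtain ⟨x, hx, hzx⟩ : ∃ x ∈ frontier D, ‖z - x‖ < e0 := by
      by_cases hyf : y ∈ frontier D
      · exact ⟨y, hyf, h1⟩
      have hyD : y ∈ D := by
        by_contra hyD
        exact hyf (by rw [hA.Dop.frontier_eq]; exact ⟨hy, hyD⟩)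
      have hpre : IsPreconnected (segment ℝ y z) := (convex_segment y z).isPreconnected
      obtain ⟨x, hx1, hx2⟩ : ∃ x ∈ segment ℝ y z, x ∈ frontier D := by
        by_contra hcon
        push Not at hcon
        refine hzD (hpre.subset_of_closure_inter_subset hA.Dop
          ⟨y, left_mem_segment ℝ y z, hyD⟩ ?_ (right_mem_segment ℝ y z))
        rintro x ⟨hx1, hx2⟩
        by_contra hxD
        exact hcon x hx2 (by rw [hA.Dop.frontier_eq]; exact ⟨hx1, hxD⟩)
      refine ⟨x, hx2, ?_⟩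
      have h2 : ‖z - x‖ ≤ ‖z - y‖ := by
        rw [segment_eq_image'] at hx1
        obtain ⟨t, ⟨ht0, ht1⟩, rfl⟩ := hx1
        have e1 : z - (y + t • (z - y)) = ((1 - t : ℝ) : ℂ) * (z - y) := by
          rw [Complex.real_smul]; push_cast; ring
        show ‖z - (y + t • (z - y))‖ ≤ _
        rw [e1, norm_mul, Complex.norm_real, Real.norm_of_nonneg (by linarith)]
        have := norm_nonneg (z - y)
        nlinarith
      linarith
    rw [hA.fr] at hx
    obtain ⟨i, hi⟩ := mem_iUnion.1 hx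
    refine ⟨i, fun hiT => ?_, infDist_lt_of hi (by linarith)⟩
    exact hzo (mem_out_sw.2 (Or.inr ⟨i, hiT, hz, mem_thickening_iff.2 ⟨x, hi, by
      rw [dist_eq_norm]; linarith⟩⟩))
  · -- ot
    intro i hi
    show Disjoint (swl C.R A T (Pg s F) e1 i) (Pg s F)
    rw [swl_of_not hi]
    exact hH.disj i
  · -- otD
    intro i hi z hz w hw
    have hw' : w ∈ C.R i := by
      have : w ∈ swl C.R A T (Pg s F) e1 i := hw
      rwa [swl_of_not hi] at this
    by_contra hcon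
    push Not at hcon
    have h1 : w ∈ Pg s F := interior_subset (hball z hz (by rw [mem_ball, dist_comm]; linarith))
    exact disjoint_left.1 (hH.disj i) hw' h1
  · -- nr
    intro i y hy w hw hd
    rcases hw with hw | ⟨hi, hwG, hwA⟩
    · obtain ⟨k, hk, z, hz, h1⟩ := hT.nb y hy i w hw (by linarith)
      obtain ⟨x, hx, hzx⟩ := hP.side i k hk z hz
      obtain ⟨x', hx', hxx'⟩ := hA.nr i x hx
      refine infDist_lt_of hx' ?_
      rw [dist_eq_norm] at h1
      have h2 := norm_sub_le_norm_sub_add_norm_sub y z x'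
      have h3 := norm_sub_le_norm_sub_add_norm_sub z x x'
      rw [norm_sub_rev y z] at h2
      linarith
    · obtain ⟨a, ha, hwa⟩ := mem_thickening_iff.1 hwA
      refine infDist_lt_of ha ?_
      rw [dist_eq_norm] at hwa hd
      have h2 := norm_sub_le_norm_sub_add_norm_sub y w a
      rw [norm_sub_rev y w] at h2
      linarith
  · -- nr'
    intro i p hp
    by_cases hi : i ∈ T
    · exact ⟨p, arc_sub hH hi hp, by rw [dist_self]; linarith⟩
    · obtain ⟨p', hp', w, h1, h2, h3, h4⟩ := hA.net i hi p hp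
      have hwG := not_Pg hP h0 h3
      have hseg : ∀ t : ℝ, 0 ≤ t → t ≤ 1 → ‖sg p' w t - p'‖ ≤ ‖w - p'‖ := fun t ht0 ht1 => by
        have e1 : sg p' w t - p' = (t : ℂ) * (w - p') := by unfold sg; ring
        rw [e1, norm_mul, Complex.norm_real, Real.norm_of_nonneg ht0]
        have := norm_nonneg (w - p')
        nlinarith
      obtain ⟨t, ht0, ht1, ht, -⟩ := exit (U := C.R i) hGc.isClosed (hDsub hp') hwG
        fun t ht0 ht1 hG => Filter.mem_of_superset (ball_mem_nhds _ hT.kpos)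
          (nearL hP hT hG fun j hj x hx => by
            have := h4 _ (hseg t ht0 ht1) j hj x hx
            linarith)
      refine ⟨sg p' w t, Or.inl ht, ?_⟩
      rw [dist_eq_norm]
      have h5 := hseg t ht0 ht1
      have h6 := norm_sub_le_norm_sub_add_norm_sub (sg p' w t) p' p
      rw [norm_sub_rev p' p] at h6
      linarith
  · -- ex
    intro y hy w hd
    rcases trio hT w with h | ⟨k, h⟩ | ⟨i, h⟩
    · exact Or.inl h
    · by_cases hwi : w ∈ interior (Pg s F)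
      · exact Or.inl (interior_subset hwi)
      refine Or.inr (Or.inr ⟨k, ⟨h, hwi⟩, ?_⟩)
      obtain ⟨z, hz, h1, h2⟩ := hT.mth k w h y hy (by linarith)
      have h3 := hmk k z hz
      rw [dist_eq_norm] at h1 ⊢
      have h4 := norm_sub_le_norm_sub_add_norm_sub w z (m k)
      rw [norm_sub_rev w z] at h4
      linarith
    · exact Or.inr (Or.inl (mem_out_sw.2 (Or.inl (mem_out_iff.2 ⟨i, h⟩))))
  · -- tb
    rintro k y ⟨hy, -⟩ w hd
    have hG : w ∈ Pg s F → w ∈ Pg s F ∧ dist w (m k) < e := by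
      intro h
      refine ⟨h, ?_⟩
      obtain ⟨z, hz, h1, h2⟩ := hT.mth k y hy w h (by rw [dist_comm]; linarith)
      have h3 := hmk k z hz
      rw [dist_eq_norm] at h2 ⊢
      have h4 := norm_sub_le_norm_sub_add_norm_sub w z (m k)
      rw [norm_sub_rev w z] at h4
      linarith
    rcases hT.tr k y hy w (by linarith) with h | h | h | h
    · by_cases hwi : w ∈ interior (Pg s F)
      · exact Or.inr (Or.inr (Or.inr (hG (interior_subset hwi))))
      · exact Or.inl ⟨h, hwi⟩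
    · exact Or.inr (Or.inr (Or.inr (hG h)))
    · exact Or.inr (Or.inl (Or.inl h))
    · exact Or.inr (Or.inr (Or.inl (Or.inl h)))
  · -- tbn
    rintro k y ⟨hy, -⟩ w hd j hj1 hj2 hw
    rcases hw with hw | ⟨hj, hwG, hwA⟩
    · have hfar : ∀ i j : ZMod 4, i ≠ j → w ∈ C.R i → w ∈ C.R j → False := fun i j hij h1 h2 => by
        have h3 := hT.ok.far i j hij w h1 w h2
        rw [sub_self, norm_zero] at h3
        linarith [hT.ok.dpos]
      rcases hT.tr k y hy w (by linarith) with h | h | h | h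
      · exact B_not_out hT h (mem_out_iff.2 ⟨j, hw⟩)
      · exact Pg_not_out hT h (mem_out_iff.2 ⟨j, hw⟩)
      · exact hfar _ _ hj1 hw h
      · exact hfar _ _ hj2 hw h
    · exact hBsw k y hy w (by linarith) j hj hwG hwA
  · rintro j k hjk y ⟨hy, -⟩ w ⟨hw, -⟩
    linarith [hT.tt j k hjk y hy w hw]
  · rintro k z hz
    refine ⟨hT.tc k hz, fun hi => ?_⟩
    have h1 := hT.bd (interior_subset hi)
    have h2 : C.L / 2 < ‖z - C.c‖ := hz.1
    rw [mem_closedBall, dist_eq_norm] at h1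
    linarith [hT.ok.Lpos]
  · -- tbD
    rintro k y ⟨-, hy⟩ z hz
    by_contra hcon
    push Not at hcon
    exact hy (hball z hz (by rw [mem_ball]; linarith))
  · -- tg
    rintro k y ⟨hy, -⟩ z hz hd
    obtain ⟨x, hx, h1, h2⟩ := hT.mth k y hy z hz (by linarith)
    have h3 := hmk k x hx
    rw [dist_eq_norm] at h2 ⊢
    have h4 := norm_sub_le_norm_sub_add_norm_sub z x (m k)
    rw [norm_sub_rev z x] at h4
    linarith
  · -- inD
    intro z hz hzo
    rcases mem_out_sw.1 hzo with h | ⟨i, hi, h1, h2⟩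
    · exact absurd h (Pg_not_out hT (hDsub (subset_closure hz)))
    · obtain ⟨a, ha, hza⟩ := mem_thickening_iff.1 h2
      rw [dist_eq_norm] at hza
      exact infDist_lt_of (hfrD i ha) (by linarith)

/-! ### the mouth -/

/-- **connection from a point of `closure D` in the inner cell of the marked edge to the ray** -/
theorem tube (hA : Ars D A AA m T e e1 ρ) (hP : Pol4 D AA e0 s F N v mm) (h0 : 8 * e0 ≤ ρ)
    (hT : Ten s F N v mm C δ κ0 B) (k : ZMod 4) : ∃ q ∈ closure D,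
      q ∈ sq s (lc (v (mm k.val)) (v (mm k.val + 1))) ∧ ∃ (Tn : Set ℂ) (κ3 : ℝ), 0 < κ3 ∧
      IsPreconnected Tn ∧ q ∈ Tn ∧ C.c + ((3 / 4 * C.L : ℝ) : ℂ) * C.q k ∈ Tn ∧
      Tn ⊆ (Pg s F ∩ ball q e) ∪ Bp B s F k ∧ Tn ⊆ closedBall C.c (3 / 4 * C.L) ∧
      ∀ κ : ℝ, κ ≤ κ3 → ∀ y ∈ Tn, Disjoint (ball y κ) (Csw C A T (Pg s F) e1).out := by
  have he1 := hA.e1pos
  have hρ := hA.rpos
  have hre := hA.re
  have he1e := hA.e1e
  have he0 := e0_pos hP
  have hs := hP.s_pos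
  have hse := hP.s_lt
  have hks := hT.ks
  have hk0 := hT.kpos
  have hDc : IsCompact (closure D) := hA.Dbd.isCompact_closure
  have hDG := closure_sub_interior hP
  obtain ⟨κ2, hκ2, hth⟩ := hDc.exists_thickening_subset_open isOpen_interior hDG
  have hball : ∀ z ∈ closure D, ball z κ2 ⊆ Pg s F := fun z hz w hw =>
    interior_subset (hth (mem_thickening_iff.2 ⟨z, hz, hw⟩))
  set qc := lc (v (mm k.val)) (v (mm k.val + 1)) with hqc
  have hqF : qc ∈ F := hP.cyc.left _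
  have hcell : sq s qc ⊆ Pg s F := fun z hz => mem_biUnion hqF hz
  obtain ⟨q, hq1, hq2⟩ := hP.lcD (mm k.val)
  obtain ⟨P, p1, p2, p3, p4, p5, ⟨y0, p6, p7⟩, p8⟩ := hT.mouth k
  obtain ⟨r, hr, hrb⟩ := Metric.isOpen_iff.1 isOpen_interior y0 p7
  -- a point of the marked edge
  have hze : pt s (v (mm k.val)) ∈ ed s (v (mm k.val)) (v (mm k.val + 1)) := left_mem_segment ℝ _ _
  have hzc : pt s (v (mm k.val)) ∈ sq s qc := ed_sub_lc hs (hP.cyc.step _) hze
  -- points near the cell are far from the swallowed arcs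
  have hcf : ∀ y ∈ sq s qc, ∀ i ∈ T, ∀ w ∈ thickening e1 (A i), e1 / 2 ≤ ‖w - y‖ := by
    intro y hy i hi w hw
    have h1 := mark_far hA hP h0 hi hze hw
    have h2 := sq_dist hzc hy
    have h3 := norm_sub_le_norm_sub_add_norm_sub (pt s (v (mm k.val))) y w
    rw [norm_sub_rev y w] at h3
    linarith
  refine ⟨q, hq2, hq1, segment ℝ q y0 ∪ P, ?_⟩
  -- the margin of the segment
  have hseg : ∀ y ∈ segment ℝ q y0, y ∈ sq s qc := fun y hy =>
    (convex_sq s qc).segment_subset hq1 (interior_subset p7) hy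
  obtain ⟨κ4, hκ4, hκ4b⟩ : ∃ κ4 > 0, ∀ y ∈ segment ℝ q y0, ball y κ4 ⊆ Pg s F := by
    set M := ‖y0 - q‖ + 1 with hM
    have hM0 : 0 < M := by positivity
    set t0 := min 1 (κ2 / (2 * M)) with ht0
    have ht0p : 0 < t0 := by positivity
    have ht0M : t0 * ‖y0 - q‖ ≤ κ2 / 2 := by
      have h1 : t0 ≤ κ2 / (2 * M) := min_le_right _ _
      calc t0 * ‖y0 - q‖ ≤ κ2 / (2 * M) * M := by
            apply mul_le_mul h1 (by rw [hM]; linarith) (norm_nonneg _) (by positivity)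
        _ = κ2 / 2 := by field_simp
    refine ⟨min (κ2 / 2) (t0 * r), by positivity, fun y hy w hw => ?_⟩
    rw [mem_ball, dist_eq_norm] at hw
    have hw1 := hw.trans_le (min_le_left _ _)
    have hw2 := hw.trans_le (min_le_right _ _)
    rw [segment_eq_image'] at hy
    obtain ⟨t, ⟨h1, h2⟩, rfl⟩ := hy
    rcases le_or_gt t t0 with h | h
    · refine hball q hq2 ?_
      rw [mem_ball, dist_eq_norm]
      have h3 := norm_sub_le_norm_sub_add_norm_sub w (q + t • (y0 - q)) q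
      have h4 : ‖q + t • (y0 - q) - q‖ ≤ κ2 / 2 := by
        rw [add_sub_cancel_left, norm_smul, Real.norm_of_nonneg h1]
        exact (mul_le_mul_of_nonneg_right h (norm_nonneg _)).trans ht0M
      have hw3 : ‖w - (q + t • (y0 - q))‖ < κ2 / 2 := hw1
      linarith
    · have htp : 0 < t := ht0p.trans h
      -- `w = (1 - t) q + t y1`, `y1` near `y0`
      set y1 : ℂ := y0 + ((1 / t : ℝ) : ℂ) * (w - (q + t • (y0 - q))) with hy1
      have hy1c : y1 ∈ sq s qc := by
        refine interior_subset (hrb ?_)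
        rw [mem_ball, dist_eq_norm, hy1, add_sub_cancel_left, norm_mul, Complex.norm_real,
          Real.norm_of_nonneg (by positivity)]
        have h5 : ‖w - (q + t • (y0 - q))‖ < t * r :=
          lt_of_lt_of_le hw2 (mul_le_mul_of_nonneg_right h.le hr.le)
        rw [one_div, inv_mul_lt_iff₀ htp]
        exact h5
      have htc : (t : ℂ) ≠ 0 := by exact_mod_cast htp.ne'
      have e1 : w = (1 - t) • q + t • y1 := by
        rw [hy1, Complex.real_smul, Complex.real_smul, Complex.real_smul]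
        push_cast
        field_simp
        ring
      rw [e1]
      exact hcell ((convex_sq s qc) hq1 hy1c (by linarith) h1 (by ring))
  refine ⟨min (min κ4 κ0) (e1 / 2), by positivity, ?_, Or.inl (left_mem_segment ℝ q y0), Or.inr p4,
    ?_, ?_, ?_⟩
  · exact IsPreconnected.union y0 (right_mem_segment ℝ q y0) p6 (convex_segment q y0).isPreconnected
      p1
  · rintro y (hy | hy)
    · refine Or.inl ⟨hcell (hseg y hy), ?_⟩
      rw [mem_ball, dist_eq_norm]
      have := sq_dist (hseg y hy) hq1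
      linarith
    · by_cases hyG : y ∈ Pg s F
      · refine Or.inl ⟨hyG, ?_⟩
        rw [mem_ball, dist_eq_norm]
        have := sq_dist (p5 ⟨hy, hyG⟩) hq1
        linarith
      · rcases p2 hy with h | h
        · exact Or.inr ⟨h, fun hi => hyG (interior_subset hi)⟩
        · exact absurd h hyG
  · rintro y (hy | hy)
    · refine closedBall_subset_closedBall ?_ (hT.bd (hcell (hseg y hy)))
      have := hT.ok.Lpos
      linarith
    · exact p3 hy
  · intro κ hκ y hy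
    have k1 : κ ≤ κ4 := hκ.trans ((min_le_left _ _).trans (min_le_left _ _))
    have k2 : κ ≤ κ0 := hκ.trans ((min_le_left _ _).trans (min_le_right _ _))
    have k3 : κ ≤ e1 / 2 := hκ.trans (min_le_right _ _)
    refine disjoint_left.2 fun w hw hwo => ?_
    rw [mem_ball] at hw
    rcases hy with hy | hy
    · rcases mem_out_sw.1 hwo with h | ⟨i, hi, h1, h2⟩
      · exact Pg_not_out hT (hκ4b y hy (by rw [mem_ball]; linarith)) h
      · have := hcf y (hseg y hy) i hi w h2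
        rw [dist_eq_norm] at hw
        linarith
    · rcases mem_out_sw.1 hwo with h | ⟨i, hi, h1, h2⟩
      · exact disjoint_left.1 (p8 y hy) (by rw [mem_ball]; linarith) h
      · rcases p2 hy with h3 | h3
        · obtain ⟨z, hz, h4, h5⟩ := hT.mth k y h3 w h1 (by rw [dist_comm]; linarith)
          have h6 := mark_far hA hP h0 hi hz h2
          rw [dist_eq_norm] at h5
          linarith
        · have := hcf y (p5 ⟨hy, h3⟩) i hi w h2
          rw [dist_eq_norm] at hw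
          linarith

/-! ### orientation -/

theorem Ars.rv (hA : Ars D A AA m T e e1 ρ) (b : Bool) :
    Ars D (rvA b A) (rvA b AA) (rvm b m) (rvT b T) e e1 ρ := by
  cases b with
  | false => exact hA
  | true =>
    have hinj : ∀ i j : ZMod 4, j ≠ i → 1 - j ≠ 1 - i := fun i j h h' => h (by
      have := congrArg (fun t => 1 - t) h'
      simpa using this)
    refine ⟨hA.e1pos, hA.rpos, hA.e1e, hA.re, hA.Dop, hA.Dbd, ?_, fun i => hA.Acon _,
      fun i => hA.Anon _, fun i hi j hj => hA.sep _ hi _ (hinj i j hj), fun i hi => hA.TT _ hi,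
      fun i => hA.nr _, fun k z h1 h2 => ?_, fun i hi => hA.ext _ hi, fun i hi p hp => ?_⟩
    · rw [hA.fr]
      ext z
      simp only [mem_iUnion, rvA, if_true]
      constructor
      · rintro ⟨i, hi⟩
        exact ⟨1 - i, by simpa using hi⟩
      · rintro ⟨i, hi⟩
        exact ⟨1 - i, hi⟩
    · have e1 : (2 : ZMod 4) - k - 1 = 1 - k := by ring
      have e2 : (1 : ZMod 4) - (k - 1) = 2 - k := by ring
      have h1' : Nr ρ (AA (1 - k)) z := h1
      have h2' : Nr ρ (AA (1 - (k - 1))) z := h2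
      rw [e2] at h2'
      exact hA.mrk (2 - k) z h2' (by rw [e1]; exact h1')
    · obtain ⟨p', hp', w, h1, h2, h3, h4⟩ := hA.net (1 - i) hi p hp
      exact ⟨p', hp', w, h1, h2, h3, fun y hy j hj x hx => h4 y hy (1 - j) (hinj i j hj) x hx⟩

end Crest.Agent.R143.Swl2x922
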