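import Crest.Agent.R143.Osc_63
import Crest.Agent.R143.DelR_806

/-!
# Row 143 (S0194): the walk lemma and the convex hull principle T5 (helper802)

* `conv_left` : the polygon of a vertex with (E3) lies to the left of each of its edges
* `Wk T W f` : abstract form: values `f` at the edges, the polygons of the vertices of `W` are
  convex, the triangles at the vertices of `W` are equilateral tiles (or degenerate)
* `Wk.exit` : over a generic abscissa `s`, the highest crossing of the upper side of a polygon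
  of `W` leads out of `W`
* `Wk.low` : maximum principle; `Wk.hull` : convex hull principle (T5)
* `Wk.shadow` : if every way out over `s` is on the base line or through a tile of `G`, the
  horizontal oscillation of `f` is at most the total width of the tiles of `G`
-/

set_option autoImplicit false

noncomputable section

open scoped Classical

namespace Crest.Agent.R143.Wlkx802

open Crest.Agent.R143.B0x346 Crest.Agent.R143.Oscx63
open Crest.Agent.R143.DelRx806 (mod_per)

/-! ### the polygon of a vertex -/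

theorem cr_zero_right (x : ℂ) : cr x 0 = 0 := by unfold cr; simp

theorem cr_self (x : ℂ) : cr x x = 0 := by unfold cr; ring

theorem cr_add_right (x y z : ℂ) : cr x (y + z) = cr x y + cr x z := by
  unfold cr; simp only [Complex.add_re, Complex.add_im]; ring

theorem cr_sum_right (x : ℂ) (g : ℕ → ℂ) (n : ℕ) :
    cr x (∑ k ∈ Finset.range n, g k) = ∑ k ∈ Finset.range n, cr x (g k) := by
  induction n with
  | zero => simp [cr_zero_right]
  | succ n ih => rw [Finset.sum_range_succ, Finset.sum_range_succ, cr_add_right, ih]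

theorem cr_exp (r r' α β : ℝ) :
    cr ((r : ℂ) * Complex.exp ((α : ℂ) * Complex.I)) ((r' : ℂ) * Complex.exp ((β : ℂ) * Complex.I)) =
      r * r' * Real.sin (β - α) := by
  unfold cr
  rw [Real.sin_sub]
  simp only [Complex.re_ofReal_mul, Complex.im_ofReal_mul, Complex.exp_ofReal_mul_I_re,
    Complex.exp_ofReal_mul_I_im]
  ring

/-- the polygon of a vertex with (E3) lies to the left of each of its edges -/
theorem conv_left {V : Type} {N : Net V} {v : V} {d : ℕ} {u : ℤ → V} (hd : 0 < d)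
    (hper : ∀ i, u (i + d) = u i) (h : N.Conv v d u) (i j : ℤ) :
    0 ≤ cr (N.F v (u (i + 1)) - N.F v (u i)) (N.F v (u j) - N.F v (u i)) := by
  obtain ⟨al, hal, hal2, hr⟩ := h
  choose r hr0 hr using hr
  -- reduction to `j = i + m`, `m < d`
  have hdz : (0 : ℤ) < d := by exact_mod_cast hd
  obtain ⟨m, hm, hj⟩ : ∃ m : ℕ, m < d ∧ u j = u (i + m) := by
    refine ⟨((j - i) % d).toNat, ?_, ?_⟩
    · have h1 := Int.emod_lt_of_pos (j - i) hdz
      have h2 := Int.emod_nonneg (j - i) hdz.ne'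
      omega
    · have h1 := mod_per hd (w := fun k => u (i + k))
        (fun k => by show u (i + (k + d)) = u (i + k); rw [← add_assoc, hper]) (j - i)
      rw [Int.toNat_of_nonneg (Int.emod_nonneg (j - i) hdz.ne'), h1]
      congr 1; ring
  rw [hj]
  set q : ℤ → ℂ := fun k => N.F v (u k) with hq
  change 0 ≤ cr (q (i + 1) - q i) (q (i + m) - q i)
  set s : ℕ → ℝ := fun k => cr (q (i + 1) - q i) (q (i + k + 1) - q (i + k)) with hs
  have hsum : ∀ n : ℕ, cr (q (i + 1) - q i) (q (i + n) - q i) = ∑ k ∈ Finset.range n, s k := by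
    intro n
    rw [hs, ← cr_sum_right]
    congr 1
    induction n with
    | zero => simp
    | succ n ih =>
      rw [Finset.sum_range_succ, ← ih]
      push_cast
      rw [← add_assoc]
      ring
  have hsv : ∀ k : ℕ, s k = r i * r (i + k) * Real.sin (al (i + k) - al i) := by
    intro k
    rw [hs]
    simp only [hq]
    rw [hr i, hr (i + k), cr_exp]
  have hmono : ∀ k l : ℕ, k ≤ l → al (i + k) ≤ al (i + l) := by
    intro k l hkl
    induction l, hkl using Nat.le_induction with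
    | base => exact le_rfl
    | succ l _ ih =>
      refine ih.trans ?_
      have := (hal (i + l)).1
      push_cast
      rwa [← add_assoc]
  have h0 : ∀ k : ℕ, al i ≤ al (i + k) := by
    intro k
    have := hmono 0 k (Nat.zero_le k)
    simpa using this
  have hd2 : ∀ k : ℕ, k ≤ d → al (i + k) ≤ al i + 2 * Real.pi := by
    intro k hk
    rw [← hal2 i]
    exact hmono k d hk
  rw [hsum]
  rcases le_or_gt (al (i + m) - al i) Real.pi with hle | hgt
  · refine Finset.sum_nonneg fun k hk => ?_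
    rw [hsv]
    have hkm := (Finset.mem_range.1 hk).le
    refine mul_nonneg (mul_nonneg (hr0 _) (hr0 _)) (Real.sin_nonneg_of_nonneg_of_le_pi ?_ ?_)
    · linarith [h0 k]
    · linarith [hmono k m hkm]
  · have htot : ∑ k ∈ Finset.range d, s k = 0 := by
      rw [← hsum d]
      have : q (i + d) = q i := by simp only [hq]; rw [hper]
      rw [this, sub_self, cr_zero_right]
    have hsplit := Finset.sum_range_add_sum_Ico s hm.le
    rw [htot] at hsplit
    have hneg : ∑ k ∈ Finset.Ico m d, s k ≤ 0 := by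
      refine Finset.sum_nonpos fun k hk => ?_
      obtain ⟨hk1, hk2⟩ := Finset.mem_Ico.1 hk
      rw [hsv]
      refine mul_nonpos_of_nonneg_of_nonpos (mul_nonneg (hr0 _) (hr0 _)) ?_
      have e1 := hmono m k hk1
      have e2 := hd2 k hk2.le
      have e3 : Real.sin (al (i + k) - al i) = - Real.sin (al (i + k) - al i - Real.pi) := by
        rw [Real.sin_sub_pi]; ring
      rw [e3]
      have := Real.sin_nonneg_of_nonneg_of_le_pi (x := al (i + k) - al i - Real.pi)
        (by linarith) (by linarith)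
      linarith
    linarith

/-! ### heights -/

/-- height at the abscissa `s` of the line through `x` and `y` -/
def ht (s : ℝ) (x y : ℂ) : ℝ := (x.im * (s - y.re) + y.im * (x.re - s)) / (x.re - y.re)

theorem ht_comm (s : ℝ) (x y : ℂ) : ht s x y = ht s y x := by
  unfold ht
  rw [← neg_div_neg_eq]
  congr 1 <;> ring

theorem ht_le {s H : ℝ} {x y : ℂ} (h1 : y.re < s) (h2 : s < x.re) (hx : x.im ≤ H)
    (hy : y.im ≤ H) : ht s x y ≤ H := by
  unfold ht
  rw [div_le_iff₀ (by linarith)]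
  nlinarith

theorem le_ht {s H : ℝ} {x y : ℂ} (h1 : y.re < s) (h2 : s < x.re) (hx : H ≤ x.im)
    (hy : H ≤ y.im) : H ≤ ht s x y := by
  unfold ht
  rw [le_div_iff₀ (by linarith)]
  nlinarith

theorem ht_id {s : ℝ} {p q x y : ℂ} :
    (s - y.re) * cr (q - p) (x - p) + (x.re - s) * cr (q - p) (y - p) =
      (q.re - p.re) * (x.im * (s - y.re) + y.im * (x.re - s)) -
        (x.re - y.re) * (q.im * (s - p.re) + p.im * (q.re - s)) := by
  unfold cr
  simp only [Complex.sub_re, Complex.sub_im]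
  ring

theorem ht_mono {s : ℝ} {p q x y : ℂ} (h1 : p.re < s) (h2 : s < q.re) (h3 : y.re < s)
    (h4 : s < x.re) (hx : 0 ≤ cr (q - p) (x - p)) (hy : 0 ≤ cr (q - p) (y - p)) :
    ht s q p ≤ ht s x y := by
  have h := ht_id (s := s) (p := p) (q := q) (x := x) (y := y)
  have h5 : 0 ≤ (s - y.re) * cr (q - p) (x - p) + (x.re - s) * cr (q - p) (y - p) :=
    add_nonneg (mul_nonneg (by linarith) hx) (mul_nonneg (by linarith) hy)
  unfold ht
  rw [div_le_div_iff₀ (by linarith) (by linarith)]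
  nlinarith

theorem ht_lt {s : ℝ} {p q x y : ℂ} (h1 : p.re < s) (h2 : s < q.re) (h3 : y.re < s)
    (h4 : s < x.re) (h : 0 < (s - y.re) * cr (q - p) (x - p) + (x.re - s) * cr (q - p) (y - p)) :
    ht s q p < ht s x y := by
  have h' := ht_id (s := s) (p := p) (q := q) (x := x) (y := y)
  unfold ht
  rw [div_lt_div_iff₀ (by linarith) (by linarith)]
  nlinarith

/-- the height is affine: if it is at most `H` on an open interval, then also at the ends -/
theorem ht_closure {x y : ℂ} {H α β : ℝ} (hαβ : α < β)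
    (h : ∀ s, α < s → s < β → ht s x y ≤ H) {c : ℝ} (hc : c = α ∨ c = β) : ht c x y ≤ H := by
  have hcont : Continuous fun s => ht s x y := by
    unfold ht
    fun_prop
  have hmem : c ∈ closure (Set.Ioo α β) := by
    rw [closure_Ioo hαβ.ne]
    rcases hc with rfl | rfl
    · exact ⟨le_rfl, hαβ.le⟩
    · exact ⟨hαβ.le, le_rfl⟩
  exact closure_minimal (fun s hs => h s hs.1 hs.2) (isClosed_le hcont continuous_const) hmem

theorem om_im : om.im = Real.sqrt 3 / 2 := by
  rw [om, Complex.exp_ofReal_mul_I_im]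
  rw [show (2 * Real.pi / 3 : ℝ) = Real.pi - Real.pi / 3 by ring, Real.sin_pi_sub,
    Real.sin_pi_div_three]

theorem om_sq : om ^ 2 = ⟨-1 / 2, -(Real.sqrt 3 / 2)⟩ := by
  have h3 : Real.sqrt 3 * Real.sqrt 3 = 3 := Real.mul_self_sqrt (by norm_num)
  apply Complex.ext
  · rw [sq, Complex.mul_re, om_re, om_im]
    simp only
    nlinarith
  · rw [sq, Complex.mul_im, om_re, om_im]
    simp only
    ring

/-- orientation of a tile -/
theorem cr_tile (g q : ℂ) :
    cr ((g + q) - (g + om ^ 2 * q)) ((g + om * q) - (g + om ^ 2 * q)) =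
      3 * Real.sqrt 3 / 2 * Complex.normSq q := by
  have h3 : Real.sqrt 3 * Real.sqrt 3 = 3 := Real.mul_self_sqrt (by norm_num)
  rw [Complex.normSq_apply]
  unfold cr
  simp only [Complex.sub_re, Complex.sub_im, Complex.add_re, Complex.add_im, Complex.mul_re,
    Complex.mul_im, om_sq, om_re, om_im]
  ring

/-! ### the abstract walk -/

variable {V : Type}

/-- values `f` at the edges of the triangles `T`; `W` = vertices with a complete ring -/
structure Wk (T : Finset (V × V × V)) (W : Finset V) (f : V → V → ℂ) : Prop where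
  rot : ∀ a b c, (a, b, c) ∈ T → (b, c, a) ∈ T
  comm : ∀ a b, f a b = f b a
  ring : ∀ v ∈ W, ∃ (d : ℕ) (u : ℤ → V), 0 < d ∧ (∀ i, u (i + d) = u i) ∧
    (∀ i, (v, u i, u (i + 1)) ∈ T) ∧ ∀ a b, (v, a, b) ∈ T → ∃ i, u i = a ∧ u (i + 1) = b
  left : ∀ v ∈ W, ∀ a b x y, (v, a, b) ∈ T → (v, x, y) ∈ T →
    0 ≤ cr (f v b - f v a) (f v x - f v a)
  tile : ∀ v ∈ W, ∀ a b, (v, a, b) ∈ T → f v a = f v b ∨
    ∃ g q, f v a = g + q ∧ f a b = g + om * q ∧ f v b = g + om ^ 2 * q

variable {T : Finset (V × V × V)} {W : Finset V} {f : V → V → ℂ}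

/-- the abscissa `s` is not the abscissa of a value -/
def Gen (T : Finset (V × V × V)) (f : V → V → ℂ) (s : ℝ) : Prop :=
  ∀ a b c, (a, b, c) ∈ T → (f a b).re ≠ s

/-- the upper side of the polygon of `v` over `s` -/
def St (T : Finset (V × V × V)) (W : Finset V) (f : V → V → ℂ) (s : ℝ) (v a b : V) : Prop :=
  (v, a, b) ∈ T ∧ v ∈ W ∧ (f v b).re < s ∧ s < (f v a).re

theorem Wk.next (H : Wk T W f) {v a b : V} (hv : v ∈ W) (h : (v, a, b) ∈ T) :
    ∃ c, (v, b, c) ∈ T := by
  obtain ⟨d, u, hd, hper, hmem, hall⟩ := H.ring v hv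
  obtain ⟨i, rfl, rfl⟩ := hall a b h
  exact ⟨_, hmem (i + 1)⟩

theorem Wk.prev (H : Wk T W f) {v a b : V} (hv : v ∈ W) (h : (v, a, b) ∈ T) :
    ∃ c, (v, c, a) ∈ T := by
  obtain ⟨d, u, hd, hper, hmem, hall⟩ := H.ring v hv
  obtain ⟨i, rfl, rfl⟩ := hall a b h
  refine ⟨u (i - 1), ?_⟩
  have := hmem (i - 1)
  rwa [sub_add_cancel] at this

/-- a convex polygon with points on both sides of `s` has an upper side over `s` -/
theorem Wk.top (H : Wk T W f) {v : V} (hv : v ∈ W) {s : ℝ} (hs : Gen T f s)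
    {x0 y0 x1 y1 : V} (h0 : (v, x0, y0) ∈ T) (h1 : (v, x1, y1) ∈ T) (hx0 : (f v x0).re < s)
    (hx1 : s < (f v x1).re) : ∃ a b, St T W f s v a b := by
  obtain ⟨d, u, hd, hper, hmem, hall⟩ := H.ring v hv
  obtain ⟨i0, rfl, -⟩ := hall _ _ h0
  obtain ⟨i1, rfl, -⟩ := hall _ _ h1
  by_contra hcon
  push Not at hcon
  have hstep : ∀ k : ℤ, s < (f v (u k)).re → s < (f v (u (k + 1))).re := by
    intro k hk
    by_contra h
    have h2 : (f v (u (k + 1))).re < s :=
      lt_of_le_of_ne (not_lt.1 h) (hs v (u (k + 1)) (u (k + 1 + 1)) (hmem (k + 1)))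
    exact hcon _ _ ⟨hmem k, hv, h2, hk⟩
  have hall' : ∀ n : ℕ, s < (f v (u (i1 + n))).re := by
    intro n
    induction n with
    | zero => simpa using hx1
    | succ n ih =>
      have := hstep _ ih
      push_cast
      rwa [← add_assoc]
  have hdz : (0 : ℤ) < d := by exact_mod_cast hd
  have h2 := hall' ((i0 - i1) % d).toNat
  have h3 := mod_per hd (w := fun k => u (i1 + k))
    (fun k => by show u (i1 + (k + d)) = u (i1 + k); rw [← add_assoc, hper]) (i0 - i1)
  rw [Int.toNat_of_nonneg (Int.emod_nonneg (i0 - i1) hdz.ne'), h3] at h2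
  rw [show i1 + (i0 - i1) = i0 by ring] at h2
  linarith

/-- **the walk lemma**: the highest crossing over `s` leads out of `W` -/
theorem Wk.exit (H : Wk T W f) {s : ℝ} (hs : Gen T f s) {v0 a0 b0 : V}
    (h0 : St T W f s v0 a0 b0) :
    ∃ v a b, St T W f s v a b ∧ ht s (f v0 a0) (f v0 b0) ≤ ht s (f v a) (f v b) ∧
      ((b ∉ W ∧ s < (f a b).re ∧ ht s (f v a) (f v b) < ht s (f a b) (f v b)) ∨
       (a ∉ W ∧ (f a b).re < s ∧ ht s (f v a) (f v b) < ht s (f v a) (f a b))) := by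
  set A : Finset (V × V × V) := T.filter fun t => St T W f s t.1 t.2.1 t.2.2 with hA
  have hne : A.Nonempty := ⟨(v0, a0, b0), Finset.mem_filter.2 ⟨h0.1, h0⟩⟩
  obtain ⟨⟨v, a, b⟩, hmem, hmax⟩ := Finset.exists_max_image A
    (fun t => ht s (f t.1 t.2.1) (f t.1 t.2.2)) hne
  have hst : St T W f s v a b := (Finset.mem_filter.1 hmem).2
  have hmax' : ∀ v' a' b', St T W f s v' a' b' →
      ht s (f v' a') (f v' b') ≤ ht s (f v a) (f v b) := fun v' a' b' h =>
    hmax (v', a', b') (Finset.mem_filter.2 ⟨h.1, h⟩)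
  refine ⟨v, a, b, hst, hmax' _ _ _ h0, ?_⟩
  obtain ⟨hT, hv, hb, ha⟩ := hst
  have hT2 := H.rot _ _ _ hT
  have hT3 := H.rot _ _ _ hT2
  rcases H.tile v hv a b hT with he | ⟨g, q, e1, e2, e3⟩
  · rw [he] at ha; linarith
  have hq : q ≠ 0 := by
    rintro rfl
    rw [e1] at ha; rw [e3] at hb
    simp at ha hb
    linarith
  have hcr : 0 < cr (f v a - f v b) (f a b - f v b) := by
    rw [e1, e2, e3, cr_tile]
    have := Complex.normSq_pos.2 hq
    positivity
  have hgen : (f a b).re ≠ s := hs a b v hT2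
  rcases lt_or_gt_of_ne hgen with hlt | hgt
  · -- exit through the side `(v,a), (a,b)`: vertex `a`
    right
    have hup : ht s (f v a) (f v b) < ht s (f v a) (f a b) := by
      refine ht_lt hb ha hlt ha ?_
      rw [cr_self]
      nlinarith
    refine ⟨fun haW => ?_, hlt, hup⟩
    obtain ⟨c, hc⟩ := H.next haW hT2
    have hav : f a v = f v a := H.comm a v
    obtain ⟨a', b', hst'⟩ := H.top haW hs hT2 hc hlt (by rw [hav]; exact ha)
    obtain ⟨c', hc'⟩ := H.next haW hst'.1
    have l1 := H.left a haW b v a' b' hT2 hst'.1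
    have l2 := H.left a haW b v b' c' hT2 hc'
    have h5 := ht_mono hlt (by rw [hav]; exact ha) hst'.2.2.1 hst'.2.2.2 l1 l2
    rw [hav] at h5
    have h6 := hmax' a a' b' hst'
    linarith
  · left
    have hup : ht s (f v a) (f v b) < ht s (f a b) (f v b) := by
      refine ht_lt hb ha hb hgt ?_
      rw [sub_self, cr_zero_right]
      have : 0 < s - (f v b).re := by linarith
      nlinarith
    refine ⟨fun hbW => ?_, hgt, hup⟩
    obtain ⟨c, hc⟩ := H.next hbW hT3
    have hbv : f b v = f v b := H.comm b v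
    have hba : f b a = f a b := H.comm b a
    obtain ⟨a', b', hst'⟩ := H.top hbW hs hT3 hc (by rw [hbv]; exact hb) (by rw [hba]; exact hgt)
    obtain ⟨c', hc'⟩ := H.next hbW hst'.1
    have l1 := H.left b hbW v a a' b' hT3 hst'.1
    have l2 := H.left b hbW v a b' c' hT3 hc'
    have h5 := ht_mono (by rw [hbv]; exact hb) (by rw [hba]; exact hgt) hst'.2.2.1 hst'.2.2.2 l1 l2
    rw [hbv, hba] at h5
    have h6 := hmax' b a' b' hst'
    linarith

/-! ### maximum principle -/

/-- over a generic abscissa the polygons of `W` are not higher than the edges leaving `W` -/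
theorem Wk.st_le (H : Wk T W f) {s M : ℝ} (hs : Gen T f s)
    (hM : ∀ v ∈ W, ∀ a b, (v, a, b) ∈ T →
      (a ∉ W → (f v a).im ≤ M) ∧ (b ∉ W → (f v b).im ≤ M)) {v0 a0 b0 : V}
    (h0 : St T W f s v0 a0 b0) : ht s (f v0 a0) (f v0 b0) ≤ M := by
  obtain ⟨v, a, b, ⟨hT, hv, hb, ha⟩, hle, hex⟩ := H.exit hs h0
  by_contra hcon
  push Not at hcon
  have hT2 := H.rot _ _ _ hT
  have hT3 := H.rot _ _ _ hT2
  obtain ⟨m1, m2⟩ := hM v hv a b hT
  rcases hex with ⟨hbW, hgt, hlt⟩ | ⟨haW, hgt, hlt⟩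
  · by_cases haW : a ∈ W
    · have h1 := (hM a haW b v hT2).1 hbW
      have h2 := ht_le (H := M) hb hgt h1 (m2 hbW)
      linarith
    · have h2 := ht_le (H := M) hb ha (m1 haW) (m2 hbW)
      linarith
  · by_cases hbW : b ∈ W
    · have h1 := (hM b hbW v a hT3).2 haW
      rw [H.comm b a] at h1
      have h2 := ht_le (H := M) hgt ha (m1 haW) h1
      linarith
    · have h2 := ht_le (H := M) hb ha (m1 haW) (m2 hbW)
      linarith

/-- an open interval without abscissas next to a given one, on the side of a given point -/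
theorem exists_gap (A : Finset ℝ) {c x : ℝ} (h : c ≠ x) :
    ∃ α β, α < β ∧ (c = α ∨ c = β) ∧ (∀ y ∈ A, ¬ (α < y ∧ y < β)) ∧
      ((c = α ∧ β ≤ x) ∨ (c = β ∧ x ≤ α)) := by
  rcases lt_or_gt_of_ne h with h1 | h1
  · -- to the right
    have hne : (insert x (A.filter fun y => c < y)).Nonempty := Finset.insert_nonempty _ _
    refine ⟨c, (insert x (A.filter fun y => c < y)).min' hne, ?_, Or.inl rfl, ?_, Or.inl ⟨rfl, ?_⟩⟩
    · rw [Finset.lt_min'_iff]
      intro y hy
      rcases Finset.mem_insert.1 hy with rfl | hy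
      · exact h1
      · exact (Finset.mem_filter.1 hy).2
    · rintro y hy ⟨h2, h3⟩
      exact absurd (Finset.min'_le _ y (Finset.mem_insert_of_mem (Finset.mem_filter.2 ⟨hy, h2⟩)))
        (not_le.2 h3)
    · exact Finset.min'_le _ x (Finset.mem_insert_self _ _)
  · have hne : (insert x (A.filter fun y => y < c)).Nonempty := Finset.insert_nonempty _ _
    refine ⟨(insert x (A.filter fun y => y < c)).max' hne, c, ?_, Or.inr rfl, ?_, Or.inr ⟨rfl, ?_⟩⟩
    · rw [Finset.max'_lt_iff]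
      intro y hy
      rcases Finset.mem_insert.1 hy with rfl | hy
      · exact h1
      · exact (Finset.mem_filter.1 hy).2
    · rintro y hy ⟨h2, h3⟩
      exact absurd (Finset.le_max' _ y (Finset.mem_insert_of_mem (Finset.mem_filter.2 ⟨hy, h3⟩)))
        (not_le.2 h2)
    · exact Finset.le_max' _ x (Finset.mem_insert_self _ _)

/-- a non vertical polygon is below `M` -/
theorem Wk.low_wide (H : Wk T W f) {M : ℝ}
    (hM : ∀ v ∈ W, ∀ a b, (v, a, b) ∈ T →
      (a ∉ W → (f v a).im ≤ M) ∧ (b ∉ W → (f v b).im ≤ M)) {v : V} (hv : v ∈ W)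
    {x y x' y' : V} (hx : (v, x, y) ∈ T) (hx' : (v, x', y') ∈ T)
    (hne : (f v x).re ≠ (f v x').re) : (f v x).im ≤ M := by
  obtain ⟨α, β, hαβ, hc, hA, hside⟩ := exists_gap (T.image fun t => (f t.1 t.2.1).re) hne
  have hgen : ∀ s, α < s → s < β → Gen T f s := by
    intro s h1 h2 a b c habc he
    exact hA _ (Finset.mem_image_of_mem _ habc) ⟨by simpa [he] using h1, by simpa [he] using h2⟩
  set s0 := (α + β) / 2 with hs0
  have hs1 : α < s0 := by rw [hs0]; linarith
  have hs2 : s0 < β := by rw [hs0]; linarith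
  obtain ⟨a, b, hT, hv, hb, ha⟩ : ∃ a b, St T W f s0 v a b := by
    rcases hside with ⟨h1, h2⟩ | ⟨h1, h2⟩
    · exact H.top hv (hgen s0 hs1 hs2) hx hx' (by rw [h1]; exact hs1) (lt_of_lt_of_le hs2 h2)
    · exact H.top hv (hgen s0 hs1 hs2) hx' hx (lt_of_le_of_lt h2 hs1) (by rw [h1]; exact hs2)
  obtain ⟨c, hbc⟩ := H.next hv hT
  -- the side `a b` covers the whole interval
  have hba : (f v b).re ≤ α := by
    by_contra h
    push Not at h
    exact hA _ (Finset.mem_image_of_mem (fun t : V × V × V => (f t.1 t.2.1).re) hbc)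
      ⟨h, lt_trans hb hs2⟩
  have hab : β ≤ (f v a).re := by
    by_contra h
    push Not at h
    exact hA _ (Finset.mem_image_of_mem (fun t : V × V × V => (f t.1 t.2.1).re) hT)
      ⟨lt_trans hs1 ha, h⟩
  have hle : ht (f v x).re (f v a) (f v b) ≤ M := by
    refine ht_closure hαβ (fun s h1 h2 => ?_) hc
    exact H.st_le (hgen s h1 h2) hM ⟨hT, hv, lt_of_le_of_lt hba h1, lt_of_lt_of_le h2 hab⟩
  have hl := H.left v hv a b x y hT hx
  have hpos : 0 < (f v a).re - (f v b).re := by linarith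
  refine le_trans ?_ hle
  unfold ht
  rw [le_div_iff₀ hpos]
  unfold cr at hl
  simp only [Complex.sub_re, Complex.sub_im] at hl
  nlinarith

/-- **maximum principle** (generic direction) -/
theorem Wk.low (H : Wk T W f) {M : ℝ}
    (hM : ∀ v ∈ W, ∀ a b, (v, a, b) ∈ T →
      (a ∉ W → (f v a).im ≤ M) ∧ (b ∉ W → (f v b).im ≤ M))
    (hdir : ∀ v ∈ W, ∀ a b x y, (v, a, b) ∈ T → (v, x, y) ∈ T → (f v a).re = (f v x).re →
      f v a = f v x)
    (hout : ∀ A ⊆ W, A.Nonempty → ∃ v ∈ A, ∃ a b, (v, a, b) ∈ T ∧ a ∉ A)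
    {v a b : V} (hv : v ∈ W) (h : (v, a, b) ∈ T) : (f v a).im ≤ M := by
  set A : Finset V := W.filter fun v => ∃ a b, (v, a, b) ∈ T ∧ M < (f v a).im with hA
  by_contra hcon
  push Not at hcon
  obtain ⟨v1, hv1, a1, b1, h1, ha1⟩ := hout A (Finset.filter_subset _ _)
    ⟨v, Finset.mem_filter.2 ⟨hv, a, b, h, hcon⟩⟩
  obtain ⟨hv1W, x, y, hxy, hx⟩ := Finset.mem_filter.1 hv1
  -- the polygon of `v1` is a point
  have hpt : f v1 x = f v1 a1 := by
    refine hdir v1 hv1W x y a1 b1 hxy h1 ?_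
    by_contra hne
    have := H.low_wide hM hv1W hxy h1 hne
    linarith
  rw [hpt] at hx
  by_cases ha : a1 ∈ W
  · apply ha1
    obtain ⟨c, hc⟩ := H.prev hv1W h1
    refine Finset.mem_filter.2 ⟨ha, v1, c, H.rot _ _ _ (H.rot _ _ _ hc), ?_⟩
    rw [H.comm]; exact hx
  · have := (hM v1 hv1W a1 b1 h1).1 ha
    linarith

/-! ### rotations -/

theorem cr_mul (e x y : ℂ) : cr (e * x) (e * y) = Complex.normSq e * cr x y := by
  rw [Complex.normSq_apply]
  unfold cr
  simp only [Complex.mul_re, Complex.mul_im]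
  ring

theorem Wk.smul (H : Wk T W f) (e : ℂ) : Wk T W fun a b => e * f a b where
  rot := H.rot
  comm a b := by rw [H.comm]
  ring := H.ring
  left v hv a b x y h h' := by
    rw [← mul_sub, ← mul_sub, cr_mul]
    exact mul_nonneg (Complex.normSq_nonneg _) (H.left v hv a b x y h h')
  tile v hv a b h := by
    rcases H.tile v hv a b h with h1 | ⟨g, q, h1, h2, h3⟩
    · left; rw [h1]
    · right
      refine ⟨e * g, e * q, ?_, ?_, ?_⟩
      · rw [h1]; ring
      · rw [h2]; ring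
      · rw [h3]; ring

/-- separation of a point from a finite set by a linear form, in a direction which separates
finitely many pairs of points -/
theorem exists_dir (B : Finset ℂ) (z : ℂ) (hz : z ∉ convexHull ℝ (B : Set ℂ)) (P : Finset ℂ)
    (hP : ∀ w ∈ P, w ≠ 0) :
    ∃ e : ℂ, (∀ b ∈ B, (e * b).im < (e * z).im) ∧ ∀ w ∈ P, (e * w).re ≠ 0 := by
  obtain ⟨φ, r, h1, h2⟩ := geometric_hahn_banach_closed_point (convex_convexHull ℝ (B : Set ℂ))
    (B.finite_toSet.isClosed_convexHull ℝ) hz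
  -- `φ w = (e0 w).im`
  set e0 : ℂ := ⟨φ Complex.I, φ 1⟩ with he0
  have hφ : ∀ w : ℂ, φ w = (e0 * w).im := by
    intro w
    have hw : w = w.re • (1 : ℂ) + w.im • Complex.I := by
      apply Complex.ext <;> simp
    conv_lhs => rw [hw]
    rw [map_add, map_smul, map_smul, he0, Complex.mul_im]
    simp only [smul_eq_mul]
    ring
  have hB0 : ∀ b ∈ B, (e0 * b).im < (e0 * z).im := by
    intro b hb
    rw [← hφ, ← hφ]
    exact (h1 b (subset_convexHull ℝ _ hb)).trans h2
  -- `e t = e0 (1 + t I)`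
  set E : ℝ → ℂ := fun t => e0 * (1 + t * Complex.I) with hE
  have hcont : Continuous E := by rw [hE]; fun_prop
  have hopen : ∀ᶠ t in nhds (0 : ℝ), ∀ b ∈ B, (E t * b).im < (E t * z).im := by
    rw [Filter.eventually_all_finset]
    intro b hb
    have hc : Continuous fun t => (E t * z).im - (E t * b).im := by fun_prop
    have h0 : 0 < (E 0 * z).im - (E 0 * b).im := by
      rw [hE]
      simp only [Complex.ofReal_zero, zero_mul, add_zero, mul_one]
      have := hB0 b hb
      linarith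
    filter_upwards [hc.continuousAt.eventually (lt_mem_nhds h0)] with t ht
    linarith
  have hbad : ∀ w ∈ P, e0 ≠ 0 → {t : ℝ | (E t * w).re = 0}.Finite := by
    intro w hw he
    have hne : e0 * w ≠ 0 := mul_ne_zero he (hP w hw)
    have hval : ∀ t : ℝ, (E t * w).re = (e0 * w).re - t * (e0 * w).im := by
      intro t
      rw [hE]
      simp only [Complex.mul_re, Complex.mul_im, Complex.add_re, Complex.add_im, Complex.one_re,
        Complex.one_im, Complex.ofReal_re, Complex.ofReal_im, Complex.I_re, Complex.I_im]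
      ring
    refine Set.Subsingleton.finite ?_
    intro t ht t' ht'
    simp only [Set.mem_ofPred_eq, hval] at ht ht'
    by_contra hne'
    have h5 : (t - t') * (e0 * w).im = 0 := by linarith
    rcases mul_eq_zero.1 h5 with h6 | h6
    · exact hne' (by linarith)
    · apply hne
      apply Complex.ext
      · rw [h6] at ht; simp at ht ⊢; linarith
      · exact h6
  by_cases hBe : B.Nonempty
  · obtain ⟨b, hb⟩ := hBe
    have he : e0 ≠ 0 := by
      intro h0
      have := hB0 b hb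
      rw [h0] at this
      simp at this
    have hfin : (⋃ w ∈ P, {t : ℝ | (E t * w).re = 0}).Finite :=
      P.finite_toSet.biUnion fun w hw => hbad w hw he
    have hfr : ∃ᶠ t in nhds (0 : ℝ), t ∉ ⋃ w ∈ P, {t : ℝ | (E t * w).re = 0} := by
      have h3 : ((⋃ w ∈ P, {t : ℝ | (E t * w).re = 0}) \ {0})ᶜ ∈ nhds (0 : ℝ) :=
        (hfin.subset (fun x hx => hx.1)).isClosed.isOpen_compl.mem_nhds (fun h => h.2 rfl)
      have h1 : ∀ᶠ t in nhdsWithin (0 : ℝ) {0}ᶜ, t ∉ ⋃ w ∈ P, {t : ℝ | (E t * w).re = 0} := by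
        filter_upwards [mem_nhdsWithin_of_mem_nhds h3, self_mem_nhdsWithin] with t h1 h2 h3
        exact h1 ⟨h3, h2⟩
      exact h1.frequently.filter_mono nhdsWithin_le_nhds
    obtain ⟨t, ht1, ht2⟩ := (hfr.and_eventually hopen).exists
    refine ⟨E t, ht2, fun w hw h0 => ht1 ?_⟩
    exact Set.mem_biUnion hw h0
  · -- no point to separate from: any direction
    rw [Finset.not_nonempty_iff_eq_empty] at hBe
    subst hBe
    have hfin : (⋃ w ∈ P, {t : ℝ | ((1 + t * Complex.I) * w).re = 0}).Finite := by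
      refine P.finite_toSet.biUnion fun w hw => ?_
      have hw0 := hP w hw
      have hval : ∀ t : ℝ, ((1 + t * Complex.I) * w).re = w.re - t * w.im := by
        intro t
        simp only [Complex.mul_re, Complex.add_re, Complex.add_im, Complex.one_re, Complex.one_im,
          Complex.mul_im, Complex.ofReal_re, Complex.ofReal_im, Complex.I_re, Complex.I_im]
        ring
      refine Set.Subsingleton.finite ?_
      intro t ht t' ht'
      simp only [Set.mem_ofPred_eq, hval] at ht ht'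
      by_contra hne'
      have h5 : (t - t') * w.im = 0 := by linarith
      rcases mul_eq_zero.1 h5 with h6 | h6
      · exact hne' (by linarith)
      · apply hw0
        apply Complex.ext
        · rw [h6] at ht; simp at ht ⊢; linarith
        · exact h6
    obtain ⟨t, ht⟩ := hfin.exists_notMem
    refine ⟨1 + t * Complex.I, by simp, fun w hw h0 => ht ?_⟩
    exact Set.mem_biUnion hw h0

/-- **T5, convex hull principle** (abstract form) -/
theorem Wk.hull (H : Wk T W f)
    (hout : ∀ A ⊆ W, A.Nonempty → ∃ v ∈ A, ∃ a b, (v, a, b) ∈ T ∧ a ∉ A)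
    {v a b : V} (hv : v ∈ W) (h : (v, a, b) ∈ T) :
    f v a ∈ convexHull ℝ {z : ℂ | ∃ w ∈ W, ∃ x y, (w, x, y) ∈ T ∧ x ∉ W ∧ z = f w x} := by
  set B : Finset ℂ := (T.filter fun t => t.1 ∈ W ∧ t.2.1 ∉ W).image fun t => f t.1 t.2.1 with hB
  have hBe : {z : ℂ | ∃ w ∈ W, ∃ x y, (w, x, y) ∈ T ∧ x ∉ W ∧ z = f w x} = (B : Set ℂ) := by
    ext z
    simp only [Set.mem_ofPred_eq, hB, Finset.coe_image, Set.mem_image, Finset.coe_filter]
    constructor
    · rintro ⟨w, hw, x, y, h1, h2, rfl⟩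
      exact ⟨(w, x, y), ⟨h1, hw, h2⟩, rfl⟩
    · rintro ⟨⟨w, x, y⟩, ⟨h1, h2, h3⟩, rfl⟩
      exact ⟨w, h2, x, y, h1, h3, rfl⟩
  rw [hBe]
  by_contra hcon
  set P : Finset ℂ := ((T ×ˢ T).image fun p =>
    f p.1.1 p.1.2.1 - f p.2.1 p.2.2.1).filter fun w => w ≠ 0 with hP
  obtain ⟨e, he1, he2⟩ := exists_dir B (f v a) hcon P (fun w hw => (Finset.mem_filter.1 hw).2)
  -- the maximum of the boundary values
  obtain ⟨M, hM1, hM2⟩ : ∃ M, (∀ b ∈ B, (e * b).im ≤ M) ∧ M < (e * f v a).im := by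
    by_cases hne : B.Nonempty
    · obtain ⟨b, hb, hmax⟩ := Finset.exists_max_image B (fun b => (e * b).im) hne
      exact ⟨(e * b).im, hmax, he1 b hb⟩
    · rw [Finset.not_nonempty_iff_eq_empty] at hne
      rw [hne]
      exact ⟨(e * f v a).im - 1, by simp, by linarith⟩
  have hfin := (H.smul e).low (M := M) ?_ ?_ hout hv h
  · linarith
  · intro w hw x y hT
    constructor
    · intro hx
      apply hM1
      exact Finset.mem_image.2 ⟨(w, x, y), Finset.mem_filter.2 ⟨hT, hw, hx⟩, rfl⟩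
    · intro hy
      obtain ⟨c, hc⟩ := H.next hw hT
      apply hM1
      exact Finset.mem_image.2 ⟨(w, y, c), Finset.mem_filter.2 ⟨hc, hw, hy⟩, rfl⟩
  · intro w hw x y x' y' hT hT' hre
    by_contra hne
    have h0 : f w x - f w x' ≠ 0 := by
      intro h0
      apply hne
      rw [sub_eq_zero.1 h0]
    refine he2 (f w x - f w x') ?_ ?_
    · rw [hP, Finset.mem_filter]
      exact ⟨Finset.mem_image.2 ⟨((w, x, y), (w, x', y')), Finset.mk_mem_product hT hT', rfl⟩, h0⟩
    · rw [mul_sub, Complex.sub_re]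
      linarith


theorem Wk.affine (H : Wk T W f) (e c : ℂ) : Wk T W fun a b => e * f a b + c where
  rot := H.rot
  comm a b := by rw [H.comm]
  ring := H.ring
  left v hv a b x y h h' := by
    rw [add_sub_add_right_eq_sub, add_sub_add_right_eq_sub, ← mul_sub, ← mul_sub, cr_mul]
    exact mul_nonneg (Complex.normSq_nonneg _) (H.left v hv a b x y h h')
  tile v hv a b h := by
    rcases H.tile v hv a b h with h1 | ⟨g, q, h1, h2, h3⟩
    · left; rw [h1]
    · right
      refine ⟨e * g + c, e * q, ?_, ?_, ?_⟩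
      · rw [h1]; ring
      · rw [h2]; ring
      · rw [h3]; ring

/-! ### the shadow lemma -/

/-- a point of an interval outside finitely many closed intervals of smaller total length and
outside a finite set -/
theorem exists_outside {ι : Type} (G : Finset ι) (α β : ι → ℝ) (hαβ : ∀ t ∈ G, α t ≤ β t)
    (A : Finset ℝ) {c c' : ℝ} (h : ∑ t ∈ G, (β t - α t) < c' - c) :
    ∃ s, c < s ∧ s < c' ∧ s ∉ A ∧ ∀ t ∈ G, ¬ (α t ≤ s ∧ s ≤ β t) := by
  by_contra hcon
  push Not at hcon
  have hsub : Set.Ioo c c' ⊆ (A : Set ℝ) ∪ ⋃ t ∈ G, Set.Icc (α t) (β t) := by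
    rintro s ⟨h1, h2⟩
    by_cases hA : s ∈ A
    · exact Or.inl hA
    · obtain ⟨t, ht, h3, h4⟩ := hcon s h1 h2 hA
      exact Or.inr (Set.mem_biUnion ht ⟨h3, h4⟩)
  have h1 := MeasureTheory.measure_mono (μ := MeasureTheory.volume) hsub
  have h2 : MeasureTheory.volume ((A : Set ℝ) ∪ ⋃ t ∈ G, Set.Icc (α t) (β t)) ≤
      ENNReal.ofReal (∑ t ∈ G, (β t - α t)) := by
    refine (MeasureTheory.measure_union_le _ _).trans ?_
    rw [A.finite_toSet.measure_zero, zero_add]
    refine (MeasureTheory.measure_biUnion_finset_le _ _).trans ?_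
    rw [ENNReal.ofReal_sum_of_nonneg fun t ht => sub_nonneg.2 (hαβ t ht)]
    refine Finset.sum_le_sum fun t ht => ?_
    rw [Real.volume_Icc]
  rw [Real.volume_Ioo] at h1
  have h3 := h1.trans h2
  have h4 : 0 ≤ ∑ t ∈ G, (β t - α t) := Finset.sum_nonneg fun t ht => sub_nonneg.2 (hαβ t ht)
  rw [ENNReal.ofReal_le_ofReal_iff h4] at h3
  linarith

/-- one vertex: no state over `s`, one value on the left -/
theorem Wk.side_left (H : Wk T W f) {s : ℝ} (hs : Gen T f s)
    (hno : ∀ v a b, ¬ St T W f s v a b) {v a b : V} (hv : v ∈ W) (h : (v, a, b) ∈ T)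
    (ha : (f v a).re < s) {x y : V} (hx : (v, x, y) ∈ T) : (f v x).re < s := by
  by_contra hcon
  have h1 : s < (f v x).re := lt_of_le_of_ne (not_lt.1 hcon) (Ne.symm (hs v x y hx))
  obtain ⟨a', b', h2⟩ := H.top hv hs h hx ha h1
  exact hno _ _ _ h2

theorem Wk.side_conn (H : Wk T W f) {s : ℝ} (hs : Gen T f s)
    (hno : ∀ v a b, ¬ St T W f s v a b) {v v' : V} (hv : v ∈ W)
    (hc : Relation.ReflTransGen (fun v v' => v' ∈ W ∧ ∃ b, (v, v', b) ∈ T) v v')
    {a b : V} (h : (v, a, b) ∈ T) (ha : (f v a).re < s) :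
    v' ∈ W ∧ ∀ x y, (v', x, y) ∈ T → (f v' x).re < s := by
  induction hc with
  | refl => exact ⟨hv, fun x y hx => H.side_left hs hno hv h ha hx⟩
  | @tail w w' _ hstep ih =>
    obtain ⟨hw, hall⟩ := ih
    obtain ⟨hw', b', hb'⟩ := hstep
    obtain ⟨c, hc⟩ := H.prev hw hb'
    have h1 : (w', w, c) ∈ T := H.rot _ _ _ (H.rot _ _ _ hc)
    have h2 : (f w' w).re < s := by rw [H.comm]; exact hall _ _ hb'
    exact ⟨hw', fun x y hx => H.side_left hs hno hw' h1 h2 hx⟩

/-- **shadow lemma**: heights are nonnegative over `W`, every way out of `W` is at height zero or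
through a tile of `G`: then the horizontal oscillation is at most the width of the tiles of `G` -/
theorem Wk.shadow (H : Wk T W f) (G : Finset (V × V × V))
    (hpos : ∀ v ∈ W, ∀ a b, (v, a, b) ∈ T → 0 ≤ (f v a).im)
    (hex : ∀ v ∈ W, ∀ a b, (v, a, b) ∈ T → (v, a, b) ∉ G → f v a ≠ f v b → (a ∉ W ∨ b ∉ W) →
      (a ∉ W → (f v a).im ≤ 0) ∧ (b ∉ W → (f v b).im ≤ 0) ∧ (f a b).im ≤ 0)
    {v v' : V} (hv : v ∈ W)
    (hc : Relation.ReflTransGen (fun v v' => v' ∈ W ∧ ∃ b, (v, v', b) ∈ T) v v')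
    {a b a' b' : V} (h : (v, a, b) ∈ T) (h' : (v', a', b') ∈ T) :
    (f v' a').re - (f v a).re ≤ ∑ t ∈ G, |(f t.1 t.2.1).re - (f t.1 t.2.2).re| := by
  by_contra hcon
  push Not at hcon
  have hcon' : ∑ t ∈ G, (max (f t.1 t.2.1).re (f t.1 t.2.2).re -
      min (f t.1 t.2.1).re (f t.1 t.2.2).re) < (f v' a').re - (f v a).re := by
    refine lt_of_le_of_lt (le_of_eq ?_) hcon
    refine Finset.sum_congr rfl fun t _ => ?_
    rw [max_sub_min_eq_abs']
  obtain ⟨s, h1, h2, h3, h4⟩ := exists_outside G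
    (fun t => min (f t.1 t.2.1).re (f t.1 t.2.2).re)
    (fun t => max (f t.1 t.2.1).re (f t.1 t.2.2).re) (fun t _ => min_le_max)
    (T.image fun t => (f t.1 t.2.1).re) hcon'
  have hgen : Gen T f s := by
    intro a b c habc he
    exact h3 (Finset.mem_image.2 ⟨(a, b, c), habc, he⟩)
  obtain ⟨v0, a0, b0, h0⟩ : ∃ v a b, St T W f s v a b := by
    by_contra hno
    push Not at hno
    have := (H.side_conn hgen hno hv hc h h1).2 a' b' h'
    linarith
  obtain ⟨w, x, y, ⟨hT, hw, hy, hx⟩, -, hexit⟩ := H.exit hgen h0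
  have hG : (w, x, y) ∉ G := by
    intro hG
    exact h4 _ hG ⟨(min_le_right _ _).trans hy.le, hx.le.trans (le_max_left _ _)⟩
  have hne : f w x ≠ f w y := by
    intro he; rw [he] at hx; linarith
  obtain ⟨c, hc'⟩ := H.next hw hT
  have hlow := le_ht hy hx (hpos w hw x y hT) (hpos w hw y c hc')
  rcases hexit with ⟨hyW, hgt, hlt⟩ | ⟨hxW, hgt, hlt⟩
  · obtain ⟨-, e2, e3⟩ := hex w hw x y hT hG hne (Or.inr hyW)
    have := ht_le (H := 0) hy hgt e3 (e2 hyW)
    linarith
  · obtain ⟨e1, -, e3⟩ := hex w hw x y hT hG hne (Or.inl hxW)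
    have := ht_le (H := 0) hgt hx (e1 hxW) e3
    linarith

/-! ### networks -/

/-- the vertex `v` has a complete ring of live edges -/
def Full (N : Net V) (v : V) : Prop :=
  ∃ (d : ℕ) (u : ℤ → V), Ring N.toTrg v d u ∧ (∀ i, (v, u i) ∉ N.kl) ∧
    ∀ x y, (v, x, y) ∈ N.T → ∃ i : ℤ, x = u i ∧ y = u (i + 1)

theorem Full.live {N : Net V} {v a b : V} (h : Full N v) (hT : (v, a, b) ∈ N.T) :
    (v, a) ∉ N.kl ∧ (v, b) ∉ N.kl := by
  obtain ⟨d, u, hr, hl, hall⟩ := h
  obtain ⟨i, rfl, rfl⟩ := hall a b hT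
  exact ⟨hl i, hl (i + 1)⟩

/-- the tiling of a set of vertices with complete live rings -/
theorem wk_of {N : Net V} {W : Finset V} (hW : ∀ v ∈ W, Full N v)
    (hC : ∀ v ∈ W, ∀ (d : ℕ) (u : ℤ → V), Ring N.toTrg v d u → (∀ i, (v, u i) ∉ N.kl) →
      N.Conv v d u)
    (hR : ∀ v ∈ W, ∀ a b, (v, a, b) ∈ N.T → N.F v a = N.F v b ∨ RelAt N (v, a, b)) :
    Wk N.T W N.F where
  rot a b c h := N.rot h
  comm := F_comm N
  ring v hv := by
    obtain ⟨d, u, hr, hl, hall⟩ := hW v hv
    refine ⟨d, u, hr.pos, hr.per, hr.mem, fun a b h => ?_⟩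
    obtain ⟨i, h1, h2⟩ := hall a b h
    exact ⟨i, h1.symm, h2.symm⟩
  left v hv a b x y h h' := by
    obtain ⟨d, u, hr, hl, hall⟩ := hW v hv
    obtain ⟨i, rfl, rfl⟩ := hall a b h
    obtain ⟨j, rfl, rfl⟩ := hall x y h'
    exact conv_left hr.pos hr.per (hC v hv d u hr hl) i j
  tile v hv a b h := by
    obtain ⟨h1, h2⟩ := (hW v hv).live h
    have h2' : (b, v) ∉ N.kl := fun h3 => h2 (N.klsym _ _ h3)
    rcases hR v hv a b h with he | hRt
    · exact Or.inl he
    by_cases h3 : (a, b) ∈ N.kl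
    · left
      have := hRt.j2 a b v (by simp [rots]) h3 h2' h1
      rw [← this, F_comm]
    · right
      obtain ⟨g, e1, e2, e3⟩ := hRt.j1 h1 h3 h2'
      refine ⟨g, N.Q (v, a, b), e1, e2, ?_⟩
      rw [F_comm]; exact e3

open Crest.Agent.R143.DelRx806 in
/-- a finite set of vertices with complete rings has a neighbour outside -/
theorem exists_out {S : Finset ℂ} (hS : GP (S : Set ℂ)) {N : Net ℂ} (hT : N.T = delT S)
    {A : Finset ℂ} (hA : A.Nonempty) (hF : ∀ v ∈ A, Full N v) :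
    ∃ v ∈ A, ∃ a b, (v, a, b) ∈ delT S ∧ a ∉ A := by
  obtain ⟨v, hv, hmax⟩ := Finset.exists_max_image A (fun v => v.re) hA
  refine ⟨v, hv, ?_⟩
  obtain ⟨d, u, hr, hl, hall⟩ := hF v hv
  have hnh : ∀ a, ¬ hullE S a v := by
    rintro a ⟨⟨c, hc⟩, hno⟩
    have h1 : (v, c, a) ∈ N.T := by
      apply N.rot
      rw [hT]; exact hc
    obtain ⟨i, rfl, rfl⟩ := hall c a h1
    have := hr.mem (i + 1)
    rw [hT] at this
    exact hno _ this
  have hne : (nbs S v).Nonempty := by
    refine ⟨u 0, mem_nbs.2 ⟨u (0 + 1), ?_⟩⟩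
    have := hr.mem 0
    rwa [hT] at this
  obtain ⟨x, hx, h1, h2⟩ := sector hne (f := fun x => x - v) (nx := nxt S v)
    (fun x hx => nxt_mem hS hnh hx) (fun x hx => by
      have := nxt_spec hx
      exact (Finset.mem_filter.1 this).2.2.2.2.1) (e := 1) one_ne_zero
  have hxt := nxt_spec hx
  have hpos : 0 < cr (x - v) (nxt S v x - v) := (Finset.mem_filter.1 hxt).2.2.2.2.1
  by_cases hxA : x ∈ A
  · refine ⟨nxt S v x, nxt S v (nxt S v x), nxt_spec (nxt_mem hS hnh hx), fun hnA => ?_⟩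
    have e1 := hmax x hxA
    have e2 := hmax _ hnA
    unfold cr at h1 h2 hpos
    simp only [Complex.sub_re, Complex.sub_im, Complex.one_re, Complex.one_im] at h1 h2 hpos
    nlinarith
  · exact ⟨x, nxt S v x, hxt, hxA⟩

/-- **T5** : the values of the observable at the edges of a finite set `W` of vertices with complete
live rings are in the convex hull of the values at the edges leaving `W` -/
theorem t5' {S : Finset ℂ} (hS : GP (S : Set ℂ)) {N : Net ℂ} (hT : N.T = delT S) {W : Finset ℂ}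
    (hW : ∀ v ∈ W, Full N v)
    (hC : ∀ v ∈ W, ∀ (d : ℕ) (u : ℤ → ℂ), Ring N.toTrg v d u → (∀ i, (v, u i) ∉ N.kl) →
      N.Conv v d u)
    (hR : ∀ v ∈ W, ∀ a b, (v, a, b) ∈ delT S → N.F v a = N.F v b ∨ RelAt N (v, a, b)) {v a b : ℂ} (hv : v ∈ W)
    (h : (v, a, b) ∈ delT S) :
    N.F v a ∈ convexHull ℝ {z : ℂ | ∃ w ∈ W, ∃ x y, (w, x, y) ∈ delT S ∧ x ∉ W ∧ z = N.F w x} := by
  have H := wk_of hW hC (fun v hv a b h => hR v hv a b (by rwa [hT] at h))
  have := H.hull (fun A hA hne => ?_) hv (a := a) (b := b) (by rw [hT]; exact h)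
  · rwa [hT] at this
  · rw [hT]
    exact exists_out hS hT hne fun v hv => hW v (hA hv)

/-- **T5**, all the triangles at `W` satisfy `RelAt` -/
theorem t5 {S : Finset ℂ} (hS : GP (S : Set ℂ)) {N : Net ℂ} (hT : N.T = delT S) {W : Finset ℂ}
    (hW : ∀ v ∈ W, Full N v)
    (hC : ∀ v ∈ W, ∀ (d : ℕ) (u : ℤ → ℂ), Ring N.toTrg v d u → (∀ i, (v, u i) ∉ N.kl) →
      N.Conv v d u)
    (hR : ∀ v ∈ W, ∀ a b, (v, a, b) ∈ delT S → RelAt N (v, a, b)) {v a b : ℂ} (hv : v ∈ W)
    (h : (v, a, b) ∈ delT S) :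
    N.F v a ∈ convexHull ℝ {z : ℂ | ∃ w ∈ W, ∃ x y, (w, x, y) ∈ delT S ∧ x ∉ W ∧ z = N.F w x} :=
  t5' hS hT hW hC (fun v hv a b h => Or.inr (hR v hv a b h)) hv h

/-- linear form version of T5 -/
theorem t5_lin {S : Finset ℂ} (hS : GP (S : Set ℂ)) {N : Net ℂ} (hT : N.T = delT S) {W : Finset ℂ}
    (hW : ∀ v ∈ W, Full N v)
    (hC : ∀ v ∈ W, ∀ (d : ℕ) (u : ℤ → ℂ), Ring N.toTrg v d u → (∀ i, (v, u i) ∉ N.kl) →
      N.Conv v d u)
    (hR : ∀ v ∈ W, ∀ a b, (v, a, b) ∈ delT S → N.F v a = N.F v b ∨ RelAt N (v, a, b)) (A B : ℂ) (M : ℝ)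
    (hM : ∀ w ∈ W, ∀ x y, (w, x, y) ∈ delT S → x ∉ W → ((N.F w x - A) / B).im ≤ M)
    {v a b : ℂ} (hv : v ∈ W) (h : (v, a, b) ∈ delT S) : ((N.F v a - A) / B).im ≤ M := by
  have h1 := t5' hS hT hW hC hR hv h
  have hconv : Convex ℝ {z : ℂ | ((z - A) / B).im ≤ M} := by
    intro x hx y hy a b ha hb hab
    have hx' : ((x - A) / B).im ≤ M := hx
    have hy' : ((y - A) / B).im ≤ M := hy
    show ((a • x + b • y - A) / B).im ≤ M
    have e : (a • x + b • y - A) / B = (a : ℂ) * ((x - A) / B) + (b : ℂ) * ((y - A) / B) := by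
      have : (a : ℂ) + b = 1 := by exact_mod_cast hab
      simp only [Complex.real_smul]
      linear_combination (A / B) * this
    rw [e, Complex.add_im, Complex.im_ofReal_mul, Complex.im_ofReal_mul]
    have h5 := mul_le_mul_of_nonneg_left hx' ha
    have h6 := mul_le_mul_of_nonneg_left hy' hb
    have h7 : a * M + b * M = M := by rw [← add_mul, hab, one_mul]
    linarith
  refine convexHull_min ?_ hconv h1
  rintro z ⟨w, hw, x, y, h2, h3, rfl⟩
  exact hM w hw x y h2 h3

/-- **shadow lemma for networks**: `A + t B` = the line of a side of the big triangle -/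
theorem shadow_net {S : Finset ℂ} {N : Net ℂ} (hT : N.T = delT S) {W : Finset ℂ}
    (hW : ∀ v ∈ W, Full N v)
    (hC : ∀ v ∈ W, ∀ (d : ℕ) (u : ℤ → ℂ), Ring N.toTrg v d u → (∀ i, (v, u i) ∉ N.kl) →
      N.Conv v d u)
    (hR : ∀ v ∈ W, ∀ a b, (v, a, b) ∈ delT S → N.F v a = N.F v b ∨ RelAt N (v, a, b)) (A B : ℂ)
    (G : Finset (ℂ × ℂ × ℂ))
    (hGW : ∀ t ∈ G, t ∈ delT S ∧ t.1 ∈ W)
    (hpos : ∀ v ∈ W, ∀ a b, (v, a, b) ∈ delT S → 0 ≤ ((N.F v a - A) / B).im)
    (hex : ∀ v ∈ W, ∀ a b, (v, a, b) ∈ delT S → (v, a, b) ∉ G → (a, b) ∉ N.kl →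
      (a ∉ W ∨ b ∉ W) → (a ∉ W → ((N.F v a - A) / B).im ≤ 0) ∧
        (b ∉ W → ((N.F v b - A) / B).im ≤ 0) ∧ ((N.F a b - A) / B).im ≤ 0)
    {v v' : ℂ} (hv : v ∈ W)
    (hc : Relation.ReflTransGen (fun v v' => v' ∈ W ∧ ∃ b, (v, v', b) ∈ delT S) v v')
    {a b a' b' : ℂ} (h : (v, a, b) ∈ delT S) (h' : (v', a', b') ∈ delT S) :
    ((N.F v' a' - N.F v a) / B).re ≤ ‖B‖⁻¹ * (Real.sqrt 3 * ∑ t ∈ G, ‖N.Q t‖) := by
  have H0 := wk_of hW hC (fun v hv a b h => hR v hv a b (by rwa [hT] at h))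
  have H := H0.affine (1 / B) (-A / B)
  have e : ∀ z : ℂ, 1 / B * z + -A / B = (z - A) / B := fun z => by ring
  have key := H.shadow G ?_ ?_ hv (v' := v') (by rw [hT]; exact hc) (a := a) (b := b) (a' := a')
    (b' := b') (by rw [hT]; exact h) (by rw [hT]; exact h')
  · simp only [e] at key
    have e2 : (N.F v' a' - N.F v a) / B = (N.F v' a' - A) / B - (N.F v a - A) / B := by ring
    rw [e2, Complex.sub_re]
    refine key.trans ?_
    rw [Finset.mul_sum, Finset.mul_sum]
    refine Finset.sum_le_sum fun t ht => ?_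
    obtain ⟨hGt, hGv⟩ := hGW t ht
    obtain ⟨w, x, y⟩ := t
    simp only at hGt hGv ⊢
    have hGT : (w, x, y) ∈ N.T := by rw [hT]; exact hGt
    obtain ⟨l1, l2⟩ := (hW w hGv).live hGT
    have h5 : ‖N.F w x - N.F w y‖ ≤ Real.sqrt 3 * ‖N.Q (w, x, y)‖ := by
      rcases hR w hGv x y hGt with he | hRt
      · rw [he, sub_self, norm_zero]; positivity
      · exact step' hRt (e := (w, x)) (e' := (w, y)) ⟨l1, Or.inl rfl⟩ ⟨l2, by simp⟩
    rw [← Complex.sub_re]
    refine (Complex.abs_re_le_norm _).trans ?_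
    rw [show (N.F w x - A) / B - (N.F w y - A) / B = B⁻¹ * (N.F w x - N.F w y) by ring,
      norm_mul, norm_inv]
    exact mul_le_mul_of_nonneg_left h5 (by positivity)
  · intro w hw x y hxy
    simp only [e]
    exact hpos w hw x y (by rwa [hT] at hxy)
  · intro w hw x y hxy hG hne ho
    simp only [e]
    have hxy' : (w, x, y) ∈ delT S := by rwa [hT] at hxy
    refine hex w hw x y hxy' hG ?_ ho
    intro hk
    apply hne
    obtain ⟨l1, l2⟩ := (hW w hw).live hxy
    rcases hR w hw x y hxy' with he | hRt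
    · exact congrArg (fun z => 1 / B * z + -A / B) he
    · have := hRt.j2 x y w (by simp [rots]) hk (fun h3 => l2 (N.klsym _ _ h3)) l1
      rw [← this, F_comm N y w]

end Crest.Agent.R143.Wlkx802
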