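import Crest.Agent.R143.M3e_63
import Crest.Agent.R143.Wlk_802

/-!
# Row 143 (S0194): T5 in the form of `EQ4_63` from `Wlk_802` (helper63)
-/

set_option autoImplicit false

noncomputable section

namespace Crest.Agent.R143.T5x63

open Crest.Agent.R143.B0x346 Crest.Agent.R143.EQ2x63 Crest.Agent.R143.EQ4x63
open Crest.Agent.R143.DelGx806

/-- **T5** from E3 -/
theorem t5 (hE3 : E3) : T5 := by
  intro S N hN W hW hR v hv u hvu
  have hfull : ∀ v ∈ W, Wlkx802.Full N v := by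
    intro v hv
    obtain ⟨n, u, h1, h2, h3⟩ := hW v hv
    refine ⟨n, u, h1, h2, fun x y hxy => ?_⟩
    obtain ⟨i, hi1, hi2⟩ := h3 x y hxy
    exact ⟨i, hi1.symm, hi2.symm⟩
  -- a triangle with the directed side `(v, u)`
  have hc : ∃ c, (v, u, c) ∈ delT S := by
    rcases hvu with h | ⟨c, hc⟩
    · exact h
    · have h1 : (v, c, u) ∈ delT S := (g1 S hN.gp).1 _ _ _ hc
      obtain ⟨n, w, g1', g2, g3⟩ := hW v hv
      obtain ⟨i, hi1, hi2⟩ := g3 c u (by rw [hN.tri]; exact h1)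
      have h2 := g1'.mem (i + 1)
      rw [hi2, hN.tri] at h2
      exact ⟨_, h2⟩
  obtain ⟨c, hc⟩ := hc
  have h := Wlkx802.t5 hN.gp hN.tri hfull
    (fun v hv d u hr hl => hE3 S N hN v d u hr hl) hR hv hc
  refine convexHull_mono ?_ h
  rintro z ⟨w, hw, x, y, hxy, hx, rfl⟩
  exact ⟨w, hw, x, hx, Or.inl ⟨y, hxy⟩, rfl⟩

/-- `LEqui` from E3, the energy bound and M3c -/
theorem lequi'' (hE3 : E3) (hEn : EQ5x63.En12) (hM3c : PP1x831.M3c)
    {Adm : B0Dx346.Dom → ℝ → Prop} (hAdm : ∀ D δ, Adm D δ → D.Ad δ) : Spinex422.LEqui Adm :=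
  M3ex63.lequi' (t5 hE3) hEn hM3c hAdm

end Crest.Agent.R143.T5x63
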