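import Crest.Agent.R143.Scal_63
import Crest.Agent.R143.Rel2_63

/-!
# Row 143 (S0194), leaf LOW (i) = T6 : lower bound for the oscillation of `F` on a small disc
(helper697)

* `ray_sep` : two rays from `x` in directions at angle `≤ 1`
* `sector_family` : equally spaced generic directions in a sector; number of rays which meet a
  triangle
* `sector_energy` : the energy of this family is at most the number of dyadic scales
* `T6` : lower bound
-/

set_option autoImplicit false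

noncomputable section

namespace Crest.Agent.R143.T6x697

open Set
open scoped Classical
open Crest.Agent.R143.B0x346 Crest.Agent.R143.Oscx63 Crest.Agent.R143.DelGx806
open Crest.Agent.R143.Circx63 Crest.Agent.R143.Scalx63 Crest.Agent.R143.Rswx63

/-- the point at distance `s` from `x` in the direction `α` -/
def pt (x : ℂ) (α s : ℝ) : ℂ := x + s * Complex.exp (α * Complex.I)

theorem pt_norm (x : ℂ) (α : ℝ) {s : ℝ} (hs : 0 ≤ s) : ‖pt x α s - x‖ = s := by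
  unfold pt
  rw [add_sub_cancel_left, norm_mul, Complex.norm_exp_ofReal_mul_I, mul_one, Complex.norm_real,
    Real.norm_of_nonneg hs]

theorem abs_sin_ge {u : ℝ} (h : |u| ≤ 1) : |u| / 2 ≤ |Real.sin u| := by
  have key : ∀ v : ℝ, 0 ≤ v → v ≤ 1 → v / 2 ≤ Real.sin v := by
    intro v h0 h1
    have h2 := Real.mul_le_sin h0 (by linarith [Real.pi_gt_three])
    have h3 : v / 2 ≤ 2 / Real.pi * v := by
      rw [div_mul_eq_mul_div, div_le_div_iff₀ (by norm_num) Real.pi_pos]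
      nlinarith [Real.pi_le_four]
    linarith
  rcases abs_cases u with ⟨h1, h2⟩ | ⟨h1, h2⟩
  · rw [h1]
    exact (key u h2 (h1 ▸ h)).trans (le_abs_self _)
  · rw [h1]
    have := key (-u) (by linarith) (h1 ▸ h)
    rw [Real.sin_neg] at this
    exact this.trans (neg_le_abs _)

theorem ray_sep {x : ℂ} {α β s s' l : ℝ} (hl : 0 ≤ l) (hs : l ≤ s)
    (h : |α - β| ≤ 1) : l * (|α - β| / 2) ≤ ‖pt x α s - pt x β s'‖ := by
  have e : pt x α s - pt x β s' =
      (s * Complex.exp (((α - β : ℝ) : ℂ) * Complex.I) - s') * Complex.exp (β * Complex.I) := by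
    unfold pt
    rw [sub_mul, mul_assoc, ← Complex.exp_add]
    have : ((α - β : ℝ) : ℂ) * Complex.I + β * Complex.I = α * Complex.I := by
      push_cast; ring
    rw [this]
    ring
  rw [e, norm_mul, Complex.norm_exp_ofReal_mul_I, mul_one]
  have him : (s * Complex.exp (((α - β : ℝ) : ℂ) * Complex.I) - s' : ℂ).im =
      s * Real.sin (α - β) := by
    rw [Complex.sub_im, Complex.ofReal_im, sub_zero, Complex.im_ofReal_mul,
      Complex.exp_ofReal_mul_I_im]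
  refine le_trans ?_ (Complex.abs_im_le_norm _)
  rw [him, abs_mul, abs_of_nonneg (hl.trans hs)]
  exact mul_le_mul hs (abs_sin_ge h) (by positivity) (hl.trans hs)

/-- integers at mutual distance `≤ w` -/
theorem card_window {K : Finset ℕ} {w : ℝ} (hw : 0 ≤ w)
    (h : ∀ k ∈ K, ∀ l ∈ K, |(k : ℝ) - l| ≤ w) : (K.card : ℝ) ≤ w + 1 := by
  rcases K.eq_empty_or_nonempty with rfl | hne
  · simp; linarith
  set m := K.min' hne with hm
  have hmK : m ∈ K := K.min'_mem hne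
  have hsub : K ⊆ Finset.Icc m (m + ⌊w⌋₊) := by
    intro k hk
    have h1 : m ≤ k := K.min'_le k hk
    have h2 := h k hk m hmK
    rw [Finset.mem_Icc]
    refine ⟨h1, ?_⟩
    have h3 : ((k - m : ℕ) : ℝ) ≤ w := by
      rw [Nat.cast_sub h1]
      exact (le_abs_self _).trans h2
    have h4 : k - m ≤ ⌊w⌋₊ := Nat.le_floor h3
    omega
  have h1 := Finset.card_le_card hsub
  rw [Nat.card_Icc] at h1
  have h2 : ((⌊w⌋₊ : ℕ) : ℝ) ≤ w := Nat.floor_le hw
  have h3 : (K.card : ℝ) ≤ (⌊w⌋₊ : ℝ) + 1 := by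
    have : K.card ≤ ⌊w⌋₊ + 1 := by omega
    exact_mod_cast this
  linarith

/-- two points of a triangle -/
theorem dist_cT {t : ℂ × ℂ × ℂ} (hp : 0 < cr (t.2.1 - t.1) (t.2.2 - t.1)) {y y' : ℂ}
    (hy : y ∈ cT t) (hy' : y' ∈ cT t) : ‖y - y'‖ ≤ dm t := by
  obtain ⟨a, b, c⟩ := t
  have h1 := le_hi (x := y') hp hy
  have h2 := hi_le_add (x := y') hp hy'
  rw [sub_self, norm_zero, zero_add] at h2
  exact h1.trans h2

/-- the triangle `t` is met by the ray in the direction `α` -/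
def Hit (x : ℂ) (α : ℝ) (t : ℂ × ℂ × ℂ) : Prop := ∃ s : ℝ, 0 ≤ s ∧ pt x α s ∈ cT t

/-- **generic directions in a sector** -/
theorem sector_family (x : ℂ) (φ : ℝ) {θ : ℝ} (hθ : 0 < θ) (hθ1 : θ ≤ 1)
    (U : Finset (ℂ × ℂ × ℂ)) (hU : ∀ t ∈ U, 0 < cr (t.2.1 - t.1) (t.2.2 - t.1)) (T : Finset ℂ) :
    ∃ (n : ℕ) (al : ℕ → ℝ), 0 < n ∧ (∀ k < n, φ ≤ al k ∧ al k ≤ φ + θ) ∧
      (∀ k < n, ∀ p ∈ T, p ≠ x → ∀ s : ℝ, 0 ≤ s → pt x (al k) s ≠ p) ∧
      ∀ t ∈ U, 0 < lo x t →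
        (((Finset.range n).filter fun k => Hit x (al k) t).card : ℝ) ≤
          n * (4 * dm t / (θ * lo x t)) := by
  -- the number of directions
  have hdm : ∀ t ∈ U, 0 < dm t := by
    intro t ht
    have h1 := hU t ht
    by_contra h2
    push Not at h2
    have h3 : ‖t.1 - t.2.1‖ ≤ 0 := ((le_max_left _ _).trans (le_max_left _ _)).trans h2
    have h4 : t.1 = t.2.1 := by
      rw [← sub_eq_zero]; exact norm_le_zero_iff.mp h3
    rw [← h4] at h1
    simp [cr] at h1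
  obtain ⟨n, hn0, hn⟩ : ∃ n : ℕ, 0 < n ∧ ∀ t ∈ U, θ * lo x t ≤ n * (2 * dm t) := by
    obtain ⟨n, hn⟩ := exists_nat_ge (∑ t ∈ U, |θ * lo x t| / (2 * dm t))
    refine ⟨n + 1, by omega, fun t ht => ?_⟩
    have h1 : |θ * lo x t| / (2 * dm t) ≤ ∑ t ∈ U, |θ * lo x t| / (2 * dm t) :=
      Finset.single_le_sum (f := fun t => |θ * lo x t| / (2 * dm t))
        (fun s hs => by have := hdm s hs; positivity) ht
    have h2 : |θ * lo x t| / (2 * dm t) ≤ (n + 1 : ℕ) := by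
      push_cast; linarith
    have h3 : 0 < 2 * dm t := by have := hdm t ht; positivity
    rw [div_le_iff₀ h3] at h2
    exact (le_abs_self _).trans h2
  have hn' : (0 : ℝ) < n := by exact_mod_cast hn0
  -- the offset
  obtain ⟨s0, hs0, hs1, hbad⟩ : ∃ s0 : ℝ, 0 < s0 ∧ s0 < 1 ∧ ∀ k < n, ∀ p ∈ T, p ≠ x →
      ∀ s : ℝ, 0 ≤ s → pt x (φ + θ * ((k : ℝ) + s0) / n) s ≠ p := by
    set Bad : Set ℝ := ⋃ k ∈ Finset.range n, ⋃ p ∈ T, {s0 : ℝ | (0 < s0 ∧ s0 < 1) ∧ p ≠ x ∧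
      ∃ s : ℝ, 0 ≤ s ∧ pt x (φ + θ * ((k : ℝ) + s0) / n) s = p} with hBad
    have hfin : Bad.Finite := by
      rw [hBad]
      refine Set.Finite.biUnion (Finset.finite_toSet _) fun k _ => ?_
      refine Set.Finite.biUnion (Finset.finite_toSet _) fun p _ => ?_
      apply Set.Subsingleton.finite
      rintro a ⟨⟨ha0, ha1⟩, hpx, s, hs, h1⟩ b ⟨⟨hb0, hb1⟩, -, s', hs', h2⟩
      by_contra hab
      set α := φ + θ * ((k : ℝ) + a) / n with hα
      set β := φ + θ * ((k : ℝ) + b) / n with hβ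
      have e1 : α - β = θ * (a - b) / n := by rw [hα, hβ]; ring
      have e2 : |α - β| ≤ 1 := by
        rw [e1, abs_div, abs_mul, abs_of_pos hθ, Nat.abs_cast, div_le_one hn']
        have h3 : |a - b| ≤ 1 := by rw [abs_le]; constructor <;> linarith
        have h4 : (1 : ℝ) ≤ n := by exact_mod_cast hn0
        have h5 : θ * |a - b| ≤ 1 * 1 := mul_le_mul hθ1 h3 (abs_nonneg _) (by norm_num)
        linarith
      have hs0 : 0 < s := by
        rcases hs.eq_or_lt with h3 | h3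
        · exfalso
          rw [← h3] at h1
          apply hpx
          rw [← h1]
          simp [pt]
        · exact h3
      have h3 := ray_sep (x := x) (s := s) (s' := s') hs0.le le_rfl e2
      rw [h1, h2, sub_self, norm_zero] at h3
      have h4 : 0 < |α - β| := by
        rw [abs_pos, e1]
        have : a - b ≠ 0 := sub_ne_zero.mpr hab
        positivity
      have h5 : 0 < s * (|α - β| / 2) := by positivity
      linarith
    have hinf : (Set.Ioo (0 : ℝ) 1).Infinite := Set.Ioo_infinite (by norm_num)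
    obtain ⟨s0, hs0, hnb⟩ := (hinf.sdiff hfin).nonempty
    refine ⟨s0, hs0.1, hs0.2, fun k hk p hp hpx s hs he => hnb ?_⟩
    rw [hBad]
    simp only [Set.mem_iUnion, Finset.mem_range]
    exact ⟨k, hk, p, hp, ⟨hs0.1, hs0.2⟩, hpx, s, hs, he⟩
  refine ⟨n, fun k : ℕ => φ + θ * ((k : ℝ) + s0) / n, hn0, ?_, hbad, ?_⟩
  · intro k hk
    have h1 : (k : ℝ) + 1 ≤ n := by exact_mod_cast hk
    have h2 : 0 ≤ θ * ((k : ℝ) + s0) / n := by positivity
    have h3 : θ * ((k : ℝ) + s0) / n ≤ θ := by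
      rw [div_le_iff₀ hn']
      nlinarith
    constructor <;> linarith
  · intro t ht hlo
    have h1 := hn t ht
    have hd := hdm t ht
    have hl : 0 < θ * lo x t := by positivity
    have key : (((Finset.range n).filter fun k : ℕ => Hit x (φ + θ * ((k : ℝ) + s0) / n) t).card : ℝ) ≤
        n * (2 * dm t / (θ * lo x t)) + 1 := by
      apply card_window (by positivity)
      intro k hk l hl'
      obtain ⟨hk1, s, hs, hks⟩ := Finset.mem_filter.mp hk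
      obtain ⟨hl1, s', hs', hls⟩ := Finset.mem_filter.mp hl'
      have hkn : (k : ℝ) + 1 ≤ n := by exact_mod_cast Finset.mem_range.mp hk1
      have hln : (l : ℝ) + 1 ≤ n := by exact_mod_cast Finset.mem_range.mp hl1
      set α := φ + θ * ((k : ℝ) + s0) / n with hα
      set β := φ + θ * ((l : ℝ) + s0) / n with hβ
      have e1 : α - β = θ * ((k : ℝ) - l) / n := by rw [hα, hβ]; ring
      have e3 : |(k : ℝ) - l| ≤ n := by
        have : (0 : ℝ) ≤ k := Nat.cast_nonneg k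
        have : (0 : ℝ) ≤ l := Nat.cast_nonneg l
        rw [abs_le]; constructor <;> linarith
      have e2' : |α - β| = θ * |(k : ℝ) - l| / n := by
        rw [e1, abs_div, abs_mul, abs_of_pos hθ, Nat.abs_cast]
      have e2 : |α - β| ≤ 1 := by
        rw [e2', div_le_one hn']
        calc θ * |(k : ℝ) - l| ≤ 1 * n := mul_le_mul hθ1 e3 (abs_nonneg _) (by norm_num)
          _ = n := one_mul _
      have h2 : lo x t ≤ s := by
        have := lo_le (x := x) hks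
        rwa [pt_norm x α hs] at this
      have h3 := ray_sep (x := x) (s' := s') hlo.le h2 e2
      have h4 := dist_cT (hU t ht) hks hls
      have h5 : lo x t * (θ * |(k : ℝ) - l| / n / 2) ≤ dm t := by
        rw [← e2']; exact h3.trans h4
      rw [← mul_div_assoc, le_div_iff₀ hl]
      have h6 : lo x t * (θ * |(k : ℝ) - l| / n / 2) = (|(k : ℝ) - l| * (θ * lo x t)) / (n * 2) := by
        field_simp
      rw [h6, div_le_iff₀ (by positivity)] at h5
      linarith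
    have h2 : 1 ≤ n * (2 * dm t / (θ * lo x t)) := by
      rw [← mul_div_assoc, le_div_iff₀ hl]
      linarith
    have h3 : (n : ℝ) * (4 * dm t / (θ * lo x t)) = n * (2 * dm t / (θ * lo x t)) +
        n * (2 * dm t / (θ * lo x t)) := by ring
    rw [h3]
    linarith

/-- **energy of the sector family**: `c t ≤ 4 dm t / (θ lo t)` -/
theorem sector_energy {S : Finset ℂ} (x : ℂ) {θ r ρ d C : ℝ} {k1 k2 : ℤ} (hθ : 0 < θ)
    (hr : 0 < r) (hrd : 2 * d ≤ r) (hrρ : r ≤ ρ) (hk1 : (2 : ℝ) ^ k1 ≤ r) (hk2 : ρ ≤ (2 : ℝ) ^ k2)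
    (U : Finset (ℂ × ℂ × ℂ)) (hUS : U ⊆ delT S)
    (m4 : ∀ k ∈ Finset.Icc k1 (k2 + 1),
      ∑ t ∈ U.filter (fun t => lo x t ≤ (2 : ℝ) ^ (k + 1) ∧ (2 : ℝ) ^ k ≤ hi x t),
        dm t ^ 2 ≤ C * (4 : ℝ) ^ k)
    (mesh : ∀ t ∈ U, (∃ y ∈ cT t, r ≤ ‖y - x‖ ∧ ‖y - x‖ ≤ ρ) → dm t ≤ d)
    (c : ℂ × ℂ × ℂ → ℝ) (hc0 : ∀ t ∈ U, (¬ ∃ y ∈ cT t, r ≤ ‖y - x‖ ∧ ‖y - x‖ ≤ ρ) → c t = 0)
    (hcn : ∀ t ∈ U, 0 ≤ c t)
    (hc : ∀ t ∈ U, 0 < lo x t → c t ≤ 4 * dm t / (θ * lo x t)) :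
    ∑ t ∈ U, c t ^ 2 ≤ 64 * C * ((k2 - k1 + 2 : ℤ) : ℝ) / θ ^ 2 := by
  set U1 := U.filter fun t => ∃ y ∈ cT t, r ≤ ‖y - x‖ ∧ ‖y - x‖ ≤ ρ with hU1
  have h1 : ∑ t ∈ U, c t ^ 2 = ∑ t ∈ U1, c t ^ 2 := by
    rw [hU1, Finset.sum_filter]
    refine Finset.sum_congr rfl fun t ht => ?_
    split_ifs with h
    · rfl
    · rw [hc0 t ht h]; norm_num
  -- one triangle
  have tri : ∀ t ∈ U1, ∃ k ∈ Finset.Icc k1 (k2 + 1),
      (lo x t ≤ (2 : ℝ) ^ (k + 1) ∧ (2 : ℝ) ^ k ≤ hi x t) ∧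
      c t ^ 2 ≤ 64 / θ ^ 2 * (dm t ^ 2 / (4 : ℝ) ^ k) := by
    intro t ht
    obtain ⟨htU, y, hy, hy1, hy2⟩ := Finset.mem_filter.mp ht
    have hm := mesh t htU ⟨y, hy, hy1, hy2⟩
    obtain ⟨a, b, c'⟩ := t
    obtain ⟨o, hT⟩ := mem_delT_iff.1 (hUS htU)
    have hd0 : 0 ≤ dm (a, b, c') := le_max_of_le_right (norm_nonneg _)
    have h2 : r ≤ hi x (a, b, c') := hy1.trans (le_hi hT.pos hy)
    have h3 := hi_sub_lo (x := x) hT.pos
    have h4 : hi x (a, b, c') / 2 ≤ lo x (a, b, c') := by linarith [h3.2]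
    have h5 : 0 < lo x (a, b, c') := by linarith
    have h6 : lo x (a, b, c') ≤ ρ := (lo_le hy).trans hy2
    obtain ⟨k, hk⟩ := exists_mem_Ico_zpow (show 0 < hi x (a, b, c') by linarith) (one_lt_two)
    have hk' : hi x (a, b, c') < (2 : ℝ) ^ (k + 1) := hk.2
    refine ⟨k, ?_, ⟨(h3.1.trans hk'.le), hk.1⟩, ?_⟩
    · rw [Finset.mem_Icc]
      constructor
      · have h7 : (2 : ℝ) ^ k1 < (2 : ℝ) ^ (k + 1) := lt_of_le_of_lt (hk1.trans h2) hk'
        have h8 := (zpow_lt_zpow_iff_right₀ (by norm_num : (1 : ℝ) < 2)).mp h7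
        omega
      · have h7 : hi x (a, b, c') ≤ 2 * ρ := by linarith
        have h8 : (2 : ℝ) ^ k ≤ (2 : ℝ) ^ (k2 + 1) := by
          rw [zpow_add_one₀ (by norm_num : (2 : ℝ) ≠ 0)]
          linarith [hk.1]
        exact (zpow_le_zpow_iff_right₀ (by norm_num : (1 : ℝ) < 2)).mp h8
    · have h7 := hc _ htU h5
      have h8 : c (a, b, c') ^ 2 ≤ (4 * dm (a, b, c') / (θ * lo x (a, b, c'))) ^ 2 :=
        pow_le_pow_left₀ (hcn _ htU) h7 2
      refine h8.trans ?_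
      have h9 : (4 : ℝ) ^ k = ((2 : ℝ) ^ k) ^ 2 := by
        rw [← zpow_natCast, ← zpow_mul, mul_comm, zpow_mul]
        norm_num
      have h10 : (0 : ℝ) < (2 : ℝ) ^ k := by positivity
      have h11 : (2 : ℝ) ^ k / 2 ≤ lo x (a, b, c') := by linarith [hk.1]
      have h12 : ((2 : ℝ) ^ k) ^ 2 / 4 ≤ lo x (a, b, c') ^ 2 := by nlinarith
      rw [h9, div_pow, mul_pow, mul_pow]
      rw [div_mul_div_comm, div_le_div_iff₀ (by positivity) (by positivity)]
      have h13 : 0 ≤ θ ^ 2 * dm (a, b, c') ^ 2 := by positivity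
      nlinarith
  choose! κ hκ1 hκ2 hκ3 using tri
  rw [h1]
  calc ∑ t ∈ U1, c t ^ 2 ≤ ∑ t ∈ U1, 64 / θ ^ 2 * (dm t ^ 2 / (4 : ℝ) ^ (κ t)) :=
        Finset.sum_le_sum hκ3
    _ = ∑ k ∈ Finset.Icc k1 (k2 + 1), ∑ t ∈ U1.filter (fun t => κ t = k),
        64 / θ ^ 2 * (dm t ^ 2 / (4 : ℝ) ^ (κ t)) :=
        (Finset.sum_fiberwise_of_maps_to hκ1 _).symm
    _ ≤ ∑ k ∈ Finset.Icc k1 (k2 + 1), 64 / θ ^ 2 * C := by
        refine Finset.sum_le_sum fun k hk => ?_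
        have e : ∑ t ∈ U1.filter (fun t => κ t = k), 64 / θ ^ 2 * (dm t ^ 2 / (4 : ℝ) ^ (κ t)) =
            64 / θ ^ 2 * ((∑ t ∈ U1.filter (fun t => κ t = k), dm t ^ 2) / (4 : ℝ) ^ k) := by
          rw [Finset.sum_div, Finset.mul_sum]
          refine Finset.sum_congr rfl fun t ht => ?_
          rw [(Finset.mem_filter.mp ht).2]
        rw [e]
        apply mul_le_mul_of_nonneg_left _ (by positivity)
        rw [div_le_iff₀ (by positivity)]
        refine le_trans (Finset.sum_le_sum_of_subset_of_nonneg ?_ fun t _ _ => sq_nonneg _)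
          (m4 k hk)
        intro t ht
        obtain ⟨ht1, ht2⟩ := Finset.mem_filter.mp ht
        rw [Finset.mem_filter]
        refine ⟨(Finset.mem_filter.mp ht1).1, ?_⟩
        rw [← ht2]
        exact hκ2 t ht1
    _ = ((k2 - k1 + 2 : ℤ) : ℝ) * (64 / θ ^ 2 * C) := by
        rw [Finset.sum_const, Int.card_Icc, nsmul_eq_mul]
        congr 1
        have h2 : k1 ≤ k2 := by
          have h7 : (2 : ℝ) ^ k1 ≤ (2 : ℝ) ^ k2 := hk1.trans (hrρ.trans hk2)
          exact (zpow_le_zpow_iff_right₀ (by norm_num : (1 : ℝ) < 2)).mp h7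
        have h3 : ((k2 + 1 + 1 - k1).toNat : ℤ) = k2 - k1 + 2 := by
          rw [Int.toNat_of_nonneg (by omega)]; ring
        exact_mod_cast h3
    _ = 64 * C * ((k2 - k1 + 2 : ℤ) : ℝ) / θ ^ 2 := by ring

/-- the part of a ray between the distances `r` and `ρ` -/
def seg (x : ℂ) (α r ρ : ℝ) : Set ℂ := pt x α '' Icc r ρ

/-- **T6** (network level): the live edges near the circle `|y - x| = r` cannot all be close to a
point `v` if every generic ray of the sector is connected to an edge with `|F - v| ≥ 1 / 2` -/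
theorem T6 {S : Finset ℂ} {N : Net ℂ} (hN : HNet S N) (x : ℂ) {φ θ r ρ d C : ℝ} {k1 k2 : ℤ}
    (hθ : 0 < θ) (hθ1 : θ ≤ 1) (hr : 0 < r) (hrd : 6400 * d ≤ θ * r) (hrρ : r ≤ ρ)
    (hk1 : (2 : ℝ) ^ k1 ≤ r) (hk2 : ρ ≤ (2 : ℝ) ^ k2) (hC : 0 ≤ C)
    (U : Finset (ℂ × ℂ × ℂ)) (hUS : U ⊆ delT S)
    (m4 : ∀ k ∈ Finset.Icc k1 (k2 + 1),
      ∑ t ∈ U.filter (fun t => lo x t ≤ (2 : ℝ) ^ (k + 1) ∧ (2 : ℝ) ^ k ≤ hi x t),
        dm t ^ 2 ≤ C * (4 : ℝ) ^ k) (hR : ∀ t ∈ U, RelAt N t)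
    (hd : Dis U (hcen N) N.Q)
    (mesh : ∀ t ∈ U, (∃ y ∈ cT t, r ≤ ‖y - x‖ ∧ ‖y - x‖ ≤ ρ) → dm t ≤ d)
    (v : ℂ) {δ : ℝ} (hδ : 0 < δ)
    (hdir : ∀ α : ℝ, φ ≤ α → α ≤ φ + θ → (∀ p ∈ S, p ≠ x → ∀ s : ℝ, 0 ≤ s → pt x α s ≠ p) →
      ∃ e e' : ℂ × ℂ, Conn N (U.filter fun t => (cT t ∩ seg x α r ρ).Nonempty) e e' ∧
        ‖N.F e.1 e.2 - v‖ ≤ δ ∧ 1 / 2 ≤ ‖N.F e'.1 e'.2 - v‖) :
    1 / 2 * Real.exp (-(1 + 73728 * C * ((k2 - k1 + 2 : ℤ) : ℝ) / θ ^ 2)) ≤ δ := by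
  have hpos : ∀ t ∈ U, 0 < cr (t.2.1 - t.1) (t.2.2 - t.1) := by
    intro t ht
    obtain ⟨o, hT⟩ := mem_delT_iff.1 (show (t.1, t.2.1, t.2.2) ∈ delT S from hUS ht)
    exact hT.pos
  obtain ⟨n, al, hn, hal, hav, hcount⟩ := sector_family x φ hθ hθ1 U hpos S
  have hn' : (0 : ℝ) < n := by exact_mod_cast hn
  set A : ℕ → Finset (ℂ × ℂ × ℂ) := fun k => U.filter fun t => (cT t ∩ seg x (al k) r ρ).Nonempty
    with hA
  have hsub : ∀ k, A k ⊆ U := fun k => Finset.filter_subset _ _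
  set lam : ℕ → ℝ := fun _ => 1 / n with hlam
  have hF : Fam U (hcen N) N.Q (Finset.range n) lam A := by
    refine ⟨fun i _ => by rw [hlam]; positivity, ?_, fun i _ => hsub i⟩
    rw [hlam, Finset.sum_const, Finset.card_range, nsmul_eq_mul, mul_one_div, div_self hn'.ne']
  have hcw : ∀ t, cw (Finset.range n) lam A t =
      (((Finset.range n).filter fun k => t ∈ A k).card : ℝ) / n := by
    intro t
    unfold cw
    rw [hlam, Finset.sum_const, nsmul_eq_mul, mul_one_div]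
    congr!
  have hhit : ∀ t, (Finset.range n).filter (fun k => t ∈ A k) ⊆
      (Finset.range n).filter fun k => Hit x (al k) t := by
    intro t k hk
    rw [Finset.mem_filter] at hk ⊢
    refine ⟨hk.1, ?_⟩
    obtain ⟨-, y, hy1, s, hs, rfl⟩ := Finset.mem_filter.mp hk.2
    exact ⟨s, hr.le.trans hs.1, hy1⟩
  have hbd : ∀ t ∈ U, 0 < lo x t → cw (Finset.range n) lam A t ≤ 4 * dm t / (θ * lo x t) := by
    intro t ht hl
    rw [hcw, div_le_iff₀ hn']
    have h1 : (((Finset.range n).filter fun k => t ∈ A k).card : ℝ) ≤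
        ((Finset.range n).filter fun k => Hit x (al k) t).card := by
      exact_mod_cast Finset.card_le_card (hhit t)
    have h2 := hcount t ht hl
    linarith
  have hzero : ∀ t ∈ U, (¬ ∃ y ∈ cT t, r ≤ ‖y - x‖ ∧ ‖y - x‖ ≤ ρ) →
      cw (Finset.range n) lam A t = 0 := by
    intro t ht h1
    rw [hcw, div_eq_zero_iff]
    left
    rw [Nat.cast_eq_zero, Finset.card_eq_zero, Finset.filter_eq_empty_iff]
    intro k _ h2
    apply h1
    obtain ⟨-, y, hy1, s, hs, rfl⟩ := Finset.mem_filter.mp h2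
    refine ⟨_, hy1, ?_⟩
    rw [pt_norm x _ (hr.le.trans hs.1)]
    exact hs
  have hnn : ∀ t ∈ U, 0 ≤ cw (Finset.range n) lam A t := fun t _ => cw_nonneg hF.nn A t
  have hdr : 2 * d ≤ r := by nlinarith
  have hen := sector_energy x hθ hr hdr hrρ hk1 hk2 U hUS m4 mesh (cw (Finset.range n) lam A)
    hzero hnn hbd
  -- small weights
  have hsmall : ∀ t ∈ U, cw (Finset.range n) lam A t ≤ 1 / 800 := by
    intro t ht
    by_cases h1 : ∃ y ∈ cT t, r ≤ ‖y - x‖ ∧ ‖y - x‖ ≤ ρ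
    · have hm := mesh t ht h1
      obtain ⟨y, hy, hy1, hy2⟩ := h1
      obtain ⟨a, b, c'⟩ := t
      obtain ⟨o, hT⟩ := mem_delT_iff.1 (hUS ht)
      have h2 : r ≤ hi x (a, b, c') := hy1.trans (le_hi hT.pos hy)
      have h3 := hi_sub_lo (x := x) hT.pos
      have h4 : r / 2 ≤ lo x (a, b, c') := by linarith [h3.2]
      have h5 : 0 < lo x (a, b, c') := by linarith
      refine (hbd _ ht h5).trans ?_
      rw [div_le_div_iff₀ (by positivity) (by norm_num)]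
      have h6 : θ * (r / 2) ≤ θ * lo x (a, b, c') := mul_le_mul_of_nonneg_left h4 hθ.le
      nlinarith
    · rw [hzero t ht h1]; norm_num
  -- the walks
  have hw : ∀ k ∈ Finset.range n, ∃ p : (ℂ × ℂ) × (ℂ × ℂ), Conn N (A k) p.1 p.2 ∧
      ‖N.F p.1.1 p.1.2 - v‖ ≤ δ ∧ 1 / 2 ≤ ‖N.F p.2.1 p.2.2 - v‖ := by
    intro k hk
    have hk' := Finset.mem_range.mp hk
    obtain ⟨e, e', h1, h2, h3⟩ := hdir (al k) (hal k hk').1 (hal k hk').2 (hav k hk')
    exact ⟨(e, e'), h1, h2, h3⟩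
  choose! p hp1 hp2 hp3 using hw
  rcases le_or_gt (1 / 2) δ with hbig | hlt
  · refine le_trans ?_ hbig
    have h1 : Real.exp (-(1 + 73728 * C * ((k2 - k1 + 2 : ℤ) : ℝ) / θ ^ 2)) ≤ 1 := by
      rw [Real.exp_le_one_iff, neg_nonpos]
      have h2 : k1 ≤ k2 := by
        have h7 : (2 : ℝ) ^ k1 ≤ (2 : ℝ) ^ k2 := hk1.trans (hrρ.trans hk2)
        exact (zpow_le_zpow_iff_right₀ (by norm_num : (1 : ℝ) < 2)).mp h7
      have h3 : (0 : ℝ) ≤ ((k2 - k1 + 2 : ℤ) : ℝ) := by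
        exact_mod_cast (show (0 : ℤ) ≤ k2 - k1 + 2 by omega)
      positivity
    linarith
  · have h1 := T3 hN hR hd hF hsmall v hδ hlt.le (fun k => (p k).1) (fun k => (p k).2) hp1 hp2 hp3
    have h2 : Real.log (1 / 2 / δ) ≤ 1 + 73728 * C * ((k2 - k1 + 2 : ℤ) : ℝ) / θ ^ 2 := by
      refine h1.trans ?_
      have e : 1152 * (64 * C * ((k2 - k1 + 2 : ℤ) : ℝ) / θ ^ 2) =
          73728 * C * ((k2 - k1 + 2 : ℤ) : ℝ) / θ ^ 2 := by ring
      linarith
    have h3 : 0 < 1 / 2 / δ := by positivity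
    rw [Real.log_le_iff_le_exp h3, div_le_iff₀ hδ] at h2
    rw [Real.exp_neg]
    set E := Real.exp (1 + 73728 * C * ((k2 - k1 + 2 : ℤ) : ℝ) / θ ^ 2) with hE
    have hE0 : 0 < E := Real.exp_pos _
    rw [← div_eq_mul_inv, div_le_iff₀ hE0]
    linarith

end Crest.Agent.R143.T6x697
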