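import Crest.Agent.R143.TDat_58
import Crest.Agent.R143.TQ_653

/-!
# Row 143 (S0194), RIG, box (11): the template of `RigZ` (helper58)

* `DD η ε` : 653's data `Dt`, total in the unit and the mesh; `DD_eq`, `DD_num`
* **`posI`** : `PosI` from 653's `posF`
* **`ZZ : TData`** : THE template family; `ZZ_D`, `ZZ_c`, **`posZ : PosP ZZ`**, **`aeZ`** : `AePos`,
  `massZ`, `rawZ` : the raw template is 653's `Tr`
-/

set_option autoImplicit false

noncomputable section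

open scoped Classical

namespace Crest.Agent.R143.TDatZx58

open MeasureTheory Set Filter Topology
open scoped ENNReal
open Crest.ProbabilityR.Voronoi
open Crest.Agent.R143.PP0x831 Crest.Agent.R143.Poisx304 Crest.Agent.R143.Janx304
open Crest.Agent.R143.FinMx609
open Crest.Agent.R143.PWx978 Crest.Agent.R143.Tplx978
open Crest.Agent.R143.PthFx765 Crest.Agent.R143.TplIx204 Crest.Agent.R143.RigPx854
open Crest.Agent.R143.GPosCx348 (NumC)
open Crest.Agent.R143.RigZdx609 Crest.Agent.R143.RigZx609 Crest.Agent.R143.TDatx58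
open Crest.Agent.R143.PosFx653

/-- 653's data with the trivial goodness: used only for `ε ≤ 0` -/
def D0 (η : ℝ) : DT where
  g := Halfx73.g0 η
  A := 9 * η
  B := 51 * η
  A' := 12 * η
  B' := 52 * η
  h := 100 * η
  Gd _ := True
  Gm _ := measurable_const

/-- **653's data, total in the unit and the mesh** -/
def DD (η ε : ℝ) : DT := if h : 0 < ε ∧ 0 < η then Dt η ε h.1 h.2 else D0 η

theorem DD_eq {η ε : ℝ} (hε : 0 < ε) (hη : 0 < η) : DD η ε = Dt η ε hε hη := by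
  unfold DD
  rw [dif_pos ⟨hε, hη⟩]

theorem DD_num (η ε : ℝ) (hη : 0 < η) : NumC (DD η ε) η := by
  unfold DD
  split_ifs with h
  · exact ⟨hη, rfl, rfl, rfl, rfl, rfl, rfl⟩
  · exact ⟨hη, rfl, rfl, rfl, rfl, rfl, rfl⟩

/-- **653's `posF` as a `PosI`** -/
def posI : PosI where
  D := DD
  num := DD_num
  cc := cc
  cb := cb
  c0 := cc_ne
  c1 := cc_le
  b0 := cb_ne
  pos η hη h1 := by
    filter_upwards [posF hη (by linarith)] with ε h he
    rw [DD_eq he hη]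
    exact ⟨(h.2.2 he hη).1, (h.2.2 he hη).2.1⟩

/-- **THE template family of RIG** -/
def ZZ : TData := posI.Z

variable {N : ℕ} {ε : ℝ}

theorem ZZ_D (he : 0 < ε) : ZZ.D N ε = Dt (et N) ε he (et_pos N) := DD_eq he (et_pos N)

theorem ZZ_c : ZZ.c N ε = cc := rfl

/-- **positivity, absolute constants** -/
theorem posZ : PosP ZZ := posI.posP

/-- **978's `AePos`** -/
theorem aeZ (N : ℕ) : ∀ᶠ ε : ℝ in 𝓝[>] 0, ∀ he : 0 < ε, (ZZ.raw N he).AePos := posI.aepos N

theorem massZ (N : ℕ) : ∀ᶠ ε : ℝ in 𝓝[>] 0, ∀ he : 0 < ε,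
    cb ≤ ∫⁻ ω, (ZZ.tpl N he).A (cfg ε ω) ∂sampleLaw := posI.mass N

/-- the constants of `posZ` -/
def ccZ : ℝ := posI.ccR

def cbZ : ℝ := posI.cbR

theorem ccZ_pos : 0 < ccZ := posI.ccR_pos

theorem cbZ_pos : 0 < cbZ := posI.cbR_pos

theorem posZ' (N : ℕ) : ∀ᶠ ε : ℝ in 𝓝[>] 0, ∀ he : 0 < ε,
    ENNReal.ofReal ccZ ≤ ZZ.c N ε ∧
      ENNReal.ofReal cbZ ≤ ∫⁻ ω, (ZZ.tpl N he).A (cfg ε ω) ∂sampleLaw := posI.posP' N

end Crest.Agent.R143.TDatZx58
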