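import Crest.Agent.R143.RigZ_609

/-!
# Row 143 (S0194), RIG, box (11): the template family of `RigZ` (helper58)

* `PosI` : output of 653's `PosF` : template data for all units `η` and meshes `ε` with ABSOLUTE
  constants `cc`, `cb`
* `PosI.Z : TData` : the family of `RigZd_609` (unit `et N = hN N / 100`); `c_eq`, `tpl_c`, `h_eq`
* **`PosI.aepos`** : 978's `AePos` eventually in the mesh, for all widths
* `lint_A` : `∫ A = P (A ≠ 0)`; **`PosI.posP`** : `PosP Z` (input of `rig_of_op`)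
-/

set_option autoImplicit false
set_option linter.style.haveILetI false

noncomputable section

open scoped Classical

namespace Crest.Agent.R143.TDatx58

open MeasureTheory Set Filter Topology
open scoped ENNReal
open Crest.ProbabilityR.Voronoi
open Crest.Agent.R143.PP0x831 Crest.Agent.R143.Poisx304 Crest.Agent.R143.Janx304
open Crest.Agent.R143.IndLocx279 Crest.Agent.R143.IndLoc3x279
open Crest.Agent.R143.PWx978 Crest.Agent.R143.Tplx978
open Crest.Agent.R143.PthFx765 Crest.Agent.R143.TplIx204 Crest.Agent.R143.RigPx854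
open Crest.Agent.R143.GPosCx348 (NumC)
open Crest.Agent.R143.RigZdx609 Crest.Agent.R143.RigZx609

theorem hN_le_one (N : ℕ) : hN N ≤ 1 := by
  unfold hN
  exact pow_le_one₀ (by norm_num) (by norm_num)

theorem et_le (N : ℕ) : et N ≤ 1 / 100 := by
  have := hN_le_one N
  unfold et
  linarith

/-- the mass of the gate event -/
theorem lint_A {ε : ℝ} (hε : 0 < ε) (P : DT) :
    ∫⁻ ω, P.wA (cfg ε ω) ∂sampleLaw = sampleLaw {ω | P.wA (cfg ε ω) ≠ 0} := by
  have hm : Measurable fun ω => P.wA (cfg ε ω) := meas_fun hε P.Q_meas P.Q_bdd P.wA_local P.wA_fm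
  have hs : MeasurableSet {ω | P.wA (cfg ε ω) ≠ 0} := (hm (measurableSet_singleton 0)).compl
  rw [← lintegral_indicator_one hs]
  refine lintegral_congr fun ω => ?_
  by_cases h : P.wA (cfg ε ω) = 0
  · rw [indicator_of_notMem (by simpa using h), h]
  · rw [indicator_of_mem (by simpa using h), Pi.one_apply]
    exact ind_of (ind_ne.1 h)

/-- **output of 653's `PosF`**: data for all units and meshes, absolute constants -/
structure PosI where
  /-- data at the unit `η` and mesh `ε` -/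
  D : ℝ → ℝ → DT
  num : ∀ η ε, 0 < η → NumC (D η ε) η
  /-- lower bound of the tiles -/
  cc : ℝ≥0∞
  /-- probability of a good gate -/
  cb : ℝ≥0∞
  c0 : cc ≠ 0
  c1 : cc ≤ 1
  b0 : cb ≠ 0
  pos : ∀ η, 0 < η → η ≤ 1 / 10 → ∀ᶠ ε : ℝ in 𝓝[>] 0, ∀ he : 0 < ε,
    ((D η ε).raw ε he cc c0 c1).AePos ∧ cb ≤ sampleLaw {ω | (D η ε).wA (cfg ε ω) ≠ 0}

namespace PosI

variable (I : PosI) {N : ℕ} {ε : ℝ}

/-- **the template family** of `RigZd_609` -/
def Z : TData where
  D N ε := I.D (et N) ε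
  c _ _ := I.cc
  c0 _ _ := I.c0
  c1 _ _ := I.c1
  num N ε := I.num _ ε (et_pos N)

@[simp] theorem Z_D : I.Z.D N ε = I.D (et N) ε := rfl

@[simp] theorem Z_c : I.Z.c N ε = I.cc := rfl

theorem tpl_c (he : 0 < ε) : (I.Z.tpl N he).c = I.cc := rfl

theorem tpl_A (he : 0 < ε) : (I.Z.tpl N he).A = (I.D (et N) ε).wA := rfl

theorem pos_N (N : ℕ) : ∀ᶠ ε : ℝ in 𝓝[>] 0, ∀ he : 0 < ε,
    (I.Z.raw N he).AePos ∧ I.cb ≤ ∫⁻ ω, (I.Z.tpl N he).A (cfg ε ω) ∂sampleLaw := by
  filter_upwards [I.pos (et N) (et_pos N) ((et_le N).trans (by norm_num))] with ε h he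
  refine ⟨(h he).1, ?_⟩
  rw [tpl_A, lint_A he]
  exact (h he).2

/-- **978's `AePos`** for all widths, small meshes -/
theorem aepos (N : ℕ) : ∀ᶠ ε : ℝ in 𝓝[>] 0, ∀ he : 0 < ε, (I.Z.raw N he).AePos :=
  (I.pos_N N).mono fun _ h he => (h he).1

/-- **good gates have mass**, all widths, small meshes, absolute constant -/
theorem mass (N : ℕ) : ∀ᶠ ε : ℝ in 𝓝[>] 0, ∀ he : 0 < ε,
    I.cb ≤ ∫⁻ ω, (I.Z.tpl N he).A (cfg ε ω) ∂sampleLaw :=
  (I.pos_N N).mono fun _ h he => (h he).2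

theorem cb_le : I.cb ≤ 1 := by
  obtain ⟨ε, h1, h2⟩ := ((I.pos (1 / 10) (by norm_num) le_rfl).and self_mem_nhdsWithin).exists
  exact (h1 h2).2.trans prob_le_one

/-- real constants -/
def ccR : ℝ := I.cc.toReal

def cbR : ℝ := I.cb.toReal

theorem ccR_pos : 0 < I.ccR :=
  ENNReal.toReal_pos I.c0 (ne_top_of_le_ne_top ENNReal.one_ne_top I.c1)

theorem cbR_pos : 0 < I.cbR :=
  ENNReal.toReal_pos I.b0 (ne_top_of_le_ne_top ENNReal.one_ne_top I.cb_le)

theorem ofReal_ccR : ENNReal.ofReal I.ccR = I.cc :=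
  ENNReal.ofReal_toReal (ne_top_of_le_ne_top ENNReal.one_ne_top I.c1)

theorem ofReal_cbR : ENNReal.ofReal I.cbR = I.cb :=
  ENNReal.ofReal_toReal (ne_top_of_le_ne_top ENNReal.one_ne_top I.cb_le)

theorem ccR_le : I.ccR ≤ 1 := by
  have := (ENNReal.toReal_le_toReal (ne_top_of_le_ne_top ENNReal.one_ne_top I.c1)
    ENNReal.one_ne_top).2 I.c1
  simpa [ccR] using this

theorem cbR_le : I.cbR ≤ 1 := by
  have := (ENNReal.toReal_le_toReal (ne_top_of_le_ne_top ENNReal.one_ne_top I.cb_le)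
    ENNReal.one_ne_top).2 I.cb_le
  simpa [cbR] using this

/-- **`PosP`** of the family, with the constants -/
theorem posP' (N : ℕ) : ∀ᶠ ε : ℝ in 𝓝[>] 0, ∀ he : 0 < ε,
    ENNReal.ofReal I.ccR ≤ I.Z.c N ε ∧
      ENNReal.ofReal I.cbR ≤ ∫⁻ ω, (I.Z.tpl N he).A (cfg ε ω) ∂sampleLaw := by
  filter_upwards [I.mass N] with ε h he
  rw [ofReal_ccR, ofReal_cbR]
  exact ⟨le_rfl, h he⟩

/-- **`PosP`** -/
theorem posP : PosP I.Z := ⟨I.ccR, I.ccR_pos, I.cbR, I.cbR_pos, I.posP'⟩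

end PosI

end Crest.Agent.R143.TDatx58
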