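import Crest.Agent.R143.TR_927
import Crest.Agent.R143.B6c_903
import Crest.Agent.R143.LB_654

/-!
# Row 143, block B4 (helper927): transport, form with faces of very small amplitude

* `XOUT'` : literal output of block X (trichotomy; mixing only on the normal faces `T'`)
* `tr2` : (ZF) near the closed arc and `XOUT'` imply `B6Ix903.TR`
-/

set_option autoImplicit false

open scoped Topology Classical

namespace Crest.Agent.R143.TR2x927

open Complex Set Metric Filter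
open Crest.ProbabilityR.Voronoi
open Crest.Agent.R143.B0x346 Crest.Agent.R143.B0Dx346 Crest.Agent.R143.PP1x831
open Crest.Agent.R143.TwoSx927 Crest.Agent.R143.B4x927 Crest.Agent.R143.SecUx927
open Crest.Agent.R143.TRx927 Crest.Agent.R143.B6Ix903
open Crest.Agent.R143.B1bx796 (touch)

/-- **literal output of block X** (`s0` = tail exponent of the winding): for two networks which agree
near `z`, either all amplitudes of the first one are at most `ε ^ A`, or all amplitudes of the second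
one are at most `ε ^ (2 A)`, or there are common lifts and a set `T'` of normal faces with mixing, the
amplitudes of the other faces being at most `ε ^ A` in both networks -/
def XOUT' : Prop := ∀ (π : Par) (δ δ' : ℝ), 0 < δ → 0 < δ' → ∀ κ : ℝ, 0 < κ → κ < 1 / 2 →
  ∀ A : ℝ, 0 < A → ∃ s0 : ℝ, 0 < s0 ∧ ∀ s : ℝ, 0 < s → s ≤ s0 → ∃ c C0 : ℝ, 0 < c ∧ 0 < C0 ∧
    ∀ᶠ ε : ℝ in 𝓝[>] 0, ∀ (D D' : Dom) (ω ω' : Sample) (z : ℂ),
      At π δ ε D ω z → At π δ' ε D' ω' z →
      (∀ s : ℂ, ‖s - z‖ < π.R → (s ∈ points ε ω ↔ s ∈ points ε ω')) →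
      (∀ t ∈ touch z (ε ^ κ) (D.sites ε ω), ‖(net D ε ω).Q t‖ ≤ ε ^ A) ∨
      (∀ t ∈ touch z (ε ^ κ) (D.sites ε ω), ‖(net D' ε ω').Q t‖ ≤ ε ^ (2 * A)) ∨
      ∃ l : LiftData, ∃ T' ⊆ touch z (ε ^ κ) (D.sites ε ω),
        MixN (net D ε ω) (net D' ε ω') T' l s ε c C0 ∧
        ∀ t ∈ touch z (ε ^ κ) (D.sites ε ω), t ∉ T' →
          ‖(net D ε ω).Q t‖ ≤ ε ^ A ∧ ‖(net D' ε ω').Q t‖ ≤ ε ^ A

/-- crude bound of the amplitude -/
theorem norm_Q_le (N : Net ℂ) (t : ℂ × ℂ × ℂ) : ‖N.Q t‖ ≤ 3 := by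
  unfold Net.Q
  have h1 : ∀ k : ZMod 3, ‖(N.triA t k : ℂ) * omz k‖ ≤ 1 := by
    intro k
    have h2 : ‖omz k‖ = 1 := by
      unfold omz om
      rw [norm_pow, Complex.norm_exp_ofReal_mul_I, one_pow]
    have h3 : 0 ≤ N.triA t k := by unfold Net.triA; positivity
    rw [norm_mul, h2, mul_one, Complex.norm_real, Real.norm_of_nonneg h3]
    unfold Net.triA
    apply div_le_one_of_le₀ _ (by positivity)
    exact_mod_cast Finset.card_filter_le _ _
  calc _ ≤ ∑ k : ZMod 3, ‖(N.triA t k : ℂ) * omz k‖ := norm_sum_le _ _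
    _ ≤ ∑ _k : ZMod 3, (1 : ℝ) := Finset.sum_le_sum fun k _ => h1 k
    _ = 3 := by simp [ZMod.card]

/-- **the transport `TR`** from (ZF) near the closed arc and the output of block X -/
theorem tr2 {V : Set ℂ} (hV : IsOpen V)
    (hVa : ∀ φ ∈ Icc (0 : ℝ) (2 * Real.pi / 3), Complex.exp (φ * Complex.I) ∈ V) (hZF : ZF V)
    (hX : XOUT') : TR := by
  intro π δ δ' hδ hδ' κ hκ hκ2 A hA
  obtain ⟨s1, hs1, hs1p, hs1Z⟩ := zf_sec hV hVa hZF
  obtain ⟨s0, hs0, hXs⟩ := hX π δ δ' hδ hδ' κ hκ hκ2 A hA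
  set s : ℝ := min s0 s1 with hs
  have hs' : 0 < s := lt_min hs0 hs1
  obtain ⟨c1, C0, hc1, hC0, hX1⟩ := hXs s hs' (min_le_left _ _)
  obtain ⟨C, c, hC, hc0, hc1', hb4⟩ := b4Sec hs' ((min_le_right _ _).trans hs1p)
    (hs1Z s (min_le_right _ _))
  set η : ℝ → ℝ := fun ε => |2 * err C c (crd C0 ε)
    (Real.exp (-(c1 * Real.log (1 / ε)))) (rhoS ε)| with hη
  have herr : Tendsto (fun ε : ℝ => err C c (crd C0 ε)
      (Real.exp (-(c1 * Real.log (1 / ε)))) (rhoS ε)) (𝓝[>] 0) (𝓝 0) :=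
    (err_tendsto' (by linarith : (0 : ℝ) ≤ C) hc0 hc1' hC0 hc1).comp log_inv_tendsto
  have hηt : Tendsto η (𝓝[>] 0) (𝓝 0) := by
    have := (herr.const_mul 2).abs
    rwa [mul_zero, abs_zero] at this
  refine ⟨η, hηt, ?_⟩
  have hrho : Tendsto rhoS (𝓝[>] 0) (𝓝 0) := by
    unfold rhoS
    exact Real.tendsto_exp_neg_atTop_nhds_zero.comp
      (Real.tendsto_sqrt_atTop.comp log_inv_tendsto)
  filter_upwards [hX1, B6cx903.ev_sm π hδ hκ (by linarith), B6cx903.ev_sm π hδ' hκ (by linarith),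
    herr.eventually (gt_mem_nhds (show (0 : ℝ) < 1 by norm_num)),
    hrho.eventually (gt_mem_nhds (show 0 < min (s / 2) 1 by positivity)),
    rpow_small hA (show (0 : ℝ) < 1 / 2 by norm_num),
    self_mem_nhdsWithin, log_inv_tendsto.eventually_ge_atTop 1] with
    ε hXe hs1 hs2 he hr hA2 hε hu D D' ω ω' z h h' hp
  have hε0 : 0 < ε := hε
  refine LBx654.dich (Real.rpow_pos_of_pos hε0 A) hA2.le (abs_nonneg _) (by norm_num)
    (fun t _ => norm_Q_le _ t) ?_
  rcases hXe D D' ω ω' z h h' hp with h1 | h1 | ⟨l, T', hT', hl, h1⟩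
  · exact Or.inl h1
  · refine Or.inr (Or.inl fun t ht => (h1 t ht).trans (le_of_eq ?_))
    rw [← Real.rpow_natCast (ε ^ A) 2, ← Real.rpow_mul hε0.le]
    norm_num
    ring_nf
  · have hu2 : 1 ≤ crd C0 ε := Real.one_le_rpow hu hC0.le
    have hTs : (T' : Set (ℂ × ℂ × ℂ)) ⊆ (delT (D.sites ε ω) : Set (ℂ × ℂ × ℂ)) := by
      intro t ht
      exact (Finset.mem_filter.mp (hT' ht)).1
    have hTs' : (T' : Set (ℂ × ℂ × ℂ)) ⊆ (delT (D'.sites ε ω') : Set (ℂ × ℂ × ℂ)) := by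
      intro t ht
      have := hT' ht
      rw [h.touch_eq h' hs1 hp] at this
      exact (Finset.mem_filter.mp this).1
    obtain ⟨lam, -, hlam⟩ := hb4 (D.sites ε ω) (D'.sites ε ω') (net D ε ω) (net D' ε ω')
      (h.hnet hs1) (h'.hnet hs2) _ hTs hTs' l.pt l.lf l.lf' l.a0 l.a0'
      (crd C0 ε) (Real.exp (-(c1 * Real.log (1 / ε)))) (rhoS ε)
      (Real.exp_pos _)
      (by
        have : Real.exp (-(c1 * Real.log (1 / ε))) ≤ 1 := by
          apply Real.exp_le_one_iff.mpr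
          have : 0 ≤ c1 * Real.log (1 / ε) := mul_nonneg hc1.le (by linarith)
          linarith
        linarith)
      (Real.exp_pos _)
      (by have := min_le_left (s / 2) 1; linarith)
      (by have := min_le_right (s / 2) 1; linarith)
      hl.pos hl.pos'
      hl.lo hl.lo' hl.up hl.up'
      (by rw [← rpow_eq_exp hε0]; exact hl.mix)
      he.le
    refine Or.inr (Or.inr ⟨T', hT', lam, fun t ht => (hlam t ht).trans ?_, h1⟩)
    have h2 : 2 * err C c (crd C0 ε) (Real.exp (-(c1 * Real.log (1 / ε)))) (rhoS ε) ≤ η ε :=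
      le_abs_self _
    have h3 := mul_le_mul_of_nonneg_right h2 (norm_nonneg ((net D ε ω).Q t))
    have h4 : 0 ≤ ε ^ A * (1 + ‖lam‖) := by
      have := Real.rpow_pos_of_pos hε0 A
      positivity
    linarith

end Crest.Agent.R143.TR2x927
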