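import Crest.Agent.R143.SecU_927
import Crest.Agent.R143.B6I_903

/-!
Row 143, block B4 (helper927): lifts, mixing at real `z` (`LiftData`, `MixN`), small facts.  The literal
output `XOUT'` of block X and the transport are in `TR2_927`.
-/

set_option autoImplicit false

open scoped Topology Classical

namespace Crest.Agent.R143.TRx927

open Complex Set Metric Filter
open Crest.ProbabilityR.Voronoi
open Crest.Agent.R143.B0x346 Crest.Agent.R143.B0Dx346 Crest.Agent.R143.PP1x831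
open Crest.Agent.R143.TwoSx927 Crest.Agent.R143.B4x927 Crest.Agent.R143.SecUx927
open Crest.Agent.R143.B6Ix903 Crest.Agent.R143.Y0x831
open Crest.Agent.R143.B1bx796 (touch)

/-- the short real segment `[1, 1 + rho ε]` -/
noncomputable def rhoS (ε : ℝ) : ℝ := Real.exp (-Real.sqrt (Real.log (1 / ε)))

/-- choice of base points and of lifts at the common faces of two networks -/
structure LiftData where
  pt : ℂ × ℂ × ℂ → ℂ
  lf : ℂ × ℂ × ℂ → ℤ → ℝ
  lf' : ℂ × ℂ × ℂ → ℤ → ℝ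
  a0 : ℂ × ℂ × ℂ → ℝ
  a0' : ℂ × ℂ × ℂ → ℝ

/-- winding polynomial of the face `t` in the first network at the real point `x` -/
noncomputable def LiftData.X (l : LiftData) (N : Net ℂ) (t : ℂ × ℂ × ℂ) (x : ℝ) : ℝ :=
  (N.X t (l.pt t) (l.lf t) (l.a0 t) (x : ℂ)).re

/-- winding polynomial of the face `t` in the second network at the real point `x` -/
noncomputable def LiftData.X' (l : LiftData) (N : Net ℂ) (t : ℂ × ℂ × ℂ) (x : ℝ) : ℝ :=
  (N.X t (l.pt t) (l.lf' t) (l.a0' t) (x : ℂ)).re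

/-- the crude bound: `exp (log (1 / ε) ^ C0)` (any power of the logarithm is allowed) -/
noncomputable def crd (C0 ε : ℝ) : ℝ := Real.log (1 / ε) ^ C0

/-- **mixing at real `z` for two networks** on the common faces `T`: admissible lifts, very crude
bounds (lower at `1`, upper on `[e^{-s}, e^{s}]`), cross ratios close to one on the short segment -/
structure MixN (N N' : Net ℂ) (T : Finset (ℂ × ℂ × ℂ)) (l : LiftData) (s ε c C0 : ℝ) : Prop where
  pos : ∀ t ∈ T, Pos N t (l.pt t) (l.lf t) (l.a0 t)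
  pos' : ∀ t ∈ T, Pos N' t (l.pt t) (l.lf' t) (l.a0' t)
  lo : ∀ t ∈ T, Real.exp (-crd C0 ε) ≤ l.X N t 1
  lo' : ∀ t ∈ T, Real.exp (-crd C0 ε) ≤ l.X' N' t 1
  up : ∀ t ∈ T, ∀ x ∈ Icc (Real.exp (-s)) (Real.exp s), l.X N t x ≤ Real.exp (crd C0 ε)
  up' : ∀ t ∈ T, ∀ x ∈ Icc (Real.exp (-s)) (Real.exp s), l.X' N' t x ≤ Real.exp (crd C0 ε)
  mix : ∀ x ∈ Icc (1 : ℝ) (1 + rhoS ε), ∀ s ∈ T, ∀ t ∈ T,
    |l.X N t x * l.X' N' s x - l.X N s x * l.X' N' t x| ≤ ε ^ c * (l.X N s x * l.X' N' t x)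

/-! ### small facts -/

/-- the error tends to zero also for `L = u ^ C0` -/
theorem err_tendsto' {C c C0 c1 : ℝ} (hC : 0 ≤ C) (hc0 : 0 < c) (hc1 : c ≤ 1) (hC0 : 0 < C0)
    (hc1' : 0 < c1) :
    Tendsto (fun u : ℝ => err C c (u ^ C0) (Real.exp (-(c1 * u))) (Real.exp (-Real.sqrt u)))
      atTop (𝓝 0) := by
  have h1 : Tendsto (fun u : ℝ => C * (Real.exp (-(c1 * c / 2 * Real.sqrt u)) * u ^ C0))
      atTop (𝓝 0) := by
    have h2 := tendsto_rpow_mul_exp_neg_mul_atTop_nhds_zero (2 * C0) (c1 * c / 2)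
      (by positivity)
    have h3 := (h2.comp Real.tendsto_sqrt_atTop).const_mul C
    rw [mul_zero] at h3
    refine h3.congr' ?_
    filter_upwards [eventually_ge_atTop (0 : ℝ)] with u hu
    simp only [Function.comp]
    have h4 : Real.sqrt u ^ (2 * C0) = u ^ C0 := by
      rw [Real.sqrt_eq_rpow, ← Real.rpow_mul hu]
      congr 1
      ring
    rw [h4]
    ring_nf
  refine squeeze_zero' ?_ ?_ h1
  · filter_upwards [eventually_ge_atTop (0 : ℝ)] with u hu
    exact err_nonneg hC (by positivity) (Real.exp_pos _).le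
  · filter_upwards [eventually_ge_atTop (1 : ℝ)] with u hu
    have hL : 1 ≤ u ^ C0 := Real.one_le_rpow hu hC0.le
    have h := err_le (C := C) (c := c) (C0 := u ^ C0 / u) (c1 := c1) (u := u) hC hc0 hc1
      (by positivity) hc1'.le hu (by rw [div_mul_cancel₀ _ (by positivity)]; exact hL)
    rwa [div_mul_cancel₀ _ (by positivity)] at h

theorem log_inv_tendsto : Tendsto (fun ε : ℝ => Real.log (1 / ε)) (𝓝[>] 0) atTop := by
  have h1 : Tendsto (fun ε : ℝ => 1 / ε) (𝓝[>] 0) atTop := by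
    simpa using tendsto_inv_nhdsGT_zero (𝕜 := ℝ)
  exact Real.tendsto_log_atTop.comp h1

theorem rad_tendsto (C : ℝ) : Tendsto (fun ε : ℝ => rad C ε) (𝓝[>] 0) (𝓝 0) := by
  have h1 : Tendsto (fun u : ℝ => C * (u * Real.exp (-u))) atTop (𝓝 0) := by
    have := (Real.tendsto_pow_mul_exp_neg_atTop_nhds_zero 1).const_mul C
    simpa using this
  have h2 := h1.comp log_inv_tendsto
  have h3 : Tendsto (fun ε : ℝ => ‖rad C ε‖) (𝓝[>] 0) (𝓝 0) := by
    have h4 : Tendsto (fun ε : ℝ => ‖((fun u : ℝ => C * (u * Real.exp (-u))) ∘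
        fun ε : ℝ => Real.log (1 / ε)) ε‖) (𝓝[>] 0) (𝓝 0) := by
      simpa using h2.norm
    refine squeeze_zero' (Eventually.of_forall fun _ => norm_nonneg _) ?_ h4
    filter_upwards [self_mem_nhdsWithin, log_inv_tendsto.eventually_ge_atTop 1] with ε hε hu
    have hε0 : 0 < ε := hε
    simp only [Function.comp, rad, norm_mul, Real.norm_eq_abs]
    rw [mul_assoc]
    apply mul_le_mul_of_nonneg_left _ (abs_nonneg _)
    have h5 : Real.exp (-Real.log (1 / ε)) = ε := by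
      rw [Real.exp_neg, Real.exp_log (by positivity)]; simp
    rw [h5, abs_of_pos hε0, abs_of_nonneg (Real.sqrt_nonneg _), abs_of_pos (by linarith), mul_comm]
    apply mul_le_mul_of_nonneg_right _ hε0.le
    rw [Real.sqrt_le_left (by linarith)]
    nlinarith
  exact tendsto_zero_iff_norm_tendsto_zero.mpr h3

theorem rad_small (C : ℝ) {b : ℝ} (hb : 0 < b) : ∀ᶠ ε : ℝ in 𝓝[>] 0, rad C ε < b :=
  (rad_tendsto C).eventually (gt_mem_nhds hb)

theorem rpow_small {κ b : ℝ} (hκ : 0 < κ) (hb : 0 < b) : ∀ᶠ ε : ℝ in 𝓝[>] 0, ε ^ κ < b := by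
  have h1 : Tendsto (fun ε : ℝ => ε ^ κ) (𝓝[>] 0) (𝓝 0) := by
    have := (Real.continuousAt_rpow_const 0 κ (Or.inr hκ.le)).tendsto
    rw [Real.zero_rpow hκ.ne'] at this
    exact this.mono_left nhdsWithin_le_nhds
  exact h1.eventually (gt_mem_nhds hb)

theorem rpow_eq_exp {ε : ℝ} (hε : 0 < ε) (c : ℝ) : ε ^ c = Real.exp (-(c * Real.log (1 / ε))) := by
  rw [Real.rpow_def_of_pos hε, one_div, Real.log_inv]
  ring_nf

end Crest.Agent.R143.TRx927
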