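import Crest.Agent.R143.DefsN_346
import Crest.Agent.R143.Bsum_848

/-!
# Row 143 (S0194), CORE-C: the two languages (helper395)

`h : HNet S N` with three different cells at the source face.

* `card_tj_eq` : `4 * #(N.tj t) = nE (cm h)` as soon as `N.tj t` is nonempty
* `Q_nE` : `N.Q t * nE = 4 (nT + ω² nT + ω⁴ nT)` for every triangle
* **`TT_rs`** : `TT N z * nE (cm h) = 12 ω * rs (cm h) (fld (REz z)) (inr 0)` for every `z : ℂ → ℂ`
-/

set_option autoImplicit false

noncomputable section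

open scoped Classical

namespace Crest.Agent.R143.TTrsx395

open Crest.Agent.R143.B0x346 Crest.Agent.R143.DelGx806 Crest.Agent.R143.DelRx806
  Crest.Agent.R143.JCardx872 Crest.Agent.R143.Planarx54 Crest.Agent.R143.Sidesx697
  Crest.Agent.R143.DefsNx346
open Crest.Agent.R143.Frame1x395 Crest.Agent.R143.Frame2x395 Crest.Agent.R143.Frame3x395
  Crest.Agent.R143.Frame4x395 Crest.Agent.R143.Frame5x395 Crest.Agent.R143.Frame6x395
  Crest.Agent.R143.Frame7x395 Crest.Agent.R143.Frame8x395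
open Crest.Agent.R143.Bsumx848 (rr TT)

variable {S : Finset ℂ} {N : Net ℂ} {t : ℂ × ℂ × ℂ}

theorem r1 (h : HNet S N) : (cm h).rho (Sum.inr 0 : Dt S) = Sum.inr 2 := by
  show (Sum.inr (0 - 1) : Dt S) = Sum.inr 2
  congr 1

theorem r2 (h : HNet S N) : (cm h).rho (Sum.inr 2 : Dt S) = Sum.inr 1 := by
  show (Sum.inr (2 - 1) : Dt S) = Sum.inr 1
  congr 1

/-- the three cells at the source face are different -/
def Dis3 (S : Finset ℂ) (N : Net ℂ) : Prop :=
  ∀ k : ZMod 3, ce S N (Sum.inr k) ≠ ce S N (Sum.inr (k - 1))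

theorem sub3 : ∀ k : ZMod 3, k - 1 - 1 - 1 = k := by decide

theorem nG_src (h : HNet S N) (hd : Dis3 S N) (k : ZMod 3) :
    4 * nG (cm h) (Sum.inr k) = nE (cm h) :=
  nG_eq (hd k) (hd (k - 1)) (by
    have := hd (k - 1 - 1)
    rwa [sub3 k] at this)

theorem nZ_src (h : HNet S N) (hd : Dis3 S N) : 4 * nZ (cm h) (Sum.inr 0) = nE (cm h) := by
  have h1 := nE_eq (M := cm h) (Sum.inr 0)
  rw [r1, r2] at h1
  have h2 := nG_src h hd 0
  have h3 := nG_src h hd 1
  have h4 := nG_src h hd 2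
  omega

theorem card_tj_le (h : HNet S N) (ht : t ∈ delT S) :
    (N.tj t).card ≤ nZ (cm h) (Sum.inr 0) := by
  rcases (N.tj t).eq_empty_or_nonempty with he | ⟨J0, hJ0⟩
  · rw [he]; simp
  have hJ0' := mem_joins.1 hJ0
  have hC0 := toY_isC h ht hJ0'
  unfold nZ
  refine Finset.card_le_card_of_injOn (fun J d => toY S J d + toY S J0 d) ?_ ?_
  · intro J hJ
    have hJ' := mem_joins.1 (Finset.mem_coe.1 hJ)
    have hC := toY_isC h ht hJ'
    refine Finset.mem_coe.2 (Finset.mem_filter.2 ⟨mu _, isC_add' hC hC0, ?_, ?_, ?_⟩)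
    · show (1 : ZMod 2) + 1 = 0
      decide
    · rw [r1]
      show (1 : ZMod 2) + 1 = 0
      decide
    · rw [r1, r2]
      show (1 : ZMod 2) + 1 = 0
      decide
  · intro J hJ J' hJ' e
    have h1 := mem_joins.1 (Finset.mem_coe.1 hJ)
    have h2 := mem_joins.1 (Finset.mem_coe.1 hJ')
    have e2 : toY S J = toY S J' := by
      funext d
      exact add_right_cancel (congrFun e d)
    rw [← ofY_toY h h1, ← ofY_toY h h2, e2]

/-- **the number of joins** -/
theorem card_tj_eq (h : HNet S N) (hd : Dis3 S N) (ht : t ∈ delT S) (hne : (N.tj t).Nonempty) :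
    4 * (N.tj t).card = nE (cm h) := by
  have h1 := card_tj_le h ht
  have h2 := nZ_src h hd
  have h3 := card_tj h ht hne
  have h4 : (nE (cm h) : ℝ) ≤ 4 * ((N.tj t).card : ℝ) := by linarith
  have h5 : nE (cm h) ≤ 4 * (N.tj t).card := by exact_mod_cast h4
  omega

/-- `N.Q t` in terms of thetas, all triangles -/
theorem Q_nE (h : HNet S N) (hd : Dis3 S N) (ht : t ∈ delT S) :
    N.Q t * (nE (cm h) : ℂ) = 4 * ((nT (cm h) (Sum.inr 0) (sdt h ht 0) : ℂ) +
      om ^ 2 * nT (cm h) (Sum.inr 0) ((cm h).rho (sdt h ht 0)) +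
      (om ^ 2) ^ 2 * nT (cm h) (Sum.inr 0) ((cm h).rho ((cm h).rho (sdt h ht 0)))) := by
  rcases (N.tj t).eq_empty_or_nonempty with he | hne
  · have hz : ∀ k, (nT (cm h) (Sum.inr 0) (sdt h ht (-k)) : ℂ) = 0 := by
      intro k
      rw [← card_tri h ht k, he]
      simp
    have hQ : N.Q t = 0 := by
      unfold Net.Q
      refine Finset.sum_eq_zero fun k _ => ?_
      unfold Net.triA
      rw [he]
      simp
    have a0 := hz 0
    have a1 := hz 1
    have a2 := hz 2
    rw [show -(0 : ZMod 3) = 0 by decide] at a0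
    rw [show -(1 : ZMod 3) = 0 + 1 + 1 by decide, ← rho_sdt, ← rho_sdt] at a1
    rw [show -(2 : ZMod 3) = 0 + 1 by decide, ← rho_sdt] at a2
    rw [a0, a1, a2, hQ]
    ring
  · have h1 := card_tj_eq h hd ht hne
    have h2 : (nE (cm h) : ℂ) = 4 * ((N.tj t).card : ℂ) := by exact_mod_cast h1.symm
    rw [h2, ← Q_eq h ht hne]
    ring

/-- small field with the values `z` at the sites -/
def REz (S : Finset ℂ) (z : ℂ → ℂ) (e : ℂ × ℂ) : ℂ :=
  z (th S e) + om * z e.1 + om ^ 2 * z e.2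

theorem REz_id : REz S (fun v => v) = RE S := rfl

theorem spin_REz (h : HNet S N) (z : ℂ → ℂ) : Spin (cm h) (om ^ 2) (fld (S := S) (REz S z)) := by
  refine spin_fld h fun a b c ht => ?_
  unfold REz
  rw [th_eq h ht, th_eq h (rot_mem h ht)]
  simp only
  linear_combination (- z a - om * z b) * om3

/-- **`T` of the end point formula = block sum of the root block** -/
theorem TT_rs (h : HNet S N) (hd : Dis3 S N) (z : ℂ → ℂ) :
    TT N z * (nE (cm h) : ℂ) = 12 * om * rs (cm h) (fld (REz S z)) (Sum.inr 0) := by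
  have hs := spin_REz h z
  set a : Dt S → ℂ := fld (REz S z) with ha
  set G : Dt S → ℂ := fun d => (nT (cm h) (Sum.inr 0) d : ℂ) with hG
  have h0 : rs (cm h) a (Sum.inr 0) = ∑ d, a d * G d := by
    rw [rs_pairT (fld_src h _ 0)]
  -- sum over the triangles = sum over the inner darts
  set K : Dt S → ℂ := fun d => om * a d * (4 * (G d + om ^ 2 * G ((cm h).rho d) +
    (om ^ 2) ^ 2 * G ((cm h).rho ((cm h).rho d)))) with hK
  have h1 : TT N z * (nE (cm h) : ℂ) = ∑ d : Dt S, K d := by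
    unfold TT
    rw [Finset.sum_mul, h.tri]
    have e1 : ∑ d : Dt S, K d = ∑ e : {e : ℂ × ℂ // e ∈ sd S}, K (Sum.inl e) := by
      rw [Fintype.sum_sum_type]
      have : ∑ k : ZMod 3, K (Sum.inr k) = 0 := by
        refine Finset.sum_eq_zero fun k _ => ?_
        show om * (0 : ℂ) * _ = 0
        ring
      rw [this, add_zero]
    rw [e1]
    refine Finset.sum_bij (fun t ht => (⟨(t.1, t.2.1), mem_sd.2 ⟨t.2.2, ht⟩⟩ :
      {e : ℂ × ℂ // e ∈ sd S})) ?_ ?_ ?_ ?_
    · intro t ht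
      exact mu _
    · rintro ⟨a1, b1, c1⟩ ht ⟨a2, b2, c2⟩ ht' e
      have e2 := congrArg Subtype.val e
      simp only [Prod.mk.injEq] at e2
      obtain ⟨rfl, rfl⟩ := e2
      have e3 := th_eq h ht
      rw [th_eq h ht'] at e3
      rw [e3]
    · rintro ⟨⟨a1, b1⟩, he⟩ _
      exact ⟨(a1, b1, th S (a1, b1)), th_spec he, rfl⟩
    · intro t ht
      have e2 : sdt h ht 0 = Sum.inl ⟨(t.1, t.2.1), mem_sd.2 ⟨t.2.2, ht⟩⟩ := by
        show Sum.inl _ = Sum.inl _
        congr 1
      rw [mul_assoc, Q_nE h hd ht, e2]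
      show rr z t * _ = om * REz S z (t.1, t.2.1) * _
      congr 1
      unfold rr REz
      rw [th_eq h ht]
      simp only
      linear_combination (- z t.2.1) * om3
  rw [h1, h0]
  have hsum : ∑ d : Dt S, K d = 4 * om * (∑ d, a d * G d) +
      4 * om * (∑ d, a ((cm h).rho d) * G ((cm h).rho d)) +
      4 * om * (∑ d, a ((cm h).rho ((cm h).rho d)) * G ((cm h).rho ((cm h).rho d))) := by
    rw [Finset.mul_sum, Finset.mul_sum, Finset.mul_sum, ← Finset.sum_add_distrib,
      ← Finset.sum_add_distrib]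
    refine Finset.sum_congr rfl fun d _ => ?_
    rw [hs ((cm h).rho d), hs d]
    simp only [hK]
    ring
  have s1 : ∑ d, a ((cm h).rho d) * G ((cm h).rho d) = ∑ d, a d * G d :=
    Equiv.sum_comp (rhoE (cm h)) fun d => a d * G d
  have s2 : ∑ d, a ((cm h).rho ((cm h).rho d)) * G ((cm h).rho ((cm h).rho d)) =
      ∑ d, a d * G d := by
    rw [← s1]
    exact Equiv.sum_comp (rhoE (cm h)) fun d => a ((cm h).rho d) * G ((cm h).rho d)
  rw [hsum, s1, s2]
  ring

theorem nE_ne (h : HNet S N) : (nE (cm h) : ℂ) ≠ 0 := by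
  have := nE_pos h
  exact_mod_cast this.ne'

/-- the same with the expectation given the pattern -/
theorem TT_EV (h : HNet S N) (hd : Dis3 S N) (z : ℂ → ℂ) :
    TT N z = 3 * om * EV (cm h) (fld (REz S z)) (Sum.inr 0) := by
  have h1 := TT_rs h hd z
  have h2 : (nE (cm h) : ℂ) = 4 * (nG (cm h) (Sum.inr 0 : Dt S) : ℂ) := by
    exact_mod_cast (nG_src h hd 0).symm
  have h3 := nE_ne h
  have h4 : (nG (cm h) (Sum.inr 0 : Dt S) : ℂ) ≠ 0 := by
    intro hc
    rw [hc, mul_zero] at h2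
    exact h3 h2
  unfold EV
  rw [mul_div_assoc', eq_div_iff h4]
  rw [h2] at h1
  linear_combination h1 / 4

/-- colour switching -/
theorem switch_z (h : HNet S N) (z : ℂ → ℂ) (k : ZMod 3) :
    rs (cm h) (fld (REz S z)) (Sum.inr k) =
      om ^ 2 * rs (cm h) (fld (REz S z)) (Sum.inr (k - 1)) :=
  rs_rot (spin_REz h z) (fld_src h _ k)

theorem nG_src_eq (h : HNet S N) (hd : Dis3 S N) (k : ZMod 3) :
    nG (cm h) (Sum.inr k : Dt S) = nG (cm h) (Sum.inr 0 : Dt S) := by
  have h1 := nG_src h hd k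
  have h2 := nG_src h hd 0
  omega

/-- all three patterns: `E V(γ_k) = ω^(2k) ω² T / 3` -/
theorem EV_k (h : HNet S N) (hd : Dis3 S N) (z : ℂ → ℂ) (k : ZMod 3) :
    3 * EV (cm h) (fld (REz S z)) (Sum.inr k) = om ^ 2 * (om ^ 2) ^ k.val * TT N z := by
  have key : ∀ j : ZMod 3, EV (cm h) (fld (REz S z)) (Sum.inr j) =
      om ^ 2 * EV (cm h) (fld (REz S z)) (Sum.inr (j - 1)) := by
    intro j
    unfold EV
    rw [switch_z h z j, nG_src_eq h hd j, nG_src_eq h hd (j - 1)]
    ring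
  have h0 := TT_EV h hd z
  have o3 := om3
  have k1 := key 1
  have k2 := key 2
  rw [show (1 : ZMod 3) - 1 = 0 by decide] at k1
  rw [show (2 : ZMod 3) - 1 = 1 by decide] at k2
  rcases z3 k with rfl | rfl | rfl
  · rw [h0, show ZMod.val (0 : ZMod 3) = 0 from rfl]
    linear_combination (-3 * EV (cm h) (fld (REz S z)) (Sum.inr 0)) * o3
  · rw [h0, k1, show ZMod.val (1 : ZMod 3) = 1 from rfl]
    linear_combination (-3 * om ^ 2 * EV (cm h) (fld (REz S z)) (Sum.inr 0)) * o3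
  · rw [h0, k2, k1, show ZMod.val (2 : ZMod 3) = 2 from rfl]
    linear_combination (-3 * om ^ 4 * EV (cm h) (fld (REz S z)) (Sum.inr 0)) * o3

end Crest.Agent.R143.TTrsx395
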