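import Crest.Agent.R143.Jan_304
import Crest.Agent.R143.TasI_372

/-!
# Row 143, block N3, leaf FKG (helper139): positive association of the annealed coloured Poisson
configuration

* `Mono c F` : `F` is increasing in the points with `c`, decreasing in the points without `c`
* `J_fkg` : `J μ F * J μ G ≤ J μ (F * G)` for `Mono c` functionals with values in `[0, 1]`
* `fkg_fun` : the same for `sampleLaw` and local functionals
* `fkg_event`, `fkg_event_dec`, `fkg_event_mixed` : events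
* `fkg : TasIx372.FKG`
-/

set_option autoImplicit false
set_option linter.unusedSectionVars false
set_option linter.unusedVariables false

noncomputable section

namespace Crest.Agent.R143.TasFKGx139

open MeasureTheory Set Filter Topology
open Crest.ProbabilityR.Voronoi
open Crest.Agent.R143.PP0x831 Crest.Agent.R143.Poisx304 Crest.Agent.R143.Janx304
  Crest.Agent.R143.TasIx372
open scoped ENNReal Nat

section general

variable {E : Type*} [MeasurableSpace E]

/-- `F` is increasing in the `c` points and decreasing in the others (finite configurations) -/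
def Mono (c : E → Prop) (F : Set E → ℝ≥0∞) : Prop := ∀ X Y : Set E, X.Finite → Y.Finite →
  (∀ e, c e → e ∈ X → e ∈ Y) → (∀ e, ¬ c e → e ∈ Y → e ∈ X) → F X ≤ F Y

/-- values at most one on finite configurations -/
def Le1 (F : Set E → ℝ≥0∞) : Prop := ∀ S : Set E, S.Finite → F S ≤ 1

lemma P_mono (μ : Measure E) {F G : Set E → ℝ≥0∞}
    (h : ∀ S : Set E, S.Finite → F S ≤ G S) (n : ℕ) : P μ n F ≤ P μ n G :=
  lintegral_mono fun z => h _ (finite_range z)

lemma Q_mono (μ : Measure E) {F G : Set E → ℝ≥0∞}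
    (h : ∀ S : Set E, S.Finite → F S ≤ G S) (n : ℕ) : Q μ n F ≤ Q μ n G := by
  unfold Q
  gcongr
  exact P_mono μ h n

lemma J_mono (μ : Measure E) {F G : Set E → ℝ≥0∞}
    (h : ∀ S : Set E, S.Finite → F S ≤ G S) : J μ F ≤ J μ G := by
  unfold J
  gcongr with n
  exact Q_mono μ h n

lemma J_le1 (μ : Measure E) [IsFiniteMeasure μ] {F : Set E → ℝ≥0∞} (h : Le1 F) : J μ F ≤ 1 :=
  (J_mono μ h).trans (J_const μ 1).le

lemma P_one (μ : Measure E) [IsFiniteMeasure μ] (n : ℕ) : P μ n (fun _ => 1) = μ univ ^ n := by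
  unfold P
  rw [lintegral_const, Measure.pi_univ, Finset.prod_const, Finset.card_univ, Fintype.card_fin,
    one_mul]

lemma J_add_const (μ : Measure E) [IsFiniteMeasure μ] (F : Set E → ℝ≥0∞) (c : ℝ≥0∞) :
    J μ (fun S => F S + c) = J μ F + c := by
  have h : ∀ n : ℕ, Q μ n (fun S => F S + c) = Q μ n F + Q μ n (fun _ => c) := by
    intro n
    unfold Q P
    rw [← mul_add, lintegral_add_right _ measurable_const]
  conv_rhs => rw [← J_const μ c]
  unfold J
  simp only [h]
  rw [ENNReal.tsum_add, mul_add]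

lemma Q_one' (μ : Measure E) [IsFiniteMeasure μ] {F : Set E → ℝ≥0∞} (hF : FM F) :
    Q μ 1 F = ∫⁻ a, F {a} ∂μ := by
  have h := Q_succ μ 0 hF
  simp only [zero_add, Nat.cast_one, one_mul, Q_zero] at h
  rw [h]
  simp only [insert_empty_eq]

/-- the Poisson weight -/
def w (μ : Measure E) : ℝ≥0∞ := ENNReal.ofReal (Real.exp (-(μ univ).toReal))

lemma J_split (μ : Measure E) (F : Set E → ℝ≥0∞) :
    J μ F = w μ * (Q μ 0 F + Q μ 1 F) + w μ * ∑' n : ℕ, Q μ (n + 2) F := by
  have h : ∀ q : ℕ → ℝ≥0∞, ∑' n, q n = (q 0 + q 1) + ∑' n, q (n + 2) := by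
    intro q
    rw [tsum_eq_zero_add' ENNReal.summable, tsum_eq_zero_add' (f := fun n => q (n + 1))
      ENNReal.summable, add_assoc]
  unfold J w
  rw [← mul_add, h fun n => Q μ n F]

lemma tail_le (μ : Measure E) [IsFiniteMeasure μ] {F : Set E → ℝ≥0∞} (h : Le1 F) :
    w μ * ∑' n : ℕ, Q μ (n + 2) F ≤ μ univ ^ 2 := by
  have h1 : ∀ n : ℕ, Q μ (n + 2) F ≤ μ univ ^ 2 * Q μ n (fun _ => 1) := by
    intro n
    refine (Q_mono μ h (n + 2)).trans ?_
    unfold Q
    rw [P_one, P_one, mul_left_comm, ← pow_add, add_comm 2 n]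
    gcongr
    exact Nat.le_add_right n 2
  calc w μ * ∑' n : ℕ, Q μ (n + 2) F ≤ w μ * ∑' n : ℕ, μ univ ^ 2 * Q μ n (fun _ => 1) := by
        gcongr with n
        exact h1 n
    _ = μ univ ^ 2 * J μ (fun _ => 1) := by
        rw [ENNReal.tsum_mul_left, mul_left_comm]
        rfl
    _ = μ univ ^ 2 := by rw [J_const, mul_one]

lemma rearr {a b a' b' : ℝ≥0∞} (h : (a ≤ a' ∧ b ≤ b') ∨ (a' ≤ a ∧ b' ≤ b)) :
    a * b' + a' * b ≤ a * b + a' * b' := by
  rcases h with ⟨h1, h2⟩ | ⟨h1, h2⟩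
  · obtain ⟨x, rfl⟩ := exists_add_of_le h1
    obtain ⟨y, rfl⟩ := exists_add_of_le h2
    calc a * (b + y) + (a + x) * b ≤ a * (b + y) + (a + x) * b + x * y := le_self_add
      _ = a * b + (a + x) * (b + y) := by ring
  · obtain ⟨x, rfl⟩ := exists_add_of_le h1
    obtain ⟨y, rfl⟩ := exists_add_of_le h2
    calc (a' + x) * b' + a' * (b' + y) ≤ (a' + x) * b' + a' * (b' + y) + x * y := le_self_add
      _ = (a' + x) * (b' + y) + a' * b' := by ring

variable {c : E → Prop}

lemma small (μ : Measure E) [IsFiniteMeasure μ] {F G : Set E → ℝ≥0∞} (hF : FM F) (hG : FM G)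
    (mF : Mono c F) (mG : Mono c G) (lF : Le1 F) (lG : Le1 G) :
    J μ F * J μ G ≤ J μ (fun S => F S * G S) + 3 * μ univ ^ 2 := by
  set p := μ univ with hp
  have hJ1 : J μ (fun _ : Set E => (1 : ℝ≥0∞)) = 1 := J_const μ 1
  have hw1 : w μ * (1 + p) ≤ 1 := by
    have h := J_split μ (fun _ : Set E => (1 : ℝ≥0∞))
    rw [hJ1, Q_zero] at h
    have h1 : Q μ 1 (fun _ : Set E => (1 : ℝ≥0∞)) = p := by
      unfold Q
      rw [P_one]
      simp [hp]
    rw [h1] at h
    calc w μ * (1 + p) ≤ _ := le_self_add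
      _ = 1 := h.symm
  have hw : w μ ≤ 1 := by
    calc w μ = w μ * 1 := (mul_one _).symm
      _ ≤ w μ * (1 + p) := by gcongr; exact le_self_add
      _ ≤ 1 := hw1
  set a := w μ * (Q μ 0 F + Q μ 1 F) with ha
  set b := w μ * (Q μ 0 G + Q μ 1 G) with hb
  have hFs : J μ F = a + w μ * ∑' n : ℕ, Q μ (n + 2) F := J_split μ F
  have hGs : J μ G = b + w μ * ∑' n : ℕ, Q μ (n + 2) G := J_split μ G
  have htF := tail_le μ lF
  have htG := tail_le μ lG
  set rF := w μ * ∑' n : ℕ, Q μ (n + 2) F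
  set rG := w μ * ∑' n : ℕ, Q μ (n + 2) G
  have ha1 : a ≤ 1 := le_self_add.trans (hFs.symm.le.trans (J_le1 μ lF))
  have hG1 : J μ G ≤ 1 := J_le1 μ lG
  have hmain : a * b ≤ J μ (fun S => F S * G S) + p ^ 2 := by
    have hFG : FM fun S => F S * G S := fun n => (hF n).mul (hG n)
    have hQF : Q μ 1 F = ∫⁻ a, F {a} ∂μ := Q_one' μ hF
    have hQG : Q μ 1 G = ∫⁻ a, G {a} ∂μ := Q_one' μ hG
    have hQFG : Q μ 1 (fun S => F S * G S) = ∫⁻ a, F {a} * G {a} ∂μ := Q_one' μ hFG
    have mF1 : Measurable fun a : E => F {a} := by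
      have := hF.insert_meas 0
      have h2 := this.comp (measurable_id.prodMk (measurable_const (a := (Fin.elim0 : Fin 0 → E))))
      simpa [Function.comp_def, range_eq_empty] using h2
    have mG1 : Measurable fun a : E => G {a} := by
      have := hG.insert_meas 0
      have h2 := this.comp (measurable_id.prodMk (measurable_const (a := (Fin.elim0 : Fin 0 → E))))
      simpa [Function.comp_def, range_eq_empty] using h2
    have hcross : F ∅ * Q μ 1 G + Q μ 1 F * G ∅ ≤ p * (F ∅ * G ∅) + Q μ 1 (fun S => F S * G S) := by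
      rw [hQF, hQG, hQFG, ← lintegral_const_mul _ mG1, ← lintegral_mul_const _ mF1,
        ← lintegral_add_left (mG1.const_mul _)]
      have h1 : p * (F ∅ * G ∅) = ∫⁻ _, F ∅ * G ∅ ∂μ := by rw [lintegral_const, mul_comm]
      rw [h1, ← lintegral_add_left measurable_const]
      refine lintegral_mono fun e => rearr ?_
      by_cases hc : c e
      · left
        have h : ∀ H : Set E → ℝ≥0∞, Mono c H → H ∅ ≤ H {e} := fun H hH =>
          hH ∅ {e} finite_empty (finite_singleton e) (fun _ _ h => absurd h (notMem_empty _))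
            (fun x hx h => absurd (h ▸ hc : c x) hx)
        exact ⟨h F mF, h G mG⟩
      · right
        have h : ∀ H : Set E → ℝ≥0∞, Mono c H → H {e} ≤ H ∅ := fun H hH =>
          hH {e} ∅ (finite_singleton e) finite_empty
            (fun x hx h => absurd ((h : x = e) ▸ hx) hc)
            (fun _ _ h => absurd h (notMem_empty _))
        exact ⟨h F mF, h G mG⟩
    have hQF1 : Q μ 1 F ≤ p := by
      rw [hQF]
      calc ∫⁻ a, F {a} ∂μ ≤ ∫⁻ _, 1 ∂μ := lintegral_mono fun a => lF _ (finite_singleton a)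
        _ = p := by rw [lintegral_const, one_mul]
    have hQG1 : Q μ 1 G ≤ p := by
      rw [hQG]
      calc ∫⁻ a, G {a} ∂μ ≤ ∫⁻ _, 1 ∂μ := lintegral_mono fun a => lG _ (finite_singleton a)
        _ = p := by rw [lintegral_const, one_mul]
    calc a * b = w μ * w μ * (F ∅ * G ∅ + (F ∅ * Q μ 1 G + Q μ 1 F * G ∅) + Q μ 1 F * Q μ 1 G) := by
          rw [ha, hb, Q_zero, Q_zero]; ring
      _ ≤ w μ * w μ * (F ∅ * G ∅ + (p * (F ∅ * G ∅) + Q μ 1 (fun S => F S * G S)) + p * p) := by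
          gcongr
      _ = w μ * (w μ * (1 + p)) * (F ∅ * G ∅) + w μ * w μ * Q μ 1 (fun S => F S * G S) +
            w μ * w μ * (p * p) := by ring
      _ ≤ w μ * 1 * (F ∅ * G ∅) + w μ * 1 * Q μ 1 (fun S => F S * G S) + 1 * 1 * (p * p) := by
          gcongr
      _ = w μ * (Q μ 0 (fun S => F S * G S) + Q μ 1 (fun S => F S * G S)) + p ^ 2 := by
          rw [Q_zero]; ring
      _ ≤ J μ (fun S => F S * G S) + p ^ 2 := by
          gcongr
          rw [J_split]
          exact le_self_add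
  calc J μ F * J μ G = a * b + a * rG + rF * J μ G := by
        rw [hFs, hGs]; ring
    _ ≤ (J μ (fun S => F S * G S) + p ^ 2) + 1 * p ^ 2 + p ^ 2 * 1 := by gcongr
    _ = J μ (fun S => F S * G S) + 3 * p ^ 2 := by ring

lemma Mono.union {F : Set E → ℝ≥0∞} (h : Mono c F) {S : Set E} (hS : S.Finite) :
    Mono c fun T => F (S ∪ T) := fun X Y hX hY h1 h2 =>
  h _ _ (hS.union hX) (hS.union hY)
    (fun e he h => h.elim Or.inl fun h => Or.inr (h1 e he h))
    (fun e he h => h.elim Or.inl fun h => Or.inr (h2 e he h))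

lemma Mono.J (ν : Measure E) {F : Set E → ℝ≥0∞} (h : Mono c F) :
    Mono c fun S => J ν fun T => F (S ∪ T) := fun X Y hX hY h1 h2 =>
  J_mono ν fun T hT => h _ _ (hX.union hT) (hY.union hT)
    (fun e he h => h.elim (fun h => Or.inl (h1 e he h)) Or.inr)
    (fun e he h => h.elim (fun h => Or.inl (h2 e he h)) Or.inr)

lemma Le1.union {F : Set E → ℝ≥0∞} (h : Le1 F) {S : Set E} (hS : S.Finite) :
    Le1 fun T => F (S ∪ T) := fun T hT => h _ (hS.union hT)

lemma Le1.J (ν : Measure E) [IsFiniteMeasure ν] {F : Set E → ℝ≥0∞} (h : Le1 F) :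
    Le1 fun S => J ν fun T => F (S ∪ T) := fun _ hS => J_le1 ν (h.union hS)

lemma FM_union_fin {F : Set E → ℝ≥0∞} (h : FM F) {S : Set E} (hS : S.Finite) :
    FM fun T => F (S ∪ T) := by
  obtain ⟨n, z, hz⟩ := hS.fin_param
  rw [← hz.2]
  exact h.union_range z

lemma tens (ν : Measure E) [IsFiniteMeasure ν] (m : ℕ) : ∀ F G : Set E → ℝ≥0∞, FM F → FM G →
    Mono c F → Mono c G → Le1 F → Le1 G →
      J ((m : ℝ≥0∞) • ν) F * J ((m : ℝ≥0∞) • ν) G ≤
        J ((m : ℝ≥0∞) • ν) (fun S => F S * G S) + m * (3 * ν univ ^ 2) := by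
  induction m with
  | zero => intro F G _ _ _ _ _ _; simp [J_zero]
  | succ m ih =>
    intro F G hF hG mF mG lF lG
    have hfin : IsFiniteMeasure ((m : ℝ≥0∞) • ν) := Measure.smul_finite _ (by simp)
    have hsum : (((m + 1 : ℕ) : ℝ≥0∞)) • ν = ν + (m : ℝ≥0∞) • ν := by
      rw [Nat.cast_add, Nat.cast_one, add_smul, one_smul, add_comm]
    have hFG : FM fun S => F S * G S := fun n => (hF n).mul (hG n)
    rw [hsum, J_add _ _ hF, J_add _ _ hG, J_add _ _ hFG]
    refine (small ν hF.J hG.J (mF.J _) (mG.J _) (lF.J _) (lG.J _)).trans ?_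
    calc J ν (fun S => J ((m : ℝ≥0∞) • ν) (fun T => F (S ∪ T)) *
            J ((m : ℝ≥0∞) • ν) (fun T => G (S ∪ T))) + 3 * ν univ ^ 2
        ≤ J ν (fun S => J ((m : ℝ≥0∞) • ν) (fun T => F (S ∪ T) * G (S ∪ T)) +
            m * (3 * ν univ ^ 2)) + 3 * ν univ ^ 2 := by
          gcongr
          refine J_mono ν fun S hS => ?_
          exact ih _ _ (FM_union_fin hF hS) (FM_union_fin hG hS) (mF.union hS) (mG.union hS)
            (lF.union hS) (lG.union hS)
      _ = _ := by
          rw [J_add_const]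
          push_cast
          ring

/-- positive association of Poisson processes -/
theorem J_fkg (μ : Measure E) [IsFiniteMeasure μ] {F G : Set E → ℝ≥0∞} (hF : FM F) (hG : FM G)
    (mF : Mono c F) (mG : Mono c G) (lF : Le1 F) (lG : Le1 G) :
    J μ F * J μ G ≤ J μ (fun S => F S * G S) := by
  have h1 : ∀ m : ℕ, J μ F * J μ G ≤ J μ (fun S => F S * G S) +
      3 * μ univ ^ 2 * (((m + 1 : ℕ) : ℝ≥0∞))⁻¹ := by
    intro m
    have hm0 : (((m + 1 : ℕ) : ℝ≥0∞)) ≠ 0 := by simp
    have hmt : (((m + 1 : ℕ) : ℝ≥0∞)) ≠ ∞ := ENNReal.natCast_ne_top _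
    have hfin : IsFiniteMeasure ((((m + 1 : ℕ) : ℝ≥0∞))⁻¹ • μ) := Measure.smul_finite _ (by simp)
    have h := tens (c := c) ((((m + 1 : ℕ) : ℝ≥0∞))⁻¹ • μ) (m + 1) F G hF hG mF mG lF lG
    rw [smul_smul, ENNReal.mul_inv_cancel hm0 hmt, one_smul] at h
    refine h.trans (le_of_eq ?_)
    congr 1
    rw [Measure.smul_apply, smul_eq_mul]
    calc (((m + 1 : ℕ) : ℝ≥0∞)) * (3 * ((((m + 1 : ℕ) : ℝ≥0∞))⁻¹ * μ univ) ^ 2)
        = 3 * μ univ ^ 2 * ((((m + 1 : ℕ) : ℝ≥0∞)) * (((m + 1 : ℕ) : ℝ≥0∞))⁻¹) *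
            (((m + 1 : ℕ) : ℝ≥0∞))⁻¹ := by ring
      _ = _ := by rw [ENNReal.mul_inv_cancel hm0 hmt, mul_one]
  have h2 : Tendsto (fun m : ℕ => J μ (fun S => F S * G S) +
      3 * μ univ ^ 2 * (((m + 1 : ℕ) : ℝ≥0∞))⁻¹) atTop
      (𝓝 (J μ (fun S => F S * G S) + 3 * μ univ ^ 2 * 0)) := by
    refine Tendsto.const_add _ (ENNReal.Tendsto.const_mul ?_ (Or.inr ?_))
    · exact ENNReal.tendsto_inv_nat_nhds_zero.comp (tendsto_add_atTop_nat 1)
    · exact ENNReal.mul_ne_top (by simp) (ENNReal.pow_ne_top (measure_ne_top μ _))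
  have h3 := ge_of_tendsto' h2 h1
  rwa [mul_zero, add_zero] at h3

end general

/-! ## the sample law -/

/-- black -/
def blackP (p : ℂ × Bool) : Prop := p.2 = true

lemma LocalOn.mono {A : Type*} {B B' : Set ℂ} (h : B ⊆ B') {F : Set (ℂ × Bool) → A}
    (hF : LocalOn B F) : LocalOn B' F := by
  intro S
  rw [hF S, hF (S ∩ {p | p.1 ∈ B'}), inter_assoc]
  congr 2
  ext p
  simp only [mem_inter_iff, mem_ofPred_eq]
  exact ⟨fun h' => ⟨h h', h'⟩, fun h' => h'.2⟩

/-- `∫ F ∫ G ≤ ∫ F G` for local functionals with values in `[0, 1]`, both increasing in the points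
with `c` and decreasing in the others -/
theorem fkg_fun {c : ℂ × Bool → Prop} {ε : ℝ} (hε : 0 < ε) {B : Set ℂ} (hB : MeasurableSet B)
    (hb : Bornology.IsBounded B) {F G : Set (ℂ × Bool) → ℝ≥0∞} (hF : FinMeas F) (hG : FinMeas G)
    (bF : LocalOn B F) (bG : LocalOn B G) (mF : Mono c F) (mG : Mono c G) (lF : Le1 F)
    (lG : Le1 G) :
    (∫⁻ ω, F (cfg ε ω) ∂sampleLaw) * (∫⁻ ω, G (cfg ε ω) ∂sampleLaw) ≤
      ∫⁻ ω, F (cfg ε ω) * G (cfg ε ω) ∂sampleLaw := by
  have hFG : FinMeas fun S => F S * G S := fun n => (hF n).mul (hG n)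
  have bFG : LocalOn B fun S => F S * G S := fun S => by
    show F S * G S = _
    rw [bF S, bG S]
  have := finite_mu hε hb
  rw [(jan ε hε B hB hb F bF hF).2, (jan ε hε B hB hb G bG hG).2,
    (jan ε hε B hB hb (fun S => F S * G S) bFG hFG).2, ← J_eq_janossy hε hb hF,
    ← J_eq_janossy hε hb hG, ← J_eq_janossy (F := fun S => F S * G S) hε hb hFG]
  exact J_fkg (c := c) _ hF hG mF mG lF lG

open Classical in
/-- the indicator of a property -/
def ind (P : Set (ℂ × Bool) → Prop) (S : Set (ℂ × Bool)) : ℝ≥0∞ := if P S then 1 else 0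

lemma ind_fm {P : Set (ℂ × Bool) → Prop} (h : FinMeas P) : FinMeas (ind P) := fun n => by
  unfold ind
  exact Measurable.ite (measurableSet_setOfPred.2 (h n)) measurable_const measurable_const

lemma ind_local {B : Set ℂ} {P : Set (ℂ × Bool) → Prop} (h : LocalOn B P) : LocalOn B (ind P) :=
  fun S => by
    have h1 := h S
    unfold ind
    rw [← h1]

lemma ind_le1 (P : Set (ℂ × Bool) → Prop) : Le1 (ind P) := fun S _ => by
  unfold ind
  split_ifs <;> simp

lemma ind_mul (P P' : Set (ℂ × Bool) → Prop) (S : Set (ℂ × Bool)) :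
    ind P S * ind P' S = ind (fun S => P S ∧ P' S) S := by
  unfold ind
  by_cases h1 : P S <;> by_cases h2 : P' S <;> simp [h1, h2]

/-- monotone properties of finite coloured configurations -/
def MonoP (c : ℂ × Bool → Prop) (P : Set (ℂ × Bool) → Prop) : Prop :=
  ∀ X Y : Set (ℂ × Bool), X.Finite → Y.Finite →
    (∀ e, c e → e ∈ X → e ∈ Y) → (∀ e, ¬ c e → e ∈ Y → e ∈ X) → P X → P Y

lemma MonoP.ind {c : ℂ × Bool → Prop} {P : Set (ℂ × Bool) → Prop} (h : MonoP c P) :
    Mono c (ind P) := fun X Y hX hY h1 h2 => by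
  have h3 := h X Y hX hY h1 h2
  unfold TasFKGx139.ind
  split_ifs with h4 h5
  · exact le_rfl
  · exact absurd (h3 h4) h5
  · exact bot_le
  · exact le_rfl

lemma MonoP.and {c : ℂ × Bool → Prop} {P P' : Set (ℂ × Bool) → Prop} (h : MonoP c P)
    (h' : MonoP c P') : MonoP c fun S => P S ∧ P' S := fun X Y hX hY h1 h2 h3 =>
  ⟨h X Y hX hY h1 h2 h3.1, h' X Y hX hY h1 h2 h3.2⟩

lemma MonoP.not {c : ℂ × Bool → Prop} {P : Set (ℂ × Bool) → Prop} (h : MonoP c P) :
    MonoP (fun e => ¬ c e) fun S => ¬ P S := fun X Y hX hY h1 h2 h3 h4 =>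
  h3 (h Y X hY hX (fun e he => h2 e (not_not.2 he)) h1 h4)

lemma monoP_of_inc {P : Set (ℂ × Bool) → Prop} (h : Inc P) : MonoP blackP P :=
  fun X Y hX hY h1 h2 => h X Y hX hY (fun z => h1 (z, true) rfl)
    (fun z => h2 (z, false) (by simp [blackP]))

lemma inc_of_monoP {P : Set (ℂ × Bool) → Prop} (h : MonoP blackP P) : Inc P :=
  fun X Y hX hY h1 h2 => h X Y hX hY
    (fun e he => by
      obtain ⟨z, b⟩ := e
      obtain rfl : b = true := he
      exact h1 z)
    (fun e he => by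
      obtain ⟨z, b⟩ := e
      obtain rfl : b = false := by
        simpa [blackP] using he
      exact h2 z)

lemma lint_ind {ε : ℝ} (hε : 0 < ε) {B : Set ℂ} (hB : MeasurableSet B)
    (hb : Bornology.IsBounded B) {P : Set (ℂ × Bool) → Prop} (hP : FinMeas P) (bP : LocalOn B P) :
    MeasurableSet {ω : Sample | P (cfg ε ω)} ∧
      ∫⁻ ω, ind P (cfg ε ω) ∂sampleLaw = sampleLaw {ω | P (cfg ε ω)} := by
  have hm := (jan ε hε B hB hb (ind P) (ind_local bP) (ind_fm hP)).1
  have h1 : MeasurableSet {ω : Sample | P (cfg ε ω)} := by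
    have h2 : {ω : Sample | P (cfg ε ω)} = (fun ω => ind P (cfg ε ω)) ⁻¹' {1} := by
      ext ω
      simp only [mem_ofPred_eq, mem_preimage, mem_singleton_iff, ind]
      split_ifs with h <;> simp [h]
    rw [h2]
    exact hm (measurableSet_singleton 1)
  refine ⟨h1, ?_⟩
  rw [← lintegral_indicator_one h1]
  refine lintegral_congr fun ω => ?_
  unfold ind indicator
  simp only [mem_ofPred_eq, Pi.one_apply]

/-- **(FKG)** for events of the points of a bounded Borel set, any colour predicate -/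
theorem fkg_event {c : ℂ × Bool → Prop} {ε : ℝ} (hε : 0 < ε) {B : Set ℂ} (hB : MeasurableSet B)
    (hb : Bornology.IsBounded B) {P P' : Set (ℂ × Bool) → Prop} (hP : FinMeas P)
    (hP' : FinMeas P') (bP : LocalOn B P) (bP' : LocalOn B P') (mP : MonoP c P)
    (mP' : MonoP c P') :
    sampleLaw {ω | P (cfg ε ω)} * sampleLaw {ω | P' (cfg ε ω)} ≤
      sampleLaw {ω | P (cfg ε ω) ∧ P' (cfg ε ω)} := by
  have h := fkg_fun (c := c) hε hB hb (ind_fm hP) (ind_fm hP') (ind_local bP) (ind_local bP')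
    mP.ind mP'.ind (ind_le1 P) (ind_le1 P')
  have hPP : FinMeas fun S => P S ∧ P' S := fun n =>
    measurableSet_setOfPred.1 ((measurableSet_setOfPred.2 (hP n)).inter (measurableSet_setOfPred.2 (hP' n)))
  have bPP : LocalOn B fun S => P S ∧ P' S := fun S => by
    have h1 := bP S
    have h2 := bP' S
    show (P S ∧ P' S) = _
    rw [h1, h2]
  rw [(lint_ind hε hB hb hP bP).2, (lint_ind hε hB hb hP' bP').2] at h
  simp only [ind_mul] at h
  rwa [(lint_ind hε hB hb hPP bPP).2] at h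

/-- increasing and decreasing events are negatively associated -/
theorem fkg_event_mixed {c : ℂ × Bool → Prop} {ε : ℝ} (hε : 0 < ε) {B : Set ℂ}
    (hB : MeasurableSet B) (hb : Bornology.IsBounded B) {P P' : Set (ℂ × Bool) → Prop}
    (hP : FinMeas P) (hP' : FinMeas P') (bP : LocalOn B P) (bP' : LocalOn B P')
    (mP : MonoP c P) (mP' : MonoP (fun e => ¬ c e) P') :
    sampleLaw {ω | P (cfg ε ω) ∧ P' (cfg ε ω)} ≤
      sampleLaw {ω | P (cfg ε ω)} * sampleLaw {ω | P' (cfg ε ω)} := by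
  have mN : MonoP c fun S => ¬ P' S := by
    have := mP'.not
    simpa only [not_not] using this
  have hN : FinMeas fun S => ¬ P' S := fun n =>
    measurableSet_setOfPred.1 (measurableSet_setOfPred.2 (hP' n)).compl
  have bN : LocalOn B fun S => ¬ P' S := fun S => by
    have h2 := bP' S
    show (¬ P' S) = _
    rw [h2]
  have h := fkg_event (c := c) hε hB hb hP hN bP bN mP mN
  have m1 := (lint_ind hε hB hb hP bP).1
  have m2 := (lint_ind hε hB hb hP' bP').1
  have e1 : {ω : Sample | ¬ P' (cfg ε ω)} = {ω : Sample | P' (cfg ε ω)}ᶜ := rfl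
  have e2 : {ω : Sample | P (cfg ε ω) ∧ ¬ P' (cfg ε ω)} =
      {ω : Sample | P (cfg ε ω)} \ {ω : Sample | P' (cfg ε ω)} := rfl
  have e3 : {ω : Sample | P (cfg ε ω) ∧ P' (cfg ε ω)} =
      {ω : Sample | P (cfg ε ω)} ∩ {ω : Sample | P' (cfg ε ω)} := rfl
  have hpr : IsProbabilityMeasure sampleLaw := by
    rw [sampleLaw]; infer_instance
  rw [e1, e2, prob_compl_eq_one_sub m2] at h
  rw [e3]
  set A : Set Sample := {ω : Sample | P (cfg ε ω)}
  set A' : Set Sample := {ω : Sample | P' (cfg ε ω)}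
  have h3 := measure_inter_add_sdiff A m2 (μ := sampleLaw)
  have h4 : sampleLaw A * sampleLaw A' + sampleLaw A * (1 - sampleLaw A') = sampleLaw A := by
    rw [← mul_add, add_tsub_cancel_of_le prob_le_one, mul_one]
  have hne : sampleLaw (A \ A') ≠ ∞ := measure_ne_top _ _
  have h5 : sampleLaw (A ∩ A') + sampleLaw (A \ A') ≤ sampleLaw A * sampleLaw A' +
      sampleLaw (A \ A') := by
    rw [h3]
    calc sampleLaw A = sampleLaw A * sampleLaw A' + sampleLaw A * (1 - sampleLaw A') := h4.symm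
      _ ≤ _ := by gcongr
  exact (ENNReal.add_le_add_iff_right hne).1 h5

/-- **leaf (FKG)** of the interface `TasI_372` -/
theorem fkg : TasIx372.FKG := by
  intro E F hE hF
  have hpr : IsProbabilityMeasure sampleLaw := by
    rw [sampleLaw]; infer_instance
  have main : ∀ δ : ℝ≥0∞, 0 < δ → ∃ B : Set ℂ, MeasurableSet B ∧ Bornology.IsBounded B ∧
      ∃ P : Set (ℂ × Bool) → Prop, Inc P ∧ LocalOn B P ∧ FinMeas P ∧
        sampleLaw (symmDiff (E ∩ F) {ω | P (cfg 1 ω)}) ≤ δ ∧
        sampleLaw E * sampleLaw F ≤ sampleLaw (E ∩ F) + 4 * δ := by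
    intro δ hδ
    obtain ⟨B1, hB1, hb1, P1, i1, l1, m1, d1⟩ := hE (min (δ / 2) 1) (by simp [hδ.ne'])
    obtain ⟨B2, hB2, hb2, P2, i2, l2, m2, d2⟩ := hF (min (δ / 2) 1) (by simp [hδ.ne'])
    have l1' := LocalOn.mono (subset_union_left (s := B1) (t := B2)) l1
    have l2' := LocalOn.mono (subset_union_right (s := B1) (t := B2)) l2
    have hB := hB1.union hB2
    have hb := hb1.union hb2
    set A1 : Set Sample := {ω | P1 (cfg 1 ω)} with hA1
    set A2 : Set Sample := {ω | P2 (cfg 1 ω)} with hA2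
    have hsub : symmDiff (E ∩ F) {ω | P1 (cfg 1 ω) ∧ P2 (cfg 1 ω)} ⊆ symmDiff E A1 ∪ symmDiff F A2 := by
      intro ω hω
      simp only [Set.mem_symmDiff, mem_inter_iff, mem_ofPred_eq, mem_union, hA1, hA2] at hω ⊢
      tauto
    have hd : sampleLaw (symmDiff (E ∩ F) {ω | P1 (cfg 1 ω) ∧ P2 (cfg 1 ω)}) ≤
        min (δ / 2) 1 + min (δ / 2) 1 :=
      (measure_mono hsub).trans ((measure_union_le _ _).trans (add_le_add d1 d2))
    have hδ2 : min (δ / 2) 1 + min (δ / 2) 1 ≤ δ := by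
      calc min (δ / 2) 1 + min (δ / 2) 1 ≤ δ / 2 + δ / 2 := by
            gcongr <;> exact min_le_left _ _
        _ = δ := ENNReal.add_halves δ
    refine ⟨B1 ∪ B2, hB, hb, fun S => P1 S ∧ P2 S, ?_, ?_, ?_, hd.trans hδ2, ?_⟩
    · exact inc_of_monoP ((monoP_of_inc i1).and (monoP_of_inc i2))
    · intro S
      have h1 := l1' S
      have h2 := l2' S
      show (P1 S ∧ P2 S) = _
      rw [h1, h2]
    · exact fun n => measurableSet_setOfPred.1
        ((measurableSet_setOfPred.2 (m1 n)).inter (measurableSet_setOfPred.2 (m2 n)))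
    · have hk := fkg_event (c := blackP) (ε := 1) one_pos hB hb m1 m2 l1' l2' (monoP_of_inc i1)
        (monoP_of_inc i2)
      have le_of_symm : ∀ (X Y : Set Sample) (d : ℝ≥0∞), sampleLaw (symmDiff X Y) ≤ d →
          sampleLaw X ≤ sampleLaw Y + d := fun X Y d h => by
        have h1 : X ⊆ Y ∪ symmDiff X Y := by
          intro ω hω
          by_cases hY : ω ∈ Y
          · exact Or.inl hY
          · exact Or.inr (Or.inl ⟨hω, hY⟩)
        exact (measure_mono h1).trans ((measure_union_le _ _).trans (by gcongr))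
      have h1 := le_of_symm E A1 _ d1
      have h2 := le_of_symm F A2 _ d2
      have h3 : sampleLaw {ω | P1 (cfg 1 ω) ∧ P2 (cfg 1 ω)} ≤ sampleLaw (E ∩ F) + δ := by
        refine le_of_symm _ _ _ ?_
        rw [symmDiff_comm]
        exact hd.trans hδ2
      set d := min (δ / 2) 1 with hdd
      have hd1 : d ≤ 1 := min_le_right _ _
      have hdδ : d + d ≤ δ := hδ2
      calc sampleLaw E * sampleLaw F ≤ (sampleLaw A1 + d) * (sampleLaw A2 + d) := by gcongr
        _ = sampleLaw A1 * sampleLaw A2 + (sampleLaw A1 * d + d * sampleLaw A2 + d * d) := by ring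
        _ ≤ (sampleLaw (E ∩ F) + δ) + (1 * d + d * 1 + d * 1) := by
            gcongr
            · exact hk.trans h3
            · exact prob_le_one
            · exact prob_le_one
        _ = sampleLaw (E ∩ F) + (δ + (d + d) + d) := by ring
        _ ≤ sampleLaw (E ∩ F) + (δ + δ + (d + d)) := by
            gcongr
            exact le_self_add
        _ ≤ sampleLaw (E ∩ F) + (δ + δ + δ) := by gcongr
        _ ≤ sampleLaw (E ∩ F) + (δ + δ + δ + δ) := by
            gcongr
            exact le_self_add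
        _ = sampleLaw (E ∩ F) + 4 * δ := by ring
  refine ⟨fun δ hδ => ?_, ?_⟩
  · obtain ⟨B, h1, h2, P, h3, h4, h5, h6, -⟩ := main δ hδ
    exact ⟨B, h1, h2, P, h3, h4, h5, h6⟩
  · refine ENNReal.le_of_forall_pos_le_add fun x hx _ => ?_
    have hx' : (0 : ℝ≥0∞) < x := by exact_mod_cast hx
    obtain ⟨-, -, -, -, -, -, -, -, h7⟩ := main ((x : ℝ≥0∞) / 4) (ENNReal.div_pos hx'.ne' (by simp))
    refine h7.trans (le_of_eq ?_)
    congr 1
    exact ENNReal.mul_div_cancel (by simp) (by simp)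

end Crest.Agent.R143.TasFKGx139
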