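import Crest.Agent.R143.TasI_372
import Crest.Agent.R143.Jan_304

/-!
# Row 143 (S0194), block N3: leaf POS (helper176)

With positive probability every unit cell of a window contains exactly one point and this point is
black; then the window (minus a margin) is black.
-/

set_option autoImplicit false

noncomputable section

namespace Crest.Agent.R143.TasPOSx176

open MeasureTheory Set Filter Topology
open Crest.ProbabilityR.Voronoi
open Crest.Agent.R143.PP0x831 Crest.Agent.R143.TasIx372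

/-- the cells of the window -/
def T (M : ℕ) : Finset (ℤ × ℤ) := Finset.Icc (-(M : ℤ)) M ×ˢ Finset.Icc (-(M : ℤ)) M

lemma mem_T {M : ℕ} {k : ℤ × ℤ} :
    k ∈ T M ↔ (-(M : ℤ) ≤ k.1 ∧ k.1 ≤ M) ∧ -(M : ℤ) ≤ k.2 ∧ k.2 ≤ M := by
  simp [T, Finset.mem_product]

def E1 (M : ℕ) : Set (ℤ × ℤ → ℕ) := Set.pi (T M : Set (ℤ × ℤ)) fun _ => {1}

def E2 (M : ℕ) : Set (ℤ × ℤ → ℕ → Fin 3 → unitInterval) :=
  Set.pi (T M : Set (ℤ × ℤ)) fun _ => {u | (u 0 2 : ℝ) < 1 / 2}

lemma pos_E1 (M : ℕ) :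
    (Measure.infinitePi fun _ : ℤ × ℤ => ProbabilityTheory.poissonMeasure 1) (E1 M) ≠ 0 := by
  unfold E1
  rw [Measure.infinitePi_pi _ (fun _ _ => measurableSet_singleton _), Finset.prod_ne_zero_iff]
  intro k _
  rw [ProbabilityTheory.poissonMeasure_singleton]
  simp only [ne_eq, ENNReal.ofReal_eq_zero, not_le]
  positivity

lemma pos_col : (Measure.infinitePi fun _ : ℕ => Measure.pi fun _ : Fin 3 =>
    (volume : Measure unitInterval)) {u | (u 0 2 : ℝ) < 1 / 2} ≠ 0 := by
  have hm : MeasurableSet {x : unitInterval | (x : ℝ) < 1 / 2} :=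
    measurableSet_lt measurable_subtype_coe measurable_const
  have h1 : MeasurePreserving (fun u : ℕ → Fin 3 → unitInterval => u 0)
      (Measure.infinitePi fun _ : ℕ => Measure.pi fun _ : Fin 3 => (volume : Measure unitInterval))
      (Measure.pi fun _ : Fin 3 => (volume : Measure unitInterval)) :=
    measurePreserving_eval_infinitePi _ 0
  have h2 : MeasurePreserving (fun u : Fin 3 → unitInterval => u 2)
      (Measure.pi fun _ : Fin 3 => (volume : Measure unitInterval)) volume :=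
    measurePreserving_eval _ 2
  have h3 := (h2.comp h1).measure_preimage hm.nullMeasurableSet
  have h4 : {u : ℕ → Fin 3 → unitInterval | (u 0 2 : ℝ) < 1 / 2} =
      ((fun u : Fin 3 → unitInterval => u 2) ∘ fun u : ℕ → Fin 3 → unitInterval => u 0) ⁻¹'
        {x : unitInterval | (x : ℝ) < 1 / 2} := rfl
  rw [h4, h3, Janx304.vol_half]
  simp

lemma meas_col : MeasurableSet {u : ℕ → Fin 3 → unitInterval | (u 0 2 : ℝ) < 1 / 2} := by
  apply measurableSet_lt _ measurable_const
  fun_prop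

lemma pos_E2 (M : ℕ) :
    (Measure.infinitePi fun _ : ℤ × ℤ => Measure.infinitePi fun _ : ℕ =>
      Measure.pi fun _ : Fin 3 => (volume : Measure unitInterval)) (E2 M) ≠ 0 := by
  unfold E2
  rw [Measure.infinitePi_pi _ (fun _ _ => meas_col), Finset.prod_ne_zero_iff]
  intro k _
  exact pos_col

/-- the good event -/
def E (M : ℕ) : Set Sample := E1 M ×ˢ E2 M

lemma pos_E (M : ℕ) : 0 < sampleLaw (E M) := by
  unfold E sampleLaw
  rw [Measure.prod_prod, pos_iff_ne_zero]
  exact mul_ne_zero (pos_E1 M) (pos_E2 M)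

lemma point_re (ω : Sample) (k : ℤ × ℤ) (j : ℕ) :
    (point 1 ω k j).re = k.1 + (ω.2 k j 0 : ℝ) := by
  simp [point]

lemma point_im (ω : Sample) (k : ℤ × ℤ) (j : ℕ) :
    (point 1 ω k j).im = k.2 + (ω.2 k j 1 : ℝ) := by
  simp [point]

lemma black_of {M : ℕ} {ω : Sample} (h : ω ∈ E M) {z : ℂ} (h1 : |z.re| ≤ M - 2)
    (h2 : |z.im| ≤ M - 2) : z ∈ Bk (cfg 1 ω) := by
  obtain ⟨hN, hu⟩ := h
  simp only [E1, E2, Set.mem_pi, Finset.mem_coe, mem_singleton_iff, mem_ofPred_eq] at hN hu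
  rw [abs_le] at h1 h2
  have hk0 : ((⌊z.re⌋, ⌊z.im⌋) : ℤ × ℤ) ∈ T M := by
    rw [mem_T]
    have a1 := Int.floor_le z.re
    have a2 := Int.lt_floor_add_one z.re
    have a3 := Int.floor_le z.im
    have a4 := Int.lt_floor_add_one z.im
    refine ⟨⟨?_, ?_⟩, ?_, ?_⟩
    · have : (-(M : ℤ) : ℝ) ≤ (⌊z.re⌋ : ℝ) := by push_cast; linarith
      exact_mod_cast this
    · have : (⌊z.re⌋ : ℝ) ≤ ((M : ℤ) : ℝ) := by push_cast; linarith
      exact_mod_cast this
    · have : (-(M : ℤ) : ℝ) ≤ (⌊z.im⌋ : ℝ) := by push_cast; linarith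
      exact_mod_cast this
    · have : (⌊z.im⌋ : ℝ) ≤ ((M : ℤ) : ℝ) := by push_cast; linarith
      exact_mod_cast this
  obtain ⟨k, hk, hmin⟩ := Finset.exists_min_image (T M) (fun k => ‖z - point 1 ω k 0‖) ⟨_, hk0⟩
  refine ⟨point 1 ω k 0, ⟨(k.1, k.2, 0), ?_, ?_⟩, ?_⟩
  · change 0 < ω.1 (k.1, k.2)
    rw [hN _ hk]
    exact one_pos
  · simp only [Prod.mk.injEq, col, decide_eq_true_eq]
    exact ⟨trivial, hu _ hk⟩
  · rintro _ ⟨⟨q1, q2, j⟩, hq, rfl⟩
    simp only
    by_cases hqT : ((q1, q2) : ℤ × ℤ) ∈ T M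
    · have : j = 0 := by
        have h3 : j < ω.1 (q1, q2) := hq
        rw [hN _ hqT] at h3
        omega
      subst this
      exact hmin _ hqT
    · have b1 : ‖z - point 1 ω k 0‖ ≤ 2 := by
        refine (hmin _ hk0).trans ((Complex.norm_le_abs_re_add_abs_im _).trans ?_)
        have c1 := (ω.2 (⌊z.re⌋, ⌊z.im⌋) 0 0).2
        have c2 := (ω.2 (⌊z.re⌋, ⌊z.im⌋) 0 1).2
        have a1 := Int.floor_le z.re
        have a2 := Int.lt_floor_add_one z.re
        have a3 := Int.floor_le z.im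
        have a4 := Int.lt_floor_add_one z.im
        have d1 : |(z - point 1 ω (⌊z.re⌋, ⌊z.im⌋) 0).re| ≤ 1 := by
          rw [Complex.sub_re, point_re, abs_le]
          simp only [mem_Icc] at c1
          constructor <;> simp only <;> linarith [c1.1, c1.2]
        have d2 : |(z - point 1 ω (⌊z.re⌋, ⌊z.im⌋) 0).im| ≤ 1 := by
          rw [Complex.sub_im, point_im, abs_le]
          simp only [mem_Icc] at c2
          constructor <;> simp only <;> linarith [c2.1, c2.2]
        linarith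
      refine b1.trans ?_
      have c1 := (ω.2 (q1, q2) j 0).2
      have c2 := (ω.2 (q1, q2) j 1).2
      simp only [mem_Icc] at c1 c2
      by_cases hre : 2 ≤ |(z - point 1 ω (q1, q2) j).re|
      · exact hre.trans (Complex.abs_re_le_norm _)
      by_cases him : 2 ≤ |(z - point 1 ω (q1, q2) j).im|
      · exact him.trans (Complex.abs_im_le_norm _)
      exfalso
      apply hqT
      rw [not_le, abs_lt, Complex.sub_re, point_re] at hre
      rw [not_le, abs_lt, Complex.sub_im, point_im] at him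
      simp only at hre him
      rw [mem_T]
      simp only
      refine ⟨⟨?_, ?_⟩, ?_, ?_⟩
      · have : (-(M : ℤ) : ℝ) < (q1 : ℝ) + 1 := by push_cast; linarith [hre.2, c1.2]
        have : -(M : ℤ) < q1 + 1 := by exact_mod_cast this
        omega
      · have : (q1 : ℝ) < ((M : ℤ) : ℝ) + 1 := by push_cast; linarith [hre.1, c1.1]
        have : q1 < (M : ℤ) + 1 := by exact_mod_cast this
        omega
      · have : (-(M : ℤ) : ℝ) < (q2 : ℝ) + 1 := by push_cast; linarith [him.2, c2.2]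
        have : -(M : ℤ) < q2 + 1 := by exact_mod_cast this
        omega
      · have : (q2 : ℝ) < ((M : ℤ) : ℝ) + 1 := by push_cast; linarith [him.1, c2.1]
        have : q2 < (M : ℤ) + 1 := by exact_mod_cast this
        omega

lemma convex_Rc (x0 x1 y0 y1 : ℝ) : Convex ℝ (Rc x0 x1 y0 y1) := by
  intro a ha b hb s t hs ht hst
  simp only [Rc, mem_ofPred_eq] at ha hb ⊢
  simp only [Complex.add_re, Complex.add_im, Complex.real_smul, Complex.mul_re, Complex.mul_im,
    Complex.ofReal_re, Complex.ofReal_im, zero_mul, sub_zero, add_zero]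
  obtain ⟨a1, a2, a3, a4⟩ := ha
  obtain ⟨b1, b2, b3, b4⟩ := hb
  have e : t = 1 - s := by linarith
  subst e
  refine ⟨?_, ?_, ?_, ?_⟩ <;> nlinarith

/-- **(POS)** -/
theorem pos : POS := by
  intro r hr
  obtain ⟨M, hM⟩ := exists_nat_ge (4 * r + 2)
  refine lt_of_lt_of_le (pos_E M) (measure_mono fun ω hω => ?_)
  refine ⟨Rc 0 (4 * r) 0 r, ?_, ?_, ⟨0, ?_, ?_⟩, ⟨((4 * r : ℝ) : ℂ), ?_, ?_⟩⟩
  · exact (convex_Rc _ _ _ _).isPathConnected ⟨0, by simp [Rc]; positivity⟩
  · intro z hz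
    refine ⟨black_of hω ?_ ?_, hz⟩
    · obtain ⟨a1, a2, -, -⟩ := hz
      rw [abs_of_nonneg a1]
      linarith
    · obtain ⟨-, -, a1, a2⟩ := hz
      rw [abs_of_nonneg a1]
      linarith
  · simp only [Rc, mem_ofPred_eq, Complex.zero_re, Complex.zero_im]
    exact ⟨le_rfl, by positivity, le_rfl, hr.le⟩
  · simp
  · simp only [Rc, mem_ofPred_eq, Complex.ofReal_re, Complex.ofReal_im]
    exact ⟨by positivity, le_rfl, le_rfl, hr.le⟩
  · simp

end Crest.Agent.R143.TasPOSx176
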