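import Crest.Agent.R143.TasSQ_565
import Crest.Agent.R143.Jan_304

/-!
# Row 143 (S0194), block N3, leaf POS (helper565): crossings have positive probability

* `Ev s` : every unit cell of the finite set `s` contains exactly one point, which is black
* `Ev_pos`, `Ev_black` : on `Ev` of the square of cells `[-M, M]²` every point of `[-(M-3), M-3]²` is
  in the black region
* `pos_Jn` : joins of a convex set have positive probability
* `pos` : `POS`
-/

set_option autoImplicit false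

noncomputable section

namespace Crest.Agent.R143.TasPOSx565

open MeasureTheory Set Filter Topology
open Crest.ProbabilityR.Voronoi
open Crest.Agent.R143.PP0x831 Crest.Agent.R143.TasIx372 Crest.Agent.R143.TasSQx565

attribute [local instance] Crest.Agent.R143.Y1x126.prob_sampleLaw

/-- every unit cell of `s` contains exactly one point, which is black -/
def Ev (s : Finset (ℤ × ℤ)) : Set Sample :=
  {ω | ∀ k ∈ s, ω.1 k = 1 ∧ (ω.2 k 0 2 : ℝ) < 1 / 2}

theorem Ev_pos (s : Finset (ℤ × ℤ)) : 0 < sampleLaw (Ev s) := by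
  have h : Ev s = (Set.pi (s : Set (ℤ × ℤ)) (fun _ => ({1} : Set ℕ))) ×ˢ
      (Set.pi (s : Set (ℤ × ℤ)) (fun _ => {v : ℕ → Fin 3 → unitInterval | (v 0 2 : ℝ) < 1 / 2})) := by
    ext ω
    constructor
    · intro h
      exact ⟨fun k hk => (h k hk).1, fun k hk => (h k hk).2⟩
    · rintro ⟨h1, h2⟩ k hk
      exact ⟨h1 k hk, h2 k hk⟩
  have hm : MeasurableSet {v : ℕ → Fin 3 → unitInterval | (v 0 2 : ℝ) < 1 / 2} :=
    measurableSet_lt (by fun_prop) measurable_const
  have hv : (Measure.infinitePi fun _ : ℕ => Measure.pi fun _ : Fin 3 =>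
      (volume : Measure unitInterval)) {v : ℕ → Fin 3 → unitInterval | (v 0 2 : ℝ) < 1 / 2} =
      2⁻¹ := by
    have a3 := measurePreserving_eval_infinitePi (fun _ : ℕ => Measure.pi fun _ : Fin 3 =>
            (volume : Measure unitInterval)) 0
    have a4 := measurePreserving_eval (fun _ : Fin 3 => (volume : Measure unitInterval)) 2
    have a5 := (a4.comp a3).measure_preimage (s := {u : unitInterval | (u : ℝ) < 1 / 2})
      (measurableSet_lt (by fun_prop) measurable_const).nullMeasurableSet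
    rw [Crest.Agent.R143.Janx304.vol_half] at a5
    exact a5
  rw [h]
  unfold sampleLaw
  rw [Measure.prod_prod, Measure.infinitePi_pi _ (fun _ _ => measurableSet_singleton _),
    Measure.infinitePi_pi _ (fun _ _ => hm), pos_iff_ne_zero]
  refine mul_ne_zero ?_ ?_
  · rw [Finset.prod_ne_zero_iff]
    intro k _
    rw [ProbabilityTheory.poissonMeasure_singleton]
    simp [Real.exp_pos]
  · rw [Finset.prod_ne_zero_iff]
    intro k _
    rw [hv]
    simp

/-- on `Ev` the middle is black -/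
theorem Ev_black {M : ℤ} (hM : 0 ≤ M) {ω : Sample}
    (h : ω ∈ Ev (Finset.Icc (-M) M ×ˢ Finset.Icc (-M) M)) {z : ℂ} (h1 : |z.re| ≤ M - 3)
    (h2 : |z.im| ≤ M - 3) : z ∈ Bk (cfg 1 ω) := by
  have hin : ∀ k : ℤ × ℤ, |(k.1 : ℝ)| ≤ M → |(k.2 : ℝ)| ≤ M →
      k ∈ (Finset.Icc (-M) M ×ˢ Finset.Icc (-M) M : Finset (ℤ × ℤ)) := by
    intro k a b
    rw [abs_le] at a b
    simp only [Finset.mem_product, Finset.mem_Icc]
    obtain ⟨a1, a2⟩ := a
    obtain ⟨b1, b2⟩ := b
    refine ⟨⟨?_, ?_⟩, ?_, ?_⟩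
    · exact_mod_cast a1
    · exact_mod_cast a2
    · exact_mod_cast b1
    · exact_mod_cast b2
  have hpr : ∀ k ∈ (Finset.Icc (-M) M ×ˢ Finset.Icc (-M) M : Finset (ℤ × ℤ)),
      (point 1 ω k 0, col ω k 0) ∈ cfg 1 ω := by
    intro k hk
    refine ⟨(k.1, k.2, 0), ?_, rfl⟩
    show 0 < ω.1 (k.1, k.2)
    have := (h k hk).1
    simp only [Prod.mk.eta]
    omega
  have hne : (cfg 1 ω).Nonempty := ⟨_, hpr (0, 0) (hin _ (by simpa using hM) (by simpa using hM))⟩
  obtain ⟨p, hp, hmin⟩ := (LF_cfg one_pos hne).near z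
  -- coordinates of points
  have hre : ∀ (k : ℤ × ℤ) (j : ℕ), (point 1 ω k j).re = (k.1 : ℝ) + (ω.2 k j 0 : ℝ) := by
    intro k j; simp [point, -Complex.ofReal_add]
  have him : ∀ (k : ℤ × ℤ) (j : ℕ), (point 1 ω k j).im = (k.2 : ℝ) + (ω.2 k j 1 : ℝ) := by
    intro k j; simp [point, -Complex.ofReal_add]
  have hu : ∀ (k : ℤ × ℤ) (j : ℕ) (i : Fin 3), 0 ≤ (ω.2 k j i : ℝ) ∧ (ω.2 k j i : ℝ) ≤ 1 :=
    fun k j i => (ω.2 k j i).2
  -- the near point
  have hk0 : (⌊z.re⌋, ⌊z.im⌋) ∈ (Finset.Icc (-M) M ×ˢ Finset.Icc (-M) M : Finset (ℤ × ℤ)) := by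
    have a1 := Int.floor_le z.re
    have a2 := Int.lt_floor_add_one z.re
    have b1 := Int.floor_le z.im
    have b2 := Int.lt_floor_add_one z.im
    rw [abs_le] at h1 h2
    apply hin
    · rw [abs_le]; constructor <;> simp only <;> linarith [h1.1, h1.2]
    · rw [abs_le]; constructor <;> simp only <;> linarith [h2.1, h2.2]
  have hd : ‖z - point 1 ω (⌊z.re⌋, ⌊z.im⌋) 0‖ ≤ 2 := by
    refine (Complex.norm_le_abs_re_add_abs_im _).trans ?_
    rw [Complex.sub_re, Complex.sub_im, hre, him]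
    have a1 := Int.floor_le z.re
    have a2 := Int.lt_floor_add_one z.re
    have b1 := Int.floor_le z.im
    have b2 := Int.lt_floor_add_one z.im
    have u0 := hu (⌊z.re⌋, ⌊z.im⌋) 0 0
    have u1 := hu (⌊z.re⌋, ⌊z.im⌋) 0 1
    have c1 : |z.re - ((⌊z.re⌋ : ℝ) + (ω.2 (⌊z.re⌋, ⌊z.im⌋) 0 0 : ℝ))| ≤ 1 := by
      rw [abs_le]; constructor <;> linarith [u0.1, u0.2]
    have c2 : |z.im - ((⌊z.im⌋ : ℝ) + (ω.2 (⌊z.re⌋, ⌊z.im⌋) 0 1 : ℝ))| ≤ 1 := by
      rw [abs_le]; constructor <;> linarith [u1.1, u1.2]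
    linarith
  have hd' : ‖z - p.1‖ ≤ 2 := (hmin _ (hpr _ hk0)).trans hd
  obtain ⟨⟨k1, k2, j⟩, hj, rfl⟩ := hp
  simp only at hd' hmin
  have e1 := (Complex.abs_re_le_norm _).trans hd'
  have e2 := (Complex.abs_im_le_norm _).trans hd'
  rw [Complex.sub_re, hre] at e1
  rw [Complex.sub_im, him] at e2
  have u0 := hu (k1, k2) j 0
  have u1 := hu (k1, k2) j 1
  have hk : (k1, k2) ∈ (Finset.Icc (-M) M ×ˢ Finset.Icc (-M) M : Finset (ℤ × ℤ)) := by
    rw [abs_le] at h1 h2 e1 e2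
    simp only at e1 e2
    apply hin
    · rw [abs_le]; constructor <;> simp only <;> linarith [h1.1, h1.2, e1.1, e1.2, u0.1, u0.2]
    · rw [abs_le]; constructor <;> simp only <;> linarith [h2.1, h2.2, e2.1, e2.2, u1.1, u1.2]
  have hj0 : j = 0 := by
    have a : j < ω.1 (k1, k2) := hj
    rw [(h _ hk).1] at a
    omega
  subst hj0
  refine ⟨point 1 ω (k1, k2) 0, ?_, hmin⟩
  have hc : col ω (k1, k2) 0 = true := by
    simp only [col, decide_eq_true_eq]
    exact (h _ hk).2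
  have := hpr _ hk
  rwa [hc] at this

/-- **joins inside a bounded convex set have positive probability** -/
theorem pos_Jn {K A B : Set ℂ} (hK : Bornology.IsBounded K) (hKc : Convex ℝ K)
    (hA : (K ∩ A).Nonempty) (hB : (K ∩ B).Nonempty) : 0 < sampleLaw (ev K A B) := by
  obtain ⟨R, hR⟩ := hK.subset_closedBall 0
  set M : ℤ := ⌈|R|⌉ + 3 with hM
  have hM0 : 0 ≤ M := by
    have : (0 : ℤ) ≤ ⌈|R|⌉ := Int.ceil_nonneg (abs_nonneg R)
    omega
  refine (Ev_pos (Finset.Icc (-M) M ×ˢ Finset.Icc (-M) M)).trans_le (measure_mono ?_)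
  intro ω hω
  have hb : K ⊆ Bk (cfg 1 ω) := by
    intro z hz
    have h1 : ‖z‖ ≤ R := by simpa using hR hz
    have h2 : R ≤ |R| := le_abs_self R
    have h3 : |R| ≤ ⌈|R|⌉ := Int.le_ceil _
    refine Ev_black hM0 hω ?_ ?_
    · refine (Complex.abs_re_le_norm z).trans ?_
      rw [hM]; push_cast; linarith
    · refine (Complex.abs_im_le_norm z).trans ?_
      rw [hM]; push_cast; linarith
  exact ⟨K, hKc.isPathConnected (hA.mono inter_subset_left), fun z hz => ⟨hb hz, hz⟩, hA, hB⟩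

/-- **(POS)** -/
theorem pos : POS := by
  intro r hr
  refine pos_Jn (isCompact_Rc _ _ _ _).isBounded (convex_Rc _ _ _ _) ⟨⟨0, 0⟩, ?_, rfl⟩
    ⟨⟨4 * r, 0⟩, ?_, rfl⟩
  · exact ⟨le_rfl, by positivity, le_rfl, hr.le⟩
  · refine ⟨?_, le_rfl, le_rfl, hr.le⟩
    show 0 ≤ 4 * r
    positivity

end Crest.Agent.R143.TasPOSx565
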