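import Crest.Agent.R143.TasI_372
import Crest.Agent.R143.G6T_408
import Crest.Agent.R143.PoisM3_930
import Crest.Agent.R202.Miranda

/-!
# Row 143 (S0194), block N3, leaf SQ: crossing of squares (helper120)

* `hex` : a square covered by two closed sets: one of them joins left and right, or the other one
  joins bottom and top
* `pathc` : connected subsets of finite unions of closed convex sets give path connected ones
* `cover_finite`, `cover_all` : the black region of a locally finite configuration in a compact set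
* `mpT` : the reflection in the diagonal with exchange of the colours preserves the sample law
* `sq : SQ`
-/

set_option autoImplicit false

noncomputable section

namespace Crest.Agent.R143.TasSQx120

open MeasureTheory Set Filter Topology
open Crest.ProbabilityR.Voronoi
open Crest.Agent.R143.PP0x831 Crest.Agent.R143.TasIx372

/-! ## topology -/

theorem isCompact_Rc (x0 x1 y0 y1 : ℝ) : IsCompact (Rc x0 x1 y0 y1) := by
  have h : Rc x0 x1 y0 y1 = Icc x0 x1 ×ℂ Icc y0 y1 := by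
    ext z; simp [Rc, Complex.mem_reProdIm, and_assoc]
  rw [h]
  exact IsCompact.reProdIm isCompact_Icc isCompact_Icc

theorem convex_Rc (x0 x1 y0 y1 : ℝ) : Convex ℝ (Rc x0 x1 y0 y1) := by
  intro x hx y hy a b ha hb hab
  obtain ⟨h1, h2, h3, h4⟩ := hx
  obtain ⟨k1, k2, k3, k4⟩ := hy
  have e : b = 1 - a := by linarith
  subst e
  refine ⟨?_, ?_, ?_, ?_⟩ <;>
    simp only [Complex.add_re, Complex.add_im, Complex.smul_re, Complex.smul_im, smul_eq_mul] <;>
    nlinarith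

/-- separating function of two disjoint nonempty closed sets -/
theorem sep_fun {A B : Set ℂ} (hA : IsClosed A) (hB : IsClosed B) (hAn : A.Nonempty)
    (hBn : B.Nonempty) (hd : Disjoint A B) :
    ∃ f : ℂ → ℝ, Continuous f ∧ (∀ z ∈ A, f z < 0) ∧ ∀ z ∈ B, 0 < f z := by
  refine ⟨fun z => Metric.infDist z A - Metric.infDist z B, by fun_prop, fun z hz => ?_,
    fun z hz => ?_⟩
  · have h1 : Metric.infDist z A = 0 := Metric.infDist_zero_of_mem hz
    have h2 : 0 < Metric.infDist z B :=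
      (hB.notMem_iff_infDist_pos hBn).1 (Set.disjoint_left.1 hd hz)
    simp only [h1]; linarith
  · have h1 : Metric.infDist z B = 0 := Metric.infDist_zero_of_mem hz
    have h2 : 0 < Metric.infDist z A :=
      (hA.notMem_iff_infDist_pos hAn).1 (Set.disjoint_right.1 hd hz)
    simp only [h1]; linarith

/-- one half of `hex` -/
theorem half {K F P Q : Set ℂ} (hK : IsCompact K) (hF : IsClosed F) (hP : IsClosed P)
    (hQ : IsClosed Q) (hPQ : Disjoint P Q) (hPn : (K ∩ P).Nonempty) (hQn : (K ∩ Q).Nonempty)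
    (h : ¬ ∃ S ⊆ F ∩ K, IsPreconnected S ∧ (S ∩ P).Nonempty ∧ (S ∩ Q).Nonempty) :
    ∃ f : ℂ → ℝ, Continuous f ∧ (∀ z ∈ K ∩ P, f z < 0) ∧ (∀ z ∈ K ∩ Q, 0 < f z) ∧
      ∀ z ∈ F ∩ K, f z ≠ 0 := by
  have hL : IsCompact (F ∩ K) := hK.inter_left hF
  obtain ⟨W, W', hW, hW', hWW, hdis, h1, h2⟩ := G6Tx408.cut hL hP hQ (by
    intro S hS hc hSP hSQ
    exact h ⟨S, hS, hc, hSP, hSQ⟩)
  have hA : IsClosed (W ∪ K ∩ P) := hW.isClosed.union (hK.isClosed.inter hP)
  have hB : IsClosed (W' ∪ K ∩ Q) := hW'.isClosed.union (hK.isClosed.inter hQ)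
  have hd : Disjoint (W ∪ K ∩ P) (W' ∪ K ∩ Q) := by
    rw [Set.disjoint_left]
    rintro z (hz | hz) (hz' | hz')
    · exact Set.disjoint_left.1 hdis hz hz'
    · have hzL : z ∈ F ∩ K := by rw [← hWW]; exact Or.inl hz
      exact Set.disjoint_left.1 hdis hz (h2 ⟨hzL, hz'.2⟩)
    · have hzL : z ∈ F ∩ K := by rw [← hWW]; exact Or.inr hz'
      exact Set.disjoint_left.1 hdis (h1 ⟨hzL, hz.2⟩) hz'
    · exact Set.disjoint_left.1 hPQ hz.2 hz'.2
  obtain ⟨f, hf, hf1, hf2⟩ := sep_fun hA hB (hPn.mono subset_union_right)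
    (hQn.mono subset_union_right) hd
  refine ⟨f, hf, fun z hz => hf1 z (Or.inr hz), fun z hz => hf2 z (Or.inr hz), fun z hz => ?_⟩
  rw [← hWW] at hz
  rcases hz with hz | hz
  · exact (hf1 z (Or.inl hz)).ne
  · exact (hf2 z (Or.inl hz)).ne'

/-- a square covered by two closed sets -/
theorem hex {s : ℝ} (hs : 0 < s) {F1 F2 : Set ℂ} (h1 : IsClosed F1) (h2 : IsClosed F2)
    (hcov : Rc 0 s 0 s ⊆ F1 ∪ F2) :
    (∃ S ⊆ F1 ∩ Rc 0 s 0 s, IsPreconnected S ∧ (S ∩ {z | z.re = 0}).Nonempty ∧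
      (S ∩ {z | z.re = s}).Nonempty) ∨
    (∃ S ⊆ F2 ∩ Rc 0 s 0 s, IsPreconnected S ∧ (S ∩ {z | z.im = 0}).Nonempty ∧
      (S ∩ {z | z.im = s}).Nonempty) := by
  by_contra hcon
  rw [not_or] at hcon
  obtain ⟨hc1, hc2⟩ := hcon
  have hK := isCompact_Rc 0 s 0 s
  have hre : ∀ a : ℝ, IsClosed {z : ℂ | z.re = a} := fun a =>
    isClosed_eq Complex.continuous_re continuous_const
  have him : ∀ a : ℝ, IsClosed {z : ℂ | z.im = a} := fun a =>
    isClosed_eq Complex.continuous_im continuous_const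
  obtain ⟨f, hf, f1, f2, f3⟩ := half hK h1 (hre 0) (hre s)
    (by
      rw [Set.disjoint_left]; intro z hz hz'
      simp only [mem_ofPred_eq] at hz hz'
      linarith)
    ⟨0, by simp [Rc, hs.le], by simp⟩ ⟨(s : ℂ), by simp [Rc, hs.le], by simp⟩ hc1
  obtain ⟨g, hg, g1, g2, g3⟩ := half hK h2 (him 0) (him s)
    (by
      rw [Set.disjoint_left]; intro z hz hz'
      simp only [mem_ofPred_eq] at hz hz'
      linarith)
    ⟨0, by simp [Rc, hs.le], by simp⟩ ⟨⟨0, s⟩, by simp [Rc, hs.le], by simp⟩ hc2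
  set φ : (Fin 2 → ℝ) → ℂ := fun x => ⟨s * (x 0 + 1) / 2, s * (x 1 + 1) / 2⟩ with hφ
  have hφc : Continuous φ := by
    have : φ = fun x => ((s * (x 0 + 1) / 2 : ℝ) : ℂ) + ((s * (x 1 + 1) / 2 : ℝ) : ℂ) * Complex.I := by
      funext x
      apply Complex.ext <;> simp [hφ]
    rw [this]
    fun_prop
  have hφK : ∀ x ∈ Set.pi (Set.univ : Set (Fin 2)) (fun _ => Set.Icc (-1 : ℝ) 1),
      φ x ∈ Rc 0 s 0 s := by
    intro x hx
    have h0 := hx 0 (mem_univ _)
    have h1 := hx 1 (mem_univ _)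
    refine ⟨?_, ?_, ?_, ?_⟩ <;> simp only [hφ] <;> nlinarith [h0.1, h0.2, h1.1, h1.2]
  obtain ⟨x, hx, hx0⟩ := R202.poincare_miranda (ι := Fin 2)
    (fun x i => if i = 0 then f (φ x) else g (φ x))
    (by
      apply Continuous.continuousOn
      apply continuous_pi
      intro i
      by_cases hi : i = 0
      · simp only [hi, if_true]; exact hf.comp hφc
      · simp only [hi, if_false]; exact hg.comp hφc)
    (by
      intro x hx i hi
      by_cases h0 : i = 0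
      · subst h0
        simp only [if_true]
        refine (f2 _ ⟨hφK x hx, ?_⟩).le
        simp only [mem_ofPred_eq, hφ, hi]; ring
      · have h1 : i = 1 := by omega
        subst h1
        simp only [h0, if_false]
        refine (g2 _ ⟨hφK x hx, ?_⟩).le
        simp only [mem_ofPred_eq, hφ, hi]; ring)
    (by
      intro x hx i hi
      by_cases h0 : i = 0
      · subst h0
        simp only [if_true]
        refine (f1 _ ⟨hφK x hx, ?_⟩).le
        simp only [mem_ofPred_eq, hφ, hi]; ring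
      · have h1 : i = 1 := by omega
        subst h1
        simp only [h0, if_false]
        refine (g1 _ ⟨hφK x hx, ?_⟩).le
        simp only [mem_ofPred_eq, hφ, hi]; ring)
  have e0 := hx0 0
  have e1 := hx0 1
  simp only [if_true] at e0
  simp only [show (1 : Fin 2) ≠ 0 by decide, if_false] at e1
  rcases hcov (hφK x hx) with h | h
  · exact f3 _ ⟨h, hφK x hx⟩ e0
  · exact g3 _ ⟨h, hφK x hx⟩ e1

/-- a connected subset of a finite union of closed convex sets can be replaced by a path connected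
one -/
theorem pathc {ι : Type*} {s : Set ι} (hs : s.Finite) {F : ι → Set ℂ}
    (hF : ∀ i ∈ s, IsClosed (F i)) (hc : ∀ i ∈ s, Convex ℝ (F i)) {C A B : Set ℂ}
    (hC : IsPreconnected C) (hCs : C ⊆ ⋃ i ∈ s, F i) (hA : (C ∩ A).Nonempty)
    (hB : (C ∩ B).Nonempty) :
    ∃ S : Set ℂ, IsPathConnected S ∧ S ⊆ ⋃ i ∈ s, F i ∧ (S ∩ A).Nonempty ∧ (S ∩ B).Nonempty := by
  obtain ⟨a, haC, haA⟩ := hA
  obtain ⟨b, hbC, hbB⟩ := hB
  obtain ⟨i, hi, hai⟩ := mem_iUnion₂.1 (hCs haC)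
  obtain ⟨j, hj, hbj⟩ := mem_iUnion₂.1 (hCs hbC)
  have hch := G6Tx408.chain_of_cover hs hF hC hCs hi hj ⟨a, haC, hai⟩ ⟨b, hbC, hbj⟩
  set U : Set ℂ := ⋃ i ∈ s, F i with hU
  have hsub : ∀ k ∈ s, F k ⊆ U := fun k hk => subset_iUnion₂_of_subset k hk Subset.rfl
  have hJ : ∀ k, Relation.ReflTransGen
      (fun a b => a ∈ s ∧ b ∈ s ∧ (F a ∩ F b ∩ C).Nonempty) i k → k ∈ s ∧ ∀ x ∈ F k, JoinedIn U a x := by
    intro k hk
    induction hk with
    | refl =>
      exact ⟨hi, fun x hx => ((hc i hi).isPathConnected ⟨a, hai⟩).joinedIn a hai x hx |>.mono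
        (hsub i hi)⟩
    | @tail k1 k2 h1 h2 ih =>
      obtain ⟨-, hk2, y, ⟨hy1, hy2⟩, -⟩ := h2
      refine ⟨hk2, fun x hx => (ih.2 y hy1).trans ?_⟩
      exact (((hc k2 hk2).isPathConnected ⟨y, hy2⟩).joinedIn y hy2 x hx).mono (hsub k2 hk2)
  obtain ⟨γ, hγ⟩ := (hJ j hch).2 b hbj
  have hγc : IsPathConnected (range γ) := by
    rw [← image_univ]
    exact (pathConnectedSpace_iff_univ.1 (isPathConnected_iff_pathConnectedSpace.1
      ((convex_Icc (0 : ℝ) 1).isPathConnected ⟨0, by simp⟩))).image γ.continuous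
  refine ⟨range γ, hγc, ?_, ⟨a, ⟨0, by simp⟩, haA⟩,
    ⟨b, ⟨1, by simp⟩, hbB⟩⟩
  rintro _ ⟨t, rfl⟩
  exact hγ t

/-! ## the black region of a locally finite configuration -/

/-- the cell of `b` in a coloured configuration -/
def cl (X : Set (ℂ × Bool)) (b : ℂ) : Set ℂ := {z | ∀ p ∈ X, ‖z - b‖ ≤ ‖z - p.1‖}

theorem cl_closed (X : Set (ℂ × Bool)) (b : ℂ) : IsClosed (cl X b) := by
  have : cl X b = ⋂ p ∈ X, {z : ℂ | ‖z - b‖ ≤ ‖z - p.1‖} := by
    ext z; simp [cl]
  rw [this]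
  exact isClosed_biInter fun p _ => isClosed_le (by fun_prop) (by fun_prop)

theorem half_plane_convex (a b : ℂ) : Convex ℝ {z : ℂ | ‖z - a‖ ≤ ‖z - b‖} := by
  have h : {z : ℂ | ‖z - a‖ ≤ ‖z - b‖} =
      {z : ℂ | (2 * (b.re - a.re)) * z.re + (2 * (b.im - a.im)) * z.im ≤
        b.re ^ 2 + b.im ^ 2 - a.re ^ 2 - a.im ^ 2} := by
    ext z
    simp only [mem_ofPred_eq]
    rw [← abs_of_nonneg (norm_nonneg (z - a)), ← abs_of_nonneg (norm_nonneg (z - b)),
      ← sq_le_sq, ← Complex.normSq_eq_norm_sq, ← Complex.normSq_eq_norm_sq, Complex.normSq_apply,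
      Complex.normSq_apply]
    simp only [Complex.sub_re, Complex.sub_im]
    constructor <;> intro h <;> nlinarith
  rw [h]
  have hl : IsLinearMap ℝ (fun z : ℂ => (2 * (b.re - a.re)) * z.re + (2 * (b.im - a.im)) * z.im) := by
    constructor
    · intro x y; simp only [Complex.add_re, Complex.add_im]; ring
    · intro c x; simp only [Complex.smul_re, Complex.smul_im, smul_eq_mul]; ring
  exact convex_halfSpace_le hl _

theorem cl_convex (X : Set (ℂ × Bool)) (b : ℂ) : Convex ℝ (cl X b) := by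
  have : cl X b = ⋂ p ∈ X, {z : ℂ | ‖z - b‖ ≤ ‖z - p.1‖} := by
    ext z; simp [cl]
  rw [this]
  exact convex_iInter₂ fun p _ => half_plane_convex b p.1

/-- locally finite -/
def LF (X : Set (ℂ × Bool)) : Prop := ∀ r : ℝ, (X ∩ {p | ‖p.1‖ ≤ r}).Finite

theorem cover_finite {X : Set (ℂ × Bool)} (hX : LF X) (hn : X.Nonempty) {K : Set ℂ}
    (hK : Bornology.IsBounded K) :
    ∃ s : Set ℂ, s.Finite ∧ (∀ b ∈ s, (b, true) ∈ X) ∧ Bk X ∩ K = ⋃ b ∈ s, (cl X b ∩ K) := by
  obtain ⟨p0, hp0⟩ := hn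
  obtain ⟨R, hR⟩ := hK.exists_norm_le
  set r : ℝ := 2 * R + ‖p0.1‖ with hr
  refine ⟨{b | (b, true) ∈ X ∧ ‖b‖ ≤ r}, ?_, fun b hb => hb.1, ?_⟩
  · have h1 : {b : ℂ | (b, true) ∈ X ∧ ‖b‖ ≤ r} ⊆ Prod.fst '' (X ∩ {p | ‖p.1‖ ≤ r}) := by
      rintro b ⟨hb, hb'⟩
      exact ⟨(b, true), ⟨hb, hb'⟩, rfl⟩
    exact ((hX r).image _).subset h1
  · ext z
    simp only [mem_iUnion, mem_inter_iff, exists_prop, mem_ofPred_eq]
    constructor
    · rintro ⟨⟨b, hb, hz⟩, hzK⟩
      refine ⟨b, ⟨hb, ?_⟩, hz, hzK⟩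
      have h1 := hz p0 hp0
      have h2 := hR z hzK
      have h3 : ‖b‖ ≤ ‖z‖ + ‖z - b‖ := by
        have := norm_sub_le z (z - b)
        simpa using this
      have h4 : ‖z - p0.1‖ ≤ ‖z‖ + ‖p0.1‖ := norm_sub_le _ _
      linarith
    · rintro ⟨b, ⟨hb, -⟩, hz, hzK⟩
      exact ⟨⟨b, hb, hz⟩, hzK⟩

theorem exists_nearest {X : Set (ℂ × Bool)} (hX : LF X) (hn : X.Nonempty) (z : ℂ) :
    ∃ p ∈ X, z ∈ cl X p.1 := by
  obtain ⟨p0, hp0⟩ := hn
  set r : ℝ := ‖z‖ + ‖z - p0.1‖ with hr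
  have hf := hX r
  have hp0r : p0 ∈ X ∩ {p | ‖p.1‖ ≤ r} := by
    refine ⟨hp0, ?_⟩
    have := norm_sub_le z (z - p0.1)
    simpa using this
  obtain ⟨p, hp, hmin⟩ := Set.exists_min_image _ (fun p : ℂ × Bool => ‖z - p.1‖) hf ⟨p0, hp0r⟩
  refine ⟨p, hp.1, fun q hq => ?_⟩
  by_cases hqr : ‖q.1‖ ≤ r
  · exact hmin q ⟨hq, hqr⟩
  · have h1 := hmin p0 hp0r
    have h2 : ‖q.1‖ ≤ ‖z‖ + ‖z - q.1‖ := by
      have := norm_sub_le z (z - q.1)
      simpa using this
    push Not at hqr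
    linarith

theorem cover_all {X : Set (ℂ × Bool)} (hX : LF X) (hn : X.Nonempty) (z : ℂ) :
    z ∈ Bk X ∨ z ∈ Bk (flipc X) := by
  obtain ⟨⟨b, c⟩, hp, hz⟩ := exists_nearest hX hn z
  cases c
  · right
    refine ⟨b, ⟨(b, false), hp, rfl⟩, ?_⟩
    rintro _ ⟨q, hq, rfl⟩
    exact hz q hq
  · left
    exact ⟨b, hp, hz⟩

theorem LF_flipc {X : Set (ℂ × Bool)} (hX : LF X) : LF (flipc X) := by
  intro r
  have : flipc X ∩ {p | ‖p.1‖ ≤ r} ⊆ (fun p : ℂ × Bool => (p.1, !p.2)) '' (X ∩ {p | ‖p.1‖ ≤ r}) := by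
    rintro _ ⟨⟨q, hq, rfl⟩, h⟩
    exact ⟨q, ⟨hq, h⟩, rfl⟩
  exact ((hX r).image _).subset this

theorem Bk_inter_closed {X : Set (ℂ × Bool)} (hX : LF X) (hn : X.Nonempty) {K : Set ℂ}
    (hK : IsCompact K) : IsClosed (Bk X ∩ K) := by
  obtain ⟨s, hs, -, h⟩ := cover_finite hX hn hK.isBounded
  rw [h]
  exact hs.isClosed_biUnion fun b _ => (cl_closed X b).inter hK.isClosed

/-- from a connected crossing to a path connected one -/
theorem jn_of_conn {X : Set (ℂ × Bool)} (hX : LF X) (hn : X.Nonempty) {K A B : Set ℂ}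
    (hK : IsCompact K) (hKc : Convex ℝ K) {S : Set ℂ} (hS : S ⊆ Bk X ∩ K) (hc : IsPreconnected S)
    (hA : (S ∩ A).Nonempty) (hB : (S ∩ B).Nonempty) : Jn (Bk X) K A B := by
  obtain ⟨s, hs, -, h⟩ := cover_finite hX hn hK.isBounded
  obtain ⟨S', h1, h2, h3, h4⟩ := pathc hs (F := fun b => cl X b ∩ K)
    (fun b _ => (cl_closed X b).inter hK.isClosed) (fun b _ => (cl_convex X b).inter hKc) hc
    (by rw [← h]; exact hS) hA hB
  exact ⟨S', h1, by rw [h]; exact h2, h3, h4⟩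

/-- duality in a square -/
theorem dual {X : Set (ℂ × Bool)} (hX : LF X) (hn : X.Nonempty) {s : ℝ} (hs : 0 < s) :
    Jn (Bk X) (Rc 0 s 0 s) {z | z.re = 0} {z | z.re = s} ∨
      Jn (Bk (flipc X)) (Rc 0 s 0 s) {z | z.im = 0} {z | z.im = s} := by
  have hK := isCompact_Rc 0 s 0 s
  have hn' : (flipc X).Nonempty := hn.image _
  have h1 := Bk_inter_closed hX hn hK
  have h2 := Bk_inter_closed (LF_flipc hX) hn' hK
  rcases hex hs h1 h2 (fun z hz => (cover_all hX hn z).imp (fun h => ⟨h, hz⟩) fun h => ⟨h, hz⟩)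
    with ⟨S, hS, hc, hA, hB⟩ | ⟨S, hS, hc, hA, hB⟩
  · exact Or.inl (jn_of_conn hX hn hK (convex_Rc _ _ _ _) (fun z hz => (hS hz).1) hc hA hB)
  · exact Or.inr (jn_of_conn (LF_flipc hX) hn' hK (convex_Rc _ _ _ _) (fun z hz => (hS hz).1)
      hc hA hB)

/-! ## the reflection -/

open Crest.Agent.R143.Janx304 (Mk mk3)

/-- the reflection in the diagonal -/
def rf (z : ℂ) : ℂ := ⟨z.im, z.re⟩

@[simp] theorem rf_re (z : ℂ) : (rf z).re = z.im := rfl
@[simp] theorem rf_im (z : ℂ) : (rf z).im = z.re := rfl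
@[simp] theorem rf_rf (z : ℂ) : rf (rf z) = z := rfl

theorem rf_norm (z w : ℂ) : ‖rf z - rf w‖ = ‖z - w‖ := by
  have : rf z - rf w = Complex.I * (starRingEnd ℂ) (z - w) := by
    apply Complex.ext <;> simp [neg_add_eq_sub]
  rw [this, norm_mul, Complex.norm_I, one_mul, Complex.norm_conj]

theorem rf_cont : Continuous rf := by
  have : rf = fun z => Complex.I * (starRingEnd ℂ) z := by
    funext z
    apply Complex.ext <;> simp
  rw [this]
  exact continuous_const.mul Complex.continuous_conj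

/-- the reflected configuration -/
def rfc (X : Set (ℂ × Bool)) : Set (ℂ × Bool) := (fun p : ℂ × Bool => (rf p.1, p.2)) '' X

theorem jn_rfc {X : Set (ℂ × Bool)} {s : ℝ}
    (h : Jn (Bk X) (Rc 0 s 0 s) {z | z.im = 0} {z | z.im = s}) :
    Jn (Bk (rfc X)) (Rc 0 s 0 s) {z | z.re = 0} {z | z.re = s} := by
  obtain ⟨S, hS, hSK, ⟨a, haS, ha⟩, ⟨b, hbS, hb⟩⟩ := h
  refine ⟨rf '' S, hS.image rf_cont, ?_, ⟨rf a, ⟨a, haS, rfl⟩, ha⟩, ⟨rf b, ⟨b, hbS, rfl⟩, hb⟩⟩
  rintro _ ⟨z, hz, rfl⟩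
  obtain ⟨⟨c, hc, hcz⟩, h1, h2, h3, h4⟩ := hSK hz
  refine ⟨⟨rf c, ⟨(c, true), hc, rfl⟩, ?_⟩, h3, h4, h1, h2⟩
  rintro _ ⟨q, hq, rfl⟩
  simp only [rf_norm]
  exact hcz q hq

/-- the transformation of one mark -/
def tau (m : Mk) : Mk := ![m 1, m 0, unitInterval.symm (m 2)]

theorem tau_tau (m : Mk) : tau (tau m) = m := by
  funext i
  fin_cases i <;> simp [tau]

theorem measurable_tau : Measurable tau := by
  rw [measurable_pi_iff]
  intro i
  fin_cases i
  · exact measurable_pi_apply 1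
  · exact measurable_pi_apply 0
  · exact unitInterval.measurable_symm.comp (measurable_pi_apply 2)

theorem mp_tau : MeasurePreserving tau mk3 mk3 := by
  refine ⟨measurable_tau, ?_⟩
  unfold Crest.Agent.R143.Janx304.mk3
  symm
  refine Measure.pi_eq fun s hs => ?_
  rw [Measure.map_apply measurable_tau (MeasurableSet.univ_pi hs)]
  have h1 : tau ⁻¹' (Set.univ.pi s) =
      Set.univ.pi ![s 1, s 0, unitInterval.symm ⁻¹' (s 2)] := by
    ext m
    simp only [mem_preimage, Set.mem_pi, mem_univ, true_implies, Fin.forall_fin_succ, tau]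
    simp
    tauto
  rw [h1, Measure.pi_pi]
  simp only [Fin.prod_univ_three]
  simp only [Matrix.cons_val_zero, Matrix.cons_val_one, Matrix.cons_val]
  rw [unitInterval.measurePreserving_symm.measure_preimage (hs 2).nullMeasurableSet]
  ring

theorem mp_perm {ι X : Type*} [MeasurableSpace X] (μ : Measure X) [IsProbabilityMeasure μ]
    (e : ι ≃ ι) : MeasurePreserving (fun (x : ι → X) i => x (e i))
      (Measure.infinitePi fun _ : ι => μ) (Measure.infinitePi fun _ : ι => μ) := by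
  refine ⟨by fun_prop, ?_⟩
  have h := Measure.infinitePi_map_piCongrLeft (fun _ : ι => μ) e.symm
  have h2 : (MeasurableEquiv.piCongrLeft (fun _ : ι => X) e.symm : (ι → X) → (ι → X)) =
      fun x i => x (e i) := by
    funext x i
    obtain ⟨j, rfl⟩ := e.symm.surjective i
    rw [MeasurableEquiv.coe_piCongrLeft, Equiv.piCongrLeft_apply_apply, Equiv.apply_symm_apply]
  rw [h2] at h
  exact h

theorem mp_coord {ι X : Type*} [MeasurableSpace X] (μ : Measure X) [IsProbabilityMeasure μ]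
    {f : X → X} (hf : MeasurePreserving f μ μ) : MeasurePreserving (fun (x : ι → X) i => f (x i))
      (Measure.infinitePi fun _ : ι => μ) (Measure.infinitePi fun _ : ι => μ) := by
  refine ⟨?_, ?_⟩
  · rw [measurable_pi_iff]
    intro i
    exact hf.measurable.comp (measurable_pi_apply i)
  · rw [Measure.infinitePi_map_pi (fun _ : ι => μ) (fun _ => hf.measurable)]
    simp only [hf.map_eq]

/-- the transformation of the samples -/
def T (ω : Sample) : Sample :=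
  (fun k => ω.1 (Equiv.prodComm ℤ ℤ k), fun k j => tau (ω.2 (Equiv.prodComm ℤ ℤ k) j))

theorem T_T (ω : Sample) : T (T ω) = ω := by
  unfold T
  ext k
  · simp
  · simp [tau_tau]

theorem mp_T : MeasurePreserving T sampleLaw sampleLaw := by
  have h1 : MeasurePreserving (fun (x : ℤ × ℤ → ℕ) k => x (Equiv.prodComm ℤ ℤ k))
      (Measure.infinitePi fun _ : ℤ × ℤ => ProbabilityTheory.poissonMeasure 1)
      (Measure.infinitePi fun _ : ℤ × ℤ => ProbabilityTheory.poissonMeasure 1) := mp_perm _ _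
  have h2 : MeasurePreserving (fun (x : ℤ × ℤ → ℕ → Mk) k => x (Equiv.prodComm ℤ ℤ k))
      (Measure.infinitePi fun _ : ℤ × ℤ => Measure.infinitePi fun _ : ℕ => mk3)
      (Measure.infinitePi fun _ : ℤ × ℤ => Measure.infinitePi fun _ : ℕ => mk3) := mp_perm _ _
  have h3 : MeasurePreserving (fun (x : ℤ × ℤ → ℕ → Mk) k j => tau (x k j))
      (Measure.infinitePi fun _ : ℤ × ℤ => Measure.infinitePi fun _ : ℕ => mk3)
      (Measure.infinitePi fun _ : ℤ × ℤ => Measure.infinitePi fun _ : ℕ => mk3) :=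
    mp_coord (f := fun (y : ℕ → Mk) j => tau (y j)) _ (mp_coord _ mp_tau)
  exact h1.prod (h3.comp h2)

/-- `T` as a measurable equivalence -/
def Te : Sample ≃ᵐ Sample where
  toFun := T
  invFun := T
  left_inv := T_T
  right_inv := T_T
  measurable_toFun := mp_T.measurable
  measurable_invFun := mp_T.measurable

theorem T_pre (A : Set Sample) : sampleLaw (T ⁻¹' A) = sampleLaw A :=
  MeasurePreserving.measure_preimage_equiv (f := Te) mp_T A

theorem point_T (ω : Sample) (k : ℤ × ℤ) (j : ℕ) :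
    point 1 (T ω) k j = rf (point 1 ω (Equiv.prodComm ℤ ℤ k) j) := by
  apply Complex.ext <;> simp [point, T, tau, rf]

theorem col_T {ω : Sample} (h : ∀ k j, (ω.2 k j 2 : ℝ) ≠ 1 / 2) (k : ℤ × ℤ) (j : ℕ) :
    col (T ω) k j = !col ω (Equiv.prodComm ℤ ℤ k) j := by
  have h1 := h (Equiv.prodComm ℤ ℤ k) j
  have h2 : ((T ω).2 k j 2 : ℝ) = 1 - (ω.2 (Equiv.prodComm ℤ ℤ k) j 2 : ℝ) := by
    simp [T, tau]
  simp only [col, h2]
  by_cases h3 : (ω.2 (Equiv.prodComm ℤ ℤ k) j 2 : ℝ) < 1 / 2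
  · rw [decide_eq_true h3, decide_eq_false (by linarith)]; rfl
  · rw [decide_eq_false h3, decide_eq_true (by
      have := lt_of_le_of_ne (not_lt.1 h3) h1.symm
      linarith)]; rfl

theorem cfg_T {ω : Sample} (h : ∀ k j, (ω.2 k j 2 : ℝ) ≠ 1 / 2) :
    cfg 1 (T ω) = rfc (flipc (cfg 1 ω)) := by
  ext p
  constructor
  · rintro ⟨⟨k1, k2, j⟩, hp, rfl⟩
    refine ⟨_, ⟨_, ⟨(k2, k1, j), hp, rfl⟩, rfl⟩, ?_⟩
    simp only [point_T, col_T h]
    rfl
  · rintro ⟨_, ⟨_, ⟨⟨k1, k2, j⟩, hp, rfl⟩, rfl⟩, rfl⟩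
    refine ⟨(k2, k1, j), hp, ?_⟩
    simp only [point_T, col_T h]
    rfl

/-! ## almost sure properties -/

theorem ae_half : ∀ᵐ ω ∂sampleLaw, ∀ k j, (ω.2 k j 2 : ℝ) ≠ 1 / 2 := by
  have h1 : ∀ᵐ x ∂PoisM3x930.nu, ∀ i : PoisM3x930.Ix, (x i 2 : ℝ) ≠ 1 / 2 := by
    rw [ae_all_iff]
    intro i
    have h2 : MeasurePreserving (fun x : PoisM3x930.Ix → Mk => x i) PoisM3x930.nu mk3 :=
      measurePreserving_eval_infinitePi (fun _ : PoisM3x930.Ix => mk3) i
    have h3 : MeasurePreserving (fun m : Mk => m 2) mk3 volume :=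
      measurePreserving_eval (fun _ : Fin 3 => (volume : Measure unitInterval)) 2
    have h4 : ∀ᵐ u : unitInterval, (u : ℝ) ≠ 1 / 2 := by
      rw [ae_iff]
      simp only [not_not]
      have : {a : unitInterval | (a : ℝ) = 1 / 2} = {⟨1 / 2, by norm_num, by norm_num⟩} := by
        ext a
        simp [Subtype.ext_iff]
      rw [this]
      exact measure_singleton _
    exact (h3.comp h2).quasiMeasurePreserving.ae h4
  filter_upwards [PoisM3x930.marks_ae h1] with ω hω k j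
  exact hω (k, j)

theorem ae_nonempty : ∀ᵐ ω ∂sampleLaw, (cfg 1 ω).Nonempty := by
  have h1 : ∀ᵐ x ∂(Measure.infinitePi fun _ : ℤ × ℤ => ProbabilityTheory.poissonMeasure 1),
      ∃ k, x k ≠ 0 := by
    rw [ae_iff]
    push Not
    set c : ENNReal := ProbabilityTheory.poissonMeasure 1 {0} with hc
    have hc1 : c < 1 := by
      rw [hc, ProbabilityTheory.poissonMeasure_singleton]
      simp
    have h2 : ∀ n : ℕ, (Measure.infinitePi fun _ : ℤ × ℤ => ProbabilityTheory.poissonMeasure 1)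
        {a | ∀ k, a k = 0} ≤ c ^ n := by
      intro n
      have h3 : {a : ℤ × ℤ → ℕ | ∀ k, a k = 0} ⊆
          Set.pi ((Finset.range n).image fun i : ℕ => ((i : ℤ), (0 : ℤ)) : Finset (ℤ × ℤ))
            fun _ => {0} := by
        intro a ha k _
        exact ha k
      refine (measure_mono h3).trans ?_
      rw [Measure.infinitePi_pi _ (fun _ _ => measurableSet_singleton _), Finset.prod_const,
        Finset.card_image_of_injective _ (by
          intro i j hij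
          simpa using hij), Finset.card_range]
    exact le_antisymm (ge_of_tendsto' (ENNReal.tendsto_pow_atTop_nhds_zero_of_lt_one hc1) h2)
      zero_le
  have h5 : ∀ᵐ ω ∂sampleLaw, ∃ k, ω.1 k ≠ 0 := Measure.quasiMeasurePreserving_fst.ae h1
  filter_upwards [h5] with ω ⟨k, hk⟩
  exact ⟨_, ⟨(k.1, k.2, 0), Nat.pos_of_ne_zero hk, rfl⟩⟩

theorem cfg_LF (ω : Sample) : LF (cfg 1 ω) := by
  intro r
  have h1 := PoisM3x930.finite_ball one_pos ω r
  have h2 := h1.prod (Set.finite_univ (α := Bool))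
  refine h2.subset ?_
  rintro _ ⟨⟨p, hp, rfl⟩, hr⟩
  refine ⟨⟨⟨p, hp, rfl⟩, ?_⟩, mem_univ _⟩
  simpa using hr

/-- **(SQ)** crossing of squares -/
theorem sq : SQ := by
  intro s hs
  have h1 : ∀ᵐ ω ∂sampleLaw, ω ∈ Hc 0 s 0 s ∪ T ⁻¹' (Hc 0 s 0 s) := by
    filter_upwards [ae_half, ae_nonempty] with ω h2 h3
    rcases dual (cfg_LF ω) h3 hs with h | h
    · exact Or.inl h
    · right
      have h4 := jn_rfc h
      rw [← cfg_T h2] at h4
      exact h4
  have h2 : sampleLaw (Hc 0 s 0 s ∪ T ⁻¹' (Hc 0 s 0 s)) = 1 := by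
    have : IsProbabilityMeasure sampleLaw := by unfold sampleLaw; infer_instance
    rw [← measure_univ (μ := sampleLaw)]
    exact measure_congr (eventuallyEq_univ.2 h1)
  have h3 : 1 ≤ sampleLaw (Hc 0 s 0 s) + sampleLaw (Hc 0 s 0 s) := by
    calc (1 : ENNReal) = _ := h2.symm
      _ ≤ sampleLaw (Hc 0 s 0 s) + sampleLaw (T ⁻¹' (Hc 0 s 0 s)) := measure_union_le _ _
      _ = _ := by rw [T_pre]
  rw [ENNReal.inv_le_iff_le_mul (by simp) (by simp), two_mul]
  exact h3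

end Crest.Agent.R143.TasSQx120
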