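import Crest.Agent.R143.TasI_372
import Crest.Agent.R143.G6V_408
import Crest.Agent.R143.Y1_126
import Crest.Agent.R202.Miranda

/-!
# Row 143 (S0194), block N3, leaf SQ (helper565): duality, crossings of squares

* `rect_dual` : a rectangle covered by two closed sets: left-right in the first one or bottom-top in
  the second one
* `pathC` : a connected set covered by finitely many convex closed sets gives a path connected set
* `Bk_fin`, `isClosed_Bk`, `Bk_cover`
* `dual` : black horizontal crossing or white vertical crossing (path connected sets)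
* `flipS`, `swapS` : exchange of the colours, exchange of the coordinates; they preserve the law
* `sq` : `SQ`
-/

set_option autoImplicit false

noncomputable section

namespace Crest.Agent.R143.TasSQx565

open MeasureTheory Set Filter Topology
open Crest.ProbabilityR.Voronoi
open Crest.Agent.R143.PP0x831 Crest.Agent.R143.TasIx372
open Crest.Agent.R143.G6Tx408 Crest.Agent.R143.G6Vx408

/-! ### topology -/

theorem isCompact_Rc (x0 x1 y0 y1 : ℝ) : IsCompact (Rc x0 x1 y0 y1) := by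
  have h : Rc x0 x1 y0 y1 = Complex.equivRealProdCLM.symm '' (Icc x0 x1 ×ˢ Icc y0 y1) := by
    ext z
    constructor
    · rintro ⟨h1, h2, h3, h4⟩
      refine ⟨(z.re, z.im), ⟨⟨h1, h2⟩, ⟨h3, h4⟩⟩, ?_⟩
      apply Complex.ext <;> simp
    · rintro ⟨p, ⟨⟨h1, h2⟩, ⟨h3, h4⟩⟩, rfl⟩
      refine ⟨?_, ?_, ?_, ?_⟩ <;> simpa
  rw [h]
  exact (isCompact_Icc.prod isCompact_Icc).image Complex.equivRealProdCLM.symm.continuous

theorem convex_Rc (x0 x1 y0 y1 : ℝ) : Convex ℝ (Rc x0 x1 y0 y1) := by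
  rintro z ⟨h1, h2, h3, h4⟩ w ⟨k1, k2, k3, k4⟩ a b ha hb hab
  have hb' : b = 1 - a := by linarith
  subst hb'
  refine ⟨?_, ?_, ?_, ?_⟩ <;>
  simp only [Complex.add_re, Complex.add_im, Complex.real_smul, Complex.mul_re, Complex.mul_im,
    Complex.ofReal_re, Complex.ofReal_im, zero_mul, sub_zero, add_zero] <;> nlinarith

/-- **duality in a rectangle covered by two closed sets** -/
theorem rect_dual {x0 x1 y0 y1 : ℝ} (hx : x0 < x1) (hy : y0 < y1) {F G : Set ℂ}
    (hF : IsClosed F) (hG : IsClosed G) (hFG : Rc x0 x1 y0 y1 ⊆ F ∪ G) :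
    (∃ C ⊆ F ∩ Rc x0 x1 y0 y1, IsPreconnected C ∧ (C ∩ {z | z.re = x0}).Nonempty ∧
      (C ∩ {z | z.re = x1}).Nonempty) ∨
    (∃ C ⊆ G ∩ Rc x0 x1 y0 y1, IsPreconnected C ∧ (C ∩ {z | z.im = y0}).Nonempty ∧
      (C ∩ {z | z.im = y1}).Nonempty) := by
  by_contra hcon
  push Not at hcon
  obtain ⟨h1, h2⟩ := hcon
  set K := Rc x0 x1 y0 y1 with hK
  have hKc : IsCompact K := isCompact_Rc _ _ _ _
  have hre : ∀ a : ℝ, IsClosed {z : ℂ | z.re = a} := fun a =>
    isClosed_eq Complex.continuous_re continuous_const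
  have him : ∀ a : ℝ, IsClosed {z : ℂ | z.im = a} := fun a =>
    isClosed_eq Complex.continuous_im continuous_const
  obtain ⟨W, W', hW, hW', hWW, hWd, hWP, hWQ⟩ := cut (L := F ∩ K) (P := {z : ℂ | z.re = x0})
    (Q := {z : ℂ | z.re = x1}) (hKc.inter_left hF) (hre _) (hre _) (by
      intro S hS hSc hS1 hS2
      have := h1 S hS hSc hS1
      rw [this] at hS2
      exact not_nonempty_empty hS2)
  obtain ⟨V, V', hV, hV', hVV, hVd, hVP, hVQ⟩ := cut (L := G ∩ K) (P := {z : ℂ | z.im = y0})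
    (Q := {z : ℂ | z.im = y1}) (hKc.inter_left hG) (him _) (him _) (by
      intro S hS hSc hS1 hS2
      have := h2 S hS hSc hS1
      rw [this] at hS2
      exact not_nonempty_empty hS2)
  -- the four closed sets
  set A : Set ℂ := W ∪ K ∩ {z | z.re = x0} with hA
  set B : Set ℂ := W' ∪ K ∩ {z | z.re = x1} with hB
  set C : Set ℂ := V ∪ K ∩ {z | z.im = y0} with hC
  set D : Set ℂ := V' ∪ K ∩ {z | z.im = y1} with hD
  have cA : IsClosed A := hW.isClosed.union (hKc.isClosed.inter (hre _))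
  have cB : IsClosed B := hW'.isClosed.union (hKc.isClosed.inter (hre _))
  have cC : IsClosed C := hV.isClosed.union (hKc.isClosed.inter (him _))
  have cD : IsClosed D := hV'.isClosed.union (hKc.isClosed.inter (him _))
  have nA : A.Nonempty := ⟨⟨x0, y0⟩, Or.inr ⟨⟨le_rfl, hx.le, le_rfl, hy.le⟩, rfl⟩⟩
  have nB : B.Nonempty := ⟨⟨x1, y0⟩, Or.inr ⟨⟨hx.le, le_rfl, le_rfl, hy.le⟩, rfl⟩⟩
  have nC : C.Nonempty := ⟨⟨x0, y0⟩, Or.inr ⟨⟨le_rfl, hx.le, le_rfl, hy.le⟩, rfl⟩⟩
  have nD : D.Nonempty := ⟨⟨x0, y1⟩, Or.inr ⟨⟨le_rfl, hx.le, hy.le, le_rfl⟩, rfl⟩⟩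
  have dAB : ∀ z, z ∈ A → z ∈ B → False := by
    rintro z (hz | hz) (hz' | hz')
    · exact Set.disjoint_left.1 hWd hz hz'
    · have : z ∈ F ∩ K := hWW ▸ Or.inl hz
      exact Set.disjoint_left.1 hWd hz (hWQ ⟨this, hz'.2⟩)
    · have : z ∈ F ∩ K := hWW ▸ Or.inr hz'
      exact Set.disjoint_left.1 hWd (hWP ⟨this, hz.2⟩) hz'
    · have e1 : z.re = x0 := hz.2
      have e2 : z.re = x1 := hz'.2
      linarith
  have dCD : ∀ z, z ∈ C → z ∈ D → False := by
    rintro z (hz | hz) (hz' | hz')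
    · exact Set.disjoint_left.1 hVd hz hz'
    · have : z ∈ G ∩ K := hVV ▸ Or.inl hz
      exact Set.disjoint_left.1 hVd hz (hVQ ⟨this, hz'.2⟩)
    · have : z ∈ G ∩ K := hVV ▸ Or.inr hz'
      exact Set.disjoint_left.1 hVd (hVP ⟨this, hz.2⟩) hz'
    · have e1 : z.im = y0 := hz.2
      have e2 : z.im = y1 := hz'.2
      linarith
  -- the map
  set φ : (Fin 2 → ℝ) → ℂ := fun t =>
    ⟨(x0 + x1) / 2 + t 0 * ((x1 - x0) / 2), (y0 + y1) / 2 + t 1 * ((y1 - y0) / 2)⟩ with hφ
  have cφ : Continuous φ := by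
    have : φ = fun t => Complex.equivRealProdCLM.symm
        ((x0 + x1) / 2 + t 0 * ((x1 - x0) / 2), (y0 + y1) / 2 + t 1 * ((y1 - y0) / 2)) := by
      funext t
      apply Complex.ext <;> simp [hφ]
    rw [this]
    refine Complex.equivRealProdCLM.symm.continuous.comp ?_
    fun_prop
  have hφK : ∀ t ∈ Set.pi (Set.univ : Set (Fin 2)) (fun _ => Set.Icc (-1 : ℝ) 1), φ t ∈ K := by
    intro t ht
    obtain ⟨a1, a2⟩ := ht 0 (mem_univ _)
    obtain ⟨b1, b2⟩ := ht 1 (mem_univ _)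
    refine ⟨?_, ?_, ?_, ?_⟩ <;> simp only [hφ] <;> nlinarith
  set f : (Fin 2 → ℝ) → Fin 2 → ℝ := fun t =>
    ![Metric.infDist (φ t) A - Metric.infDist (φ t) B,
      Metric.infDist (φ t) C - Metric.infDist (φ t) D] with hf
  have cf : Continuous f := by
    rw [continuous_pi_iff]
    intro i
    fin_cases i
    · exact ((Metric.continuous_infDist_pt A).comp cφ).sub
        ((Metric.continuous_infDist_pt B).comp cφ)
    · exact ((Metric.continuous_infDist_pt C).comp cφ).sub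
        ((Metric.continuous_infDist_pt D).comp cφ)
  obtain ⟨t, ht, ht0⟩ := Crest.Agent.R202.poincare_miranda f cf.continuousOn
    (by
      intro t ht i hi
      fin_cases i
      · have e : φ t ∈ B := by
          refine Or.inr ⟨hφK t ht, ?_⟩
          show (x0 + x1) / 2 + t 0 * ((x1 - x0) / 2) = x1
          have : t 0 = 1 := hi
          rw [this]; ring
        show 0 ≤ Metric.infDist (φ t) A - Metric.infDist (φ t) B
        rw [Metric.infDist_zero_of_mem e, sub_zero]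
        exact Metric.infDist_nonneg
      · have e : φ t ∈ D := by
          refine Or.inr ⟨hφK t ht, ?_⟩
          show (y0 + y1) / 2 + t 1 * ((y1 - y0) / 2) = y1
          have : t 1 = 1 := hi
          rw [this]; ring
        show 0 ≤ Metric.infDist (φ t) C - Metric.infDist (φ t) D
        rw [Metric.infDist_zero_of_mem e, sub_zero]
        exact Metric.infDist_nonneg)
    (by
      intro t ht i hi
      fin_cases i
      · have e : φ t ∈ A := by
          refine Or.inr ⟨hφK t ht, ?_⟩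
          show (x0 + x1) / 2 + t 0 * ((x1 - x0) / 2) = x0
          have : t 0 = -1 := hi
          rw [this]; ring
        show Metric.infDist (φ t) A - Metric.infDist (φ t) B ≤ 0
        rw [Metric.infDist_zero_of_mem e, zero_sub, neg_nonpos]
        exact Metric.infDist_nonneg
      · have e : φ t ∈ C := by
          refine Or.inr ⟨hφK t ht, ?_⟩
          show (y0 + y1) / 2 + t 1 * ((y1 - y0) / 2) = y0
          have : t 1 = -1 := hi
          rw [this]; ring
        show Metric.infDist (φ t) C - Metric.infDist (φ t) D ≤ 0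
        rw [Metric.infDist_zero_of_mem e, zero_sub, neg_nonpos]
        exact Metric.infDist_nonneg)
  have e0 : Metric.infDist (φ t) A = Metric.infDist (φ t) B := by
    have := ht0 0
    exact sub_eq_zero.1 this
  have e1 : Metric.infDist (φ t) C = Metric.infDist (φ t) D := by
    have := ht0 1
    exact sub_eq_zero.1 this
  have key : ∀ (P Q : Set ℂ), IsClosed P → IsClosed Q → P.Nonempty → Q.Nonempty →
      (∀ z, z ∈ P → z ∈ Q → False) → ∀ z, Metric.infDist z P = Metric.infDist z Q →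
      z ∉ P ∧ z ∉ Q := by
    intro P Q cP cQ nP nQ hd z hz
    constructor
    · intro h
      refine hd z h ((cQ.mem_iff_infDist_zero nQ).2 ?_)
      rw [← hz]
      exact Metric.infDist_zero_of_mem h
    · intro h
      refine hd z ((cP.mem_iff_infDist_zero nP).2 ?_) h
      rw [hz]
      exact Metric.infDist_zero_of_mem h
  obtain ⟨k1, k2⟩ := key A B cA cB nA nB dAB _ e0
  obtain ⟨k3, k4⟩ := key C D cC cD nC nD dCD _ e1
  have hz := hφK t ht
  rcases hFG hz with h | h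
  · have : φ t ∈ W ∪ W' := by rw [hWW]; exact ⟨h, hz⟩
    rcases this with h | h
    · exact k1 (Or.inl h)
    · exact k2 (Or.inl h)
  · have : φ t ∈ V ∪ V' := by rw [hVV]; exact ⟨h, hz⟩
    rcases this with h | h
    · exact k3 (Or.inl h)
    · exact k4 (Or.inl h)

/-- **from connected to path connected** in a finite union of convex closed sets -/
theorem pathC {ι : Type*} {s : Set ι} (hs : s.Finite) {F : ι → Set ℂ}
    (hF : ∀ i ∈ s, IsClosed (F i)) (hFc : ∀ i ∈ s, Convex ℝ (F i)) {C A B : Set ℂ}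
    (hC : IsPreconnected C) (hCs : C ⊆ ⋃ i ∈ s, F i) (hA : (C ∩ A).Nonempty)
    (hB : (C ∩ B).Nonempty) :
    ∃ S : Set ℂ, IsPathConnected S ∧ S ⊆ ⋃ i ∈ s, F i ∧ (S ∩ A).Nonempty ∧ (S ∩ B).Nonempty := by
  obtain ⟨x, hx, hxA⟩ := hA
  obtain ⟨y, hy, hyB⟩ := hB
  obtain ⟨i, hi, hxi⟩ := mem_iUnion₂.1 (hCs hx)
  obtain ⟨j, hj, hyj⟩ := mem_iUnion₂.1 (hCs hy)
  have hc := chain_of_cover hs hF hC hCs hi hj ⟨x, hx, hxi⟩ ⟨y, hy, hyj⟩
  suffices h : ∃ S : Set ℂ, IsPathConnected S ∧ S ⊆ ⋃ i ∈ s, F i ∧ x ∈ S ∧ F j ⊆ S by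
    obtain ⟨S, h1, h2, h3, h4⟩ := h
    exact ⟨S, h1, h2, ⟨x, h3, hxA⟩, ⟨y, h4 hyj, hyB⟩⟩
  clear hyj hyB hy
  induction hc with
  | refl =>
    exact ⟨F i, (hFc i hi).isPathConnected ⟨x, hxi⟩, subset_biUnion_of_mem (u := F) hi, hxi,
      subset_rfl⟩
  | @tail a b _ h5 ih =>
    obtain ⟨ha, hb, z, ⟨hza, hzb⟩, -⟩ := h5
    obtain ⟨S, h1, h2, h3, h4⟩ := ih ha
    exact ⟨S ∪ F b, h1.union ((hFc b hb).isPathConnected ⟨z, hzb⟩) ⟨z, h4 hza, hzb⟩,
      union_subset h2 (subset_biUnion_of_mem (u := F) hb), Or.inl h3, subset_union_right⟩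

/-! ### regions -/

/-- nonempty and locally finite -/
structure LF (X : Set (ℂ × Bool)) : Prop where
  ne : X.Nonempty
  fin : ∀ r : ℝ, (Prod.fst '' X ∩ Metric.closedBall 0 r).Finite

theorem Bk_eq (X : Set (ℂ × Bool)) :
    Bk X = ⋃ b ∈ {b : ℂ | (b, true) ∈ X}, voronoiCell (Prod.fst '' X) b := by
  ext z
  simp only [Bk, mem_iUnion, exists_prop, voronoiCell, mem_ofPred_eq]
  constructor
  · rintro ⟨b, hb, h⟩
    refine ⟨b, hb, ?_⟩
    rintro _ ⟨p, hp, rfl⟩
    exact h p hp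
  · rintro ⟨b, hb, h⟩
    exact ⟨b, hb, fun p hp => h _ ⟨p, hp, rfl⟩⟩

theorem fst_flipc (X : Set (ℂ × Bool)) : Prod.fst '' flipc X = Prod.fst '' X := by
  rw [flipc, ← image_comp]
  rfl

theorem mem_flipc {X : Set (ℂ × Bool)} {b : ℂ} {c : Bool} : (b, c) ∈ flipc X ↔ (b, !c) ∈ X := by
  constructor
  · rintro ⟨⟨p, d⟩, hp, h⟩
    simp only [Prod.mk.injEq] at h
    obtain ⟨rfl, rfl⟩ := h
    simpa using hp
  · intro h
    exact ⟨(b, !c), h, by simp⟩

theorem flipc_flipc (X : Set (ℂ × Bool)) : flipc (flipc X) = X := by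
  ext ⟨b, c⟩
  rw [mem_flipc, mem_flipc]
  simp

theorem LF.flip {X : Set (ℂ × Bool)} (hX : LF X) : LF (flipc X) :=
  ⟨hX.ne.image _, by rw [fst_flipc]; exact hX.fin⟩

/-- every point is in a cell -/
theorem LF.near {X : Set (ℂ × Bool)} (hX : LF X) (z : ℂ) :
    ∃ p ∈ X, ∀ q ∈ X, ‖z - p.1‖ ≤ ‖z - q.1‖ := by
  obtain ⟨p0, hp0⟩ := hX.ne
  have h0 : p0.1 ∈ Prod.fst '' X ∩ Metric.closedBall 0 (‖z‖ + ‖z - p0.1‖) := by
    refine ⟨⟨p0, hp0, rfl⟩, ?_⟩
    rw [mem_closedBall_zero_iff]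
    calc ‖p0.1‖ = ‖z - (z - p0.1)‖ := by congr 1; ring
      _ ≤ ‖z‖ + ‖z - p0.1‖ := norm_sub_le _ _
  obtain ⟨v, hv, hmin⟩ := (hX.fin (‖z‖ + ‖z - p0.1‖)).exists_minimalFor (fun s => ‖z - s‖) _
    ⟨_, h0⟩
  obtain ⟨⟨p, hp, rfl⟩, hv2⟩ := hv
  have hmin' : ∀ q ∈ Prod.fst '' X ∩ Metric.closedBall 0 (‖z‖ + ‖z - p0.1‖),
      ‖z - p.1‖ ≤ ‖z - q‖ := by
    intro q hq
    rcases le_total ‖z - p.1‖ ‖z - q‖ with h | h
    · exact h
    · exact hmin hq h
  refine ⟨p, hp, fun q hq => ?_⟩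
  by_cases h : ‖q.1‖ ≤ ‖z‖ + ‖z - p0.1‖
  · exact hmin' _ ⟨⟨q, hq, rfl⟩, by rwa [mem_closedBall_zero_iff]⟩
  · push Not at h
    have h1 := hmin' _ h0
    have h2 : ‖q.1‖ ≤ ‖z‖ + ‖z - q.1‖ := by
      calc ‖q.1‖ = ‖z - (z - q.1)‖ := by congr 1; ring
        _ ≤ ‖z‖ + ‖z - q.1‖ := norm_sub_le _ _
    linarith

/-- the black and the white region cover the plane -/
theorem Bk_cover {X : Set (ℂ × Bool)} (hX : LF X) (z : ℂ) : z ∈ Bk X ∪ Bk (flipc X) := by
  obtain ⟨⟨b, c⟩, hp, h⟩ := hX.near z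
  cases c with
  | true => exact Or.inl ⟨b, hp, h⟩
  | false =>
    refine Or.inr ⟨b, mem_flipc.2 (by simpa using hp), ?_⟩
    rintro _ ⟨q, hq, rfl⟩
    exact h q hq

/-- in a bounded set the black region is a finite union of cells -/
theorem Bk_fin {X : Set (ℂ × Bool)} (hX : LF X) {K : Set ℂ} (hK : Bornology.IsBounded K) :
    {b : ℂ | (b, true) ∈ X ∧ (voronoiCell (Prod.fst '' X) b ∩ K).Nonempty}.Finite := by
  refine (cell_finite hX.fin (hX.ne.image _) hK).subset ?_
  rintro b ⟨hb, h⟩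
  exact ⟨⟨_, hb, rfl⟩, h⟩

theorem Bk_inter {X : Set (ℂ × Bool)} {K : Set ℂ} :
    Bk X ∩ K = ⋃ b ∈ {b : ℂ | (b, true) ∈ X ∧ (voronoiCell (Prod.fst '' X) b ∩ K).Nonempty},
      voronoiCell (Prod.fst '' X) b ∩ K := by
  rw [Bk_eq]
  ext z
  simp only [mem_inter_iff, mem_iUnion, exists_prop, mem_ofPred_eq]
  constructor
  · rintro ⟨⟨b, hb, hz⟩, hzK⟩
    exact ⟨b, ⟨hb, z, hz, hzK⟩, hz, hzK⟩
  · rintro ⟨b, ⟨hb, -⟩, hz, hzK⟩
    exact ⟨⟨b, hb, hz⟩, hzK⟩

theorem isClosed_Bk {X : Set (ℂ × Bool)} (hX : LF X) : IsClosed (Bk X) := by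
  rw [Bk_eq]
  have h : LocallyFinite (fun v : {b : ℂ | (b, true) ∈ X} =>
      voronoiCell (Prod.fst '' X) (v : ℂ)) := by
    intro z
    refine ⟨Metric.ball z 1, Metric.ball_mem_nhds z one_pos, ?_⟩
    have h1 := Bk_fin hX (K := Metric.ball z 1) Metric.isBounded_ball
    refine Set.Finite.of_finite_image (f := Subtype.val) (h1.subset ?_)
      Subtype.val_injective.injOn
    rintro _ ⟨v, hv, rfl⟩
    exact ⟨v.2, hv⟩
  have h2 := h.isClosed_iUnion fun v => isClosed_cell _ _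
  rwa [iUnion_subtype] at h2

/-- **connected joins are path connected joins** -/
theorem Jn_of_conn {X : Set (ℂ × Bool)} (hX : LF X) {K A B C : Set ℂ} (hK : IsCompact K)
    (hKc : Convex ℝ K) (hC : IsPreconnected C) (hCs : C ⊆ Bk X ∩ K) (hA : (C ∩ A).Nonempty)
    (hB : (C ∩ B).Nonempty) : Jn (Bk X) K A B := by
  rw [Bk_inter] at hCs
  obtain ⟨S, h1, h2, h3, h4⟩ := pathC (Bk_fin hX hK.isBounded)
    (F := fun b => voronoiCell (Prod.fst '' X) b ∩ K)
    (fun b _ => (isClosed_cell _ _).inter hK.isClosed)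
    (fun b _ => (convex_cell _ _).inter hKc) hC hCs hA hB
  rw [← Bk_inter] at h2
  exact ⟨S, h1, h2, h3, h4⟩

/-- **duality**: black horizontal crossing or white vertical crossing -/
theorem dual {X : Set (ℂ × Bool)} (hX : LF X) {x0 x1 y0 y1 : ℝ} (hx : x0 < x1) (hy : y0 < y1) :
    Jn (Bk X) (Rc x0 x1 y0 y1) {z | z.re = x0} {z | z.re = x1} ∨
      Jn (Bk (flipc X)) (Rc x0 x1 y0 y1) {z | z.im = y0} {z | z.im = y1} := by
  rcases rect_dual hx hy (isClosed_Bk hX) (isClosed_Bk hX.flip) (fun z _ => Bk_cover hX z) with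
    ⟨C, h1, h2, h3, h4⟩ | ⟨C, h1, h2, h3, h4⟩
  · exact Or.inl (Jn_of_conn hX (isCompact_Rc _ _ _ _) (convex_Rc _ _ _ _) h2 h1 h3 h4)
  · exact Or.inr (Jn_of_conn hX.flip (isCompact_Rc _ _ _ _) (convex_Rc _ _ _ _) h2 h1 h3 h4)

/-! ### the sample -/

attribute [local instance] Crest.Agent.R143.Y1x126.prob_sampleLaw

theorem fst_cfg (ε : ℝ) (ω : Sample) : Prod.fst '' cfg ε ω = points ε ω := by
  rw [cfg, ← image_comp, points]
  rfl

theorem LF_cfg {ε : ℝ} (hε : 0 < ε) {ω : Sample} (h : (cfg ε ω).Nonempty) : LF (cfg ε ω) :=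
  ⟨h, by rw [fst_cfg]; exact points_lf hε ω⟩

/-- the configuration is almost surely nonempty -/
theorem ae_nonempty (ε : ℝ) : ∀ᵐ ω ∂sampleLaw, (cfg ε ω).Nonempty := by
  rw [ae_iff]
  have h1 : ∀ n : ℕ, sampleLaw {ω : Sample | ¬ (cfg ε ω).Nonempty} ≤
      (ProbabilityTheory.poissonMeasure 1 {0}) ^ n := by
    intro n
    set s : Finset (ℤ × ℤ) := (Finset.range n).image (fun i : ℕ => ((i : ℤ), (0 : ℤ))) with hs
    have hcard : s.card = n := by
      rw [hs, Finset.card_image_of_injective, Finset.card_range]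
      intro i j hij
      simpa using hij
    have h2 : {ω : Sample | ¬ (cfg ε ω).Nonempty} ⊆
        (Set.pi (s : Set (ℤ × ℤ)) (fun _ => ({0} : Set ℕ))) ×ˢ
          (univ : Set (ℤ × ℤ → ℕ → Fin 3 → unitInterval)) := by
      intro ω hω
      refine ⟨fun k _ => ?_, mem_univ _⟩
      by_contra hk
      refine hω ⟨_, ⟨(k.1, k.2, 0), ?_, rfl⟩⟩
      show 0 < ω.1 (k.1, k.2)
      exact Nat.pos_of_ne_zero hk
    refine (measure_mono h2).trans ?_
    unfold sampleLaw
    rw [Measure.prod_prod, Measure.infinitePi_pi _ (fun _ _ => measurableSet_singleton _),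
      measure_univ, mul_one, Finset.prod_const, hcard]
  have h3 : (ProbabilityTheory.poissonMeasure 1 {0}) < 1 := by
    rw [ProbabilityTheory.poissonMeasure_singleton]
    simp
  have h4 := ENNReal.tendsto_pow_atTop_nhds_zero_of_lt_one h3
  exact le_antisymm (ge_of_tendsto' h4 h1) bot_le

/-- no colour seed is `1/2` -/
theorem ae_half : ∀ᵐ ω ∂sampleLaw, ∀ (k : ℤ × ℤ) (j : ℕ), (ω.2 k j 2 : ℝ) ≠ 1 / 2 := by
  rw [ae_all_iff]
  intro k
  rw [ae_all_iff]
  intro j
  have h1 : MeasurePreserving (fun ω : Sample => ω.2 k j 2) sampleLaw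
      (volume : Measure unitInterval) := by
    have a1 : MeasurePreserving (Prod.snd : Sample → _) sampleLaw
        (Measure.infinitePi fun _ : ℤ × ℤ =>
          Measure.infinitePi fun _ : ℕ => Measure.pi fun _ : Fin 3 =>
            (volume : Measure unitInterval)) := by
      unfold sampleLaw
      exact measurePreserving_snd
    have a2 := measurePreserving_eval_infinitePi (fun _ : ℤ × ℤ =>
          Measure.infinitePi fun _ : ℕ => Measure.pi fun _ : Fin 3 =>
            (volume : Measure unitInterval)) k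
    have a3 := measurePreserving_eval_infinitePi (fun _ : ℕ => Measure.pi fun _ : Fin 3 =>
            (volume : Measure unitInterval)) j
    have a4 := measurePreserving_eval (fun _ : Fin 3 => (volume : Measure unitInterval)) 2
    exact a4.comp (a3.comp (a2.comp a1))
  have h2 : ∀ᵐ u : unitInterval ∂volume, (u : ℝ) ≠ 1 / 2 := by
    rw [ae_iff]
    have : {u : unitInterval | ¬ (u : ℝ) ≠ 1 / 2} =
        {(⟨1 / 2, by norm_num, by norm_num⟩ : unitInterval)} := by
      ext u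
      simp only [not_not, mem_singleton_iff, Subtype.ext_iff, mem_ofPred_eq]
    rw [this]
    have h := measure_singleton (μ := (volume : Measure unitInterval))
      (⟨1 / 2, by norm_num, by norm_num⟩ : unitInterval)
    exact h
  exact h1.quasiMeasurePreserving.ae h2

theorem le_of_mp {T : Sample → Sample} (hT : MeasurePreserving T sampleLaw sampleLaw)
    (E : Set Sample) : sampleLaw (T ⁻¹' E) ≤ sampleLaw E := by
  have := Measure.le_map_apply (μ := sampleLaw) hT.measurable.aemeasurable E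
  rwa [hT.map_eq] at this

/-- exchange of the colours -/
def flipS (ω : Sample) : Sample :=
  (ω.1, fun k j i => if i = 2 then unitInterval.symm (ω.2 k j i) else ω.2 k j i)

theorem flipS_mp : MeasurePreserving flipS sampleLaw sampleLaw := by
  have h0 : MeasurePreserving (fun (m : Fin 3 → unitInterval) (i : Fin 3) =>
      if i = 2 then unitInterval.symm (m i) else m i)
      (Measure.pi fun _ : Fin 3 => (volume : Measure unitInterval))
      (Measure.pi fun _ : Fin 3 => (volume : Measure unitInterval)) := by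
    refine measurePreserving_pi (fun _ : Fin 3 => (volume : Measure unitInterval))
      (fun _ : Fin 3 => (volume : Measure unitInterval))
      (f := fun i u => if i = 2 then unitInterval.symm u else u) fun i => ?_
    by_cases hi : i = 2
    · simp only [hi, if_true]
      exact unitInterval.measurePreserving_symm
    · simp only [hi, if_false]
      exact MeasurePreserving.id _
  have h1 := Y1x126.reidx_mp (ProbabilityTheory.poissonMeasure 1) (Equiv.refl (ℤ × ℤ))
    (fun _ => id) (fun _ => MeasurePreserving.id _)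
  have h3 := Y1x126.reidx_mp (Measure.pi fun _ : Fin 3 => (volume : Measure unitInterval))
    (Equiv.refl ℕ) (fun _ m i => if i = 2 then unitInterval.symm (m i) else m i) (fun _ => h0)
  have h2 := Y1x126.reidx_mp (Measure.infinitePi fun _ : ℕ =>
      Measure.pi fun _ : Fin 3 => (volume : Measure unitInterval)) (Equiv.refl (ℤ × ℤ))
      (fun _ u j i => if i = 2 then unitInterval.symm (u j i) else u j i) (fun _ => h3)
  exact h1.prod h2

theorem cfg_flipS (ε : ℝ) {ω : Sample} (h : ∀ (k : ℤ × ℤ) (j : ℕ), (ω.2 k j 2 : ℝ) ≠ 1 / 2) :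
    cfg ε (flipS ω) = flipc (cfg ε ω) := by
  rw [cfg, cfg, flipc, ← image_comp]
  refine image_congr fun p hp => ?_
  have h1 := h (p.1, p.2.1) p.2.2
  simp only [Function.comp, Prod.mk.injEq]
  refine ⟨?_, ?_⟩
  · simp [point, flipS]
  · simp only [col, flipS, if_true, unitInterval.coe_symm_eq]
    rcases lt_or_gt_of_ne h1 with h2 | h2
    · have : ¬ (1 - (ω.2 (p.1, p.2.1) p.2.2 2 : ℝ) < 1 / 2) := by linarith
      rw [decide_eq_false this, decide_eq_true h2]
      rfl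
    · have : (1 - (ω.2 (p.1, p.2.1) p.2.2 2 : ℝ) < 1 / 2) := by linarith
      have h3 : ¬ ((ω.2 (p.1, p.2.1) p.2.2 2 : ℝ) < 1 / 2) := by linarith
      rw [decide_eq_true this, decide_eq_false h3]
      rfl

theorem law_flip_le (ε : ℝ) (P : Set (ℂ × Bool) → Prop) :
    sampleLaw {ω | P (flipc (cfg ε ω))} ≤ sampleLaw {ω | P (cfg ε ω)} := by
  refine le_trans (measure_mono_ae ?_) (le_of_mp flipS_mp {ω | P (cfg ε ω)})
  filter_upwards [ae_half] with ω hω h
  show P (cfg ε (flipS ω))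
  rw [cfg_flipS ε hω]
  exact h

/-- **the law does not change if the colours are exchanged** (all events, outer measure) -/
theorem law_flip (ε : ℝ) (P : Set (ℂ × Bool) → Prop) :
    sampleLaw {ω | P (flipc (cfg ε ω))} = sampleLaw {ω | P (cfg ε ω)} := by
  refine le_antisymm (law_flip_le ε P) ?_
  have := law_flip_le ε (fun X => P (flipc X))
  simpa only [flipc_flipc] using this

/-- exchange of the coordinates -/
def sw (z : ℂ) : ℂ := ⟨z.im, z.re⟩

theorem sw_sw (z : ℂ) : sw (sw z) = z := rfl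

theorem continuous_sw : Continuous sw := by
  have : sw = fun z => Complex.equivRealProdCLM.symm (z.im, z.re) := by
    funext z
    apply Complex.ext <;> simp [sw]
  rw [this]
  exact Complex.equivRealProdCLM.symm.continuous.comp
    (Complex.continuous_im.prodMk Complex.continuous_re)

theorem norm_sw (z w : ℂ) : ‖sw z - sw w‖ = ‖z - w‖ := by
  rw [← sq_eq_sq₀ (norm_nonneg _) (norm_nonneg _), ← Complex.normSq_eq_norm_sq,
    ← Complex.normSq_eq_norm_sq, Complex.normSq_apply, Complex.normSq_apply]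
  simp only [sw, Complex.sub_re, Complex.sub_im]
  ring

/-- exchange of the coordinates of a coloured configuration -/
def swc (X : Set (ℂ × Bool)) : Set (ℂ × Bool) := (fun p => (sw p.1, p.2)) '' X

/-- exchange of the coordinates -/
def swapS (ω : Sample) : Sample :=
  (fun k => ω.1 (k.2, k.1), fun k j => Y1x126.m3 Prod.swap (ω.2 (k.2, k.1) j))

theorem swapS_mp : MeasurePreserving swapS sampleLaw sampleLaw := by
  have h1 := Y1x126.reidx_mp (ProbabilityTheory.poissonMeasure 1) (Equiv.prodComm ℤ ℤ)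
    (fun _ => id) (fun _ => MeasurePreserving.id _)
  have h0 : MeasurePreserving (Prod.swap : unitInterval × unitInterval → _)
      ((volume : Measure unitInterval).prod volume)
      ((volume : Measure unitInterval).prod volume) := Measure.measurePreserving_swap
  have h3 := Y1x126.reidx_mp (Measure.pi fun _ : Fin 3 => (volume : Measure unitInterval))
    (Equiv.refl ℕ) (fun _ m => Y1x126.m3 Prod.swap m) (fun _ => Y1x126.m3_mp h0)
  have h2 := Y1x126.reidx_mp (Measure.infinitePi fun _ : ℕ =>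
      Measure.pi fun _ : Fin 3 => (volume : Measure unitInterval)) (Equiv.prodComm ℤ ℤ)
      (fun _ u j => Y1x126.m3 Prod.swap (u j)) (fun _ => h3)
  exact h1.prod h2

theorem cfg_swapS (ε : ℝ) (ω : Sample) : cfg ε (swapS ω) = swc (cfg ε ω) := by
  have key : ∀ (k : ℤ × ℤ) (j : ℕ), (point ε (swapS ω) k j, col (swapS ω) k j) =
      (sw (point ε ω (k.2, k.1) j), col ω (k.2, k.1) j) := by
    intro k j
    refine Prod.ext ?_ ?_
    · apply Complex.ext <;> simp [point, swapS, sw, Y1x126.m3]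
    · simp [col, swapS, Y1x126.m3]
  rw [swc, cfg, cfg, ← image_comp]
  ext z
  constructor
  · rintro ⟨⟨k1, k2, j⟩, hp, rfl⟩
    refine ⟨(k2, k1, j), hp, ?_⟩
    exact (key (k1, k2) j).symm
  · rintro ⟨⟨k1, k2, j⟩, hp, rfl⟩
    refine ⟨(k2, k1, j), hp, ?_⟩
    exact key (k2, k1) j

theorem swc_swc (X : Set (ℂ × Bool)) : swc (swc X) = X := by
  rw [swc, swc, ← image_comp]
  have : ((fun p : ℂ × Bool => (sw p.1, p.2)) ∘ fun p : ℂ × Bool => (sw p.1, p.2)) = id := by
    funext p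
    rfl
  rw [this, image_id]

theorem law_swap_le (ε : ℝ) (P : Set (ℂ × Bool) → Prop) :
    sampleLaw {ω | P (swc (cfg ε ω))} ≤ sampleLaw {ω | P (cfg ε ω)} := by
  refine le_trans (measure_mono ?_) (le_of_mp swapS_mp {ω | P (cfg ε ω)})
  intro ω h
  show P (cfg ε (swapS ω))
  rw [cfg_swapS]
  exact h

/-- **the law does not change if the coordinates are exchanged** (all events, outer measure) -/
theorem law_swap (ε : ℝ) (P : Set (ℂ × Bool) → Prop) :
    sampleLaw {ω | P (swc (cfg ε ω))} = sampleLaw {ω | P (cfg ε ω)} := by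
  refine le_antisymm (law_swap_le ε P) ?_
  have := law_swap_le ε (fun X => P (swc X))
  simpa only [swc_swc] using this

theorem Bk_swc (X : Set (ℂ × Bool)) : Bk (swc X) = sw '' Bk X := by
  ext z
  constructor
  · rintro ⟨b, hb, h⟩
    obtain ⟨⟨a, c⟩, hp, hpb⟩ := hb
    simp only [Prod.mk.injEq] at hpb
    obtain ⟨rfl, rfl⟩ := hpb
    refine ⟨sw z, ⟨a, hp, fun q hq => ?_⟩, sw_sw z⟩
    have := h _ ⟨q, hq, rfl⟩
    rw [← norm_sw (sw z) a, ← norm_sw (sw z) q.1, sw_sw]
    exact this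
  · rintro ⟨w, ⟨b, hb, h⟩, rfl⟩
    refine ⟨sw b, ⟨_, hb, rfl⟩, ?_⟩
    rintro _ ⟨q, hq, rfl⟩
    rw [norm_sw, norm_sw]
    exact h q hq

theorem Jn_swap {W K A B : Set ℂ} (h : Jn W K A B) : Jn (sw '' W) (sw '' K) (sw '' A) (sw '' B) := by
  obtain ⟨S, h1, h2, ⟨x, hx, hxA⟩, ⟨y, hy, hyB⟩⟩ := h
  refine ⟨sw '' S, h1.image continuous_sw, ?_, ⟨sw x, ⟨x, hx, rfl⟩, ⟨x, hxA, rfl⟩⟩,
    ⟨sw y, ⟨y, hy, rfl⟩, ⟨y, hyB, rfl⟩⟩⟩
  rintro _ ⟨z, hz, rfl⟩
  exact ⟨⟨z, (h2 hz).1, rfl⟩, ⟨z, (h2 hz).2, rfl⟩⟩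

theorem sw_Rc (x0 x1 y0 y1 : ℝ) : sw '' Rc x0 x1 y0 y1 = Rc y0 y1 x0 x1 := by
  ext z
  constructor
  · rintro ⟨w, ⟨h1, h2, h3, h4⟩, rfl⟩
    exact ⟨h3, h4, h1, h2⟩
  · rintro ⟨h1, h2, h3, h4⟩
    exact ⟨sw z, ⟨h3, h4, h1, h2⟩, sw_sw z⟩

theorem sw_im (a : ℝ) : sw '' {z | z.im = a} = {z | z.re = a} := by
  ext z
  constructor
  · rintro ⟨w, h1, rfl⟩
    exact h1
  · intro h
    exact ⟨sw z, h, sw_sw z⟩

/-- the law of a white vertical crossing is the law of a black horizontal crossing of the rectangle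
with exchanged coordinates -/
theorem law_white (ε x0 x1 y0 y1 : ℝ) :
    sampleLaw {ω | Jn (Bk (flipc (cfg ε ω))) (Rc x0 x1 y0 y1) {z | z.im = y0} {z | z.im = y1}} ≤
      sampleLaw {ω | Jn (Bk (cfg ε ω)) (Rc y0 y1 x0 x1) {z | z.re = y0} {z | z.re = y1}} := by
  rw [law_flip ε (fun X => Jn (Bk X) (Rc x0 x1 y0 y1) {z | z.im = y0} {z | z.im = y1})]
  rw [← law_swap ε (fun X => Jn (Bk X) (Rc y0 y1 x0 x1) {z | z.re = y0} {z | z.re = y1})]
  refine measure_mono fun ω h => ?_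
  have := Jn_swap (show Jn (Bk (cfg ε ω)) (Rc x0 x1 y0 y1) {z | z.im = y0} {z | z.im = y1} from h)
  rw [sw_Rc, sw_im, sw_im, ← Bk_swc] at this
  exact this

/-- **duality for the probabilities** -/
theorem dual_law {x0 x1 y0 y1 : ℝ} (hx : x0 < x1) (hy : y0 < y1) :
    1 ≤ sampleLaw (Hc x0 x1 y0 y1) + sampleLaw (Hc y0 y1 x0 x1) := by
  have h1 : sampleLaw (Hc x0 x1 y0 y1 ∪ {ω | Jn (Bk (flipc (cfg 1 ω))) (Rc x0 x1 y0 y1)
      {z | z.im = y0} {z | z.im = y1}}) = 1 := by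
    rw [← measure_univ (μ := sampleLaw)]
    refine measure_congr ?_
    filter_upwards [ae_nonempty 1] with ω hω
    exact eq_true (dual (LF_cfg one_pos hω) hx hy)
  calc (1 : ENNReal) = _ := h1.symm
    _ ≤ _ := measure_union_le _ _
    _ ≤ _ := add_le_add le_rfl (law_white 1 x0 x1 y0 y1)

/-- **(SQ)** -/
theorem sq : SQ := by
  intro s hs
  have h := dual_law hs hs
  have h2 : (2 : ENNReal)⁻¹ * 1 ≤ 2⁻¹ * (2 * sampleLaw (Hc 0 s 0 s)) := by
    gcongr
    rwa [two_mul]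
  rwa [mul_one, ← mul_assoc, ENNReal.inv_mul_cancel (by norm_num) (by norm_num), one_mul] at h2

end Crest.Agent.R143.TasSQx565
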