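import Crest.Agent.R143.TasI_372
import Crest.Agent.R143.G6T_408
import Crest.Agent.R202.Miranda

/-!
# Row 143 (S0194), block N3, leaf SQ: crossing of squares (helper597)

`P(Hc 0 s 0 s) ≥ 1/2` for every `s > 0` by duality, with no hypothesis.

* `duality` : a square covered by two closed sets is crossed horizontally by a connected subset of
  the first or vertically by a connected subset of the second (Poincaré–Miranda)
* `jn_of_pre` : connected subsets of the black region in a compact convex set give path connected ones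
* `flipS`, `reflS` : the measure preserving symmetries of the sample space
  (colour flip, reflection in the diagonal)
* `sq : SQ`
-/

set_option autoImplicit false

noncomputable section

namespace Crest.Agent.R143.TasSQx597

open MeasureTheory Set Filter Topology
open Crest.ProbabilityR.Voronoi
open Crest.Agent.R143.PP0x831 Crest.Agent.R143.TasIx372

/-! ### topology -/

/-- separating function -/
theorem sep {L P Q : Set ℂ} (hL : IsCompact L) (hP : IsClosed P) (hQ : IsClosed Q)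
    (hPn : P.Nonempty) (hQn : Q.Nonempty)
    (h : ∀ S ⊆ L, IsPreconnected S → (S ∩ P).Nonempty → ¬ (S ∩ Q).Nonempty) :
    ∃ f : ℂ → ℝ, Continuous f ∧ (∀ z ∈ P, f z ≤ 0) ∧ (∀ z ∈ Q, 0 ≤ f z) ∧ ∀ z ∈ L, f z ≠ 0 := by
  obtain ⟨W, W', hW, hW', hWW, hd, hPW, hQW⟩ := G6Tx408.cut hL hP hQ h
  have c1 : IsClosed (W ∪ P) := hW.isClosed.union hP
  have c2 : IsClosed (W' ∪ Q) := hW'.isClosed.union hQ
  have n1 : (W ∪ P).Nonempty := hPn.mono subset_union_right
  have n2 : (W' ∪ Q).Nonempty := hQn.mono subset_union_right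
  refine ⟨fun z => Metric.infDist z (W ∪ P) - Metric.infDist z (W' ∪ Q),
    (Metric.continuous_infDist_pt _).sub (Metric.continuous_infDist_pt _), ?_, ?_, ?_⟩
  · intro z hz
    have h1 : Metric.infDist z (W ∪ P) = 0 := Metric.infDist_zero_of_mem (Or.inr hz)
    have h2 : 0 ≤ Metric.infDist z (W' ∪ Q) := Metric.infDist_nonneg
    simp only [h1]; linarith
  · intro z hz
    have h1 : Metric.infDist z (W' ∪ Q) = 0 := Metric.infDist_zero_of_mem (Or.inr hz)
    have h2 : 0 ≤ Metric.infDist z (W ∪ P) := Metric.infDist_nonneg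
    simp only [h1]; linarith
  · intro z hz
    rw [← hWW] at hz
    rcases hz with hz | hz
    · have h1 : Metric.infDist z (W ∪ P) = 0 := Metric.infDist_zero_of_mem (Or.inl hz)
      have hzL : z ∈ L := hWW ▸ Or.inl hz
      have h3 : z ∉ W' ∪ Q := by
        rintro (h3 | h3)
        · exact Set.disjoint_left.1 hd hz h3
        · exact Set.disjoint_left.1 hd hz (hQW ⟨hzL, h3⟩)
      have h2 : 0 < Metric.infDist z (W' ∪ Q) := (c2.notMem_iff_infDist_pos n2).1 h3
      simp only [h1]; linarith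
    · have h1 : Metric.infDist z (W' ∪ Q) = 0 := Metric.infDist_zero_of_mem (Or.inl hz)
      have hzL : z ∈ L := hWW ▸ Or.inr hz
      have h3 : z ∉ W ∪ P := by
        rintro (h3 | h3)
        · exact Set.disjoint_left.1 hd h3 hz
        · exact Set.disjoint_left.1 hd (hPW ⟨hzL, h3⟩) hz
      have h2 : 0 < Metric.infDist z (W ∪ P) := (c1.notMem_iff_infDist_pos n1).1 h3
      simp only [h1]; linarith

theorem isClosed_re (a : ℝ) : IsClosed {z : ℂ | z.re = a} :=
  isClosed_eq Complex.continuous_re continuous_const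

theorem isClosed_im (a : ℝ) : IsClosed {z : ℂ | z.im = a} :=
  isClosed_eq Complex.continuous_im continuous_const

theorem Rc_eq (x0 x1 y0 y1 : ℝ) : Rc x0 x1 y0 y1 = Icc x0 x1 ×ℂ Icc y0 y1 := by
  ext z
  simp only [Rc, Complex.mem_reProdIm, mem_Icc, mem_ofPred_eq]
  tauto

theorem isCompact_Rc (x0 x1 y0 y1 : ℝ) : IsCompact (Rc x0 x1 y0 y1) := by
  rw [Rc_eq]
  exact isCompact_Icc.reProdIm isCompact_Icc

theorem convex_Rc (x0 x1 y0 y1 : ℝ) : Convex ℝ (Rc x0 x1 y0 y1) := by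
  have : Rc x0 x1 y0 y1 = Complex.reLm ⁻¹' Icc x0 x1 ∩ Complex.imLm ⁻¹' Icc y0 y1 := by
    ext z
    simp only [Rc, mem_inter_iff, mem_preimage, mem_Icc, mem_ofPred_eq, Complex.reLm_coe,
      Complex.imLm_coe]
    tauto
  rw [this]
  exact ((convex_Icc _ _).linear_preimage _).inter ((convex_Icc _ _).linear_preimage _)

/-- **duality in a square** -/
theorem duality {s : ℝ} (hs : 0 < s) {F G : Set ℂ} (hF : IsClosed F) (hG : IsClosed G)
    (hc : Rc 0 s 0 s ⊆ F ∪ G) :
    (∃ S ⊆ F ∩ Rc 0 s 0 s, IsPreconnected S ∧ (S ∩ {z | z.re = 0}).Nonempty ∧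
      (S ∩ {z | z.re = s}).Nonempty) ∨
    (∃ S ⊆ G ∩ Rc 0 s 0 s, IsPreconnected S ∧ (S ∩ {z | z.im = 0}).Nonempty ∧
      (S ∩ {z | z.im = s}).Nonempty) := by
  by_contra hcon
  rw [not_or] at hcon
  obtain ⟨hc1, hc2⟩ := hcon
  obtain ⟨f, hfc, hf1, hf2, hf3⟩ := sep (L := F ∩ Rc 0 s 0 s) (P := {z | z.re = 0})
    (Q := {z | z.re = s}) ((isCompact_Rc _ _ _ _).inter_left hF) (isClosed_re _) (isClosed_re _)
    ⟨0, by simp⟩ ⟨(s : ℂ), by simp⟩ (fun S h1 h2 h3 h4 => hc1 ⟨S, h1, h2, h3, h4⟩)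
  obtain ⟨g, hgc, hg1, hg2, hg3⟩ := sep (L := G ∩ Rc 0 s 0 s) (P := {z | z.im = 0})
    (Q := {z | z.im = s}) ((isCompact_Rc _ _ _ _).inter_left hG) (isClosed_im _) (isClosed_im _)
    ⟨0, by simp⟩ ⟨(s : ℂ) * Complex.I, by simp⟩ (fun S h1 h2 h3 h4 => hc2 ⟨S, h1, h2, h3, h4⟩)
  set φ : (Fin 2 → ℝ) → ℂ := fun x => ((s / 2 * (x 0 + 1) : ℝ) : ℂ) +
    ((s / 2 * (x 1 + 1) : ℝ) : ℂ) * Complex.I with hφ
  have hφc : Continuous φ := by
    rw [hφ]; fun_prop
  have hre : ∀ x, (φ x).re = s / 2 * (x 0 + 1) := by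
    intro x; simp [hφ]
  have him : ∀ x, (φ x).im = s / 2 * (x 1 + 1) := by
    intro x; simp [hφ]
  have hφK : ∀ x ∈ Set.pi (Set.univ : Set (Fin 2)) (fun _ => Set.Icc (-1 : ℝ) 1),
      φ x ∈ Rc 0 s 0 s := by
    intro x hx
    have h0 := hx 0 (mem_univ _)
    have h1 := hx 1 (mem_univ _)
    simp only [mem_Icc] at h0 h1
    refine ⟨?_, ?_, ?_, ?_⟩
    · rw [hre]; nlinarith [h0.1]
    · rw [hre]; nlinarith [h0.2]
    · rw [him]; nlinarith [h1.1]
    · rw [him]; nlinarith [h1.2]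
  obtain ⟨x, hx, hx0⟩ := Crest.Agent.R202.poincare_miranda (ι := Fin 2)
    (fun x i => if i = 0 then f (φ x) else g (φ x)) (by
      refine Continuous.continuousOn (continuous_pi fun i => ?_)
      by_cases hi : i = 0
      · simp only [hi, if_true]; exact hfc.comp hφc
      · simp only [hi, if_false]; exact hgc.comp hφc) (by
      intro x hx i hi
      fin_cases i
      · simp only [Fin.zero_eta, if_true]
        apply hf2
        change (φ x).re = s
        rw [hre]
        have : x 0 = 1 := hi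
        rw [this]; ring
      · simp only [Fin.mk_one, one_ne_zero, if_false]
        apply hg2
        change (φ x).im = s
        rw [him]
        have : x 1 = 1 := hi
        rw [this]; ring) (by
      intro x hx i hi
      fin_cases i
      · simp only [Fin.zero_eta, if_true]
        apply hf1
        change (φ x).re = 0
        rw [hre]
        have : x 0 = -1 := hi
        rw [this]; ring
      · simp only [Fin.mk_one, one_ne_zero, if_false]
        apply hg1
        change (φ x).im = 0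
        rw [him]
        have : x 1 = -1 := hi
        rw [this]; ring)
  have h0 : f (φ x) = 0 := by simpa using hx0 0
  have h1 : g (φ x) = 0 := by simpa using hx0 1
  rcases hc (hφK x hx) with h | h
  · exact hf3 _ ⟨h, hφK x hx⟩ h0
  · exact hg3 _ ⟨h, hφK x hx⟩ h1

/-! ### Voronoi cells of locally finite configurations -/

/-- locally finite -/
def LF (X : Set (ℂ × Bool)) : Prop := ∀ R : ℝ, (X ∩ {p | ‖p.1‖ ≤ R}).Finite

/-- closed Voronoi cell -/
def cell (X : Set (ℂ × Bool)) (b : ℂ) : Set ℂ := {z | ∀ p ∈ X, ‖z - b‖ ≤ ‖z - p.1‖}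

theorem isClosed_cell (X : Set (ℂ × Bool)) (b : ℂ) : IsClosed (cell X b) := by
  have : cell X b = ⋂ p ∈ X, {z | ‖z - b‖ ≤ ‖z - p.1‖} := by
    ext z; simp [cell]
  rw [this]
  exact isClosed_biInter fun p _ => isClosed_le (by fun_prop) (by fun_prop)

theorem convex_half (b p : ℂ) : Convex ℝ {z : ℂ | ‖z - b‖ ≤ ‖z - p‖} := by
  have hl : IsLinearMap ℝ (fun z : ℂ => 2 * (p.re - b.re) * z.re + 2 * (p.im - b.im) * z.im) :=
    ⟨fun x y => by simp only [Complex.add_re, Complex.add_im]; ring,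
      fun c x => by simp only [Complex.real_smul, Complex.mul_re, Complex.mul_im,
        Complex.ofReal_re, Complex.ofReal_im, smul_eq_mul]; ring⟩
  have : {z : ℂ | ‖z - b‖ ≤ ‖z - p‖} =
      {z : ℂ | 2 * (p.re - b.re) * z.re + 2 * (p.im - b.im) * z.im ≤
        p.re ^ 2 + p.im ^ 2 - b.re ^ 2 - b.im ^ 2} := by
    ext z
    simp only [mem_ofPred_eq]
    rw [← sq_le_sq₀ (norm_nonneg _) (norm_nonneg _), Complex.sq_norm, Complex.sq_norm,
      Complex.normSq_apply, Complex.normSq_apply]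
    simp only [Complex.sub_re, Complex.sub_im]
    constructor <;> intro h <;> nlinarith
  rw [this]
  exact convex_halfSpace_le hl _

theorem convex_cell (X : Set (ℂ × Bool)) (b : ℂ) : Convex ℝ (cell X b) := by
  have : cell X b = ⋂ p ∈ X, {z | ‖z - b‖ ≤ ‖z - p.1‖} := by
    ext z; simp [cell]
  rw [this]
  exact convex_iInter₂ fun p _ => convex_half _ _

/-- only finitely many cells meet a bounded set -/
theorem finite_cells {X : Set (ℂ × Bool)} (hX : LF X) {K : Set ℂ} (hK : Bornology.IsBounded K) :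
    {b : ℂ | (∃ c, (b, c) ∈ X) ∧ (cell X b ∩ K).Nonempty}.Finite := by
  rcases X.eq_empty_or_nonempty with rfl | ⟨p0, hp0⟩
  · simp
  obtain ⟨R, hR⟩ := hK.subset_closedBall 0
  have : {b : ℂ | (∃ c, (b, c) ∈ X) ∧ (cell X b ∩ K).Nonempty} ⊆
      Prod.fst '' (X ∩ {p | ‖p.1‖ ≤ R + (R + ‖p0.1‖)}) := by
    rintro b ⟨⟨c, hc⟩, z, hz, hzK⟩
    refine ⟨(b, c), ⟨hc, ?_⟩, rfl⟩
    have h1 : ‖z‖ ≤ R := by simpa using hR hzK
    have h2 : ‖z - b‖ ≤ ‖z - p0.1‖ := hz _ hp0
    have h3 : ‖z - p0.1‖ ≤ ‖z‖ + ‖p0.1‖ := norm_sub_le _ _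
    have h4 : ‖b‖ ≤ ‖z‖ + ‖z - b‖ := by
      have : b = z - (z - b) := by ring
      calc ‖b‖ = ‖z - (z - b)‖ := by rw [← this]
        _ ≤ _ := norm_sub_le _ _
    change ‖b‖ ≤ _
    linarith
  exact ((hX _).image _).subset this

theorem Bk_inter {X : Set (ℂ × Bool)} (K : Set ℂ) :
    Bk X ∩ K = ⋃ b ∈ {b : ℂ | (b, true) ∈ X ∧ (cell X b ∩ K).Nonempty}, cell X b ∩ K := by
  ext z
  simp only [Bk, cell, mem_inter_iff, mem_ofPred_eq, mem_iUnion, exists_prop]
  constructor
  · rintro ⟨⟨b, hb, hz⟩, hzK⟩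
    exact ⟨b, ⟨hb, z, hz, hzK⟩, hz, hzK⟩
  · rintro ⟨b, ⟨hb, -⟩, hz, hzK⟩
    exact ⟨⟨b, hb, hz⟩, hzK⟩

theorem finite_black {X : Set (ℂ × Bool)} (hX : LF X) {K : Set ℂ} (hK : Bornology.IsBounded K) :
    {b : ℂ | (b, true) ∈ X ∧ (cell X b ∩ K).Nonempty}.Finite :=
  (finite_cells hX hK).subset fun _ hb => ⟨⟨_, hb.1⟩, hb.2⟩

theorem isClosed_Bk_inter {X : Set (ℂ × Bool)} (hX : LF X) {K : Set ℂ} (hK : IsCompact K) :
    IsClosed (Bk X ∩ K) := by
  rw [Bk_inter]
  exact (finite_black hX hK.isBounded).isClosed_biUnion fun b _ =>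
    (isClosed_cell _ _).inter hK.isClosed

/-- connected joins give path connected joins -/
theorem jn_of_pre {X : Set (ℂ × Bool)} (hX : LF X) {K A B : Set ℂ} (hK : IsCompact K)
    (hKc : Convex ℝ K) {S : Set ℂ} (hS : IsPreconnected S) (hSK : S ⊆ Bk X ∩ K)
    (hA : (S ∩ A).Nonempty) (hB : (S ∩ B).Nonempty) : Jn (Bk X) K A B := by
  set T : Set ℂ := {b : ℂ | (b, true) ∈ X ∧ (cell X b ∩ K).Nonempty} with hT
  have hTf : T.Finite := finite_black hX hK.isBounded
  have hcov : S ⊆ ⋃ b ∈ T, cell X b ∩ K := by rw [hT, ← Bk_inter]; exact hSK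
  obtain ⟨x, hxS, hxA⟩ := hA
  obtain ⟨y, hyS, hyB⟩ := hB
  obtain ⟨i, hi, hxi⟩ := mem_iUnion₂.1 (hcov hxS)
  obtain ⟨j, hj, hyj⟩ := mem_iUnion₂.1 (hcov hyS)
  have hch := G6Tx408.chain_of_cover hTf (F := fun b => cell X b ∩ K)
    (fun b _ => (isClosed_cell _ _).inter hK.isClosed) hS hcov hi hj ⟨x, hxS, hxi⟩ ⟨y, hyS, hyj⟩
  have hpc : ∀ b ∈ T, IsPathConnected (cell X b ∩ K) := fun b hb =>
    ((convex_cell X b).inter hKc).isPathConnected hb.2
  have hsub : ∀ b ∈ T, cell X b ∩ K ⊆ Bk X ∩ K := by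
    intro b hb z hz
    exact ⟨⟨b, hb.1, hz.1⟩, hz.2⟩
  have key : ∀ k, Relation.ReflTransGen
      (fun a b => a ∈ T ∧ b ∈ T ∧ ((cell X a ∩ K) ∩ (cell X b ∩ K) ∩ S).Nonempty) i k →
      ∃ P : Set ℂ, IsPathConnected P ∧ P ⊆ Bk X ∩ K ∧ cell X i ∩ K ⊆ P ∧ cell X k ∩ K ⊆ P := by
    intro k hk
    induction hk with
    | refl => exact ⟨_, hpc i hi, hsub i hi, subset_rfl, subset_rfl⟩
    | tail h1 h2 ih =>
      obtain ⟨P, hP, hPs, hPi, hPk⟩ := ih
      obtain ⟨ha, hb, z, ⟨hz1, hz2⟩, -⟩ := h2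
      exact ⟨P ∪ _, hP.union (hpc _ hb) ⟨z, hPk hz1, hz2⟩, union_subset hPs (hsub _ hb),
        hPi.trans subset_union_left, subset_union_right⟩
  obtain ⟨P, hP, hPs, hPi, hPj⟩ := key j hch
  exact ⟨P, hP, hPs, ⟨x, hPi hxi, hxA⟩, ⟨y, hPj hyj, hyB⟩⟩

theorem lf_flipc {X : Set (ℂ × Bool)} (h : LF X) : LF (flipc X) := by
  intro R
  refine ((h R).image (fun p : ℂ × Bool => (p.1, !p.2))).subset ?_
  rintro _ ⟨⟨p, hp, rfl⟩, hp2⟩
  exact ⟨p, ⟨hp, hp2⟩, rfl⟩

/-- the two colours cover the plane -/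
theorem cover {X : Set (ℂ × Bool)} (h : LF X) (hne : X.Nonempty) : Bk X ∪ Bk (flipc X) = univ := by
  rw [eq_univ_iff_forall]
  intro z
  obtain ⟨p0, hp0⟩ := hne
  have hfin := h (‖z‖ + ‖z - p0.1‖)
  have hp0' : p0 ∈ X ∩ {p | ‖p.1‖ ≤ ‖z‖ + ‖z - p0.1‖} := by
    refine ⟨hp0, ?_⟩
    have : p0.1 = z - (z - p0.1) := by ring
    calc ‖p0.1‖ = ‖z - (z - p0.1)‖ := by rw [← this]
      _ ≤ _ := norm_sub_le _ _
  obtain ⟨p, hp, hmin⟩ := exists_min_image _ (fun p : ℂ × Bool => ‖z - p.1‖) hfin ⟨p0, hp0'⟩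
  have hall : ∀ q ∈ X, ‖z - p.1‖ ≤ ‖z - q.1‖ := by
    intro q hq
    by_cases hq2 : ‖q.1‖ ≤ ‖z‖ + ‖z - p0.1‖
    · exact hmin q ⟨hq, hq2⟩
    · have h1 := hmin p0 hp0'
      have h2 : ‖q.1‖ ≤ ‖z‖ + ‖z - q.1‖ := by
        have : q.1 = z - (z - q.1) := by ring
        calc ‖q.1‖ = ‖z - (z - q.1)‖ := by rw [← this]
          _ ≤ _ := norm_sub_le _ _
      push Not at hq2
      linarith
  rcases hb : p.2 with _ | _
  · refine Or.inr ⟨p.1, ⟨p, hp.1, by simp [hb]⟩, ?_⟩
    rintro _ ⟨q, hq, rfl⟩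
    exact hall q hq
  · exact Or.inl ⟨p.1, by rw [← hb]; exact hp.1, hall⟩

/-- **duality for Voronoi percolation in a square** -/
theorem dual_jn {X : Set (ℂ × Bool)} (h : LF X) (hne : X.Nonempty) {s : ℝ} (hs : 0 < s) :
    Jn (Bk X) (Rc 0 s 0 s) {z | z.re = 0} {z | z.re = s} ∨
    Jn (Bk (flipc X)) (Rc 0 s 0 s) {z | z.im = 0} {z | z.im = s} := by
  have hK := isCompact_Rc 0 s 0 s
  have hcov : Rc 0 s 0 s ⊆ (Bk X ∩ Rc 0 s 0 s) ∪ (Bk (flipc X) ∩ Rc 0 s 0 s) := by
    intro z hz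
    rcases (cover h hne).ge (mem_univ z) with h | h
    · exact Or.inl ⟨h, hz⟩
    · exact Or.inr ⟨h, hz⟩
  rcases duality hs (isClosed_Bk_inter h hK) (isClosed_Bk_inter (lf_flipc h) hK) hcov with
    ⟨S, hS, hSc, hS1, hS2⟩ | ⟨S, hS, hSc, hS1, hS2⟩
  · exact Or.inl (jn_of_pre h hK (convex_Rc _ _ _ _) hSc (hS.trans inter_subset_left) hS1 hS2)
  · exact Or.inr (jn_of_pre (lf_flipc h) hK (convex_Rc _ _ _ _) hSc (hS.trans inter_subset_left)
      hS1 hS2)

/-! ### configurations -/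

theorem norm_point_ge (ω : Sample) (k : ℤ × ℤ) (j : ℕ) :
    |(k.1 : ℝ)| ≤ ‖point 1 ω k j‖ + 1 ∧ |(k.2 : ℝ)| ≤ ‖point 1 ω k j‖ + 1 := by
  have h1 : (point 1 ω k j).re = (k.1 : ℝ) + (ω.2 k j 0 : ℝ) := by simp [point]
  have h2 : (point 1 ω k j).im = (k.2 : ℝ) + (ω.2 k j 1 : ℝ) := by simp [point]
  have a1 := Complex.abs_re_le_norm (point 1 ω k j)
  have a2 := Complex.abs_im_le_norm (point 1 ω k j)
  rw [h1] at a1
  rw [h2] at a2
  have b1 := (ω.2 k j 0).2
  have b2 := (ω.2 k j 1).2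
  rw [mem_Icc] at b1 b2
  rw [abs_le] at a1 a2
  constructor <;> rw [abs_le] <;> constructor <;> linarith

theorem lf_cfg (ω : Sample) : LF (cfg 1 ω) := by
  intro R
  set m : ℤ := ⌈R + 1⌉ with hm
  have hfin : (⋃ k ∈ (Icc (-m) m ×ˢ Icc (-m) m : Set (ℤ × ℤ)),
      (fun j : ℕ => (point 1 ω k j, col ω k j)) '' Iio (ω.1 k)).Finite := by
    refine Set.Finite.biUnion ((finite_Icc _ _).prod (finite_Icc _ _)) fun k _ => ?_
    exact (finite_Iio _).image _
  refine hfin.subset ?_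
  rintro _ ⟨⟨⟨k1, k2, j⟩, hp, rfl⟩, hR⟩
  have hR' : ‖point 1 ω (k1, k2) j‖ ≤ R := hR
  obtain ⟨h1, h2⟩ := norm_point_ge ω (k1, k2) j
  have hm1 : R + 1 ≤ (m : ℝ) := Int.le_ceil _
  have e1 : |(k1 : ℝ)| ≤ (m : ℝ) := by simp only at h1; linarith
  have e2 : |(k2 : ℝ)| ≤ (m : ℝ) := by simp only at h2; linarith
  rw [abs_le] at e1 e2
  refine mem_biUnion (x := (k1, k2)) ?_ ⟨j, hp, rfl⟩
  refine ⟨⟨?_, ?_⟩, ⟨?_, ?_⟩⟩
  · exact_mod_cast e1.1
  · exact_mod_cast e1.2
  · exact_mod_cast e2.1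
  · exact_mod_cast e2.2

instance : IsProbabilityMeasure sampleLaw := by
  unfold sampleLaw; infer_instance

/-- almost surely there is a point -/
theorem ae_nonempty : ∀ᵐ ω ∂sampleLaw, (cfg 1 ω).Nonempty := by
  have h0 : (Measure.infinitePi fun _ : ℤ × ℤ => ProbabilityTheory.poissonMeasure 1)
      {N : ℤ × ℤ → ℕ | ∀ k, N k = 0} = 0 := by
    set q : ENNReal := ProbabilityTheory.poissonMeasure 1 {0} with hq
    have hq1 : q < 1 := by
      rw [hq, ProbabilityTheory.poissonMeasure_singleton, ENNReal.ofReal_lt_one]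
      simp
    have hle : ∀ n : ℕ, (Measure.infinitePi fun _ : ℤ × ℤ => ProbabilityTheory.poissonMeasure 1)
        {N : ℤ × ℤ → ℕ | ∀ k, N k = 0} ≤ q ^ n := by
      intro n
      set t : Finset (ℤ × ℤ) := (Finset.range n).image (fun i : ℕ => ((i : ℤ), (0 : ℤ))) with ht
      have hcard : t.card = n := by
        rw [ht, Finset.card_image_of_injective, Finset.card_range]
        intro a b hab
        simpa using hab
      calc _ ≤ (Measure.infinitePi fun _ : ℤ × ℤ => ProbabilityTheory.poissonMeasure 1)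
            (Set.pi t fun _ => ({0} : Set ℕ)) := by
            apply measure_mono
            intro N hN k _
            exact hN k
        _ = q ^ n := by
            rw [Measure.infinitePi_pi _ (fun _ _ => MeasurableSet.singleton 0)]
            rw [Finset.prod_const, hcard]
    have hlim : Tendsto (fun n : ℕ => q ^ n) atTop (𝓝 0) :=
      ENNReal.tendsto_pow_atTop_nhds_zero_of_lt_one hq1
    exact le_antisymm (ge_of_tendsto' hlim hle) bot_le
  have h1 : sampleLaw ({N : ℤ × ℤ → ℕ | ∀ k, N k = 0} ×ˢ univ) = 0 := by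
    unfold sampleLaw
    rw [Measure.prod_prod, h0, zero_mul]
  rw [ae_iff]
  refine measure_mono_null ?_ h1
  intro ω hω
  refine ⟨fun k => ?_, mem_univ _⟩
  by_contra hk
  exact hω ⟨_, ⟨(k.1, k.2, 0), Nat.pos_of_ne_zero hk, rfl⟩⟩

/-- almost surely no mark is `1/2` -/
theorem ae_mark : ∀ᵐ ω ∂sampleLaw, ∀ (k : ℤ × ℤ) (j : ℕ), (ω.2 k j 2 : ℝ) ≠ 1 / 2 := by
  rw [ae_all_iff]
  intro k
  rw [ae_all_iff]
  intro j
  have hmp : MeasurePreserving (fun ω : Sample => ω.2 k j 2) sampleLaw volume := by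
    have h1 : MeasurePreserving (Prod.snd : Sample → _) sampleLaw
        (Measure.infinitePi fun _ : ℤ × ℤ => Measure.infinitePi fun _ : ℕ =>
          Measure.pi fun _ : Fin 3 => (volume : Measure unitInterval)) :=
      measurePreserving_snd
    have h2 := measurePreserving_eval_infinitePi (fun _ : ℤ × ℤ => Measure.infinitePi fun _ : ℕ =>
          Measure.pi fun _ : Fin 3 => (volume : Measure unitInterval)) k
    have h3 := measurePreserving_eval_infinitePi (fun _ : ℕ =>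
          Measure.pi fun _ : Fin 3 => (volume : Measure unitInterval)) j
    have h4 := measurePreserving_eval (fun _ : Fin 3 => (volume : Measure unitInterval)) 2
    exact ((h4.comp h3).comp h2).comp h1
  have hz : (volume : Measure unitInterval) {u | (u : ℝ) = 1 / 2} = 0 := by
    have : {u : unitInterval | (u : ℝ) = 1 / 2} = {⟨1 / 2, by norm_num, by norm_num⟩} := by
      ext u
      simp [Subtype.ext_iff]
    rw [this]
    exact measure_singleton _
  rw [ae_iff]
  have hm : MeasurableSet {u : unitInterval | (u : ℝ) = 1 / 2} :=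
    measurableSet_eq_fun measurable_subtype_coe measurable_const
  have := hmp.measure_preimage hm.nullMeasurableSet
  rw [hz] at this
  simpa using this

/-! ### symmetries of the sample space -/

/-- flip of the colour marks -/
def flipS : Sample ≃ᵐ Sample where
  toFun ω := (ω.1, fun k j i => if i = 2 then unitInterval.symm (ω.2 k j i) else ω.2 k j i)
  invFun ω := (ω.1, fun k j i => if i = 2 then unitInterval.symm (ω.2 k j i) else ω.2 k j i)
  left_inv ω := by
    refine Prod.ext rfl ?_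
    funext k j i
    by_cases hi : i = 2 <;> simp [hi]
  right_inv ω := by
    refine Prod.ext rfl ?_
    funext k j i
    by_cases hi : i = 2 <;> simp [hi]
  measurable_toFun := by
    refine measurable_fst.prodMk ?_
    refine measurable_pi_lambda _ fun k => measurable_pi_lambda _ fun j =>
      measurable_pi_lambda _ fun i => ?_
    by_cases hi : i = 2
    · simp only [hi, if_true]
      exact unitInterval.measurable_symm.comp (by fun_prop)
    · simp only [hi, if_false]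
      fun_prop
  measurable_invFun := by
    refine measurable_fst.prodMk ?_
    refine measurable_pi_lambda _ fun k => measurable_pi_lambda _ fun j =>
      measurable_pi_lambda _ fun i => ?_
    by_cases hi : i = 2
    · simp only [hi, if_true]
      exact unitInterval.measurable_symm.comp (by fun_prop)
    · simp only [hi, if_false]
      fun_prop

theorem mp_infinitePi {ι : Type*} {X : Type*} [MeasurableSpace X] {μ : Measure X}
    [IsProbabilityMeasure μ] {f : X → X} (hf : MeasurePreserving f μ μ) :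
    MeasurePreserving (fun (x : ι → X) i => f (x i)) (Measure.infinitePi fun _ => μ)
      (Measure.infinitePi fun _ => μ) := by
  refine ⟨measurable_pi_lambda _ fun i => hf.measurable.comp (measurable_pi_apply i), ?_⟩
  have := Measure.infinitePi_map_pi (fun _ : ι => μ) (f := fun _ => f) (fun _ => hf.measurable)
  rw [this]
  simp only [hf.map_eq]

theorem mp_perm {ι : Type*} {X : Type*} [MeasurableSpace X] {μ : Measure X}
    [IsProbabilityMeasure μ] {e : ι → ι} (he : Function.Injective e) :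
    MeasurePreserving (fun (x : ι → X) i => x (e i)) (Measure.infinitePi fun _ => μ)
      (Measure.infinitePi fun _ => μ) :=
  ⟨measurable_pi_lambda _ fun i => measurable_pi_apply (e i),
    Measure.map_infinitePi_infinitePi_of_inj (P := fun _ : ι => μ) he⟩

theorem flipS_mp : MeasurePreserving flipS sampleLaw sampleLaw := by
  have h1 : MeasurePreserving (fun (u : Fin 3 → unitInterval) i =>
      if i = 2 then unitInterval.symm (u i) else u i)
      (Measure.pi fun _ : Fin 3 => (volume : Measure unitInterval))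
      (Measure.pi fun _ : Fin 3 => (volume : Measure unitInterval)) := by
    have := measurePreserving_pi (fun _ : Fin 3 => (volume : Measure unitInterval))
      (fun _ : Fin 3 => (volume : Measure unitInterval))
      (f := fun i u => if i = 2 then unitInterval.symm u else u) (by
        intro i
        by_cases hi : i = 2
        · simp only [hi, if_true]
          exact unitInterval.measurePreserving_symm
        · simp only [hi, if_false]
          exact MeasurePreserving.id _)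
    exact this
  have h2 := mp_infinitePi (ι := ℤ × ℤ) (mp_infinitePi (ι := ℕ) h1)
  have h3 := (MeasurePreserving.id
    (Measure.infinitePi fun _ : ℤ × ℤ => ProbabilityTheory.poissonMeasure 1)).prod h2
  exact h3

/-- exchange of the first two marks -/
def e01 : Fin 3 → Fin 3 := ![1, 0, 2]

theorem e01_e01 (i : Fin 3) : e01 (e01 i) = i := by
  fin_cases i <;> rfl

/-- reflection in the diagonal -/
def reflS : Sample ≃ᵐ Sample where
  toFun ω := (fun k => ω.1 k.swap, fun k j i => ω.2 k.swap j (e01 i))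
  invFun ω := (fun k => ω.1 k.swap, fun k j i => ω.2 k.swap j (e01 i))
  left_inv ω := by
    refine Prod.ext ?_ ?_
    · funext k; simp
    · funext k j i; simp [e01_e01]
  right_inv ω := by
    refine Prod.ext ?_ ?_
    · funext k; simp
    · funext k j i; simp [e01_e01]
  measurable_toFun := by
    refine Measurable.prodMk ?_ ?_
    · refine measurable_pi_lambda _ fun k => ?_
      exact (measurable_pi_apply _).comp measurable_fst
    · refine measurable_pi_lambda _ fun k => measurable_pi_lambda _ fun j =>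
        measurable_pi_lambda _ fun i => ?_
      fun_prop
  measurable_invFun := by
    refine Measurable.prodMk ?_ ?_
    · refine measurable_pi_lambda _ fun k => ?_
      exact (measurable_pi_apply _).comp measurable_fst
    · refine measurable_pi_lambda _ fun k => measurable_pi_lambda _ fun j =>
        measurable_pi_lambda _ fun i => ?_
      fun_prop

theorem reflS_mp : MeasurePreserving reflS sampleLaw sampleLaw := by
  have h1 : MeasurePreserving (fun (u : Fin 3 → unitInterval) i => u (e01 i))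
      (Measure.pi fun _ : Fin 3 => (volume : Measure unitInterval))
      (Measure.pi fun _ : Fin 3 => (volume : Measure unitInterval)) := by
    rw [← Measure.infinitePi_eq_pi]
    exact mp_perm (Function.Involutive.injective e01_e01)
  have h2 := mp_infinitePi (ι := ℤ × ℤ) (mp_infinitePi (ι := ℕ) h1)
  have h3 := h2.comp (mp_perm (μ := Measure.infinitePi fun _ : ℕ =>
    Measure.pi fun _ : Fin 3 => (volume : Measure unitInterval)) (e := (Prod.swap : ℤ × ℤ → ℤ × ℤ))
    Prod.swap_injective)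
  have h4 := (mp_perm (μ := ProbabilityTheory.poissonMeasure 1)
    (e := (Prod.swap : ℤ × ℤ → ℤ × ℤ)) Prod.swap_injective).prod h3
  exact h4

theorem cfg_flipS {ω : Sample} (h : ∀ (k : ℤ × ℤ) (j : ℕ), (ω.2 k j 2 : ℝ) ≠ 1 / 2) :
    cfg 1 (flipS ω) = flipc (cfg 1 ω) := by
  have hp : present (flipS ω) = present ω := rfl
  have hpt : ∀ k j, point 1 (flipS ω) k j = point 1 ω k j := by
    intro k j
    simp [point, flipS]
  have hcol : ∀ k j, col (flipS ω) k j = !(col ω k j) := by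
    intro k j
    have h1 : ((flipS ω).2 k j 2 : ℝ) = 1 - (ω.2 k j 2 : ℝ) := by
      simp [flipS]
    have h2 := h k j
    unfold col
    rw [h1]
    by_cases h3 : (ω.2 k j 2 : ℝ) < 1 / 2
    · have h4 : ¬ (1 - (ω.2 k j 2 : ℝ) < 1 / 2) := by linarith
      rw [decide_eq_false h4, decide_eq_true h3]; rfl
    · have h4 : (1 - (ω.2 k j 2 : ℝ) < 1 / 2) := by
        have : 1 / 2 < (ω.2 k j 2 : ℝ) := lt_of_le_of_ne (not_lt.1 h3) (Ne.symm h2)
        linarith
      rw [decide_eq_true h4, decide_eq_false h3]; rfl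
  unfold cfg flipc
  rw [hp, image_image]
  refine image_congr fun p _ => ?_
  rw [hpt, hcol]

/-- the reflection in the diagonal -/
def refl : ℂ ≃ᵢ ℂ where
  toFun z := ⟨z.im, z.re⟩
  invFun z := ⟨z.im, z.re⟩
  left_inv z := rfl
  right_inv z := rfl
  isometry_toFun := by
    refine Isometry.of_dist_eq fun z w => ?_
    rw [Complex.dist_eq_re_im, Complex.dist_eq_re_im]
    congr 1
    ring

theorem cfg_reflS (ω : Sample) :
    cfg 1 (reflS ω) = (fun p : ℂ × Bool => (refl p.1, p.2)) '' cfg 1 ω := by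
  have hpt : ∀ k j, point 1 (reflS ω) k j = refl (point 1 ω k.swap j) := by
    intro k j
    apply Complex.ext <;> simp [point, reflS, refl, e01]
  have hcol : ∀ k j, col (reflS ω) k j = col ω k.swap j := by
    intro k j
    rfl
  unfold cfg
  rw [image_image]
  ext q
  constructor
  · rintro ⟨⟨k1, k2, j⟩, hp, rfl⟩
    refine ⟨(k2, k1, j), hp, ?_⟩
    simp only [hpt, hcol, Prod.swap_prod_mk]
  · rintro ⟨⟨k1, k2, j⟩, hp, rfl⟩
    refine ⟨(k2, k1, j), hp, ?_⟩
    simp only [hpt, hcol, Prod.swap_prod_mk]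

/-- the black region of an isometric image -/
theorem Bk_image (g : ℂ ≃ᵢ ℂ) (X : Set (ℂ × Bool)) :
    Bk ((fun p : ℂ × Bool => (g p.1, p.2)) '' X) = g '' Bk X := by
  have hg : ∀ z w : ℂ, ‖g z - g w‖ = ‖z - w‖ := by
    intro z w
    rw [← dist_eq_norm, ← dist_eq_norm, g.dist_eq]
  ext z
  constructor
  · rintro ⟨b, ⟨q, hq, hb⟩, hz⟩
    simp only [Prod.mk.injEq] at hb
    refine ⟨g.symm z, ⟨q.1, by rw [← hb.2]; exact hq, fun p hp => ?_⟩, g.apply_symm_apply z⟩
    have h1 := hz _ ⟨p, hp, rfl⟩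
    rw [← hb.1] at h1
    rw [← hg, ← hg (g.symm z), g.apply_symm_apply]
    exact h1
  · rintro ⟨w, ⟨b, hb, hw⟩, rfl⟩
    refine ⟨g b, ⟨_, hb, rfl⟩, ?_⟩
    rintro _ ⟨p, hp, rfl⟩
    rw [hg, hg]
    exact hw p hp

/-- joins in an isometric image -/
theorem Jn_image (g : ℂ ≃ᵢ ℂ) (W K A B : Set ℂ) :
    Jn (g '' W) (g '' K) (g '' A) (g '' B) ↔ Jn W K A B := by
  have key : ∀ (g : ℂ ≃ᵢ ℂ) (W K A B : Set ℂ), Jn W K A B →
      Jn (g '' W) (g '' K) (g '' A) (g '' B) := by
    rintro g W K A B ⟨S, hS, hSK, ⟨x, hxS, hxA⟩, ⟨y, hyS, hyB⟩⟩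
    refine ⟨g '' S, hS.image g.continuous, ?_, ⟨g x, ⟨x, hxS, rfl⟩, ⟨x, hxA, rfl⟩⟩,
      ⟨g y, ⟨y, hyS, rfl⟩, ⟨y, hyB, rfl⟩⟩⟩
    rintro _ ⟨z, hz, rfl⟩
    exact ⟨⟨z, (hSK hz).1, rfl⟩, ⟨z, (hSK hz).2, rfl⟩⟩
  refine ⟨fun h => ?_, key g W K A B⟩
  have h2 := key g.symm _ _ _ _ h
  simpa only [image_image, g.symm_apply_apply, image_id'] using h2

theorem jn_swap {W K A B : Set ℂ} (h : Jn W K A B) : Jn W K B A := by
  obtain ⟨S, h1, h2, h3, h4⟩ := h
  exact ⟨S, h1, h2, h4, h3⟩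

theorem refl_Rc (s : ℝ) : refl '' Rc 0 s 0 s = Rc 0 s 0 s := by
  ext z
  constructor
  · rintro ⟨w, ⟨h1, h2, h3, h4⟩, rfl⟩
    exact ⟨h3, h4, h1, h2⟩
  · rintro ⟨h1, h2, h3, h4⟩
    exact ⟨⟨z.im, z.re⟩, ⟨h3, h4, h1, h2⟩, rfl⟩

theorem refl_re (s : ℝ) : refl '' {z | z.re = s} = {z | z.im = s} := by
  ext z
  constructor
  · rintro ⟨w, h, rfl⟩
    exact h
  · intro h
    exact ⟨⟨z.im, z.re⟩, h, rfl⟩

/-- vertical crossings of squares are as likely as horizontal ones -/
theorem Vc_eq_Hc (s : ℝ) : sampleLaw (Vc 0 s 0 s) = sampleLaw (Hc 0 s 0 s) := by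
  have h : reflS ⁻¹' Vc 0 s 0 s = Hc 0 s 0 s := by
    ext ω
    change Jn (Bk (cfg 1 (reflS ω))) _ _ _ ↔ Jn (Bk (cfg 1 ω)) _ _ _
    rw [cfg_reflS, Bk_image]
    nth_rewrite 1 [← refl_Rc]
    rw [← refl_re, ← refl_re, Jn_image]
  rw [← h]
  exact (reflS_mp.measure_preimage_equiv (Vc 0 s 0 s)).symm

/-- white crossings are as likely as black ones -/
theorem white_eq (K A B : Set ℂ) :
    sampleLaw {ω | Jn (Bk (flipc (cfg 1 ω))) K A B} = sampleLaw (ev K A B) := by
  have h : {ω | Jn (Bk (flipc (cfg 1 ω))) K A B} =ᵐ[sampleLaw] flipS ⁻¹' ev K A B := by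
    filter_upwards [ae_mark] with ω hω
    have : (Jn (Bk (flipc (cfg 1 ω))) K A B) = (Jn (Bk (cfg 1 (flipS ω))) K A B) := by
      rw [cfg_flipS hω]
    exact this
  rw [measure_congr h]
  exact flipS_mp.measure_preimage_equiv (ev K A B)

/-- **leaf SQ** -/
theorem sq : SQ := by
  intro s hs
  have h1 : (1 : ENNReal) ≤ sampleLaw (Hc 0 s 0 s) + sampleLaw (Hc 0 s 0 s) := by
    have h2 : sampleLaw {ω | Jn (Bk (flipc (cfg 1 ω))) (Rc 0 s 0 s) {z | z.im = 0} {z | z.im = s}} =
        sampleLaw (Hc 0 s 0 s) := by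
      rw [white_eq, ← Vc_eq_Hc]
      rfl
    calc (1 : ENNReal) = sampleLaw univ := measure_univ.symm
      _ ≤ sampleLaw (Hc 0 s 0 s ∪
          {ω | Jn (Bk (flipc (cfg 1 ω))) (Rc 0 s 0 s) {z | z.im = 0} {z | z.im = s}}) := by
          refine measure_mono_ae ?_
          filter_upwards [ae_nonempty] with ω hω _
          exact dual_jn (lf_cfg ω) hω hs
      _ ≤ _ := measure_union_le _ _
      _ = _ := by rw [h2]
  rw [← two_mul] at h1
  rw [ENNReal.inv_le_iff_le_mul (by simp) (by simp)]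
  exact h1

end Crest.Agent.R143.TasSQx597
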