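import Crest.Agent.R143.TasDual_897
import Crest.Agent.R143.G6V_408
import Crest.Agent.R143.Y1_126

/-!
# Row 143 (S0194), block N3: leaf SQ (helper897)

* `Bk` as a union of cells, local finiteness, closedness
* `dual` : black left-right crossing or white bottom-top crossing of a rectangle
* `flip` : exchange of the colours preserves the law (also for non measurable events)
* `sq_of_sym` : SYM implies SQ
-/

set_option autoImplicit false

noncomputable section

namespace Crest.Agent.R143.TasSQx897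

open MeasureTheory Set Filter Topology Metric
open Crest.ProbabilityR.Voronoi
open Crest.Agent.R143.PP0x831 Crest.Agent.R143.TasIx372 Crest.Agent.R143.TasDualx897
open Crest.Agent.R143.G6Vx408 Crest.Agent.R143.G6Tx408

/-! ### the black region of a configuration -/

/-- positions -/
def pos (X : Set (ℂ × Bool)) : Set ℂ := Prod.fst '' X

/-- black sites -/
def bs (X : Set (ℂ × Bool)) : Set ℂ := {b | (b, true) ∈ X}

theorem bs_sub (X : Set (ℂ × Bool)) : bs X ⊆ pos X := fun b hb => ⟨(b, true), hb, rfl⟩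

theorem Bk_eq (X : Set (ℂ × Bool)) : Bk X = ⋃ b ∈ bs X, voronoiCell (pos X) b := by
  ext z
  simp only [Bk, mem_ofPred_eq, mem_iUnion, exists_prop, bs, voronoiCell, pos, mem_image,
    Prod.exists, exists_and_right, exists_eq_right, forall_exists_index]
  constructor
  · rintro ⟨b, hb, h⟩
    exact ⟨b, hb, fun w c hw => h (w, c) hw⟩
  · rintro ⟨b, hb, h⟩
    exact ⟨b, hb, fun p hp => h p.1 p.2 hp⟩

theorem pos_flipc (X : Set (ℂ × Bool)) : pos (flipc X) = pos X := by
  ext z
  simp only [pos, flipc, mem_image, Prod.exists]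
  constructor
  · rintro ⟨a, b, ⟨c, d, h, h'⟩, rfl⟩
    exact ⟨c, d, h, (Prod.ext_iff.1 h').1⟩
  · rintro ⟨a, b, h, rfl⟩
    exact ⟨a, !b, ⟨a, b, h, rfl⟩, rfl⟩

theorem mem_bs_flipc {X : Set (ℂ × Bool)} {b : ℂ} : b ∈ bs (flipc X) ↔ (b, false) ∈ X := by
  simp only [bs, flipc, mem_ofPred_eq, mem_image, Prod.exists, Prod.mk.injEq]
  constructor
  · rintro ⟨a, c, h, rfl, h'⟩
    cases c
    · exact h
    · simp at h'
  · intro h
    exact ⟨b, false, h, rfl, rfl⟩

theorem pos_cfg (ε : ℝ) (ω : Sample) : pos (cfg ε ω) = points ε ω := by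
  simp only [pos, cfg, points, image_image]

section lf

variable {X : Set (ℂ × Bool)}

theorem bs_finite (hX : ∀ r : ℝ, (pos X ∩ closedBall 0 r).Finite) {C : Set ℂ}
    (hC : Bornology.IsBounded C) : {v ∈ bs X | (voronoiCell (pos X) v ∩ C).Nonempty}.Finite := by
  rcases (pos X).eq_empty_or_nonempty with h | h
  · have : bs X = ∅ := subset_empty_iff.1 (h ▸ bs_sub X)
    rw [this]
    simp
  · exact (cell_finite hX h hC).subset fun v hv => ⟨bs_sub X hv.1, hv.2⟩

theorem isClosed_Bk (hX : ∀ r : ℝ, (pos X ∩ closedBall 0 r).Finite) : IsClosed (Bk X) := by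
  rw [Bk_eq]
  have h : LocallyFinite (fun v : bs X => voronoiCell (pos X) (v : ℂ)) := by
    intro z
    refine ⟨ball z 1, ball_mem_nhds z one_pos, ?_⟩
    have h1 := bs_finite hX (C := ball z 1) isBounded_ball
    refine Set.Finite.of_finite_image (f := Subtype.val) (h1.subset ?_)
      Subtype.val_injective.injOn
    rintro _ ⟨v, hv, rfl⟩
    exact ⟨v.2, hv⟩
  have h2 := h.isClosed_iUnion fun v => isClosed_cell _ _
  rwa [iUnion_subtype] at h2

/-- nearest point -/
theorem exists_nearest {P : Set ℂ} (hP : ∀ r : ℝ, (P ∩ closedBall 0 r).Finite) (hne : P.Nonempty)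
    (z : ℂ) : ∃ v ∈ P, z ∈ voronoiCell P v := by
  obtain ⟨p0, hp0⟩ := hne
  set T := P ∩ closedBall 0 (‖z‖ + ‖z - p0‖) with hT
  have hTf : T.Finite := hP _
  have hp0T : p0 ∈ T := ⟨hp0, by
    rw [mem_closedBall_zero_iff]
    calc ‖p0‖ = ‖z - (z - p0)‖ := by congr 1; ring
      _ ≤ ‖z‖ + ‖z - p0‖ := norm_sub_le _ _⟩
  obtain ⟨v, hv, hmin⟩ := Set.exists_min_image T (fun w => ‖z - w‖) hTf ⟨p0, hp0T⟩
  refine ⟨v, hv.1, fun w hw => ?_⟩
  by_cases h : w ∈ T
  · exact hmin w h
  · have h1 : ‖z‖ + ‖z - p0‖ < ‖w‖ := by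
      by_contra hcon
      push Not at hcon
      exact h ⟨hw, by rwa [mem_closedBall_zero_iff]⟩
    have h2 : ‖w‖ ≤ ‖z‖ + ‖z - w‖ := by
      calc ‖w‖ = ‖z - (z - w)‖ := by congr 1; ring
        _ ≤ ‖z‖ + ‖z - w‖ := norm_sub_le _ _
    have h3 : ‖z - v‖ ≤ ‖z - p0‖ := hmin p0 hp0T
    linarith

/-- the two regions cover the plane -/
theorem cover (hX : ∀ r : ℝ, (pos X ∩ closedBall 0 r).Finite) (hne : X.Nonempty) (z : ℂ) :
    z ∈ Bk X ∪ Bk (flipc X) := by
  obtain ⟨v, ⟨⟨v', c⟩, hv, rfl⟩, hz⟩ := exists_nearest hX (hne.image _) z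
  cases c
  · right
    rw [Bk_eq, pos_flipc]
    exact mem_biUnion (x := v') (mem_bs_flipc.2 hv) hz
  · left
    rw [Bk_eq]
    exact mem_biUnion (x := v') hv hz

theorem jn_of_bk (hX : ∀ r : ℝ, (pos X ∩ closedBall 0 r).Finite) {K A B S : Set ℂ}
    (hK : Convex ℝ K) (hKb : Bornology.IsBounded K) (hS : IsPreconnected S)
    (hSK : S ⊆ K ∩ Bk X) (hA : (S ∩ A).Nonempty) (hB : (S ∩ B).Nonempty) :
    Jn (Bk X) K A B := by
  refine jn_of_preconn (s := {v ∈ bs X | (voronoiCell (pos X) v ∩ K).Nonempty})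
    (bs_finite hX hKb) (F := voronoiCell (pos X)) (fun i _ => isClosed_cell _ _)
    (fun i _ => convex_cell _ _) hK ?_ hS (fun z hz => (hSK hz).1) ?_ hA hB
  · intro i hi z hz
    rw [Bk_eq]
    exact mem_biUnion (x := i) hi.1 hz.1
  · intro z hz
    have h := (hSK hz).2
    rw [Bk_eq] at h
    obtain ⟨v, hv, hzv⟩ := mem_iUnion₂.1 h
    exact mem_biUnion (x := v) ⟨hv, z, hzv, (hSK hz).1⟩ hzv

/-- **duality**: black left-right or white bottom-top crossing -/
theorem dual (hX : ∀ r : ℝ, (pos X ∩ closedBall 0 r).Finite) (hne : X.Nonempty)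
    {x0 x1 y0 y1 : ℝ} (hx : x0 < x1) (hy : y0 < y1) :
    Jn (Bk X) (Rc x0 x1 y0 y1) {z | z.re = x0} {z | z.re = x1} ∨
    Jn (Bk (flipc X)) (Rc x0 x1 y0 y1) {z | z.im = y0} {z | z.im = y1} := by
  have hX' : ∀ r : ℝ, (pos (flipc X) ∩ closedBall 0 r).Finite := by rwa [pos_flipc]
  rcases rect_dual hx hy (isClosed_Bk hX) (isClosed_Bk hX') (fun z _ => cover hX hne z) with
    ⟨S, hS, hSc, h1, h2⟩ | ⟨S, hS, hSc, h1, h2⟩
  · exact Or.inl (jn_of_bk hX (convex_Rc _ _ _ _) (isCompact_Rc _ _ _ _).isBounded hSc hS h1 h2)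
  · exact Or.inr (jn_of_bk hX' (convex_Rc _ _ _ _) (isCompact_Rc _ _ _ _).isBounded hSc hS h1 h2)

end lf

/-! ### the law -/

instance instProb : IsProbabilityMeasure sampleLaw := by
  unfold sampleLaw
  infer_instance

/-- there are points almost surely -/
theorem ae_nonempty (ε : ℝ) : ∀ᵐ ω ∂sampleLaw, (cfg ε ω).Nonempty := by
  have hsub : ∀ m : ℕ, sampleLaw {ω : Sample | ¬ (cfg ε ω).Nonempty} ≤
      ENNReal.ofReal (Real.exp (-(m : ℝ))) := by
    intro m
    set s : Finset (ℤ × ℤ) := (Finset.range m).image fun i : ℕ => ((i : ℤ), (0 : ℤ)) with hs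
    have h1 : {ω : Sample | ¬ (cfg ε ω).Nonempty} ⊆
        (Set.pi (s : Set (ℤ × ℤ)) fun _ => ({0} : Set ℕ)) ×ˢ univ := by
      intro ω hω
      refine ⟨fun k _ => ?_, mem_univ _⟩
      by_contra hk
      exact hω ⟨_, ⟨(k.1, k.2, 0), Nat.pos_of_ne_zero hk, rfl⟩⟩
    refine (measure_mono h1).trans ?_
    rw [sampleLaw, Measure.prod_prod, measure_univ, mul_one,
      Measure.infinitePi_pi _ (fun _ _ => MeasurableSet.singleton _), Finset.prod_const,
      ProbabilityTheory.poissonMeasure_singleton, ← ENNReal.ofReal_pow (by positivity), hs,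
      Finset.card_image_of_injective _ (fun i j hij => by
        simpa using (Prod.ext_iff.1 hij).1), Finset.card_range]
    refine ENNReal.ofReal_le_ofReal (le_of_eq ?_)
    simp [← Real.exp_nat_mul]
  have hlim : Tendsto (fun m : ℕ => ENNReal.ofReal (Real.exp (-(m : ℝ)))) atTop (𝓝 0) := by
    have : Tendsto (fun m : ℕ => Real.exp (-(m : ℝ))) atTop (𝓝 0) :=
      Real.tendsto_exp_neg_atTop_nhds_zero.comp tendsto_natCast_atTop_atTop
    simpa using ENNReal.tendsto_ofReal this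
  exact le_antisymm (ge_of_tendsto' hlim hsub) zero_le

/-- the exchange of the colour seed of one mark -/
def fl3 (u : Fin 3 → unitInterval) (i : Fin 3) : unitInterval :=
  (if i = 2 then unitInterval.symm else id) (u i)

theorem fl3_fl3 (u : Fin 3 → unitInterval) : fl3 (fl3 u) = u := by
  funext i
  unfold fl3
  by_cases h : i = 2 <;> simp [h]

theorem mp_fl3 : MeasurePreserving fl3 (Measure.pi fun _ : Fin 3 => (volume : Measure unitInterval))
    (Measure.pi fun _ : Fin 3 => (volume : Measure unitInterval)) := by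
  refine measurePreserving_pi _ _ (fun i => ?_)
  by_cases h : i = 2
  · simp only [h, if_true]
    exact unitInterval.measurePreserving_symm
  · simp only [h, if_false]
    exact MeasurePreserving.id _

/-- exchange of the colour seeds -/
def flipF (ω : Sample) : Sample := (ω.1, fun k j => fl3 (ω.2 k j))

theorem flipF_flipF (ω : Sample) : flipF (flipF ω) = ω := by
  refine Prod.ext rfl ?_
  funext k j
  exact fl3_fl3 _

theorem mp_flipF : MeasurePreserving flipF sampleLaw sampleLaw := by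
  have h1 := Y1x126.reidx_mp (Measure.pi fun _ : Fin 3 => (volume : Measure unitInterval))
    (Equiv.refl ℕ) (fun _ => fl3) (fun _ => mp_fl3)
  have h2 := Y1x126.reidx_mp (Measure.infinitePi fun _ : ℕ =>
    Measure.pi fun _ : Fin 3 => (volume : Measure unitInterval)) (Equiv.refl (ℤ × ℤ))
    (fun _ u j => fl3 (u j)) (fun _ => h1)
  exact (MeasurePreserving.id (Measure.infinitePi fun _ : ℤ × ℤ =>
    ProbabilityTheory.poissonMeasure 1)).prod h2

/-- exchange of the colour seeds -/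
def flipS : Sample ≃ᵐ Sample where
  toFun := flipF
  invFun := flipF
  left_inv := flipF_flipF
  right_inv := flipF_flipF
  measurable_toFun := mp_flipF.measurable
  measurable_invFun := mp_flipF.measurable

theorem mp_flipS : MeasurePreserving flipS sampleLaw sampleLaw := mp_flipF

theorem ae_half : ∀ᵐ ω ∂sampleLaw, ∀ (k : ℤ × ℤ) (j : ℕ), (ω.2 k j 2 : ℝ) ≠ 1 / 2 := by
  rw [ae_all_iff]
  intro k
  rw [ae_all_iff]
  intro j
  have h1 : MeasurePreserving (fun ω : Sample => ω.2 k j 2) sampleLaw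
      (volume : Measure unitInterval) := by
    have a := measurePreserving_eval_infinitePi (fun _ : ℤ × ℤ => Measure.infinitePi fun _ : ℕ =>
      Measure.pi fun _ : Fin 3 => (volume : Measure unitInterval)) k
    have b := measurePreserving_eval_infinitePi (fun _ : ℕ =>
      Measure.pi fun _ : Fin 3 => (volume : Measure unitInterval)) j
    have c := measurePreserving_eval (fun _ : Fin 3 => (volume : Measure unitInterval)) 2
    have d : MeasurePreserving (Prod.snd : Sample → _) sampleLaw _ := measurePreserving_snd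
    exact c.comp (b.comp (a.comp d))
  have h2 : ∀ᵐ u : unitInterval ∂(volume : Measure unitInterval), (u : ℝ) ≠ 1 / 2 := by
    set c : unitInterval := ⟨1 / 2, by norm_num, by norm_num⟩ with hc
    have h3 : {u : unitInterval | ¬ (u : ℝ) ≠ 1 / 2} ⊆ {c} := by
      intro u hu
      have hu' : (u : ℝ) = 1 / 2 := not_not.1 hu
      exact Subtype.ext hu'
    have h4 : (volume : Measure unitInterval) {c} = 0 := measure_singleton c
    exact measure_mono_null h3 h4
  exact h1.quasiMeasurePreserving.ae h2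

theorem cfg_flipS {ε : ℝ} {ω : Sample} (h : ∀ (k : ℤ × ℤ) (j : ℕ), (ω.2 k j 2 : ℝ) ≠ 1 / 2) :
    cfg ε (flipS ω) = flipc (cfg ε ω) := by
  have hp : present (flipS ω) = present ω := rfl
  unfold cfg flipc
  rw [hp, image_image]
  refine image_congr fun p _ => ?_
  refine Prod.ext ?_ ?_
  · show point ε (flipF ω) (p.1, p.2.1) p.2.2 = point ε ω (p.1, p.2.1) p.2.2
    have e0 : (flipF ω).2 (p.1, p.2.1) p.2.2 0 = ω.2 (p.1, p.2.1) p.2.2 0 := by
      simp [flipF, fl3]
    have e1 : (flipF ω).2 (p.1, p.2.1) p.2.2 1 = ω.2 (p.1, p.2.1) p.2.2 1 := by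
      simp [flipF, fl3]
    unfold point
    rw [e0, e1]
  · show col (flipF ω) (p.1, p.2.1) p.2.2 = !col ω (p.1, p.2.1) p.2.2
    have e2 : ((flipF ω).2 (p.1, p.2.1) p.2.2 2 : ℝ) = 1 - (ω.2 (p.1, p.2.1) p.2.2 2 : ℝ) := by
      simp [flipF, fl3]
    unfold col
    rw [e2]
    have h' := h (p.1, p.2.1) p.2.2
    by_cases hc : (ω.2 (p.1, p.2.1) p.2.2 2 : ℝ) < 1 / 2
    · have h1 : ¬ (1 - (ω.2 (p.1, p.2.1) p.2.2 2 : ℝ) < 1 / 2) := by linarith
      rw [decide_eq_false h1, decide_eq_true hc]; rfl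
    · have h1 : 1 - (ω.2 (p.1, p.2.1) p.2.2 2 : ℝ) < 1 / 2 := by
        have := lt_of_le_of_ne (not_lt.1 hc) (Ne.symm h')
        linarith
      rw [decide_eq_true h1, decide_eq_false hc]; rfl

/-- **colour flip symmetry** for arbitrary events of the coloured configuration -/
theorem flip_law (ε : ℝ) (P : Set (ℂ × Bool) → Prop) :
    sampleLaw {ω | P (flipc (cfg ε ω))} = sampleLaw {ω | P (cfg ε ω)} := by
  rw [← mp_flipS.measure_preimage_equiv {ω | P (cfg ε ω)}]
  refine measure_congr ?_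
  filter_upwards [ae_half] with ω hω
  refine propext ?_
  show P (flipc (cfg ε ω)) ↔ P (cfg ε (flipS ω))
  rw [cfg_flipS hω]

/-- the exchange of the two coordinates -/
def swp : ℂ ≃ᵢ ℂ where
  toFun z := ⟨z.im, z.re⟩
  invFun z := ⟨z.im, z.re⟩
  left_inv z := rfl
  right_inv z := rfl
  isometry_toFun := by
    refine Isometry.of_dist_eq fun z w => ?_
    rw [Complex.dist_eq_re_im, Complex.dist_eq_re_im, add_comm]

theorem swp_Rc (s : ℝ) : swp '' Rc 0 s 0 s = Rc 0 s 0 s := by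
  ext z
  constructor
  · rintro ⟨w, ⟨a, b, c, d⟩, rfl⟩
    exact ⟨c, d, a, b⟩
  · rintro ⟨a, b, c, d⟩
    exact ⟨⟨z.im, z.re⟩, ⟨c, d, a, b⟩, rfl⟩

theorem swp_re (t : ℝ) : swp '' {z : ℂ | z.re = t} = {z : ℂ | z.im = t} := by
  ext z
  constructor
  · rintro ⟨w, h, rfl⟩
    exact h
  · intro h
    exact ⟨⟨z.im, z.re⟩, h, rfl⟩

/-- **(SQ)** -/
theorem sq_of_sym (h : SYM) : SQ := by
  intro s hs
  have h1 : sampleLaw (Vc 0 s 0 s) = sampleLaw (Hc 0 s 0 s) := by
    have := h swp (Rc 0 s 0 s) {z | z.re = 0} {z | z.re = s} (isCompact_Rc _ _ _ _)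
      (convex_Rc _ _ _ _) (isClosed_eq Complex.continuous_re continuous_const)
      (isClosed_eq Complex.continuous_re continuous_const)
    rwa [swp_Rc, swp_re, swp_re] at this
  have h2 : sampleLaw {ω | Jn (Bk (flipc (cfg 1 ω))) (Rc 0 s 0 s) {z | z.im = 0} {z | z.im = s}} =
      sampleLaw (Vc 0 s 0 s) :=
    flip_law 1 fun X => Jn (Bk X) (Rc 0 s 0 s) {z | z.im = 0} {z | z.im = s}
  have h3 : (1 : ENNReal) ≤ sampleLaw (Hc 0 s 0 s) + sampleLaw (Hc 0 s 0 s) := by
    calc (1 : ENNReal) = sampleLaw univ := measure_univ.symm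
      _ ≤ sampleLaw (Hc 0 s 0 s ∪
          {ω | Jn (Bk (flipc (cfg 1 ω))) (Rc 0 s 0 s) {z | z.im = 0} {z | z.im = s}}) := by
        refine measure_mono_ae ?_
        filter_upwards [ae_nonempty 1] with ω hω _
        have hX : ∀ r : ℝ, (pos (cfg 1 ω) ∩ closedBall 0 r).Finite := by
          rw [pos_cfg]; exact points_lf one_pos ω
        exact dual hX hω hs hs
      _ ≤ _ := by
        refine (measure_union_le _ _).trans ?_
        rw [h2, h1]
  rw [← two_mul] at h3
  calc (2 : ENNReal)⁻¹ = 2⁻¹ * 1 := (mul_one _).symm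
    _ ≤ 2⁻¹ * (2 * sampleLaw (Hc 0 s 0 s)) := by gcongr
    _ = sampleLaw (Hc 0 s 0 s) := by
      rw [← mul_assoc, ENNReal.inv_mul_cancel (by norm_num) (by norm_num), one_mul]

end Crest.Agent.R143.TasSQx897
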