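import Crest.Agent.R143.TasPOS_176

/-!
# Row 143 (S0194), block N3: leaf SYM (helper176)

* `jn_iff` : for finite configurations `Jn (Bk (range z)) K A B` is a chain of cells
* `fm_jn`  : hence measurable in the points (`FinMeas`); `fm_jn_inter` the same for `X ∩ B`
* `hole_small` : holes are unlikely
* `jn_local` : without hole the event is local
* `sym : SYM`
-/

set_option autoImplicit false

noncomputable section

namespace Crest.Agent.R143.TasSYMx176

open MeasureTheory Set Filter Topology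
open Crest.ProbabilityR.Voronoi
open Crest.Agent.R143.PP0x831 Crest.Agent.R143.TasIx372
open scoped ENNReal

/-! ## convexity of the cells -/

lemma half_iff (a b w : ℂ) : ‖w - a‖ ≤ ‖w - b‖ ↔
    (b.re - a.re) * w.re + (b.im - a.im) * w.im ≤ (Complex.normSq b - Complex.normSq a) / 2 := by
  rw [Complex.norm_def, Complex.norm_def, Real.sqrt_le_sqrt_iff (Complex.normSq_nonneg _)]
  simp only [Complex.normSq_apply, Complex.sub_re, Complex.sub_im]
  constructor <;> intro h <;> nlinarith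

lemma convex_half (a b : ℂ) : Convex ℝ {w : ℂ | ‖w - a‖ ≤ ‖w - b‖} := by
  intro x hx y hy s t hs ht hst
  simp only [mem_ofPred_eq, half_iff] at hx hy ⊢
  simp only [Complex.add_re, Complex.add_im, Complex.real_smul, Complex.mul_re, Complex.mul_im,
    Complex.ofReal_re, Complex.ofReal_im, zero_mul, sub_zero, add_zero]
  have h1 := mul_le_mul_of_nonneg_left hx hs
  have h2 := mul_le_mul_of_nonneg_left hy ht
  have e : (Complex.normSq b - Complex.normSq a) / 2 =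
      s * ((Complex.normSq b - Complex.normSq a) / 2) +
        t * ((Complex.normSq b - Complex.normSq a) / 2) := by
    rw [← add_mul, hst, one_mul]
  rw [e]
  nlinarith

/-! ## chains of cells -/

section chain

variable {n : ℕ}

/-- the part in `K` of the cell of the `i`-th point, if black -/
def Cl (K : Set ℂ) (z : Fin n → ℂ × Bool) (i : Fin n) : Set ℂ :=
  {w | w ∈ K ∧ (z i).2 = true ∧ ∀ j, ‖w - (z i).1‖ ≤ ‖w - (z j).1‖}

lemma bk_inter (K : Set ℂ) (z : Fin n → ℂ × Bool) : Bk (range z) ∩ K = ⋃ i, Cl K z i := by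
  ext w
  simp only [Bk, Cl, mem_inter_iff, mem_ofPred_eq, mem_iUnion]
  constructor
  · rintro ⟨⟨b, ⟨i, hi⟩, h⟩, hK⟩
    refine ⟨i, hK, by rw [hi], fun j => ?_⟩
    have := h (z j) ⟨j, rfl⟩
    rw [hi]
    exact this
  · rintro ⟨i, hK, hc, h⟩
    refine ⟨⟨(z i).1, ⟨i, by rw [← hc]⟩, ?_⟩, hK⟩
    rintro _ ⟨j, rfl⟩
    exact h j

lemma cl_convex {K : Set ℂ} (hK : Convex ℝ K) (z : Fin n → ℂ × Bool) (i : Fin n) :
    Convex ℝ (Cl K z i) := by
  intro x hx y hy s t hs ht hst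
  exact ⟨hK hx.1 hy.1 hs ht hst, hx.2.1,
    fun j => convex_half (z i).1 (z j).1 (hx.2.2 j) (hy.2.2 j) hs ht hst⟩

lemma cl_closed {K : Set ℂ} (hK : IsClosed K) (z : Fin n → ℂ × Bool) (i : Fin n) :
    IsClosed (Cl K z i) := by
  have : Cl K z i = K ∩ ({w | (z i).2 = true} ∩ ⋂ j, {w | ‖w - (z i).1‖ ≤ ‖w - (z j).1‖}) := by
    ext w
    simp only [Cl, mem_ofPred_eq, mem_inter_iff, mem_iInter]
  rw [this]
  refine hK.inter (isClosed_const.inter (isClosed_iInter fun j => ?_))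
  exact isClosed_le (by fun_prop) (by fun_prop)

/-- touching cells -/
def Rl (K : Set ℂ) (z : Fin n → ℂ × Bool) (i j : Fin n) : Prop := (Cl K z i ∩ Cl K z j).Nonempty

lemma joined {K : Set ℂ} (hK : Convex ℝ K) (z : Fin n → ℂ × Bool) {i j : Fin n}
    (h : Relation.ReflTransGen (Rl K z) i j) {x : ℂ} (hx : x ∈ Cl K z i) :
    ∀ y ∈ Cl K z j, JoinedIn (⋃ k, Cl K z k) x y := by
  induction h with
  | refl =>
    intro y hy
    have h1 : JoinedIn (Cl K z i) x y :=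
      ((cl_convex hK z i).isPathConnected ⟨x, hx⟩).joinedIn x hx y hy
    exact h1.mono (subset_iUnion _ i)
  | @tail k l _ hR ih =>
    intro y hy
    obtain ⟨w, hw1, hw2⟩ := hR
    have h1 : JoinedIn (Cl K z l) w y :=
      ((cl_convex hK z l).isPathConnected ⟨w, hw2⟩).joinedIn w hw2 y hy
    exact (ih w hw1).trans (h1.mono (subset_iUnion _ l))

/-- **the chain criterion** -/
theorem jn_iff {K : Set ℂ} (hKc : IsClosed K) (hK : Convex ℝ K) (A B : Set ℂ)
    (z : Fin n → ℂ × Bool) : Jn (Bk (range z)) K A B ↔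
      ∃ i j, (Cl K z i ∩ A).Nonempty ∧ (Cl K z j ∩ B).Nonempty ∧
        Relation.ReflTransGen (Rl K z) i j := by
  unfold Jn
  rw [bk_inter]
  constructor
  · rintro ⟨S, hS, hSK, ⟨a, haS, haA⟩, b, hbS, hbB⟩
    obtain ⟨i, hi⟩ := mem_iUnion.1 (hSK haS)
    have hpre := hS.isConnected.isPreconnected
    rw [isPreconnected_closed_iff] at hpre
    set U : Set ℂ := ⋃ k ∈ {k | Relation.ReflTransGen (Rl K z) i k}, Cl K z k with hU
    set V : Set ℂ := ⋃ k ∈ {k | ¬ Relation.ReflTransGen (Rl K z) i k}, Cl K z k with hV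
    have cU : IsClosed U := (toFinite _).isClosed_biUnion fun k _ => cl_closed hKc z k
    have cV : IsClosed V := (toFinite _).isClosed_biUnion fun k _ => cl_closed hKc z k
    have hsub : S ⊆ U ∪ V := by
      intro w hw
      obtain ⟨k, hk⟩ := mem_iUnion.1 (hSK hw)
      by_cases h : Relation.ReflTransGen (Rl K z) i k
      · exact Or.inl (mem_biUnion (show k ∈ {k | Relation.ReflTransGen (Rl K z) i k} from h) hk)
      · exact Or.inr (mem_biUnion (show k ∈ {k | ¬ Relation.ReflTransGen (Rl K z) i k} from h) hk)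
    have hUV : U ∩ V = ∅ := by
      rw [eq_empty_iff_forall_notMem]
      rintro w ⟨hw1, hw2⟩
      obtain ⟨k, hk, hwk⟩ := mem_iUnion₂.1 hw1
      obtain ⟨l, hl, hwl⟩ := mem_iUnion₂.1 hw2
      exact hl (Relation.ReflTransGen.tail hk ⟨w, hwk, hwl⟩)
    have hbU : b ∈ U := by
      rcases hsub hbS with h | h
      · exact h
      · exfalso
        have haU : a ∈ U := mem_biUnion
          (show i ∈ {k | Relation.ReflTransGen (Rl K z) i k} from Relation.ReflTransGen.refl) hi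
        obtain ⟨w, -, hw⟩ := hpre U V cU cV hsub ⟨a, haS, haU⟩ ⟨b, hbS, h⟩
        rw [hUV] at hw
        exact hw
    obtain ⟨j, hj, hbj⟩ := mem_iUnion₂.1 hbU
    exact ⟨i, j, ⟨a, hi, haA⟩, ⟨b, hbj, hbB⟩, hj⟩
  · rintro ⟨i, j, ⟨a, ha, haA⟩, ⟨b, hb, hbB⟩, hR⟩
    have : PathConnectedSpace unitInterval :=
      isPathConnected_iff_pathConnectedSpace.1
        ((convex_Icc (0 : ℝ) 1).isPathConnected ⟨0, by simp⟩)
    obtain ⟨γ, hγ⟩ := joined hK z hR ha b hb
    refine ⟨range γ, isPathConnected_range γ.continuous, ?_, ⟨a, ⟨0, γ.source⟩, haA⟩,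
      ⟨b, ⟨1, γ.target⟩, hbB⟩⟩
    rintro _ ⟨t, rfl⟩
    exact hγ t

end chain

/-! ## measurability -/

section meas

variable {n : ℕ}

lemma meas_col (i : Fin n) : MeasurableSet {z : Fin n → ℂ × Bool | (z i).2 = true} := by
  have : Measurable fun z : Fin n → ℂ × Bool => (z i).2 := by fun_prop
  exact this (measurableSet_singleton true)

/-- nonempty intersection of finitely many cells with a compact set -/
lemma meas_proj {K : Set ℂ} (hK : IsCompact K) (I : Set (Fin n)) :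
    MeasurableSet {z : Fin n → ℂ × Bool | ∃ w ∈ K, ∀ i ∈ I, ∀ j, ‖w - (z i).1‖ ≤ ‖w - (z j).1‖} := by
  apply IsClosed.measurableSet
  have hcs : CompactSpace K := isCompact_iff_compactSpace.1 hK
  have h1 : IsClosed {q : K × (Fin n → ℂ × Bool) |
      ∀ i ∈ I, ∀ j, ‖(q.1 : ℂ) - (q.2 i).1‖ ≤ ‖(q.1 : ℂ) - (q.2 j).1‖} := by
    have : {q : K × (Fin n → ℂ × Bool) |
        ∀ i ∈ I, ∀ j, ‖(q.1 : ℂ) - (q.2 i).1‖ ≤ ‖(q.1 : ℂ) - (q.2 j).1‖} =
        ⋂ i ∈ I, ⋂ j, {q | ‖(q.1 : ℂ) - (q.2 i).1‖ ≤ ‖(q.1 : ℂ) - (q.2 j).1‖} := by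
      ext q; simp
    rw [this]
    refine isClosed_biInter fun i _ => isClosed_iInter fun j => ?_
    exact isClosed_le (by fun_prop) (by fun_prop)
  have h2 := isClosedMap_snd_of_compactSpace _ h1
  convert h2 using 1
  ext z
  simp only [mem_ofPred_eq, mem_image, Prod.exists, exists_eq_right, Subtype.exists, exists_prop]

lemma meas_cl {K : Set ℂ} (hK : IsCompact K) {A : Set ℂ} (hA : IsClosed A) (i : Fin n) :
    MeasurableSet {z : Fin n → ℂ × Bool | (Cl K z i ∩ A).Nonempty} := by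
  have : {z : Fin n → ℂ × Bool | (Cl K z i ∩ A).Nonempty} = {z | (z i).2 = true} ∩
      {z | ∃ w ∈ K ∩ A, ∀ i' ∈ ({i} : Set (Fin n)), ∀ j, ‖w - (z i').1‖ ≤ ‖w - (z j).1‖} := by
    ext z
    simp only [Cl, mem_ofPred_eq, mem_inter_iff, mem_singleton_iff, forall_eq]
    constructor
    · rintro ⟨w, ⟨h1, h2, h3⟩, h4⟩; exact ⟨h2, w, ⟨h1, h4⟩, h3⟩
    · rintro ⟨h2, w, ⟨h1, h4⟩, h3⟩; exact ⟨w, ⟨h1, h2, h3⟩, h4⟩
  rw [this]
  exact (meas_col i).inter (meas_proj (hK.inter_right hA) _)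

lemma meas_rl {K : Set ℂ} (hK : IsCompact K) (i j : Fin n) :
    MeasurableSet {z : Fin n → ℂ × Bool | Rl K z i j} := by
  have : {z : Fin n → ℂ × Bool | Rl K z i j} = {z | (z i).2 = true} ∩ {z | (z j).2 = true} ∩
      {z | ∃ w ∈ K, ∀ i' ∈ ({i, j} : Set (Fin n)), ∀ l, ‖w - (z i').1‖ ≤ ‖w - (z l).1‖} := by
    ext z
    simp only [Rl, Cl, mem_ofPred_eq, mem_inter_iff, mem_insert_iff, mem_singleton_iff,
      forall_eq_or_imp, forall_eq]
    constructor
    · rintro ⟨w, ⟨h1, h2, h3⟩, -, h5, h6⟩; exact ⟨⟨h2, h5⟩, w, h1, h3, h6⟩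
    · rintro ⟨⟨h2, h5⟩, w, h1, h3, h6⟩; exact ⟨w, ⟨h1, h2, h3⟩, h1, h5, h6⟩
  rw [this]
  exact ((meas_col i).inter (meas_col j)).inter (meas_proj hK _)

lemma meas_gen {K : Set ℂ} (hK : IsCompact K) (i j : Fin n) :
    MeasurableSet {z : Fin n → ℂ × Bool | Relation.ReflTransGen (Rl K z) i j} := by
  have h1 : Measurable fun z : Fin n → ℂ × Bool => (Rl K z : Fin n → Fin n → Prop) := by
    rw [measurable_pi_iff]
    intro a
    rw [measurable_pi_iff]
    intro b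
    exact measurableSet_setOfPred.1 (meas_rl hK a b)
  have h2 : MeasurableSet {ρ : Fin n → Fin n → Prop | Relation.ReflTransGen ρ i j} :=
    (to_countable _).measurableSet
  exact h1 h2

lemma meas_jn {K : Set ℂ} (hK : IsCompact K) (hKc : Convex ℝ K) {A B : Set ℂ} (hA : IsClosed A)
    (hB : IsClosed B) : MeasurableSet {z : Fin n → ℂ × Bool | Jn (Bk (range z)) K A B} := by
  have : {z : Fin n → ℂ × Bool | Jn (Bk (range z)) K A B} =
      ⋃ i, ⋃ j, {z | (Cl K z i ∩ A).Nonempty} ∩ ({z | (Cl K z j ∩ B).Nonempty} ∩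
        {z | Relation.ReflTransGen (Rl K z) i j}) := by
    ext z
    simp only [mem_ofPred_eq, jn_iff hK.isClosed hKc A B z, mem_iUnion, mem_inter_iff]
  rw [this]
  exact MeasurableSet.iUnion fun i => MeasurableSet.iUnion fun j =>
    (meas_cl hK hA i).inter ((meas_cl hK hB j).inter (meas_gen hK i j))

end meas

/-- **FinMeas of the crossing functional** -/
theorem fm_jn {K : Set ℂ} (hK : IsCompact K) (hKc : Convex ℝ K) {A B : Set ℂ} (hA : IsClosed A)
    (hB : IsClosed B) : FinMeas fun X : Set (ℂ × Bool) => Jn (Bk X) K A B :=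
  fun _ => measurableSet_setOfPred.1 (meas_jn hK hKc hA hB)

open Classical in
/-- the indicator of a property of configurations -/
def ind (P : Set (ℂ × Bool) → Prop) (X : Set (ℂ × Bool)) : ℝ≥0∞ := if P X then 1 else 0

lemma ind_meas {P : Set (ℂ × Bool) → Prop} (hP : FinMeas P) : FinMeas (ind P) := fun n => by
  classical
  exact Measurable.ite (measurableSet_setOfPred.2 (hP n)) measurable_const measurable_const

/-- restriction to a Borel set keeps `FinMeas` -/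
theorem fm_inter {P : Set (ℂ × Bool) → Prop} (hP : FinMeas P) {D : Set ℂ} (hD : MeasurableSet D) :
    FinMeas fun X => P (X ∩ {p | p.1 ∈ D}) := by
  classical
  intro n
  have hfrs : Poisx304.FRS fun z : Fin n → ℂ × Bool => range z ∩ {p | p.1 ∈ D} := by
    have e : (fun z : Fin n → ℂ × Bool => range z ∩ {p | p.1 ∈ D}) =
        fun z => ⋃ i ∈ (Finset.univ : Finset (Fin n)),
          (if (z i).1 ∈ D then {z i} else (∅ : Set (ℂ × Bool))) := by
      funext z
      ext p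
      simp only [mem_inter_iff, mem_range, mem_ofPred_eq, mem_iUnion, Finset.mem_univ,
        exists_true_left]
      constructor
      · rintro ⟨⟨i, rfl⟩, h⟩
        exact ⟨i, by rw [if_pos h]; rfl⟩
      · rintro ⟨i, h⟩
        by_cases hi : (z i).1 ∈ D
        · rw [if_pos hi] at h
          rw [mem_singleton_iff.1 h]
          exact ⟨⟨i, rfl⟩, hi⟩
        · rw [if_neg hi] at h
          exact absurd h (notMem_empty _)
    rw [e]
    refine Poisx304.FRS.biUnion _ _ fun i => ?_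
    refine ⟨fun z => if (z i).1 ∈ D then 1 else 0, fun _ z => z i, ?_, fun _ => by fun_prop, ?_⟩
    · refine Measurable.ite ?_ measurable_const measurable_const
      have : Measurable fun z : Fin n → ℂ × Bool => (z i).1 := by fun_prop
      exact this hD
    · intro z
      by_cases hi : (z i).1 ∈ D
      · simp only [if_pos hi]
        ext p
        simp
      · simp [if_neg hi]
  have h1 := hfrs.meas (G := ind P) (ind_meas hP)
  have h2 : {z : Fin n → ℂ × Bool | P (range z ∩ {p | p.1 ∈ D})} =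
      (fun z : Fin n → ℂ × Bool => ind P (range z ∩ {p | p.1 ∈ D})) ⁻¹' {1} := by
    ext z
    simp only [mem_ofPred_eq, mem_preimage, mem_singleton_iff, ind]
    by_cases h : P (range z ∩ {p | p.1 ∈ D}) <;> simp [h]
  refine measurableSet_setOfPred.1 ?_
  rw [h2]
  exact h1 (measurableSet_singleton 1)

lemma local_inter {E : Type*} (P : Set (ℂ × Bool) → E) (D : Set ℂ) :
    LocalOn D fun X => P (X ∩ {p | p.1 ∈ D}) := by
  intro S
  simp only [inter_assoc, inter_self]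

/-! ## holes -/

/-- some ball of radius `d` centred in the ball of radius `ρ` is empty -/
def Hole (ρ d : ℝ) : Set Sample :=
  {ω | ∃ z : ℂ, ‖z‖ ≤ ρ ∧ ∀ p ∈ cfg 1 ω, d < ‖z - p.1‖}

lemma hole_sub (ρ : ℝ) (M : ℕ) : Hole ρ (ρ + 2 * (M + 1)) ⊆
    (Set.pi (TasPOSx176.T M : Set (ℤ × ℤ)) fun _ => ({0} : Set ℕ)) ×ˢ univ := by
  rintro ω ⟨z, hz, h⟩
  refine ⟨fun k hk => ?_, mem_univ _⟩
  by_contra h0
  have h0' : ω.1 k ≠ 0 := h0
  have h1 := h (point 1 ω k 0, col ω k 0)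
    ⟨(k.1, k.2, 0), Nat.pos_of_ne_zero h0', rfl⟩
  rw [Finset.mem_coe, TasPOSx176.mem_T] at hk
  obtain ⟨⟨k1, k2⟩, k3, k4⟩ := hk
  have k1' : (-(M : ℝ)) ≤ k.1 := by exact_mod_cast k1
  have k2' : (k.1 : ℝ) ≤ M := by exact_mod_cast k2
  have k3' : (-(M : ℝ)) ≤ k.2 := by exact_mod_cast k3
  have k4' : (k.2 : ℝ) ≤ M := by exact_mod_cast k4
  have c1 := (ω.2 k 0 0).2
  have c2 := (ω.2 k 0 1).2
  simp only [mem_Icc] at c1 c2
  have h2 : ‖point 1 ω k 0‖ ≤ 2 * (M + 1) := by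
    refine (Complex.norm_le_abs_re_add_abs_im _).trans ?_
    rw [TasPOSx176.point_re, TasPOSx176.point_im]
    have d1 : |(k.1 : ℝ) + (ω.2 k 0 0 : ℝ)| ≤ M + 1 := by
      rw [abs_le]; constructor <;> linarith [c1.1, c1.2]
    have d2 : |(k.2 : ℝ) + (ω.2 k 0 1 : ℝ)| ≤ M + 1 := by
      rw [abs_le]; constructor <;> linarith [c2.1, c2.2]
    linarith
  have h3 := norm_sub_le z (point 1 ω k 0)
  simp only at h1
  linarith

lemma card_T (M : ℕ) : (TasPOSx176.T M).card = (2 * M + 1) ^ 2 := by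
  unfold TasPOSx176.T
  rw [Finset.card_product, Int.card_Icc]
  have : ((M : ℤ) + 1 - -(M : ℤ)).toNat = 2 * M + 1 := by omega
  rw [this, sq]

lemma hole_le (ρ : ℝ) (M : ℕ) : sampleLaw (Hole ρ (ρ + 2 * (M + 1))) ≤
    (ENNReal.ofReal (Real.exp (-1))) ^ ((2 * M + 1) ^ 2) := by
  refine (measure_mono (hole_sub ρ M)).trans ?_
  unfold sampleLaw
  rw [Measure.prod_prod, measure_univ, mul_one,
    Measure.infinitePi_pi _ (fun _ _ => measurableSet_singleton _)]
  simp only [ProbabilityTheory.poissonMeasure_singleton]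
  rw [Finset.prod_const, card_T]
  simp

lemma hole_mono {ρ d d' : ℝ} (h : d ≤ d') : Hole ρ d' ⊆ Hole ρ d := by
  rintro ω ⟨z, hz, h1⟩
  exact ⟨z, hz, fun p hp => h.trans_lt (h1 p hp)⟩

/-- **holes are unlikely** -/
theorem hole_small (ρ : ℝ) : Tendsto (fun d : ℝ => sampleLaw (Hole ρ d)) atTop (𝓝 0) := by
  rw [ENNReal.tendsto_nhds_zero]
  intro δ hδ
  have h1 : Tendsto (fun M : ℕ => (ENNReal.ofReal (Real.exp (-1))) ^ ((2 * M + 1) ^ 2)) atTop
      (𝓝 0) := by
    have h2 : ENNReal.ofReal (Real.exp (-1)) < 1 := by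
      rw [ENNReal.ofReal_lt_one, Real.exp_lt_one_iff]
      norm_num
    refine (ENNReal.tendsto_pow_atTop_nhds_zero_of_lt_one h2).comp ?_
    refine tendsto_atTop_mono (fun M => ?_) tendsto_id
    show M ≤ (2 * M + 1) ^ 2
    nlinarith
  obtain ⟨M, hM⟩ := ((ENNReal.tendsto_nhds_zero.1 h1) δ hδ).exists
  filter_upwards [eventually_ge_atTop (ρ + 2 * (M + 1))] with d hd
  exact ((measure_mono (hole_mono hd)).trans (hole_le ρ M)).trans hM

/-! ## locality -/

/-- `Jn` only sees `W ∩ K` -/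
lemma jn_congr {W W' K A B : Set ℂ} (h : W ∩ K = W' ∩ K) : Jn W K A B ↔ Jn W' K A B := by
  unfold Jn
  rw [h]

lemma bk_local {K : Set ℂ} {ρ d : ℝ} (hK : ∀ z ∈ K, ‖z‖ ≤ ρ) {X : Set (ℂ × Bool)}
    (hX : ∀ z : ℂ, ‖z‖ ≤ ρ → ∃ p ∈ X, ‖z - p.1‖ ≤ d) {D : Set ℂ}
    (hD : ∀ z : ℂ, ‖z‖ ≤ ρ + d → z ∈ D) :
    Bk X ∩ K = Bk (X ∩ {p | p.1 ∈ D}) ∩ K := by
  ext z
  simp only [Bk, mem_inter_iff, mem_ofPred_eq]
  refine ⟨?_, ?_⟩
  · rintro ⟨⟨b, hb, h⟩, hz⟩
    refine ⟨⟨b, ⟨hb, ?_⟩, fun p hp => h p hp.1⟩, hz⟩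
    obtain ⟨p, hp, hpd⟩ := hX z (hK z hz)
    have h1 := (h p hp).trans hpd
    apply hD
    have h2 : ‖b‖ ≤ ‖z‖ + ‖z - b‖ := by
      have := norm_sub_le z (z - b)
      simpa using this
    linarith [hK z hz]
  · rintro ⟨⟨b, ⟨hb, -⟩, h⟩, hz⟩
    refine ⟨⟨b, hb, fun p hp => ?_⟩, hz⟩
    by_cases hpD : p.1 ∈ D
    · exact h p ⟨hp, hpD⟩
    · obtain ⟨q, hq, hqd⟩ := hX z (hK z hz)
      have hqD : q.1 ∈ D := by
        apply hD
        have h2 : ‖q.1‖ ≤ ‖z‖ + ‖z - q.1‖ := by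
          have := norm_sub_le z (z - q.1)
          simpa using this
        linarith [hK z hz]
      have h1 : ‖z - b‖ ≤ d := (h q ⟨hq, hqD⟩).trans hqd
      have h3 : d < ‖z - p.1‖ := by
        by_contra h4
        rw [not_lt] at h4
        apply hpD
        apply hD
        have h2 : ‖p.1‖ ≤ ‖z‖ + ‖z - p.1‖ := by
          have := norm_sub_le z (z - p.1)
          simpa using this
        linarith [hK z hz]
      linarith

/-- **locality of the crossing event without hole** -/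
theorem jn_local {K : Set ℂ} {ρ d : ℝ} (hK : ∀ z ∈ K, ‖z‖ ≤ ρ) {X : Set (ℂ × Bool)}
    (hX : ∀ z : ℂ, ‖z‖ ≤ ρ → ∃ p ∈ X, ‖z - p.1‖ ≤ d) {D : Set ℂ}
    (hD : ∀ z : ℂ, ‖z‖ ≤ ρ + d → z ∈ D) (A B : Set ℂ) :
    Jn (Bk X) K A B ↔ Jn (Bk (X ∩ {p | p.1 ∈ D})) K A B :=
  jn_congr (bk_local hK hX hD)

/-! ## isometries -/

/-- transported configuration -/
def mv (g : ℂ → ℂ) (X : Set (ℂ × Bool)) : Set (ℂ × Bool) := (fun p : ℂ × Bool => (g p.1, p.2)) '' X

lemma bk_mv (g : ℂ ≃ᵢ ℂ) (X : Set (ℂ × Bool)) : Bk (mv g X) = g '' Bk X := by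
  ext z
  simp only [Bk, mv, mem_ofPred_eq, mem_image]
  constructor
  · rintro ⟨b, ⟨⟨b', c⟩, hb', hb⟩, h⟩
    simp only [Prod.mk.injEq] at hb
    obtain ⟨rfl, rfl⟩ := hb
    refine ⟨g.symm z, ⟨b', hb', fun p hp => ?_⟩, g.apply_symm_apply z⟩
    have h1 := h (g p.1, p.2) ⟨p, hp, rfl⟩
    simp only at h1
    rw [← dist_eq_norm, ← dist_eq_norm] at h1 ⊢
    rw [← g.dist_eq (g.symm z) b', ← g.dist_eq (g.symm z) p.1, g.apply_symm_apply]
    exact h1
  · rintro ⟨w, ⟨b, hb, h⟩, rfl⟩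
    refine ⟨g b, ⟨(b, true), hb, rfl⟩, ?_⟩
    rintro _ ⟨p, hp, rfl⟩
    have h1 := h p hp
    simp only
    rw [← dist_eq_norm, ← dist_eq_norm] at h1 ⊢
    rw [g.dist_eq, g.dist_eq]
    exact h1

lemma jn_mv (g : ℂ ≃ᵢ ℂ) {W K A B : Set ℂ} (h : Jn W K A B) :
    Jn (g '' W) (g '' K) (g '' A) (g '' B) := by
  obtain ⟨S, hS, hSK, ⟨a, haS, haA⟩, b, hbS, hbB⟩ := h
  refine ⟨g '' S, hS.image g.continuous, ?_, ⟨g a, ⟨a, haS, rfl⟩, ⟨a, haA, rfl⟩⟩,
    ⟨g b, ⟨b, hbS, rfl⟩, ⟨b, hbB, rfl⟩⟩⟩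
  rintro _ ⟨w, hw, rfl⟩
  exact ⟨⟨w, (hSK hw).1, rfl⟩, ⟨w, (hSK hw).2, rfl⟩⟩

lemma symm_image (g : ℂ ≃ᵢ ℂ) (W : Set ℂ) : g.symm '' (g '' W) = W := by
  rw [image_image]
  simp

/-- the moved event in terms of the moved configuration -/
lemma ev_mv (g : ℂ ≃ᵢ ℂ) (K A B : Set ℂ) (ω : Sample)
    (h : ω ∈ ev (g '' K) (g '' A) (g '' B)) : Jn (Bk (mv g.symm (cfg 1 ω))) K A B := by
  rw [bk_mv]
  have h1 := jn_mv g.symm h
  rwa [symm_image, symm_image, symm_image] at h1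

lemma mv_fm {E : Type*} [MeasurableSpace E] {F : Set (ℂ × Bool) → E} (hF : FinMeas F)
    {g : ℂ → ℂ} (hg : Measurable g) : FinMeas fun X => F (mv g X) := by
  have hgm : Measurable fun p : ℂ × Bool => (g p.1, p.2) :=
    (hg.comp measurable_fst).prodMk measurable_snd
  intro n
  have hr : ∀ z : Fin n → ℂ × Bool, mv g (range z) = range fun i => (g (z i).1, (z i).2) := by
    intro z
    unfold mv
    rw [← range_comp]
    rfl
  simp only [hr]
  exact (hF n).comp (measurable_pi_iff.2 fun i => hgm.comp (measurable_pi_apply i))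

lemma mv_local {E : Type*} {F : Set (ℂ × Bool) → E} {D : Set ℂ} (hF : LocalOn D F) (g : ℂ → ℂ) :
    LocalOn (g ⁻¹' D) fun X => F (mv g X) := by
  intro S
  simp only [mv]
  rw [hF ((fun p : ℂ × Bool => (g p.1, p.2)) '' S),
    hF ((fun p : ℂ × Bool => (g p.1, p.2)) '' (S ∩ {p | p.1 ∈ g ⁻¹' D}))]
  congr 1
  ext e
  simp only [mem_inter_iff, mem_image, mem_ofPred_eq, mem_preimage]
  constructor
  · rintro ⟨⟨p, hp, rfl⟩, he⟩
    exact ⟨⟨p, ⟨hp, he⟩, rfl⟩, he⟩
  · rintro ⟨⟨p, ⟨hp, -⟩, rfl⟩, he⟩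
    exact ⟨⟨p, hp, rfl⟩, he⟩

lemma mp_isometry (g : ℂ ≃ᵢ ℂ) : MeasurePreserving g volume volume := by
  have h1 := g.toRealLinearIsometryEquiv.measurePreserving
  have h2 : (g : ℂ → ℂ) = (fun z => z + g 0) ∘ g.toRealLinearIsometryEquiv := by
    funext z
    simp
  rw [h2]
  exact (measurePreserving_add_right volume (g 0)).comp h1

lemma ind_ae {P : Set (ℂ × Bool) → Prop} {Y : Sample → Set (ℂ × Bool)}
    (h : Measurable fun ω => ind P (Y ω)) :
    ∫⁻ ω, ind P (Y ω) ∂sampleLaw = sampleLaw {ω | P (Y ω)} := by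
  classical
  have h2 : {ω | P (Y ω)} = (fun ω => ind P (Y ω)) ⁻¹' {1} := by
    ext ω
    simp only [mem_ofPred_eq, mem_preimage, mem_singleton_iff, ind]
    by_cases h : P (Y ω) <;> simp [h]
  have h3 : MeasurableSet {ω | P (Y ω)} := by
    rw [h2]
    exact h (measurableSet_singleton 1)
  rw [← lintegral_indicator_one h3]
  refine lintegral_congr fun ω => ?_
  by_cases h4 : P (Y ω)
  · rw [indicator_of_mem (show ω ∈ {ω | P (Y ω)} from h4)]
    simp [ind, h4]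
  · rw [indicator_of_notMem (show ω ∉ {ω | P (Y ω)} from h4)]
    simp [ind, h4]

/-- **invariance in law for local measurable events** -/
theorem local_inv {P : Set (ℂ × Bool) → Prop} (hP : FinMeas P) {D : Set ℂ} (hD : MeasurableSet D)
    (hb : Bornology.IsBounded D) (hl : LocalOn D P) (g : ℂ ≃ᵢ ℂ) :
    sampleLaw {ω | P (mv g (cfg 1 ω))} = sampleLaw {ω | P (cfg 1 ω)} := by
  have hli : LocalOn D (ind P) := by
    intro S
    unfold ind
    rw [← hl S]
  have hb' : Bornology.IsBounded (g ⁻¹' D) := by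
    have : g ⁻¹' D = g.symm '' D := by
      ext z
      simp only [mem_preimage, mem_image]
      exact ⟨fun h => ⟨g z, h, g.symm_apply_apply z⟩, by
        rintro ⟨w, hw, rfl⟩; rwa [g.apply_symm_apply]⟩
    rw [this]
    exact g.symm.isometry.lipschitz.isBounded_image hb
  have h1 := Janx304.iso 1 one_pos D hD hb g.toHomeomorph.toMeasurableEquiv (mp_isometry g) hb'
    (ind P) hli (ind_meas hP)
  have m1 := (Janx304.jan 1 one_pos D hD hb (ind P) hli (ind_meas hP)).1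
  have m2 := (Janx304.jan 1 one_pos (g ⁻¹' D) (g.continuous.measurable hD) hb'
    (fun X => ind P (mv g X)) (mv_local hli g) (mv_fm (ind_meas hP) g.continuous.measurable)).1
  rw [← ind_ae m1, ← ind_ae (Y := fun ω => mv g (cfg 1 ω)) m2]
  exact h1

/-! ## SYM -/

lemma sym_le (g : ℂ ≃ᵢ ℂ) {K A B : Set ℂ} (hK : IsCompact K) (hKc : Convex ℝ K)
    (hA : IsClosed A) (hB : IsClosed B) :
    sampleLaw (ev (g '' K) (g '' A) (g '' B)) ≤ sampleLaw (ev K A B) := by
  obtain ⟨ρ, hρ⟩ := hK.isBounded.subset_closedBall 0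
  have hρ' : ∀ z ∈ K, ‖z‖ ≤ ρ := fun z hz => by simpa using hρ hz
  refine ENNReal.le_of_forall_pos_le_add fun δ hδ _ => ?_
  have hδ2 : (0 : ℝ≥0∞) < δ / 2 := ENNReal.half_pos (by exact_mod_cast hδ.ne')
  obtain ⟨d, hd1, hd2⟩ :=
    (((ENNReal.tendsto_nhds_zero.1 (hole_small ρ)) _ hδ2).and
      ((ENNReal.tendsto_nhds_zero.1 (hole_small (ρ + ‖g 0‖))) _ hδ2)).exists
  set D : Set ℂ := Metric.closedBall 0 (ρ + d) with hD
  have hDm : MeasurableSet D := Metric.isClosed_closedBall.measurableSet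
  have hDb : Bornology.IsBounded D := Metric.isBounded_closedBall
  have hDi : ∀ z : ℂ, ‖z‖ ≤ ρ + d → z ∈ D := fun z hz => by simpa [hD] using hz
  set P : Set (ℂ × Bool) → Prop := fun X => Jn (Bk (X ∩ {p | p.1 ∈ D})) K A B with hP
  have hPm : FinMeas P := fm_inter (fm_jn hK hKc hA hB) hDm
  have hPl : LocalOn D P := local_inter (fun X => Jn (Bk X) K A B) D
  have e := local_inv hPm hDm hDb hPl g.symm
  have s1 : ev (g '' K) (g '' A) (g '' B) ⊆ {ω | P (mv g.symm (cfg 1 ω))} ∪ Hole (ρ + ‖g 0‖) d := by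
    intro ω hω
    by_cases hh : ω ∈ Hole (ρ + ‖g 0‖) d
    · exact Or.inr hh
    left
    have h1 := ev_mv g K A B ω hω
    have h2 : ∀ z : ℂ, ‖z‖ ≤ ρ → ∃ p ∈ mv g.symm (cfg 1 ω), ‖z - p.1‖ ≤ d := by
      intro z hz
      simp only [Hole, mem_ofPred_eq, not_exists, not_and, not_forall, not_lt] at hh
      have h3 : ‖g z‖ ≤ ρ + ‖g 0‖ := by
        have h4 : ‖g z‖ ≤ ‖g z - g 0‖ + ‖g 0‖ := by
          have := norm_add_le (g z - g 0) (g 0)
          simpa using this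
        have h5 : ‖g z - g 0‖ = ‖z‖ := by
          rw [← dist_eq_norm, g.dist_eq, dist_zero_right]
        linarith
      obtain ⟨p, hp, hpd⟩ := hh (g z) h3
      refine ⟨(g.symm p.1, p.2), ⟨p, hp, rfl⟩, ?_⟩
      simp only
      rw [← dist_eq_norm, ← g.dist_eq, g.apply_symm_apply, dist_eq_norm]
      exact hpd
    exact (jn_local hρ' h2 hDi A B).1 h1
  have s2 : {ω | P (cfg 1 ω)} ⊆ ev K A B ∪ Hole ρ d := by
    intro ω hω
    by_cases hh : ω ∈ Hole ρ d
    · exact Or.inr hh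
    left
    have h2 : ∀ z : ℂ, ‖z‖ ≤ ρ → ∃ p ∈ cfg 1 ω, ‖z - p.1‖ ≤ d := by
      intro z hz
      simp only [Hole, mem_ofPred_eq, not_exists, not_and, not_forall, not_lt] at hh
      obtain ⟨p, hp, hpd⟩ := hh z hz
      exact ⟨p, hp, hpd⟩
    exact (jn_local hρ' h2 hDi A B).2 hω
  calc sampleLaw (ev (g '' K) (g '' A) (g '' B))
      ≤ sampleLaw {ω | P (mv g.symm (cfg 1 ω))} + sampleLaw (Hole (ρ + ‖g 0‖) d) :=
        (measure_mono s1).trans (measure_union_le _ _)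
    _ ≤ sampleLaw {ω | P (cfg 1 ω)} + δ / 2 := by rw [e]; gcongr
    _ ≤ (sampleLaw (ev K A B) + sampleLaw (Hole ρ d)) + δ / 2 := by
        gcongr; exact (measure_mono s2).trans (measure_union_le _ _)
    _ ≤ (sampleLaw (ev K A B) + δ / 2) + δ / 2 := by gcongr
    _ = sampleLaw (ev K A B) + δ := by rw [add_assoc, ENNReal.add_halves]

/-- **(SYM)** -/
theorem sym : SYM := by
  intro g K A B hK hKc hA hB
  refine le_antisymm (sym_le g hK hKc hA hB) ?_
  have h1 := sym_le g.symm (K := g '' K) (A := g '' A) (B := g '' B) (hK.image g.continuous) ?_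
    (g.toHomeomorph.isClosedMap _ hA) (g.toHomeomorph.isClosedMap _ hB)
  · rwa [symm_image, symm_image, symm_image] at h1
  · have h2 : g '' K = (fun z => z + g 0) '' (g.toRealLinearIsometryEquiv '' K) := by
      rw [image_image]
      simp
    rw [h2]
    have h3 : Convex ℝ (g.toRealLinearIsometryEquiv '' K) :=
      hKc.linear_image g.toRealLinearIsometryEquiv.toLinearEquiv.toLinearMap
    have h4 : (fun z => z + g 0) '' (g.toRealLinearIsometryEquiv '' K) =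
        (fun z => g 0 + z) '' (g.toRealLinearIsometryEquiv '' K) := by
      congr 1; funext z; exact add_comm _ _
    rw [h4]
    exact h3.translate (g 0)

end Crest.Agent.R143.TasSYMx176
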