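import Crest.Agent.R143.TasI_372
import Crest.Agent.R202.Miranda

/-!
# Row 143 (S0194), block N3: annealed RSW, planar topology (helper372)

* `cross` : a horizontal and a vertical path connected crossing meet (Poincare - Miranda)
* `hit`, `strip` : parts of path connected sets up to a level / between two levels
* `window` : a path which arrives in the window under a curve meets the curve
* `inter` : interlacing end points on a line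
* `half_ring` : three crossings around a point contain a curve in the half plane
-/

set_option autoImplicit false

noncomputable section

namespace Crest.Agent.R143.TasTx372

open Set Crest.Agent.R143.TasIx372

/-- a path connected set which joins left to right and one which joins bottom to top meet -/
theorem cross {S T : Set ℂ} (hS : IsPathConnected S) (hT : IsPathConnected T) {x0 x1 y0 y1 : ℝ}
    (hSy : ∀ z ∈ S, y0 ≤ z.im ∧ z.im ≤ y1) (hTx : ∀ z ∈ T, x0 ≤ z.re ∧ z.re ≤ x1)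
    {a b c d : ℂ} (ha : a ∈ S) (hb : b ∈ S) (hc : c ∈ T) (hd : d ∈ T) (ha0 : a.re ≤ x0)
    (hb1 : x1 ≤ b.re) (hc0 : c.im ≤ y0) (hd1 : y1 ≤ d.im) : (S ∩ T).Nonempty := by
  obtain ⟨γ, hγ⟩ := hS.joinedIn a ha b hb
  obtain ⟨δ, hδ⟩ := hT.joinedIn c hc d hd
  let g : ℝ → ℂ := fun t => γ (projIcc 0 1 zero_le_one ((t + 1) / 2))
  let e : ℝ → ℂ := fun t => δ (projIcc 0 1 zero_le_one ((t + 1) / 2))
  have hg : Continuous g := γ.continuous.comp (continuous_projIcc.comp (by fun_prop))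
  have he : Continuous e := δ.continuous.comp (continuous_projIcc.comp (by fun_prop))
  have g1 : g 1 = b := by
    have : projIcc (0 : ℝ) 1 zero_le_one ((1 + 1) / 2) = 1 := by
      rw [show ((1 : ℝ) + 1) / 2 = 1 by norm_num]; exact projIcc_right _
    show γ (projIcc 0 1 zero_le_one ((1 + 1) / 2)) = b
    rw [this]; exact γ.target
  have g0 : g (-1) = a := by
    have : projIcc (0 : ℝ) 1 zero_le_one ((-1 + 1) / 2) = 0 := by
      rw [show ((-1 : ℝ) + 1) / 2 = 0 by norm_num]; exact projIcc_left _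
    show γ (projIcc 0 1 zero_le_one ((-1 + 1) / 2)) = a
    rw [this]; exact γ.source
  have e1 : e 1 = d := by
    have : projIcc (0 : ℝ) 1 zero_le_one ((1 + 1) / 2) = 1 := by
      rw [show ((1 : ℝ) + 1) / 2 = 1 by norm_num]; exact projIcc_right _
    show δ (projIcc 0 1 zero_le_one ((1 + 1) / 2)) = d
    rw [this]; exact δ.target
  have e0 : e (-1) = c := by
    have : projIcc (0 : ℝ) 1 zero_le_one ((-1 + 1) / 2) = 0 := by
      rw [show ((-1 : ℝ) + 1) / 2 = 0 by norm_num]; exact projIcc_left _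
    show δ (projIcc 0 1 zero_le_one ((-1 + 1) / 2)) = c
    rw [this]; exact δ.source
  have gS : ∀ t, g t ∈ S := fun t => hγ _
  have eT : ∀ t, e t ∈ T := fun t => hδ _
  let f : (Fin 2 → ℝ) → Fin 2 → ℝ := fun x =>
    ![(g (x 0)).re - (e (x 1)).re, (e (x 1)).im - (g (x 0)).im]
  have hf : Continuous f := by
    refine continuous_pi fun i => ?_
    fin_cases i
    · show Continuous fun x : Fin 2 → ℝ => (g (x 0)).re - (e (x 1)).re
      exact (Complex.continuous_re.comp (hg.comp (continuous_apply 0))).sub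
        (Complex.continuous_re.comp (he.comp (continuous_apply 1)))
    · show Continuous fun x : Fin 2 → ℝ => (e (x 1)).im - (g (x 0)).im
      exact (Complex.continuous_im.comp (he.comp (continuous_apply 1))).sub
        (Complex.continuous_im.comp (hg.comp (continuous_apply 0)))
  obtain ⟨x, -, hx⟩ := Crest.Agent.R202.poincare_miranda f hf.continuousOn
    (by
      intro x _ i hi
      fin_cases i
      · show 0 ≤ (g (x 0)).re - (e (x 1)).re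
        have : x 0 = 1 := hi
        rw [this, g1]
        have := (hTx _ (eT (x 1))).2
        linarith
      · show 0 ≤ (e (x 1)).im - (g (x 0)).im
        have : x 1 = 1 := hi
        rw [this, e1]
        have := (hSy _ (gS (x 0))).2
        linarith)
    (by
      intro x _ i hi
      fin_cases i
      · show (g (x 0)).re - (e (x 1)).re ≤ 0
        have : x 0 = -1 := hi
        rw [this, g0]
        have := (hTx _ (eT (x 1))).1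
        linarith
      · show (e (x 1)).im - (g (x 0)).im ≤ 0
        have : x 1 = -1 := hi
        rw [this, e0]
        have := (hSy _ (gS (x 0))).1
        linarith)
  have h0 : (g (x 0)).re - (e (x 1)).re = 0 := hx 0
  have h1 : (e (x 1)).im - (g (x 0)).im = 0 := hx 1
  have hge : g (x 0) = e (x 1) := Complex.ext (by linarith) (by linarith)
  exact ⟨g (x 0), gS _, hge ▸ eT _⟩

/-- the part of a path connected set up to the first visit of a level -/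
theorem hit {S : Set ℂ} (hS : IsPathConnected S) {f : ℂ → ℝ} (hf : Continuous f) {p q : ℂ}
    (hp : p ∈ S) (hq : q ∈ S) {c : ℝ} (h1 : f p ≤ c) (h2 : c ≤ f q) :
    ∃ S' ⊆ S, IsPathConnected S' ∧ (∀ z ∈ S', f z ≤ c) ∧ p ∈ S' ∧ ∃ w ∈ S', f w = c := by
  obtain ⟨γ, hγ⟩ := hS.joinedIn p hp q hq
  let g : ℝ → ℂ := fun t => γ (projIcc 0 1 zero_le_one t)
  have hg : Continuous g := γ.continuous.comp continuous_projIcc
  have g1 : g 1 = q := by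
    show γ (projIcc 0 1 zero_le_one 1) = q
    rw [projIcc_right]; exact γ.target
  have g0 : g 0 = p := by
    show γ (projIcc 0 1 zero_le_one 0) = p
    rw [projIcc_left]; exact γ.source
  have gS : ∀ t, g t ∈ S := fun t => hγ _
  have hfg : Continuous fun t => f (g t) := hf.comp hg
  let A : Set ℝ := Icc 0 1 ∩ {t | c ≤ f (g t)}
  have hAc : IsClosed A := isClosed_Icc.inter (isClosed_le continuous_const hfg)
  have hA1 : (1 : ℝ) ∈ A := ⟨by simp, by show c ≤ f (g 1); rw [g1]; exact h2⟩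
  have hAb : BddBelow A := ⟨0, fun t ht => ht.1.1⟩
  set t1 := sInf A with ht1
  have ht1A : t1 ∈ A := hAc.csInf_mem ⟨1, hA1⟩ hAb
  have hlow : ∀ t ∈ A, t1 ≤ t := fun t ht => csInf_le hAb ht
  have hfc : f (g t1) = c := by
    have hiv := intermediate_value_Icc (f := fun t => f (g t)) ht1A.1.1 hfg.continuousOn
    have hc : c ∈ Icc (f (g 0)) (f (g t1)) := ⟨by rw [g0]; exact h1, ht1A.2⟩
    obtain ⟨t, ht, htc⟩ := hiv hc
    have htA : t ∈ A := ⟨⟨ht.1, ht.2.trans ht1A.1.2⟩, by show c ≤ f (g t); exact htc.ge⟩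
    have : t = t1 := le_antisymm ht.2 (hlow t htA)
    rw [← this]; exact htc
  refine ⟨g '' Icc 0 t1, ?_, ?_, ?_, ⟨0, ⟨le_rfl, ht1A.1.1⟩, g0⟩, g t1,
    ⟨t1, ⟨ht1A.1.1, le_rfl⟩, rfl⟩, hfc⟩
  · rintro _ ⟨t, -, rfl⟩; exact gS t
  · exact ((convex_Icc 0 t1).isPathConnected ⟨0, le_rfl, ht1A.1.1⟩).image hg
  · rintro _ ⟨t, ht, rfl⟩
    rcases ht.2.eq_or_lt with h | h
    · rw [h]; exact hfc.le
    · by_contra hcon
      push Not at hcon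
      exact absurd (hlow t ⟨⟨ht.1, ht.2.trans ht1A.1.2⟩, hcon.le⟩) (not_le.2 h)

/-- the part of a path connected set between two levels -/
theorem strip {S : Set ℂ} (hS : IsPathConnected S) {f : ℂ → ℝ} (hf : Continuous f) {p q : ℂ}
    (hp : p ∈ S) (hq : q ∈ S) {c0 c1 : ℝ} (h0 : f p ≤ c0) (h1 : c1 ≤ f q) (h01 : c0 ≤ c1) :
    ∃ S' ⊆ S, IsPathConnected S' ∧ (∀ z ∈ S', c0 ≤ f z ∧ f z ≤ c1) ∧ (∃ u ∈ S', f u = c0) ∧
      ∃ w ∈ S', f w = c1 := by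
  obtain ⟨S1, hS1, hc1, hle, hp1, w, hw, hwc⟩ := hit hS hf hp hq (h0.trans h01) h1
  obtain ⟨S2, hS2, hc2, hle2, hw2, u, hu, huc⟩ := hit hc1 hf.neg hw hp1 (c := -c0)
    (by simp only [Pi.neg_apply]; linarith) (by simp only [Pi.neg_apply]; linarith)
  refine ⟨S2, hS2.trans hS1, hc2, fun z hz => ⟨?_, hle z (hS2 hz)⟩, ⟨u, hu, ?_⟩, w, hw2, hwc⟩
  · have := hle2 z hz
    simp only [Pi.neg_apply] at this
    linarith
  · simp only [Pi.neg_apply] at huc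
    linarith

theorem rc_convex (x0 x1 y0 y1 : ℝ) : Convex ℝ (Rc x0 x1 y0 y1) := by
  intro z hz w hw a b ha hb hab
  simp only [Rc, mem_ofPred_eq, Complex.add_re, Complex.smul_re, Complex.add_im, Complex.smul_im,
    smul_eq_mul] at *
  obtain ⟨h1, h2, h3, h4⟩ := hz
  obtain ⟨k1, k2, k3, k4⟩ := hw
  have hb' : b = 1 - a := by linarith
  subst hb'
  refine ⟨?_, ?_, ?_, ?_⟩ <;> nlinarith

theorem rc_pc {x0 x1 y0 y1 : ℝ} (hx : x0 ≤ x1) (hy : y0 ≤ y1) : IsPathConnected (Rc x0 x1 y0 y1) :=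
  (rc_convex _ _ _ _).isPathConnected ⟨⟨x0, y0⟩, le_rfl, hx, le_rfl, hy⟩

/-- the point with coordinates `x`, `y` -/
theorem mem_rc {x0 x1 y0 y1 x y : ℝ} : (⟨x, y⟩ : ℂ) ∈ Rc x0 x1 y0 y1 ↔
    x0 ≤ x ∧ x ≤ x1 ∧ y0 ≤ y ∧ y ≤ y1 := Iff.rfl

theorem union' {S T : Set ℂ} (hS : IsPathConnected S) (hT : IsPathConnected T) {z : ℂ}
    (h1 : z ∈ S) (h2 : z ∈ T) : IsPathConnected (S ∪ T) := hS.union hT ⟨z, h1, h2⟩

/-- **window lemma** (half plane on the left of the line) -/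
theorem window {G P : Set ℂ} (hG : IsPathConnected G) (hP : IsPathConnected P)
    {c y1 y2 w M : ℝ} {p0 : ℂ} (hGc : ∀ z ∈ G, p0.re ≤ z.re ∧ z.re ≤ c) (hPc : ∀ z ∈ P, z.re ≤ c)
    (hGM : ∀ z ∈ G, -M ≤ z.im ∧ z.im ≤ M) (hPM : ∀ z ∈ P, -M ≤ z.im ∧ z.im ≤ M)
    (h1 : (⟨c, y1⟩ : ℂ) ∈ G) (h2 : (⟨c, y2⟩ : ℂ) ∈ G) (hp0 : p0 ∈ P) (hw : (⟨c, w⟩ : ℂ) ∈ P)
    (hy1 : w ≤ y1) (hy2 : y2 ≤ w) : (G ∩ P).Nonempty := by
  rcases hy1.eq_or_lt with e1 | l1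
  · exact ⟨⟨c, w⟩, e1 ▸ h1, hw⟩
  rcases hy2.eq_or_lt with e2 | l2
  · exact ⟨⟨c, w⟩, e2 ▸ h2, hw⟩
  have hp0c : p0.re ≤ c := hPc _ hp0
  have b1 := hGM _ h1
  have b2 := hGM _ h2
  have bw := hPM _ hw
  simp only at b1 b2 bw
  have pS : IsPathConnected (P ∪ Rc c (c + 2) w w) :=
    union' hP (rc_pc (by linarith) le_rfl) hw (mem_rc.2 ⟨le_rfl, by linarith, le_rfl, le_rfl⟩)
  have pT1 : IsPathConnected (G ∪ Rc c (c + 1) y1 y1) :=
    union' hG (rc_pc (by linarith) le_rfl) h1 (mem_rc.2 ⟨le_rfl, by linarith, le_rfl, le_rfl⟩)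
  have pT2 : IsPathConnected (G ∪ Rc c (c + 1) y1 y1 ∪ Rc (c + 1) (c + 1) y1 M) :=
    union' pT1 (rc_pc le_rfl b1.2) (z := ⟨c + 1, y1⟩)
      (Or.inr (mem_rc.2 ⟨by linarith, le_rfl, le_rfl, le_rfl⟩))
      (mem_rc.2 ⟨le_rfl, le_rfl, le_rfl, b1.2⟩)
  have pT3 : IsPathConnected (G ∪ Rc c (c + 1) y1 y1 ∪ Rc (c + 1) (c + 1) y1 M ∪
      Rc c (c + 1) y2 y2) :=
    union' pT2 (rc_pc (by linarith) le_rfl) (z := ⟨c, y2⟩) (Or.inl (Or.inl h2))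
      (mem_rc.2 ⟨le_rfl, by linarith, le_rfl, le_rfl⟩)
  have pT : IsPathConnected (G ∪ Rc c (c + 1) y1 y1 ∪ Rc (c + 1) (c + 1) y1 M ∪
      Rc c (c + 1) y2 y2 ∪ Rc (c + 1) (c + 1) (-M) y2) :=
    union' pT3 (rc_pc le_rfl b2.1) (z := ⟨c + 1, y2⟩)
      (Or.inr (mem_rc.2 ⟨by linarith, le_rfl, le_rfl, le_rfl⟩))
      (mem_rc.2 ⟨le_rfl, le_rfl, b2.1, le_rfl⟩)
  obtain ⟨z, hz1, hz2⟩ := cross pS pT (x0 := p0.re) (x1 := c + 1) (y0 := -M) (y1 := M)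
    (a := p0) (b := ⟨c + 2, w⟩) (c := ⟨c + 1, -M⟩) (d := ⟨c + 1, M⟩)
    (by
      rintro z (hz | ⟨k1, k2, k3, k4⟩)
      · exact hPM z hz
      · exact ⟨bw.1.trans k3, k4.trans bw.2⟩)
    (by
      rintro z ((((hz | ⟨k1, k2, k3, k4⟩) | ⟨k1, k2, k3, k4⟩) | ⟨k1, k2, k3, k4⟩) |
        ⟨k1, k2, k3, k4⟩)
      · exact ⟨(hGc z hz).1, (hGc z hz).2.trans (by linarith)⟩
      all_goals exact ⟨by linarith, by linarith⟩)
    (Or.inl hp0) (Or.inr (mem_rc.2 ⟨by linarith, le_rfl, le_rfl, le_rfl⟩))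
    (Or.inr (mem_rc.2 ⟨le_rfl, le_rfl, le_rfl, b2.1⟩))
    (Or.inl (Or.inl (Or.inr (mem_rc.2 ⟨le_rfl, le_rfl, b1.2, le_rfl⟩))))
    le_rfl (by simp) le_rfl le_rfl
  rcases hz1 with hzP | ⟨j1, j2, j3, j4⟩
  · have hzc := hPc z hzP
    rcases hz2 with (((hz | ⟨k1, k2, k3, k4⟩) | ⟨k1, k2, k3, k4⟩) | ⟨k1, k2, k3, k4⟩) |
        ⟨k1, k2, k3, k4⟩
    · exact ⟨z, hz, hzP⟩
    · have : z = ⟨c, y1⟩ := Complex.ext (le_antisymm hzc k1) (le_antisymm k4 k3)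
      exact ⟨z, this ▸ h1, hzP⟩
    · linarith
    · have : z = ⟨c, y2⟩ := Complex.ext (le_antisymm hzc k1) (le_antisymm k4 k3)
      exact ⟨z, this ▸ h2, hzP⟩
    · linarith
  · rcases hz2 with (((hz | ⟨k1, k2, k3, k4⟩) | ⟨k1, k2, k3, k4⟩) | ⟨k1, k2, k3, k4⟩) |
        ⟨k1, k2, k3, k4⟩
    · have : z = ⟨c, w⟩ := Complex.ext (le_antisymm (hGc z hz).2 j1) (le_antisymm j4 j3)
      exact ⟨z, hz, this ▸ hw⟩
    all_goals linarith

/-- reflection at the imaginary axis -/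
def mir (z : ℂ) : ℂ := ⟨-z.re, z.im⟩

@[simp] theorem mir_re (z : ℂ) : (mir z).re = -z.re := rfl
@[simp] theorem mir_im (z : ℂ) : (mir z).im = z.im := rfl

theorem mir_mir (z : ℂ) : mir (mir z) = z := Complex.ext (by simp) (by simp)

theorem mir_cont : Continuous mir := by
  have : mir = fun z : ℂ => -(starRingEnd ℂ z) := by
    ext z
    apply Complex.ext <;> simp
  rw [this]
  exact Complex.continuous_conj.neg

theorem mir_pc {S : Set ℂ} (hS : IsPathConnected S) : IsPathConnected (mir '' S) :=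
  hS.image mir_cont

theorem mir_mem {S : Set ℂ} {z : ℂ} : z ∈ mir '' S ↔ mir z ∈ S := by
  constructor
  · rintro ⟨w, hw, rfl⟩; rwa [mir_mir]
  · intro h; exact ⟨mir z, h, mir_mir z⟩

/-- **window lemma** (half plane on the right of the line) -/
theorem window_r {G P : Set ℂ} (hG : IsPathConnected G) (hP : IsPathConnected P)
    {c y1 y2 w M : ℝ} {p0 : ℂ} (hGc : ∀ z ∈ G, c ≤ z.re ∧ z.re ≤ p0.re) (hPc : ∀ z ∈ P, c ≤ z.re)
    (hGM : ∀ z ∈ G, -M ≤ z.im ∧ z.im ≤ M) (hPM : ∀ z ∈ P, -M ≤ z.im ∧ z.im ≤ M)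
    (h1 : (⟨c, y1⟩ : ℂ) ∈ G) (h2 : (⟨c, y2⟩ : ℂ) ∈ G) (hp0 : p0 ∈ P) (hw : (⟨c, w⟩ : ℂ) ∈ P)
    (hy1 : w ≤ y1) (hy2 : y2 ≤ w) : (G ∩ P).Nonempty := by
  have hm : ∀ y : ℝ, mir ⟨-c, y⟩ = ⟨c, y⟩ := fun y => Complex.ext (by simp) (by simp)
  obtain ⟨z, hz1, hz2⟩ := window (mir_pc hG) (mir_pc hP) (c := -c) (y1 := y1) (y2 := y2) (w := w)
    (M := M) (p0 := mir p0)
    (by
      intro z hz
      have := hGc _ (mir_mem.1 hz)
      simp only [mir_re] at this ⊢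
      constructor <;> linarith)
    (by
      intro z hz
      have := hPc _ (mir_mem.1 hz)
      simp only [mir_re] at this
      linarith)
    (by
      intro z hz
      have := hGM _ (mir_mem.1 hz)
      simpa using this)
    (by
      intro z hz
      have := hPM _ (mir_mem.1 hz)
      simpa using this)
    (mir_mem.2 (by rw [hm]; exact h1)) (mir_mem.2 (by rw [hm]; exact h2)) (mir_mem.2 (by rwa [mir_mir]))
    (mir_mem.2 (by rw [hm]; exact hw)) hy1 hy2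
  exact ⟨mir z, mir_mem.1 hz1, mir_mem.1 hz2⟩

/-- **interlacing lemma**: end points on the line `re = c`, sets on the right of it -/
theorem inter {G D : Set ℂ} (hG : IsPathConnected G) (hD : IsPathConnected D)
    {c a b a' b' M : ℝ} (hGc : ∀ z ∈ G, c ≤ z.re ∧ z.re ≤ M) (hDc : ∀ z ∈ D, c ≤ z.re ∧ z.re ≤ M)
    (hGM : ∀ z ∈ G, -M ≤ z.im ∧ z.im ≤ M) (hDM : ∀ z ∈ D, -M ≤ z.im ∧ z.im ≤ M)
    (h1 : (⟨c, a⟩ : ℂ) ∈ G) (h2 : (⟨c, b⟩ : ℂ) ∈ G) (h3 : (⟨c, a'⟩ : ℂ) ∈ D)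
    (h4 : (⟨c, b'⟩ : ℂ) ∈ D) (l1 : a ≤ a') (l2 : a' ≤ b) (l3 : b ≤ b') : (G ∩ D).Nonempty := by
  rcases l1.eq_or_lt with e1 | l1
  · exact ⟨⟨c, a⟩, h1, e1 ▸ h3⟩
  rcases l2.eq_or_lt with e2 | l2
  · exact ⟨⟨c, b⟩, h2, e2 ▸ h3⟩
  rcases l3.eq_or_lt with e3 | l3
  · exact ⟨⟨c, b⟩, h2, e3 ▸ h4⟩
  have ba := hGM _ h1
  have bb := hGM _ h2
  have ba' := hDM _ h3
  have bb' := hDM _ h4
  have bc := hGc _ h1
  simp only at ba bb ba' bb' bc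
  -- bottom to top
  have p1 : IsPathConnected (G ∪ Rc (c - 1) c a a) :=
    union' hG (rc_pc (by linarith) le_rfl) h1 (mem_rc.2 ⟨by linarith, le_rfl, le_rfl, le_rfl⟩)
  have p2 : IsPathConnected (G ∪ Rc (c - 1) c a a ∪ Rc (c - 1) (c - 1) (-M) a) :=
    union' p1 (rc_pc le_rfl ba.1) (z := ⟨c - 1, a⟩)
      (Or.inr (mem_rc.2 ⟨le_rfl, by linarith, le_rfl, le_rfl⟩))
      (mem_rc.2 ⟨le_rfl, le_rfl, ba.1, le_rfl⟩)
  have p3 : IsPathConnected (G ∪ Rc (c - 1) c a a ∪ Rc (c - 1) (c - 1) (-M) a ∪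
      Rc (c - 1) c b b) :=
    union' p2 (rc_pc (by linarith) le_rfl) (z := ⟨c, b⟩) (Or.inl (Or.inl h2))
      (mem_rc.2 ⟨by linarith, le_rfl, le_rfl, le_rfl⟩)
  have pT : IsPathConnected (G ∪ Rc (c - 1) c a a ∪ Rc (c - 1) (c - 1) (-M) a ∪
      Rc (c - 1) c b b ∪ Rc (c - 1) (c - 1) b (M + 1)) :=
    union' p3 (rc_pc le_rfl (by linarith)) (z := ⟨c - 1, b⟩)
      (Or.inr (mem_rc.2 ⟨le_rfl, by linarith, le_rfl, le_rfl⟩))
      (mem_rc.2 ⟨le_rfl, le_rfl, le_rfl, by linarith⟩)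
  -- left to right
  have q1 : IsPathConnected (D ∪ Rc (c - 2) c a' a') :=
    union' hD (rc_pc (by linarith) le_rfl) h3 (mem_rc.2 ⟨by linarith, le_rfl, le_rfl, le_rfl⟩)
  have q2 : IsPathConnected (D ∪ Rc (c - 2) c a' a' ∪ Rc (c - 1 / 2) c b' b') :=
    union' q1 (rc_pc (by linarith) le_rfl) (z := ⟨c, b'⟩) (Or.inl h4)
      (mem_rc.2 ⟨by linarith, le_rfl, le_rfl, le_rfl⟩)
  have q3 : IsPathConnected (D ∪ Rc (c - 2) c a' a' ∪ Rc (c - 1 / 2) c b' b' ∪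
      Rc (c - 1 / 2) (c - 1 / 2) b' (M + 1)) :=
    union' q2 (rc_pc le_rfl (by linarith)) (z := ⟨c - 1 / 2, b'⟩)
      (Or.inr (mem_rc.2 ⟨le_rfl, by linarith, le_rfl, le_rfl⟩))
      (mem_rc.2 ⟨le_rfl, le_rfl, le_rfl, by linarith⟩)
  have pS : IsPathConnected (D ∪ Rc (c - 2) c a' a' ∪ Rc (c - 1 / 2) c b' b' ∪
      Rc (c - 1 / 2) (c - 1 / 2) b' (M + 1) ∪ Rc (c - 1 / 2) M (M + 1) (M + 1)) :=
    union' q3 (rc_pc (by linarith) le_rfl) (z := ⟨c - 1 / 2, M + 1⟩)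
      (Or.inr (mem_rc.2 ⟨le_rfl, le_rfl, by linarith, le_rfl⟩))
      (mem_rc.2 ⟨le_rfl, by linarith, le_rfl, le_rfl⟩)
  obtain ⟨z, hz1, hz2⟩ := cross pS pT (x0 := c - 1) (x1 := M) (y0 := -M) (y1 := M + 1)
    (a := ⟨c - 2, a'⟩) (b := ⟨M, M + 1⟩) (c := ⟨c - 1, -M⟩) (d := ⟨c - 1, M + 1⟩)
    (by
      rintro z ((((hz | ⟨k1, k2, k3, k4⟩) | ⟨k1, k2, k3, k4⟩) | ⟨k1, k2, k3, k4⟩) |
        ⟨k1, k2, k3, k4⟩)
      · exact ⟨(hDM z hz).1, (hDM z hz).2.trans (by linarith)⟩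
      all_goals exact ⟨by linarith, by linarith⟩)
    (by
      rintro z ((((hz | ⟨k1, k2, k3, k4⟩) | ⟨k1, k2, k3, k4⟩) | ⟨k1, k2, k3, k4⟩) |
        ⟨k1, k2, k3, k4⟩)
      · exact ⟨by linarith [(hGc z hz).1], (hGc z hz).2⟩
      all_goals exact ⟨by linarith, by linarith⟩)
    (Or.inl (Or.inl (Or.inl (Or.inr (mem_rc.2 ⟨le_rfl, by linarith, le_rfl, le_rfl⟩)))))
    (Or.inr (mem_rc.2 ⟨by linarith, le_rfl, le_rfl, le_rfl⟩))
    (Or.inl (Or.inl (Or.inr (mem_rc.2 ⟨le_rfl, le_rfl, le_rfl, ba.1⟩))))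
    (Or.inr (mem_rc.2 ⟨le_rfl, le_rfl, by linarith, le_rfl⟩))
    (by simp; linarith) le_rfl le_rfl le_rfl
  rcases hz1 with (((hzD | ⟨j1, j2, j3, j4⟩) | ⟨j1, j2, j3, j4⟩) | ⟨j1, j2, j3, j4⟩) |
    ⟨j1, j2, j3, j4⟩
  · have hzc := (hDc z hzD).1
    rcases hz2 with (((hz | ⟨k1, k2, k3, k4⟩) | ⟨k1, k2, k3, k4⟩) | ⟨k1, k2, k3, k4⟩) |
        ⟨k1, k2, k3, k4⟩
    · exact ⟨z, hz, hzD⟩
    · have : z = ⟨c, a⟩ := Complex.ext (le_antisymm k2 hzc) (le_antisymm k4 k3)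
      exact ⟨z, this ▸ h1, hzD⟩
    · linarith
    · have : z = ⟨c, b⟩ := Complex.ext (le_antisymm k2 hzc) (le_antisymm k4 k3)
      exact ⟨z, this ▸ h2, hzD⟩
    · linarith
  · rcases hz2 with (((hz | ⟨k1, k2, k3, k4⟩) | ⟨k1, k2, k3, k4⟩) | ⟨k1, k2, k3, k4⟩) |
        ⟨k1, k2, k3, k4⟩
    · have : z = ⟨c, a'⟩ := Complex.ext (le_antisymm j2 (hGc z hz).1) (le_antisymm j4 j3)
      exact ⟨z, hz, this ▸ h3⟩
    all_goals linarith
  · rcases hz2 with (((hz | ⟨k1, k2, k3, k4⟩) | ⟨k1, k2, k3, k4⟩) | ⟨k1, k2, k3, k4⟩) |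
        ⟨k1, k2, k3, k4⟩
    · have : z = ⟨c, b'⟩ := Complex.ext (le_antisymm j2 (hGc z hz).1) (le_antisymm j4 j3)
      exact ⟨z, hz, this ▸ h4⟩
    all_goals linarith
  · rcases hz2 with (((hz | ⟨k1, k2, k3, k4⟩) | ⟨k1, k2, k3, k4⟩) | ⟨k1, k2, k3, k4⟩) |
        ⟨k1, k2, k3, k4⟩
    · linarith [(hGc z hz).1]
    all_goals linarith
  · rcases hz2 with (((hz | ⟨k1, k2, k3, k4⟩) | ⟨k1, k2, k3, k4⟩) | ⟨k1, k2, k3, k4⟩) |
        ⟨k1, k2, k3, k4⟩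
    · linarith [(hGM z hz).2]
    all_goals linarith

/-- three crossings on the left of a point contain a curve in the left half plane -/
theorem half_ring {T L B : Set ℂ} (hT : IsPathConnected T) (hL : IsPathConnected L)
    (hB : IsPathConnected B) {x y r : ℝ} (hr : 0 < r)
    (sT : T ⊆ Rc (x - 2 * r) (x + 2 * r) (y + r) (y + 2 * r)) {t0 t1 : ℂ} (ht0 : t0 ∈ T)
    (ht1 : t1 ∈ T) (ht0' : t0.re = x - 2 * r) (ht1' : t1.re = x + 2 * r)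
    (sB : B ⊆ Rc (x - 2 * r) (x + 2 * r) (y - 2 * r) (y - r)) {b0 b1 : ℂ} (hb0 : b0 ∈ B)
    (hb1 : b1 ∈ B) (hb0' : b0.re = x - 2 * r) (hb1' : b1.re = x + 2 * r)
    (sL : L ⊆ Rc (x - 2 * r) (x - r) (y - 2 * r) (y + 2 * r)) {l0 l1 : ℂ} (hl0 : l0 ∈ L)
    (hl1 : l1 ∈ L) (hl0' : l0.im = y - 2 * r) (hl1' : l1.im = y + 2 * r) :
    ∃ G ⊆ T ∪ L ∪ B, IsPathConnected G ∧ (∀ z ∈ G, x - 2 * r ≤ z.re ∧ z.re ≤ x) ∧
      (∃ y1, y + r ≤ y1 ∧ y1 ≤ y + 2 * r ∧ (⟨x, y1⟩ : ℂ) ∈ G) ∧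
      (∃ y2, y - 2 * r ≤ y2 ∧ y2 ≤ y - r ∧ (⟨x, y2⟩ : ℂ) ∈ G) ∧ (L ⊆ G) := by
  obtain ⟨p, hpT, hpL⟩ := cross hT hL (x0 := x - 2 * r) (x1 := x - r) (y0 := y + r)
    (y1 := y + 2 * r) (fun z hz => ⟨(sT hz).2.2.1, (sT hz).2.2.2⟩)
    (fun z hz => ⟨(sL hz).1, (sL hz).2.1⟩) ht0 ht1 hl0 hl1 ht0'.le (by linarith) (by linarith)
    hl1'.ge
  obtain ⟨q, hqB, hqL⟩ := cross hB hL (x0 := x - 2 * r) (x1 := x - r) (y0 := y - 2 * r)
    (y1 := y - r) (fun z hz => ⟨(sB hz).2.2.1, (sB hz).2.2.2⟩)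
    (fun z hz => ⟨(sL hz).1, (sL hz).2.1⟩) hb0 hb1 hl0 hl1 hb0'.le (by linarith) (by linarith)
    (by linarith)
  have hpx : p.re ≤ x := by have := (sL hpL).2.1; linarith
  have hqx : q.re ≤ x := by have := (sL hqL).2.1; linarith
  obtain ⟨T', hT'T, hT'c, hT'x, hpT', w1, hw1, hw1x⟩ :=
    hit hT Complex.continuous_re hpT ht1 hpx (by linarith)
  obtain ⟨B', hB'B, hB'c, hB'x, hqB', w2, hw2, hw2x⟩ :=
    hit hB Complex.continuous_re hqB hb1 hqx (by linarith)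
  have e1 : w1 = ⟨x, w1.im⟩ := Complex.ext hw1x rfl
  have e2 : w2 = ⟨x, w2.im⟩ := Complex.ext hw2x rfl
  refine ⟨T' ∪ L ∪ B', ?_, union' (union' hT'c hL hpT' hpL) hB'c (Or.inr hqL) hqB', ?_,
    ⟨w1.im, (sT (hT'T hw1)).2.2.1, (sT (hT'T hw1)).2.2.2, Or.inl (Or.inl (e1 ▸ hw1))⟩,
    ⟨w2.im, (sB (hB'B hw2)).2.2.1, (sB (hB'B hw2)).2.2.2, Or.inr (e2 ▸ hw2)⟩,
    fun z hz => Or.inl (Or.inr hz)⟩
  · rintro z ((hz | hz) | hz)
    · exact Or.inl (Or.inl (hT'T hz))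
    · exact Or.inl (Or.inr hz)
    · exact Or.inr (hB'B hz)
  · rintro z ((hz | hz) | hz)
    · exact ⟨(sT (hT'T hz)).1, hT'x z hz⟩
    · exact ⟨(sL hz).1, by have := (sL hz).2.1; linarith⟩
    · exact ⟨(sB (hB'B hz)).1, hB'x z hz⟩

end Crest.Agent.R143.TasTx372
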