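import Crest.Agent.R143.Meet2_707
import Crest.Agent.R143.RevQ_352
import Crest.Agent.R143.Rel6_126

/-!
# Row 143 (S0194), block H, leaf P2: the tube for the partial tiles (helper707)

* `TC S V σ z1 r1 q ψ` : the tube event for a colouring `ψ` of the cells
* `meet_op` : 389's location statement for 352's exploration (`OwP`), any family of colourings
* `pr_cells` : the tube event over all colourings of the cells has the probability over the sites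
* `hTb_op`, `exU`, `gdU` : hypotheses `hTb`, `E`, `hGd` of 126's `xp_h2` / `one_d` for `Oc = OP M G Rt d`
* `frU` : hypothesis `hB` of `one_d` (352's `arcsW`, `gia`)
* `one_op` : `one_d` with all of them discharged
-/

set_option autoImplicit false
set_option linter.unusedSectionVars false

noncomputable section

open scoped Classical

namespace Crest.Agent.R143.TbPx707

open Crest.Agent.R143.B0x346 Crest.Agent.R143.DelGx806 Crest.Agent.R143.DelRx806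
open Crest.Agent.R143.ToolWx838 Crest.Agent.R143.Blkx838 Crest.Agent.R143.ToolW2x838
open Crest.Agent.R143.ToolW3x838 Crest.Agent.R143.Circ4x838 Crest.Agent.R143.Harx315
open Crest.Agent.R143.RB0x838 Crest.Agent.R143.CircPx838 Crest.Agent.R143.Gatex838
open Crest.Agent.R143.CBx838 Crest.Agent.R143.Multix838 Crest.Agent.R143.RBmx838
open Crest.Agent.R143.Frame1x395 Crest.Agent.R143.Frame2x395 Crest.Agent.R143.Frame3x395
  Crest.Agent.R143.Frame4x395 Crest.Agent.R143.Frame8x395 Crest.Agent.R143.Frame9x395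
  Crest.Agent.R143.Frame10x395 Crest.Agent.R143.NonXx592
open Crest.Agent.R143.Frame5x395 (sd mem_sd th th_spec)
open Crest.Agent.R143.Tubex707 Crest.Agent.R143.TubeWx707
open Crest.Agent.R143.Exitx707 (Nb nb_symm)
open Crest.Agent.R143.Histx389 (DecF Coins)
open Crest.Agent.R143.RevCx389 (Rg Xs Fs Cw h0_xs xs_far Meet)
open Crest.Agent.R143.Chordx355 Crest.Agent.R143.ChordCx357 Crest.Agent.R143.Chord2x355
  Crest.Agent.R143.H2x355 Crest.Agent.R143.Meetx707 Crest.Agent.R143.Meet2x707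
open Crest.Agent.R143.Coarsex166 Crest.Agent.R143.Giantx46 Crest.Agent.R143.Resax778
open Crest.Agent.R143.Strandx535 (Sd fc)
open Crest.Agent.R143.RevPx352 Crest.Agent.R143.RevQx352
open Crest.Agent.R143.Budx432 (Rim)
open Crest.Agent.R143.Relx352 Crest.Agent.R143.Rel3x126 Crest.Agent.R143.Rel4x126
  Crest.Agent.R143.Rel6x126

variable {S : Finset ℂ} {C : Type} {M : CMap (D0 S) C} {σ : ℂ → C} {hS : GP (S : Set ℂ)}

/-! ### the tube event for a colouring of the cells -/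

/-- the black sites of `V` -/
def bs (V : Finset ℂ) (σ : ℂ → C) (ψ : C → ZMod 2) : Finset ℂ := V.filter fun s => ψ (σ s) = 1

/-- the tube event for a colouring of the cells -/
def TC (S V : Finset ℂ) (σ : ℂ → C) (z1 : ℂ) (r1 : ℝ) (q : Rect) (ψ : C → ZMod 2) : Prop :=
  TW S V z1 r1 q (bs V σ ψ)

variable {V : Finset ℂ} {z1 z2 : ℂ} {r1 r2 : ℝ} {q : Rect} {G : Rg (D0 S) C} {Rt : Set C}
  {d : D0 S}

theorem bs_white {ψ : C → ZMod 2} {s : ℂ} (hs : s ∈ V) (h : s ∉ bs V σ ψ) : ψ (σ s) = 0 := by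
  have z : ∀ a : ZMod 2, a ≠ 1 → a = 0 := by decide
  refine z _ fun h1 => h ?_
  unfold bs
  exact Finset.mem_filter.2 ⟨hs, h1⟩

/-- for the colourings of a family which is free on `V` the event is `TW` -/
theorem tc_fre {χ : Finset ℂ → C → ZMod 2} (F : Fre S V σ χ) {b : Finset ℂ} :
    TC S V σ z1 r1 q (χ b) ↔ TW S V z1 r1 q b := by
  unfold TC
  rw [← tw_inter (b := b)]
  have : bs V σ (χ b) = b ∩ V := by
    ext s
    unfold bs
    rw [Finset.mem_filter, Finset.mem_inter]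
    constructor
    · rintro ⟨h1, h2⟩
      rw [F.col b s h1] at h2
      refine ⟨?_, h1⟩
      by_contra h
      rw [if_neg h] at h2
      exact absurd h2 (by decide)
    · rintro ⟨h1, h2⟩
      exact ⟨h2, by rw [F.col b s h2, if_pos h1]⟩
  rw [this]

/-- the tube event over the colourings of the cells -/
theorem pr_cells [Fintype C] (H : Pl hS M σ) (hV : V ⊆ S) (hVi : ∀ s ∈ V, ¬ OnHull S s) :
    pr (Finset.univ : Finset C) (fun b => TC S V σ z1 r1 q (ind b)) =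
      pr V (TW S V z1 r1 q) := by
  have hinj : Set.InjOn σ (V : Set ℂ) := fun s hs t ht e =>
    H.inj s t (hV hs) (hV ht) (hVi t ht) e.symm
  have e1 : pr (Finset.univ : Finset C) (fun b => TC S V σ z1 r1 q (ind b)) =
      pr (V.image σ) (fun b => TC S V σ z1 r1 q (ind b)) := by
    refine pr_dep (Finset.subset_univ _) fun b _ => ?_
    unfold TC
    have : bs V σ (ind (b ∩ V.image σ)) = bs V σ (ind b) := by
      ext s
      unfold bs ind
      rw [Finset.mem_filter, Finset.mem_filter]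
      refine and_congr_right fun hs => ?_
      have h1 : σ s ∈ b ∩ V.image σ ↔ σ s ∈ b := by
        rw [Finset.mem_inter]
        exact ⟨fun h => h.1, fun h => ⟨h, Finset.mem_image_of_mem σ hs⟩⟩
      by_cases h : σ s ∈ b
      · rw [if_pos h, if_pos (h1.2 h)]
      · rw [if_neg h, if_neg fun h' => h (h1.1 h')]
    rw [this]
  have hbs : ∀ b, b ⊆ V → bs V σ (ind (b.image σ)) = b := by
    intro b hb
    ext s
    unfold bs ind
    rw [Finset.mem_filter]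
    constructor
    · rintro ⟨h1, h2⟩
      by_cases h : σ s ∈ b.image σ
      · obtain ⟨t, ht, e⟩ := Finset.mem_image.1 h
        rwa [← hinj (Finset.mem_coe.2 (hb ht)) (Finset.mem_coe.2 h1) e]
      · rw [if_neg h] at h2
        exact absurd h2 (by decide)
    · intro h
      exact ⟨hb h, if_pos (Finset.mem_image_of_mem σ h)⟩
  rw [e1]
  unfold pr nb
  rw [Finset.card_image_of_injOn hinj]
  congr 2
  symm
  refine Finset.card_bij (fun b _ => b.image σ) ?_ ?_ ?_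
  · intro b hb
    rw [mem_fil] at hb ⊢
    refine ⟨Finset.image_subset_image hb.1, ?_⟩
    unfold TC
    rw [hbs b hb.1]
    exact hb.2
  · intro b hb b' hb' e
    rw [mem_fil] at hb hb'
    rw [← hbs b hb.1, ← hbs b' hb'.1, e]
  · intro b hb
    rw [mem_fil] at hb
    refine ⟨bs V σ (ind b), ?_, ?_⟩
    · rw [mem_fil]
      exact ⟨Finset.filter_subset _ _, hb.2⟩
    · ext c
      rw [Finset.mem_image]
      constructor
      · rintro ⟨s, hs, rfl⟩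
        unfold bs ind at hs
        obtain ⟨-, h2⟩ := Finset.mem_filter.1 hs
        by_contra h
        rw [if_neg h] at h2
        exact absurd h2 (by decide)
      · intro hc
        obtain ⟨s, hs, rfl⟩ := Finset.mem_image.1 (hb.1 hc)
        refine ⟨s, ?_, rfl⟩
        unfold bs ind
        exact Finset.mem_filter.2 ⟨hs, if_pos hc⟩

/-! ### the location statement -/

variable {α : Type} {χ : Finset α → C → ZMod 2} {b b' : Finset α}

/-- **the location statement of one window**, any family of colourings -/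
theorem meet_tc (H : Pl hS M σ) (h3 : 3 ≤ S.card) (h0 : ∀ s, OnHull S s → σ s = G.h0)
    (hV : V ⊆ S) (hG : Geo S V σ G z1 z2 r1 r2 q)
    (hVi : ∀ s ∈ V, ¬ OnHull S s) (hT : TC S V σ z1 r1 q (χ b')) {k : D0 S} {n : ℕ}
    (hk : cfg M (χ b) (M.rho k) = 1) (hst : 2 * r1 ≤ sup (ls (M.rho k) - z1))
    (hd : ∃ u, u ≤ n ∧ lc M (cfg M (χ b)) (M.rho k) u ∈ core S σ z1 r1) :
    Meet M G χ b b' k n := by
  set x := cfg M (χ b) with hx
  have hC : IsC (cm0 hS) ∅ x := H.isC _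
  obtain ⟨u, hu, hu'⟩ := hd
  have hu2 : sup (ls (P (cm0 hS) x (M.rho k) u) - z1) ≤ r1 := by
    have h4 := cel_dart (A := fun s => sup (s - z1) ≤ r1) H hu'
    rw [H.P_eq] at h4
    exact h4
  obtain ⟨w, m, hw0, hw1, hw2, hw3, j, hj, hwj⟩ := tube_meet hS hT
    (fun s h1 h2 h3 => (hG.out s h1 h2 h3).1) hG.inn hC hk hst ⟨u, hu, hu2⟩
  have hwV := hw2 0 (Nat.zero_le _)
  have hfar : σ (w 0) ∈ Xs M G (χ b) :=
    far_xs H h3 h0 hG.far (hV (Finset.mem_sdiff.1 hwV.1).1)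
      (hG.out _ (Finset.mem_sdiff.1 hwV.1).1 hw1 hw0).2
  refine ⟨fun i => σ (w i), m, Or.inl hfar, fun i hi => H.nb (hw3 i hi), ?_, j, hj, Or.inl ?_⟩
  · intro i hi
    right
    obtain ⟨h1, h2⟩ := hw2 i hi
    obtain ⟨h4, h5⟩ := Finset.mem_sdiff.1 h1
    refine ⟨?_, bs_white h4 h5⟩
    rcases h2 with h2 | ⟨-, h6⟩
    · exact hG.td _ h4 h2
    · exact Or.inr (hG.dp ⟨w i, hV h4, hVi _ h4, h6, rfl⟩)
  · show σ (w m) = M.cell (P M x (M.rho k) j)
    rw [hwj, H.cell, H.P_eq]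
    rfl

/-- **hypothesis `hm` of 352's `p2w`** -/
theorem meet_op (H : Pl hS M σ) (h3 : 3 ≤ S.card) (h0 : ∀ s, OnHull S s → σ s = G.h0)
    (hV : V ⊆ S) (hVi : ∀ s ∈ V, ¬ OnHull S s) (hG : Geo S V σ G z1 z2 r1 r2 q)
    (hO : OwP M G Rt d (χ b)) (hT : TC S V σ z1 r1 q (χ b')) {k : D0 S} {n : ℕ}
    (hc : Cd M (cfg M (χ b)) (pP M G Rt d (χ b)) (lP M G Rt d (χ b)) (RvP M G Rt d (χ b)) k n)
    (hg : gdG M (core S σ z1 r1) (cfg M (χ b)) (pP M G Rt d (χ b)) (lP M G Rt d (χ b)) k n) :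
    Meet M G χ b b' k n := by
  refine meet_tc H h3 h0 hV hG hVi hT hc.gp.2 ?_ hg.2.2
  by_contra hlt
  push Not at hlt
  obtain ⟨a, ha, e⟩ := hc.c0
  have e' : M.cell (P M (cfg M (χ b)) (pP M G Rt d (χ b)) a) = M.cell (M.rho k) := e
  have h1 : M.cell (M.rho k) ∉ G.Dp := by
    have h2 := (hO.sd _ (hO.mem ha).1).2
    rw [e'] at h2
    exact h2
  have h2 : M.cell (M.rho k) ∉ Xs M G (χ b) := by
    have h2 := hO.lx a ha
    rw [e'] at h2
    exact h2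
  have h5 : ¬ OnHull S (ls (M.rho k)) := fun h => h2 (by
    rw [H.cell]
    rw [show σ (M.rho k).1.1 = G.h0 from h0 _ h]
    exact h0_xs)
  exact h1 (hG.dp ⟨ls (M.rho k), ls_mem _, h5, hlt, by rw [H.cell]; rfl⟩)

/-! ### the hypotheses of `one_d` -/

section full

variable [Fintype C] {Rt' : Set C}

/-- the coin of a cell -/
def sg (c : C) : Finset C := {c}

theorem sg_dis (c c' y : C) (h : y ∈ sg c) (h' : y ∈ sg c') : c = c' := by
  unfold sg at h h'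
  rw [Finset.mem_singleton] at h h'
  exact h.symm.trans h'

theorem coins_sg : Coins (Finset.univ : Finset C) ind sg := coins_ind

/-- hypothesis `E` -/
theorem exU {g : (C → ZMod 2) → ℝ} (g0 : ∀ σ, 0 ≤ g σ) (g1 : ∀ σ, g σ ≤ 1)
    (ho : ∀ ψ, g ψ ≠ 0 → OwP M G Rt d ψ) :
    Ex M (Finset.univ : Finset C) ind sg (RP M G Rt d Finset.univ ind sg)
      (fun b => pP M G Rt d (ind b)) (fun b => lP M G Rt d (ind b))
      (fun b => RvP M G Rt d (ind b)) (fun b => wt (OP M G Rt d) g (ind b)) :=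
  exP coins_sg (fun _ => Finset.subset_univ _) g0 g1 (fun _ _ => rfl) fun σ h => (ho σ h).gd

/-- hypothesis `hGd` -/
theorem gdU {g : (C → ZMod 2) → ℝ} {Co : Set C} (g0 : ∀ σ, 0 ≤ g σ) (g1 : ∀ σ, g σ ≤ 1)
    (ho : ∀ ψ, g ψ ≠ 0 → OwP M G Rt d ψ) :
    GDec M (Finset.univ : Finset C) ind sg (RP M G Rt d Finset.univ ind sg)
      (fun b => pP M G Rt d (ind b)) (fun b => lP M G Rt d (ind b))
      (fun b => RvP M G Rt d (ind b))
      (fun b k n => gdp M (pP M G Rt d (ind b)) (lP M G Rt d (ind b)) Co (ind b) k n) :=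
  gdG_dec (exU g0 g1 ho)

theorem ow_wt {g : (C → ZMod 2) → ℝ} (ho : ∀ ψ, g ψ ≠ 0 → OwP M G Rt d ψ) {ψ : C → ZMod 2}
    (h : wt (OP M G Rt d) g ψ ≠ 0) : OwP M G Rt d ψ := by
  obtain ⟨τ, h1, h2⟩ := wt_rep h
  refine (ho τ h1).agree fun c hc => ?_
  rw [op_stop ψ τ h2] at hc
  exact (h2 c hc).symm

/-- **hypothesis `hTb`** of `xp_h2` / `one_d` -/
theorem hTb_op (H : Pl hS M σ) (h3 : 3 ≤ S.card) (h0 : ∀ s, OnHull S s → σ s = G.h0)
    (hV : V ⊆ S) (hVi : ∀ s ∈ V, ¬ OnHull S s) (hG : Geo S V σ G z1 z2 r1 r2 q)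
    (hTh : ∀ c, c ∈ G.Dw → c ∉ G.Th) {g : (C → ZMod 2) → ℝ} (g0 : ∀ σ, 0 ≤ g σ)
    (g1 : ∀ σ, g σ ≤ 1) (ho : ∀ ψ, g ψ ≠ 0 → OwP M G Rt d ψ) (i : D0 S × ℕ) (b b' : Finset C)
    (hw : wt (OP M G Rt d) g (ind b) ≠ 0)
    (hc : Cd M (cfg M (ind b)) (pP M G Rt d (ind b)) (lP M G Rt d (ind b))
      (RvP M G Rt d (ind b)) i.1 i.2)
    (hg : gdp M (pP M G Rt d (ind b)) (lP M G Rt d (ind b)) (core S σ z1 r1) (ind b) i.1 i.2)
    (hT : TC S V σ z1 r1 q (ind b')) :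
    Frame11x395.Con M (cfg M (ind (b' \ R2 M ind sg (RP M G Rt d Finset.univ ind sg)
          (fun b => pP M G Rt d (ind b)) (fun b => lP M G Rt d (ind b)) i.1 b ∪
          b ∩ R2 M ind sg (RP M G Rt d Finset.univ ind sg)
          (fun b => pP M G Rt d (ind b)) (fun b => lP M G Rt d (ind b)) i.1 b)))
        (M.cell (M.rho (pP M G Rt d (ind b)))) (M.cell (M.rho (M.rho i.1))) :=
  con_glueP coins_sg (fun _ => Finset.subset_univ _) sg_dis hTh (fun _ hd => H.gen h0 hd)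
    (exU g0 g1 ho) (Finset.subset_univ _) (Finset.subset_univ _) (ow_wt ho hw) hc hg
    (meet_op H h3 h0 hV hVi hG (ow_wt ho hw) hT hc hg) rfl

variable {ι : Type} [Fintype ι] {Rr : ι → Set C} {dd : ι → D0 S} {T : Finset C}
  {g go : (C → ZMod 2) → ℝ}

/-- **hypothesis `hB`** of `one_d` -/
theorem frU (St : StP G Rt Rr T) (g0 : ∀ σ, 0 ≤ g σ) (hgo : ∀ σ, g σ ≤ go σ)
    (hgT : ∀ σ τ, (∀ s, s ∉ T → τ s = σ s) → go τ = go σ)
    (hg : ∀ σ, g σ ≠ 0 → RgP M G Rt d Rr dd T σ)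
    {z : ℂ} (z3 : z ^ 3 = 1) (z1 : z ≠ 1) (zc : (starRingEnd ℂ) z = z ^ 2)
    {φ : D0 S → ℂ} (hφ : Spin M z φ) (hQ : ∀ i k, fc M (Rr i) k → φ k = 0) :
    ∑ ν, wt (OP M G Rt d) g ν * ∑ β ∈ onL M (cfg M ν) (pP M G Rt d ν), ‖∑ h ∈ β, φ h‖ ^ 2 ≤
      (2 : ℝ) ^ (2 * Fintype.card ι + 1) / 8 * (∑ k, ‖φ k‖ ^ 2) * ∑ σ, go σ := by
  have hmix : ∀ σ τ, g σ ≠ 0 → OwP M G Rt d (mix (OP M G Rt d) σ τ) ∧
      Xs M G (mix (OP M G Rt d) σ τ) = Xs M G σ ∧
      Ss M Rt d (mix (OP M G Rt d) σ τ) = Ss M Rt d σ := by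
    intro σ τ h
    have h1 : ∀ c ∈ OP M G Rt d σ, mix (OP M G Rt d) σ τ c = σ c := fun c hc => mix_on hc
    refine ⟨(hg σ h).ow.agree h1, (ox_agree (op_x h1)).1, ?_⟩
    obtain ⟨e, n, i, j, A⟩ := (hg σ h).ow.gd
    exact (A.arc.agree (op_s h1)).2.2
  refine Rel5x352.arcsW (gia (dd := dd) St) op_stop g0 hgo hgT
    (fun σ h => ⟨(hg σ h).arc, (hg σ h).ow.x1⟩) ?_ ?_ z3 z1 zc hφ hQ ?_ ?_
  · intro σ h c hc
    rcases Finset.mem_union.1 hc with h1 | h1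
    · exact Finset.mem_union_left _ (mem_ox.2 (Or.inl (mem_fL.1 h1)))
    · obtain ⟨i, hi⟩ := (ua_eq (hg σ h).arc).1 h1
      obtain ⟨e, n, i', j', A⟩ := (hg σ h).ow.gd
      exact Finset.mem_union_right _ (sd_mono (St.sub i) A.arc.occ ((hg σ h).str i) hi)
  · intro σ h c hc
    obtain ⟨h1, h2⟩ := Finset.mem_sdiff.1 hc
    rcases Finset.mem_union.1 h1 with h3 | h3
    · rcases mem_ox.1 h3 with h4 | h4
      · exact absurd (Finset.mem_union_left _ (mem_fL.2 h4)) h2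
      · exact St.dw c h4.1
    · rcases (hg σ h).cov c h3 with h4 | h4
      · exact absurd (Finset.mem_union_right _ ((ua_eq (hg σ h).arc).2 h4)) h2
      · exact h4
  · intro σ τ h
    obtain ⟨h1, h2, -⟩ := hmix σ τ h
    have h3 := h1.gd.choose_spec.choose_spec.choose_spec.choose_spec.oa.occ
    refine ⟨h3, h1.bl, fun h4 => ?_⟩
    apply h1.lx 0 h1.pos
    rw [h2]
    exact mem_fX.1 h4
  · intro σ τ h i
    obtain ⟨h1, -, h3⟩ := hmix σ τ h
    have hA := arc_eA ((hg σ h).arc i)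
    apply loop_of h1
    rw [h3]
    obtain ⟨e, n, i', j', A⟩ := (hg σ h).ow.gd
    exact Strandx535.str_trans (cfg_isC σ) A.arc.occ ((hg σ h).str i) (str_mono (St.sub i) hA.str)

variable {C' : Type} {O : (C → ZMod 2) → Finset C} {π : (C → ZMod 2) → C → C'}
  {o : (C → ZMod 2) → C'} {p₁ : (C → ZMod 2) → D0 S} {l₁ : (C → ZMod 2) → ℕ}
  {Rv₁ : (C → ZMod 2) → Set C}

/-- **one pair of kept darts** : REL1, tube, frame with the outside and the arcs as giants -/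
theorem one_op (H : Pl hS M σ) (h3 : 3 ≤ S.card) (h0 : ∀ s, OnHull S s → σ s = G.h0)
    (hV : V ⊆ S) (hVi : ∀ s ∈ V, ¬ OnHull S s) (hG : Geo S V σ G z1 z2 r1 r2 q)
    (St : StP G Rt Rr T) (g0 : ∀ σ, 0 ≤ g σ) (g1 : ∀ σ, g σ ≤ 1) (hgo : ∀ σ, g σ ≤ go σ)
    (hgT : ∀ σ τ, (∀ s, s ∉ T → τ s = σ s) → go τ = go σ)
    (hg : ∀ σ, g σ ≠ 0 → RgP M G Rt d Rr dd T σ)
    {z : ℂ} (z3 : z ^ 3 = 1) (hz1 : z ≠ 1) (zc : (starRingEnd ℂ) z = z ^ 2)
    {φ : D0 S → ℂ} (hφ : Spin M z φ) (hQ : ∀ i k, fc M (Rr i) k → φ k = 0)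
    (hsub : ∀ σ, g σ ≠ 0 → OP M G Rt d σ ⊆ O σ)
    (hO : ∀ σ τ, g σ ≠ 0 → ∀ c ∈ O σ, π (mix O σ τ) c = o (mix O σ τ))
    (hrim : ∀ σ τ, g σ ≠ 0 → Rim M (π (mix O σ τ)) (o (mix O σ τ)) (mix O σ τ))
    (hp : ∀ σ τ, g σ ≠ 0 → pP M G Rt d (mix (OP M G Rt d) σ τ) = p₁ (mix O σ τ))
    (hl : ∀ σ τ, g σ ≠ 0 → lP M G Rt d (mix (OP M G Rt d) σ τ) = l₁ (mix O σ τ))
    (hA : ∀ σ τ, g σ ≠ 0 → Rel4x126.Arc M (mix O σ τ) (mix (OP M G Rt d) σ τ) (p₁ (mix O σ τ))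
      (l₁ (mix O σ τ)))
    (hK : ∀ σ τ, g σ ≠ 0 → ∀ c ∈ Kc M (cfg M (mix O σ τ)) (p₁ (mix O σ τ)) (l₁ (mix O σ τ)),
      c ∈ OP M G Rt d σ)
    (hC : ∀ σ τ, g σ ≠ 0 → ∀ c ∈ RvP M G Rt d (mix (OP M G Rt d) σ τ),
      c ∈ O σ ∨ c ∈ Rv₁ (mix O σ τ))
    (I : Finset (D0 S × ℕ)) {c : ℝ} (hc0 : 0 ≤ c) (hc : c ≤ pr V (TW S V z1 r1 q)) :
    c * ∑ τ₁, ∑ τ, g τ₁ * XGp M (p₁ (mix O τ₁ τ)) (l₁ (mix O τ₁ τ)) (Rv₁ (mix O τ₁ τ))
        (core S σ z1 r1) I (π (mix O τ₁ τ)) (o (mix O τ₁ τ)) φ (mix O τ₁ τ) ≤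
      (2 : ℝ) ^ Fintype.card C * ((2 : ℝ) ^ (2 * Fintype.card ι + 1) / 8 *
        (∑ k, ‖φ k‖ ^ 2) * ∑ τ, go τ) :=
  one_d (K₀ := sg) (R1 := RP M G Rt d Finset.univ ind sg)
    (Tb := fun _ b' => TC S V σ z1 r1 q (ind b')) op_stop g0 hsub hO hrim hp hl hA hK hC
    (exU g0 g1 fun σ h => (hg σ h).ow) (gdU g0 g1 fun σ h => (hg σ h).ow) hc0
    (fun _ _ => hc.trans (pr_cells H hV hVi).ge)
    (fun i _ b b' => hTb_op H h3 h0 hV hVi hG St.th g0 g1 (fun σ h => (hg σ h).ow) i b b')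
    (frU St g0 hgo hgT hg z3 hz1 zc hφ hQ)

end full

end Crest.Agent.R143.TbPx707
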