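import Crest.Agent.R158.Tg1_331
import Crest.Agent.R158.SpD_331

/-!
# Row 143 (S0194), block D, TENT : interface (helper359)

Grid cells `V = ℤ × ℤ` (R158, Sp896), `Cyc F L v` : counterclockwise boundary walk of `F`.

* `ref h F`, `vref h v`, `cenc h q` : refinement of the mesh by `2 h + 1`
* `CL h U` : centre line of the cell path `U`
* `Cfg F L v m c M n U` : configuration with `n ≤ 4` tentacles `U 0, …, U (n-1)`, 4 marks
* `body F U n` : cells of `F` and of the tentacles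
-/

set_option autoImplicit false

namespace Crest.Agent.R143.Tentx359

open Crest.Agent.R158.Sp896

/-- rotation by a quarter turn, counterclockwise -/
def rot (d : V) : V := (-d.2, d.1)

/-- directions of the tentacles: east, north, west, south -/
def dir (i : ℕ) : V :=
  if i = 0 then (1, 0) else if i = 1 then (0, 1) else if i = 2 then (-1, 0) else (0, -1)

/-- refinement of a set of cells by `2 h + 1` -/
def ref (h : ℕ) (F : Set V) : Set V := {f | (f.1 / (2 * h + 1), f.2 / (2 * h + 1)) ∈ F}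

/-- centre of the refined cell -/
def cenc (h : ℕ) (q : V) : V := ((2 * h + 1) * q.1 + h, (2 * h + 1) * q.2 + h)

/-- refinement of the boundary walk -/
def vref (h : ℕ) (v : ℕ → V) (i : ℕ) : V :=
  ((2 * h + 1) * (v (i / (2 * h + 1))).1 +
      (i % (2 * h + 1) : ℕ) * ((v (i / (2 * h + 1) + 1)).1 - (v (i / (2 * h + 1))).1),
   (2 * h + 1) * (v (i / (2 * h + 1))).2 +
      (i % (2 * h + 1) : ℕ) * ((v (i / (2 * h + 1) + 1)).2 - (v (i / (2 * h + 1))).2))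

/-- centre line of the cell path `U` -/
def CL (h : ℕ) (U : ℕ → V) (n : ℕ) : V :=
  ((cenc h (U (n / (2 * h + 1)))).1 +
      (n % (2 * h + 1) : ℕ) * ((U (n / (2 * h + 1) + 1)).1 - (U (n / (2 * h + 1))).1),
   (cenc h (U (n / (2 * h + 1)))).2 +
      (n % (2 * h + 1) : ℕ) * ((U (n / (2 * h + 1) + 1)).2 - (U (n / (2 * h + 1))).2))

/-- outer (right) cell of the `i`-th boundary edge -/
def rcv (v : ℕ → V) (i : ℕ) : V := rc (v i) (v (i + 1))

/-- inner (left) cell of the `i`-th boundary edge -/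
def lcv (v : ℕ → V) (i : ℕ) : V := lc (v i) (v (i + 1))

/-- configuration with `n` tentacles: `F` finite, simply connected, boundary walk `v`
(counterclockwise, period `L`), marks `m 0 < m 1 < m 2 < m 3`, centre cell `c`, box radius `M` -/
structure Cfg (F : Set V) (L : ℕ) (v : ℕ → V) (m : ℕ → ℕ) (c : V) (M : ℤ) (n : ℕ)
    (U : ℕ → ℕ → V) : Prop where
  fin : F.Finite
  con : ∀ q ∈ F, ∀ q' ∈ F, Con F q q'
  con' : ∀ q ∉ F, ∀ q' ∉ F, Con Fᶜ q q'
  cyc : Cyc F L v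
  m01 : m 0 < m 1
  m12 : m 1 < m 2
  m23 : m 2 < m 3
  m3L : m 3 < L
  box : ∀ q ∈ F, |q.1 - c.1| < M ∧ |q.2 - c.2| < M
  n4 : n ≤ 4
  start0 : ∀ i < n, U i 0 = lcv v (m i)
  start1 : ∀ i < n, U i 1 = rcv v (m i)
  out : ∀ i < n, ∀ j, U i (j + 1) ∉ F
  step : ∀ i < n, ∀ j, Adj (U i j) (U i (j + 1))
  inj : ∀ i < n, ∀ i' < n, ∀ j j', U i (j + 1) = U i' (j' + 1) → i = i' ∧ j = j'
  ray : ∀ i < n, ∃ j0, 0 < j0 ∧
    (∀ j ≤ j0, |(U i j).1 - c.1| ≤ M ∧ |(U i j).2 - c.2| ≤ M) ∧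
    ∀ j : ℕ, U i (j0 + j) = (c.1 + (M + j) * (dir i).1, c.2 + (M + j) * (dir i).2)

/-- cells of the body -/
def body (F : Set V) (U : ℕ → ℕ → V) (n : ℕ) : Set V := F ∪ {q | ∃ i < n, ∃ j, q = U i (j + 1)}

/-- refined tentacles -/
def Uref (h : ℕ) (U : ℕ → ℕ → V) (i j : ℕ) : V := CL h (U i) (j + h)

/-- refined marks -/
def mref (h : ℕ) (m : ℕ → ℕ) (i : ℕ) : ℕ := (2 * h + 1) * m i + h

/-- **951 (A1)** refinement of the boundary walk -/
def RefCyc : Prop := ∀ (h : ℕ) (F : Set V) (L : ℕ) (v : ℕ → V), Cyc F L v →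
  Cyc (ref h F) ((2 * h + 1) * L) (vref h v)

/-- **951 (A2)** -/
def RefCon : Prop := ∀ (h : ℕ) (F : Set V), (∀ q ∈ F, ∀ q' ∈ F, Con F q q') →
  ∀ q ∈ ref h F, ∀ q' ∈ ref h F, Con (ref h F) q q'

/-- **359 (B1)** refinement of a configuration -/
def RefCfg : Prop := ∀ (h : ℕ) (F : Set V) (L : ℕ) (v : ℕ → V) (m : ℕ → ℕ) (c : V) (M : ℤ) (n : ℕ)
  (U : ℕ → ℕ → V), Cfg F L v m c M n U →
  Cfg (ref h F) ((2 * h + 1) * L) (vref h v) (mref h m) (cenc h c) ((2 * h + 1) * M) n (Uref h U)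

/-- **359 (B2)** clean refinement: a fine tentacle cell is 8-adjacent only to its neighbours on the
path -/
def Clean : Prop := ∀ (h : ℕ), 1 ≤ h → ∀ (F : Set V) (L : ℕ) (v : ℕ → V) (m : ℕ → ℕ) (c : V) (M : ℤ)
  (n : ℕ) (U : ℕ → ℕ → V), Cfg F L v m c M n U → ∀ i < n, ∀ j : ℕ,
  (∀ i' < n, ∀ j' : ℕ, |(Uref h U i (j + 1)).1 - (Uref h U i' (j' + 1)).1| ≤ 1 →
    |(Uref h U i (j + 1)).2 - (Uref h U i' (j' + 1)).2| ≤ 1 → i = i' ∧ j ≤ j' + 2 ∧ j' ≤ j + 2) ∧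
  (∀ f ∈ ref h F, |(Uref h U i (j + 1)).1 - f.1| ≤ 1 → |(Uref h U i (j + 1)).2 - f.2| ≤ 1 → j = 0)

/-- **359 (B3)** collar of `F` between two fine boundary edges -/
def CollarArc : Prop := ∀ (h : ℕ), 1 ≤ h → ∀ (F : Set V) (L : ℕ) (v : ℕ → V) (m : ℕ → ℕ) (c : V)
  (M : ℤ) (n : ℕ) (U : ℕ → ℕ → V), Cfg F L v m c M n U → ∀ a b : ℕ, a ≤ b →
  (∀ x, a ≤ x → x ≤ b → rcv (vref h v) x ∉ body (ref h F) (Uref h U) n) →
  Con (body (ref h F) (Uref h U) n)ᶜ (rcv (vref h v) a) (rcv (vref h v) b)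

/-- **359 (B4)** the cells to the left and to the right of a fine tentacle (complement cells that
are edge-adjacent to it) are connected to the collar of `F` after / before the mark; `r` : distance
from the centre on the ray, the side cells of the ray are `c + r dir ± rot dir` -/
def CollarTent : Prop := ∀ (h : ℕ), 1 ≤ h → ∀ (F : Set V) (L : ℕ) (v : ℕ → V) (m : ℕ → ℕ) (c : V)
  (M : ℤ) (n : ℕ) (U : ℕ → ℕ → V), Cfg F L v m c M n U → ∀ i < n,
  (∀ r : ℤ, (2 * h + 1) * M < r →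
    Con (body (ref h F) (Uref h U) n)ᶜ (rcv (vref h v) (mref h m i + 1))
      ((cenc h c).1 + r * (dir i).1 + (rot (dir i)).1, (cenc h c).2 + r * (dir i).2 + (rot (dir i)).2)) ∧
  (∀ r : ℤ, (2 * h + 1) * M < r →
    Con (body (ref h F) (Uref h U) n)ᶜ (rcv (vref h v) (mref h m i - 1))
      ((cenc h c).1 + r * (dir i).1 - (rot (dir i)).1, (cenc h c).2 + r * (dir i).2 - (rot (dir i)).2)) ∧
  (∀ j : ℕ, ∀ q : V, Adj (Uref h U i (j + 1)) q → q ∉ body (ref h F) (Uref h U) n →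
    Con (body (ref h F) (Uref h U) n)ᶜ (rcv (vref h v) (mref h m i + 1)) q ∨
    Con (body (ref h F) (Uref h U) n)ᶜ (rcv (vref h v) (mref h m i - 1)) q)

/-- **359 (B5)** every polygon with four marks has a configuration with four tentacles after
refinement by 27 : the tentacles are those of the 27-refined polygon -/
def ExCfg : Prop := ∀ (F : Set V) (L : ℕ) (v : ℕ → V) (m : ℕ → ℕ), F.Finite →
  (∀ q ∈ F, ∀ q' ∈ F, Con F q q') → (∀ q ∉ F, ∀ q' ∉ F, Con Fᶜ q q') → Cyc F L v →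
  m 0 < m 1 → m 1 < m 2 → m 2 < m 3 → m 3 < L → ∃ (c : V) (M : ℤ) (U : ℕ → ℕ → V),
    Cfg (ref 1 (ref 1 (ref 1 F))) (3 * (3 * (3 * L))) (vref 1 (vref 1 (vref 1 v)))
      (mref 1 (mref 1 (mref 1 m))) c M 4 U

end Crest.Agent.R143.Tentx359
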