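import Crest.Agent.R143.Tent0_359

/-!
# Row 143 (S0194), block D, TENT, file 1 (helper359): refinement of configurations

* `CL_add`, `CL_sub` : centre line near the centre of the cell `U a`
* `refCfg` : refinement of a configuration (mod `RefCyc`, `RefCon`)
* `clean_tent`, `clean_F` : cleanness
-/

set_option autoImplicit false

namespace Crest.Agent.R143.Tentx359

open Crest.Agent.R158.Sp896

/-! ### blocks -/

/-- `f` is a subcell of `q` -/
def Blk (h : ℕ) (q f : V) : Prop :=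
  (2 * h + 1) * q.1 ≤ f.1 ∧ f.1 ≤ (2 * h + 1) * q.1 + 2 * h ∧
  (2 * h + 1) * q.2 ≤ f.2 ∧ f.2 ≤ (2 * h + 1) * q.2 + 2 * h

theorem blk_iff {h : ℕ} {q f : V} : Blk h q f ↔ (f.1 / (2 * h + 1), f.2 / (2 * h + 1)) = q := by
  have hk : (0 : ℤ) < 2 * h + 1 := by positivity
  unfold Blk
  rw [Prod.ext_iff]
  simp only
  constructor
  · rintro ⟨h1, h2, h3, h4⟩
    constructor
    · rw [Int.ediv_eq_iff_of_pos hk]; constructor <;> nlinarith
    · rw [Int.ediv_eq_iff_of_pos hk]; constructor <;> nlinarith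
  · rintro ⟨h1, h2⟩
    rw [Int.ediv_eq_iff_of_pos hk] at h1 h2
    obtain ⟨h1, h1'⟩ := h1
    obtain ⟨h2, h2'⟩ := h2
    refine ⟨?_, ?_, ?_, ?_⟩ <;> nlinarith

theorem mem_ref {h : ℕ} {F : Set V} {f : V} : f ∈ ref h F ↔ ∃ q ∈ F, Blk h q f := by
  constructor
  · intro hf
    exact ⟨_, hf, blk_iff.2 rfl⟩
  · rintro ⟨q, hq, hb⟩
    show (f.1 / (2 * h + 1), f.2 / (2 * h + 1)) ∈ F
    rw [blk_iff.1 hb]
    exact hq

theorem blk_mem {h : ℕ} {F : Set V} {q f : V} (hb : Blk h q f) : f ∈ ref h F ↔ q ∈ F := by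
  show (f.1 / (2 * h + 1), f.2 / (2 * h + 1)) ∈ F ↔ q ∈ F
  rw [blk_iff.1 hb]

theorem blk_unique {h : ℕ} {q q' f : V} (h1 : Blk h q f) (h2 : Blk h q' f) : q = q' := by
  rw [blk_iff] at h1 h2
  rw [← h1, ← h2]

theorem ref_compl (h : ℕ) (F : Set V) : ref h Fᶜ = (ref h F)ᶜ := rfl

/-! ### centre lines -/

/-- `CL` at `(2 h + 1) a + s` -/
theorem CL_add {h : ℕ} (U : ℕ → V) (a s : ℕ) (hs : s ≤ h) :
    CL h U ((2 * h + 1) * a + s) =
      ((cenc h (U a)).1 + s * ((U (a + 1)).1 - (U a).1),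
       (cenc h (U a)).2 + s * ((U (a + 1)).2 - (U a).2)) := by
  have e1 : ((2 * h + 1) * a + s) / (2 * h + 1) = a := by
    rw [Nat.mul_add_div (by omega), Nat.div_eq_of_lt (by omega), Nat.add_zero]
  have e2 : ((2 * h + 1) * a + s) % (2 * h + 1) = s := by
    rw [Nat.mul_add_mod, Nat.mod_eq_of_lt (by omega)]
  unfold CL
  rw [e1, e2]

/-- `CL` at `(2 h + 1) a - s` -/
theorem CL_sub {h : ℕ} (U : ℕ → V) (a s : ℕ) (hs : s ≤ h) :
    CL h U ((2 * h + 1) * (a + 1) - s) =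
      ((cenc h (U (a + 1))).1 + s * ((U a).1 - (U (a + 1)).1),
       (cenc h (U (a + 1))).2 + s * ((U a).2 - (U (a + 1)).2)) := by
  rcases Nat.eq_zero_or_pos s with h0 | h0
  · subst h0
    have := CL_add (h := h) U (a + 1) 0 (by omega)
    rw [Nat.add_zero] at this
    rw [Nat.sub_zero, this]
    ext <;> simp
  · have e0 : (2 * h + 1) * (a + 1) - s = (2 * h + 1) * a + (2 * h + 1 - s) := by
      rw [Nat.mul_add, Nat.mul_one]; omega
    have e1 : ((2 * h + 1) * a + (2 * h + 1 - s)) / (2 * h + 1) = a := by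
      rw [Nat.mul_add_div (by omega), Nat.div_eq_of_lt (by omega), Nat.add_zero]
    have e2 : ((2 * h + 1) * a + (2 * h + 1 - s)) % (2 * h + 1) = 2 * h + 1 - s := by
      rw [Nat.mul_add_mod, Nat.mod_eq_of_lt (by omega)]
    rw [e0]
    unfold CL
    rw [e1, e2]
    have e3 : ((2 * h + 1 - s : ℕ) : ℤ) = 2 * h + 1 - s := by
      rw [Nat.cast_sub (by omega)]; push_cast; ring
    rw [e3]
    unfold cenc
    ext
    · simp only; ring
    · simp only; ring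

/-- every index is near the index of a centre -/
theorem index_cases (h n : ℕ) (hn : h < n) :
    ∃ a s : ℕ, s ≤ h ∧ (n = (2 * h + 1) * (a + 1) + s ∨ (n = (2 * h + 1) * (a + 1) - s ∧ 0 < s)) := by
  have hd := Nat.div_add_mod (n + h) (2 * h + 1)
  have hm := Nat.mod_lt (n + h) (show 0 < 2 * h + 1 by omega)
  have hq : 1 ≤ (n + h) / (2 * h + 1) := by
    rw [Nat.one_le_div_iff (by omega)]; omega
  obtain ⟨a, ha⟩ : ∃ a, (n + h) / (2 * h + 1) = a + 1 := ⟨(n + h) / (2 * h + 1) - 1, by omega⟩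
  rw [ha] at hd
  by_cases ht : h ≤ (n + h) % (2 * h + 1)
  · exact ⟨a, (n + h) % (2 * h + 1) - h, by omega, Or.inl (by omega)⟩
  · refine ⟨a, h - (n + h) % (2 * h + 1), by omega, Or.inr ⟨?_, by omega⟩⟩
    have : (2 * h + 1) * (a + 1) ≥ 2 * h + 1 := Nat.le_mul_of_pos_right _ (by omega)
    omega

/-- point of the arm of the cell `q` towards the adjacent cell `w` -/
def arm (h : ℕ) (q w : V) (s : ℕ) : V :=
  ((cenc h q).1 + s * (w.1 - q.1), (cenc h q).2 + s * (w.2 - q.2))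

theorem arm_blk {h : ℕ} {q w : V} (hw : Adj q w) {s : ℕ} (hs : s ≤ h) : Blk h q (arm h q w s) := by
  have hs' : (s : ℤ) ≤ h := by exact_mod_cast hs
  unfold Blk arm cenc
  simp only
  rcases hw with ⟨h1, h2⟩ | ⟨h1, h2⟩ | ⟨h1, h2⟩ | ⟨h1, h2⟩ <;> rw [h1, h2] <;>
    refine ⟨?_, ?_, ?_, ?_⟩ <;> nlinarith

/-- a cell of another block that is 8-adjacent to a cell of an arm -/
theorem arm_adj {h : ℕ} (hh : 1 ≤ h) {q w : V} (hw : Adj q w) {s : ℕ} (hs : s ≤ h) {q' f : V}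
    (hf : Blk h q' f) (hne : q' ≠ q) (h1 : |(arm h q w s).1 - f.1| ≤ 1)
    (h2 : |(arm h q w s).2 - f.2| ≤ 1) :
    q' = w ∧ s = h ∧
      (f.1 - (arm h q w s).1) * (w.1 - q.1) + (f.2 - (arm h q w s).2) * (w.2 - q.2) = 1 := by
  have hs' : (s : ℤ) ≤ h := by exact_mod_cast hs
  have hs0 : (0 : ℤ) ≤ s := by positivity
  have hh' : (1 : ℤ) ≤ h := by exact_mod_cast hh
  rw [abs_le] at h1 h2
  obtain ⟨x, y⟩ := q
  obtain ⟨x', y'⟩ := w
  obtain ⟨f1, f2⟩ := f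
  unfold arm cenc at h1 h2 ⊢
  simp only at h1 h2 ⊢
  have r1 : (2 * (h : ℤ) + 1) * (x + 1) = (2 * h + 1) * x + (2 * h + 1) := by ring
  have r2 : (2 * (h : ℤ) + 1) * (x - 1) = (2 * h + 1) * x - (2 * h + 1) := by ring
  have r3 : (2 * (h : ℤ) + 1) * (y + 1) = (2 * h + 1) * y + (2 * h + 1) := by ring
  have r4 : (2 * (h : ℤ) + 1) * (y - 1) = (2 * h + 1) * y - (2 * h + 1) := by ring
  have hnb : ¬ Blk h (x, y) (f1, f2) := fun hb => hne (blk_unique hf hb)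
  unfold Blk at hnb
  simp only at hnb
  have a0 : x - x = 0 := by ring
  have a1 : x + 1 - x = 1 := by ring
  have a2 : x - 1 - x = -1 := by ring
  have a3 : y - y = 0 := by ring
  have a4 : y + 1 - y = 1 := by ring
  have a5 : y - 1 - y = -1 := by ring
  rcases hw with ⟨e1, e2⟩ | ⟨e1, e2⟩ | ⟨e1, e2⟩ | ⟨e1, e2⟩ <;> simp only at e1 e2 <;>
    simp only [e1, e2] at h1 h2 ⊢
  · rw [a1] at h1 ⊢; rw [a3] at h2 ⊢
    simp only [mul_one, mul_zero, add_zero] at h1 h2 ⊢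
    have hb : Blk h (x + 1, y) (f1, f2) := by
      unfold Blk; simp only; rw [r1]; omega
    exact ⟨blk_unique hf hb, by omega, by omega⟩
  · rw [a2] at h1 ⊢; rw [a3] at h2 ⊢
    simp only [mul_neg, mul_one, mul_zero, add_zero] at h1 h2 ⊢
    have hb : Blk h (x - 1, y) (f1, f2) := by
      unfold Blk; simp only; rw [r2]; omega
    exact ⟨blk_unique hf hb, by omega, by omega⟩
  · rw [a0] at h1 ⊢; rw [a4] at h2 ⊢
    simp only [mul_one, mul_zero, add_zero, zero_add] at h1 h2 ⊢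
    have hb : Blk h (x, y + 1) (f1, f2) := by
      unfold Blk; simp only; rw [r3]; omega
    exact ⟨blk_unique hf hb, by omega, by omega⟩
  · rw [a0] at h1 ⊢; rw [a5] at h2 ⊢
    simp only [mul_neg, mul_one, mul_zero, add_zero, zero_add] at h1 h2 ⊢
    have hb : Blk h (x, y - 1) (f1, f2) := by
      unfold Blk; simp only; rw [r4]; omega
    exact ⟨blk_unique hf hb, by omega, by omega⟩

/-- two cells of the same arm -/
theorem arm_same {h : ℕ} {q w : V} (hw : Adj q w) {s s' : ℕ}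
    (h1 : |(arm h q w s).1 - (arm h q w s').1| ≤ 1)
    (h2 : |(arm h q w s).2 - (arm h q w s').2| ≤ 1) : s ≤ s' + 1 ∧ s' ≤ s + 1 := by
  rw [abs_le] at h1 h2
  unfold arm at h1 h2
  simp only at h1 h2
  rcases hw with ⟨e1, e2⟩ | ⟨e1, e2⟩ | ⟨e1, e2⟩ | ⟨e1, e2⟩ <;> simp only [e1, e2] at h1 h2 <;>
    ring_nf at h1 h2 <;> omega

/-- two cells of different arms of the same cell -/
theorem arm_two {h : ℕ} {q w w' : V} (hw : Adj q w) (hw' : Adj q w') (hne : w ≠ w') {s s' : ℕ}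
    (h1 : |(arm h q w s).1 - (arm h q w' s').1| ≤ 1)
    (h2 : |(arm h q w s).2 - (arm h q w' s').2| ≤ 1) : s + s' ≤ 2 := by
  rw [abs_le] at h1 h2
  unfold arm at h1 h2
  simp only at h1 h2
  have hne' : ¬ (w.1 = w'.1 ∧ w.2 = w'.2) := fun hh => hne (Prod.ext hh.1 hh.2)
  rcases hw with ⟨e1, e2⟩ | ⟨e1, e2⟩ | ⟨e1, e2⟩ | ⟨e1, e2⟩ <;>
    rcases hw' with ⟨e3, e4⟩ | ⟨e3, e4⟩ | ⟨e3, e4⟩ | ⟨e3, e4⟩ <;>
    simp only [e1, e2, e3, e4] at h1 h2 hne' <;> ring_nf at h1 h2 <;>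
    first | omega | simp at hne'

section cfg

variable {F : Set V} {L : ℕ} {v : ℕ → V} {m : ℕ → ℕ} {c : V} {M : ℤ} {n : ℕ} {U : ℕ → ℕ → V}

/-- the fine tentacle cells are the cells of the arms -/
theorem uref_cases (h : ℕ) (U : ℕ → ℕ → V) (i j : ℕ) : ∃ a s : ℕ, s ≤ h ∧
    ((Uref h U i (j + 1) = arm h (U i (a + 1)) (U i (a + 2)) s ∧
        j + 1 + h = (2 * h + 1) * (a + 1) + s) ∨
     (Uref h U i (j + 1) = arm h (U i (a + 1)) (U i a) s ∧
        j + 1 + h + s = (2 * h + 1) * (a + 1) ∧ 0 < s)) := by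
  obtain ⟨a, s, hs, h1 | ⟨h1, h2⟩⟩ := index_cases h (j + 1 + h) (by omega)
  · refine ⟨a, s, hs, Or.inl ⟨?_, h1⟩⟩
    unfold Uref arm
    rw [h1, CL_add _ _ _ hs]
  · refine ⟨a, s, hs, Or.inr ⟨?_, ?_, h2⟩⟩
    · unfold Uref arm
      rw [h1, CL_sub _ _ _ hs]
    · have : (2 * h + 1) * (a + 1) ≥ 2 * h + 1 := Nat.le_mul_of_pos_right _ (by omega)
      omega

theorem arm_plus (h : ℕ) (U : ℕ → ℕ → V) (i a s : ℕ) (hs : s ≤ h) :
    arm h (U i (a + 1)) (U i (a + 2)) s = Uref h U i ((2 * h + 1) * a + (h + s) + 1) := by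
  unfold Uref arm
  have e : (2 * h + 1) * a + (h + s) + 1 + h = (2 * h + 1) * (a + 1) + s := by ring
  rw [e, CL_add _ _ _ hs]

theorem arm_minus (h : ℕ) (U : ℕ → ℕ → V) (i a s : ℕ) (hs : s ≤ h) :
    arm h (U i (a + 1)) (U i a) s = Uref h U i ((2 * h + 1) * a + (h - s) + 1) := by
  unfold Uref arm
  have e : (2 * h + 1) * a + (h - s) + 1 + h = (2 * h + 1) * (a + 1) - s := by
    have : (2 * h + 1) * (a + 1) = (2 * h + 1) * a + (2 * h + 1) := by ring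
    omega
  rw [e, CL_sub _ _ _ hs]

/-- the cells before and after a cell of the path are different -/
theorem Cfg.pn_ne (C : Cfg F L v m c M n U) {i : ℕ} (hi : i < n) (a : ℕ) :
    U i (a + 2) ≠ U i a := by
  intro he
  rcases Nat.eq_zero_or_pos a with h0 | h0
  · subst h0
    have h1 := C.out i hi 1
    rw [he, C.start0 i hi] at h1
    exact h1 (C.cyc.left (m i))
  · obtain ⟨b, rfl⟩ : ∃ b, a = b + 1 := ⟨a - 1, by omega⟩
    have := (C.inj i hi i hi (b + 2) b he).2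
    omega

/-- block of a fine tentacle cell -/
theorem Cfg.uref_blk (C : Cfg F L v m c M n U) {i : ℕ} (hi : i < n) (h j : ℕ) :
    ∃ a w s, s ≤ h ∧ (w = U i (a + 2) ∨ w = U i a) ∧ Adj (U i (a + 1)) w ∧
      Uref h U i (j + 1) = arm h (U i (a + 1)) w s ∧ Blk h (U i (a + 1)) (Uref h U i (j + 1)) := by
  obtain ⟨a, s, hs, ⟨h1, -⟩ | ⟨h1, -⟩⟩ := uref_cases h U i j
  · exact ⟨a, _, s, hs, Or.inl rfl, C.step i hi (a + 1), h1, h1 ▸ arm_blk (C.step i hi (a + 1)) hs⟩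
  · exact ⟨a, _, s, hs, Or.inr rfl, (C.step i hi a).symm, h1,
      h1 ▸ arm_blk (C.step i hi a).symm hs⟩

/-- **cleanness** between tentacles -/
theorem Cfg.clean_tent (C : Cfg F L v m c M n U) {h : ℕ} (hh : 1 ≤ h) {i : ℕ} (hi : i < n) {j : ℕ}
    {i' : ℕ} (hi' : i' < n) {j' : ℕ}
    (h1 : |(Uref h U i (j + 1)).1 - (Uref h U i' (j' + 1)).1| ≤ 1)
    (h2 : |(Uref h U i (j + 1)).2 - (Uref h U i' (j' + 1)).2| ≤ 1) :
    i = i' ∧ j ≤ j' + 2 ∧ j' ≤ j + 2 := by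
  obtain ⟨a, s, hs, hA⟩ := uref_cases h U i j
  obtain ⟨a', s', hs', hA'⟩ := uref_cases h U i' j'
  have hb : Blk h (U i' (a' + 1)) (Uref h U i' (j' + 1)) := by
    rcases hA' with ⟨e, -⟩ | ⟨e, -⟩
    · exact e ▸ arm_blk (C.step i' hi' (a' + 1)) hs'
    · exact e ▸ arm_blk (C.step i' hi' a').symm hs'
  have hb0 : Blk h (U i (a + 1)) (Uref h U i (j + 1)) := by
    rcases hA with ⟨e, -⟩ | ⟨e, -⟩
    · exact e ▸ arm_blk (C.step i hi (a + 1)) hs
    · exact e ▸ arm_blk (C.step i hi a).symm hs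
  have k0 : (2 * h + 1) * (a + 1 + 1) = (2 * h + 1) * (a + 1) + (2 * h + 1) := by ring
  have k1 : (2 * h + 1) * (a' + 1 + 1) = (2 * h + 1) * (a' + 1) + (2 * h + 1) := by ring
  by_cases hq : U i' (a' + 1) = U i (a + 1)
  · -- same block
    obtain ⟨e1, e2⟩ := C.inj i' hi' i hi a' a hq
    subst e1; subst e2
    refine ⟨rfl, ?_⟩
    rcases hA with ⟨e, hn⟩ | ⟨e, hn, hp⟩ <;> rcases hA' with ⟨e', hn'⟩ | ⟨e', hn', hp'⟩ <;>
      rw [e, e'] at h1 h2
    · have := arm_same (C.step _ hi _) h1 h2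
      omega
    · have := arm_two (C.step _ hi _) (C.step _ hi _).symm (C.pn_ne hi _) h1 h2
      omega
    · have := arm_two (C.step _ hi _).symm (C.step _ hi _) (C.pn_ne hi _).symm h1 h2
      omega
    · have := arm_same (C.step _ hi _).symm h1 h2
      omega
  · have h1' : |(Uref h U i' (j' + 1)).1 - (Uref h U i (j + 1)).1| ≤ 1 := by
      rw [abs_sub_comm]; exact h1
    have h2' : |(Uref h U i' (j' + 1)).2 - (Uref h U i (j + 1)).2| ≤ 1 := by
      rw [abs_sub_comm]; exact h2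
    rcases hA with ⟨e, hn⟩ | ⟨e, hn, hp⟩
    · rw [e] at h1 h2
      obtain ⟨f1, f2, -⟩ := arm_adj hh (C.step i hi (a + 1)) hs hb hq h1 h2
      obtain ⟨e1, e2⟩ := C.inj i' hi' i hi a' (a + 1) f1
      subst e1; subst e2
      refine ⟨rfl, ?_⟩
      rcases hA' with ⟨e', hn'⟩ | ⟨e', hn', hp'⟩ <;> rw [e'] at h1' h2'
      · obtain ⟨g1, g2, -⟩ := arm_adj hh (C.step _ hi _) hs' hb0 (Ne.symm hq) h1' h2'
        have := (C.inj _ hi _ hi _ _ g1).2
        omega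
      · obtain ⟨g1, g2, -⟩ := arm_adj hh (C.step _ hi _).symm hs' hb0 (Ne.symm hq) h1' h2'
        omega
    · rw [e] at h1 h2
      obtain ⟨f1, f2, -⟩ := arm_adj hh (C.step i hi a).symm hs hb hq h1 h2
      rcases Nat.eq_zero_or_pos a with h0 | h0
      · subst h0
        exfalso
        rw [C.start0 i hi] at f1
        exact C.out i' hi' a' (f1 ▸ C.cyc.left (m i))
      · obtain ⟨b, rfl⟩ : ∃ b, a = b + 1 := ⟨a - 1, by omega⟩
        obtain ⟨e1, e2⟩ := C.inj i' hi' i hi a' b f1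
        subst e1; subst e2
        refine ⟨rfl, ?_⟩
        rcases hA' with ⟨e', hn'⟩ | ⟨e', hn', hp'⟩ <;> rw [e'] at h1' h2'
        · obtain ⟨g1, g2, -⟩ := arm_adj hh (C.step _ hi _) hs' hb0 (Ne.symm hq) h1' h2'
          omega
        · obtain ⟨g1, g2, -⟩ := arm_adj hh (C.step _ hi _).symm hs' hb0 (Ne.symm hq) h1' h2'
          rcases Nat.eq_zero_or_pos a' with h0' | h0'
          · subst h0'
            exfalso
            rw [C.start0 _ hi] at g1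
            refine C.out _ hi' 1 ?_
            rw [g1]
            exact C.cyc.left (m i')
          · obtain ⟨b', rfl⟩ : ∃ b', a' = b' + 1 := ⟨a' - 1, by omega⟩
            have := (C.inj _ hi _ hi _ _ g1).2
            omega

/-- **cleanness** between tentacles and `F` -/
theorem Cfg.clean_F (C : Cfg F L v m c M n U) {h : ℕ} (hh : 1 ≤ h) {i : ℕ} (hi : i < n) {j : ℕ}
    {f : V} (hf : f ∈ ref h F) (h1 : |(Uref h U i (j + 1)).1 - f.1| ≤ 1)
    (h2 : |(Uref h U i (j + 1)).2 - f.2| ≤ 1) :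
    j = 0 ∧ (f.1 - (Uref h U i 1).1) * ((U i 0).1 - (U i 1).1) +
      (f.2 - (Uref h U i 1).2) * ((U i 0).2 - (U i 1).2) = 1 := by
  obtain ⟨q, hq, hbq⟩ := mem_ref.1 hf
  obtain ⟨a, s, hs, ⟨e, hn⟩ | ⟨e, hn, hp⟩⟩ := uref_cases h U i j
  · exfalso
    rw [e] at h1 h2
    have hne : q ≠ U i (a + 1) := fun he => C.out i hi a (he ▸ hq)
    obtain ⟨f1, -, -⟩ := arm_adj hh (C.step i hi (a + 1)) hs hbq hne h1 h2
    exact C.out i hi (a + 1) (f1 ▸ hq)
  · have e0 := e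
    rw [e] at h1 h2
    have hne : q ≠ U i (a + 1) := fun he => C.out i hi a (he ▸ hq)
    obtain ⟨f1, f2, f3⟩ := arm_adj hh (C.step i hi a).symm hs hbq hne h1 h2
    rcases Nat.eq_zero_or_pos a with h0 | h0
    · subst h0
      have hj : j = 0 := by rw [f2] at hn; omega
      subst hj
      refine ⟨rfl, ?_⟩
      rw [e0]
      exact f3
    · obtain ⟨b, rfl⟩ : ∃ b, a = b + 1 := ⟨a - 1, by omega⟩
      exact absurd (f1 ▸ hq) (C.out i hi b)

end cfg

end Crest.Agent.R143.Tentx359
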