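import Crest.Agent.R143.Tent1_359

/-!
# Row 143 (S0194), block D, TENT, file 2 (helper359): refinement of configurations

* `vref_at`, `lcv_vref`, `rcv_vref` : the fine boundary edges
* `refCfg` : refinement of a configuration (mod `RefCyc`, `RefCon`)
-/

set_option autoImplicit false

namespace Crest.Agent.R143.Tentx359

open Crest.Agent.R158.Sp896

theorem vref_at {h : ℕ} (v : ℕ → V) (a s : ℕ) (hs : s ≤ 2 * h + 1) :
    vref h v ((2 * h + 1) * a + s) =
      ((2 * h + 1) * (v a).1 + s * ((v (a + 1)).1 - (v a).1),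
       (2 * h + 1) * (v a).2 + s * ((v (a + 1)).2 - (v a).2)) := by
  rcases Nat.lt_or_ge s (2 * h + 1) with h0 | h0
  · have e1 : ((2 * h + 1) * a + s) / (2 * h + 1) = a := by
      rw [Nat.mul_add_div (by omega), Nat.div_eq_of_lt h0, Nat.add_zero]
    have e2 : ((2 * h + 1) * a + s) % (2 * h + 1) = s := by
      rw [Nat.mul_add_mod, Nat.mod_eq_of_lt h0]
    unfold vref
    rw [e1, e2]
  · have h1 : s = 2 * h + 1 := by omega
    subst h1
    have e0 : (2 * h + 1) * a + (2 * h + 1) = (2 * h + 1) * (a + 1) + 0 := by ring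
    have e1 : ((2 * h + 1) * (a + 1) + 0) / (2 * h + 1) = a + 1 := by
      rw [Nat.mul_add_div (by omega), Nat.zero_div, Nat.add_zero]
    have e2 : ((2 * h + 1) * (a + 1) + 0) % (2 * h + 1) = 0 := by
      rw [Nat.mul_add_mod, Nat.zero_mod]
    rw [e0]
    unfold vref
    rw [e1, e2]
    ext
    · simp only; push_cast; ring
    · simp only; push_cast; ring

/-- the fine boundary edges: inner and outer cells -/
theorem cells_vref {h : ℕ} {v : ℕ → V} (a s : ℕ) (hs : s ≤ 2 * h) (hA : Adj (v a) (v (a + 1))) :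
    lcv (vref h v) ((2 * h + 1) * a + s) =
      ((cenc h (lcv v a)).1 + h * ((rcv v a).1 - (lcv v a).1) + (s - h) * ((v (a + 1)).1 - (v a).1),
       (cenc h (lcv v a)).2 + h * ((rcv v a).2 - (lcv v a).2) + (s - h) * ((v (a + 1)).2 - (v a).2))
    ∧ rcv (vref h v) ((2 * h + 1) * a + s) =
      ((cenc h (rcv v a)).1 + h * ((lcv v a).1 - (rcv v a).1) + (s - h) * ((v (a + 1)).1 - (v a).1),
       (cenc h (rcv v a)).2 + h * ((lcv v a).2 - (rcv v a).2) +
        (s - h) * ((v (a + 1)).2 - (v a).2)) := by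
  have e0 : (2 * h + 1) * a + s + 1 = (2 * h + 1) * a + (s + 1) := by ring
  unfold lcv rcv
  rw [e0, vref_at v a s (by omega), vref_at v a (s + 1) (by omega)]
  generalize v a = p at *
  generalize v (a + 1) = p' at *
  obtain ⟨x, y⟩ := p
  obtain ⟨x', y'⟩ := p'
  unfold lc rc cenc
  rcases hA with ⟨e1, e2⟩ | ⟨e1, e2⟩ | ⟨e1, e2⟩ | ⟨e1, e2⟩ <;> simp only at e1 e2 <;>
    simp only [e1, e2] <;> push_cast
  · have a1 : (x + (x + 1) - (y - y) - 1) / 2 = x := by omega
    have a2 : (y + y + (x + 1 - x) - 1) / 2 = y := by omega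
    have a3 : (x + (x + 1) + (y - y) - 1) / 2 = x := by omega
    have a4 : (y + y - (x + 1 - x) - 1) / 2 = y - 1 := by omega
    rw [a1, a2, a3, a4]
    refine ⟨Prod.ext ?_ ?_, Prod.ext ?_ ?_⟩ <;> simp only <;> ring_nf <;> omega
  · have a1 : (x + (x - 1) - (y - y) - 1) / 2 = x - 1 := by omega
    have a2 : (y + y + (x - 1 - x) - 1) / 2 = y - 1 := by omega
    have a3 : (x + (x - 1) + (y - y) - 1) / 2 = x - 1 := by omega
    have a4 : (y + y - (x - 1 - x) - 1) / 2 = y := by omega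
    rw [a1, a2, a3, a4]
    refine ⟨Prod.ext ?_ ?_, Prod.ext ?_ ?_⟩ <;> simp only <;> ring_nf <;> omega
  · have a1 : (x + x - (y + 1 - y) - 1) / 2 = x - 1 := by omega
    have a2 : (y + (y + 1) + (x - x) - 1) / 2 = y := by omega
    have a3 : (x + x + (y + 1 - y) - 1) / 2 = x := by omega
    have a4 : (y + (y + 1) - (x - x) - 1) / 2 = y := by omega
    rw [a1, a2, a3, a4]
    refine ⟨Prod.ext ?_ ?_, Prod.ext ?_ ?_⟩ <;> simp only <;> ring_nf <;> omega
  · have a1 : (x + x - (y - 1 - y) - 1) / 2 = x := by omega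
    have a2 : (y + (y - 1) + (x - x) - 1) / 2 = y - 1 := by omega
    have a3 : (x + x + (y - 1 - y) - 1) / 2 = x - 1 := by omega
    have a4 : (y + (y - 1) - (x - x) - 1) / 2 = y - 1 := by omega
    rw [a1, a2, a3, a4]
    refine ⟨Prod.ext ?_ ?_, Prod.ext ?_ ?_⟩ <;> simp only <;> ring_nf <;> omega

section cfg

variable {F : Set V} {L : ℕ} {v : ℕ → V} {m : ℕ → ℕ} {c : V} {M : ℤ} {n : ℕ} {U : ℕ → ℕ → V}

theorem blk_box {h : ℕ} {q f : V} {c : V} {M : ℤ} (hb : Blk h q f) (h1 : |q.1 - c.1| < M)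
    (h2 : |q.2 - c.2| < M) :
    |f.1 - (cenc h c).1| < (2 * h + 1) * M ∧ |f.2 - (cenc h c).2| < (2 * h + 1) * M := by
  obtain ⟨b1, b2, b3, b4⟩ := hb
  rw [abs_lt] at h1 h2
  rw [abs_lt, abs_lt]
  unfold cenc
  simp only
  have hk : (0 : ℤ) ≤ 2 * h + 1 := by positivity
  have a1 : (2 * (h : ℤ) + 1) * (q.1 - c.1) ≤ (2 * h + 1) * (M - 1) :=
    mul_le_mul_of_nonneg_left (by omega) hk
  have a2 : (2 * (h : ℤ) + 1) * (-(M - 1)) ≤ (2 * h + 1) * (q.1 - c.1) :=
    mul_le_mul_of_nonneg_left (by omega) hk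
  have a3 : (2 * (h : ℤ) + 1) * (q.2 - c.2) ≤ (2 * h + 1) * (M - 1) :=
    mul_le_mul_of_nonneg_left (by omega) hk
  have a4 : (2 * (h : ℤ) + 1) * (-(M - 1)) ≤ (2 * h + 1) * (q.2 - c.2) :=
    mul_le_mul_of_nonneg_left (by omega) hk
  refine ⟨⟨?_, ?_⟩, ⟨?_, ?_⟩⟩ <;> nlinarith

theorem conv_abs {k s : ℤ} {u u' M : ℤ} (h1 : |u| ≤ M) (h2 : |u'| ≤ M) (h0 : 0 ≤ s) (h3 : s ≤ k) :
    |k * u + s * (u' - u)| ≤ k * M := by
  rw [abs_le] at h1 h2 ⊢
  constructor <;> nlinarith

/-- the fine tentacle stays in the box -/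
theorem CL_box {h : ℕ} {W : ℕ → V} {c : V} {M : ℤ} {j0 : ℕ}
    (hW : ∀ j ≤ j0, |(W j).1 - c.1| ≤ M ∧ |(W j).2 - c.2| ≤ M) {j : ℕ}
    (hj : j ≤ (2 * h + 1) * j0) :
    |(CL h W j).1 - (cenc h c).1| ≤ (2 * h + 1) * M ∧
      |(CL h W j).2 - (cenc h c).2| ≤ (2 * h + 1) * M := by
  have hd := Nat.div_add_mod j (2 * h + 1)
  have hm := Nat.mod_lt j (show 0 < 2 * h + 1 by omega)
  set a := j / (2 * h + 1) with ha
  set s := j % (2 * h + 1) with hs
  have haj : a ≤ j0 := by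
    rw [ha]; exact Nat.div_le_of_le_mul hj
  have e : CL h W j = ((cenc h (W a)).1 + s * ((W (a + 1)).1 - (W a).1),
    (cenc h (W a)).2 + s * ((W (a + 1)).2 - (W a).2)) := rfl
  rw [e]
  unfold cenc
  simp only
  rcases Nat.eq_zero_or_pos s with h0 | h0
  · rw [h0]
    have hM := hW a haj
    have hk : (0 : ℤ) ≤ 2 * h + 1 := by positivity
    have r1 : (2 * (h : ℤ) + 1) * (W a).1 + h + (0 : ℕ) * ((W (a + 1)).1 - (W a).1) -
        ((2 * h + 1) * c.1 + h) = (2 * h + 1) * ((W a).1 - c.1) := by push_cast; ring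
    have r2 : (2 * (h : ℤ) + 1) * (W a).2 + h + (0 : ℕ) * ((W (a + 1)).2 - (W a).2) -
        ((2 * h + 1) * c.2 + h) = (2 * h + 1) * ((W a).2 - c.2) := by push_cast; ring
    rw [r1, r2, abs_mul, abs_mul, abs_of_nonneg hk]
    exact ⟨mul_le_mul_of_nonneg_left hM.1 hk, mul_le_mul_of_nonneg_left hM.2 hk⟩
  · have haj' : a + 1 ≤ j0 := by
      have h1 : (2 * h + 1) * a < (2 * h + 1) * j0 := by omega
      have := Nat.lt_of_mul_lt_mul_left h1
      omega
    have h1 := hW a haj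
    have h2 := hW (a + 1) haj'
    have hs0 : (0 : ℤ) ≤ s := by positivity
    have hs1 : (s : ℤ) ≤ 2 * h + 1 := by exact_mod_cast hm.le
    have r1 : (2 * (h : ℤ) + 1) * (W a).1 + h + s * ((W (a + 1)).1 - (W a).1) -
        ((2 * h + 1) * c.1 + h) =
        (2 * h + 1) * ((W a).1 - c.1) + s * (((W (a + 1)).1 - c.1) - ((W a).1 - c.1)) := by ring
    have r2 : (2 * (h : ℤ) + 1) * (W a).2 + h + s * ((W (a + 1)).2 - (W a).2) -
        ((2 * h + 1) * c.2 + h) =
        (2 * h + 1) * ((W a).2 - c.2) + s * (((W (a + 1)).2 - c.2) - ((W a).2 - c.2)) := by ring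
    rw [r1, r2]
    exact ⟨conv_abs h1.1 h2.1 hs0 hs1, conv_abs h1.2 h2.2 hs0 hs1⟩

/-- injectivity inside one arm -/
theorem arm_inj {h : ℕ} {q w : V} (hw : Adj q w) {s s' : ℕ} (he : arm h q w s = arm h q w s') :
    s = s' := by
  unfold arm at he
  rw [Prod.ext_iff] at he
  simp only at he
  rcases hw with ⟨e1, e2⟩ | ⟨e1, e2⟩ | ⟨e1, e2⟩ | ⟨e1, e2⟩ <;> simp only [e1, e2] at he <;>
    ring_nf at he <;> omega

/-- two arms of the same cell meet in the centre -/
theorem arm_two_eq {h : ℕ} {q w w' : V} (hw : Adj q w) (hw' : Adj q w') (hne : w ≠ w') {s s' : ℕ}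
    (he : arm h q w s = arm h q w' s') : s = 0 ∧ s' = 0 := by
  unfold arm at he
  rw [Prod.ext_iff] at he
  simp only at he
  have hne' : ¬ (w.1 = w'.1 ∧ w.2 = w'.2) := fun hh => hne (Prod.ext hh.1 hh.2)
  rcases hw with ⟨e1, e2⟩ | ⟨e1, e2⟩ | ⟨e1, e2⟩ | ⟨e1, e2⟩ <;>
    rcases hw' with ⟨e3, e4⟩ | ⟨e3, e4⟩ | ⟨e3, e4⟩ | ⟨e3, e4⟩ <;>
    simp only [e1, e2, e3, e4] at he hne' <;> ring_nf at he <;>
    first | omega | simp at hne'

/-- the fine tentacles are simple and disjoint -/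
theorem Cfg.uref_inj (C : Cfg F L v m c M n U) (h : ℕ) {i : ℕ} (hi : i < n) {i' : ℕ} (hi' : i' < n)
    {j j' : ℕ} (he : Uref h U i (j + 1) = Uref h U i' (j' + 1)) : i = i' ∧ j = j' := by
  obtain ⟨a, s, hs, hA⟩ := uref_cases h U i j
  obtain ⟨a', s', hs', hA'⟩ := uref_cases h U i' j'
  have hb : Blk h (U i' (a' + 1)) (Uref h U i' (j' + 1)) := by
    rcases hA' with ⟨e, -⟩ | ⟨e, -⟩
    · exact e ▸ arm_blk (C.step i' hi' (a' + 1)) hs'
    · exact e ▸ arm_blk (C.step i' hi' a').symm hs'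
  have hb0 : Blk h (U i (a + 1)) (Uref h U i (j + 1)) := by
    rcases hA with ⟨e, -⟩ | ⟨e, -⟩
    · exact e ▸ arm_blk (C.step i hi (a + 1)) hs
    · exact e ▸ arm_blk (C.step i hi a).symm hs
  rw [he] at hb0
  obtain ⟨e1, e2⟩ := C.inj i hi i' hi' a a' (blk_unique hb0 hb)
  subst e1; subst e2
  refine ⟨rfl, ?_⟩
  rcases hA with ⟨e, hn⟩ | ⟨e, hn, hp⟩ <;> rcases hA' with ⟨e', hn'⟩ | ⟨e', hn', hp'⟩ <;>
    rw [e, e'] at he
  · have := arm_inj (C.step _ hi _) he
    omega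
  · have := arm_two_eq (C.step _ hi _) (C.step _ hi _).symm (C.pn_ne hi _) he
    omega
  · have := arm_two_eq (C.step _ hi _).symm (C.step _ hi _) (C.pn_ne hi _).symm he
    omega
  · have := arm_inj (C.step _ hi _).symm he
    omega

theorem CL_step {h : ℕ} {W : ℕ → V} (hW : ∀ j, Adj (W j) (W (j + 1))) (j : ℕ) :
    Adj (CL h W j) (CL h W (j + 1)) := by
  have hd := Nat.div_add_mod j (2 * h + 1)
  have hm := Nat.mod_lt j (show 0 < 2 * h + 1 by omega)
  set a := j / (2 * h + 1) with ha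
  set s := j % (2 * h + 1) with hs
  have e : CL h W j = ((cenc h (W a)).1 + s * ((W (a + 1)).1 - (W a).1),
    (cenc h (W a)).2 + s * ((W (a + 1)).2 - (W a).2)) := rfl
  have e' : CL h W (j + 1) = ((cenc h (W a)).1 + (s + 1 : ℕ) * ((W (a + 1)).1 - (W a).1),
      (cenc h (W a)).2 + (s + 1 : ℕ) * ((W (a + 1)).2 - (W a).2)) := by
    rw [← hd]
    rcases Nat.lt_or_ge (s + 1) (2 * h + 1) with h0 | h0
    · have e1 : ((2 * h + 1) * a + s + 1) / (2 * h + 1) = a := by
        rw [Nat.add_assoc, Nat.mul_add_div (by omega), Nat.div_eq_of_lt h0, Nat.add_zero]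
      have e2 : ((2 * h + 1) * a + s + 1) % (2 * h + 1) = s + 1 := by
        rw [Nat.add_assoc, Nat.mul_add_mod, Nat.mod_eq_of_lt h0]
      unfold CL
      rw [e1, e2]
    · have h1 : s = 2 * h := by omega
      have e0 : (2 * h + 1) * a + s + 1 = (2 * h + 1) * (a + 1) + 0 := by rw [h1]; ring
      rw [e0, CL_add W (a + 1) 0 (by omega)]
      rw [h1]
      unfold cenc
      ext
      · simp only; push_cast; ring
      · simp only; push_cast; ring
  rw [e, e']
  have h2 := hW a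
  unfold Adj at h2 ⊢
  simp only
  push_cast
  have r1 : ((s : ℤ) + 1) * ((W (a + 1)).1 - (W a).1) =
      s * ((W (a + 1)).1 - (W a).1) + ((W (a + 1)).1 - (W a).1) := by ring
  have r2 : ((s : ℤ) + 1) * ((W (a + 1)).2 - (W a).2) =
      s * ((W (a + 1)).2 - (W a).2) + ((W (a + 1)).2 - (W a).2) := by ring
  rw [r1, r2]
  omega

/-- **refinement of a configuration** -/
theorem refCfg (hA1 : RefCyc) (hA2 : RefCon) : RefCfg := by
  intro h F L v m c M n U C
  have hbox : ∀ q ∈ ref h F, |q.1 - (cenc h c).1| < (2 * h + 1) * M ∧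
      |q.2 - (cenc h c).2| < (2 * h + 1) * M := by
    intro q hq
    obtain ⟨q0, hq0, hb⟩ := mem_ref.1 hq
    exact blk_box hb (C.box q0 hq0).1 (C.box q0 hq0).2
  have hmul : ∀ a b : ℕ, a < b → (2 * h + 1) * a + h < (2 * h + 1) * b + h := fun a b hab =>
    Nat.add_lt_add_right (Nat.mul_lt_mul_of_pos_left hab (by omega)) _
  refine ⟨?_, hA2 h F C.con, ?_, hA1 h F L v C.cyc, hmul _ _ C.m01, hmul _ _ C.m12, hmul _ _ C.m23,
    ?_, hbox, C.n4, ?_, ?_, ?_, ?_, ?_, ?_⟩
  · set N := (2 * (h : ℤ) + 1) * M with hN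
    refine Set.Finite.subset ((Set.finite_Icc ((cenc h c).1 - N) ((cenc h c).1 + N)).prod
      (Set.finite_Icc ((cenc h c).2 - N) ((cenc h c).2 + N))) ?_
    intro q hq
    have := hbox q hq
    rw [abs_lt, abs_lt] at this
    exact ⟨⟨by linarith [this.1.1], by linarith [this.1.2]⟩,
      ⟨by linarith [this.2.1], by linarith [this.2.2]⟩⟩
  · intro q hq q' hq'
    have := hA2 h Fᶜ C.con' q hq q' hq'
    rwa [ref_compl] at this
  · have h1 : (2 * h + 1) * (m 3 + 1) ≤ (2 * h + 1) * L := Nat.mul_le_mul_left _ C.m3L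
    unfold mref
    rw [Nat.mul_add] at h1
    omega
  · intro i hi
    unfold Uref mref
    rw [Nat.zero_add, (cells_vref (m i) h (by omega) (C.cyc.step (m i))).1]
    have := CL_add (h := h) (U i) 0 h le_rfl
    rw [Nat.mul_zero, Nat.zero_add] at this
    rw [this, C.start0 i hi, C.start1 i hi]
    ext
    · simp only; ring
    · simp only; ring
  · intro i hi
    have h1 := CL_step (h := h) (C.step i hi) h
    unfold Uref mref
    rw [Nat.add_comm 1 h, (cells_vref (m i) h (by omega) (C.cyc.step (m i))).2]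
    rcases Nat.eq_zero_or_pos h with h0 | h0
    · subst h0
      have := CL_add (h := 0) (U i) 1 0 le_rfl
      simp only [Nat.mul_zero, Nat.zero_add, Nat.one_mul, Nat.add_zero] at this
      rw [show (0 + 1 : ℕ) = 1 from rfl, this, C.start1 i hi]
      ext
      · simp
      · simp
    · have := CL_sub (h := h) (U i) 0 h le_rfl
      have e : (2 * h + 1) * (0 + 1) - h = h + 1 := by omega
      rw [e] at this
      rw [this, C.start0 i hi, Nat.zero_add, C.start1 i hi]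
      ext
      · simp only; ring
      · simp only; ring
  · intro i hi j hf
    obtain ⟨a, w, s, hs, hw, hadj, he, hb⟩ := C.uref_blk hi h j
    exact C.out i hi a ((blk_mem hb).1 hf)
  · intro i hi j
    unfold Uref
    have := CL_step (h := h) (C.step i hi) (j + h)
    rwa [show j + h + 1 = j + 1 + h by ring] at this
  · intro i hi i' hi' j j' he
    exact C.uref_inj h hi hi' he
  · intro i hi
    obtain ⟨j0, h0, h1, h2⟩ := C.ray i hi
    have e0 : (2 * h + 1) * j0 = (2 * h + 1) * j0 - h + h := by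
      have : (2 * h + 1) * j0 ≥ 2 * h + 1 := Nat.le_mul_of_pos_right _ h0
      omega
    refine ⟨(2 * h + 1) * j0 - h, ?_, ?_, ?_⟩
    · have : (2 * h + 1) * j0 ≥ 2 * h + 1 := Nat.le_mul_of_pos_right _ h0
      omega
    · intro j hj
      exact CL_box h1 (by omega)
    · intro j
      unfold Uref
      have e1 : (2 * h + 1) * j0 - h + j + h = (2 * h + 1) * j0 + j := by omega
      rw [e1]
      have hd := Nat.div_add_mod j (2 * h + 1)
      have hm := Nat.mod_lt j (show 0 < 2 * h + 1 by omega)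
      have e2 : ((2 * h + 1) * j0 + j) / (2 * h + 1) = j0 + j / (2 * h + 1) :=
        Nat.mul_add_div (by omega) _ _
      have e3 : ((2 * h + 1) * j0 + j) % (2 * h + 1) = j % (2 * h + 1) := Nat.mul_add_mod _ _ _
      unfold CL
      rw [e2, e3, Nat.add_assoc, h2, h2]
      have hj : (j : ℤ) = (2 * h + 1) * (j / (2 * h + 1) : ℕ) + (j % (2 * h + 1) : ℕ) := by
        exact_mod_cast hd.symm
      unfold cenc
      ext
      · simp only
        rw [hj]
        push_cast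
        ring
      · simp only
        rw [hj]
        push_cast
        ring

end cfg

end Crest.Agent.R143.Tentx359
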