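import Crest.Agent.R143.Tent2_359
import Crest.Agent.R158.Sp6_896

/-!
# Row 143 (S0194), block D, TENT, file 3 (helper359): the collar of `F`

* `turn_cases` : cells around a vertex of a walk
* `Cyc.next` : the walk is determined by the vertex
* `collarArc` : the outer cells of consecutive fine boundary edges are connected (mod `RefCyc`,
  `RefCon`)
-/

set_option autoImplicit false

namespace Crest.Agent.R143.Tentx359

open Crest.Agent.R158.Sp896

theorem cRefl (S : Set V) (q : V) : Con S q q := Relation.ReflTransGen.refl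

theorem cOne {S : Set V} {q q' : V} (h : Adj q q') (hq : q' ∈ S) : Con S q q' :=
  Relation.ReflTransGen.single ⟨h, hq⟩

/-- cells around the middle vertex of a walk `p0 p1 p2` without reversal -/
theorem turn_cases {p0 p1 p2 : V} (h01 : Adj p0 p1) (h12 : Adj p1 p2) (hne : p2 ≠ p0) :
    rc p0 p1 = rc p1 p2 ∨ Adj (rc p0 p1) (rc p1 p2) ∨
    ∃ g : V, Adj (rc p0 p1) g ∧ Adj g (rc p1 p2) ∧
      lc p1 (2 * p1.1 - p2.1, 2 * p1.2 - p2.2) = g ∧
      rc p1 (2 * p1.1 - p2.1, 2 * p1.2 - p2.2) = rc p0 p1 ∧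
      ((rc p0 p1).1 = g.1 ∧ (rc p0 p1).2 = (lc p0 p1).2 ∧ (rc p1 p2).1 = (lc p0 p1).1 ∧
        (rc p1 p2).2 = g.2 ∨
       (rc p0 p1).2 = g.2 ∧ (rc p0 p1).1 = (lc p0 p1).1 ∧ (rc p1 p2).2 = (lc p0 p1).2 ∧
        (rc p1 p2).1 = g.1) ∧
      ((lc p0 p1).1 = g.1 + 1 ∨ (lc p0 p1).1 = g.1 - 1) ∧
      ((lc p0 p1).2 = g.2 + 1 ∨ (lc p0 p1).2 = g.2 - 1) := by
  have hne' : ¬ (p2.1 = p0.1 ∧ p2.2 = p0.2) := fun hh => hne (Prod.ext hh.1 hh.2)
  obtain ⟨x0, y0⟩ := p0
  obtain ⟨x1, y1⟩ := p1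
  obtain ⟨x2, y2⟩ := p2
  simp only [rc, lc, Adj, Prod.ext_iff, Prod.exists] at *
  rcases h01 with ⟨e1, e2⟩ | ⟨e1, e2⟩ | ⟨e1, e2⟩ | ⟨e1, e2⟩ <;>
    rcases h12 with ⟨e3, e4⟩ | ⟨e3, e4⟩ | ⟨e3, e4⟩ | ⟨e3, e4⟩
  · right; left; omega
  · omega
  · right; right
    refine ⟨x1, y1 - 1, ?_, ?_, ?_, ?_, ?_, ?_, ?_⟩ <;> omega
  · left; omega
  · omega
  · right; left; omega
  · left; omega
  · right; right
    refine ⟨x1 - 1, y1, ?_, ?_, ?_, ?_, ?_, ?_, ?_⟩ <;> omega
  · left; omega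
  · right; right
    refine ⟨x1, y1, ?_, ?_, ?_, ?_, ?_, ?_, ?_⟩ <;> omega
  · right; left; omega
  · omega
  · right; right
    refine ⟨x1 - 1, y1 - 1, ?_, ?_, ?_, ?_, ?_, ?_, ?_⟩ <;> omega
  · left; omega
  · omega
  · right; left; omega

section cyc

variable {F : Set V} {L : ℕ} {v : ℕ → V}

theorem Cyc.idx (h : Cyc F L v) {i j : ℕ} (he : v i = v j) : i % L = j % L := by
  have hL : 0 < L := by have := h.four_le; omega
  exact h.inj _ (Nat.mod_lt _ hL) _ (Nat.mod_lt _ hL) (by rw [h.mod, h.mod]; exact he)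

theorem Cyc.next (h : Cyc F L v) {i j : ℕ} (he : v i = v j) (k : ℕ) : v (i + k) = v (j + k) := by
  have h1 := Cyc.idx h he
  rw [← h.mod (i + k), ← h.mod (j + k), Nat.add_mod, h1, ← Nat.add_mod]

theorem Cyc.ne2 (h : Cyc F L v) (i : ℕ) : v (i + 2) ≠ v i := by
  intro he
  have h1 := Cyc.idx h he
  have h2 := h.four_le
  have h3 := (Nat.ModEq.add_left_cancel' i (show i + 2 ≡ i + 0 [MOD L] from h1))
  have h4 := (Nat.modEq_zero_iff_dvd.1 h3)
  have := Nat.le_of_dvd (by norm_num) h4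
  omega

end cyc

section cfg

variable {F : Set V} {L : ℕ} {v : ℕ → V} {m : ℕ → ℕ} {c : V} {M : ℤ} {n : ℕ} {U : ℕ → ℕ → V}

theorem uref_zero (h : ℕ) (U : ℕ → ℕ → V) (i : ℕ) :
    (Uref h U i 0).1 = (Uref h U i 1).1 + ((U i 0).1 - (U i 1).1) ∧
    (Uref h U i 0).2 = (Uref h U i 1).2 + ((U i 0).2 - (U i 1).2) := by
  have h1 := CL_add (h := h) (U i) 0 h le_rfl
  rw [Nat.mul_zero, Nat.zero_add] at h1
  have h2 := CL_sub (h := h) (U i) 0 h le_rfl
  have e : (2 * h + 1) * (0 + 1) - h = 1 + h := by omega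
  rw [e] at h2
  unfold Uref
  rw [Nat.zero_add, h1, h2]
  unfold cenc
  constructor
  · simp only; ring
  · simp only; ring

/-- the marked fine inner cell -/
theorem Cfg.uref_zero_mem (C : Cfg F L v m c M n U) (h : ℕ) {i : ℕ} (hi : i < n) :
    Uref h U i 0 ∈ ref h F := by
  have h1 := CL_add (h := h) (U i) 0 h le_rfl
  rw [Nat.mul_zero, Nat.zero_add] at h1
  have h2 : Uref h U i 0 = arm h (U i 0) (U i 1) h := by
    unfold Uref arm
    rw [Nat.zero_add, h1]
  rw [h2, blk_mem (arm_blk (C.step i hi 0) le_rfl), C.start0 i hi]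
  exact C.cyc.left (m i)

theorem mem_body {F : Set V} {U : ℕ → ℕ → V} {n : ℕ} {q : V} :
    q ∈ body F U n ↔ q ∈ F ∨ ∃ i < n, ∃ j, q = U i (j + 1) := Iff.rfl

/-- outer cells of two consecutive fine boundary edges -/
theorem Cfg.collar_step (C : Cfg F L v m c M n U) {h : ℕ} (hh : 1 ≤ h)
    (hC : Cyc (ref h F) ((2 * h + 1) * L) (vref h v)) {x : ℕ}
    (h1 : rcv (vref h v) x ∉ body (ref h F) (Uref h U) n)
    (h2 : rcv (vref h v) (x + 1) ∉ body (ref h F) (Uref h U) n) :
    Con (body (ref h F) (Uref h U) n)ᶜ (rcv (vref h v) x) (rcv (vref h v) (x + 1)) := by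
  have hA := turn_cases (hC.step x) (hC.step (x + 1)) (Cyc.ne2 hC x)
  have e1 : rc (vref h v x) (vref h v (x + 1)) = rcv (vref h v) x := rfl
  have e2 : rc (vref h v (x + 1)) (vref h v (x + 1 + 1)) = rcv (vref h v) (x + 1) := rfl
  have e3 : lc (vref h v x) (vref h v (x + 1)) = lcv (vref h v) x := rfl
  rw [e1, e2, e3] at hA
  rcases hA with hA | hA | ⟨g, g1, g2, g3, g4, g5, g6, g7⟩
  · rw [hA]
    exact cRefl _ _
  · exact cOne hA h2
  · have hgF : g ∉ ref h F := by
      intro hg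
      set p3 : V := (2 * (vref h v (x + 1)).1 - (vref h v (x + 1 + 1)).1,
        2 * (vref h v (x + 1)).2 - (vref h v (x + 1 + 1)).2) with hp3
      have hadj : Adj (vref h v (x + 1)) p3 := by
        have := hC.step (x + 1)
        unfold Adj at this ⊢
        rw [hp3]
        simp only
        omega
      obtain ⟨i, -, hi1, hi2⟩ := hC.all _ p3 hadj (by rw [g3]; exact hg)
        (by rw [g4]; exact fun hh => h1 (Or.inl hh))
      have h5 := Cyc.next hC hi1 1
      rw [hi2] at h5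
      have h6 := hC.step (x + 1)
      have h7 : p3.1 = (vref h v (x + 1 + 1)).1 ∧ p3.2 = (vref h v (x + 1 + 1)).2 := by
        rw [h5]; exact ⟨rfl, rfl⟩
      rw [hp3] at h7
      simp only at h7
      unfold Adj at h6
      omega
    have hgB : g ∉ body (ref h F) (Uref h U) n := by
      rintro (hg | ⟨i, hi, j, hg⟩)
      · exact hgF hg
      · have hlF : lcv (vref h v) x ∈ ref h F := hC.left x
        obtain ⟨hj, hdot⟩ := C.clean_F hh hi (j := j) hlF
          (by rw [← hg, abs_le]; omega) (by rw [← hg, abs_le]; omega)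
        subst hj
        rw [Nat.zero_add] at hg
        rw [← hg] at hdot
        obtain ⟨z1, z2⟩ := uref_zero h U i
        rw [← hg] at z1 z2
        have hz := C.uref_zero_mem h hi
        have hB : rcv (vref h v) x ∉ ref h F := fun hh => h1 (Or.inl hh)
        have hD : rcv (vref h v) (x + 1) ∉ ref h F := fun hh => h2 (Or.inl hh)
        have hst := (C.step i hi 0)
        rw [Nat.zero_add] at hst
        have key : Uref h U i 0 = rcv (vref h v) x ∨ Uref h U i 0 = rcv (vref h v) (x + 1) := by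
          rw [Prod.ext_iff, Prod.ext_iff, z1, z2]
          unfold Adj at hst
          clear z1 z2
          rcases hst with ⟨s1, s2⟩ | ⟨s1, s2⟩ | ⟨s1, s2⟩ | ⟨s1, s2⟩ <;>
            rcases g6 with g6 | g6 <;> rcases g7 with g7 | g7 <;>
            rw [s1, s2, g6, g7] at hdot <;> rw [s1, s2] <;> ring_nf at hdot <;>
            omega
        rcases key with key | key
        · exact hB (key ▸ hz)
        · exact hD (key ▸ hz)
    exact (cOne g1 hgB).trans (cOne g2 h2)

/-- **(B3)** -/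
theorem collarArc (hA1 : RefCyc) : CollarArc := by
  intro h hh F L v m c M n U C a b hab hx
  have hC := hA1 h F L v C.cyc
  obtain ⟨d, rfl⟩ := Nat.exists_eq_add_of_le hab
  induction d with
  | zero => exact cRefl _ _
  | succ d ih =>
    have h1 := ih (by omega) fun x h1 h2 => hx x h1 (by omega)
    exact h1.trans (C.collar_step hh hC (hx _ (by omega) (by omega)) (hx _ (by omega) (by omega)))

end cfg

end Crest.Agent.R143.Tentx359
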