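import Crest.Agent.R143.Tent3_359

/-!
# Row 143 (S0194), block D, TENT, file 4 (helper359): the sides of the tentacles

* `side h q w t` : cell of the side of the block `q` towards the adjacent cell `w`
* `around` : the corners of a block are connected along the free sides
* `collarTent`
-/

set_option autoImplicit false

namespace Crest.Agent.R143.Tentx359

open Crest.Agent.R158.Sp896

/-- cell of the side of the block `q` towards `w`, at the tangential offset `t` -/
def side (h : ℕ) (q w : V) (t : ℤ) : V :=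
  ((cenc h q).1 + h * (w.1 - q.1) - t * (w.2 - q.2), (cenc h q).2 + h * (w.2 - q.2) + t * (w.1 - q.1))

/-- cell of the block `q` with offset `(x, y)` -/
def pos (h : ℕ) (q : V) (x y : ℤ) : V := ((cenc h q).1 + x, (cenc h q).2 + y)

theorem pos_blk {h : ℕ} {q : V} {x y : ℤ} (hx : |x| ≤ h) (hy : |y| ≤ h) : Blk h q (pos h q x y) := by
  rw [abs_le] at hx hy
  unfold Blk pos cenc
  simp only
  refine ⟨?_, ?_, ?_, ?_⟩ <;> linarith

theorem blk_pos {h : ℕ} {q f : V} (hb : Blk h q f) : ∃ x y : ℤ, |x| ≤ h ∧ |y| ≤ h ∧ f = pos h q x y := by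
  obtain ⟨b1, b2, b3, b4⟩ := hb
  refine ⟨f.1 - (cenc h q).1, f.2 - (cenc h q).2, ?_, ?_, ?_⟩
  · rw [abs_le]; unfold cenc; simp only; constructor <;> linarith
  · rw [abs_le]; unfold cenc; simp only; constructor <;> linarith
  · unfold pos; ext <;> simp

theorem line_aux {S : Set V} {p : V} {d : V} (hd : Adj (0, 0) d) (n : ℕ) :
    ∀ t : ℤ, (∀ r, t ≤ r → r ≤ t + n → ((p.1 + r * d.1, p.2 + r * d.2) : V) ∈ S) →
    Con S (p.1 + t * d.1, p.2 + t * d.2) (p.1 + (t + n) * d.1, p.2 + (t + n) * d.2) := by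
  induction n with
  | zero => intro t _; simpa using cRefl _ _
  | succ n ih =>
    intro t ht
    refine (ih t fun r h1 h2 => ht r h1 (by push_cast; omega)).trans (cOne ?_ ?_)
    · unfold Adj at hd ⊢
      simp only at hd ⊢
      push_cast
      rcases hd with ⟨e1, e2⟩ | ⟨e1, e2⟩ | ⟨e1, e2⟩ | ⟨e1, e2⟩ <;> rw [e1, e2] <;> ring_nf <;> simp
    · have := ht (t + (n + 1 : ℕ)) (by push_cast; omega) le_rfl
      simpa using this

theorem line_aux' {S : Set V} {p : V} {d : V} (hd : Adj (0, 0) d) (n : ℕ) :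
    ∀ t : ℤ, (∀ r, t - n ≤ r → r ≤ t → ((p.1 + r * d.1, p.2 + r * d.2) : V) ∈ S) →
    Con S (p.1 + t * d.1, p.2 + t * d.2) (p.1 + (t - n) * d.1, p.2 + (t - n) * d.2) := by
  induction n with
  | zero => intro t _; simpa using cRefl _ _
  | succ n ih =>
    intro t ht
    refine (ih t fun r h1 h2 => ht r (by push_cast at *; omega) h2).trans (cOne ?_ ?_)
    · unfold Adj at hd ⊢
      simp only at hd ⊢
      push_cast
      rcases hd with ⟨e1, e2⟩ | ⟨e1, e2⟩ | ⟨e1, e2⟩ | ⟨e1, e2⟩ <;> rw [e1, e2] <;> ring_nf <;> simp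
    · have := ht (t - (n + 1 : ℕ)) le_rfl (by push_cast; omega)
      simpa using this

/-- connection along a straight line -/
theorem line_con {S : Set V} {p : V} {d : V} (hd : Adj (0, 0) d) {t t' : ℤ}
    (h : ∀ r, min t t' ≤ r → r ≤ max t t' → ((p.1 + r * d.1, p.2 + r * d.2) : V) ∈ S) :
    Con S (p.1 + t * d.1, p.2 + t * d.2) (p.1 + t' * d.1, p.2 + t' * d.2) := by
  rcases le_total t t' with h1 | h1
  · obtain ⟨n, hn⟩ := Int.eq_ofNat_of_zero_le (sub_nonneg.2 h1)
    have e : t' = t + n := by omega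
    subst e
    refine line_aux hd n t fun r h2 h3 => h r ?_ ?_
    · rw [min_eq_left h1]; exact h2
    · rw [max_eq_right h1]; exact h3
  · obtain ⟨n, hn⟩ := Int.eq_ofNat_of_zero_le (sub_nonneg.2 h1)
    have e : t' = t - n := by omega
    subst e
    refine line_aux' hd n t fun r h2 h3 => h r ?_ ?_
    · rw [min_eq_right h1]; exact h2
    · rw [max_eq_left h1]; exact h3

/-- connection along a side -/
theorem side_con {S : Set V} {h : ℕ} {q w : V} (hw : Adj q w) {t t' : ℤ}
    (hS : ∀ r, min t t' ≤ r → r ≤ max t t' → side h q w r ∈ S) :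
    Con S (side h q w t) (side h q w t') := by
  have hd : Adj (0, 0) ((-(w.2 - q.2), w.1 - q.1) : V) := by
    unfold Adj at hw ⊢
    simp only
    omega
  have key : ∀ r : ℤ, side h q w r = (((cenc h q).1 + h * (w.1 - q.1)) + r * (-(w.2 - q.2)),
      ((cenc h q).2 + h * (w.2 - q.2)) + r * (w.1 - q.1)) := by
    intro r
    unfold side
    ext
    · simp only; ring
    · simp only
  have := line_con (S := S) (p := ((cenc h q).1 + h * (w.1 - q.1), (cenc h q).2 + h * (w.2 - q.2)))
    hd (t := t) (t' := t') (fun r h1 h2 => by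
      have := hS r h1 h2
      rw [key] at this
      exact this)
  rw [key, key]
  exact this

/-- the fine cells on the two sides of a coarse edge are adjacent -/
theorem side_adj {h : ℕ} {q w : V} (hw : Adj q w) (t : ℤ) : Adj (side h q w t) (side h w q (-t)) := by
  unfold side cenc
  unfold Adj at hw ⊢
  simp only
  rcases hw with ⟨e1, e2⟩ | ⟨e1, e2⟩ | ⟨e1, e2⟩ | ⟨e1, e2⟩ <;> rw [e1, e2] <;> ring_nf <;> simp

theorem side_pos (h : ℕ) (q w : V) (t : ℤ) :
    side h q w t = pos h q (h * (w.1 - q.1) - t * (w.2 - q.2)) (h * (w.2 - q.2) + t * (w.1 - q.1)) := by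
  unfold side pos
  ext
  · simp only; ring
  · simp only; ring

/-! ### walking around a block -/

/-- the next neighbour of `q` after `w`, clockwise -/
def cw (q w : V) : V := (q.1 + (w.2 - q.2), q.2 - (w.1 - q.1))

theorem cw_adj {q w : V} (hw : Adj q w) : Adj q (cw q w) := by
  unfold Adj cw at *
  simp only
  omega

theorem turn_id (h : ℕ) (q w : V) : side h q w (-h) = side h q (cw q w) h := by
  unfold side cw
  ext
  · simp only; ring
  · simp only; ring

theorem cw4 (q w : V) : cw q (cw q (cw q (cw q w))) = w := by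
  unfold cw
  ext
  · simp only; ring
  · simp only; ring

theorem cw_cases {q w r : V} (hw : Adj q w) (hr : Adj q r) (hne : r ≠ w) :
    r = cw q w ∨ r = cw q (cw q w) ∨ r = cw q (cw q (cw q w)) := by
  have hne' : ¬ (r.1 = w.1 ∧ r.2 = w.2) := fun hh => hne (Prod.ext hh.1 hh.2)
  unfold cw
  simp only [Prod.ext_iff]
  unfold Adj at hw hr
  omega

theorem cw_ne {q w : V} (hw : Adj q w) : cw q w ≠ w ∧ cw q (cw q w) ≠ w ∧
    cw q (cw q (cw q w)) ≠ w := by
  unfold cw
  simp only [ne_eq, Prod.ext_iff]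
  unfold Adj at hw
  omega

/-- connection along a whole side -/
theorem side_full {S : Set V} {h : ℕ} {q w : V} (hw : Adj q w)
    (hS : ∀ t : ℤ, |t| ≤ h → side h q w t ∈ S) :
    Con S (side h q w h) (side h q w (-h)) ∧ Con S (side h q w (-h)) (side h q w h) := by
  constructor
  · refine side_con hw fun r h1 h2 => hS r ?_
    rw [abs_le]
    constructor
    · exact (le_min (by linarith [(Nat.cast_nonneg h : (0:ℤ) ≤ h)]) le_rfl).trans h1
    · exact h2.trans (max_le le_rfl (by linarith [(Nat.cast_nonneg h : (0:ℤ) ≤ h)]))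
  · refine side_con hw fun r h1 h2 => hS r ?_
    rw [abs_le]
    constructor
    · exact (le_min le_rfl (by linarith [(Nat.cast_nonneg h : (0:ℤ) ≤ h)])).trans h1
    · exact h2.trans (max_le (by linarith [(Nat.cast_nonneg h : (0:ℤ) ≤ h)]) le_rfl)

section around

variable {S : Set V} {h : ℕ} {q p r : V}

/-- left turn around the block -/
theorem around_left (hp : Adj q p) (hr : Adj q r) (hne : r ≠ p)
    (hS : ∀ w, Adj q w → w ≠ p → w ≠ r → ∀ t : ℤ, |t| ≤ h → side h q w t ∈ S) :
    Con S (side h q p (-h)) (side h q r h) := by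
  have n1 := cw_ne hp
  have n2 := cw_ne (cw_adj hp)
  rw [turn_id]
  rcases cw_cases hp hr hne with e | e | e
  · rw [e]; exact cRefl _ _
  · have h1 := (side_full (cw_adj hp) (hS _ (cw_adj hp) n1.1 (by rw [e]; exact n2.1.symm))).1
    rw [turn_id, ← e] at h1
    exact h1
  · have h1 := (side_full (cw_adj hp) (hS _ (cw_adj hp) n1.1 (by rw [e]; exact n2.2.1.symm))).1
    have h2 := (side_full (cw_adj (cw_adj hp)) (hS _ (cw_adj (cw_adj hp)) n1.2.1
      (by rw [e]; exact (cw_ne (cw_adj (cw_adj hp))).1.symm))).1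
    rw [turn_id] at h1 h2
    rw [← e] at h2
    exact h1.trans h2

/-- right turn around the block -/
theorem around_right (hp : Adj q p) (hr : Adj q r) (hne : r ≠ p)
    (hS : ∀ w, Adj q w → w ≠ p → w ≠ r → ∀ t : ℤ, |t| ≤ h → side h q w t ∈ S) :
    Con S (side h q p h) (side h q r (-h)) := by
  have n1 := cw_ne hp
  have n2 := cw_ne (cw_adj hp)
  have n3 := cw_ne (cw_adj (cw_adj hp))
  have e4 : side h q p h = side h q (cw q (cw q (cw q p))) (-h) := by
    rw [turn_id, cw4]
  rw [e4]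
  have a3 := cw_adj (cw_adj (cw_adj hp))
  have a2 := cw_adj (cw_adj hp)
  rcases cw_cases hp hr hne with e | e | e
  · have h1 := (side_full a3 (hS _ a3 n1.2.2 (by rw [e]; exact n2.2.1))).2
    have h2 := (side_full a2 (hS _ a2 n1.2.1 (by rw [e]; exact n2.1))).2
    rw [← turn_id] at h1 h2
    rw [e]
    exact h1.trans h2
  · have h1 := (side_full a3 (hS _ a3 n1.2.2 (by rw [e]; exact n3.1))).2
    rw [← turn_id] at h1
    rw [e]
    exact h1
  · rw [e]; exact cRefl _ _

/-- every corner is connected to the left or to the right entrance corner -/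
theorem corner_conn (hp : Adj q p) (hr : Adj q r) (hne : r ≠ p)
    (hS : ∀ w, Adj q w → w ≠ p → w ≠ r → ∀ t : ℤ, |t| ≤ h → side h q w t ∈ S) {w : V}
    (hw : Adj q w) :
    Con S (side h q p (-h)) (side h q w h) ∨ Con S (side h q p h) (side h q w h) := by
  by_cases h1 : w = p
  · subst h1; exact Or.inr (cRefl _ _)
  by_cases h2 : w = r
  · subst h2; exact Or.inl (around_left hp hr hne hS)
  have n1 := cw_ne hp
  have n2 := cw_ne (cw_adj hp)
  have n3 := cw_ne (cw_adj (cw_adj hp))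
  have a3 := cw_adj (cw_adj (cw_adj hp))
  have a2 := cw_adj (cw_adj hp)
  have e4 : side h q p h = side h q (cw q (cw q (cw q p))) (-h) := by
    rw [turn_id, cw4]
  rcases cw_cases hp hw h1 with e | e | e
  · left
    rw [turn_id, e]
    exact cRefl _ _
  · by_cases h3 : r = cw q p
    · right
      have k1 := (side_full a3 (hS _ a3 n1.2.2 (by rw [h3]; exact n2.2.1))).2
      have k2 := (side_full a2 (hS _ a2 n1.2.1 (by rw [h3]; exact n2.1))).2
      rw [← turn_id] at k1
      rw [e4, e]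
      exact k1.trans k2
    · left
      have k1 := (side_full (cw_adj hp) (hS _ (cw_adj hp) n1.1 (Ne.symm h3))).1
      rw [turn_id (w := cw q p)] at k1
      rw [turn_id, e]
      exact k1
  · right
    have k1 := (side_full hw (hS _ hw h1 h2)).2
    rw [e4, ← e]
    exact k1

end around

section cfg

variable {F : Set V} {L : ℕ} {v : ℕ → V} {m : ℕ → ℕ} {c : V} {M : ℤ} {n : ℕ} {U : ℕ → ℕ → V}

/-- a body cell in the block of a cell outside `F` lies on an arm -/
theorem Cfg.in_arm (C : Cfg F L v m c M n U) {h : ℕ} {q f : V} (hq : q ∉ F) (hb : Blk h q f)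
    (hf : f ∈ body (ref h F) (Uref h U) n) : ∃ i < n, ∃ a, q = U i (a + 1) ∧ ∃ w s, s ≤ h ∧
      (w = U i (a + 2) ∨ w = U i a) ∧ Adj q w ∧ f = arm h q w s := by
  rcases hf with hf | ⟨i, hi, j, hj⟩
  · exact absurd ((blk_mem hb).1 hf) hq
  · obtain ⟨a, w, s, hs, hw, hadj, he, hb'⟩ := C.uref_blk hi h j
    rw [← hj] at hb' he
    have e := blk_unique hb hb'
    refine ⟨i, hi, a, e, w, s, hs, hw, e ▸ hadj, ?_⟩
    rw [e]
    exact he

/-- off-axis cells are free -/
theorem Cfg.off_free (C : Cfg F L v m c M n U) {h : ℕ} {q : V} (hq : q ∉ F) {x y : ℤ}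
    (hx : |x| ≤ h) (hy : |y| ≤ h) (hx0 : x ≠ 0) (hy0 : y ≠ 0) :
    pos h q x y ∉ body (ref h F) (Uref h U) n := by
  intro hf
  obtain ⟨i, hi, a, e, w, s, hs, hw, hadj, he⟩ := C.in_arm hq (pos_blk hx hy) hf
  unfold pos arm at he
  rw [Prod.ext_iff] at he
  simp only at he
  unfold Adj at hadj
  rcases hadj with ⟨e1, e2⟩ | ⟨e1, e2⟩ | ⟨e1, e2⟩ | ⟨e1, e2⟩ <;> simp only [e1, e2] at he <;>
    ring_nf at he <;> omega

/-- free arms -/
theorem Cfg.arm_free (C : Cfg F L v m c M n U) {h : ℕ} {q w : V} (hq : q ∉ F) (hw : Adj q w)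
    (hfr : ∀ i < n, ∀ a, q = U i (a + 1) → w ≠ U i (a + 2) ∧ w ≠ U i a) {s : ℕ} (hs : s ≤ h)
    (hs0 : 0 < s) : arm h q w s ∉ body (ref h F) (Uref h U) n := by
  intro hf
  obtain ⟨i, hi, a, e, w', s', hs', hw', hadj, he⟩ := C.in_arm hq (arm_blk hw hs) hf
  by_cases hww : w = w'
  · rcases hw' with h1 | h1
    · exact (hfr i hi a e).1 (hww.trans h1)
    · exact (hfr i hi a e).2 (hww.trans h1)
  · have := arm_two_eq hw hadj hww he
    omega

theorem side_zero (h : ℕ) (q w : V) : side h q w 0 = arm h q w h := by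
  unfold side arm
  ext
  · simp only; ring
  · simp only; ring

theorem Cfg.side_free' (C : Cfg F L v m c M n U) {h : ℕ} {q w : V} (hq : q ∉ F) (hw : Adj q w)
    {t : ℤ} (ht : |t| ≤ h) (ht0 : t ≠ 0) : side h q w t ∉ body (ref h F) (Uref h U) n := by
  have hh : (1 : ℤ) ≤ h := by
    rw [abs_le] at ht; omega
  rw [side_pos]
  rw [abs_le] at ht
  unfold Adj at hw
  rcases hw with ⟨e1, e2⟩ | ⟨e1, e2⟩ | ⟨e1, e2⟩ | ⟨e1, e2⟩ <;> simp only [e1, e2] <;>
    refine C.off_free hq ?_ ?_ ?_ ?_ <;> ring_nf <;> first | omega | (rw [abs_le]; omega)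

theorem Cfg.side_free (C : Cfg F L v m c M n U) {h : ℕ} (hh : 1 ≤ h) {q w : V} (hq : q ∉ F)
    (hw : Adj q w) (hfr : ∀ i < n, ∀ a, q = U i (a + 1) → w ≠ U i (a + 2) ∧ w ≠ U i a) {t : ℤ}
    (ht : |t| ≤ h) : side h q w t ∉ body (ref h F) (Uref h U) n := by
  by_cases ht0 : t = 0
  · subst ht0
    rw [side_zero]
    exact C.arm_free hq hw hfr le_rfl hh
  · exact C.side_free' hq hw ht ht0

end cfg

end Crest.Agent.R143.Tentx359
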