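import Crest.Agent.R143.Tent0_359
import Crest.Agent.R158.Bl1_802

/-!
# Row 143 (S0194), block D, TENT A (helper951)

`refCyc`, `refCon` : refinement of the boundary walk and of connectedness.
-/

set_option autoImplicit false

namespace Crest.Agent.R143.TentAx951

open Crest.Agent.R158 Crest.Agent.R158.Sp896 Crest.Agent.R143.Tentx359 Crest.Agent.R158.Bl802

theorem ref_eq (h : ℕ) (F : Set V) : ref h F = sc F (2 * h + 1) := by
  ext t
  simp only [ref, sc, Set.mem_ofPred_eq]
  push_cast
  rfl

theorem vref_eq (h : ℕ) (v : ℕ → V) : vref h v = sv (2 * h + 1) v := by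
  funext i
  simp only [vref, sv]
  push_cast
  rfl

theorem refCyc : RefCyc := by
  intro h F L v hc
  rw [ref_eq, vref_eq, Nat.mul_comm (2 * h + 1) L]
  exact scale hc (Nat.succ_pos (2 * h))

theorem mem_ref {h : ℕ} {F : Set V} {q : V} :
    q ∈ ref h F ↔ ((q.1 / (2 * h + 1), q.2 / (2 * h + 1)) : V) ∈ F := Iff.rfl

/-- the coarse cell of the centre -/
theorem cenc_div (h : ℕ) (q : V) :
    (((cenc h q).1 / (2 * h + 1), (cenc h q).2 / (2 * h + 1)) : V) = q := by
  have h0 : (0 : ℤ) < 2 * h + 1 := by positivity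
  have h1 : ((h : ℤ)) / (2 * h + 1) = 0 := Int.ediv_eq_zero_of_lt (by positivity) (by linarith)
  have e1 : ((2 * (h : ℤ) + 1) * q.1 + h) / (2 * h + 1) = q.1 := by
    rw [add_comm, Int.add_mul_ediv_left _ _ h0.ne', h1, zero_add]
  have e2 : ((2 * (h : ℤ) + 1) * q.2 + h) / (2 * h + 1) = q.2 := by
    rw [add_comm, Int.add_mul_ediv_left _ _ h0.ne', h1, zero_add]
  simp only [cenc]
  rw [e1, e2]

theorem cenc_mem {h : ℕ} {F : Set V} {q : V} : cenc h q ∈ ref h F ↔ q ∈ F := by
  rw [mem_ref, cenc_div]

/-- horizontal move inside a set -/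
theorem con_h {S : Set V} {y : ℤ} (x : ℤ) (n : ℕ) (h : ∀ i : ℕ, i ≤ n → ((x + i, y) : V) ∈ S) :
    Con S (x, y) (x + n, y) := by
  induction n with
  | zero => simpa using Sp896.Con.refl S (x, y)
  | succ n ih =>
    refine (ih fun i hi => h i (by omega)).trans (Sp896.Con.one ?_ (h (n + 1) le_rfl))
    unfold Adj
    left
    push_cast
    constructor
    · ring
    · rfl

/-- vertical move inside a set -/
theorem con_v {S : Set V} {x : ℤ} (y : ℤ) (n : ℕ) (h : ∀ i : ℕ, i ≤ n → ((x, y + i) : V) ∈ S) :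
    Con S (x, y) (x, y + n) := by
  induction n with
  | zero => simpa using Sp896.Con.refl S (x, y)
  | succ n ih =>
    refine (ih fun i hi => h i (by omega)).trans (Sp896.Con.one ?_ (h (n + 1) le_rfl))
    unfold Adj
    right; right; left
    push_cast
    constructor
    · rfl
    · ring

/-- horizontal move between two cells of a row, all cells between in `S` -/
theorem con_row {S : Set V} {y x x' : ℤ} (h : ∀ t, min x x' ≤ t → t ≤ max x x' → ((t, y) : V) ∈ S) :
    Con S (x, y) (x', y) := by
  rcases le_total x x' with hx | hx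
  · have h1 := con_h (S := S) (y := y) x (x' - x).toNat (fun i hi => h _ (by
      rw [min_eq_left hx]; omega) (by rw [max_eq_right hx]; omega))
    have e : x + ((x' - x).toNat : ℤ) = x' := by omega
    rwa [e] at h1
  · have h1 := con_h (S := S) (y := y) x' (x - x').toNat (fun i hi => h _ (by
      rw [min_eq_right hx]; omega) (by rw [max_eq_left hx]; omega))
    have e : x' + ((x - x').toNat : ℤ) = x := by omega
    rw [e] at h1
    exact h1.symm (h _ (by rw [min_eq_right hx]) (by rw [max_eq_left hx]; exact hx))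

/-- vertical move between two cells of a column, all cells between in `S` -/
theorem con_col {S : Set V} {x y y' : ℤ} (h : ∀ t, min y y' ≤ t → t ≤ max y y' → ((x, t) : V) ∈ S) :
    Con S (x, y) (x, y') := by
  rcases le_total y y' with hx | hx
  · have h1 := con_v (S := S) (x := x) y (y' - y).toNat (fun i hi => h _ (by
      rw [min_eq_left hx]; omega) (by rw [max_eq_right hx]; omega))
    have e : y + ((y' - y).toNat : ℤ) = y' := by omega
    rwa [e] at h1
  · have h1 := con_v (S := S) (x := x) y' (y - y').toNat (fun i hi => h _ (by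
      rw [min_eq_right hx]; omega) (by rw [max_eq_left hx]; omega))
    have e : y' + ((y - y').toNat : ℤ) = y := by omega
    rw [e] at h1
    exact h1.symm (h _ (by rw [min_eq_right hx]) (by rw [max_eq_left hx]; exact hx))

/-- interval of a division -/
theorem div_of_between {d a b t : ℤ} (hd : 0 < d) (h : a / d = b / d) (h1 : min a b ≤ t)
    (h2 : t ≤ max a b) : t / d = a / d := by
  rcases le_total a b with hab | hab
  · rw [min_eq_left hab] at h1
    rw [max_eq_right hab] at h2
    exact le_antisymm (by rw [h]; exact Int.ediv_le_ediv hd h2) (Int.ediv_le_ediv hd h1)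
  · rw [min_eq_right hab] at h1
    rw [max_eq_left hab] at h2
    exact le_antisymm (Int.ediv_le_ediv hd h2) (by rw [h]; exact Int.ediv_le_ediv hd h1)

/-- two fine cells of the same coarse cell are connected inside the coarse cell -/
theorem con_same {h : ℕ} {F : Set V} {q q' : V} (hq : q ∈ ref h F)
    (h1 : q.1 / (2 * h + 1) = q'.1 / (2 * h + 1)) (h2 : q.2 / (2 * h + 1) = q'.2 / (2 * h + 1)) :
    Con (ref h F) q q' := by
  obtain ⟨x, y⟩ := q
  obtain ⟨x', y'⟩ := q'
  have hd : (0 : ℤ) < 2 * h + 1 := by positivity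
  simp only at h1 h2
  rw [mem_ref] at hq
  simp only at hq
  have c1 : Con (ref h F) (x, y) (x', y) := by
    refine con_row fun t ht1 ht2 => ?_
    rw [mem_ref]
    simp only
    rw [div_of_between hd h1 ht1 ht2]
    exact hq
  have c2 : Con (ref h F) (x', y) (x', y') := by
    refine con_col fun t ht1 ht2 => ?_
    rw [mem_ref]
    simp only
    rw [div_of_between hd h2 ht1 ht2, ← h1]
    exact hq
  exact c1.trans c2

/-- every fine cell is connected to the centre of its coarse cell -/
theorem con_cenc {h : ℕ} {F : Set V} {q : V} (hq : q ∈ ref h F) :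
    Con (ref h F) q (cenc h (q.1 / (2 * h + 1), q.2 / (2 * h + 1))) := by
  have e := cenc_div h (q.1 / (2 * h + 1), q.2 / (2 * h + 1))
  have e1 := congrArg Prod.fst e
  have e2 := congrArg Prod.snd e
  simp only at e1 e2
  exact con_same hq e1.symm e2.symm

theorem con_cenc_adj {h : ℕ} {F : Set V} {a b : V} (hab : Adj a b) (ha : a ∈ F) (hb : b ∈ F) :
    Con (ref h F) (cenc h a) (cenc h b) := by
  obtain ⟨a1, a2⟩ := a
  obtain ⟨b1, b2⟩ := b
  have hd : (0 : ℤ) < 2 * h + 1 := by positivity
  have h0 : (0 : ℤ) ≤ h := by positivity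
  unfold Adj at hab
  simp only at hab
  have key1 : ∀ x x' y : ℤ, ((x, y) : V) ∈ F → ((x', y) : V) ∈ F → (x' = x + 1 ∨ x' = x - 1) →
      Con (ref h F) (cenc h (x, y)) (cenc h (x', y)) := by
    intro x x' y hx hx' hh
    refine con_row fun t ht1 ht2 => ?_
    rw [mem_ref]
    simp only at ht1 ht2 ⊢
    have e2 : ((2 * (h : ℤ) + 1) * y + h) / (2 * h + 1) = y := by
      rw [add_comm, Int.add_mul_ediv_left _ _ hd.ne', Int.ediv_eq_zero_of_lt h0 (by linarith),
        zero_add]
    rw [e2]
    have hor : t / (2 * h + 1) = x ∨ t / (2 * h + 1) = x' := by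
      rcases hh with rfl | rfl
      · rw [min_eq_left (by nlinarith)] at ht1
        rw [max_eq_right (by nlinarith)] at ht2
        have q1 : x ≤ t / (2 * h + 1) := (Int.le_ediv_iff_mul_le hd).2 (by nlinarith)
        have q2 : t / (2 * h + 1) < x + 2 := (Int.ediv_lt_iff_lt_mul hd).2 (by nlinarith)
        omega
      · rw [min_eq_right (by nlinarith)] at ht1
        rw [max_eq_left (by nlinarith)] at ht2
        have q1 : x - 1 ≤ t / (2 * h + 1) := (Int.le_ediv_iff_mul_le hd).2 (by nlinarith)
        have q2 : t / (2 * h + 1) < x + 1 := (Int.ediv_lt_iff_lt_mul hd).2 (by nlinarith)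
        omega
    rcases hor with e | e
    · rw [e]; exact hx
    · rw [e]; exact hx'
  have key2 : ∀ y y' x : ℤ, ((x, y) : V) ∈ F → ((x, y') : V) ∈ F → (y' = y + 1 ∨ y' = y - 1) →
      Con (ref h F) (cenc h (x, y)) (cenc h (x, y')) := by
    intro y y' x hx hx' hh
    refine con_col fun t ht1 ht2 => ?_
    rw [mem_ref]
    simp only at ht1 ht2 ⊢
    have e2 : ((2 * (h : ℤ) + 1) * x + h) / (2 * h + 1) = x := by
      rw [add_comm, Int.add_mul_ediv_left _ _ hd.ne', Int.ediv_eq_zero_of_lt h0 (by linarith),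
        zero_add]
    rw [e2]
    have hor : t / (2 * h + 1) = y ∨ t / (2 * h + 1) = y' := by
      rcases hh with rfl | rfl
      · rw [min_eq_left (by nlinarith)] at ht1
        rw [max_eq_right (by nlinarith)] at ht2
        have q1 : y ≤ t / (2 * h + 1) := (Int.le_ediv_iff_mul_le hd).2 (by nlinarith)
        have q2 : t / (2 * h + 1) < y + 2 := (Int.ediv_lt_iff_lt_mul hd).2 (by nlinarith)
        omega
      · rw [min_eq_right (by nlinarith)] at ht1
        rw [max_eq_left (by nlinarith)] at ht2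
        have q1 : y - 1 ≤ t / (2 * h + 1) := (Int.le_ediv_iff_mul_le hd).2 (by nlinarith)
        have q2 : t / (2 * h + 1) < y + 1 := (Int.ediv_lt_iff_lt_mul hd).2 (by nlinarith)
        omega
    rcases hor with e | e
    · rw [e]; exact hx
    · rw [e]; exact hx'
  rcases hab with ⟨h1, h2⟩ | ⟨h1, h2⟩ | ⟨h1, h2⟩ | ⟨h1, h2⟩
  · subst h2
    exact key1 _ _ _ ha hb (Or.inl h1)
  · subst h2
    exact key1 _ _ _ ha hb (Or.inr h1)
  · subst h1
    exact key2 _ _ _ ha hb (Or.inl h2)
  · subst h1
    exact key2 _ _ _ ha hb (Or.inr h2)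

/-- centre lines of coarse paths -/
theorem con_cenc_con {h : ℕ} {F : Set V} {a b : V} (ha : a ∈ F) (hab : Con F a b) :
    Con (ref h F) (cenc h a) (cenc h b) := by
  induction hab with
  | refl => exact Sp896.Con.refl _ _
  | tail h1 h2 ih => exact ih.trans (con_cenc_adj h2.1 (Con.mem h1 ha) h2.2)

theorem refCon : RefCon := by
  intro h F hF q hq q' hq'
  have h1 := con_cenc hq
  have h2 := con_cenc hq'
  refine h1.trans ((con_cenc_con ?_ (hF _ ?_ _ ?_)).trans (h2.symm hq'))
  · exact mem_ref.1 hq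
  · exact mem_ref.1 hq
  · exact mem_ref.1 hq'

theorem ref_compl (h : ℕ) (F : Set V) : ref h Fᶜ = (ref h F)ᶜ := rfl

/-- the same for the complement -/
theorem refCon' (h : ℕ) (F : Set V) (hF : ∀ q ∉ F, ∀ q' ∉ F, Con Fᶜ q q') :
    ∀ q ∉ ref h F, ∀ q' ∉ ref h F, Con (ref h F)ᶜ q q' :=
  refCon h Fᶜ hF

end Crest.Agent.R143.TentAx951
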