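import Crest.Agent.R143.Tent4_359
import Crest.Agent.R143.TentA_951

/-!
# Row 143 (S0194), block D, TENT, file 5 (helper359): the collars of the tentacles

* `Cfg.left_chain`, `Cfg.right_chain` : the two sides of a tentacle
* `refCfg'`, `collarArc'`, `collarTent`
-/

set_option autoImplicit false

namespace Crest.Agent.R143.Tentx359

open Crest.Agent.R158.Sp896

section cfg

variable {F : Set V} {L : ℕ} {v : ℕ → V} {m : ℕ → ℕ} {c : V} {M : ℤ} {n : ℕ} {U : ℕ → ℕ → V}

/-- the sides of the block of a path cell without arms are free -/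
theorem Cfg.sides (C : Cfg F L v m c M n U) {h : ℕ} (hh : 1 ≤ h) {i : ℕ} (hi : i < n) (a : ℕ) :
    ∀ w, Adj (U i (a + 1)) w → w ≠ U i a → w ≠ U i (a + 2) → ∀ t : ℤ, |t| ≤ h →
      side h (U i (a + 1)) w t ∈ (body (ref h F) (Uref h U) n)ᶜ := by
  intro w hw h1 h2 t ht
  refine C.side_free hh (C.out i hi a) hw ?_ ht
  intro i' hi' a' he
  obtain ⟨e1, e2⟩ := C.inj i hi i' hi' a a' he
  subst e1; subst e2
  exact ⟨h2, h1⟩

/-- left chain -/
theorem Cfg.left_chain (C : Cfg F L v m c M n U) {h : ℕ} (hh : 1 ≤ h) {i : ℕ} (hi : i < n) (a : ℕ) :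
    Con (body (ref h F) (Uref h U) n)ᶜ (side h (U i 1) (U i 0) (-h))
      (side h (U i (a + 1)) (U i a) (-h)) := by
  induction a with
  | zero => exact cRefl _ _
  | succ a ih =>
    have h1 := around_left (h := h) (S := (body (ref h F) (Uref h U) n)ᶜ) (C.step i hi a).symm
      (C.step i hi (a + 1)) (C.pn_ne hi a) (C.sides hh hi a)
    refine (ih.trans h1).trans (cOne (side_adj (C.step i hi (a + 1)) _) ?_)
    refine C.side_free' (C.out i hi (a + 1)) (C.step i hi (a + 1)).symm ?_ (by omega)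
    rw [abs_neg, abs_of_nonneg (by positivity)]

/-- right chain -/
theorem Cfg.right_chain (C : Cfg F L v m c M n U) {h : ℕ} (hh : 1 ≤ h) {i : ℕ} (hi : i < n) (a : ℕ) :
    Con (body (ref h F) (Uref h U) n)ᶜ (side h (U i 1) (U i 0) h)
      (side h (U i (a + 1)) (U i a) h) := by
  induction a with
  | zero => exact cRefl _ _
  | succ a ih =>
    have h1 := around_right (h := h) (S := (body (ref h F) (Uref h U) n)ᶜ) (C.step i hi a).symm
      (C.step i hi (a + 1)) (C.pn_ne hi a) (C.sides hh hi a)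
    have h2 := side_adj (h := h) (C.step i hi (a + 1)) (-h)
    rw [neg_neg] at h2
    refine (ih.trans h1).trans (cOne h2 ?_)
    refine C.side_free' (C.out i hi (a + 1)) (C.step i hi (a + 1)).symm ?_ (by omega)
    rw [abs_of_nonneg (by positivity)]

/-- outer cells of the fine edges of a marked edge -/
theorem Cfg.rcv_mark (C : Cfg F L v m c M n U) {h : ℕ} {i : ℕ} (hi : i < n) (s : ℕ)
    (hs : s ≤ 2 * h) : rcv (vref h v) ((2 * h + 1) * m i + s) = side h (U i 1) (U i 0) (h - s) := by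
  rw [(cells_vref (m i) s hs (C.cyc.step (m i))).2, C.start0 i hi, C.start1 i hi]
  unfold side
  have hA := C.cyc.step (m i)
  unfold lcv rcv lc rc
  generalize v (m i) = p at *
  generalize v (m i + 1) = p' at *
  obtain ⟨x, y⟩ := p
  obtain ⟨x', y'⟩ := p'
  unfold Adj at hA
  rcases hA with ⟨e1, e2⟩ | ⟨e1, e2⟩ | ⟨e1, e2⟩ | ⟨e1, e2⟩ <;> simp only at e1 e2 <;>
    simp only [e1, e2]
  · have a1 : (x + (x + 1) - (y - y) - 1) / 2 = x := by omega
    have a2 : (y + y + (x + 1 - x) - 1) / 2 = y := by omega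
    have a3 : (x + (x + 1) + (y - y) - 1) / 2 = x := by omega
    have a4 : (y + y - (x + 1 - x) - 1) / 2 = y - 1 := by omega
    rw [a1, a2, a3, a4]
    refine Prod.ext ?_ ?_ <;> simp only <;> ring
  · have a1 : (x + (x - 1) - (y - y) - 1) / 2 = x - 1 := by omega
    have a2 : (y + y + (x - 1 - x) - 1) / 2 = y - 1 := by omega
    have a3 : (x + (x - 1) + (y - y) - 1) / 2 = x - 1 := by omega
    have a4 : (y + y - (x - 1 - x) - 1) / 2 = y := by omega
    rw [a1, a2, a3, a4]
    refine Prod.ext ?_ ?_ <;> simp only <;> ring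
  · have a1 : (x + x - (y + 1 - y) - 1) / 2 = x - 1 := by omega
    have a2 : (y + (y + 1) + (x - x) - 1) / 2 = y := by omega
    have a3 : (x + x + (y + 1 - y) - 1) / 2 = x := by omega
    have a4 : (y + (y + 1) - (x - x) - 1) / 2 = y := by omega
    rw [a1, a2, a3, a4]
    refine Prod.ext ?_ ?_ <;> simp only <;> ring
  · have a1 : (x + x - (y - 1 - y) - 1) / 2 = x := by omega
    have a2 : (y + (y - 1) + (x - x) - 1) / 2 = y - 1 := by omega
    have a3 : (x + x + (y - 1 - y) - 1) / 2 = x - 1 := by omega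
    have a4 : (y + (y - 1) - (x - x) - 1) / 2 = y - 1 := by omega
    rw [a1, a2, a3, a4]
    refine Prod.ext ?_ ?_ <;> simp only <;> ring

/-- start of the left side -/
theorem Cfg.left_start (C : Cfg F L v m c M n U) {h : ℕ} (hh : 1 ≤ h) {i : ℕ} (hi : i < n) :
    Con (body (ref h F) (Uref h U) n)ᶜ (rcv (vref h v) (mref h m i + 1))
      (side h (U i 1) (U i 0) (-h)) := by
  unfold mref
  rw [Nat.add_assoc, C.rcv_mark hi (h + 1) (by omega)]
  have e : (h : ℤ) - (h + 1 : ℕ) = -1 := by push_cast; ring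
  rw [e]
  refine side_con (C.step i hi 0).symm fun r h1 h2 => ?_
  have h3 : r ≤ -1 := h2.trans (max_le le_rfl (by omega))
  have h4 : -(h : ℤ) ≤ r := (le_min (by omega) le_rfl).trans h1
  exact C.side_free' (C.out i hi 0) (C.step i hi 0).symm (by rw [abs_le]; omega) (by omega)

/-- start of the right side -/
theorem Cfg.right_start (C : Cfg F L v m c M n U) {h : ℕ} (hh : 1 ≤ h) {i : ℕ} (hi : i < n) :
    Con (body (ref h F) (Uref h U) n)ᶜ (rcv (vref h v) (mref h m i - 1))
      (side h (U i 1) (U i 0) h) := by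
  unfold mref
  have e0 : (2 * h + 1) * m i + h - 1 = (2 * h + 1) * m i + (h - 1) := by omega
  rw [e0, C.rcv_mark hi (h - 1) (by omega)]
  have e : (h : ℤ) - (h - 1 : ℕ) = 1 := by rw [Nat.cast_sub hh]; push_cast; ring
  rw [e]
  refine side_con (C.step i hi 0).symm fun r h1 h2 => ?_
  have h3 : 1 ≤ r := (le_min le_rfl (by omega)).trans h1
  have h4 : r ≤ (h : ℤ) := h2.trans (max_le (by omega) le_rfl)
  exact C.side_free' (C.out i hi 0) (C.step i hi 0).symm (by rw [abs_le]; omega) (by omega)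

/-- a free cell of a block is connected to a corner -/
theorem Cfg.to_corner (C : Cfg F L v m c M n U) {h : ℕ} (hh : 1 ≤ h) {i : ℕ} (hi : i < n) (a : ℕ)
    {f : V} (hb : Blk h (U i (a + 1)) f) (hf : f ∉ body (ref h F) (Uref h U) n) :
    ∃ w, Adj (U i (a + 1)) w ∧
      Con (body (ref h F) (Uref h U) n)ᶜ f (side h (U i (a + 1)) w h) := by
  obtain ⟨x, y, hx, hy, rfl⟩ := blk_pos hb
  set q := U i (a + 1) with hq
  have hqF : q ∉ F := C.out i hi a
  have hx' := abs_le.1 hx
  have hy' := abs_le.1 hy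
  -- the cells of the arm
  have harm : ∀ w, Adj q w → ∀ s : ℕ, s ≤ h → pos h q x y = arm h q w s →
      Con (body (ref h F) (Uref h U) n)ᶜ (pos h q x y) (side h q w h) := by
    intro w hw s hs he
    have hw1 : w ≠ U i (a + 2) ∧ w ≠ U i a := by
      constructor
      · rintro rfl
        refine hf (Or.inr ⟨i, hi, _, he.trans (arm_plus h U i a s hs)⟩)
      · rintro rfl
        refine hf (Or.inr ⟨i, hi, _, he.trans (arm_minus h U i a s hs)⟩)
    have hs0 : 0 < s := by
      rcases Nat.eq_zero_or_pos s with h0 | h0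
      · exfalso
        subst h0
        refine hf (Or.inr ⟨i, hi, _, he.trans (Eq.trans ?_ (arm_plus h U i a 0 (by omega)))⟩)
        unfold arm
        simp
        rfl
      · exact h0
    have hfr : ∀ i' < n, ∀ a', q = U i' (a' + 1) → w ≠ U i' (a' + 2) ∧ w ≠ U i' a' := by
      intro i' hi' a' he'
      obtain ⟨e1, e2⟩ := C.inj i hi i' hi' a a' he'
      subst e1; subst e2
      exact hw1
    have hd : Adj (0, 0) ((w.1 - q.1, w.2 - q.2) : V) := by
      unfold Adj at hw ⊢
      simp only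
      omega
    have h1 := line_con (S := (body (ref h F) (Uref h U) n)ᶜ) (p := cenc h q) hd
      (t := s) (t' := h) (fun r h1 h2 => by
        have h3 : (s : ℤ) ≤ r := (le_min le_rfl (by exact_mod_cast hs)).trans h1
        have h4 : r ≤ (h : ℤ) := h2.trans (max_le (by exact_mod_cast hs) le_rfl)
        obtain ⟨r', hr'⟩ := Int.eq_ofNat_of_zero_le (show 0 ≤ r by omega)
        subst hr'
        exact C.arm_free hqF hw hfr (s := r') (by exact_mod_cast h4) (by omega))
    have e1 : ((cenc h q).1 + (s : ℤ) * ((w.1 - q.1, w.2 - q.2) : V).1,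
        (cenc h q).2 + (s : ℤ) * ((w.1 - q.1, w.2 - q.2) : V).2) = pos h q x y := he.symm
    have e2 : ((cenc h q).1 + (h : ℤ) * ((w.1 - q.1, w.2 - q.2) : V).1,
        (cenc h q).2 + (h : ℤ) * ((w.1 - q.1, w.2 - q.2) : V).2) = side h q w 0 :=
      (side_zero h q w).symm
    rw [e1, e2] at h1
    refine h1.trans (side_con hw fun r h1 h2 => ?_)
    have h3 : 0 ≤ r := (le_min le_rfl (by positivity)).trans h1
    have h4 : r ≤ (h : ℤ) := h2.trans (max_le (by positivity) le_rfl)
    exact C.side_free hh hqF hw hfr (by rw [abs_le]; omega)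
  by_cases hx0 : x = 0
  · by_cases hy0 : 0 ≤ y
    · obtain ⟨s, hs⟩ := Int.eq_ofNat_of_zero_le hy0
      refine ⟨(q.1, q.2 + 1), by unfold Adj; simp, harm _ (by unfold Adj; simp) s (by omega) ?_⟩
      unfold pos arm
      ext <;> simp [hx0, hs]
    · obtain ⟨s, hs⟩ := Int.eq_ofNat_of_zero_le (show 0 ≤ -y by omega)
      refine ⟨(q.1, q.2 - 1), by unfold Adj; simp, harm _ (by unfold Adj; simp) s (by omega) ?_⟩
      unfold pos arm
      ext
      · simp [hx0]
      · simp only; ring_nf; omega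
  by_cases hy0 : y = 0
  · by_cases hx1 : 0 ≤ x
    · obtain ⟨s, hs⟩ := Int.eq_ofNat_of_zero_le hx1
      refine ⟨(q.1 + 1, q.2), by unfold Adj; simp, harm _ (by unfold Adj; simp) s (by omega) ?_⟩
      unfold pos arm
      ext <;> simp [hy0, hs]
    · obtain ⟨s, hs⟩ := Int.eq_ofNat_of_zero_le (show 0 ≤ -x by omega)
      refine ⟨(q.1 - 1, q.2), by unfold Adj; simp, harm _ (by unfold Adj; simp) s (by omega) ?_⟩
      unfold pos arm
      ext
      · simp only; ring_nf; omega
      · simp [hy0]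
  -- off the axes
  have hgo : ∀ X Y : ℤ, (X = h ∨ X = -h) → (Y = h ∨ Y = -h) → (0 < x ↔ 0 < X) → (0 < y ↔ 0 < Y) →
      Con (body (ref h F) (Uref h U) n)ᶜ (pos h q x y) (pos h q X Y) := by
    intro X Y hX hY hxX hyY
    have h1 := line_con (S := (body (ref h F) (Uref h U) n)ᶜ) (p := pos h q 0 y) (d := (1, 0))
      (by unfold Adj; simp) (t := x) (t' := X) (fun r h1 h2 => by
        have h3 : ((pos h q 0 y).1 + r * ((1, 0) : V).1, (pos h q 0 y).2 + r * ((1, 0) : V).2) =
            pos h q r y := by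
          unfold pos; ext <;> simp
        rw [h3]
        have h4 : min x X ≤ r := h1
        have h5 : r ≤ max x X := h2
        rw [min_le_iff] at h4
        rw [le_max_iff] at h5
        exact C.off_free hqF (by rw [abs_le]; omega) hy (by omega) hy0)
    have h2 := line_con (S := (body (ref h F) (Uref h U) n)ᶜ) (p := pos h q X 0) (d := (0, 1))
      (by unfold Adj; simp) (t := y) (t' := Y) (fun r h1 h2 => by
        have h3 : ((pos h q X 0).1 + r * ((0, 1) : V).1, (pos h q X 0).2 + r * ((0, 1) : V).2) =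
            pos h q X r := by
          unfold pos; ext <;> simp
        rw [h3]
        have h4 : min y Y ≤ r := h1
        have h5 : r ≤ max y Y := h2
        rw [min_le_iff] at h4
        rw [le_max_iff] at h5
        exact C.off_free hqF (by rw [abs_le]; omega) (by rw [abs_le]; omega) (by omega) (by omega))
    have e1 : ((pos h q 0 y).1 + x * ((1, 0) : V).1, (pos h q 0 y).2 + x * ((1, 0) : V).2) =
        pos h q x y := by
      unfold pos; ext <;> simp
    have e2 : ((pos h q 0 y).1 + X * ((1, 0) : V).1, (pos h q 0 y).2 + X * ((1, 0) : V).2) =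
        pos h q X y := by
      unfold pos; ext <;> simp
    have e3 : ((pos h q X 0).1 + y * ((0, 1) : V).1, (pos h q X 0).2 + y * ((0, 1) : V).2) =
        pos h q X y := by
      unfold pos; ext <;> simp
    have e4 : ((pos h q X 0).1 + Y * ((0, 1) : V).1, (pos h q X 0).2 + Y * ((0, 1) : V).2) =
        pos h q X Y := by
      unfold pos; ext <;> simp
    rw [e1, e2] at h1
    rw [e3, e4] at h2
    exact h1.trans h2
  rcases lt_or_ge 0 x with hx1 | hx1 <;> rcases lt_or_ge 0 y with hy1 | hy1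
  · refine ⟨(q.1 + 1, q.2), by unfold Adj; simp, ?_⟩
    have := hgo h h (Or.inl rfl) (Or.inl rfl) (by omega) (by omega)
    rw [side_pos]
    simpa using this
  · refine ⟨(q.1, q.2 - 1), by unfold Adj; simp, ?_⟩
    have := hgo h (-h) (Or.inl rfl) (Or.inr rfl) (by omega) (by omega)
    rw [side_pos]
    simpa using this
  · refine ⟨(q.1, q.2 + 1), by unfold Adj; simp, ?_⟩
    have := hgo (-h) h (Or.inr rfl) (Or.inl rfl) (by omega) (by omega)
    rw [side_pos]
    simpa using this
  · refine ⟨(q.1 - 1, q.2), by unfold Adj; simp, ?_⟩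
    have := hgo (-h) (-h) (Or.inr rfl) (Or.inr rfl) (by omega) (by omega)
    rw [side_pos]
    simpa using this

/-- a complement cell next to a fine tentacle cell is in its block -/
theorem Cfg.nb_blk (C : Cfg F L v m c M n U) {h : ℕ} (hh : 1 ≤ h) {i : ℕ} (hi : i < n) {j : ℕ}
    {q : V} (hq : Adj (Uref h U i (j + 1)) q) (hqB : q ∉ body (ref h F) (Uref h U) n) :
    ∃ a, Blk h (U i (a + 1)) q := by
  obtain ⟨a, s, hs, hA⟩ := uref_cases h U i j
  refine ⟨a, ?_⟩
  obtain ⟨q', hq'⟩ : ∃ q', Blk h q' q := ⟨_, blk_iff.2 rfl⟩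
  by_cases hne : q' = U i (a + 1)
  · exact hne ▸ hq'
  exfalso
  have h1 : |(Uref h U i (j + 1)).1 - q.1| ≤ 1 := by
    unfold Adj at hq; rw [abs_le]; omega
  have h2 : |(Uref h U i (j + 1)).2 - q.2| ≤ 1 := by
    unfold Adj at hq; rw [abs_le]; omega
  rcases hA with ⟨e, hn⟩ | ⟨e, hn, hp⟩
  · -- next cell
    have hst := C.step i hi (a + 1)
    have hq0 := hq
    rw [e] at h1 h2 hq
    obtain ⟨-, g2, g3⟩ := arm_adj hh hst hs hq' hne h1 h2
    apply hqB
    refine Or.inr ⟨i, hi, j + 1, ?_⟩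
    have e1 : Uref h U i (j + 1 + 1) = CL h (U i) ((2 * h + 1) * (a + 1) + (h + 1)) := by
      unfold Uref
      congr 1
      omega
    have e2 : (2 * h + 1) * (a + 1) + (h + 1) = (2 * h + 1) * (a + 1 + 1) - h := by
      have : (2 * h + 1) * (a + 1 + 1) = (2 * h + 1) * (a + 1) + (2 * h + 1) := by ring
      omega
    rw [e1, e2, CL_sub (U i) (a + 1) h le_rfl]
    unfold arm cenc at g3 hq
    unfold cenc
    unfold Adj at hst hq
    rw [g2] at g3 hq
    have hst' : ((U i (a + 1 + 1)).1 = (U i (a + 1)).1 + 1 ∧ (U i (a + 1 + 1)).2 = (U i (a + 1)).2) ∨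
      ((U i (a + 1 + 1)).1 = (U i (a + 1)).1 - 1 ∧ (U i (a + 1 + 1)).2 = (U i (a + 1)).2) ∨
      ((U i (a + 1 + 1)).1 = (U i (a + 1)).1 ∧ (U i (a + 1 + 1)).2 = (U i (a + 1)).2 + 1) ∨
      ((U i (a + 1 + 1)).1 = (U i (a + 1)).1 ∧ (U i (a + 1 + 1)).2 = (U i (a + 1)).2 - 1) := hst
    have e3 : U i (a + 2) = U i (a + 1 + 1) := rfl
    rw [e3] at g3 hq
    rcases hst' with ⟨s1, s2⟩ | ⟨s1, s2⟩ | ⟨s1, s2⟩ | ⟨s1, s2⟩ <;> simp only [s1, s2] at g3 hq ⊢ <;>
      (refine Prod.ext ?_ ?_ <;> simp only <;> ring_nf at g3 hq ⊢ <;> omega)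
  · -- previous cell
    have hst := (C.step i hi a).symm
    rw [e] at h1 h2 hq
    obtain ⟨-, g2, g3⟩ := arm_adj hh hst hs hq' hne h1 h2
    apply hqB
    have e1 : q = Uref h U i j := by
      have e1 : Uref h U i j = CL h (U i) ((2 * h + 1) * a + h) := by
        unfold Uref
        congr 1
        have : (2 * h + 1) * (a + 1) = (2 * h + 1) * a + (2 * h + 1) := by ring
        omega
      rw [e1, CL_add (U i) a h le_rfl]
      unfold arm cenc at g3 hq
      unfold cenc
      unfold Adj at hst hq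
      rw [g2] at g3 hq
      rcases hst with ⟨s1, s2⟩ | ⟨s1, s2⟩ | ⟨s1, s2⟩ | ⟨s1, s2⟩ <;>
        simp only [s1, s2] at g3 hq ⊢ <;>
        (refine Prod.ext ?_ ?_ <;> simp only <;> ring_nf at g3 hq ⊢ <;> omega)
    rcases Nat.eq_zero_or_pos j with h0 | h0
    · subst h0
      rw [e1]
      exact Or.inl (C.uref_zero_mem h hi)
    · obtain ⟨j', rfl⟩ : ∃ j', j = j' + 1 := ⟨j - 1, by omega⟩
      exact Or.inr ⟨i, hi, j', e1⟩

end cfg

end Crest.Agent.R143.Tentx359
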