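import Crest.Agent.R143.Tent6_359

/-!
# Row 143 (S0194), block D, TENT, file 7 (helper359): adding a tentacle, existence

* `clamp`, `Cfg.clamp_con` : connections inside a box
* `exists_simple` : simple paths
* `Cfg.add` : adding a tentacle
* `Cfg.rcv_body` : fine outer cells in the body
* `exCfg : ExCfg`
-/

set_option autoImplicit false

namespace Crest.Agent.R143.Tentx359

open Crest.Agent.R158.Sp896

/-! ### the clamp map -/

/-- projection to the box of radius `R` around `c` -/
def clamp (c : V) (R : ℤ) (f : V) : V :=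
  (c.1 + max (-R) (min R (f.1 - c.1)), c.2 + max (-R) (min R (f.2 - c.2)))

/-- the box of radius `R` around `c` -/
def Box (c : V) (R : ℤ) : Set V := {f | |f.1 - c.1| ≤ R ∧ |f.2 - c.2| ≤ R}

theorem clamp_mem {c : V} {R : ℤ} (hR : 0 ≤ R) (f : V) : clamp c R f ∈ Box c R := by
  unfold clamp Box
  simp only [Set.mem_ofPred_eq, add_sub_cancel_left, abs_le]
  omega

theorem clamp_eq {c : V} {R : ℤ} {f : V} (hf : f ∈ Box c R) : clamp c R f = f := by
  unfold Box at hf
  rw [Set.mem_ofPred_eq, abs_le, abs_le] at hf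
  unfold clamp
  ext <;> simp only <;> omega

theorem cl_succ {R : ℤ} (hR : 0 ≤ R) (x : ℤ) :
    max (-R) (min R (x + 1)) = max (-R) (min R x) ∨
    max (-R) (min R (x + 1)) = max (-R) (min R x) + 1 := by omega

theorem cl_pred {R : ℤ} (hR : 0 ≤ R) (x : ℤ) :
    max (-R) (min R (x - 1)) = max (-R) (min R x) ∨
    max (-R) (min R (x - 1)) = max (-R) (min R x) - 1 := by omega

theorem clamp_adj {c : V} {R : ℤ} (hR : 0 ≤ R) {f g : V} (h : Adj f g) :
    clamp c R f = clamp c R g ∨ Adj (clamp c R f) (clamp c R g) := by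
  unfold clamp Adj
  simp only [Prod.ext_iff]
  rcases h with ⟨h1, h2⟩ | ⟨h1, h2⟩ | ⟨h1, h2⟩ | ⟨h1, h2⟩
  · rw [h2, show g.1 - c.1 = f.1 - c.1 + 1 by omega]
    rcases cl_succ hR (f.1 - c.1) with h3 | h3 <;> rw [h3]
    · left; exact ⟨rfl, rfl⟩
    · right; left; exact ⟨by ring, rfl⟩
  · rw [h2, show g.1 - c.1 = f.1 - c.1 - 1 by omega]
    rcases cl_pred hR (f.1 - c.1) with h3 | h3 <;> rw [h3]
    · left; exact ⟨rfl, rfl⟩
    · right; right; left; exact ⟨by ring, rfl⟩
  · rw [h1, show g.2 - c.2 = f.2 - c.2 + 1 by omega]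
    rcases cl_succ hR (f.2 - c.2) with h3 | h3 <;> rw [h3]
    · left; exact ⟨rfl, rfl⟩
    · right; right; right; left; exact ⟨rfl, by ring⟩
  · rw [h1, show g.2 - c.2 = f.2 - c.2 - 1 by omega]
    rcases cl_pred hR (f.2 - c.2) with h3 | h3 <;> rw [h3]
    · left; exact ⟨rfl, rfl⟩
    · right; right; right; right; exact ⟨rfl, by ring⟩

theorem clamp_con_aux {c : V} {R : ℤ} (hR : 0 ≤ R) {B : Set V} (hB : ∀ f ∉ B, clamp c R f ∉ B)
    {f g : V} (h : Con Bᶜ f g) : Con (Bᶜ ∩ Box c R) (clamp c R f) (clamp c R g) := by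
  induction h with
  | refl => exact cRefl _ _
  | tail h1 h2 ih =>
    rcases clamp_adj (c := c) hR h2.1 with h3 | h3
    · rw [← h3]; exact ih
    · exact ih.trans (cOne h3 ⟨hB _ h2.2, clamp_mem hR _⟩)

/-! ### simple paths -/

/-- path of length `N` in `S` -/
def PathIn (S : Set V) (q q' : V) (N : ℕ) (f : ℕ → V) : Prop :=
  f 0 = q ∧ f N = q' ∧ (∀ i < N, Adj (f i) (f (i + 1))) ∧ ∀ i ≤ N, f i ∈ S

theorem exists_path {S : Set V} {q q' : V} (hq : q ∈ S) (h : Con S q q') :
    ∃ N f, PathIn S q q' N f := by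
  induction h with
  | refl => exact ⟨0, fun _ => q, rfl, rfl, fun i hi => absurd hi (by omega), fun _ _ => hq⟩
  | @tail b c h1 h2 ih =>
    obtain ⟨N, f, f0, fN, fa, fS⟩ := ih
    refine ⟨N + 1, fun i => if i ≤ N then f i else c, ?_, ?_, ?_, ?_⟩
    · simp [f0]
    · simp
    · intro i hi
      show Adj (if i ≤ N then f i else c) (if i + 1 ≤ N then f (i + 1) else c)
      rcases Nat.lt_or_ge i N with h3 | h3
      · rw [if_pos (by omega), if_pos (by omega)]
        exact fa i h3
      · have : i = N := by omega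
        subst this
        rw [if_pos le_rfl, if_neg (by omega), fN]
        exact h2.1
    · intro i hi
      show (if i ≤ N then f i else c) ∈ S
      by_cases h3 : i ≤ N
      · rw [if_pos h3]; exact fS i h3
      · rw [if_neg h3]; exact h2.2

theorem exists_simple {S : Set V} {q q' : V} (hq : q ∈ S) (h : Con S q q') :
    ∃ N f, PathIn S q q' N f ∧ ∀ i ≤ N, ∀ j ≤ N, f i = f j → i = j := by
  classical
  have hex : ∃ N, ∃ f, PathIn S q q' N f := exists_path hq h
  obtain ⟨f, hf⟩ := Nat.find_spec hex
  set N := Nat.find hex with hN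
  have hmin : ∀ N' < N, ¬ ∃ f, PathIn S q q' N' f := fun N' h => Nat.find_min hex h
  refine ⟨N, f, hf, ?_⟩
  have key : ∀ i j, i < j → j ≤ N → f i ≠ f j := by
    intro i j hij hj he
    obtain ⟨f0, fN, fa, fS⟩ := hf
    refine hmin (N - (j - i)) (by omega)
      ⟨fun k => if k ≤ i then f k else f (k + (j - i)), ?_, ?_, ?_, ?_⟩
    · simp [f0]
    · show (if N - (j - i) ≤ i then f (N - (j - i)) else f (N - (j - i) + (j - i))) = q'
      by_cases h1 : N - (j - i) ≤ i
      · rw [if_pos h1]
        have h2 : j = N := by omega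
        have h3 : N - (j - i) = i := by omega
        rw [h3, he, h2, fN]
      · rw [if_neg h1]
        have h3 : N - (j - i) + (j - i) = N := by omega
        rw [h3, fN]
    · intro k hk
      show Adj (if k ≤ i then f k else f (k + (j - i)))
        (if k + 1 ≤ i then f (k + 1) else f (k + 1 + (j - i)))
      by_cases h1 : k + 1 ≤ i
      · rw [if_pos (by omega), if_pos h1]
        exact fa k (by omega)
      · by_cases h2 : k ≤ i
        · have h3 : k = i := by omega
          rw [if_pos h2, if_neg h1, h3, he]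
          have h4 : i + 1 + (j - i) = j + 1 := by omega
          rw [h4]
          exact fa j (by omega)
        · rw [if_neg h2, if_neg h1]
          have h4 : k + 1 + (j - i) = k + (j - i) + 1 := by omega
          rw [h4]
          exact fa _ (by omega)
    · intro k hk
      show (if k ≤ i then f k else f (k + (j - i))) ∈ S
      by_cases h2 : k ≤ i
      · rw [if_pos h2]; exact fS k (by omega)
      · rw [if_neg h2]; exact fS _ (by omega)
  intro i hi j hj he
  rcases lt_trichotomy i j with h1 | h1 | h1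
  · exact absurd he (key i j h1 hj)
  · exact h1
  · exact absurd he.symm (key j i h1 hi)

section cfg

variable {F : Set V} {L : ℕ} {v : ℕ → V} {m : ℕ → ℕ} {c : V} {M : ℤ} {n : ℕ} {U : ℕ → ℕ → V}

theorem Cfg.clamp_free (C : Cfg F L v m c M n U) {R : ℤ} (hR : M < R) {f : V}
    (hf : f ∉ body F U n) : clamp c R f ∉ body F U n := by
  intro hc
  have hM := C.M_pos
  have hn := C.n4
  have hbox := clamp_mem (c := c) (show 0 ≤ R by omega) f
  by_cases hin : f ∈ Box c R
  · rw [clamp_eq hin] at hc
    exact hf hc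
  · unfold Box at hin hbox
    rw [Set.mem_ofPred_eq, abs_le, abs_le] at hin hbox
    have hfar : M < |(clamp c R f).1 - c.1| ∨ M < |(clamp c R f).2 - c.2| := by
      unfold clamp
      simp only [lt_abs]
      omega
    obtain ⟨i, hi, r, hr, he⟩ := C.far hc hfar
    apply hf
    unfold clamp at he
    rw [Prod.ext_iff] at he
    simp only at he
    rcases dir_cases (show i < 4 by omega) with ⟨-, e⟩ | ⟨-, e⟩ | ⟨-, e⟩ | ⟨-, e⟩
    · have := C.ray_mem hi (r := f.1 - c.1) (by rw [e] at he; simp only at he; omega)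
      convert this using 1
      rw [e] at he ⊢
      simp only at he ⊢
      ext <;> simp only <;> omega
    · have := C.ray_mem hi (r := f.2 - c.2) (by rw [e] at he; simp only at he; omega)
      convert this using 1
      rw [e] at he ⊢
      simp only at he ⊢
      ext <;> simp only <;> omega
    · have := C.ray_mem hi (r := c.1 - f.1) (by rw [e] at he; simp only at he; omega)
      convert this using 1
      rw [e] at he ⊢
      simp only at he ⊢
      ext <;> simp only <;> omega
    · have := C.ray_mem hi (r := c.2 - f.2) (by rw [e] at he; simp only at he; omega)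
      convert this using 1
      rw [e] at he ⊢
      simp only at he ⊢
      ext <;> simp only <;> omega

/-- **clamp**: connections inside the box -/
theorem Cfg.clamp_con (C : Cfg F L v m c M n U) {R : ℤ} (hR : M < R) {f g : V}
    (hf : f ∈ Box c R) (hg : g ∈ Box c R) (h : Con (body F U n)ᶜ f g) :
    Con ((body F U n)ᶜ ∩ Box c R) f g := by
  have hM := C.M_pos
  have := clamp_con_aux (c := c) (show 0 ≤ R by omega)
    (fun f hf => C.clamp_free hR hf) h
  rwa [clamp_eq hf, clamp_eq hg] at this

end cfg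

end Crest.Agent.R143.Tentx359
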