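import Crest.Agent.R143.TentB_951

/-!
# Row 143 (S0194), block D, TENT B, part 2 (helper951): the four classes

* `Fine F L v m c M U` : a clean configuration with its collars
* `cls` : the class of the complement of the body after the mark `i`
* `disj` : different classes are disjoint, `cover`, `cls_con`, `quad`, `not_adj8`
-/

set_option autoImplicit false

namespace Crest.Agent.R143.TentBx951

open Crest.Agent.R158 Crest.Agent.R158.Sp896 Crest.Agent.R143.Tentx359 Crest.Agent.R143.TentAx951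

theorem lcv_bw (c : V) (R : ℕ) {i : ℕ} (hi : i < 4) {s : ℕ} (hs : s + 1 ≤ R) :
    lcv (bw c R) ((2 * R + 1) * i + (R + s)) =
      (c.1 + R * (dir i).1 + s * (rot (dir i)).1, c.2 + R * (dir i).2 + s * (rot (dir i)).2) := by
  unfold lcv
  rw [show (2 * R + 1) * i + (R + s) + 1 = (2 * R + 1) * i + (R + (s + 1)) by ring,
    bw_exit c R hi (by omega), bw_exit c R hi hs]
  unfold lc
  interval_cases i <;> simp only [dir, rot] <;> norm_num <;> constructor <;> omega

/-- a finite path stays in a large box -/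
theorem con_box {S : Set V} (c : V) {p q : V} (h : Con S p q) :
    ∃ R0 : ℤ, ∀ R : ℤ, R0 ≤ R → Con (Bx c R ∩ S) p q := by
  induction h with
  | refl => exact ⟨0, fun R _ => Sp896.Con.refl _ _⟩
  | @tail a b _ h2 ih =>
    obtain ⟨R0, h0⟩ := ih
    refine ⟨max R0 (max |b.1 - c.1| |b.2 - c.2|), fun R hR => ?_⟩
    have h3 := h0 R (le_trans (le_max_left _ _) hR)
    refine h3.trans (Sp896.Con.one h2.1 ⟨⟨?_, ?_⟩, h2.2⟩)
    · exact le_trans (le_trans (le_max_left _ _) (le_max_right _ _)) hR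
    · exact le_trans (le_trans (le_max_right _ _) (le_max_right _ _)) hR

/-- a clean configuration with four tentacles and its collars -/
structure Fine (F : Set V) (L : ℕ) (v : ℕ → V) (m : ℕ → ℕ) (c : V) (M : ℤ) (U : ℕ → ℕ → V) :
    Prop where
  C : Cfg F L v m c M 4 U
  /-- collar between two boundary edges -/
  arc : ∀ a b : ℕ, a ≤ b → (∀ x, a ≤ x → x ≤ b → rcv v x ∉ body F U 4) →
    Con (body F U 4)ᶜ (rcv v a) (rcv v b)
  /-- left side of the ray -/
  tl : ∀ i < 4, ∀ r : ℤ, M < r → Con (body F U 4)ᶜ (rcv v (m i + 1))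
    (c.1 + r * (dir i).1 + (rot (dir i)).1, c.2 + r * (dir i).2 + (rot (dir i)).2)
  /-- right side of the ray -/
  tR : ∀ i < 4, ∀ r : ℤ, M < r → Con (body F U 4)ᶜ (rcv v (m i - 1))
    (c.1 + r * (dir i).1 - (rot (dir i)).1, c.2 + r * (dir i).2 - (rot (dir i)).2)
  /-- sides of the tentacle -/
  ts : ∀ i < 4, ∀ j : ℕ, ∀ q : V, Adj (U i (j + 1)) q → q ∉ body F U 4 →
    Con (body F U 4)ᶜ (rcv v (m i + 1)) q ∨ Con (body F U 4)ᶜ (rcv v (m i - 1)) q
  /-- clean -/
  cl : ∀ i < 4, ∀ j : ℕ, ∀ i' < 4, ∀ j' : ℕ, |(U i (j + 1)).1 - (U i' (j' + 1)).1| ≤ 1 →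
    |(U i (j + 1)).2 - (U i' (j' + 1)).2| ≤ 1 → i = i' ∧ j ≤ j' + 2 ∧ j' ≤ j + 2
  clF : ∀ i < 4, ∀ j : ℕ, ∀ f ∈ F, |(U i (j + 1)).1 - f.1| ≤ 1 → |(U i (j + 1)).2 - f.2| ≤ 1 →
    j = 0 ∧ (f.1 - (U i 1).1) * ((U i 0).1 - (U i 1).1) +
      (f.2 - (U i 1).2) * ((U i 0).2 - (U i 1).2) = 1
  m0 : 0 < m 0
  g01 : m 0 + 1 < m 1
  g12 : m 1 + 1 < m 2
  g23 : m 2 + 1 < m 3
  g30 : m 3 + 1 < L + m 0

/-- class of the complement after the mark `i` -/
def cls (F : Set V) (v : ℕ → V) (m : ℕ → ℕ) (U : ℕ → ℕ → V) (i : ℕ) : Set V :=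
  {q | q ∉ body F U 4 ∧ Con (body F U 4)ᶜ (rcv v (m i + 1)) q}

section fine

variable {F : Set V} {L : ℕ} {v : ℕ → V} {m : ℕ → ℕ} {c : V} {M : ℤ} {U : ℕ → ℕ → V}

theorem ray_pt (C : Cfg F L v m c M 4 U) {i : ℕ} (hi : i < 4) {r : ℤ} (hr : M ≤ r) :
    ((c.1 + r * (dir i).1, c.2 + r * (dir i).2) : V) ∈ body F U 4 := by
  obtain ⟨j0, h0, -, h2⟩ := C.ray i hi
  refine Or.inr ⟨i, hi, j0 - 1 + (r - M).toNat, ?_⟩
  have h3 := h2 (r - M).toNat
  have e : M + ((r - M).toNat : ℤ) = r := by omega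
  rw [e] at h3
  rw [← h3]
  congr 1
  omega

/-- outside the box the body is the union of the four rays -/
theorem body_out (C : Cfg F L v m c M 4 U) {q : V} (hq : q ∉ Bx c M) : q ∈ body F U 4 ↔
    ∃ i < 4, ∃ r : ℤ, M < r ∧ q = (c.1 + r * (dir i).1, c.2 + r * (dir i).2) := by
  constructor
  · rintro (h | ⟨i, hi, j, rfl⟩)
    · exact absurd ⟨(C.box q h).1.le, (C.box q h).2.le⟩ hq
    · obtain ⟨j0, h0, h1, h2⟩ := C.ray i hi
      rcases Nat.lt_or_ge j0 (j + 1) with h | h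
      · refine ⟨i, hi, M + ((j + 1 - j0 : ℕ) : ℤ), by omega, ?_⟩
        have h3 := h2 (j + 1 - j0)
        rw [show j0 + (j + 1 - j0) = j + 1 by omega] at h3
        exact h3
      · exact absurd (h1 (j + 1) h) hq
  · rintro ⟨i, hi, r, hr, rfl⟩
    exact ray_pt C hi hr.le

/-- the tentacle inside a box -/
theorem tent_con (C : Cfg F L v m c M 4 U) {R : ℤ} (hR : M ≤ R) {i : ℕ} (hi : i < 4) (j : ℕ)
    (h : U i (j + 1) ∈ Bx c R) : Con (body F U 4 ∩ Bx c R) (U i 0) (U i (j + 1)) := by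
  obtain ⟨j0, h0, h1, h2⟩ := C.ray i hi
  -- initial segment
  have hin : ∀ k, k ≤ j + 1 → U i k ∈ Bx c R := by
    intro k hk
    rcases Nat.lt_or_ge j0 k with h' | h'
    · have h3 := h2 (k - j0)
      rw [show j0 + (k - j0) = k by omega] at h3
      have h4 := h2 (j + 1 - j0)
      rw [show j0 + (j + 1 - j0) = j + 1 by omega] at h4
      rw [h4, mem_Bx] at h
      rw [h3, mem_Bx]
      have hkj : ((k - j0 : ℕ) : ℤ) ≤ ((j + 1 - j0 : ℕ) : ℤ) := by omega
      have hk0 : (0 : ℤ) ≤ ((k - j0 : ℕ) : ℤ) := by positivity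
      have hM : 0 ≤ M := by
        have := (h1 0 (Nat.zero_le _)).1
        exact le_trans (abs_nonneg _) this
      simp only at h ⊢
      unfold dir at *
      interval_cases i <;> simp at h ⊢ <;> omega
    · have h3 := h1 k h'
      exact ⟨h3.1.trans hR, h3.2.trans hR⟩
  have key : ∀ k, k ≤ j + 1 → Con (body F U 4 ∩ Bx c R) (U i 0) (U i k) := by
    intro k
    induction k with
    | zero => intro _; exact Sp896.Con.refl _ _
    | succ k ih =>
      intro hk
      exact (ih (by omega)).trans (Sp896.Con.one (C.step i hi k)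
        ⟨Or.inr ⟨i, hi, k, rfl⟩, hin _ hk⟩)
  exact key (j + 1) le_rfl

theorem F_sub (C : Cfg F L v m c M 4 U) {R : ℤ} (hR : M ≤ R) : F ⊆ body F U 4 ∩ Bx c R :=
  fun q hq => ⟨Or.inl hq, (C.box q hq).1.le.trans hR, (C.box q hq).2.le.trans hR⟩

/-- the body inside a box is connected -/
theorem lam_con (C : Cfg F L v m c M 4 U) {R : ℤ} (hR : M ≤ R) :
    ∀ q ∈ body F U 4 ∩ Bx c R, ∀ q' ∈ body F U 4 ∩ Bx c R, Con (body F U 4 ∩ Bx c R) q q' := by
  have key : ∀ q ∈ body F U 4 ∩ Bx c R, Con (body F U 4 ∩ Bx c R) (lcv v 0) q := by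
    rintro q ⟨h | ⟨i, hi, j, rfl⟩, h2⟩
    · exact (C.con _ (C.cyc.left 0) q h).mono (F_sub C hR)
    · have h3 := (C.con _ (C.cyc.left 0) _ (C.cyc.left (m i))).mono (F_sub C hR)
      have h4 := tent_con C hR hi j h2
      rw [C.start0 i hi] at h4
      exact h3.trans h4
  intro q hq q' hq'
  exact ((key q hq).symm (F_sub C hR (C.cyc.left 0))).trans (key q' hq')

/-- side cells of the rays are not in the body -/
theorem side_notMem (C : Cfg F L v m c M 4 U) {i : ℕ} (hi : i < 4) {r : ℤ} (hr : M < r) {s : ℤ}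
    (hs : s = 1 ∨ s = -1) :
    ((c.1 + r * (dir i).1 + s * (rot (dir i)).1, c.2 + r * (dir i).2 + s * (rot (dir i)).2) : V) ∉
      body F U 4 := by
  have hM : 0 ≤ M := by
    obtain ⟨j0, h0, h1, h2⟩ := C.ray 0 (by norm_num)
    exact le_trans (abs_nonneg _) (h1 0 (Nat.zero_le _)).1
  rw [body_out C]
  · rintro ⟨i', hi', r', hr', he⟩
    rw [Prod.mk.injEq] at he
    unfold dir rot at he
    interval_cases i <;> interval_cases i' <;> simp at he <;> omega
  · rw [mem_Bx]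
    unfold dir rot
    interval_cases i <;> simp <;> omega

theorem dart_unique {a b a' b' : V} (h : Adj a b) (h' : Adj a' b') (h1 : lc a b = lc a' b')
    (h2 : rc a b = rc a' b') : a = a' := by
  obtain ⟨a1, a2⟩ := a
  obtain ⟨b1, b2⟩ := b
  obtain ⟨c1, c2⟩ := a'
  obtain ⟨d1, d2⟩ := b'
  unfold Adj at h h'
  unfold lc at h1
  unfold rc at h2
  rw [Prod.mk.injEq] at h1 h2
  simp only at h h' h1 h2
  ext <;> simp only <;> omega

theorem dot_eq {p f g : V} (h1 : Adj f p) (h2 : Adj g p)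
    (h : (f.1 - p.1) * (g.1 - p.1) + (f.2 - p.2) * (g.2 - p.2) = 1) : f = g := by
  unfold Adj at h1 h2
  have e1 : (f.1 - p.1 = -1 ∧ f.2 - p.2 = 0) ∨ (f.1 - p.1 = 1 ∧ f.2 - p.2 = 0) ∨
      (f.1 - p.1 = 0 ∧ f.2 - p.2 = -1) ∨ (f.1 - p.1 = 0 ∧ f.2 - p.2 = 1) := by omega
  have e2 : (g.1 - p.1 = -1 ∧ g.2 - p.2 = 0) ∨ (g.1 - p.1 = 1 ∧ g.2 - p.2 = 0) ∨
      (g.1 - p.1 = 0 ∧ g.2 - p.2 = -1) ∨ (g.1 - p.1 = 0 ∧ g.2 - p.2 = 1) := by omega
  rcases e1 with ⟨a1, a2⟩ | ⟨a1, a2⟩ | ⟨a1, a2⟩ | ⟨a1, a2⟩ <;>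
    rcases e2 with ⟨b1, b2⟩ | ⟨b1, b2⟩ | ⟨b1, b2⟩ | ⟨b1, b2⟩ <;>
    rw [a1, a2, b1, b2] at h <;> norm_num at h <;> ext <;> omega

/-- the outer cell of a boundary edge is in the body only at the marks -/
theorem rcv_body (H : Fine F L v m c M U) {x : ℕ} (hx : rcv v x ∈ body F U 4) :
    ∃ i < 4, x % L = m i % L := by
  have C := H.C
  rcases hx with h | ⟨i, hi, j, he⟩
  · exact absurd h (C.cyc.right x)
  · refine ⟨i, hi, ?_⟩
    have hf : lcv v x ∈ F := C.cyc.left x
    have hadj : Adj (lcv v x) (rcv v x) := adj_lc_rc (C.cyc.step x)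
    have h0 : Adj (U i 0) (U i 1) := C.step i hi 0
    have habs : |(U i (j + 1)).1 - (lcv v x).1| ≤ 1 ∧ |(U i (j + 1)).2 - (lcv v x).2| ≤ 1 := by
      rw [← he, abs_le, abs_le]
      unfold Adj at hadj
      omega
    obtain ⟨hj, hdot⟩ := H.clF i hi j _ hf habs.1 habs.2
    subst hj
    rw [zero_add] at he
    rw [← he] at hdot h0
    have h5 : lcv v x = U i 0 := dot_eq hadj h0 hdot
    have e1 : lc (v x) (v (x + 1)) = lc (v (m i)) (v (m i + 1)) := by
      have := C.start0 i hi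
      unfold lcv at h5 this
      rw [h5, this]
    have e2 : rc (v x) (v (x + 1)) = rc (v (m i)) (v (m i + 1)) := by
      have := C.start1 i hi
      unfold rcv at he this
      rw [he, this]
    have e3 := dart_unique (C.cyc.step x) (C.cyc.step (m i)) e1 e2
    rw [← C.cyc.mod x, ← C.cyc.mod (m i)] at e3
    have hL : 0 < L := lt_of_lt_of_le (by norm_num) C.cyc.four_le
    exact C.cyc.inj _ (Nat.mod_lt _ hL) _ (Nat.mod_lt _ hL) e3

theorem L_pos (H : Fine F L v m c M U) : 0 < L := lt_of_lt_of_le (by norm_num) H.C.cyc.four_le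

theorem M_nonneg (H : Fine F L v m c M U) : 0 ≤ M := by
  obtain ⟨j0, h0, h1, h2⟩ := H.C.ray 0 (by norm_num)
  exact le_trans (abs_nonneg _) (h1 0 (Nat.zero_le _)).1

/-- between two marks the outer cell is not in the body -/
theorem rcv_notMem (H : Fine F L v m c M U) {x : ℕ}
    (hx : (m 0 < x ∧ x < m 1) ∨ (m 1 < x ∧ x < m 2) ∨ (m 2 < x ∧ x < m 3) ∨
      (m 3 < x ∧ x < L + m 0)) : rcv v x ∉ body F U 4 := by
  intro hmem
  obtain ⟨i, hi, he⟩ := rcv_body H hmem
  have h1 := H.C.m01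
  have h2 := H.C.m12
  have h3 := H.C.m23
  have h4 := H.C.m3L
  have h0 := H.m0
  have hmi : m i % L = m i := Nat.mod_eq_of_lt (by interval_cases i <;> omega)
  rw [hmi] at he
  rcases Nat.lt_or_ge x L with hxL | hxL
  · rw [Nat.mod_eq_of_lt hxL] at he
    interval_cases i <;> omega
  · have h5 : x % L = x - L := by
      rw [Nat.mod_eq_sub_mod hxL, Nat.mod_eq_of_lt (by omega)]
    rw [h5] at he
    interval_cases i <;> omega

/-- the class before the mark `i` -/
def prv (i : ℕ) : ℕ := (i + 3) % 4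

theorem prv_lt (i : ℕ) : prv i < 4 := Nat.mod_lt _ (by norm_num)

theorem r_notMem (H : Fine F L v m c M U) {i : ℕ} (hi : i < 4) :
    rcv v (m i + 1) ∉ body F U 4 := by
  have h0 := H.m0
  have h1 := H.g01
  have h2 := H.g12
  have h3 := H.g23
  have h4 := H.g30
  have h5 := H.C.m01
  have h6 := H.C.m12
  have h7 := H.C.m23
  refine rcv_notMem H ?_
  interval_cases i <;> omega

theorem l_notMem (H : Fine F L v m c M U) {i : ℕ} (hi : i < 4) :
    rcv v (m i - 1) ∉ body F U 4 := by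
  have h0 := H.m0
  have h1 := H.g01
  have h2 := H.g12
  have h3 := H.g23
  have h4 := H.g30
  have h5 := H.C.m01
  have h6 := H.C.m12
  have h7 := H.C.m23
  rcases Nat.eq_zero_or_pos i with rfl | hpos
  · have e : rcv v (m 0 - 1) = rcv v (m 0 - 1 + L) := by
      unfold rcv
      rw [H.C.cyc.per, show m 0 - 1 + L + 1 = m 0 - 1 + 1 + L by omega, H.C.cyc.per]
    rw [e]
    refine rcv_notMem H ?_
    omega
  · refine rcv_notMem H ?_
    interval_cases i <;> omega

/-- the collar after the mark `i` reaches every boundary edge up to the next mark -/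
theorem arc_cls (H : Fine F L v m c M U) {i : ℕ} (hi : i < 4) {x : ℕ} (h1 : m i < x)
    (h2 : x < if i = 3 then L + m 0 else m (i + 1)) : rcv v x ∈ cls F v m U i := by
  have hx : ∀ y, m i + 1 ≤ y → y ≤ x → rcv v y ∉ body F U 4 := by
    intro y hy1 hy2
    refine rcv_notMem H ?_
    interval_cases i <;> simp at h2 <;> omega
  exact ⟨hx x h1 le_rfl, H.arc _ _ h1 hx⟩

theorem own (H : Fine F L v m c M U) {i : ℕ} (hi : i < 4) : rcv v (m i + 1) ∈ cls F v m U i :=
  ⟨r_notMem H hi, Sp896.Con.refl _ _⟩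

theorem before (H : Fine F L v m c M U) {i : ℕ} (hi : i < 4) :
    rcv v (m i - 1) ∈ cls F v m U (prv i) := by
  have h0 := H.m0
  have h1 := H.g01
  have h2 := H.g12
  have h3 := H.g23
  have h4 := H.g30
  rcases Nat.eq_zero_or_pos i with rfl | hpos
  · have e : rcv v (m 0 - 1) = rcv v (m 0 - 1 + L) := by
      unfold rcv
      rw [H.C.cyc.per, show m 0 - 1 + L + 1 = m 0 - 1 + 1 + L by omega, H.C.cyc.per]
    rw [e]
    refine arc_cls H (prv_lt 0) ?_ ?_
    · show m 3 < _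
      omega
    · show _ < if (3 : ℕ) = 3 then L + m 0 else m (3 + 1)
      rw [if_pos rfl]
      omega
  · obtain ⟨k, rfl⟩ : ∃ k, i = k + 1 := ⟨i - 1, by omega⟩
    have hk3 : k < 3 := by omega
    have e : prv (k + 1) = k := by
      unfold prv
      interval_cases k <;> rfl
    rw [e]
    refine arc_cls H (by omega) ?_ ?_
    · interval_cases k <;> simp <;> omega
    · rw [if_neg (by omega)]
      interval_cases k <;> simp <;> omega

theorem cls_step (H : Fine F L v m c M U) {i : ℕ} {q q' : V} (hq : q ∈ cls F v m U i)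
    (h : Adj q q') (hq' : q' ∉ body F U 4) : q' ∈ cls F v m U i :=
  ⟨hq', hq.2.trans (Sp896.Con.one h hq')⟩

theorem cls_trans (H : Fine F L v m c M U) {i : ℕ} {q q' : V} (hq : q ∈ cls F v m U i)
    (h : Con (body F U 4)ᶜ q q') : q' ∈ cls F v m U i :=
  ⟨Con.mem h hq.1, hq.2.trans h⟩

/-- a complement cell next to a tentacle is in one of the classes of the tentacle -/
theorem side_cls (H : Fine F L v m c M U) {i : ℕ} (hi : i < 4) (j : ℕ) {q : V}
    (h : Adj (U i (j + 1)) q) (hq : q ∉ body F U 4) :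
    q ∈ cls F v m U i ∨ q ∈ cls F v m U (prv i) := by
  rcases H.ts i hi j q h hq with h1 | h1
  · exact Or.inl ⟨hq, h1⟩
  · exact Or.inr (cls_trans H (before H hi) h1)

/-- **cover** -/
theorem cover (H : Fine F L v m c M U) {q : V} (hq : q ∉ body F U 4) :
    ∃ i < 4, q ∈ cls F v m U i := by
  have ht := own H (show 0 < 4 by norm_num)
  have hcon := H.C.con' q (fun h => hq (Or.inl h)) _ (fun h => ht.1 (Or.inl h))
  revert hq
  refine Relation.ReflTransGen.head_induction_on hcon ?_ ?_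
  · exact fun _ => ⟨0, by norm_num, ht⟩
  · intro a b hab _ ih ha
    by_cases hb : b ∈ body F U 4
    · rcases hb with hb | ⟨i, hi, j, rfl⟩
      · exact absurd hb hab.2
      · rcases side_cls H hi j hab.1.symm ha with h | h
        · exact ⟨i, hi, h⟩
        · exact ⟨_, prv_lt i, h⟩
    · obtain ⟨i, hi, h⟩ := ih hb
      exact ⟨i, hi, cls_step H h hab.1.symm ha⟩

/-- side cell of the ray `k` at distance `r` -/
def sd (c : V) (k : ℕ) (r : ℤ) : V :=
  (c.1 + r * (dir k).1 + (rot (dir k)).1, c.2 + r * (dir k).2 + (rot (dir k)).2)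

theorem sd_notMem (H : Fine F L v m c M U) {k : ℕ} (hk : k < 4) {r : ℤ} (hr : M < r) :
    sd c k r ∉ body F U 4 := by
  have := side_notMem H.C hk hr (s := 1) (Or.inl rfl)
  rw [one_mul, one_mul] at this
  exact this

theorem sd_adj (c : V) {k : ℕ} (hk : k < 4) (r : ℤ) : Adj (sd c k r) (sd c k (r + 1)) := by
  unfold Adj sd dir rot
  interval_cases k <;> simp <;> omega

theorem sd_cls (H : Fine F L v m c M U) {k : ℕ} (hk : k < 4) {r : ℤ} (hr : M < r) :
    sd c k r ∈ cls F v m U k := ⟨sd_notMem H hk hr, H.tl k hk r hr⟩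

theorem sd_bx (H : Fine F L v m c M U) {k : ℕ} (hk : k < 4) {r R : ℤ} (hr : M < r) (hR : r ≤ R) :
    sd c k r ∈ Bx c R := by
  have hM := M_nonneg H
  rw [mem_Bx]
  unfold sd dir rot
  interval_cases k <;> simp <;> omega

theorem sd_con (H : Fine F L v m c M U) {k : ℕ} (hk : k < 4) {R : ℤ} (n : ℕ)
    (hn : M + 1 + n ≤ R) :
    Con (Bx c R ∩ (body F U 4)ᶜ) (sd c k (M + 1)) (sd c k (M + 1 + n)) := by
  induction n with
  | zero => simpa using Sp896.Con.refl _ _
  | succ n ih =>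
    push_cast at hn
    have h1 := ih (by omega)
    have e : M + 1 + ((n + 1 : ℕ) : ℤ) = M + 1 + n + 1 := by push_cast; ring
    rw [e]
    exact h1.trans (Sp896.Con.one (sd_adj c hk _)
      ⟨sd_bx H hk (by omega) (by omega), sd_notMem H hk (by omega)⟩)

/-- **disjointness of the classes** -/
theorem disj (H : Fine F L v m c M U) {i j : ℕ} (hij : i < j) (hj : j < 4) {q : V}
    (h1 : q ∈ cls F v m U i) (h2 : q ∈ cls F v m U j) : False := by
  have hi : i < 4 := by omega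
  have C := H.C
  have hM := M_nonneg H
  have c1 : Con (body F U 4)ᶜ (sd c i (M + 1)) (sd c j (M + 1)) := by
    have a1 := ((sd_cls H hi (r := M + 1) (by omega)).2).symm (r_notMem H hi)
    have a2 := h1.2
    have a3 := h2.2.symm (r_notMem H hj)
    have a4 := (sd_cls H hj (r := M + 1) (by omega)).2
    exact ((a1.trans a2).trans a3).trans a4
  obtain ⟨R0, hR0⟩ := con_box c c1
  obtain ⟨R, hR1, hR2⟩ : ∃ R : ℕ, R0 ≤ (R : ℤ) ∧ M + 3 ≤ (R : ℤ) :=
    ⟨(max R0 (M + 3)).toNat, by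
      have := le_max_left R0 (M + 3)
      omega, by
      have := le_max_right R0 (M + 3)
      omega⟩
  have c2 := hR0 R hR1
  have e1 : ∀ k < 4, Con (Bx c R ∩ (body F U 4)ᶜ) (sd c k (M + 1)) (sd c k R) := by
    intro k hk
    have := sd_con H hk (R := R) (R - M - 1).toNat (by omega)
    have e : M + 1 + (((R : ℤ) - M - 1).toNat : ℤ) = R := by omega
    rwa [e] at this
  have hin : ∀ k < 4, sd c k (M + 1) ∈ Bx c R ∩ (body F U 4)ᶜ := fun k hk =>
    ⟨sd_bx H hk (by omega) (by omega), sd_notMem H hk (by omega)⟩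
  have c3 : Con (Bx c R ∩ (body F U 4)ᶜ) (sd c i R) (sd c j R) :=
    (((e1 i hi).symm (hin i hi)).trans c2).trans (e1 j hj)
  have hset : Bx c R ∩ (body F U 4)ᶜ = Bx c R \ (body F U 4 ∩ Bx c R) := by
    ext x
    simp only [Set.mem_inter_iff, Set.mem_compl_iff, Set.mem_sdiff]
    tauto
  rw [hset] at c3
  have hR1' : 1 ≤ R := by omega
  have hR2' : 2 ≤ R := by omega
  have k0 : ∀ k < 4, lc (bw c R ((2 * R + 1) * k + (R + 0))) (bw c R ((2 * R + 1) * k + (R + 0) + 1))
      ∈ body F U 4 ∩ Bx c R := by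
    intro k hk
    have h3 := lcv_bw c R hk (s := 0) (by omega)
    unfold lcv at h3
    rw [h3]
    simp only [Nat.cast_zero, zero_mul, add_zero]
    refine ⟨ray_pt C hk (by omega), ?_⟩
    rw [mem_Bx]
    unfold dir
    interval_cases k <;> simp <;> omega
  have k1 : ∀ k < 4, lc (bw c R ((2 * R + 1) * k + (R + 1))) (bw c R ((2 * R + 1) * k + (R + 1) + 1))
      = sd c k R := by
    intro k hk
    have h3 := lcv_bw c R hk (s := 1) (by omega)
    unfold lcv at h3
    rw [h3]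
    simp only [Nat.cast_one, one_mul]
    rfl
  have hbound : ∀ k < 4, (2 * R + 1) * k + (R + 1) < (2 * R + 1) * 4 := by
    intro k hk
    interval_cases k <;> omega
  have hij' : (2 * R + 1) * i + (R + 0) < (2 * R + 1) * j + (R + 0) := by
    have : (2 * R + 1) * i < (2 * R + 1) * j := Nat.mul_lt_mul_of_pos_left hij (by omega)
    omega
  have hij2 : (2 * R + 1) * i + (R + 1) < (2 * R + 1) * j + (R + 0) := by
    have : (2 * R + 1) * (i + 1) ≤ (2 * R + 1) * j := Nat.mul_le_mul_left _ hij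
    have e : (2 * R + 1) * (i + 1) = (2 * R + 1) * i + (2 * R + 1) := by ring
    omega
  have key := SpD331.sep896 (bw_cyc c R) (bx_con' c R) hij' (by
      have := hbound j hj; omega) (Set.inter_subset_right) (lam_con C (by omega)) (k0 i hi)
      (k0 j hj) (hbound i hi) (hbound j hj) (by
        rw [k1 i hi]
        exact fun h => sd_notMem H hi (by omega) h.1) (by
        rw [k1 j hj]
        exact fun h => sd_notMem H hj (by omega) h.1) (by
        rw [k1 i hi, k1 j hj]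
        exact c3)
  have := (key.1 ⟨by omega, hij2⟩).2
  omega

end fine

end Crest.Agent.R143.TentBx951
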