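import Crest.Agent.R143.TentB2_951

/-!
# Row 143 (S0194), block D, TENT B, part 3 (helper951): geometry of the classes

* `no_pinch`, `not_adj8` : cells of different classes are not 8-adjacent
* `cls_con`, `cls_con_box` : classes are connected, also inside a large box
* `quad`, `quad_iff` : outside the box `M` the classes are the open quadrants
-/

set_option autoImplicit false

namespace Crest.Agent.R143.TentBx951

open Crest.Agent.R158 Crest.Agent.R158.Sp896 Crest.Agent.R143.Tentx359 Crest.Agent.R143.TentAx951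

/-- the boundary walk has no double points: no pinched vertex -/
theorem no_pinch {F : Set V} {L : ℕ} {v : ℕ → V} (h : Cyc F L v) (x y : ℤ) :
    ¬ (((x, y) : V) ∈ F ∧ ((x - 1, y - 1) : V) ∈ F ∧ ((x - 1, y) : V) ∉ F ∧ ((x, y - 1) : V) ∉ F) ∧
    ¬ (((x - 1, y) : V) ∈ F ∧ ((x, y - 1) : V) ∈ F ∧ ((x, y) : V) ∉ F ∧ ((x - 1, y - 1) : V) ∉ F) := by
  have lE : lc (x, y) (x + 1, y) = (x, y) := by unfold lc; ext <;> simp only <;> omega
  have rE : rc (x, y) (x + 1, y) = (x, y - 1) := by unfold rc; ext <;> simp only <;> omega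
  have lW : lc (x, y) (x - 1, y) = (x - 1, y - 1) := by unfold lc; ext <;> simp only <;> omega
  have rW : rc (x, y) (x - 1, y) = (x - 1, y) := by unfold rc; ext <;> simp only <;> omega
  have lN : lc (x, y) (x, y + 1) = (x - 1, y) := by unfold lc; ext <;> simp only <;> omega
  have rN : rc (x, y) (x, y + 1) = (x, y) := by unfold rc; ext <;> simp only <;> omega
  have lS : lc (x, y) (x, y - 1) = (x, y - 1) := by unfold lc; ext <;> simp only <;> omega
  have rS : rc (x, y) (x, y - 1) = (x - 1, y - 1) := by unfold rc; ext <;> simp only <;> omega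
  constructor
  · rintro ⟨h1, h2, h3, h4⟩
    obtain ⟨i, hi, a1, a2⟩ := h.all (x, y) (x + 1, y) (by unfold Adj; simp) (by rw [lE]; exact h1) (by rw [rE]; exact h4)
    obtain ⟨j, hj, b1, b2⟩ := h.all (x, y) (x - 1, y) (by unfold Adj; simp) (by rw [lW]; exact h2) (by rw [rW]; exact h3)
    have e := h.inj i hi j hj (a1.trans b1.symm)
    subst e
    rw [a2, Prod.mk.injEq] at b2
    omega
  · rintro ⟨h1, h2, h3, h4⟩
    obtain ⟨i, hi, a1, a2⟩ := h.all (x, y) (x, y + 1) (by unfold Adj; simp) (by rw [lN]; exact h1) (by rw [rN]; exact h3)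
    obtain ⟨j, hj, b1, b2⟩ := h.all (x, y) (x, y - 1) (by unfold Adj; simp) (by rw [lS]; exact h2) (by rw [rS]; exact h4)
    have e := h.inj i hi j hj (a1.trans b1.symm)
    subst e
    rw [a2, Prod.mk.injEq] at b2
    omega

section fine

variable {F : Set V} {L : ℕ} {v : ℕ → V} {m : ℕ → ℕ} {c : V} {M : ℤ} {U : ℕ → ℕ → V}

theorem disj' (H : Fine F L v m c M U) {i j : ℕ} (hi : i < 4) (hj : j < 4) {q : V}
    (h1 : q ∈ cls F v m U i) (h2 : q ∈ cls F v m U j) : i = j := by
  rcases Nat.lt_trichotomy i j with h | h | h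
  · exact (disj H h hj h1 h2).elim
  · exact h
  · exact (disj H h hi h2 h1).elim

/-- two diagonal cells of the body have a common neighbour in the body -/
theorem diag_body (H : Fine F L v m c M U) {p p' : V} (hp : p ∈ body F U 4)
    (hp' : p' ∈ body F U 4) (h1 : p'.1 = p.1 + 1 ∨ p'.1 = p.1 - 1)
    (h2 : p'.2 = p.2 + 1 ∨ p'.2 = p.2 - 1) (hn : ((p'.1, p.2) : V) ∉ body F U 4)
    (hn' : ((p.1, p'.2) : V) ∉ body F U 4) : False := by
  have C := H.C
  have hTF : ∀ q q' : V, q ∈ F → (∃ i < 4, ∃ j, q' = U i (j + 1)) →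
      (q'.1 = q.1 + 1 ∨ q'.1 = q.1 - 1) → (q'.2 = q.2 + 1 ∨ q'.2 = q.2 - 1) →
      ((q'.1, q.2) : V) ∉ body F U 4 → ((q.1, q'.2) : V) ∉ body F U 4 → False := by
    rintro ⟨x, y⟩ ⟨x', y'⟩ hq ⟨i, hi, j, he⟩ g1 g2 g3 g4
    simp only at g1 g2 g3 g4
    obtain ⟨hj, hdot⟩ := H.clF i hi j (x, y) hq (by rw [← he, abs_le]; simp only; omega)
      (by rw [← he, abs_le]; simp only; omega)
    subst hj
    rw [zero_add] at he
    rw [← he] at hdot
    have h0 : Adj (U i 0) (U i 1) := C.step i hi 0
    have hU0 : U i 0 ∈ body F U 4 := by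
      rw [C.start0 i hi]
      exact Or.inl (C.cyc.left _)
    rw [← he] at h0
    obtain ⟨a, b⟩ : ∃ w, w = U i 0 := ⟨_, rfl⟩
    generalize U i 0 = w at *
    obtain ⟨w1, w2⟩ := w
    unfold Adj at h0
    simp only at h0 hdot
    have hcase : (w1 = x' ∧ w2 = y) ∨ (w1 = x ∧ w2 = y') := by
      have hw : (w1 - x' = -1 ∧ w2 - y' = 0) ∨ (w1 - x' = 1 ∧ w2 - y' = 0) ∨
          (w1 - x' = 0 ∧ w2 - y' = -1) ∨ (w1 - x' = 0 ∧ w2 - y' = 1) := by omega
      have hx : x - x' = 1 ∨ x - x' = -1 := by omega
      have hy : y - y' = 1 ∨ y - y' = -1 := by omega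
      rcases hw with ⟨h3, h4⟩ | ⟨h3, h4⟩ | ⟨h3, h4⟩ | ⟨h3, h4⟩ <;>
        rcases hx with hx | hx <;> rcases hy with hy | hy <;>
        rw [h3, h4, hx, hy] at hdot <;> norm_num at hdot <;> omega
    rcases hcase with ⟨rfl, rfl⟩ | ⟨rfl, rfl⟩
    · exact g3 hU0
    · exact g4 hU0
  rcases hp with hp | ⟨i, hi, j, he⟩
  · rcases hp' with hp' | hp'
    · -- both in `F`
      obtain ⟨x, y⟩ := p
      obtain ⟨x', y'⟩ := p'
      simp only at h1 h2 hn hn'
      have n1 : ((x', y) : V) ∉ F := fun h => hn (Or.inl h)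
      have n2 : ((x, y') : V) ∉ F := fun h => hn' (Or.inl h)
      rcases h1 with rfl | rfl <;> rcases h2 with rfl | rfl
      · refine (no_pinch C.cyc (x + 1) (y + 1)).1 ⟨hp', ?_, ?_, ?_⟩
        · simpa using hp
        · simpa using n2
        · simpa using n1
      · refine (no_pinch C.cyc (x + 1) y).2 ⟨?_, ?_, ?_, ?_⟩
        · simpa using hp
        · exact hp'
        · exact n1
        · simpa using n2
      · refine (no_pinch C.cyc x (y + 1)).2 ⟨?_, ?_, ?_, ?_⟩
        · exact hp'
        · simpa using hp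
        · exact n2
        · simpa using n1
      · refine (no_pinch C.cyc x y).1 ⟨hp, hp', n1, n2⟩
    · exact hTF p p' hp hp' h1 h2 hn hn'
  · rcases hp' with hp' | ⟨i', hi', j', he'⟩
    · exact hTF p' p hp' ⟨i, hi, j, he⟩ (by omega) (by omega) hn' hn
    · obtain ⟨e1, e2, e3⟩ := H.cl i hi j i' hi' j' (by rw [← he, ← he', abs_le]; omega)
        (by rw [← he, ← he', abs_le]; omega)
      subst e1
      have hmid : ∀ a b : ℕ, b = a + 2 → ∀ q q' : V, q = U i (a + 1) → q' = U i (b + 1) →
          (q'.1 = q.1 + 1 ∨ q'.1 = q.1 - 1) → (q'.2 = q.2 + 1 ∨ q'.2 = q.2 - 1) →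
          ((q'.1, q.2) : V) ∉ body F U 4 → ((q.1, q'.2) : V) ∉ body F U 4 → False := by
        rintro a b rfl ⟨x, y⟩ ⟨x', y'⟩ f1 f2 g1 g2 g3 g4
        simp only at g1 g2 g3 g4
        have s1 := C.step i hi (a + 1)
        have s2 := C.step i hi (a + 1 + 1)
        have hm : U i (a + 1 + 1) ∈ body F U 4 := Or.inr ⟨i, hi, a + 1, rfl⟩
        have f2' : (x', y') = U i (a + 1 + 1 + 1) := f2
        rw [← f1] at s1
        rw [← f2'] at s2
        generalize U i (a + 1 + 1) = w at *
        obtain ⟨w1, w2⟩ := w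
        unfold Adj at s1 s2
        simp only at s1 s2
        have : (w1 = x' ∧ w2 = y) ∨ (w1 = x ∧ w2 = y') := by omega
        rcases this with ⟨rfl, rfl⟩ | ⟨rfl, rfl⟩
        · exact g3 hm
        · exact g4 hm
      rcases (by omega : j' = j + 2 ∨ j = j' + 2 ∨ j' = j + 1 ∨ j = j' + 1 ∨ j = j') with
        h | h | h | h | h
      · exact hmid j j' h p p' he he' h1 h2 hn hn'
      · exact hmid j' j h p' p he' he (by omega) (by omega) hn' hn
      · have s := C.step i hi (j + 1)
        rw [h] at he'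
        rw [← he] at s
        have : p' = U i (j + 1 + 1) := he'
        rw [← this] at s
        unfold Adj at s
        omega
      · have s := C.step i hi (j' + 1)
        rw [h] at he
        rw [← he'] at s
        have : p = U i (j' + 1 + 1) := he
        rw [← this] at s
        unfold Adj at s
        omega
      · subst h
        rw [he, he'] at h1
        omega

/-- **cells of different classes are not 8-adjacent** -/
theorem not_adj8 (H : Fine F L v m c M U) {i j : ℕ} (hi : i < 4) (hj : j < 4) (hij : i ≠ j)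
    {q q' : V} (h : q ∈ cls F v m U i) (h' : q' ∈ cls F v m U j) :
    1 < |q.1 - q'.1| ∨ 1 < |q.2 - q'.2| := by
  by_contra hcon
  push Not at hcon
  obtain ⟨a1, a2⟩ := hcon
  rw [abs_le] at a1 a2
  obtain ⟨x, y⟩ := q
  obtain ⟨x', y'⟩ := q'
  simp only at a1 a2
  have hstep : ∀ w : V, Adj (x, y) w → Adj w (x', y') → w ∈ body F U 4 := by
    intro w h1 h2
    by_contra hw
    exact hij (disj' H hi hj (cls_step H (cls_step H h h1 hw) h2 h'.1) h')
  by_cases hd : (x = x' ∨ y = y')
  · by_cases he : x = x' ∧ y = y'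
    · obtain ⟨rfl, rfl⟩ := he
      exact hij (disj' H hi hj h h')
    · have hA : Adj (x, y) (x', y') := by
        unfold Adj
        simp only
        omega
      exact hij (disj' H hi hj (cls_step H h hA h'.1) h')
  · have p1 := hstep (x', y) (by unfold Adj; simp only [and_true]; omega)
      (by unfold Adj; simp only [true_and]; omega)
    have p2 := hstep (x, y') (by unfold Adj; simp only [true_and]; omega)
      (by unfold Adj; simp only [and_true]; omega)
    exact diag_body H p1 p2 (by simp only; omega) (by simp only; omega) h.1 h'.1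

/-- connection inside the class -/
theorem cls_con_aux {i : ℕ} {q q' : V} (hq : q ∈ cls F v m U i)
    (h : Con (body F U 4)ᶜ q q') : Con (cls F v m U i) q q' ∧ q' ∈ cls F v m U i := by
  induction h with
  | refl => exact ⟨Sp896.Con.refl _ _, hq⟩
  | @tail a b h1 h2 ih =>
    have hb : b ∈ cls F v m U i := ⟨h2.2, ih.2.2.trans (Sp896.Con.one h2.1 h2.2)⟩
    exact ⟨ih.1.trans (Sp896.Con.one h2.1 hb), hb⟩

/-- **each class is connected** -/
theorem cls_con (H : Fine F L v m c M U) {i : ℕ} (hi : i < 4) : ∀ q ∈ cls F v m U i,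
    ∀ q' ∈ cls F v m U i, Con (cls F v m U i) q q' := by
  intro q hq q' hq'
  exact (cls_con_aux hq ((hq.2.symm (r_notMem H hi)).trans hq'.2)).1

/-! ### quadrants -/

/-- coordinate along the ray `i` -/
def al (c : V) (i : ℕ) (q : V) : ℤ := (q.1 - c.1) * (dir i).1 + (q.2 - c.2) * (dir i).2

/-- coordinate along the next ray -/
def be (c : V) (i : ℕ) (q : V) : ℤ :=
  (q.1 - c.1) * (rot (dir i)).1 + (q.2 - c.2) * (rot (dir i)).2

/-- point with the given coordinates -/
def ab (c : V) (i : ℕ) (a b : ℤ) : V :=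
  (c.1 + a * (dir i).1 + b * (rot (dir i)).1, c.2 + a * (dir i).2 + b * (rot (dir i)).2)

theorem ab_al_be (c : V) {i : ℕ} (hi : i < 4) (q : V) : ab c i (al c i q) (be c i q) = q := by
  unfold ab al be dir rot
  interval_cases i <;> ext <;> simp

theorem al_ab (c : V) {i : ℕ} (hi : i < 4) (a b : ℤ) : al c i (ab c i a b) = a := by
  unfold ab al dir rot
  interval_cases i <;> simp

theorem be_ab (c : V) {i : ℕ} (hi : i < 4) (a b : ℤ) : be c i (ab c i a b) = b := by
  unfold ab be dir rot
  interval_cases i <;> simp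

theorem ab_bx (c : V) {i : ℕ} (hi : i < 4) (a b R : ℤ) : ab c i a b ∈ Bx c R ↔ |a| ≤ R ∧ |b| ≤ R := by
  rw [mem_Bx, abs_le, abs_le]
  unfold ab dir rot
  interval_cases i <;> simp <;> omega

theorem ab_adj_b (c : V) {i : ℕ} (hi : i < 4) (a b : ℤ) :
    Adj (ab c i a b) (ab c i a (b + 1)) := by
  unfold ab dir rot Adj
  interval_cases i <;> simp <;> omega

theorem ab_adj_a (c : V) {i : ℕ} (hi : i < 4) (a b : ℤ) :
    Adj (ab c i a b) (ab c i (a + 1) b) := by
  unfold ab dir rot Adj
  interval_cases i <;> simp <;> omega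

/-- outside the box the open quadrants miss the body -/
theorem ab_notMem (H : Fine F L v m c M U) {i : ℕ} (hi : i < 4) {a b : ℤ} (ha : 0 < a) (hb : 0 < b)
    (hab : M < a ∨ M < b) : ab c i a b ∉ body F U 4 := by
  have hM := M_nonneg H
  rw [body_out H.C]
  · rintro ⟨k, hk, r, hr, he⟩
    unfold ab at he
    rw [Prod.mk.injEq] at he
    unfold dir rot at he
    interval_cases i <;> interval_cases k <;> simp at he <;> omega
  · rw [ab_bx c hi, abs_of_pos ha, abs_of_pos hb]
    omega

/-- **quadrants** -/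
theorem quad (H : Fine F L v m c M U) {i : ℕ} (hi : i < 4) {a b : ℤ} (ha : 0 < a) (hb : 0 < b)
    (hab : M < a ∨ M < b) : ab c i a b ∈ cls F v m U i := by
  have hM := M_nonneg H
  by_cases hA : M < a
  · have key : ∀ n : ℕ, ab c i a (1 + n) ∈ cls F v m U i := by
      intro n
      induction n with
      | zero =>
        have := sd_cls H hi hA
        simpa [ab, sd] using this
      | succ n ih =>
        have e : (1 : ℤ) + ((n + 1 : ℕ) : ℤ) = 1 + n + 1 := by push_cast; ring
        rw [e]
        exact cls_step H ih (ab_adj_b c hi _ _) (ab_notMem H hi ha (by omega) (Or.inl hA))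
    have := key (b - 1).toNat
    have e : (1 : ℤ) + ((b - 1).toNat : ℤ) = b := by omega
    rwa [e] at this
  · have hB : M < b := by omega
    have key : ∀ n : ℕ, ab c i (1 + n) b ∈ cls F v m U i := by
      intro n
      induction n with
      | zero =>
        -- right side of the next ray
        obtain ⟨k, hk, hkp, hdir⟩ : ∃ k < 4, prv k = i ∧ dir k = rot (dir i) ∧
            rot (dir k) = (-(dir i).1, -(dir i).2) := by
          refine ⟨(i + 1) % 4, Nat.mod_lt _ (by norm_num), ?_, ?_, ?_⟩
          · unfold prv; omega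
          · interval_cases i <;> simp [dir, rot]
          · interval_cases i <;> simp [dir, rot]
        have h1 := H.tR k hk b hB
        have h2 := cls_trans H (before H hk) h1
        rw [hkp] at h2
        rw [hdir.1] at h2
        have e : ((c.1 + b * (rot (dir i)).1 - (rot (rot (dir i))).1,
            c.2 + b * (rot (dir i)).2 - (rot (rot (dir i))).2) : V) = ab c i 1 b := by
          unfold ab rot
          ext <;> simp only <;> ring
        rw [e] at h2
        simpa using h2
      | succ n ih =>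
        have e : (1 : ℤ) + ((n + 1 : ℕ) : ℤ) = 1 + n + 1 := by push_cast; ring
        rw [e]
        exact cls_step H ih (ab_adj_a c hi _ _) (ab_notMem H hi (by omega) hb (Or.inr hB))
    have := key (a - 1).toNat
    have e : (1 : ℤ) + ((a - 1).toNat : ℤ) = a := by omega
    rwa [e] at this

theorem exists_quad {q : V} (c : V) (h1 : q.1 ≠ c.1) (h2 : q.2 ≠ c.2) :
    ∃ i < 4, 0 < al c i q ∧ 0 < be c i q := by
  rcases lt_or_gt_of_ne h1 with h1 | h1 <;> rcases lt_or_gt_of_ne h2 with h2 | h2
  · exact ⟨2, by norm_num, by simp [al, dir]; omega, by simp [be, dir, rot]; omega⟩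
  · exact ⟨1, by norm_num, by simp [al, dir]; omega, by simp [be, dir, rot]; omega⟩
  · exact ⟨3, by norm_num, by simp [al, dir]; omega, by simp [be, dir, rot]; omega⟩
  · exact ⟨0, by norm_num, by simp [al, dir]; omega, by simp [be, dir, rot]; omega⟩

/-- outside the box the class is the open quadrant -/
theorem quad_iff (H : Fine F L v m c M U) {i : ℕ} (hi : i < 4) {q : V} (hq : q ∉ Bx c M) :
    q ∈ cls F v m U i ↔ 0 < al c i q ∧ 0 < be c i q := by
  have hM := M_nonneg H
  have key : ∀ k < 4, 0 < al c k q → 0 < be c k q → q ∈ cls F v m U k := by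
    intro k hk h1 h2
    rw [← ab_al_be c hk q]
    refine quad H hk h1 h2 ?_
    rw [← ab_al_be c hk q, ab_bx c hk, abs_of_pos h1, abs_of_pos h2] at hq
    omega
  constructor
  · intro h
    have hx : q.1 ≠ c.1 := by
      intro he
      refine h.1 ((body_out H.C hq).2 ?_)
      rw [mem_Bx] at hq
      rcases lt_or_ge q.2 c.2 with h5 | h5
      · exact ⟨3, by norm_num, c.2 - q.2, by omega, by ext <;> simp [dir, he]⟩
      · exact ⟨1, by norm_num, q.2 - c.2, by omega, by ext <;> simp [dir, he]⟩
    have hy : q.2 ≠ c.2 := by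
      intro he
      refine h.1 ((body_out H.C hq).2 ?_)
      rw [mem_Bx] at hq
      rcases lt_or_ge q.1 c.1 with h5 | h5
      · exact ⟨2, by norm_num, c.1 - q.1, by omega, by ext <;> simp [dir, he]⟩
      · exact ⟨0, by norm_num, q.1 - c.1, by omega, by ext <;> simp [dir, he]⟩
    obtain ⟨k, hk, h1, h2⟩ := exists_quad c hx hy
    have := disj' H hi hk h (key k hk h1 h2)
    subst this
    exact ⟨h1, h2⟩
  · rintro ⟨h1, h2⟩
    exact key i hi h1 h2

/-! ### connectedness inside a box -/

/-- clamp map -/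
def clp (c : V) (R : ℤ) (q : V) : V :=
  (max (c.1 - R) (min (c.1 + R) q.1), max (c.2 - R) (min (c.2 + R) q.2))

theorem clp_mem (c : V) {R : ℤ} (hR : 0 ≤ R) (q : V) : clp c R q ∈ Bx c R := by
  rw [mem_Bx]; unfold clp; simp only; omega

theorem clp_self {c : V} {R : ℤ} {q : V} (h : q ∈ Bx c R) : clp c R q = q := by
  rw [mem_Bx] at h; unfold clp; ext <;> simp only <;> omega

theorem clamp1 (a b x : ℤ) : max a (min b (x + 1)) = max a (min b x) ∨
    max a (min b (x + 1)) = max a (min b x) + 1 := by
  rcases le_total b x with h | h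
  · left
    rw [min_eq_left h, min_eq_left (by omega)]
  · rw [min_eq_right h]
    rcases le_total b (x + 1) with h' | h'
    · rw [min_eq_left h']
      rcases le_total a x with h2 | h2
      · rw [max_eq_right h2, max_eq_right (by omega)]; omega
      · rw [max_eq_left h2]
        rcases le_total a b with h3 | h3
        · rw [max_eq_right h3]; omega
        · rw [max_eq_left h3]; omega
    · rw [min_eq_right h']
      rcases le_total a x with h2 | h2
      · rw [max_eq_right h2, max_eq_right (by omega)]; omega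
      · rw [max_eq_left h2]
        rcases le_total a (x + 1) with h3 | h3
        · rw [max_eq_right h3]; omega
        · rw [max_eq_left h3]; omega

theorem clamp2 (a b x : ℤ) : max a (min b (x - 1)) = max a (min b x) ∨
    max a (min b (x - 1)) = max a (min b x) - 1 := by
  have := clamp1 a b (x - 1)
  rw [sub_add_cancel] at this
  omega

theorem clp_adj (c : V) {R : ℤ} {p q : V} (h : Adj p q) :
    clp c R p = clp c R q ∨ Adj (clp c R p) (clp c R q) := by
  unfold clp
  rcases h with ⟨h1, h2⟩ | ⟨h1, h2⟩ | ⟨h1, h2⟩ | ⟨h1, h2⟩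
  · rw [h1, h2]
    rcases clamp1 (c.1 - R) (c.1 + R) p.1 with e | e
    · left; rw [e]
    · right; rw [e]; left; exact ⟨rfl, rfl⟩
  · rw [h1, h2]
    rcases clamp2 (c.1 - R) (c.1 + R) p.1 with e | e
    · left; rw [e]
    · right; rw [e]; right; left; exact ⟨rfl, rfl⟩
  · rw [h1, h2]
    rcases clamp1 (c.2 - R) (c.2 + R) p.2 with e | e
    · left; rw [e]
    · right; rw [e]; right; right; left; exact ⟨rfl, rfl⟩
  · rw [h1, h2]
    rcases clamp2 (c.2 - R) (c.2 + R) p.2 with e | e
    · left; rw [e]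
    · right; rw [e]; right; right; right; exact ⟨rfl, rfl⟩

theorem clp_cls (H : Fine F L v m c M U) {i : ℕ} (hi : i < 4) {R : ℤ} (hR : M < R) {q : V}
    (hq : q ∈ cls F v m U i) : clp c R q ∈ cls F v m U i := by
  have hM := M_nonneg H
  by_cases hin : q ∈ Bx c R
  · rwa [clp_self hin]
  · have hout : q ∉ Bx c M := by
      intro h
      refine hin ?_
      rw [mem_Bx] at h ⊢
      omega
    have hout2 : clp c R q ∉ Bx c M := by
      rw [mem_Bx] at hin ⊢
      unfold clp
      simp only
      omega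
    rw [quad_iff H hi hout] at hq
    rw [quad_iff H hi hout2]
    rw [mem_Bx] at hin
    unfold al be dir rot clp at *
    interval_cases i <;> simp at hq ⊢ <;> omega

/-- **the class inside a large box is connected** -/
theorem cls_con_box (H : Fine F L v m c M U) {i : ℕ} (hi : i < 4) {R : ℤ} (hR : M < R) :
    ∀ q ∈ cls F v m U i ∩ Bx c R, ∀ q' ∈ cls F v m U i ∩ Bx c R,
      Con (cls F v m U i ∩ Bx c R) q q' := by
  have hM := M_nonneg H
  rintro q ⟨hq, hqB⟩ q' ⟨hq', hqB'⟩
  have h := cls_con H hi q hq q' hq'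
  have key : Con (cls F v m U i ∩ Bx c R) (clp c R q) (clp c R q') := by
    clear hqB' hq'
    induction h with
    | refl => exact Sp896.Con.refl _ _
    | @tail a b h1 h2 ih =>
      rcases clp_adj c h2.1 with e | e
      · rw [← e]; exact ih
      · exact ih.trans (Sp896.Con.one e ⟨clp_cls H hi hR h2.2, clp_mem c (by omega) _⟩)
  rwa [clp_self hqB, clp_self hqB'] at key

end fine

end Crest.Agent.R143.TentBx951
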