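import Crest.Agent.R143.TentA_951
import Crest.Agent.R143.Tent1_359
import Crest.Agent.R158.Sp6_896

/-!
# Row 143 (S0194), block D, TENT B, part 1 (helper951): the box

* `Bx c R` : box of cells of radius `R` around `c`
* `bw c R` : its boundary walk, counterclockwise, starting at the south east corner
* `bw_cyc`, `bx_con`, `bx_con'`
* `lcv_bw` : left cell of the dart `(2R+1) i + R + s`, `s ≤ R`
-/

set_option autoImplicit false

namespace Crest.Agent.R143.TentBx951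

open Crest.Agent.R158 Crest.Agent.R158.Sp896 Crest.Agent.R143.Tentx359 Crest.Agent.R143.TentAx951

/-- translation -/
def tr (a : V) (q : V) : V := (q.1 + a.1, q.2 + a.2)

theorem adj_tr (a p q : V) : Adj (tr a p) (tr a q) ↔ Adj p q := by
  unfold Adj tr; simp only; omega

theorem lc_tr (a p q : V) : lc (tr a p) (tr a q) = tr a (lc p q) := by
  unfold lc tr; simp only; ext <;> simp only <;> omega

theorem rc_tr (a p q : V) : rc (tr a p) (tr a q) = tr a (rc p q) := by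
  unfold rc tr; simp only; ext <;> simp only <;> omega

theorem tr_inj {a p q : V} (h : tr a p = tr a q) : p = q := by
  unfold tr at h
  rw [Prod.mk.injEq] at h
  ext
  · linarith [h.1]
  · linarith [h.2]

/-- translated walk -/
theorem cyc_tr {F : Set V} {L : ℕ} {v : ℕ → V} (h : Cyc F L v) (a : V) :
    Cyc {q | ((q.1 - a.1, q.2 - a.2) : V) ∈ F} L (fun i => tr a (v i)) where
  four_le := h.four_le
  per := fun i => by rw [h.per]
  inj := fun i hi j hj he => h.inj i hi j hj (tr_inj he)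
  step := fun i => (adj_tr a _ _).2 (h.step i)
  left := fun i => by
    have := h.left i
    rw [lc_tr]
    simpa [tr] using this
  right := fun i => by
    have := h.right i
    rw [rc_tr]
    simpa [tr] using this
  all := by
    intro p q hpq hl hr
    have e1 : tr a (p.1 - a.1, p.2 - a.2) = p := by ext <;> simp [tr]
    have e2 : tr a (q.1 - a.1, q.2 - a.2) = q := by ext <;> simp [tr]
    rw [← e1, ← e2] at hpq hl hr
    rw [adj_tr] at hpq
    rw [lc_tr] at hl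
    rw [rc_tr] at hr
    obtain ⟨i, hi, h1, h2⟩ := h.all _ _ hpq (by simpa [tr] using hl) (by simpa [tr] using hr)
    exact ⟨i, hi, by rw [h1, e1], by rw [h2, e2]⟩

/-- the unit square, starting at the south east corner -/
def sqw (i : ℕ) : V :=
  if i % 4 = 0 then (1, 0) else if i % 4 = 1 then (1, 1) else if i % 4 = 2 then (0, 1) else (0, 0)

theorem sqw0 : sqw 0 = (1, 0) := rfl
theorem sqw1 : sqw 1 = (1, 1) := rfl
theorem sqw2 : sqw 2 = (0, 1) := rfl
theorem sqw3 : sqw 3 = (0, 0) := rfl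

theorem sqw_mod (i : ℕ) : sqw i = sqw (i % 4) := by
  unfold sqw; rw [Nat.mod_mod]

theorem sqw_cyc : Cyc {((0, 0) : V)} 4 sqw where
  four_le := le_rfl
  per := fun i => by unfold sqw; rw [Nat.add_mod_right]
  inj := by
    intro i hi j hj h
    interval_cases i <;> interval_cases j <;> simp [sqw] at h ⊢
  step := by
    intro i
    have h4 : i % 4 < 4 := Nat.mod_lt _ (by norm_num)
    rw [sqw_mod i, sqw_mod (i + 1), Nat.add_mod]
    interval_cases i % 4 <;> simp [sqw, Adj]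
  left := by
    intro i
    have h4 : i % 4 < 4 := Nat.mod_lt _ (by norm_num)
    rw [sqw_mod i, sqw_mod (i + 1), Nat.add_mod]
    interval_cases i % 4 <;> simp [sqw, lc]
  right := by
    intro i
    have h4 : i % 4 < 4 := Nat.mod_lt _ (by norm_num)
    rw [sqw_mod i, sqw_mod (i + 1), Nat.add_mod]
    interval_cases i % 4 <;> simp [sqw, rc]
  all := by
    rintro ⟨a1, a2⟩ ⟨b1, b2⟩ hab hl hr
    simp only [Set.mem_singleton_iff, lc, Prod.mk.injEq] at hl
    unfold Adj at hab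
    simp only at hab
    rcases hab with ⟨h1, h2⟩ | ⟨h1, h2⟩ | ⟨h1, h2⟩ | ⟨h1, h2⟩
    · obtain ⟨e1, e2⟩ : a1 = 0 ∧ a2 = 0 := by omega
      subst h1 h2 e1 e2
      exact ⟨3, by norm_num, rfl, rfl⟩
    · obtain ⟨e1, e2⟩ : a1 = 1 ∧ a2 = 1 := by omega
      subst h1 h2 e1 e2
      exact ⟨1, by norm_num, rfl, rfl⟩
    · obtain ⟨e1, e2⟩ : a1 = 1 ∧ a2 = 0 := by omega
      subst h1 h2 e1 e2
      exact ⟨0, by norm_num, rfl, rfl⟩
    · obtain ⟨e1, e2⟩ : a1 = 0 ∧ a2 = 1 := by omega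
      subst h1 h2 e1 e2
      exact ⟨2, by norm_num, rfl, rfl⟩

/-- box of radius `R` around `c` -/
def Bx (c : V) (R : ℤ) : Set V := {q | |q.1 - c.1| ≤ R ∧ |q.2 - c.2| ≤ R}

theorem mem_Bx {c : V} {R : ℤ} {q : V} : q ∈ Bx c R ↔
    (c.1 - R ≤ q.1 ∧ q.1 ≤ c.1 + R) ∧ (c.2 - R ≤ q.2 ∧ q.2 ≤ c.2 + R) := by
  show |q.1 - c.1| ≤ R ∧ |q.2 - c.2| ≤ R ↔ _
  rw [abs_le, abs_le]
  constructor <;> rintro ⟨⟨h1, h2⟩, h3, h4⟩ <;> refine ⟨⟨?_, ?_⟩, ?_, ?_⟩ <;> linarith

/-- boundary walk of the box -/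
def bw (c : V) (R : ℕ) (i : ℕ) : V := tr (c.1 - R, c.2 - R) (vref R sqw i)

theorem bw_cyc (c : V) (R : ℕ) : Cyc (Bx c R) ((2 * R + 1) * 4) (bw c R) := by
  have h1 := cyc_tr (refCyc R _ _ _ sqw_cyc) ((c.1 - R, c.2 - R) : V)
  have e : {q : V | ((q.1 - (c.1 - (R : ℤ)), q.2 - (c.2 - (R : ℤ))) : V) ∈ ref R {((0, 0) : V)}} =
      Bx c R := by
    ext q
    rw [Set.mem_ofPred_eq, Tentx359.mem_ref, mem_Bx]
    simp only [Set.mem_singleton_iff, Blk]
    constructor
    · rintro ⟨q0, rfl, h1, h2, h3, h4⟩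
      simp only at h1 h2 h3 h4
      refine ⟨⟨?_, ?_⟩, ?_, ?_⟩ <;> linarith
    · rintro ⟨⟨h1, h2⟩, h3, h4⟩
      refine ⟨(0, 0), rfl, ?_, ?_, ?_, ?_⟩ <;> simp only <;> linarith
  rw [← e]
  exact h1

theorem bx_con (c : V) (R : ℤ) : ∀ q ∈ Bx c R, ∀ q' ∈ Bx c R, Con (Bx c R) q q' := by
  rintro ⟨x, y⟩ hq ⟨x', y'⟩ hq'
  rw [mem_Bx] at hq hq'
  simp only at hq hq'
  refine (con_row (x' := x') fun t h1 h2 => ?_).trans (con_col fun t h1 h2 => ?_)
  · rw [mem_Bx]; simp only; omega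
  · rw [mem_Bx]; simp only; omega

theorem bx_con_corner (c : V) (R : ℤ) (q : V) (hq : q ∉ Bx c R) :
    Con (Bx c R)ᶜ q (c.1 + R + 1, c.2 + R + 1) := by
  obtain ⟨x, y⟩ := q
  rw [mem_Bx] at hq
  simp only at hq
  by_cases h1 : c.1 + R < x ∨ x < c.1 - R
  · refine (con_col (y' := c.2 + R + 1) fun t _ _ => ?_).trans (con_row fun t _ _ => ?_)
    · rw [Set.mem_compl_iff, mem_Bx]; simp only; omega
    · rw [Set.mem_compl_iff, mem_Bx]; simp only; omega
  · refine (con_row (x' := c.1 + R + 1) fun t _ _ => ?_).trans (con_col fun t _ _ => ?_)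
    · rw [Set.mem_compl_iff, mem_Bx]; simp only; omega
    · rw [Set.mem_compl_iff, mem_Bx]; simp only; omega

theorem bx_con' (c : V) (R : ℤ) : ∀ q ∉ Bx c R, ∀ q' ∉ Bx c R, Con (Bx c R)ᶜ q q' :=
  fun q hq q' hq' => (bx_con_corner c R q hq).trans ((bx_con_corner c R q' hq').symm hq')

/-- the vertices of the box walk near the exit `i` -/
theorem bw_exit (c : V) (R : ℕ) {i : ℕ} (hi : i < 4) {s : ℕ} (hs : s ≤ R) :
    bw c R ((2 * R + 1) * i + (R + s)) =
      (c.1 + R * (dir i).1 + s * (rot (dir i)).1 + (if i = 0 ∨ i = 1 then 1 else 0),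
       c.2 + R * (dir i).2 + s * (rot (dir i)).2 + (if i = 1 ∨ i = 2 then 1 else 0)) := by
  have hd : ((2 * R + 1) * i + (R + s)) / (2 * R + 1) = i := by
    rw [Nat.mul_add_div (by omega), Nat.div_eq_of_lt (by omega), add_zero]
  have hm : ((2 * R + 1) * i + (R + s)) % (2 * R + 1) = R + s := by
    rw [Nat.mul_add_mod, Nat.mod_eq_of_lt (by omega)]
  unfold bw vref tr
  rw [hd, hm]
  interval_cases i <;> simp only [sqw0, sqw1, sqw2, sqw3, show sqw 4 = (1, 0) from rfl,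
    dir, rot, if_true, Nat.reduceAdd] <;> norm_num <;> constructor <;> ring

end Crest.Agent.R143.TentBx951
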