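import Crest.Agent.R143.TentD_359

/-!
# Row 143 (S0194), block D, TENT, geometric part: fields `tt`, `tr`, `mth` (helper359)
-/

set_option autoImplicit false

noncomputable section

namespace Crest.Agent.R143.TentDx359

open Set Metric
open Crest.Agent.R158 Crest.Agent.R158.Sp896 Crest.Agent.R158.Tj656 Crest.Agent.R158.Tg331
open Crest.Agent.R143.Tentx359 Crest.Agent.R143.TentAx951 Crest.Agent.R143.TentBx951
open Crest.Agent.R143.Tenx416

section fine

variable {F : Set V} {L : ℕ} {v : ℕ → V} {m : ℕ → ℕ} {c : V} {M : ℤ} {U : ℕ → ℕ → V} {σ : ℝ}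

theorem aa_other (σ : ℝ) (c : V) {j k : ZMod 4} (h : j ≠ k) (z : ℂ) :
    aa σ c k z ≤ |bb σ c j z| ∨ aa σ c k z = -aa σ c j z := by
  unfold aa bb dir rot
  rcases k_cases k with ⟨e, h1⟩ | ⟨e, h1⟩ | ⟨e, h1⟩ | ⟨e, h1⟩ <;>
    rcases k_cases j with ⟨e', h2⟩ | ⟨e', h2⟩ | ⟨e', h2⟩ | ⟨e', h2⟩ <;>
    first
    | exact absurd (e'.trans e.symm) h
    | (rw [h1, h2]; right; simp; done)
    | (rw [h1, h2]; left; simp
       linarith [le_abs_self (z.re - (cen σ c).re), le_abs_self ((cen σ c).re - z.re),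
        neg_le_abs (z.re - (cen σ c).re), neg_le_abs ((cen σ c).re - z.re),
        le_abs_self (z.im - (cen σ c).im), le_abs_self ((cen σ c).im - z.im),
        neg_le_abs (z.im - (cen σ c).im), neg_le_abs ((cen σ c).im - z.im)])

theorem al_ray (c : V) {j k : ZMod 4} (h : j ≠ k) {r : ℤ} (hr : 0 ≤ r) :
    al c k.val (c.1 + r * (dir j.val).1, c.2 + r * (dir j.val).2) ≤ 0 := by
  unfold al dir
  rcases k_cases k with ⟨e, h1⟩ | ⟨e, h1⟩ | ⟨e, h1⟩ | ⟨e, h1⟩ <;>
    rcases k_cases j with ⟨e', h2⟩ | ⟨e', h2⟩ | ⟨e', h2⟩ | ⟨e', h2⟩ <;>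
    first
    | exact absurd (e'.trans e.symm) h
    | (rw [h1, h2]; simp; done)
    | (rw [h1, h2]; simp; omega)

/-- a point in a cell of the box is near the centre -/
theorem box_norm (hσ : 0 < σ) {q : V} (hq : q ∈ Bx c M) {z : ℂ} (hz : z ∈ sq σ q) :
    ‖z - cen σ c‖ ≤ σ * (2 * M + 1) := by
  have h1 := (mem_sq c 0).1 hz
  have h2 := le_add σ c 0 z
  rw [← ab_al_be c (val_lt 0) q, ab_bx c (val_lt 0)] at hq
  have h3 : |((al c (0 : ZMod 4).val q : ℤ) : ℝ)| ≤ M := by exact_mod_cast hq.1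
  have h4 : |((be c (0 : ZMod 4).val q : ℤ) : ℝ)| ≤ M := by exact_mod_cast hq.2
  have h5 : |aa σ c 0 z| ≤ σ * M + σ / 2 := by
    have : |aa σ c 0 z| ≤ |aa σ c 0 z - σ * al c (0 : ZMod 4).val q| +
        |σ * al c (0 : ZMod 4).val q| := by
      have := abs_add_le (aa σ c 0 z - σ * al c (0 : ZMod 4).val q) (σ * al c (0 : ZMod 4).val q)
      simpa using this
    rw [abs_mul, abs_of_pos hσ] at this
    nlinarith [h1.1]
  have h6 : |bb σ c 0 z| ≤ σ * M + σ / 2 := by
    have : |bb σ c 0 z| ≤ |bb σ c 0 z - σ * be c (0 : ZMod 4).val q| +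
        |σ * be c (0 : ZMod 4).val q| := by
      have := abs_add_le (bb σ c 0 z - σ * be c (0 : ZMod 4).val q) (σ * be c (0 : ZMod 4).val q)
      simpa using this
    rw [abs_mul, abs_of_pos hσ] at this
    nlinarith [h1.2]
  linarith

theorem box_norm' (hσ : 0 < σ) (hM : 0 ≤ M) {q : V} (hq : q ∈ Bx c M) {z : ℂ}
    (hz : z ∈ sq σ q) : ‖z - cen σ c‖ ≤ LL σ M / 4 := by
  have := box_norm hσ hq hz
  unfold LL
  have hM' : (0 : ℝ) ≤ M := by exact_mod_cast hM
  nlinarith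

/-- the polygon is near the centre -/
theorem Pg_norm (H : Fine F L v m c M U) (hσ : 0 < σ) {z : ℂ} (hz : z ∈ Pg σ F) :
    ‖z - cen σ c‖ ≤ LL σ M / 4 := by
  obtain ⟨q, hq, hzq⟩ := mem_Pg.1 hz
  exact box_norm' hσ (M_nonneg H) ⟨(H.C.box q hq).1.le, (H.C.box q hq).2.le⟩ hzq

/-- a tentacle cell is in the box or on the ray -/
theorem tent_cases (H : Fine F L v m c M U) {i : ℕ} (hi : i < 4) (j : ℕ) :
    U i (j + 1) ∈ Bx c M ∨ ∃ r : ℤ, M < r ∧
      U i (j + 1) = (c.1 + r * (dir i).1, c.2 + r * (dir i).2) := by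
  obtain ⟨j0, h0, h1, h2⟩ := H.C.ray i hi
  rcases Nat.lt_or_ge j0 (j + 1) with h | h
  · right
    refine ⟨M + ((j + 1 - j0 : ℕ) : ℤ), by omega, ?_⟩
    have h3 := h2 (j + 1 - j0)
    rw [show j0 + (j + 1 - j0) = j + 1 by omega] at h3
    exact h3
  · exact Or.inl (h1 (j + 1) h)

/-- other tentacles are not in the direction `k` -/
theorem tent_aa (H : Fine F L v m c M U) (hσ : 0 < σ) {j k : ZMod 4} (hjk : j ≠ k) {y : ℂ}
    (hy : y ∈ BB σ U c M j) : ‖y - cen σ c‖ ≤ LL σ M / 4 ∨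
      aa σ c k y ≤ σ / 2 + 1 / 16 * ‖y - cen σ c‖ := by
  have hM := M_nonneg H
  rcases hy with ⟨i, hi⟩ | hy
  · rcases tent_cases H (val_lt j) i with h | ⟨r, hr, he⟩
    · exact Or.inl (box_norm' hσ hM h hi)
    · right
      rw [he] at hi
      have h1 := ((mem_sq c k).1 hi).1
      have h2 := al_ray c hjk (r := r) (by omega)
      have h3 : ((al c k.val (c.1 + r * (dir j.val).1, c.2 + r * (dir j.val).2) : ℤ) : ℝ) ≤ 0 := by
        exact_mod_cast h2
      rw [abs_le] at h1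
      have := norm_nonneg (y - cen σ c)
      nlinarith [h1.2]
  · right
    have h1 := (mem_cone hσ hM j).1 hy
    have h2 := mul_le_mul_of_nonneg_right (ratio hσ hM) (norm_nonneg (y - cen σ c))
    rcases aa_other σ c hjk y with h3 | h3
    · linarith [h1.2.2]
    · have := norm_nonneg (y - cen σ c)
      linarith [h1.2.1]

theorem tt_cone (H : Fine F L v m c M U) (hσ : 0 < σ) {j k : ZMod 4} (hjk : j ≠ k) {y w : ℂ}
    (hy : y ∈ BB σ U c M j) (hw : w ∈ cone σ c M k) : σ / 4 ≤ dist y w := by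
  by_contra hlt
  push Not at hlt
  have hM := M_nonneg H
  have hL := LL_ge hσ hM
  have h1 := cone_aa hσ hM k hw
  have h2 := hw.1
  have h3 := aa_lip σ c k y w
  rw [abs_le] at h3
  have h4 : ‖y - cen σ c‖ ≤ ‖w - cen σ c‖ + dist y w := by
    rw [dist_eq_norm]
    have := norm_add_le (w - cen σ c) (y - w)
    simpa using this
  have h5 : ‖w - cen σ c‖ ≤ ‖y - cen σ c‖ + dist y w := by
    rw [dist_comm, dist_eq_norm]
    have := norm_add_le (y - cen σ c) (w - y)
    simpa using this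
  rcases tent_aa H hσ hjk hy with h | h
  · linarith
  · linarith [h3.1]

/-- **field `tt`** -/
theorem tt (H : Fine F L v m c M U) (hσ : 0 < σ) {j k : ZMod 4} (hjk : j ≠ k) {y w : ℂ}
    (hy : y ∈ BB σ U c M j) (hw : w ∈ BB σ U c M k) : σ / 4 ≤ dist y w := by
  rcases hw with hw | hw
  · rcases hy with hy | hy
    · obtain ⟨a, ha⟩ := hy
      obtain ⟨b, hb⟩ := hw
      by_contra hlt
      push Not at hlt
      obtain ⟨e1, e2⟩ := near_cells ha hb (by linarith)
      obtain ⟨e, -⟩ := H.cl _ (val_lt j) a _ (val_lt k) b e1 e2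
      exact hjk (ZMod.val_injective 4 e)
    · rw [dist_comm]
      exact tt_cone H hσ hjk.symm (Or.inl hw) hy
  · exact tt_cone H hσ hjk hy hw

/-- complement cells 8-adjacent to a tentacle -/
theorem diag_cls (H : Fine F L v m c M U) {i : ℕ} (hi : i < 4) (j : ℕ) {q : V}
    (hq : q ∉ body F U 4) (h1 : |(U i (j + 1)).1 - q.1| ≤ 1) (h2 : |(U i (j + 1)).2 - q.2| ≤ 1) :
    q ∈ cls F v m U i ∨ q ∈ cls F v m U (prv i) := by
  have hu : U i (j + 1) ∈ body F U 4 := Or.inr ⟨i, hi, j, rfl⟩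
  by_cases hadj : Adj (U i (j + 1)) q
  · exact side_cls H hi j hadj hq
  have hne : U i (j + 1) ≠ q := fun h => hq (h ▸ hu)
  rw [abs_le] at h1 h2
  -- diagonal
  have hd : ((U i (j + 1)).1 = q.1 + 1 ∨ (U i (j + 1)).1 = q.1 - 1) ∧
      ((U i (j + 1)).2 = q.2 + 1 ∨ (U i (j + 1)).2 = q.2 - 1) := by
    have hne' : ¬ ((U i (j + 1)).1 = q.1 ∧ (U i (j + 1)).2 = q.2) := fun h => hne (Prod.ext h.1 h.2)
    unfold Adj at hadj
    omega
  have key : ∀ p : V, Adj (U i (j + 1)) p → Adj p q →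
      (q ∈ cls F v m U i ∨ q ∈ cls F v m U (prv i)) ∨ p ∈ F := by
    intro p hp hpq
    by_cases hpb : p ∈ body F U 4
    · rcases hpb with h | ⟨i', hi', j', rfl⟩
      · exact Or.inr h
      · left
        obtain ⟨e, -⟩ := H.cl i hi j i' hi' j' (by unfold Adj at hp; rw [abs_le]; omega)
          (by unfold Adj at hp; rw [abs_le]; omega)
        subst e
        exact side_cls H hi j' hpq hq
    · left
      rcases side_cls H hi j hp hpb with h | h
      · exact Or.inl (cls_step H h hpq hq)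
      · exact Or.inr (cls_step H h hpq hq)
  rcases key (q.1, (U i (j + 1)).2) (by unfold Adj; simp only [and_true]; omega)
    (by unfold Adj; simp only [true_and]; omega) with h | hF1
  · exact h
  rcases key ((U i (j + 1)).1, q.2) (by unfold Adj; simp only [true_and]; omega)
    (by unfold Adj; simp only [and_true]; omega) with h | hF2
  · exact h
  exfalso
  obtain ⟨e0, d1⟩ := H.clF i hi j _ hF1 (by rw [abs_le]; simp only; omega)
    (by simp)
  obtain ⟨-, d2⟩ := H.clF i hi j _ hF2 (by simp)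
    (by rw [abs_le]; simp only; omega)
  subst e0
  have h0 : Adj (U i 0) (U i 1) := H.C.step i hi 0
  simp only [zero_add, sub_self, zero_mul, add_zero] at d1 d2 hd
  generalize U i 0 = a at *
  generalize U i 1 = b at *
  unfold Adj at h0
  have hx : a.1 - b.1 = 0 ∨ a.2 - b.2 = 0 := by omega
  rcases hx with hx | hx
  · rw [hx, mul_zero] at d1
    exact absurd d1 (by norm_num)
  · rw [hx, mul_zero] at d2
    exact absurd d2 (by norm_num)

theorem cls_dir {i k : ZMod 4} {q : V} (h1 : 0 < al c i.val q) (h2 : 0 < be c i.val q)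
    (h3 : 0 < al c k.val q) : i = k - 1 ∨ i = k := by
  unfold al be dir rot at *
  rcases k_cases k with ⟨e, g1⟩ | ⟨e, g1⟩ | ⟨e, g1⟩ | ⟨e, g1⟩ <;>
    rcases k_cases i with ⟨e', g2⟩ | ⟨e', g2⟩ | ⟨e', g2⟩ | ⟨e', g2⟩ <;>
    rw [g1] at h3 <;> rw [g2] at h1 h2 <;> subst e <;> subst e' <;>
    first
    | (right; rfl)
    | (left; rfl)
    | (exfalso; simp at h1 h2 h3; omega)

/-- **field `tr`** -/
theorem tr (H : Fine F L v m c M U) (hσ : 0 < σ) {k : ZMod 4} {y : ℂ} (hy : y ∈ BB σ U c M k)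
    {w : ℂ} (hd : dist w y < σ / 4) : w ∈ BB σ U c M k ∨ w ∈ Pg σ F ∨
      w ∈ RR σ F v m c M U (k - 1) ∨ w ∈ RR σ F v m c M U k := by
  have hM := M_nonneg H
  rcases tri H hσ w with h | ⟨k', h⟩ | ⟨i, h⟩
  · exact Or.inr (Or.inl h)
  · by_cases e : k' = k
    · rw [e] at h
      exact Or.inl h
    · exact absurd hd (not_lt.2 (tt H hσ e h hy))
  · have hq := (mem_om hσ).1 h.1 _ (mem_cellOf hσ w)
    have key : i = k - 1 ∨ i = k := by
      rcases hy with ⟨j, hj⟩ | hy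
      · obtain ⟨e1, e2⟩ := near_cells hj (mem_cellOf hσ w) (by rw [dist_comm]; linarith)
        rcases diag_cls H (val_lt k) j hq.1 e1 e2 with h' | h'
        · exact Or.inr (ZMod.val_injective 4 (disj' H (val_lt i) (val_lt k) hq h'))
        · refine Or.inl (ZMod.val_injective 4 ?_)
          rw [prv_val]
          exact disj' H (val_lt i) (prv_lt _) hq h'
      · have hL := LL_ge hσ hM
        have h1 := cone_aa hσ hM k hy
        have h2 := hy.1
        have h3 := aa_lip σ c k w y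
        rw [abs_le] at h3
        have h4 : ‖y - cen σ c‖ ≤ ‖w - cen σ c‖ + dist w y := by
          rw [dist_comm, dist_eq_norm]
          have := norm_add_le (w - cen σ c) (y - w)
          simpa using this
        have hc := ((mem_sq c k).1 (mem_cellOf hσ w)).1
        rw [abs_le] at hc
        have hal : (0 : ℝ) < al c k.val (cellOf σ w) := by
          have : 0 < σ * (al c k.val (cellOf σ w) : ℝ) := by linarith [h3.1, hc.2]
          exact (mul_pos_iff_of_pos_left hσ).1 this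
        have hal' : 0 < al c k.val (cellOf σ w) := by exact_mod_cast hal
        have hbx : cellOf σ w ∉ Bx c M := by
          intro hin
          have := box_norm' hσ hM hin (mem_cellOf hσ w)
          linarith
        rw [quad_iff H (val_lt i) hbx] at hq
        exact cls_dir hq.1 hq.2 hal'
    rcases key with e | e
    · rw [e] at h
      exact Or.inr (Or.inr (Or.inl h))
    · rw [e] at h
      exact Or.inr (Or.inr (Or.inr h))

end fine

/-! ### the mouths -/

/-- the segment between two adjacent cells crosses the common side -/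
theorem seg_cross {s : ℝ} {p q : V} (h : Adj p q) {w x : ℂ} (hw : w ∈ sq s q) (hx : x ∈ sq s p) :
    ∃ z ∈ segment ℝ w x, z ∈ sq s p ∧ z ∈ sq s q := by
  obtain ⟨a1, a2, a3, a4⟩ := hw
  obtain ⟨b1, b2, b3, b4⟩ := hx
  have conv : ∀ {a b r t : ℝ}, 0 ≤ t → t ≤ 1 → r ≤ a → r ≤ b → r ≤ a + t * (b - a) := by
    intro a b r t h0 h1 h2 h3
    nlinarith
  have conv' : ∀ {a b r t : ℝ}, 0 ≤ t → t ≤ 1 → a ≤ r → b ≤ r → a + t * (b - a) ≤ r := by
    intro a b r t h0 h1 h2 h3
    nlinarith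
  -- crossing parameter of a linear function
  have ivt : ∀ a b r : ℝ, (a ≤ r ∧ r ≤ b) ∨ (b ≤ r ∧ r ≤ a) →
      ∃ t : ℝ, 0 ≤ t ∧ t ≤ 1 ∧ a + t * (b - a) = r := by
    intro a b r hr
    have hc : ContinuousOn (fun t : ℝ => a + t * (b - a)) (Icc 0 1) := by fun_prop
    rcases hr with hr | hr
    · have := intermediate_value_Icc (zero_le_one' ℝ) hc (by simpa using hr : r ∈ Icc _ _)
      obtain ⟨t, ht, he⟩ := this
      exact ⟨t, ht.1, ht.2, he⟩
    · have := intermediate_value_Icc' (zero_le_one' ℝ) hc (by simpa using hr : r ∈ Icc _ _)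
      obtain ⟨t, ht, he⟩ := this
      exact ⟨t, ht.1, ht.2, he⟩
  have seg : ∀ t : ℝ, 0 ≤ t → t ≤ 1 → w + (t : ℂ) * (x - w) ∈ segment ℝ w x := by
    intro t h0 h1
    rw [segment_eq_image']
    exact ⟨t, ⟨h0, h1⟩, by simp [Complex.real_smul]⟩
  unfold Adj at h
  rcases h with ⟨e1, e2⟩ | ⟨e1, e2⟩ | ⟨e1, e2⟩ | ⟨e1, e2⟩ <;> rw [e1] at a1 a2 <;>
    rw [e2] at a3 a4 <;> push_cast at a1 a2 a3 a4
  · obtain ⟨t, h0, h1, he⟩ := ivt w.re x.re (s * (p.1 + 1)) (Or.inr ⟨b2, a1⟩)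
    refine ⟨_, seg t h0 h1, ?_, ?_⟩
    · refine ⟨?_, ?_, ?_, ?_⟩ <;> simp only [lin_re, lin_im]
      · exact conv h0 h1 (by linarith) b1
      · exact he.le
      · exact conv h0 h1 a3 b3
      · exact conv' h0 h1 a4 b4
    · refine ⟨?_, ?_, ?_, ?_⟩ <;> simp only [lin_re, lin_im, e1, e2] <;> push_cast
      · exact he.ge
      · exact conv' h0 h1 a2 (by linarith)
      · exact conv h0 h1 a3 b3
      · exact conv' h0 h1 a4 b4
  · obtain ⟨t, h0, h1, he⟩ := ivt w.re x.re (s * p.1) (Or.inl ⟨by linarith, b1⟩)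
    refine ⟨_, seg t h0 h1, ?_, ?_⟩
    · refine ⟨?_, ?_, ?_, ?_⟩ <;> simp only [lin_re, lin_im]
      · exact he.ge
      · exact conv' h0 h1 (by linarith) b2
      · exact conv h0 h1 a3 b3
      · exact conv' h0 h1 a4 b4
    · refine ⟨?_, ?_, ?_, ?_⟩ <;> simp only [lin_re, lin_im, e1, e2] <;> push_cast
      · exact conv h0 h1 a1 (by linarith)
      · rw [he]; linarith
      · exact conv h0 h1 a3 b3
      · exact conv' h0 h1 a4 b4
  · obtain ⟨t, h0, h1, he⟩ := ivt w.im x.im (s * (p.2 + 1)) (Or.inr ⟨b4, a3⟩)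
    refine ⟨_, seg t h0 h1, ?_, ?_⟩
    · refine ⟨?_, ?_, ?_, ?_⟩ <;> simp only [lin_re, lin_im]
      · exact conv h0 h1 a1 b1
      · exact conv' h0 h1 a2 b2
      · exact conv h0 h1 (by linarith) b3
      · exact he.le
    · refine ⟨?_, ?_, ?_, ?_⟩ <;> simp only [lin_re, lin_im, e1, e2] <;> push_cast
      · exact conv h0 h1 a1 b1
      · exact conv' h0 h1 a2 b2
      · exact he.ge
      · exact conv' h0 h1 a4 (by linarith)
  · obtain ⟨t, h0, h1, he⟩ := ivt w.im x.im (s * p.2) (Or.inl ⟨by linarith, b3⟩)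
    refine ⟨_, seg t h0 h1, ?_, ?_⟩
    · refine ⟨?_, ?_, ?_, ?_⟩ <;> simp only [lin_re, lin_im]
      · exact conv h0 h1 a1 b1
      · exact conv' h0 h1 a2 b2
      · exact he.ge
      · exact conv' h0 h1 (by linarith) b4
    · refine ⟨?_, ?_, ?_, ?_⟩ <;> simp only [lin_re, lin_im, e1, e2] <;> push_cast
      · exact conv h0 h1 a1 b1
      · exact conv' h0 h1 a2 b2
      · exact conv h0 h1 a3 (by linarith)
      · rw [he]; linarith

section coarse

variable {F : Set V} {L : ℕ} {v : ℕ → V} {m : ℕ → ℕ} {c : V} {M : ℤ} {U : ℕ → ℕ → V} {s : ℝ}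

/-- cells of the polygon next to the first cell of the tentacle are in the coarse inner cell, the
first cell of the tentacle is in the coarse outer cell -/
theorem mouth_cells (hv : Cyc F L v)
    (H : Fine (ref 40 F) (81 * L) (vref 40 v) (mref 40 m) c M U) {i : ℕ} (hi : i < 4) {j : ℕ}
    {f : V} (hf : f ∈ ref 40 F) (h1 : |(U i (j + 1)).1 - f.1| ≤ 1)
    (h2 : |(U i (j + 1)).2 - f.2| ≤ 1) :
    Blk 40 (lcv v (m i)) f ∧ Blk 40 (rcv v (m i)) (U i (j + 1)) := by
  obtain ⟨e0, hdot⟩ := H.clF i hi j f hf h1 h2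
  subst e0
  have g0 := H.C.start0 i hi
  have g1 := H.C.start1 i hi
  have hA := hv.step (m i)
  obtain ⟨c1, c2⟩ := cells_vref (h := 40) (m i) 40 (by norm_num) hA
  have em : mref 40 m i = (2 * 40 + 1) * m i + 40 := rfl
  rw [em, c1] at g0
  rw [em, c2] at g1
  have hadj : Adj (lcv v (m i)) (rcv v (m i)) := adj_lc_rc hA
  rw [zero_add] at h1 h2 ⊢
  rw [g1] at h1 h2 hdot ⊢
  rw [g0] at hdot
  generalize lcv v (m i) = p at *
  generalize rcv v (m i) = q at *
  obtain ⟨p1, p2⟩ := p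
  obtain ⟨q1, q2⟩ := q
  obtain ⟨f1, f2⟩ := f
  unfold Adj at hadj
  unfold Blk cenc at *
  simp only at *
  rw [abs_le] at h1 h2
  push_cast at *
  rcases hadj with ⟨a1, a2⟩ | ⟨a1, a2⟩ | ⟨a1, a2⟩ | ⟨a1, a2⟩ <;> subst a1 <;> subst a2 <;>
    simp only [sub_self, mul_zero, zero_mul, add_zero] at * <;> ring_nf at * <;> omega

/-- **field `mth`** -/
theorem mth (hs : 0 < s) (hv : Cyc F L v)
    (H : Fine (ref 40 F) (81 * L) (vref 40 v) (mref 40 m) c M U) {k : ZMod 4} {w x : ℂ}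
    (hw : w ∈ BB (s / 81) U c M k) (hx : x ∈ Pg s F) (hd : dist w x < s / 81 / 4) :
    ∃ z ∈ ed s (v (m k.val)) (v (m k.val + 1)), dist z w < s / 81 / 4 ∧ dist z x < s / 81 / 4 := by
  have hσ : 0 < s / 81 := by positivity
  have hM := M_nonneg H
  have e81 : s / (2 * ((40 : ℕ) : ℝ) + 1) = s / 81 := by norm_num
  have hPg : Pg (s / 81) (ref 40 F) = Pg s F := by
    rw [← e81]
    exact Pg_ref 40 F hs
  rw [← hPg] at hx
  rcases hw with ⟨j, hj⟩ | hw
  · obtain ⟨f, hf, hxf⟩ := mem_Pg.1 hx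
    obtain ⟨h1, h2⟩ := near_cells hj hxf (by linarith)
    obtain ⟨b1, b2⟩ := mouth_cells hv H (val_lt k) hf h1 h2
    have hx' : x ∈ sq s (lcv v (m k.val)) := by
      refine sq_sub b1 hs ?_
      rw [e81]
      exact hxf
    have hw' : w ∈ sq s (rcv v (m k.val)) := by
      refine sq_sub b2 hs ?_
      rw [e81]
      exact hj
    have hA := hv.step (m k.val)
    obtain ⟨z, hz, hz1, hz2⟩ := seg_cross (adj_lc_rc hA) hw' hx'
    refine ⟨z, (mem_ed_iff hs hA).2 ⟨hz1, hz2⟩, ?_, ?_⟩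
    · rw [dist_comm]
      have := dist_add_dist_of_mem_segment hz
      have := dist_nonneg (x := z) (y := x)
      linarith
    · have := dist_add_dist_of_mem_segment hz
      have := dist_nonneg (x := w) (y := z)
      linarith
  · exfalso
    have h1 := Pg_norm H hσ hx
    have h2 := hw.1
    have h3 := LL_ge hσ hM
    have h4 : ‖w - cen (s / 81) c‖ ≤ ‖x - cen (s / 81) c‖ + dist w x := by
      rw [dist_eq_norm]
      have := norm_add_le (x - cen (s / 81) c) (w - x)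
      simpa using this
    linarith

end coarse

/-- **field `tc`** -/
theorem tc {F : Set V} {v : ℕ → V} {m : ℕ → ℕ} {c : V} {M : ℤ} {U : ℕ → ℕ → V} {σ : ℝ}
    (k : ZMod 4) : (CC σ F v m c M U).cone σ k ⊆ BB σ U c M k :=
  fun _ h => Or.inr ⟨h.1.le, h.2⟩

end Crest.Agent.R143.TentDx359
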