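import Crest.Agent.R143.TentE_359

/-!
# Row 143 (S0194), block D: TENT with the polygon form of the outside (helper359)

* `PF C δ` : `C.outᶜ` = finite connected union of grid squares with connected complement, together
  with the closed cones; `volume (frontier C.out) = 0`
* `TENTP P` : TENT with the extra output `P C δ`; `tentP : TENTP PF`
-/

set_option autoImplicit false

noncomputable section

namespace Crest.Agent.R143.TentNx359

open Set Metric MeasureTheory
open Crest.Agent.R158 Crest.Agent.R158.Sp896 Crest.Agent.R158.Tj656 Crest.Agent.R158.Tg331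
open Crest.Agent.R143.Tentx359 Crest.Agent.R143.TentAx951 Crest.Agent.R143.TentBx951
open Crest.Agent.R143.Tenx416 Crest.Agent.R143.TentDx359

/-- closed cone of the tentacle `k` -/
def fc (C : Cfgx416.Cfg 4) (δ : ℝ) (k : ZMod 4) : Set ℂ :=
  {z | C.L / 2 ≤ ‖z - C.c‖ ∧ ∃ t : ℝ, 0 ≤ t ∧ ‖z - (C.c + t * C.q k)‖ ≤ δ / C.L * ‖z - C.c‖}

/-- polygon form of the outside -/
structure PF (C : Cfgx416.Cfg 4) (δ : ℝ) : Prop where
  poly : ∃ (σ : ℝ) (Fb : Set V), 0 < σ ∧ Fb.Finite ∧ (∀ q ∈ Fb, ∀ q' ∈ Fb, Con Fb q q') ∧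
    (∀ q ∉ Fb, ∀ q' ∉ Fb, Con Fbᶜ q q') ∧ C.outᶜ = Pg σ Fb ∪ ⋃ k, fc C δ k
  null : volume (frontier C.out) = 0

/-- TENT with the extra output `P` -/
def TENTP (P : Cfgx416.Cfg 4 → ℝ → Prop) : Prop :=
  ∀ (s : ℝ) (F : Set V) (N : ℕ) (v : ℕ → V) (m : ℕ → ℕ), 0 < s → F.Finite →
  (∀ q ∈ F, ∀ q' ∈ F, Con F q q') → (∀ q ∉ F, ∀ q' ∉ F, Con Fᶜ q q') → Cyc F N v →
  m 0 < m 1 → m 1 < m 2 → m 2 < m 3 → m 3 < N →
  ∃ (C : Cfgx416.Cfg 4) (δ κ : ℝ) (B : ZMod 4 → Set ℂ), Ten s F N v m C δ κ B ∧ P C δ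

theorem TENTP.tent {P : Cfgx416.Cfg 4 → ℝ → Prop} (h : TENTP P) : TENT := by
  intro s F N v m hs hF h1 h2 hv m01 m12 m23 m3N
  obtain ⟨C, δ, κ, B, H, -⟩ := h s F N v m hs hF h1 h2 hv m01 m12 m23 m3N
  exact ⟨C, δ, κ, B, H⟩

theorem TENTP.mono {P Q : Cfgx416.Cfg 4 → ℝ → Prop} (h : TENTP P) (hPQ : ∀ C δ, P C δ → Q C δ) :
    TENTP Q := by
  intro s F N v m hs hF h1 h2 hv m01 m12 m23 m3N
  obtain ⟨C, δ, κ, B, H, hP⟩ := h s F N v m hs hF h1 h2 hv m01 m12 m23 m3N
  exact ⟨C, δ, κ, B, H, hPQ C δ hP⟩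

/-! ### null frontiers -/

theorem null_union {A B : Set ℂ} (hA : volume (frontier A) = 0) (hB : volume (frontier B) = 0) :
    volume (frontier (A ∪ B)) = 0 := by
  refine measure_mono_null (frontier_union_subset A B) ?_
  exact measure_union_null (measure_mono_null inter_subset_left hA)
    (measure_mono_null inter_subset_right hB)

theorem null_inter {A B : Set ℂ} (hA : volume (frontier A) = 0) (hB : volume (frontier B) = 0) :
    volume (frontier (A ∩ B)) = 0 := by
  refine measure_mono_null (frontier_inter_subset A B) ?_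
  exact measure_union_null (measure_mono_null inter_subset_left hA)
    (measure_mono_null inter_subset_right hB)

theorem null_biUnion {ι : Type*} {F : Set ι} (hF : F.Finite) {A : ι → Set ℂ}
    (h : ∀ q ∈ F, volume (frontier (A q)) = 0) : volume (frontier (⋃ q ∈ F, A q)) = 0 := by
  induction F, hF using Set.Finite.induction_on with
  | empty => simp
  | @insert a s ha hs ih =>
    rw [biUnion_insert]
    exact null_union (h a (mem_insert a s)) (ih fun q hq => h q (mem_insert_of_mem a hq))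

theorem null_iUnion {ι : Type*} [Finite ι] {A : ι → Set ℂ}
    (h : ∀ q, volume (frontier (A q)) = 0) : volume (frontier (⋃ q, A q)) = 0 := by
  have := null_biUnion (F := (univ : Set ι)) finite_univ (A := A) fun q _ => h q
  rwa [biUnion_univ] at this

theorem null_convex {A : Set ℂ} (h : Convex ℝ A) : volume (frontier A) = 0 :=
  h.addHaar_frontier volume

theorem null_sq (σ : ℝ) (q : V) : volume (frontier (sq σ q)) = 0 := null_convex (convex_sq σ q)

theorem null_Pg (σ : ℝ) {F : Set V} (hF : F.Finite) : volume (frontier (Pg σ F)) = 0 :=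
  null_biUnion hF fun q _ => null_sq σ q

section cone

variable {σ : ℝ} {c : V} {M : ℤ}

theorem aa_comb (σ : ℝ) (c : V) (k : ZMod 4) (z w : ℂ) {a b : ℝ} (h : a + b = 1) :
    aa σ c k (a • z + b • w) = a * aa σ c k z + b * aa σ c k w := by
  unfold aa
  simp only [Complex.add_re, Complex.add_im, Complex.real_smul, Complex.re_ofReal_mul,
    Complex.im_ofReal_mul]
  have e : a = 1 - b := by linarith
  rw [e]
  ring

theorem bb_comb (σ : ℝ) (c : V) (k : ZMod 4) (z w : ℂ) {a b : ℝ} (h : a + b = 1) :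
    bb σ c k (a • z + b • w) = a * bb σ c k z + b * bb σ c k w := by
  unfold bb
  simp only [Complex.add_re, Complex.add_im, Complex.real_smul, Complex.re_ofReal_mul,
    Complex.im_ofReal_mul]
  have e : a = 1 - b := by linarith
  rw [e]
  ring

/-- the cone as an intersection -/
theorem cone_eq (hσ : 0 < σ) (hM : 0 ≤ M) (k : ZMod 4) : cone σ c M k =
    {z | LL σ M / 2 ≤ ‖z - cen σ c‖} ∩
      {z | √(1 - (σ / LL σ M) ^ 2) * |bb σ c k z| ≤ σ / LL σ M * aa σ c k z} := by
  set κ := σ / LL σ M with hκ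
  have h1 := ratio hσ hM
  have h0 := ratio_pos hσ hM
  rw [← hκ] at h1 h0
  have h2 : 0 < 1 - κ ^ 2 := by nlinarith
  have h3 := Real.sq_sqrt h2.le
  have h4 : 0 < √(1 - κ ^ 2) := Real.sqrt_pos.2 h2
  ext z
  rw [mem_cone' hσ hM, ← hκ, mem_inter_iff, mem_ofPred_eq, mem_ofPred_eq]
  refine and_congr_right fun _ => ?_
  have hn := norm_sq σ c k z
  constructor
  · rintro ⟨ha, hb⟩
    apply le_of_sq_le_sq _ (mul_nonneg h0.le ha)
    have h5 := pow_le_pow_left₀ (abs_nonneg _) hb 2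
    rw [mul_pow, hn] at h5
    rw [mul_pow, h3, mul_pow]
    rw [sq_abs] at h5 ⊢
    nlinarith
  · intro h
    have ha : 0 ≤ aa σ c k z := by
      have := (mul_nonneg h4.le (abs_nonneg (bb σ c k z))).trans h
      exact nonneg_of_mul_nonneg_right this h0
    refine ⟨ha, ?_⟩
    apply le_of_sq_le_sq _ (mul_nonneg h0.le (norm_nonneg _))
    have h5 := pow_le_pow_left₀ (mul_nonneg h4.le (abs_nonneg _)) h 2
    rw [mul_pow, h3, mul_pow, sq_abs] at h5
    rw [mul_pow, hn, sq_abs]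
    nlinarith

theorem null_cone (hσ : 0 < σ) (hM : 0 ≤ M) (k : ZMod 4) : volume (frontier (cone σ c M k)) = 0 := by
  rw [cone_eq hσ hM]
  refine null_inter ?_ (null_convex ?_)
  · refine measure_mono_null (frontier_le_subset_eq continuous_const (by fun_prop)) ?_
    refine measure_mono_null ?_ (Measure.addHaar_sphere volume (cen σ c) (LL σ M / 2))
    intro z hz
    rw [mem_sphere, dist_eq_norm]
    exact hz.symm
  · intro x hx y hy a b ha hb hab
    have hs : 0 ≤ √(1 - (σ / LL σ M) ^ 2) := Real.sqrt_nonneg _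
    show √(1 - (σ / LL σ M) ^ 2) * |bb σ c k (a • x + b • y)| ≤
      σ / LL σ M * aa σ c k (a • x + b • y)
    have hx' : √(1 - (σ / LL σ M) ^ 2) * |bb σ c k x| ≤ σ / LL σ M * aa σ c k x := hx
    have hy' : √(1 - (σ / LL σ M) ^ 2) * |bb σ c k y| ≤ σ / LL σ M * aa σ c k y := hy
    rw [aa_comb σ c k x y hab, bb_comb σ c k x y hab]
    have h1 : |a * bb σ c k x + b * bb σ c k y| ≤ a * |bb σ c k x| + b * |bb σ c k y| := by
      refine (abs_add_le _ _).trans ?_
      rw [abs_mul, abs_mul, abs_of_nonneg ha, abs_of_nonneg hb]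
    calc √(1 - (σ / LL σ M) ^ 2) * |a * bb σ c k x + b * bb σ c k y|
        ≤ √(1 - (σ / LL σ M) ^ 2) * (a * |bb σ c k x| + b * |bb σ c k y|) :=
          mul_le_mul_of_nonneg_left h1 hs
      _ = a * (√(1 - (σ / LL σ M) ^ 2) * |bb σ c k x|) +
          b * (√(1 - (σ / LL σ M) ^ 2) * |bb σ c k y|) := by ring
      _ ≤ a * (σ / LL σ M * aa σ c k x) + b * (σ / LL σ M * aa σ c k y) :=
          add_le_add (mul_le_mul_of_nonneg_left hx' ha) (mul_le_mul_of_nonneg_left hy' hb)
      _ = _ := by ring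

/-- far cells of the rays are in the cones -/
theorem sq_cone (hσ : 0 < σ) (hM : 0 ≤ M) (k : ZMod 4) {r : ℤ} (hr : 8 * (M + 2) + 1 ≤ r) {z : ℂ}
    (hz : z ∈ sq σ (c.1 + r * (dir k.val).1, c.2 + r * (dir k.val).2)) : z ∈ cone σ c M k := by
  rw [mem_sq c k] at hz
  have e1 : al c k.val (c.1 + r * (dir k.val).1, c.2 + r * (dir k.val).2) = r := by
    unfold al dir
    rcases k_cases k with ⟨-, h⟩ | ⟨-, h⟩ | ⟨-, h⟩ | ⟨-, h⟩ <;> rw [h] <;> simp
  have e2 : be c k.val (c.1 + r * (dir k.val).1, c.2 + r * (dir k.val).2) = 0 := by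
    unfold be rot dir
    rcases k_cases k with ⟨-, h⟩ | ⟨-, h⟩ | ⟨-, h⟩ | ⟨-, h⟩ <;> rw [h] <;> simp
  rw [e1, e2] at hz
  obtain ⟨h1, h2⟩ := hz
  rw [Int.cast_zero, mul_zero, sub_zero] at h2
  rw [abs_le] at h1
  have hr' : (8 * (M + 2) + 1 : ℝ) ≤ r := by exact_mod_cast hr
  have hM' : (0 : ℝ) ≤ M := by exact_mod_cast hM
  have h3 : LL σ M / 2 ≤ aa σ c k z := by
    unfold LL
    nlinarith [h1.1]
  have h4 : LL σ M / 2 ≤ ‖z - cen σ c‖ := h3.trans ((le_abs_self _).trans (aa_le σ c k z))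
  rw [mem_cone' hσ hM]
  exact ⟨h4, (by linarith [LL_pos hσ hM] : (0 : ℝ) ≤ aa σ c k z), h2.trans (width hσ hM h4)⟩

end cone

/-! ### polygon form -/

section fine

variable {σ : ℝ} {F : Set V} {L : ℕ} {v : ℕ → V} {m : ℕ → ℕ} {c : V} {M : ℤ} {U : ℕ → ℕ → V}

theorem bx_fin (c : V) (R : ℤ) : (Bx c R).Finite := by
  refine ((Set.finite_Icc (c.1 - R) (c.1 + R)).prod (Set.finite_Icc (c.2 - R) (c.2 + R))).subset ?_
  rintro ⟨x, y⟩ h
  rw [mem_Bx] at h
  simp only [mem_prod, mem_Icc]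
  simp only at h
  omega

theorem compl_con (H : Fine F L v m c M U) {R : ℤ} (hR : M ≤ R) :
    ∀ q ∉ body F U 4 ∩ Bx c R, ∀ q' ∉ body F U 4 ∩ Bx c R, Con (body F U 4 ∩ Bx c R)ᶜ q q' := by
  have s1 : (body F U 4)ᶜ ⊆ (body F U 4 ∩ Bx c R)ᶜ := fun q hq h => hq h.1
  have s2 : (Bx c R)ᶜ ⊆ (body F U 4 ∩ Bx c R)ᶜ := fun q hq h => hq h.2
  have hsd : sd c 0 (R + 1) ∉ Bx c R := by
    rw [mem_Bx]
    have := M_nonneg H
    unfold sd dir rot
    simp
  have key : ∀ q ∉ body F U 4 ∩ Bx c R, Con (body F U 4 ∩ Bx c R)ᶜ q (sd c 0 (R + 1)) := by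
    intro q hq
    by_cases hb : q ∈ Bx c R
    · have hqb : q ∉ body F U 4 := fun h => hq ⟨h, hb⟩
      obtain ⟨i, hi, hc⟩ := cover H hqb
      have hs := sd_cls H hi (r := R + 1) (by omega)
      have h1 : Con (body F U 4)ᶜ q (sd c i (R + 1)) := (hc.2.symm (own H hi).1).trans hs.2
      have h2 : sd c i (R + 1) ∉ Bx c R := by
        rw [mem_Bx]
        have := M_nonneg H
        unfold sd dir rot
        interval_cases i <;> simp <;> omega
      exact (h1.mono s1).trans ((bx_con' c R _ h2 _ hsd).mono s2)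
    · exact (bx_con' c R _ hb _ hsd).mono s2
  intro q hq q' hq'
  exact (key q hq).trans ((key q' hq').symm hq')

theorem out_eq (H : Fine F L v m c M U) (hσ : 0 < σ) :
    (CC σ F v m c M U).outᶜ = Pg σ (body F U 4 ∩ Bx c (8 * (M + 2) + 1)) ∪ ⋃ k, cone σ c M k := by
  have hM := M_nonneg H
  rw [body_eq H hσ]
  ext z
  simp only [mem_union, mem_iUnion]
  constructor
  · rintro (h | ⟨k, h | h⟩)
    · left
      simp only [Pg, mem_iUnion] at h ⊢
      obtain ⟨q, hq, hz⟩ := h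
      exact ⟨q, F_sub H.C (by omega) hq, hz⟩
    · obtain ⟨j, hz⟩ := h
      by_cases hb : U k.val (j + 1) ∈ Bx c (8 * (M + 2) + 1)
      · left
        simp only [Pg, mem_iUnion]
        exact ⟨_, ⟨Or.inr ⟨k.val, val_lt k, j, rfl⟩, hb⟩, hz⟩
      · right
        have h1 : U k.val (j + 1) ∉ Bx c M := by
          intro h
          apply hb
          rw [mem_Bx] at h ⊢
          omega
        obtain ⟨i, hi, r, hr, he⟩ := (body_out H.C h1).1 (Or.inr ⟨k.val, val_lt k, j, rfl⟩)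
        rw [he] at hz hb
        have hr2 : 8 * (M + 2) + 1 ≤ r := by
          by_contra hcon
          push Not at hcon
          apply hb
          rw [mem_Bx]
          unfold dir
          interval_cases i <;> simp <;> omega
        have e : i = ((i : ℕ) : ZMod 4).val := by
          rw [ZMod.val_natCast, Nat.mod_eq_of_lt hi]
        refine ⟨((i : ℕ) : ZMod 4), sq_cone hσ hM _ hr2 ?_⟩
        rw [← e]
        exact hz
    · exact Or.inr ⟨k, h⟩
  · rintro (h | ⟨k, h⟩)
    · simp only [Pg, mem_iUnion] at h ⊢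
      obtain ⟨q, ⟨hq | ⟨i, hi, j, rfl⟩, -⟩, hz⟩ := h
      · exact Or.inl ⟨q, hq, hz⟩
      · right
        refine ⟨((i : ℕ) : ZMod 4), Or.inl ⟨j, ?_⟩⟩
        rw [ZMod.val_natCast, Nat.mod_eq_of_lt hi]
        exact hz
    · exact Or.inr ⟨k, Or.inr h⟩

theorem pf (H : Fine F L v m c M U) (hσ : 0 < σ) : PF (CC σ F v m c M U) σ := by
  have hM := M_nonneg H
  have hfin : (body F U 4 ∩ Bx c (8 * (M + 2) + 1)).Finite := (bx_fin c _).inter_of_right _
  have he := out_eq H hσ
  refine ⟨⟨σ, body F U 4 ∩ Bx c (8 * (M + 2) + 1), hσ, hfin, lam_con H.C (by omega),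
    compl_con H (by omega), he⟩, ?_⟩
  rw [← frontier_compl, he]
  exact null_union (null_Pg σ hfin) (null_iUnion fun k => null_cone hσ hM k)

end fine

/-- **TENT with the polygon form** -/
theorem tentP : TENTP PF := by
  intro s F N v m hs hF h1 h2 hv m01 m12 m23 m3N
  obtain ⟨c, M, U, H⟩ := exFine F N v m hF h1 h2 hv m01 m12 m23 m3N
  have hσ : 0 < s / 81 := by positivity
  have e81 : s / (2 * ((40 : ℕ) : ℝ) + 1) = s / 81 := by norm_num
  have hPg : Pg (s / 81) (ref 40 F) = Pg s F := by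
    rw [← e81]
    exact Pg_ref 40 F hs
  exact ⟨CC (s / 81) (ref 40 F) (vref 40 v) (mref 40 m) c M U, s / 81, s / 81 / 4,
    BB (s / 81) U c M,
    { ok := CC_ok H hσ
      kpos := by positivity
      ks := by linarith
      bd := by
        intro z hz
        rw [mem_closedBall, dist_eq_norm]
        rw [← hPg] at hz
        exact Pg_norm H hσ hz
      Bc := fun k => isClosed_BB hσ U c (M_nonneg H) k
      body := by rw [body_eq H hσ, hPg]
      mth := fun k w hw x hx hd => mth hs hv H hw hx hd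
      nb := TentPx951.f_nb H hs
      side := TentPx951.f_side H hs hv m01 m12 m23 m3N
      near := TentPx951.f_near H hs hv m01 m12 m23 m3N
      tt := fun j k hjk y hy w hw => tt H hσ hjk hy hw
      tr := fun k y hy w hd => by
        rw [← hPg]
        exact tr H hσ hy hd
      tc := fun k => tc k
      mouth := TentPx951.f_mouth H hs hv }, pf H hσ⟩

end Crest.Agent.R143.TentNx359
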