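import Crest.Agent.R143.TentM_951
import Crest.Agent.R143.Cells_951

/-!
# Row 143 (S0194), block D, TENT N (helper951): fields `nb`, `side`, `near` of `Ten` (Ten_416)

Coarse polygon `F0, N0, v0, m0` (mesh `(2 h + 1) σ`), fine data `CellDom (ref h F0) ..` (mesh `σ`).
`C : Cfg 4` is only used through
* `hR  : C.R i ⊆ Om σ (cl i)`
* `hR' : dist z C.c < C.L / 2 → z ∈ Om σ (cl i) → z ∈ C.R i`
* `hbd : Pg ⊆ closedBall C.c (C.L / 4)`, `hL : 16 σ ≤ C.L`
-/

set_option autoImplicit false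

noncomputable section

namespace Crest.Agent.R143.TentNx951

open Set
open Crest.Agent.R158 Crest.Agent.R158.Sp896 Crest.Agent.R143.Tentx359 Crest.Agent.R143.TentAx951
open Crest.Agent.R143.TentBx951 Crest.Agent.R143.TentMx951 Crest.Agent.R143.Cdx806
open Crest.Agent.R158.Tj656 (cen Om mem_om)
open Crest.Agent.R143.Tenx416 (nx OnS Pg)

section cd

variable {F : Set V} {L : ℕ} {v : ℕ → V} {m : ℕ → ℕ} {c : V} {M : ℤ} {U : ℕ → ℕ → V}

theorem n8_refl (q : V) : N8 q q := by unfold N8; simp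

theorem n8_symm {p q : V} (h : N8 p q) : N8 q p := by
  unfold N8 at *
  rw [abs_sub_comm q.1, abs_sub_comm q.2]
  exact h

theorem adj_n8 {p q : V} (h : Sp896.Adj p q) : N8 p q := by
  unfold N8 Sp896.Adj at *
  rw [abs_le, abs_le]
  omega

theorem cl_notMem {i : ZMod 4} {q : V} (h : q ∈ cl F v m U i) : q ∉ body F U 4 := h.1

/-- a boundary edge whose outer cell is in the class `i` belongs to the open side `i` -/
theorem dart_arc (D : CellDom F L v m c M U) {i : ZMod 4} {f g : V} (hf : f ∈ F)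
    (hg : g ∈ cl F v m U i) (hfg : Sp896.Adj f g) :
    ∃ y, m i.val < y ∧ y < nx L m i ∧ lcv v y = f ∧ rcv v y = g := by
  have C := D.cfg
  have hgF : g ∉ F := fun h => cl_notMem hg (Or.inl h)
  obtain ⟨p, q, hpq, h1, h2⟩ := exists_dart hfg
  obtain ⟨j, hj, e1, e2⟩ := C.cyc.all p q hpq (h1 ▸ hf) (h2 ▸ hgF)
  have hl : lcv v j = f := by unfold lcv; rw [e1, e2, h1]
  have hr : rcv v j = g := by unfold rcv; rw [e1, e2, h2]
  have hmark : ∀ k < 4, j ≠ m k := by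
    rintro k hk rfl
    refine cl_notMem hg ?_
    rw [← hr, ← C.start1 k hk]
    exact Or.inr ⟨k, hk, 0, rfl⟩
  have n0 := hmark 0 (by norm_num)
  have n1 := hmark 1 (by norm_num)
  have n2 := hmark 2 (by norm_num)
  have n3 := hmark 3 (by norm_num)
  have a1 := C.m01
  have a2 := C.m12
  have a3 := C.m23
  have a4 := C.m3L
  have key : ∀ (k : ZMod 4) (y : ℕ), (y = j ∨ y = j + L) → m k.val < y → y < nx L m k →
      ∃ y, m i.val < y ∧ y < nx L m i ∧ lcv v y = f ∧ rcv v y = g := by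
    intro k y hy h3 h4
    have hy1 : v y = v j ∧ v (y + 1) = v (j + 1) := by
      rcases hy with rfl | rfl
      · exact ⟨rfl, rfl⟩
      · refine ⟨C.cyc.per j, ?_⟩
        rw [show j + L + 1 = j + 1 + L by ring]
        exact C.cyc.per (j + 1)
    have hl' : lcv v y = f := by rw [← hl]; unfold lcv; rw [hy1.1, hy1.2]
    have hr' : rcv v y = g := by rw [← hr]; unfold rcv; rw [hy1.1, hy1.2]
    have hk := D.arc k y h3 h4
    rw [hr'] at hk
    have e := D.sep k i g hk g hg (n8_refl g)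
    subst e
    exact ⟨y, h3, h4, hl', hr'⟩
  rcases Nat.lt_or_ge j (m 0) with h | h
  · refine key 3 (j + L) (Or.inr rfl) ?_ ?_
    · show m 3 < j + L
      omega
    · show j + L < if (3 : ZMod 4) = 3 then m 0 + L else _
      rw [if_pos rfl]
      omega
  rcases Nat.lt_or_ge j (m 1) with h' | h'
  · refine key 0 j (Or.inl rfl) ?_ ?_
    · show m 0 < j
      omega
    · show j < if (0 : ZMod 4) = 3 then m 0 + L else m (0 + 1)
      rw [if_neg (by decide)]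
      exact h'
  rcases Nat.lt_or_ge j (m 2) with h'' | h''
  · refine key 1 j (Or.inl rfl) ?_ ?_
    · show m 1 < j
      omega
    · show j < if (1 : ZMod 4) = 3 then m 0 + L else m (1 + 1)
      rw [if_neg (by decide)]
      exact h''
  rcases Nat.lt_or_ge j (m 3) with h3 | h3
  · refine key 2 j (Or.inl rfl) ?_ ?_
    · show m 2 < j
      omega
    · show j < if (2 : ZMod 4) = 3 then m 0 + L else m (2 + 1)
      rw [if_neg (by decide)]
      exact h3
  · refine key 3 j (Or.inl rfl) ?_ ?_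
    · show m 3 < j
      omega
    · show j < if (3 : ZMod 4) = 3 then m 0 + L else _
      rw [if_pos rfl]
      omega

theorem free_cl (D : CellDom F L v m c M U) {i : ZMod 4} {p g : V} (hg : g ∈ cl F v m U i)
    (hp : p ∉ body F U 4) (h : N8 p g) : p ∈ cl F v m U i := by
  obtain ⟨j, hj⟩ := D.cov p hp
  have e := D.sep j i p hj g hg h
  subst e
  exact hj

/-- a point between -/
def btw (a b c : ℝ) : Prop := (a ≤ b ∧ b ≤ c) ∨ (c ≤ b ∧ b ≤ a)

theorem dist_btw {x p w : ℂ} (h1 : btw x.re p.re w.re) (h2 : btw x.im p.im w.im) :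
    dist p x ≤ dist w x := by
  rw [dist_eq_norm, dist_eq_norm, Complex.norm_def, Complex.norm_def]
  apply Real.sqrt_le_sqrt
  rw [Complex.normSq_apply, Complex.normSq_apply]
  simp only [Complex.sub_re, Complex.sub_im]
  unfold btw at h1 h2
  have k1 : (p.re - x.re) * (p.re - x.re) ≤ (w.re - x.re) * (w.re - x.re) := by
    rcases h1 with ⟨a, b⟩ | ⟨a, b⟩ <;> nlinarith
  have k2 : (p.im - x.im) * (p.im - x.im) ≤ (w.im - x.im) * (w.im - x.im) := by
    rcases h2 with ⟨a, b⟩ | ⟨a, b⟩ <;> nlinarith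
  linarith

theorem cross1 {σ a b : ℝ} (hσ : 0 < σ) {i j : ℤ} (hij : |i - j| ≤ 1) (h1 : σ * i ≤ a)
    (h2 : a ≤ σ * (i + 1)) (h3 : σ * j ≤ b) (h4 : b ≤ σ * (j + 1)) :
    ∃ y, btw a y b ∧ (σ * i ≤ y ∧ y ≤ σ * (i + 1)) ∧ (σ * j ≤ y ∧ y ≤ σ * (j + 1)) := by
  rw [abs_le] at hij
  rcases (by omega : j = i + 1 ∨ j = i - 1 ∨ j = i) with rfl | rfl | rfl
  · push_cast at h3 h4 ⊢
    refine ⟨σ * (i + 1), Or.inl ⟨h2, h3⟩, ⟨by nlinarith, le_rfl⟩, le_rfl, by nlinarith⟩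
  · push_cast at h3 h4 ⊢
    refine ⟨σ * i, Or.inr ⟨by linarith, h1⟩, ⟨le_rfl, by nlinarith⟩, by nlinarith, by linarith⟩
  · refine ⟨a, ?_, ⟨h1, h2⟩, h1, h2⟩
    rcases le_total a b with h | h
    · exact Or.inl ⟨le_rfl, h⟩
    · exact Or.inr ⟨h, le_rfl⟩

/-- between two points of neighbouring cells there is a point of all four cells of the block -/
theorem cross8 {σ : ℝ} (hσ : 0 < σ) {f g : V} (h : N8 f g) {x w : ℂ} (hx : x ∈ sq σ f)
    (hw : w ∈ sq σ g) : ∃ z, z ∈ sq σ f ∧ z ∈ sq σ g ∧ z ∈ sq σ (g.1, f.2) ∧ z ∈ sq σ (f.1, g.2) ∧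
      dist z x ≤ dist w x := by
  rw [mem_sq] at hx hw
  obtain ⟨y1, a1, a2, a3⟩ := cross1 hσ h.1 hx.1 hx.2.1 hw.1 hw.2.1
  obtain ⟨y2, b1, b2, b3⟩ := cross1 hσ h.2 hx.2.2.1 hx.2.2.2 hw.2.2.1 hw.2.2.2
  exact ⟨⟨y1, y2⟩, ⟨a2.1, a2.2, b2.1, b2.2⟩, ⟨a3.1, a3.2, b3.1, b3.2⟩, ⟨a3.1, a3.2, b2.1, b2.2⟩,
    ⟨a2.1, a2.2, b3.1, b3.2⟩, dist_btw a1 b1⟩

/-- **local form of `nb`** -/
theorem touch (D : CellDom F L v m c M U) {σ : ℝ} (hσ : 0 < σ) {i : ZMod 4} {f g : V} (hf : f ∈ F)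
    (hg : g ∈ cl F v m U i) (hfg : N8 f g) {x w : ℂ} (hx : x ∈ sq σ f) (hw : w ∈ sq σ g) :
    ∃ y, m i.val < y ∧ y < nx L m i ∧ ∃ z ∈ ed σ (v y) (v (y + 1)), dist z x ≤ dist w x := by
  have C := D.cfg
  have hgF : g ∉ F := fun h => cl_notMem hg (Or.inl h)
  obtain ⟨z, z1, z2, z3, z4, z5⟩ := cross8 hσ hfg hx hw
  have fin : ∀ f' g' : V, f' ∈ F → g' ∈ cl F v m U i → Sp896.Adj f' g' → z ∈ sq σ f' →
      z ∈ sq σ g' → ∃ y, m i.val < y ∧ y < nx L m i ∧ ∃ z ∈ ed σ (v y) (v (y + 1)),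
        dist z x ≤ dist w x := by
    intro f' g' k1 k2 k3 k4 k5
    obtain ⟨y, h1, h2, h3, h4⟩ := dart_arc D k1 k2 k3
    refine ⟨y, h1, h2, z, ?_, z5⟩
    rw [Tg331.mem_ed_iff hσ (C.cyc.step y)]
    unfold lcv at h3
    unfold rcv at h4
    rw [h3, h4]
    exact ⟨k4, k5⟩
  obtain ⟨f1, f2⟩ := f
  obtain ⟨g1, g2⟩ := g
  have hfg' := hfg
  unfold N8 at hfg'
  rw [abs_le, abs_le] at hfg'
  simp only at hfg' z3 z4
  by_cases e1 : f1 = g1
  · subst e1
    have hne : f2 ≠ g2 := fun h => hgF (h ▸ hf)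
    exact fin _ _ hf hg (by unfold Sp896.Adj; simp only [true_and]; omega) z1 z2
  by_cases e2 : f2 = g2
  · subst e2
    exact fin _ _ hf hg (by unfold Sp896.Adj; simp only [and_true]; omega) z1 z2
  have A1 : Sp896.Adj (f1, f2) (g1, f2) := by unfold Sp896.Adj; simp only [and_true]; omega
  have A2 : Sp896.Adj (f1, f2) (f1, g2) := by unfold Sp896.Adj; simp only [true_and]; omega
  have A3 : Sp896.Adj (g1, f2) (g1, g2) := by unfold Sp896.Adj; simp only [true_and]; omega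
  have A4 : Sp896.Adj (f1, g2) (g1, g2) := by unfold Sp896.Adj; simp only [and_true]; omega
  by_cases p1 : ((g1, f2) : V) ∈ F
  · exact fin _ _ p1 hg A3 z3 z2
  by_cases p2 : ((f1, g2) : V) ∈ F
  · exact fin _ _ p2 hg A4 z4 z2
  by_cases q1 : ((g1, f2) : V) ∈ body F U 4
  · by_cases q2 : ((f1, g2) : V) ∈ body F U 4
    · exfalso
      rcases q1 with q1 | ⟨k, hk, j, hj⟩
      · exact p1 q1
      rcases q2 with q2 | ⟨k', hk', j', hj'⟩
      · exact p2 q2
      have t1 := (D.tF k hk j _ hf (hj ▸ n8_symm (adj_n8 A1))).1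
      have t2 := (D.tF k' hk' j' _ hf (hj' ▸ n8_symm (adj_n8 A2))).1
      subst t1 t2
      have hn : N8 ((g1, f2) : V) (f1, g2) := by
        unfold N8
        rw [abs_le, abs_le]
        simp only
        omega
      rw [hj, hj'] at hn
      have e := D.tt k hk k' hk' 0 0 hn
      subst e
      rw [← hj', Prod.mk.injEq] at hj
      exact e1 hj.1.symm
    · exact fin _ _ hf (free_cl D hg q2 (adj_n8 A4)) A2 z1 z4
  · exact fin _ _ hf (free_cl D hg q1 (adj_n8 A3)) A1 z1 z3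

end cd

/-! ### the fields -/

section fields

variable {F0 : Set V} {N0 : ℕ} {v0 : ℕ → V} {m0 : ℕ → ℕ} {h : ℕ} {c : V} {M : ℤ} {U : ℕ → ℕ → V}
  {σ : ℝ}

/-- the coarse edge of a fine edge of the side `i` is on the closed side `i` -/
theorem coarse_on {i : ZMod 4} {y : ℕ} (h1 : mref h m0 i.val < y)
    (h2 : y < nx ((2 * h + 1) * N0) (mref h m0) i) : OnS N0 m0 i (y / (2 * h + 1)) := by
  have hk : 0 < 2 * h + 1 := by omega
  unfold OnS nx at *
  unfold mref at *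
  constructor
  · rw [Nat.le_div_iff_mul_le hk, mul_comm]
    omega
  · rw [Nat.div_le_iff_le_mul_add_pred hk]
    by_cases hi : i = 3
    · rw [if_pos hi] at h2 ⊢
      rw [mul_add]
      omega
    · rw [if_neg hi] at h2 ⊢
      omega

theorem pg_fine (hσ : 0 < σ) : Pg ((2 * h + 1) * σ) F0 = ⋃ f ∈ ref h F0, sq σ f := pg_ref hσ h F0

theorem cellOf_mem' (hσ : 0 < σ) (z : ℂ) : ∃ g : V, z ∈ sq σ g := ⟨_, mem_cellOf hσ z⟩

/-- **nb** -/
theorem nb (D : CellDom (ref h F0) ((2 * h + 1) * N0) (vref h v0) (mref h m0) c M U)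
    (hσ : 0 < σ) {κ : ℝ} (hκ : κ ≤ σ) {i : ZMod 4} {w : ℂ}
    (hw : w ∈ Om σ (cl (ref h F0) (vref h v0) (mref h m0) U i)) {x : ℂ}
    (hx : x ∈ Pg ((2 * h + 1) * σ) F0) (hd : dist w x < κ) :
    ∃ k, OnS N0 m0 i k ∧ ∃ z ∈ ed ((2 * h + 1) * σ) (v0 k) (v0 (k + 1)), dist z x < κ := by
  rw [pg_fine hσ, mem_iUnion₂] at hx
  obtain ⟨f, hf, hxf⟩ := hx
  obtain ⟨g, hg⟩ := cellOf_mem' hσ w
  have hgc := (mem_om hσ).1 hw g hg
  have hn := near8 hσ hg hxf (lt_of_lt_of_le hd hκ)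
  obtain ⟨y, h1, h2, z, hz, hdz⟩ := touch D hσ hf hgc (n8_symm hn) hxf hg
  refine ⟨y / (2 * h + 1), coarse_on h1 h2, z, ?_, lt_of_le_of_lt hdz hd⟩
  have e : (2 * h + 1) * (y / (2 * h + 1)) + y % (2 * h + 1) = y := Nat.div_add_mod _ _
  refine ed_fine (v := v0) (h := h) (σ := σ) (y / (2 * h + 1)) (y % (2 * h + 1))
    (Nat.lt_succ_iff.1 (Nat.mod_lt _ (by omega))) ?_
  rw [e]
  exact hz

/-- fine edges of an open coarse edge of the side `i` -/
theorem fine_on {i : ZMod 4} {k r : ℕ} (hr : r ≤ 2 * h) (h1 : m0 i.val < k) (h2 : k < nx N0 m0 i) :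
    mref h m0 i.val < (2 * h + 1) * k + r ∧
      (2 * h + 1) * k + r < nx ((2 * h + 1) * N0) (mref h m0) i := by
  unfold nx at *
  unfold mref at *
  have e1 : (2 * h + 1) * (m0 i.val + 1) ≤ (2 * h + 1) * k := Nat.mul_le_mul_left _ h1
  rw [mul_add] at e1
  constructor
  · omega
  · by_cases hi : i = 3
    · rw [if_pos hi] at h2 ⊢
      have e2 : (2 * h + 1) * (k + 1) ≤ (2 * h + 1) * (m0 0 + N0) := Nat.mul_le_mul_left _ h2
      rw [mul_add, mul_add] at e2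
      omega
    · rw [if_neg hi] at h2 ⊢
      have e2 : (2 * h + 1) * (k + 1) ≤ (2 * h + 1) * (m0 (i.val + 1)) := Nat.mul_le_mul_left _ h2
      rw [mul_add] at e2
      omega

/-- the middle of the coarse marked edge is in the first cell of the tentacle -/
theorem mid_mem (D : CellDom (ref h F0) ((2 * h + 1) * N0) (vref h v0) (mref h m0) c M U)
    (hσ : 0 < σ) {k : ℕ} (hk : k < 4) :
    (⟨(2 * h + 1) * σ * (((v0 (m0 k)).1 + (v0 (m0 k + 1)).1) / 2),
      (2 * h + 1) * σ * (((v0 (m0 k)).2 + (v0 (m0 k + 1)).2) / 2)⟩ : ℂ) ∈ sq σ (U k 1) := by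
  rw [D.cfg.start1 k hk]
  have hz : (⟨(2 * h + 1) * σ * (((v0 (m0 k)).1 + (v0 (m0 k + 1)).1) / 2),
      (2 * h + 1) * σ * (((v0 (m0 k)).2 + (v0 (m0 k + 1)).2) / 2)⟩ : ℂ) ∈
      ed σ (vref h v0 (mref h m0 k)) (vref h v0 (mref h m0 k + 1)) := by
    unfold mref
    rw [mem_ed, show (2 * h + 1) * m0 k + h + 1 = (2 * h + 1) * m0 k + (h + 1) by ring,
      vref_at v0 (m0 k) h (by omega), vref_at v0 (m0 k) (h + 1) (by omega)]
    refine ⟨1 / 2, by norm_num, by norm_num, ?_, ?_⟩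
    · simp only; push_cast; ring
    · simp only; push_cast; ring
  exact ed_sub_rc hσ (D.cfg.cyc.step _) hz

/-- a point of a coarse edge which is not marked is far from the first cells of the tentacles -/
theorem far_mouth (D : CellDom (ref h F0) ((2 * h + 1) * N0) (vref h v0) (mref h m0) c M U)
    (hc : Cyc F0 N0 v0) (hh : 2 ≤ h) (hσ : 0 < σ) {k a : ℕ} (hk : k < 4)
    (hne : a % N0 ≠ m0 k % N0) {z w : ℂ}
    (hz : z ∈ ed ((2 * h + 1) * σ) (v0 a) (v0 (a + 1))) (hw : w ∈ sq σ (U k 1))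
    (hd : dist w z < σ) : False := by
  have hh' : (2 : ℝ) ≤ h := by exact_mod_cast hh
  have hs : 0 < (2 * h + 1) * σ := by positivity
  have hN : 0 < N0 := lt_of_lt_of_le (by norm_num) hc.four_le
  have hm := mid_mem D hσ hk
  set p : ℂ := ⟨(2 * h + 1) * σ * (((v0 (m0 k)).1 + (v0 (m0 k + 1)).1) / 2),
      (2 * h + 1) * σ * (((v0 (m0 k)).2 + (v0 (m0 k + 1)).2) / 2)⟩ with hp
  have hfar := mid_far hs (hc.step (m0 k)) (hc.step a) ⟨?_, ?_⟩ hz (w := p) ⟨rfl, rfl⟩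
  · obtain ⟨d1, d2⟩ := re_im_lt hd
    rw [mem_sq] at hw hm
    rw [abs_lt] at d1 d2
    have b : σ * 2 ≤ (2 * h + 1) * σ / 2 := by nlinarith
    have c1 : |z.re - p.re| < σ * 2 := by
      rw [abs_lt]
      constructor <;> linarith [hw.1, hw.2.1, hm.1, hm.2.1, d1.1, d1.2]
    have c2 : |z.im - p.im| < σ * 2 := by
      rw [abs_lt]
      constructor <;> linarith [hw.2.2.1, hw.2.2.2, hm.2.2.1, hm.2.2.2, d2.1, d2.2]
    rcases hfar with hf | hf
    · linarith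
    · linarith
  · rintro ⟨e1, -⟩
    rw [← hc.mod a, ← hc.mod (m0 k)] at e1
    exact hne (hc.inj _ (Nat.mod_lt _ hN) _ (Nat.mod_lt _ hN) e1)
  · rintro ⟨e1, e2⟩
    have r1 := hc.right a
    rw [e1, e2, (Bl802.adj_rev (hc.step (m0 k))).2] at r1
    exact r1 (hc.left (m0 k))

/-- indices strictly between two consecutive marks are not marks -/
theorem not_mark (h01 : m0 0 < m0 1) (h12 : m0 1 < m0 2) (h23 : m0 2 < m0 3) (h3 : m0 3 < N0)
    {i : ZMod 4} {a k : ℕ} (hk : k < 4) (h1 : m0 i.val < a) (h2 : a < nx N0 m0 i) :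
    a % N0 ≠ m0 k % N0 := by
  have hmk : m0 k % N0 = m0 k := Nat.mod_eq_of_lt (by interval_cases k <;> omega)
  rw [hmk]
  have h4 : (m0 0 < a ∧ a < m0 1) ∨ (m0 1 < a ∧ a < m0 2) ∨ (m0 2 < a ∧ a < m0 3) ∨
      (m0 3 < a ∧ a < m0 0 + N0) := by
    fin_cases i
    · exact Or.inl ⟨h1, h2⟩
    · exact Or.inr (Or.inl ⟨h1, h2⟩)
    · exact Or.inr (Or.inr (Or.inl ⟨h1, h2⟩))
    · exact Or.inr (Or.inr (Or.inr ⟨h1, h2⟩))
  have h5 : a % N0 = a ∨ (N0 ≤ a ∧ a % N0 = a - N0) := by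
    rcases Nat.lt_or_ge a N0 with ha | ha
    · exact Or.inl (Nat.mod_eq_of_lt ha)
    · refine Or.inr ⟨ha, ?_⟩
      rw [Nat.mod_eq_sub_mod ha, Nat.mod_eq_of_lt (by omega)]
  have h6 : m0 k = m0 0 ∨ m0 k = m0 1 ∨ m0 k = m0 2 ∨ m0 k = m0 3 := by
    interval_cases k
    · exact Or.inl rfl
    · exact Or.inr (Or.inl rfl)
    · exact Or.inr (Or.inr (Or.inl rfl))
    · exact Or.inr (Or.inr (Or.inr rfl))
  omega

/-- **side** -/
theorem side (D : CellDom (ref h F0) ((2 * h + 1) * N0) (vref h v0) (mref h m0) c M U)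
    (hc : Cyc F0 N0 v0) (h01 : m0 0 < m0 1) (h12 : m0 1 < m0 2) (h23 : m0 2 < m0 3)
    (h3 : m0 3 < N0) (hh : 2 ≤ h) (hσ : 0 < σ) {κ : ℝ} (hκ : κ ≤ σ) {i : ZMod 4} {a : ℕ}
    (h1 : m0 i.val < a) (h2 : a < nx N0 m0 i) {z : ℂ}
    (hz : z ∈ ed ((2 * h + 1) * σ) (v0 a) (v0 (a + 1))) {w : ℂ} (hw : dist w z < κ) :
    w ∈ Pg ((2 * h + 1) * σ) F0 ∨
      w ∈ Om σ (cl (ref h F0) (vref h v0) (mref h m0) U i) := by
  by_cases hP : w ∈ Pg ((2 * h + 1) * σ) F0
  · exact Or.inl hP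
  refine Or.inr ((mem_om hσ).2 fun g hg => ?_)
  have hwσ : dist w z < σ := lt_of_lt_of_le hw hκ
  obtain ⟨r, hr, hzr⟩ := ed_split a hz
  obtain ⟨f1, f2⟩ := fine_on hr h1 h2
  have harc := D.arc i _ f1 f2
  have hgF : g ∉ ref h F0 := by
    intro hgF
    apply hP
    rw [pg_fine hσ, mem_iUnion₂]
    exact ⟨g, hgF, hg⟩
  have n1 := near8 hσ hg (ed_sub_rc hσ (D.cfg.cyc.step _) hzr) hwσ
  have n2 := near8 hσ hg (ed_sub_lc hσ (D.cfg.cyc.step _) hzr) hwσ
  by_cases hgB : g ∈ body (ref h F0) U 4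
  · exfalso
    rcases hgB with hgB | ⟨k, hk, j, rfl⟩
    · exact hgF hgB
    · have hj := (D.tF k hk j _ (D.cfg.cyc.left _) n2).1
      subst hj
      exact far_mouth D hc hh hσ hk (not_mark h01 h12 h23 h3 hk h1 h2) hz hg hwσ
  · exact free_cl D harc hgB n1

/-- **near** -/
theorem near_ (D : CellDom (ref h F0) ((2 * h + 1) * N0) (vref h v0) (mref h m0) c M U)
    (hc : Cyc F0 N0 v0) (h01 : m0 0 < m0 1) (h12 : m0 1 < m0 2) (h23 : m0 2 < m0 3)
    (h3 : m0 3 < N0) (hh : 1 ≤ h) (hσ : 0 < σ) {i : ZMod 4} {a : ℕ} (ha : OnS N0 m0 i a) {z : ℂ}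
    (hz : z ∈ ed ((2 * h + 1) * σ) (v0 a) (v0 (a + 1))) :
    ∃ w ∈ Om σ (cl (ref h F0) (vref h v0) (mref h m0) U i), dist w z < 3 * ((2 * h + 1) * σ) ∧
      ∃ e ∈ Pg ((2 * h + 1) * σ) F0, dist w e ≤ 2 * σ := by
  have hh' : (1 : ℝ) ≤ h := by exact_mod_cast hh
  have hs : 0 < (2 * h + 1) * σ := by positivity
  obtain ⟨a1, a2⟩ := ha
  obtain ⟨r, hr, f1, f2⟩ : ∃ r ≤ 2 * h, mref h m0 i.val < (2 * h + 1) * a + r ∧
      (2 * h + 1) * a + r < nx ((2 * h + 1) * N0) (mref h m0) i := by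
    by_cases e1 : m0 i.val < a
    · by_cases e2 : a < nx N0 m0 i
      · obtain ⟨f1, f2⟩ := fine_on (h := h) (r := h) (by omega) e1 e2
        exact ⟨h, by omega, f1, f2⟩
      · have e3 : a = nx N0 m0 i := by omega
        refine ⟨h - 1, by omega, ?_, ?_⟩
        · have e4 : (2 * h + 1) * (m0 i.val + 1) ≤ (2 * h + 1) * a := Nat.mul_le_mul_left _ e1
          rw [mul_add] at e4
          unfold mref
          omega
        · rw [e3]
          unfold nx mref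
          by_cases hi : i = 3
          · rw [if_pos hi, if_pos hi, mul_add]
            omega
          · rw [if_neg hi, if_neg hi]
            omega
    · have e3 : a = m0 i.val := by omega
      refine ⟨h + 1, by omega, ?_, ?_⟩
      · rw [e3]; unfold mref; omega
      · rw [e3]
        unfold nx mref
        by_cases hi : i = 3
        · subst hi
          rw [if_pos rfl]
          have e4 : m0 (3 : ZMod 4).val = m0 3 := rfl
          rw [e4]
          have e5 : (2 * h + 1) * (m0 3 + 1) ≤ (2 * h + 1) * N0 := Nat.mul_le_mul_left _ h3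
          rw [mul_add] at e5
          omega
        · rw [if_neg hi]
          have e4 : m0 i.val < m0 (i.val + 1) := by
            have hi3 : i.val < 3 := by
              have := ZMod.val_lt i
              by_contra hcon
              exact hi (val_eq_three.1 (by omega))
            generalize i.val = j at *
            interval_cases j <;> omega
          have e5 : (2 * h + 1) * (m0 i.val + 1) ≤ (2 * h + 1) * m0 (i.val + 1) :=
            Nat.mul_le_mul_left _ e4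
          rw [mul_add] at e5
          omega
  have harc := D.arc i _ f1 f2
  have hstep := D.cfg.cyc.step ((2 * h + 1) * a + r)
  set x := (2 * h + 1) * a + r with hx
  have he1 : pt σ (vref h v0 x) ∈ ed σ (vref h v0 x) (vref h v0 (x + 1)) := left_mem_segment _ _ _
  have he2 := ed_sub_rc hσ hstep he1
  have he3 : pt σ (vref h v0 x) ∈ ed ((2 * h + 1) * σ) (v0 a) (v0 (a + 1)) :=
    ed_fine a r hr he1
  have he4 := ed_sub_lc hs (hc.step a) he3
  have hz4 := ed_sub_lc hs (hc.step a) hz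
  have hw2 : dist (cen σ (rcv (vref h v0) x)) (pt σ (vref h v0 x)) ≤ 2 * σ := by
    rw [dist_eq_norm]
    exact sq_dist (Tg331.so_sub σ _ (Tg331.ce_so hσ _)) he2
  refine ⟨cen σ (rcv (vref h v0) x), Tg331.ce_mem hσ harc, ?_, pt σ (vref h v0 x), ?_, hw2⟩
  · have d2 : dist (pt σ (vref h v0 x)) z ≤ 2 * ((2 * h + 1) * σ) := by
      rw [dist_eq_norm]
      exact sq_dist he4 hz4
    have d3 := dist_triangle (cen σ (rcv (vref h v0) x)) (pt σ (vref h v0 x)) z
    nlinarith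
  · unfold Pg
    rw [mem_iUnion₂]
    exact ⟨_, hc.left a, he4⟩

end fields

end Crest.Agent.R143.TentNx951
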