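import Crest.Agent.R143.FlP_820
import Crest.Agent.R143.Rel2_352
import Crest.Agent.R143.Jun_43

/-!
# Row 143 (S0194), block H, box (P) of 4110 (helper820): the tentacle lemma, giants of the flipped
configuration

`μ` a colouring, `p₀` a state (first state of the outer arc).  A PIECE = walk of `n` steps from the
state `q` of `μ`; it is FORWARD if its right cells are joined to the right cell of `p₀`, BACKWARD if
its left cells are (then the reversed piece is on the loop of `p₀` or its right cells are not seen).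
* `face_in` : the cells of the faces of the states `j < n` are cells of the piece
* `out_fwd`, `out_bwd` : the gaps whose face has a cell outside `E` are not passed in a piece inside `E`
* `harm_pc` : **TENTACLE LEMMA**: the left cells and the right cells of the pieces are harmless for
  the loop of `p₀`
* `giants_pc` : left / right cells of `m` pieces = at most `2 m` giants (`Ctr`, `ClsCon`), same pieces
  in the whole cylinder
* `same2` : a piece of the static loop with all cells flipped (`c = 1`) or none (`c = 0`) is a piece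
  of the flipped colouring with the same states
* `con_in` : the left cells of a flipped piece which contains a joined cell are joined
* `rel_flip`, `root_flip` : **relative frame and (P) in the flipped configuration** (352's `rel_frame`)
-/

set_option autoImplicit false
set_option linter.unusedSectionVars false

noncomputable section

open scoped Classical

namespace Crest.Agent.R143.Tentx820

open Crest.Agent.R143.Frame1x395 Crest.Agent.R143.Frame2x395 Crest.Agent.R143.Frame3x395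
  Crest.Agent.R143.Frame4x395 Crest.Agent.R143.Frame8x395 Crest.Agent.R143.Frame11x395
  Crest.Agent.R143.NonXx592 Crest.Agent.R143.Coarsex166 Crest.Agent.R143.Giantx46
  Crest.Agent.R143.Resax778 Crest.Agent.R143.Partx778 Crest.Agent.R143.Chordx355
  Crest.Agent.R143.ChordCx357 Crest.Agent.R143.Chord2x355 Crest.Agent.R143.CFramex358
  Crest.Agent.R143.Runx535 Crest.Agent.R143.Gntx535 Crest.Agent.R143.Relx352
  Crest.Agent.R143.Rel2x352 Crest.Agent.R143.FlPx820 Crest.Agent.R143.Junx43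

variable {D C : Type} {M : CMap D C} {x : D → ZMod 2}

/-! ### faces of a piece -/

/-- the cells of the faces of the states `j < n` -/
theorem face_in (h : IsC M ∅ x) {q : D} (hq : x q = 1) {n j : ℕ} (hj : j < n) {E : Finset C}
    (hE : wl M x q n ∪ wr M x q n ⊆ E) :
    M.cell (P M x q j) ∈ E ∧ M.cell (M.rho (P M x q j)) ∈ E ∧
      M.cell (M.rho (M.rho (P M x q j))) ∈ E := by
  refine ⟨hE (Finset.mem_union.2 (Or.inl (mem_wl.2 ⟨j, hj.le, rfl⟩))),
    hE (Finset.mem_union.2 (Or.inr (mem_wr.2 ⟨j, hj.le, rfl⟩))), hE ?_⟩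
  have h1 := third_mem h hq j
  rw [Finset.mem_union] at h1 ⊢
  rcases h1 with h1 | h1
  · obtain ⟨i, hi, e⟩ := mem_wl.1 h1
    exact Or.inl (mem_wl.2 ⟨i, by omega, e⟩)
  · obtain ⟨i, hi, e⟩ := mem_wr.1 h1
    exact Or.inr (mem_wr.2 ⟨i, by omega, e⟩)

/-- some cell of the face of `k` is not in `E` -/
def Off (M : CMap D C) (E : Finset C) (k : D) : Prop :=
  M.cell k ∉ E ∨ M.cell (M.rho k) ∉ E ∨ M.cell (M.rho (M.rho k)) ∉ E

/-- the gaps which are not inside `E` are not passed in a piece inside `E` -/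
theorem out_fwd (h : IsC M ∅ x) {q : D} (hq : x q = 1) {n : ℕ} {E : Finset C}
    (hE : wl M x q n ∪ wr M x q n ⊆ E) {k : D} (hk : Off M E k) : OutP M x q n k := by
  intro j hj e
  obtain ⟨h1, h2, h3⟩ := face_in h hq hj hE
  rw [e] at h1 h2 h3
  rw [M.rho3] at h3
  rcases hk with hk | hk | hk
  · exact hk h3
  · exact hk h1
  · exact hk h2

/-- same for the reversed piece -/
theorem out_bwd (h : IsC M ∅ x) {q : D} (hq : x q = 1) {n : ℕ} {E : Finset C}
    (hE : wl M x q n ∪ wr M x q n ⊆ E) {k : D} (hk : Off M E k) :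
    OutP M x (M.iota (P M x q n)) n k := by
  intro j hj e
  rw [P_rev h hq hj.le] at e
  obtain ⟨m, hm⟩ : ∃ m, n - j = m + 1 := ⟨n - j - 1, by omega⟩
  rw [hm, P_succ] at e
  obtain ⟨h1, h2, h3⟩ := face_in h hq (j := m) (by omega) hE
  rcases stp_cases h (P_occ h hq m) (Set.notMem_empty _) with ⟨-, -, e1⟩ | ⟨-, -, e1⟩
  · rw [e1, M.iota2] at e
    have e2 : P M x q m = k := rho_inj M e
    rw [e2] at h1 h2 h3
    rcases hk with hk | hk | hk
    · exact hk h1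
    · exact hk h2
    · exact hk h3
  · rw [e1, M.iota2] at e
    have e2 : M.rho (P M x q m) = k := rho_inj M e
    rcases hk with hk | hk | hk
    · rw [← e2] at hk; exact hk h2
    · rw [← e2] at hk; exact hk h3
    · rw [← e2, M.rho3] at hk; exact hk h1

/-! ### the tentacle lemma -/

theorem con_colr {μ : C → ZMod 2} {a b : C} (h : Con M (cfg M μ) a b) : μ a = μ b := by
  induction h with
  | rel a b h =>
    obtain ⟨d, h1, rfl, rfl⟩ := h
    exact cfg_zero.1 h1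
  | refl a => rfl
  | symm a b _ ih => exact ih.symm
  | trans a b c _ _ ih1 ih2 => exact ih1.trans ih2

variable {ι : Type}

/-- left (`true`) and right (`false`) cells of the pieces -/
def pS (M : CMap D C) (x : D → ZMod 2) (q : ι → D) (n : ι → ℕ) (i : ι × Bool) : Finset C :=
  if i.2 then wl M x (q i.1) (n i.1) else wr M x (q i.1) (n i.1)

theorem pS_true {q : ι → D} {n : ι → ℕ} {i : ι} : pS M x q n (i, true) = wl M x (q i) (n i) := rfl

theorem pS_false {q : ι → D} {n : ι → ℕ} {i : ι} : pS M x q n (i, false) = wr M x (q i) (n i) := rfl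

theorem ne_one {a : ZMod 2} : a ≠ a + 1 := by revert a; decide

/-- **TENTACLE LEMMA** -/
theorem harm_pc [Fintype D] {μ : C → ZMod 2} {p₀ : D} (h0 : cfg M μ p₀ = 1) {q : ι → D}
    {n : ι → ℕ} (hq : ∀ i, cfg M μ (q i) = 1)
    (hJ : ∀ i, Con M (cfg M μ) (M.cell (M.rho p₀)) (M.cell (M.rho (q i))) ∨
      Con M (cfg M μ) (M.cell (M.rho p₀)) (M.cell (q i)))
    {E : Finset C} (hE : ∀ i, pS M (cfg M μ) q n i ⊆ E)
    {Q : D → Prop} (hQ : ∀ k, Q k → Off M E k)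
    {S : ι × Bool → Finset C} (hSe : pS M (cfg M μ) q n = S)
    (hS : ∀ i j c, c ∈ S i → c ∈ S j → i = j) (c' : GQ S hS) :
    Harm M (gq S hS) (cfg M μ) p₀ Q c' := by
  subst hSe
  have h := cfg_isC (M := M) μ
  have hE' : ∀ i, wl M (cfg M μ) (q i) (n i) ∪ wr M (cfg M μ) (q i) (n i) ⊆ E := fun i =>
    Finset.union_subset (hE (i, true)) (hE (i, false))
  have colr : ∀ i, cfg M μ (q i) = 1 → μ (M.cell (M.rho (q i))) = μ (M.cell (q i)) + 1 :=
    fun i hi => cfg_one.1 hi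
  have col0 : ∀ m, μ (M.cell (P M (cfg M μ) p₀ m)) = μ (M.cell p₀) := fun m =>
    it_col h h0 (fun d hd => cfg_zero.1 hd) m
  have c0 : μ (M.cell (M.rho p₀)) = μ (M.cell p₀) + 1 := cfg_one.1 h0
  refine harm_gq ?_ c'
  rintro ⟨i, b⟩
  rcases hJ i with hj | hj
  · cases b
    · left
      intro m hm
      rw [pS_false] at hm
      have e1 := wr_col (hq i) hm
      rw [← colr i (hq i), ← con_colr hj, c0, col0] at e1
      exact ne_one e1
    · rw [pS_true]
      by_cases hv : ∃ m, M.cell (P M (cfg M μ) p₀ m) ∈ wl M (cfg M μ) (q i) (n i)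
      · right
        obtain ⟨m, hm⟩ := hv
        obtain ⟨j, -, e⟩ := mem_wl.1 hm
        have h1 : Con M (cfg M μ) (M.cell p₀) (M.cell (q i)) := by
          refine con_trans (con_left h h0 m) ?_
          rw [← e]
          exact con_symm (con_left h (hq i) j)
        refine ⟨q i, n i, same_loop h h0 (hq i) h1 hj, fun k hk => out_fwd h (hq i) (hE' i)
          (hQ k hk), fun m hm => ?_⟩
        obtain ⟨j, hj, e⟩ := mem_wl.1 hm
        exact ⟨j, hj, e⟩
      · left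
        intro m hm
        exact hv ⟨m, hm⟩
  · cases b
    · rw [pS_false]
      by_cases hv : ∃ m, M.cell (P M (cfg M μ) p₀ m) ∈ wr M (cfg M μ) (q i) (n i)
      · right
        obtain ⟨m, hm⟩ := hv
        obtain ⟨j, -, e⟩ := mem_wr.1 hm
        have hn : cfg M μ (P M (cfg M μ) (q i) (n i)) = 1 := P_occ h (hq i) _
        have hn' : cfg M μ (M.iota (P M (cfg M μ) (q i) (n i))) = 1 := by
          rw [h.iot]; exact hn
        have h1 : Con M (cfg M μ) (M.cell p₀) (M.cell (M.iota (P M (cfg M μ) (q i) (n i)))) := by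
          rw [cell_iota' h hn]
          refine con_trans (con_left h h0 m) ?_
          rw [← e]
          exact con_trans (con_symm (con_right h (hq i) j)) (con_right h (hq i) (n i))
        have h2 : Con M (cfg M μ) (M.cell (M.rho p₀))
            (M.cell (M.rho (M.iota (P M (cfg M μ) (q i) (n i))))) := by
          rw [show M.cell (M.rho (M.iota (P M (cfg M μ) (q i) (n i)))) = _ from rc_iota h hn]
          exact con_trans hj (con_left h (hq i) (n i))
        refine ⟨_, n i, same_loop h h0 hn' h1 h2, fun k hk => out_bwd h (hq i) (hE' i) (hQ k hk),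
          fun m hm => ?_⟩
        obtain ⟨j, hj, e⟩ := mem_wr.1 hm
        refine ⟨n i - j, by omega, ?_⟩
        rw [P_rev h (hq i) (by omega), show n i - (n i - j) = j by omega,
          cell_iota' h (P_occ h (hq i) _)]
        exact e
      · left
        intro m hm
        exact hv ⟨m, hm⟩
    · left
      intro m hm
      rw [pS_true] at hm
      have e1 := wl_col (hq i) hm
      rw [← con_colr hj, c0, col0] at e1
      exact ne_one e1

/-! ### giants of the pieces -/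

theorem pS_agree [Fintype D] {ρ μ : C → ZMod 2} {q : ι → D} {n : ι → ℕ}
    (hq : ∀ i, cfg M ρ (q i) = 1) {E : Finset C} (hE : ∀ i, pS M (cfg M ρ) q n i ⊆ E)
    (hμ : ∀ c ∈ E, μ c = ρ c) :
    (∀ i, cfg M μ (q i) = 1 ∧ ∀ j ≤ n i, P M (cfg M μ) (q i) j = P M (cfg M ρ) (q i) j) ∧
      pS M (cfg M μ) q n = pS M (cfg M ρ) q n := by
  have h1 : ∀ i, cfg M μ (q i) = 1 ∧ ∀ j ≤ n i, P M (cfg M μ) (q i) j = P M (cfg M ρ) (q i) j :=
    fun i => walk_agree (hq i) fun c hc => hμ c (by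
      rcases Finset.mem_union.1 hc with hc | hc
      · exact hE (i, true) hc
      · exact hE (i, false) hc)
  refine ⟨h1, ?_⟩
  funext ⟨i, b⟩
  cases b
  · rw [pS_false, pS_false]
    ext c
    rw [mem_wr, mem_wr]
    exact ⟨fun ⟨j, hj, e⟩ => ⟨j, hj, by rw [← (h1 i).2 j hj]; exact e⟩,
      fun ⟨j, hj, e⟩ => ⟨j, hj, by rw [(h1 i).2 j hj]; exact e⟩⟩
  · rw [pS_true, pS_true]
    ext c
    rw [mem_wl, mem_wl]
    exact ⟨fun ⟨j, hj, e⟩ => ⟨j, hj, by rw [← (h1 i).2 j hj]; exact e⟩,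
      fun ⟨j, hj, e⟩ => ⟨j, hj, by rw [(h1 i).2 j hj]; exact e⟩⟩

/-- **giants of the pieces**, in the form of the hypothesis `H` of 352's `rel_frame` -/
theorem giants_pc [Fintype D] [Fintype C] [Fintype ι] [Nonempty ι] {ρ : C → ZMod 2} {q : ι → D}
    {n : ι → ℕ} (hq : ∀ i, cfg M ρ (q i) = 1) {E : Finset C}
    (hE : Finset.univ.biUnion (pS M (cfg M ρ) q n) = E)
    (hS : ∀ i j c, c ∈ pS M (cfg M ρ) q n i → c ∈ pS M (cfg M ρ) q n j → i = j)
    {Q : D → Prop} (hQ : ∀ k, Q k → Off M E k) {p' : (C → ZMod 2) → D} {ev : (C → ZMod 2) → Prop}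
    (H : ∀ μ ∈ Prs E ρ, ev μ → cfg M μ (p' μ) = 1 ∧ ∀ i,
      Con M (cfg M μ) (M.cell (M.rho (p' μ))) (M.cell (M.rho (q i))) ∨
      Con M (cfg M μ) (M.cell (M.rho (p' μ))) (M.cell (q i))) :
    ∃ (C' : Type) (_ : Fintype C') (π : C → C') (_ : ClsCon M π),
      Ctr π E ρ ∧ E.Nonempty ∧ (E.image π).card ≤ 2 * Fintype.card ι ∧
      ∀ μ ∈ Prs E ρ, ev μ → cfg M μ (p' μ) = 1 ∧ ∀ c', Harm M π (cfg M μ) (p' μ) Q c' := by
  have hx := cfg_isC (M := M) ρ
  have hE' : ∀ i, pS M (cfg M ρ) q n i ⊆ E := by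
    intro i
    rw [← hE]
    exact Finset.subset_biUnion_of_mem _ (Finset.mem_univ i)
  refine ⟨GQ (pS M (cfg M ρ) q n) hS, Fintype.ofFinite _, gq (pS M (cfg M ρ) q n) hS, gq_con ?_,
    ?_, ?_, ?_, ?_⟩
  · rintro ⟨i, b⟩ c hc c' hc'
    cases b
    · exact wr_con hx (hq i) hc hc'
    · exact wl_con hx (hq i) hc hc'
  · rw [← hE]
    refine gq_ctr ?_
    rintro ⟨i, b⟩ c hc c' hc'
    cases b
    · rw [wr_col (hq i) hc, wr_col (hq i) hc']
    · rw [wl_col (hq i) hc, wl_col (hq i) hc']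
  · obtain ⟨i⟩ := ‹Nonempty ι›
    exact ⟨M.cell (q i), hE' (i, true) (mem_wl.2 ⟨0, Nat.zero_le _, rfl⟩)⟩
  · rw [← hE]
    have h := gq_card (hS := hS)
    rw [Fintype.card_prod, Fintype.card_bool, mul_comm] at h
    convert h
  · intro μ hμ hv
    obtain ⟨h1, h2⟩ := pS_agree hq hE' (mem_Prs.1 hμ)
    obtain ⟨h3, h4⟩ := H μ hμ hv
    refine ⟨h3, fun c' => harm_pc h3 (fun i => (h1 i).1) h4 (E := E) ?_ hQ h2 hS c'⟩
    intro i
    rw [h2]
    exact hE' i

/-! ### pieces of the static loop in the flipped colouring -/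

section ring

variable [Fintype D] {χ χ' : C → ZMod 2} {p : D}

/-- **same states**: the touched cells are all flipped (`c = 1`) or all kept (`c = 0`) -/
theorem same2 (hp : cfg M χ p = 1) {c : ZMod 2} {m : ℕ}
    (e : ∀ u, u ≤ m → χ' (lc M (cfg M χ) p u) = χ (lc M (cfg M χ) p u) + c ∧
      χ' (rc M (cfg M χ) p u) = χ (rc M (cfg M χ) p u) + c) :
    cfg M χ' p = 1 ∧ ∀ u, u ≤ m → P M (cfg M χ') p u = P M (cfg M χ) p u := by
  have key : ∀ a b c : ZMod 2, a + c + (b + c) = a + b := by decide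
  constructor
  · obtain ⟨h1, h2⟩ := e 0 (Nat.zero_le _)
    show χ' (lc M (cfg M χ) p 0) + χ' (rc M (cfg M χ) p 0) = 1
    rw [h1, h2, key]
    exact hp
  · intro u
    induction u with
    | zero => intro _; rfl
    | succ u ih =>
      intro hu
      rw [P_succ, P_succ, ih (by omega)]
      have h3 : χ' (M.cell (gt M (cfg M χ) p u)) = χ (M.cell (gt M (cfg M χ) p u)) + c := by
        rcases third (cfg_isC χ) hp u with h | h
        · rw [h]; exact (e (u + 1) hu).1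
        · rw [h]; exact (e (u + 1) hu).2
      have h4 : cfg M χ' (M.rho (P M (cfg M χ) p u)) = cfg M χ (M.rho (P M (cfg M χ) p u)) := by
        show χ' (rc M (cfg M χ) p u) + χ' (M.cell (gt M (cfg M χ) p u)) =
          χ (rc M (cfg M χ) p u) + χ (M.cell (gt M (cfg M χ) p u))
        rw [h3, (e u (by omega)).2, key]
      unfold stp
      rw [h4]

/-- the piece `[a, a + m]` of the loop -/
theorem piece2 (hp : cfg M χ p = 1) {c : ZMod 2} {a m : ℕ}
    (e : ∀ u, a ≤ u → u ≤ a + m → χ' (lc M (cfg M χ) p u) = χ (lc M (cfg M χ) p u) + c ∧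
      χ' (rc M (cfg M χ) p u) = χ (rc M (cfg M χ) p u) + c) :
    cfg M χ' (P M (cfg M χ) p a) = 1 ∧ ∀ u, u ≤ m →
      P M (cfg M χ') (P M (cfg M χ) p a) u = P M (cfg M χ) (P M (cfg M χ) p a) u := by
  refine same2 (P_occ (cfg_isC χ) hp a) (c := c) fun u hu => ?_
  rw [lc_shift, rc_shift]
  exact e (a + u) (by omega) (by omega)

variable {N T₁ T₂ a₁ a₂ a₃ : ℕ} {S : Set ℕ}

/-- a piece of the outer arc of the pattern `j` -/
def OutPc (M : CMap D C) (χ : C → ZMod 2) (p : D) (T₁ T₂ a₁ a₂ a₃ N : ℕ) (j : Fin 3) (q : D)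
    (n : ℕ) : Prop :=
  ∃ u, u + n ≤ aln T₁ T₂ a₁ a₂ a₃ N j ∧ q = P M (cfg M χ) p (ast a₁ a₂ j + u)

/-- a piece of the inverted arc which contains a gap of the block -/
def InPc (M : CMap D C) (χ : C → ZMod 2) (p : D) (T₁ T₂ : ℕ) (S : Set ℕ) (j : Fin 3) (q : D)
    (n : ℕ) : Prop :=
  ∃ v, q = P M (cfg M χ) p v ∧ (∀ u, v ≤ u → u ≤ v + n →
    lc M (cfg M χ) p u ∈ Dj M (cfg M χ) p T₁ T₂ j ∧
    rc M (cfg M χ) p u ∈ Dj M (cfg M χ) p T₁ T₂ j) ∧ ∃ s ∈ S, v ≤ s ∧ s ≤ v + n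

/-- **the pieces of the ring loop in the inverted colouring**: same states; joined by the right cells
(outer arc) or by the left cells (inverted arc) -/
theorem ring_pc (R : Ring M χ p N T₁ T₂ a₁ a₂ a₃ S) {j : Fin 3} (F : Fl M χ p T₁ T₂ j χ')
    (J : Jd M χ p T₁ T₂ a₁ a₂ S j χ') {q : D} {n : ℕ}
    (h : OutPc M χ p T₁ T₂ a₁ a₂ a₃ N j q n ∨ InPc M χ p T₁ T₂ S j q n) :
    (cfg M χ' q = 1 ∧ ∀ u, u ≤ n → P M (cfg M χ') q u = P M (cfg M χ) q u) ∧
      (Con M (cfg M χ') (M.cell (M.rho (P M (cfg M χ) p (ast a₁ a₂ j)))) (M.cell (M.rho q)) ∨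
      Con M (cfg M χ') (M.cell (M.rho (P M (cfg M χ) p (ast a₁ a₂ j)))) (M.cell q)) := by
  rcases h with ⟨u₀, hu₀, rfl⟩ | ⟨v, rfl, h1, s, hs, hs1, hs2⟩
  · have h2 : ∀ u, u ≤ aln T₁ T₂ a₁ a₂ a₃ N j →
        χ' (lc M (cfg M χ) p (ast a₁ a₂ j + u)) = χ (lc M (cfg M χ) p (ast a₁ a₂ j + u)) + 0 ∧
        χ' (rc M (cfg M χ) p (ast a₁ a₂ j + u)) =
          χ (rc M (cfg M χ) p (ast a₁ a₂ j + u)) + 0 := by
      intro u hu
      obtain ⟨h3, h4⟩ := R.arc_off j hu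
      rw [add_zero, add_zero]
      exact ⟨fl_nl F h3, fl_nr F h4⟩
    refine ⟨piece2 R.lp.occ (c := 0) fun u h3 h4 => ?_, Or.inl ?_⟩
    · obtain ⟨t, rfl⟩ := Nat.exists_eq_add_of_le h3
      rw [Nat.add_assoc]
      exact h2 (u₀ + t) (by omega)
    · have h5 := piece2 (χ' := χ') R.lp.occ (c := 0) (a := ast a₁ a₂ j)
        (m := aln T₁ T₂ a₁ a₂ a₃ N j) fun u h3 h4 => by
          obtain ⟨t, rfl⟩ := Nat.exists_eq_add_of_le h3
          exact h2 t (by omega)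
      have h6 := con_right (cfg_isC χ') h5.1 u₀
      rw [h5.2 u₀ (by omega)] at h6
      rw [add_comm, P_add]
      exact h6
  · have h2 : ∀ u, v ≤ u → u ≤ v + n →
        χ' (lc M (cfg M χ) p u) = χ (lc M (cfg M χ) p u) + 1 ∧
        χ' (rc M (cfg M χ) p u) = χ (rc M (cfg M χ) p u) + 1 := by
      intro u h3 h4
      obtain ⟨h5, h6⟩ := h1 u h3 h4
      rw [(F u).1, (F u).2, if_pos h5, if_pos h6]
      exact ⟨rfl, rfl⟩
    refine ⟨piece2 R.lp.occ (c := 1) h2, Or.inr ?_⟩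
    refine con_trans (J s hs (h1 s hs1 hs2).1) ?_
    refine con_l' R.lp.occ (χ' := χ') (m := v) (n := v + n) (a := χ (M.cell p) + 1)
      (fun u h3 h4 => ?_) hs1 hs2 (v := v) le_rfl (by omega)
    rw [(h2 u h3 h4).1, col_l R.lp.occ]

end ring

/-! ### relative frame in the flipped configuration -/

section rel

variable [Fintype D] [Fintype C]

/-- **relative frame in the flipped configuration** (352's `rel_frame` transported by `Φ`) -/
theorem rel_flip {w : ℂ} (w3 : w ^ 3 = 1) (w1 : w ≠ 1) (wc : (starRingEnd ℂ) w = w ^ 2)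
    {a : D → ℂ} (ha : Spin M w a)
    {O K : (C → ZMod 2) → Finset C} {Φ : (C → ZMod 2) → (C → ZMod 2)} (hΦ : FlO O Φ)
    (hK : StopSet K) {T : Finset C} {g go : (C → ZMod 2) → ℝ} (hg0 : ∀ σ, 0 ≤ g σ)
    (hgo : ∀ σ, g σ ≤ go (Φ σ)) (hgT : ∀ σ τ, (∀ s, s ∉ T → τ s = σ s) → go τ = go σ)
    (hKO : ∀ σ, g σ ≠ 0 → K (Φ σ) ⊆ O σ) (hOT : ∀ σ, g σ ≠ 0 → O σ \ K (Φ σ) ⊆ T)
    {Y : (C → ZMod 2) → ℝ} (hY0 : ∀ μ, 0 ≤ Y μ) (ev : (C → ZMod 2) → Prop)
    (hev : ∀ σ τ, g σ ≠ 0 → ev (Φ (mix O σ τ))) {m : ℕ}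
    (H : ∀ σ, g σ ≠ 0 → ∃ (C' : Type) (_ : Fintype C') (π : C → C') (hπ : ClsCon M π),
      Ctr π (K (Φ σ)) (Φ σ) ∧ (K (Φ σ)).Nonempty ∧ ((K (Φ σ)).image π).card ≤ m ∧
      ∀ μ ∈ Prs (K (Φ σ)) (Φ σ), ev μ → Y μ ≤ En (coarse M π hπ) a (cfg M μ)) :
    ∑ σ, wt O g σ * Y (Φ σ) ≤ (2 : ℝ) ^ m / 8 * (∑ k, ‖a k‖ ^ 2) * ∑ σ, go σ := by
  rw [← sum_wt_fl hΦ]
  have e1 : ∀ μ, Φ (inv hΦ μ) = μ := phi_inv hΦ
  refine rel_frame w3 w1 wc ha (stop_fl hΦ) hK (g := fun μ => g (inv hΦ μ)) (go := go)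
    (fun μ => hg0 _) (fun μ => ?_) hgT (fun μ h => ?_) (fun μ h => ?_) hY0 ev
    (fun μ τ h => ?_) (m := m) fun ρ h => ?_
  · have := hgo (inv hΦ μ)
    rwa [e1] at this
  · have := hKO (inv hΦ μ) h
    rwa [e1] at this
  · have := hOT (inv hΦ μ) h
    rwa [e1] at this
  · have := hev (inv hΦ μ) τ h
    rwa [← mix_fl hΦ, e1] at this
  · have := H (inv hΦ ρ) h
    rwa [e1] at this

/-- **(P): the partial charge of the root chord in the flipped configuration**, relative form -/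
theorem root_flip {w : ℂ} (w3 : w ^ 3 = 1) (w1 : w ≠ 1) (wc : (starRingEnd ℂ) w = w ^ 2)
    {φ : D → ℂ} (hφ : Spin M w φ)
    {O K : (C → ZMod 2) → Finset C} {Φ : (C → ZMod 2) → (C → ZMod 2)} (hΦ : FlO O Φ)
    (hK : StopSet K) {T : Finset C} {g go : (C → ZMod 2) → ℝ} (hg0 : ∀ σ, 0 ≤ g σ)
    (hgo : ∀ σ, g σ ≤ go (Φ σ)) (hgT : ∀ σ τ, (∀ s, s ∉ T → τ s = σ s) → go τ = go σ)
    (hKO : ∀ σ, g σ ≠ 0 → K (Φ σ) ⊆ O σ) (hOT : ∀ σ, g σ ≠ 0 → O σ \ K (Φ σ) ⊆ T)
    {p' : (C → ZMod 2) → D} (ev : (C → ZMod 2) → Prop)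
    (hev : ∀ σ τ, g σ ≠ 0 → ev (Φ (mix O σ τ))) {Q : D → Prop} (hQ : ∀ k, ¬ Q k → φ k = 0) {m : ℕ}
    (H : ∀ σ, g σ ≠ 0 → ∃ (C' : Type) (_ : Fintype C') (π : C → C') (_ : ClsCon M π),
      Ctr π (K (Φ σ)) (Φ σ) ∧ (K (Φ σ)).Nonempty ∧ ((K (Φ σ)).image π).card ≤ m ∧
      ∀ μ ∈ Prs (K (Φ σ)) (Φ σ), ev μ →
        cfg M μ (p' μ) = 1 ∧ ∀ c', Harm M π (cfg M μ) (p' μ) Q c')
    {J : (C → ZMod 2) → Prop} {b n : (C → ZMod 2) → ℕ} {Rv : (C → ZMod 2) → Set C}
    {k : (C → ZMod 2) → D}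
    (hJ : ∀ μ, J μ → Oa M (cfg M μ) (p' μ) (b μ) (Rv μ) ∧
      Jc M (cfg M μ) (p' μ) (b μ) (Rv μ) (k μ) (n μ)) :
    ∑ σ, wt O g σ * (if J (Φ σ) then
        ‖dpt M (cfg M (Φ σ)) (p' (Φ σ)) (b (Φ σ)) φ (k (Φ σ)) (n (Φ σ))‖ ^ 2 else 0) ≤
      2 * ((2 : ℝ) ^ m / 8 * (∑ k, ‖φ k‖ ^ 2) * ∑ σ, go σ) +
      2 * ∑ σ, wt O g σ * (if J (Φ σ) then
        ‖∑ h ∈ cset M (P M (cfg M (Φ σ)) (M.rho (k (Φ σ)))) 0 (n (Φ σ)), φ h‖ ^ 2 else 0) := by
  set Y : (C → ZMod 2) → ℝ := fun μ => ∑ β ∈ onL M (cfg M μ) (p' μ), ‖∑ h ∈ β, φ h‖ ^ 2 with hYd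
  have hY0 : ∀ μ, 0 ≤ Y μ := fun μ => Finset.sum_nonneg fun _ _ => by positivity
  have h1 := rel_flip (M := M) w3 w1 wc hφ hΦ hK hg0 hgo hgT hKO hOT (Y := Y) hY0 ev hev (m := m)
    fun σ hσ => by
      obtain ⟨C', i', π, hπ, c1, c2, c3, c4⟩ := H σ hσ
      refine ⟨C', i', π, hπ, c1, c2, c3, fun μ hμ hv => ?_⟩
      obtain ⟨h5, h6⟩ := c4 μ hμ hv
      exact onL_le (hπ := hπ) (c1.isC hπ hμ) h5 hQ h6
  refine le_trans ?_ (add_le_add_left (mul_le_mul_of_nonneg_left h1 (by norm_num : (0:ℝ) ≤ 2)) _)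
  rw [Finset.mul_sum, Finset.mul_sum, ← Finset.sum_add_distrib]
  refine Finset.sum_le_sum fun σ _ => ?_
  have hw : 0 ≤ wt O g σ := wt_nonneg hg0 σ
  by_cases hj : J (Φ σ)
  · rw [if_pos hj, if_pos hj]
    obtain ⟨e2, e3⟩ := hJ _ hj
    have h3 := pot_le e2 e3 φ
    have h4 := mul_le_mul_of_nonneg_left h3 hw
    rw [mul_add] at h4
    calc _ ≤ _ := h4
      _ = _ := by rw [hYd]; ring
  · rw [if_neg hj, if_neg hj]
    have := mul_nonneg hw (hY0 (Φ σ))
    linarith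

end rel

end Crest.Agent.R143.Tentx820
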