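import Crest.Agent.R143.RE0_723
import Crest.Agent.R143.For_991

/-!
# Row 143 (S0194): territories (helper583)

`S` sites, `V` a set of free sites, `X` the union of the classes. `ter S V X K` = sites of `S \ V`
whose shortest chain to `X` off `V` (991's forest) ends in `K`; `Dt S V X x` its length.

* `ter_thin`, `ter_sub`, `ter_disj`, `ter_con`, `ter_all`, `ter_union`, `ter_un`
* `pg_ter` : the territories of the classes of a combinatorial polygon form a combinatorial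
  polygon with the same hull marks whose inner sites are exactly `V`; `qd_ter` : the same for quads
* `Joi` : every site off `V` is joined to the classes off `V` (`joi_of_cut`: enough next to ..)
-/

set_option autoImplicit false

noncomputable section

open scoped Classical ENNReal

namespace Crest.Agent.R143.Terrx583

open Crest.Agent.R143.B0x346 Crest.Agent.R143.DelGx806 Crest.Agent.R143.JColx54
open Crest.Agent.R143.RE0x723
open Crest.Agent.R143.Forx991 (D root Ln)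

variable {S V X K K' : Finset ℂ} {x y : ℂ}

/-- length of the shortest chain off `V` from `x` to `X` -/
def Dt (S V X : Finset ℂ) (x : ℂ) : ℝ≥0∞ := D (Adj S) (S \ V) X x

/-- territory of `K` -/
def ter (S V X K : Finset ℂ) : Finset ℂ := (S \ V).filter fun x => root (Adj S) (S \ V) X x ∈ K

theorem mem_ter : x ∈ ter S V X K ↔ (x ∈ S ∧ x ∉ V) ∧ root (Adj S) (S \ V) X x ∈ K := by
  unfold ter
  rw [Finset.mem_filter, Finset.mem_sdiff]

theorem ter_subS : ter S V X K ⊆ S := fun _ h => (mem_ter.1 h).1.1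

theorem ter_notV (h : x ∈ ter S V X K) : x ∉ V := (mem_ter.1 h).1.2

/-- all sites off `V` are joined to `X` off `V` -/
def Joi (S V X : Finset ℂ) : Prop :=
  ∀ x ∈ S, x ∉ V → ∃ y ∈ X, Pth S {z | z ∈ S ∧ z ∉ V} x y

/-- a chain off `V` to `X` bounds the distance -/
theorem dt_lt (hy : y ∈ X) (h : Pth S {z | z ∈ S ∧ z ∉ V} x y) : Dt S V X x < ⊤ := by
  have h' := h.symm
  refine h'.ind (P := fun z => Dt S V X z < ⊤) ?_ ?_
  · show D _ _ _ _ < ⊤
    rw [Forx991.D_A hy]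
    exact ENNReal.zero_lt_top
  · intro a b ha hb hab hlt
    have h1 : D (Adj S) (S \ V) X b ≤ edist b a + D (Adj S) (S \ V) X a :=
      Forx991.D_step (Finset.mem_sdiff.2 hb) hab.symm
    exact h1.trans_lt (ENNReal.add_lt_top.2 ⟨edist_lt_top _ _, hlt⟩)

theorem Joi.lt (h : Joi S V X) (hx : x ∈ S) (hV : x ∉ V) : Dt S V X x < ⊤ := by
  obtain ⟨y, hy, hp⟩ := h x hx hV
  exact dt_lt hy hp

theorem dt_X (hx : x ∈ X) : Dt S V X x = 0 := Forx991.D_A hx

theorem dt_step (hx : x ∈ S) (hV : x ∉ V) (h : Adj S x y) :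
    Dt S V X x ≤ edist x y + Dt S V X y :=
  Forx991.D_step (Finset.mem_sdiff.2 ⟨hx, hV⟩) h

/-- **thin** : `x` is joined to its root inside its territory, in the ball of radius `Dt x` -/
theorem ter_thin' (hX : X ⊆ S \ V) (hx : x ∈ ter S V X K) (hD : Dt S V X x < ⊤) :
    Pth S {z | z ∈ ter S V X K ∧ edist x z ≤ Dt S V X x} x (root (Adj S) (S \ V) X x) := by
  obtain ⟨⟨h1, h2⟩, h3⟩ := mem_ter.1 hx
  have hb := Forx991.branch (R := Adj S) hX (fun a b h => Adj.ne h) (Finset.mem_sdiff.2 ⟨h1, h2⟩) hD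
  refine ⟨⟨hx, by rw [edist_self]; exact bot_le⟩, Relation.ReflTransGen.mono ?_ _ _ hb⟩
  rintro a b ⟨h4, h5, h6, h7, h8⟩
  refine ⟨h4, mem_ter.2 ⟨Finset.mem_sdiff.1 h5, ?_⟩, h8⟩
  rw [h7]
  exact h3

theorem root_memX (hX : X ⊆ S \ V) (hx : x ∈ S) (hV : x ∉ V) (hD : Dt S V X x < ⊤) :
    root (Adj S) (S \ V) X x ∈ X :=
  Forx991.root_mem hX (fun _ _ h => Adj.ne h) (Finset.mem_sdiff.2 ⟨hx, hV⟩) hD

theorem root_X (hx : x ∈ X) : root (Adj S) (S \ V) X x = x := Forx991.root_A hx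

/-- **thin** -/
theorem ter_thin (hX : X ⊆ S \ V) (hJ : Joi S V X) (hx : x ∈ ter S V X K) :
    ∃ y ∈ K, y ∈ X ∧ Pth S {z | z ∈ ter S V X K ∧ edist x z ≤ Dt S V X x} x y := by
  have h := mem_ter.1 hx
  have hD := hJ.lt h.1.1 h.1.2
  exact ⟨_, h.2, root_memX hX h.1.1 h.1.2 hD, ter_thin' hX hx hD⟩

/-- **thin**, with a real radius -/
theorem ter_thin_real (hX : X ⊆ S \ V) (hJ : Joi S V X) (hx : x ∈ ter S V X K) {r : ℝ} (h0 : 0 ≤ r)
    (hr : Dt S V X x ≤ ENNReal.ofReal r) :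
    ∃ y ∈ K, y ∈ X ∧ Pth S {z | z ∈ ter S V X K ∧ ‖z - x‖ ≤ r} x y := by
  obtain ⟨y, hy, hy', hp⟩ := ter_thin hX hJ hx
  refine ⟨y, hy, hy', Pth.mono ?_ hp⟩
  rintro z ⟨h1, h2⟩
  refine ⟨h1, ?_⟩
  have h3 := h2.trans hr
  rw [edist_dist, dist_comm, dist_eq_norm] at h3
  exact (ENNReal.ofReal_le_ofReal_iff h0).1 h3

/-- the classes lie in their territories -/
theorem ter_sub (hX : X ⊆ S \ V) (hK : K ⊆ X) : K ⊆ ter S V X K := by
  intro x hx
  refine mem_ter.2 ⟨Finset.mem_sdiff.1 (hX (hK hx)), ?_⟩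
  rw [root_X (hK hx)]
  exact hx

theorem mem_ter_X (hX : X ⊆ S \ V) (hx : x ∈ X) : x ∈ ter S V X K ↔ x ∈ K := by
  rw [mem_ter, root_X hx]
  exact ⟨fun h => h.2, fun h => ⟨Finset.mem_sdiff.1 (hX hx), h⟩⟩

theorem ter_disj (h : Disjoint K K') : Disjoint (ter S V X K) (ter S V X K') := by
  rw [Finset.disjoint_left]
  intro x hx hx'
  exact Finset.disjoint_left.1 h (mem_ter.1 hx).2 (mem_ter.1 hx').2

theorem ter_union : ter S V X (K ∪ K') = ter S V X K ∪ ter S V X K' := by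
  ext x
  simp only [Finset.mem_union, mem_ter]
  tauto

theorem ter_mono (h : K ⊆ K') : ter S V X K ⊆ ter S V X K' := by
  intro x hx
  rw [mem_ter] at hx ⊢
  exact ⟨hx.1, h hx.2⟩

/-- the territories cover `S \ V` -/
theorem ter_all (hX : X ⊆ S \ V) (hJ : Joi S V X) : ter S V X X = S \ V := by
  ext x
  rw [mem_ter, Finset.mem_sdiff]
  exact ⟨fun h => h.1, fun h => ⟨h, root_memX hX h.1 h.2 (hJ.lt h.1 h.2)⟩⟩

/-- the territory of a connected class is connected -/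
theorem ter_con (hX : X ⊆ S \ V) (hJ : Joi S V X) (hK : K ⊆ X)
    (hc : ∀ x ∈ K, ∀ y ∈ K, Pth S (K : Set ℂ) x y) :
    ∀ x ∈ ter S V X K, ∀ y ∈ ter S V X K, Pth S (ter S V X K : Set ℂ) x y := by
  have hKt : (K : Set ℂ) ⊆ (ter S V X K : Set ℂ) := fun z hz =>
    Finset.mem_coe.2 (ter_sub hX hK (Finset.mem_coe.1 hz))
  have hj : ∀ x ∈ ter S V X K, ∃ y ∈ K, Pth S (ter S V X K : Set ℂ) x y := by
    intro x hx
    obtain ⟨y, hy, -, hp⟩ := ter_thin hX hJ hx
    exact ⟨y, hy, hp.mono fun z hz => hz.1⟩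
  intro x hx y hy
  obtain ⟨x', hx', hpx⟩ := hj x hx
  obtain ⟨y', hy', hpy⟩ := hj y hy
  exact (hpx.trans ((hc x' hx' y' hy').mono hKt)).trans hpy.symm

/-- territories of unions -/
theorem ter_un {A : ℕ → Finset ℂ} (i l : ℕ) :
    un (fun j => ter S V X (A j)) i l = ter S V X (un A i l) := by
  ext x
  simp only [un, Finset.mem_biUnion, Finset.mem_Ico, mem_ter]
  constructor
  · rintro ⟨j, hj, h1, h2⟩; exact ⟨h1, j, hj, h2⟩
  · rintro ⟨h1, j, hj, h2⟩; exact ⟨j, hj, h1, h2⟩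

/-! ### polygons -/

section pg

variable {n m : ℕ} {w : ℤ → ℂ} {p : ℕ → ℤ} {A : ℕ → Finset ℂ}

theorem mem_un {i l : ℕ} : x ∈ un A i l ↔ ∃ j, (i ≤ j ∧ j < l) ∧ x ∈ A j := by
  simp only [un, Finset.mem_biUnion, Finset.mem_Ico]

theorem un_subset (h : Pg S n w m p A) (hV : V ⊆ inr S A m) : un A 0 (m + 1) ⊆ S \ V := by
  intro x hx
  obtain ⟨j, hj, hxj⟩ := mem_un.1 hx
  refine Finset.mem_sdiff.2 ⟨h.sub j (by omega) hxj, fun hxV => ?_⟩
  exact (Finset.mem_sdiff.1 (hV hxV)).2 hx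

/-- the territory of the class `j` -/
def Tj (S V : Finset ℂ) (A : ℕ → Finset ℂ) (m j : ℕ) : Finset ℂ := ter S V (un A 0 (m + 1)) (A j)

theorem A_sub_un {j : ℕ} (hj : j ≤ m) : A j ⊆ un A 0 (m + 1) :=
  fun _ hx => mem_un.2 ⟨j, ⟨Nat.zero_le _, by omega⟩, hx⟩

theorem sub_Tj (h : Pg S n w m p A) (hV : V ⊆ inr S A m) {j : ℕ} (hj : j ≤ m) :
    A j ⊆ Tj S V A m j :=
  ter_sub (un_subset h hV) (A_sub_un hj)

/-- **territories of a polygon** -/
theorem pg_ter (h : Pg S n w m p A) (hV : V ⊆ inr S A m) (hJ : Joi S V (un A 0 (m + 1))) :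
    Pg S n w m p (Tj S V A m) where
  gp := h.gp
  cyc := h.cyc
  mono := h.mono
  last := h.last
  sub := fun _ _ => ter_subS
  disj := fun i j hi hj hij => ter_disj (h.disj i j hi hj hij)
  con := fun j hj => ter_con (un_subset h hV) hJ (A_sub_un hj) (h.con j hj)
  arc := fun j hj k hk hk' => sub_Tj h hV hj.le (h.arc j hj k hk hk')
  arcl := fun k hk hk' => sub_Tj h hV le_rfl (h.arcl k hk hk')

/-- the inner sites of the new polygon are the sites of `V` -/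
theorem inr_ter (h : Pg S n w m p A) (hV : V ⊆ inr S A m) (hJ : Joi S V (un A 0 (m + 1))) :
    inr S (Tj S V A m) m = V := by
  have h1 : un (Tj S V A m) 0 (m + 1) = S \ V :=
    (ter_un (S := S) (V := V) (X := un A 0 (m + 1)) (A := A) 0 (m + 1)).trans
      (ter_all (un_subset h hV) hJ)
  show S \ un (Tj S V A m) 0 (m + 1) = V
  rw [h1, Finset.sdiff_sdiff_eq_self]
  exact fun x hx => (Finset.mem_sdiff.1 (hV hx)).1

/-- thin, for polygons -/
theorem pg_thin (h : Pg S n w m p A) (hV : V ⊆ inr S A m) (hJ : Joi S V (un A 0 (m + 1)))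
    {j : ℕ} (hx : x ∈ Tj S V A m j) {r : ℝ} (h0 : 0 ≤ r)
    (hr : Dt S V (un A 0 (m + 1)) x ≤ ENNReal.ofReal r) :
    ∃ y ∈ A j, Pth S {z | z ∈ Tj S V A m j ∧ ‖z - x‖ ≤ r} x y := by
  obtain ⟨y, hy, -, hp⟩ := ter_thin_real (un_subset h hV) hJ hx h0 hr
  exact ⟨y, hy, hp⟩

/-- a class of the old polygon is the old part of its territory -/
theorem Tj_old (h : Pg S n w m p A) (hV : V ⊆ inr S A m) {j i : ℕ} (hj : j ≤ m) (hi : i ≤ m)
    (hx : x ∈ A i) (hx' : x ∈ Tj S V A m j) : i = j := by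
  by_contra hne
  have h1 : x ∈ A j := (mem_ter_X (un_subset h hV) (A_sub_un hi hx)).1 hx'
  exact Finset.disjoint_left.1 (h.disj i j hi hj hne) hx h1

end pg

/-! ### quads -/

section qd

variable {n : ℕ} {w : ℤ → ℂ} {i0 i1 i2 i3 : ℤ} {B : ZMod 4 → Finset ℂ}

/-- union of the classes of a quad -/
def uB (B : ZMod 4 → Finset ℂ) : Finset ℂ := Finset.univ.biUnion B

theorem mem_uB : x ∈ uB B ↔ ∃ i, x ∈ B i := by
  simp only [uB, Finset.mem_biUnion, Finset.mem_univ, true_and]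

theorem B_sub_uB (i : ZMod 4) : B i ⊆ uB B := fun _ hx => mem_uB.2 ⟨i, hx⟩

theorem uB_subset (h : Qd S n w i0 i1 i2 i3 B) (hV : V ⊆ fre S B) : uB B ⊆ S \ V := by
  intro x hx
  obtain ⟨i, hxi⟩ := mem_uB.1 hx
  exact Finset.mem_sdiff.2 ⟨h.sub i hxi, fun hxV => (Finset.mem_filter.1 (hV hxV)).2 i hxi⟩

/-- the territory of the class `i` -/
def TB (S V : Finset ℂ) (B : ZMod 4 → Finset ℂ) (i : ZMod 4) : Finset ℂ := ter S V (uB B) (B i)

theorem sub_TB (h : Qd S n w i0 i1 i2 i3 B) (hV : V ⊆ fre S B) (i : ZMod 4) :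
    B i ⊆ TB S V B i :=
  ter_sub (uB_subset h hV) (B_sub_uB i)

/-- **territories of a quad** -/
theorem qd_ter (h : Qd S n w i0 i1 i2 i3 B) (hV : V ⊆ fre S B) (hJ : Joi S V (uB B)) :
    Qd S n w i0 i1 i2 i3 (TB S V B) where
  gp := h.gp
  m4 := h.m4
  sub := fun _ => ter_subS
  disj := fun i j hij => ter_disj (h.disj i j hij)
  con := fun i => ter_con (uB_subset h hV) hJ (B_sub_uB i) (h.con i)
  a0 := fun k hk hk' => sub_TB h hV 0 (h.a0 k hk hk')
  a1 := fun k hk hk' => sub_TB h hV 1 (h.a1 k hk hk')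
  a2 := fun k hk hk' => sub_TB h hV 2 (h.a2 k hk hk')
  a3 := fun k hk hk' => sub_TB h hV 3 (h.a3 k hk hk')

theorem uB_ter : uB (TB S V B) = ter S V (uB B) (uB B) := by
  ext x
  rw [mem_uB, mem_ter, mem_uB]
  constructor
  · rintro ⟨i, hi⟩
    exact ⟨(mem_ter.1 hi).1, i, (mem_ter.1 hi).2⟩
  · rintro ⟨h1, i, h2⟩
    exact ⟨i, mem_ter.2 ⟨h1, h2⟩⟩

/-- the free sites of the new quad are the sites of `V` -/
theorem fre_ter (h : Qd S n w i0 i1 i2 i3 B) (hV : V ⊆ fre S B) (hJ : Joi S V (uB B)) :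
    fre S (TB S V B) = V := by
  have h1 : uB (TB S V B) = S \ V := by rw [uB_ter]; exact ter_all (uB_subset h hV) hJ
  ext x
  constructor
  · intro hx
    obtain ⟨hxS, hx2⟩ := Finset.mem_filter.1 hx
    by_contra hxV
    have h2 : x ∈ uB (TB S V B) := by rw [h1]; exact Finset.mem_sdiff.2 ⟨hxS, hxV⟩
    obtain ⟨i, hi⟩ := mem_uB.1 h2
    exact hx2 i hi
  · intro hx
    exact Finset.mem_filter.2 ⟨(Finset.mem_filter.1 (hV hx)).1, fun i hi => ter_notV hi hx⟩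

/-- thin, for quads -/
theorem qd_thin (h : Qd S n w i0 i1 i2 i3 B) (hV : V ⊆ fre S B) (hJ : Joi S V (uB B))
    {i : ZMod 4} (hx : x ∈ TB S V B i) {r : ℝ} (h0 : 0 ≤ r)
    (hr : Dt S V (uB B) x ≤ ENNReal.ofReal r) :
    ∃ y ∈ B i, Pth S {z | z ∈ TB S V B i ∧ ‖z - x‖ ≤ r} x y := by
  obtain ⟨y, hy, -, hp⟩ := ter_thin_real (uB_subset h hV) hJ hx h0 hr
  exact ⟨y, hy, hp⟩

end qd

/-! ### when all sites off `V` are joined to the classes -/

/-- it is enough to look at the sites off `V` which have a neighbour in `V` (all the sites are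
joined to some site of `X`, for instance to a hull site) -/
theorem joi_of_bd (hX : X ⊆ S \ V) (hcon : ∀ x ∈ S, ∃ y ∈ X, Pth S (S : Set ℂ) x y)
    (hb : ∀ x ∈ S, x ∉ V → ∀ v ∈ V, Adj S x v → ∃ y ∈ X, Pth S {z | z ∈ S ∧ z ∉ V} x y) :
    Joi S V X := by
  intro x hx hxV
  obtain ⟨y, hy, hp⟩ := hcon x hx
  have hyV : y ∉ V := (Finset.mem_sdiff.1 (hX hy)).2
  -- either the chain avoids `V`, or it has a first step into `V`
  by_cases hall : Pth S {z | z ∈ S ∧ z ∉ V} x y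
  · exact ⟨y, hy, hall⟩
  · have key : ∀ b, Relation.ReflTransGen (fun a b => Adj S a b ∧ b ∈ (S : Set ℂ)) x b →
        Pth S {z | z ∈ S ∧ z ∉ V} x b ∨
        ∃ u v, Pth S {z | z ∈ S ∧ z ∉ V} x u ∧ Adj S u v ∧ v ∈ V := by
      intro b hb
      induction hb with
      | refl => exact Or.inl (Pth.refl ⟨hx, hxV⟩)
      | @tail b c _ h5 ih =>
        rcases ih with ih | ih
        · by_cases hc : c ∈ V
          · exact Or.inr ⟨b, c, ih, h5.1, hc⟩
          · exact Or.inl (ih.tail h5.1 ⟨h5.1.mem.2, hc⟩)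
        · exact Or.inr ih
    rcases key y hp.2 with h | ⟨u, v, h1, h2, h3⟩
    · exact absurd h hall
    · have hu := h1.snd
      obtain ⟨z, hz, hz'⟩ := hb u hu.1 hu.2 v h3 h2
      exact ⟨z, hz, h1.trans hz'⟩

end Crest.Agent.R143.Terrx583
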