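import Crest.Agent.R143.LocT_776
import Crest.Agent.R143.Fine2_422

/-!
# Row 143 (S0194), RIG, LOCX, curtain C4: tiles on the fine path, parts (a) – (d) (helper73)

`E : En S F n m p M W A η d` (776), unit `η`, `h = 100 η`.
* `up_off` : `|X| ≤ 2 η`, `19/2 η ≤ Y ≤ 30 η` at the gate `g` ⇒ off all strips `19/2`, `103/2`
  (also below: `dn_off`)
* `up_far`, `dn_far` : `|X| ≤ 2 η`, `|Y| ≤ 30 η` is `4 d`-far from all tiles `13`, `54` except the
  tiles `≡ g - 1`, `g`
* `off_far` : a site off all strips `14`, `55` is `4 d`-far from all tiles `13`, `54`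
* `rr_far` : tiles `12`, `53` and `13`, `54` which are not equal or neighbours are `4 d`-far
-/

set_option autoImplicit false

noncomputable section

open scoped Classical

namespace Crest.Agent.R143.TilVx73

open Set
open Crest.Agent.R158.Sp896
open Crest.Agent.R143.TileRx228
open Crest.Agent.R143.Gatex838 (X Y)
open Crest.Agent.R143.Finex422 (Fine)
open Crest.Agent.R143.LocTx776

variable {S : Finset ℂ} {F : Set V} {n m : ℕ} {p : ℤ → V} {M : ℕ} {W : ℤ → V} {A : ℤ → ℤ}
  {η d : ℝ} {g i j c : ℤ} {v w : ℂ}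

/-- tiles with congruent numbers are equal -/
theorem RR_dvd (P : FPath M W) {x y h : ℝ} (hd : (M : ℤ) ∣ j - i) :
    RR x y h W j = RR x y h W i := by
  obtain ⟨q, hq⟩ := hd
  have key : ∀ k : ℤ, RR x y h W (i + M * k) = RR x y h W i := by
    intro k
    induction k using Int.induction_on with
    | zero => simp
    | succ k ih =>
      have := RR_per P x y h (i + M * k)
      rw [show i + M * ((k : ℤ) + 1) = i + M * k + M by ring, this, ih]
    | pred k ih =>
      have := RR_per P x y h (i + M * (-(k : ℤ) - 1))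
      rw [← this, show i + M * (-(k : ℤ) - 1) + M = i + M * -(k : ℤ) by ring, ih]
  have : j = i + M * q := by linarith
  rw [this, key]

/-- a window of a gate is in the two thick tiles -/
theorem wn_mem (P : FPath M W) (he : 0 < η) (h1 : |X (gz (100 * η) W g) (ge W g) v| ≤ 2 * η)
    (h2 : |Y (gz (100 * η) W g) (ge W g) v| ≤ 30 * η) :
    v ∈ RR (31 * η) (54 * η) (100 * η) W (g - 1) ∧ v ∈ RR (31 * η) (54 * η) (100 * η) W g := by
  constructor
  · have e : g - 1 + 1 = g := by ring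
    refine win_left (a := g - 1) P (by linarith) (by linarith) ?_ ?_ <;> rw [e] <;> linarith
  · refine win_right P (by linarith) (by linarith) ?_ ?_ <;> linarith

/-- a window of a gate meets only the two tiles of the gate -/
theorem wn_tile (P : FPath M W) (he : 0 < η) (h1 : |X (gz (100 * η) W g) (ge W g) v| ≤ 2 * η)
    (h2 : |Y (gz (100 * η) W g) (ge W g) v| ≤ 30 * η) {x y : ℝ} (hx : x ≤ 31 * η)
    (hy : y ≤ 54 * η) (hv : v ∈ RR x y (100 * η) W c) :
    v ∈ RR x y (100 * η) W (g - 1) ∨ v ∈ RR x y (100 * η) W g := by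
  obtain ⟨h3, h4⟩ := wn_mem P he h1 h2
  by_contra hc
  push Not at hc
  refine far (A := 31 * η) (B := 54 * η) P (by linarith) (by linarith) (by linarith) ?_ ?_ h3 h4
    (RR_mono hx hy _ _ _ hv)
  · intro h
    exact hc.2 (by rwa [RR_dvd P h])
  · intro h
    refine hc.1 ?_
    rwa [RR_dvd P (j := g - 1) (i := c) (by rwa [show g - 1 - c = g - (c + 1) by ring])]

/-- in the window of a gate: a strip of half width `x` is `|Y| < x` -/
theorem wn_abs (P : FPath M W) (he : 0 < η) (h1 : |X (gz (100 * η) W g) (ge W g) v| ≤ 2 * η)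
    (h2 : |Y (gz (100 * η) W g) (ge W g) v| ≤ 30 * η) {x y : ℝ} (hx : x ≤ 31 * η)
    (hy : y ≤ 54 * η) (hxy : x ≤ y) (hv : v ∈ RR x y (100 * η) W c) :
    |Y (gz (100 * η) W g) (ge W g) v| < x := by
  have h3 := abs_le.1 h1
  rcases wn_tile P he h1 h2 hx hy hv with h | h
  · have := (left P hxy h).2
    rw [show g - 1 + 1 = g by ring] at this
    exact this (by linarith)
  · exact (right P hxy h).2 (by linarith)

variable (E : En S F n m p M W A η d)

include E

/-- **(a)** -/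
theorem up_off (_hg : Strg A g) (hv : v ∈ Wn η W g (2 * η) (19 / 2 * η) (30 * η)) :
    ∀ c, v ∉ RR (19 / 2 * η) (103 / 2 * η) (100 * η) W c := by
  intro c hc
  have he := E.e0
  obtain ⟨h1, h2, h3⟩ := hv
  have := wn_abs E.fine.fpath he h1 (abs_le.2 ⟨by linarith, h3⟩) (by linarith) (by linarith)
    (by linarith) hc
  linarith [(abs_lt.1 this).2]

/-- (a) below the strip -/
theorem dn_off (_hg : Strg A g) (hv : v ∈ Wn η W g (2 * η) (-(30 * η)) (-(19 / 2 * η))) :
    ∀ c, v ∉ RR (19 / 2 * η) (103 / 2 * η) (100 * η) W c := by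
  intro c hc
  have he := E.e0
  obtain ⟨h1, h2, h3⟩ := hv
  have := wn_abs E.fine.fpath he h1 (abs_le.2 ⟨by linarith, by linarith⟩) (by linarith)
    (by linarith) (by linarith) hc
  linarith [(abs_lt.1 this).1]

/-- (b) with the whole window and only the two tiles of the gate excluded -/
theorem wn_far (h1 : |X (gz (100 * η) W g) (ge W g) v| ≤ 2 * η)
    (h2 : |Y (gz (100 * η) W g) (ge W g) v| ≤ 30 * η)
    (hw : w ∈ RR (13 * η) (54 * η) (100 * η) W j) (hj0 : ¬ (M : ℤ) ∣ j - g)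
    (hj1 : ¬ (M : ℤ) ∣ j - (g - 1)) : 4 * d ≤ ‖v - w‖ := by
  have he := E.e0
  have hd := E.d0
  have hde := E.de
  obtain ⟨h3, h4⟩ := wn_mem E.fine.fpath he h1 h2
  refine win_gap (A := 31 * η) (B := 54 * η) E.fine.fpath (by linarith) (by linarith)
    (by linarith) (by linarith) ?_ ?_ h3 h4 (RR_mono (by linarith) le_rfl _ _ _ hw)
  · intro h
    exact hj0 (by rw [← neg_sub]; exact (dvd_neg).2 h)
  · intro h
    refine hj1 ?_
    rw [show j - (g - 1) = -(g - (j + 1)) by ring]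
    exact (dvd_neg).2 h

/-- **(b)** -/
theorem up_far (_hg : Strg A g) (hv : v ∈ Wn η W g (2 * η) (9 * η) (30 * η))
    (hw : w ∈ RR (13 * η) (54 * η) (100 * η) W j) (_hj2 : ¬ (M : ℤ) ∣ j - (g - 2))
    (hj1 : ¬ (M : ℤ) ∣ j - (g - 1)) (hj0 : ¬ (M : ℤ) ∣ j - g)
    (_hj3 : ¬ (M : ℤ) ∣ j - (g + 1)) : 4 * d ≤ ‖v - w‖ := by
  have he := E.e0
  obtain ⟨h1, h2, h3⟩ := hv
  exact wn_far E h1 (abs_le.2 ⟨by linarith, h3⟩) hw hj0 hj1

/-- **(c)** -/
theorem off_far (hv : v ∈ Off S (14 * η) (55 * η) (100 * η) W)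
    (hw : w ∈ RR (13 * η) (54 * η) (100 * η) W j) : 4 * d ≤ ‖v - w‖ := by
  have he := E.e0
  have hde := E.de
  by_contra hc
  push Not at hc
  exact hv.2 j (RR_mono (by linarith) (by linarith) _ _ _
    (TilUx496.thick E.fine.fpath hw hc.le))

/-- **(d)** -/
theorem rr_far (hv : v ∈ RR (12 * η) (53 * η) (100 * η) W i)
    (hw : w ∈ RR (13 * η) (54 * η) (100 * η) W j) (h0 : ¬ (M : ℤ) ∣ j - i)
    (h1 : ¬ (M : ℤ) ∣ j - (i + 1)) (h2 : ¬ (M : ℤ) ∣ j - (i - 1)) : 4 * d ≤ ‖v - w‖ := by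
  have he := E.e0
  have hd := E.d0
  have hde := E.de
  exact gap (A := 13 * η) (B := 54 * η) E.fine.fpath (by linarith) (by linarith) (by linarith)
    (by linarith) h0 h1 h2 (RR_mono (by linarith) (by linarith) _ _ _ hv) hw

end Crest.Agent.R143.TilVx73
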