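import Crest.Agent.R143.TileS_73

/-!
# Row 143, CORE-C, box R1d: turning tiles (helper345, on top of TileG_73 and TileS_73)

Unit: `e = η · direction`, numbers of `TileGx73.num`.
* `tileL` : left turn; first gate at `z0`, direction `e`; second gate at `z0 + e c`, direction `e I`,
  `c = (T/2)(1 + I)`, `T ≥ 40`
* `tileR` : right turn; second gate at `z0 + e c`, direction `- e I`, `c = (T/2)(1 - I)`
* mid lanes: any strips inside `(-8, 0)` (black), `(2, 8)` (white); ends `ub, wb` (black), `uw, ww`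
  (white) with the inequalities needed at the corner square.
Default lanes: black strips `(-5, -3)`, white strips `(4, 6)`, margin `1`;
left turn `ub = T/2 + 5 = -wb`, `uw = T/2 - 4 = -ww`; right turn `ub = T/2 - 3 = -wb`,
`uw = T/2 + 6 = -ww`.
-/

set_option autoImplicit false

noncomputable section

open scoped Classical

namespace Crest.Agent.R143.TileLx345

open Crest.Agent.R143.B0x346 Crest.Agent.R143.DelGx806 Crest.Agent.R143.DelRx806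
open Crest.Agent.R143.ToolWx838 Crest.Agent.R143.Blkx838 Crest.Agent.R143.ToolW2x838
open Crest.Agent.R143.ToolW3x838 Crest.Agent.R143.Circ4x838 Crest.Agent.R143.Harx315
open Crest.Agent.R143.RB0x838 Crest.Agent.R143.CircPx838 Crest.Agent.R143.Gatex838
open Crest.Agent.R143.Neckx921 Crest.Agent.R143.TileGx73

variable {S V β : Finset ℂ} {z0 e : ℂ} {m' mN : ℝ}

theorem HC.lt {A : Finset ℂ} {x0 x1 y0 y1 m : ℝ} {P : List ℂ} (h : HC S z0 e x0 x1 y0 y1 m A P) :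
    y0 < y1 :=
  (h.strip _ (List.head_mem h.ne)).1.trans (h.strip _ (List.head_mem h.ne)).2

/-- **left turn** : gates at `z0` (direction `e`) and `z0 + e c` (direction `e I`), `c = (T/2)(1 + I)` -/
theorem tileL (hS : GP (S : Set ℂ)) (he : e ≠ 0) {T : ℝ} (hT : 40 ≤ T) {c : ℂ} (hc : c.re = T / 2)
    (hc' : c.im = T / 2) (hβ : β ⊆ V)
    (hm : 0 ≤ mN) (hm1 : mN < 1) (hm' : 0 ≤ m') (hm1' : m' < 1)
    {mb mw s0 s1 s0' s1' t0 t1 t0' t1' ub wb uw ww : ℝ}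
    {y x y' x' : ℂ} {Q Qw Q' Qw' M Mw M' Mw' : List ℂ} {R : Set ℂ}
    (g : NeckD S z0 e (-1) 1 (-8) 8 mN V β y x)
    (g' : NeckD S (z0 + e * c) (e * Complex.I) (-1) 1 (-8) 8 mN V β y' x')
    (xb : ExtR S z0 e (-1) 10 12 (-8) 0 4 m' β Q)
    (xw : ExtR S z0 e (-1) 10 12 2 8 4 m' (V \ β) Qw)
    (xb' : ExtL S (z0 + e * c) (e * Complex.I) 1 (-12) (-10) (-8) 0 4 m' β Q')
    (xw' : ExtL S (z0 + e * c) (e * Complex.I) 1 (-12) (-10) 2 8 4 m' (V \ β) Qw')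
    (cb : HC S z0 e 10 ub s0 s1 mb β M)
    (cb' : HC S (z0 + e * c) (e * Complex.I) wb (-10) s0' s1' mb β M')
    (cw : HC S z0 e 10 uw t0 t1 mw (V \ β) Mw)
    (cw' : HC S (z0 + e * c) (e * Complex.I) ww (-10) t0' t1' mw (V \ β) Mw')
    (h0 : -8 ≤ s0) (h1 : s1 ≤ 0) (h0' : -8 ≤ s0') (h1' : s1' ≤ 0)
    (i0 : 2 ≤ t0) (i1 : t1 ≤ 8) (i0' : 2 ≤ t0') (i1' : t1' ≤ 8)
    (hmw : mw ≤ 10)
    (jb : T / 2 - s0' ≤ ub) (jb1 : ub + mb < T / 2 + 9) (jb' : wb ≤ s0 - T / 2)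
    (jb1' : -(T / 2 + 9) < wb - mb)
    (jw : T / 2 - t0' ≤ uw) (jw1 : uw + mw < T / 2 + 9) (jw' : ww ≤ t0 - T / 2)
    (jw1' : -(T / 2 + 9) < ww - mw)
    (hR : ∀ s ∈ V, s ∈ Rc z0 e (-1) (T / 2 + 9) (-9) 9 → s ∈ R)
    (hR' : ∀ s ∈ V, s ∈ Rc (z0 + e * c) (e * Complex.I) (-(T / 2 + 9)) 1 (-9) 9 → s ∈ R) :
    Tile S V β R y x y' x' := by
  have N := num hm hm1 hm' hm1'
  have he' : e * Complex.I ≠ 0 := mul_ne_zero he Complex.I_ne_zero
  have lb := HC.lt cb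
  have lb' := HC.lt cb'
  have lw := HC.lt cw
  have lw' := HC.lt cw'
  obtain ⟨k1, k2⟩ := right_links N hS he g hβ xb xw
    (fun s hs h => hR s hs ⟨⟨h.1.1, by linarith [h.1.2]⟩, h.2⟩)
  obtain ⟨k1', k2'⟩ := left_links N hS he' g' hβ xb' xw'
    (fun s hs h => hR' s hs ⟨⟨by linarith [h.1.1], h.1.2⟩, h.2⟩)
  refine tile_of k1 k2 k1' k2' ?_ ?_
  · refine midL hS he xb.2 xb'.2 cb cb' h0 h1 (by linarith) h0' h1' (by linarith)
      (by rw [hc]; linarith) (by rw [hc]; linarith) (by rw [hc']; linarith) (by rw [hc']; linarith)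
      (fun s hs => hR s (hβ (cb.col s hs)) ⟨⟨?_, ?_⟩, ?_, ?_⟩)
      (fun s hs => hR' s (hβ (cb'.col s hs)) ⟨⟨?_, ?_⟩, ?_, ?_⟩)
    · linarith [(cb.loc s hs).1]
    · linarith [(cb.loc s hs).2]
    · linarith [(cb.strip s hs).1]
    · linarith [(cb.strip s hs).2]
    · linarith [(cb'.loc s hs).1]
    · linarith [(cb'.loc s hs).2]
    · linarith [(cb'.strip s hs).1]
    · linarith [(cb'.strip s hs).2]
  · refine midL hS he xw.2 xw'.2 cw cw' i0 i1 (by linarith) i0' i1' (by linarith)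
      (by rw [hc]; linarith) (by rw [hc]; linarith) (by rw [hc']; linarith) (by rw [hc']; linarith)
      (fun s hs => hR s (Finset.mem_sdiff.1 (cw.col s hs)).1 ⟨⟨?_, ?_⟩, ?_, ?_⟩)
      (fun s hs => hR' s (Finset.mem_sdiff.1 (cw'.col s hs)).1 ⟨⟨?_, ?_⟩, ?_, ?_⟩)
    · linarith [(cw.loc s hs).1]
    · linarith [(cw.loc s hs).2]
    · linarith [(cw.strip s hs).1]
    · linarith [(cw.strip s hs).2]
    · linarith [(cw'.loc s hs).1]
    · linarith [(cw'.loc s hs).2]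
    · linarith [(cw'.strip s hs).1]
    · linarith [(cw'.strip s hs).2]

/-- **right turn** : gates at `z0` (direction `e`) and `z0 + e c` (direction `- e I`),
`c = (T/2)(1 - I)` -/
theorem tileR (hS : GP (S : Set ℂ)) (he : e ≠ 0) {T : ℝ} (hT : 40 ≤ T) {c : ℂ} (hc : c.re = T / 2)
    (hc' : c.im = -(T / 2)) (hβ : β ⊆ V)
    (hm : 0 ≤ mN) (hm1 : mN < 1) (hm' : 0 ≤ m') (hm1' : m' < 1)
    {mb mw s0 s1 s0' s1' t0 t1 t0' t1' ub wb uw ww : ℝ}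
    {y x y' x' : ℂ} {Q Qw Q' Qw' M Mw M' Mw' : List ℂ} {R : Set ℂ}
    (g : NeckD S z0 e (-1) 1 (-8) 8 mN V β y x)
    (g' : NeckD S (z0 + e * c) (e * -Complex.I) (-1) 1 (-8) 8 mN V β y' x')
    (xb : ExtR S z0 e (-1) 10 12 (-8) 0 4 m' β Q)
    (xw : ExtR S z0 e (-1) 10 12 2 8 4 m' (V \ β) Qw)
    (xb' : ExtL S (z0 + e * c) (e * -Complex.I) 1 (-12) (-10) (-8) 0 4 m' β Q')
    (xw' : ExtL S (z0 + e * c) (e * -Complex.I) 1 (-12) (-10) 2 8 4 m' (V \ β) Qw')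
    (cb : HC S z0 e 10 ub s0 s1 mb β M)
    (cb' : HC S (z0 + e * c) (e * -Complex.I) wb (-10) s0' s1' mb β M')
    (cw : HC S z0 e 10 uw t0 t1 mw (V \ β) Mw)
    (cw' : HC S (z0 + e * c) (e * -Complex.I) ww (-10) t0' t1' mw (V \ β) Mw')
    (h0 : -8 ≤ s0) (h1 : s1 ≤ 0) (h0' : -8 ≤ s0') (h1' : s1' ≤ 0)
    (i0 : 2 ≤ t0) (i1 : t1 ≤ 8) (i0' : 2 ≤ t0') (i1' : t1' ≤ 8)
    (hmb : mb ≤ 10)
    (jb : T / 2 + s1' ≤ ub) (jb0 : 12 ≤ ub) (jb1 : ub + mb < T / 2 + 9) (jb' : wb ≤ -(T / 2) - s1)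
    (jb0' : wb ≤ -12) (jb1' : -(T / 2 + 9) < wb - mb)
    (jw : T / 2 + t1' ≤ uw) (jw1 : uw + mw < T / 2 + 9) (jw' : ww ≤ -(T / 2) - t1)
    (jw1' : -(T / 2 + 9) < ww - mw)
    (hR : ∀ s ∈ V, s ∈ Rc z0 e (-1) (T / 2 + 9) (-9) 9 → s ∈ R)
    (hR' : ∀ s ∈ V, s ∈ Rc (z0 + e * c) (e * -Complex.I) (-(T / 2 + 9)) 1 (-9) 9 → s ∈ R) :
    Tile S V β R y x y' x' := by
  have N := num hm hm1 hm' hm1'
  have he' : e * -Complex.I ≠ 0 := mul_ne_zero he (neg_ne_zero.2 Complex.I_ne_zero)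
  have lb := HC.lt cb
  have lb' := HC.lt cb'
  have lw := HC.lt cw
  have lw' := HC.lt cw'
  obtain ⟨k1, k2⟩ := right_links N hS he g hβ xb xw
    (fun s hs h => hR s hs ⟨⟨h.1.1, by linarith [h.1.2]⟩, h.2⟩)
  obtain ⟨k1', k2'⟩ := left_links N hS he' g' hβ xb' xw'
    (fun s hs h => hR' s hs ⟨⟨by linarith [h.1.1], h.1.2⟩, h.2⟩)
  refine tile_of k1 k2 k1' k2' ?_ ?_
  · refine midR hS he xb.2 xb'.2 cb cb' h0 h1 (by linarith) h0' h1' (by linarith)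
      (by rw [hc]; linarith) (by rw [hc]; linarith) (by rw [hc']; linarith) (by rw [hc']; linarith)
      (fun s hs => hR s (hβ (cb.col s hs)) ⟨⟨?_, ?_⟩, ?_, ?_⟩)
      (fun s hs => hR' s (hβ (cb'.col s hs)) ⟨⟨?_, ?_⟩, ?_, ?_⟩)
    · linarith [(cb.loc s hs).1]
    · linarith [(cb.loc s hs).2]
    · linarith [(cb.strip s hs).1]
    · linarith [(cb.strip s hs).2]
    · linarith [(cb'.loc s hs).1]
    · linarith [(cb'.loc s hs).2]
    · linarith [(cb'.strip s hs).1]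
    · linarith [(cb'.strip s hs).2]
  · refine midR hS he xw.2 xw'.2 cw cw' i0 i1 (by linarith) i0' i1' (by linarith)
      (by rw [hc]; linarith) (by rw [hc]; linarith) (by rw [hc']; linarith) (by rw [hc']; linarith)
      (fun s hs => hR s (Finset.mem_sdiff.1 (cw.col s hs)).1 ⟨⟨?_, ?_⟩, ?_, ?_⟩)
      (fun s hs => hR' s (Finset.mem_sdiff.1 (cw'.col s hs)).1 ⟨⟨?_, ?_⟩, ?_, ?_⟩)
    · linarith [(cw.loc s hs).1]
    · linarith [(cw.loc s hs).2]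
    · linarith [(cw.strip s hs).1]
    · linarith [(cw.strip s hs).2]
    · linarith [(cw'.loc s hs).1]
    · linarith [(cw'.loc s hs).2]
    · linarith [(cw'.strip s hs).1]
    · linarith [(cw'.strip s hs).2]

end Crest.Agent.R143.TileLx345
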