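import Crest.Agent.R143.GateA_838

/-!
# Row 143 (S0194), R1c: separation of the tiles of a simple lattice cycle (helper40)

* `LCyc M W` : simple closed lattice path `W : ℤ → ℤ × ℤ` with period `M`
* `sep_int` : arms (half edges) at two vertices which are neither equal nor neighbours on the cycle
  are at sup distance at least `1/2`
-/

set_option autoImplicit false

noncomputable section

namespace Crest.Agent.R143.TileLx40

open Crest.Agent.R143.CircPx838 (sup)
open Crest.Agent.R143.Gatex838 (X Y)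

/-- unit vector of the lattice -/
def Un (u : ℤ × ℤ) : Prop := u = (1, 0) ∨ u = (0, 1) ∨ u = (-1, 0) ∨ u = (0, -1)

theorem Un.neg {u : ℤ × ℤ} (h : Un u) : Un (-u) := by
  rcases h with rfl | rfl | rfl | rfl
  · right; right; left; rfl
  · right; right; right; rfl
  · left; rfl
  · right; left; rfl

/-- simple closed lattice path -/
structure LCyc (M : ℕ) (W : ℤ → ℤ × ℤ) : Prop where
  per : ∀ a, W (a + M) = W a
  un : ∀ a, Un (W (a + 1) - W a)
  inj : ∀ a b, W a = W b → (M : ℤ) ∣ b - a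

variable {M : ℕ} {W : ℤ → ℤ × ℤ}

/-- direction of the edge from `W a` to `W (a + 1)` -/
def dr (W : ℤ → ℤ × ℤ) (a : ℤ) : ℤ × ℤ := W (a + 1) - W a

/-- the two arms at `W a` -/
def Am (W : ℤ → ℤ × ℤ) (a : ℤ) (u : ℤ × ℤ) : Prop := u = dr W a ∨ u = -dr W (a - 1)

theorem Am.un {a : ℤ} {u : ℤ × ℤ} (hW : LCyc M W) (h : Am W a u) : Un u := by
  rcases h with rfl | rfl
  · exact hW.un a
  · exact (hW.un (a - 1)).neg

theorem Am.add {a : ℤ} {u : ℤ × ℤ} (h : Am W a u) : W a + u = W (a + 1) ∨ W a + u = W (a - 1) := by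
  rcases h with rfl | rfl
  · left; unfold dr; abel
  · right
    unfold dr
    rw [show a - 1 + 1 = a by ring]
    abel

theorem int_zero {p : ℤ} (h1 : -1 < (p : ℝ)) (h2 : (p : ℝ) < 1) : p = 0 := by
  have e1 : -1 < p := by exact_mod_cast h1
  have e2 : p < 1 := by exact_mod_cast h2
  omega

theorem int_three {p : ℤ} (h1 : -2 < (p : ℝ)) (h2 : (p : ℝ) < 2) : p = -1 ∨ p = 0 ∨ p = 1 := by
  have e1 : -2 < p := by exact_mod_cast h1
  have e2 : p < 2 := by exact_mod_cast h2
  omega

/-- parallel arms on a line -/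
theorem key_line {p : ℤ} {u v : ℝ} (hu : u = 1 ∨ u = -1) (hv : v = 1 ∨ v = -1) (h0 : p ≠ 0)
    (h1 : (p : ℝ) ≠ u) (h2 : (p : ℝ) ≠ -v) {t r : ℝ} (t0 : 0 ≤ t) (t1 : t ≤ 1 / 2) (r0 : 0 ≤ r)
    (r1 : r ≤ 1 / 2) (c1 : -(1 / 2) < (p : ℝ) + r * v - t * u)
    (c2 : (p : ℝ) + r * v - t * u < 1 / 2) : False := by
  rcases hu with rfl | rfl <;> rcases hv with rfl | rfl <;>
  · rcases int_three (p := p) (by linarith) (by linarith) with rfl | rfl | rfl
    · first
      | (refine absurd ?_ h1; norm_num; done)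
      | (refine absurd ?_ h2; norm_num; done)
      | (push_cast at c1 c2; linarith)
    · exact h0 rfl
    · first
      | (refine absurd ?_ h1; norm_num; done)
      | (refine absurd ?_ h2; norm_num; done)
      | (push_cast at c1 c2; linarith)

/-- arithmetic heart -/
theorem key {p q : ℤ} {u v : ℤ × ℤ} (hu : Un u) (hv : Un v) (h0 : (p, q) ≠ (0, 0))
    (h1 : (p, q) ≠ u) (h2 : (p, q) ≠ -v) {t r : ℝ} (t0 : 0 ≤ t) (t1 : t ≤ 1 / 2) (r0 : 0 ≤ r)
    (r1 : r ≤ 1 / 2) :
    1 / 2 ≤ |(p : ℝ) + r * v.1 - t * u.1| ∨ 1 / 2 ≤ |(q : ℝ) + r * v.2 - t * u.2| := by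
  by_contra hcon
  push Not at hcon
  obtain ⟨c1, c2⟩ := hcon
  rw [abs_lt] at c1 c2
  have hor : ∀ {a b : ℤ}, (a = 1 ∨ a = -1) → (b = 1 ∨ b = -1) → u = (a, 0) → v = (b, 0) →
      False := by
    rintro a b ha hb rfl rfl
    simp only [Int.cast_zero, mul_zero, add_zero, sub_zero] at c2
    have hq := int_zero (p := q) (by linarith) (by linarith)
    subst hq
    refine key_line (p := p) (u := a) (v := b) ?_ ?_ ?_ ?_ ?_ t0 t1 r0 r1 c1.1 c1.2
    · rcases ha with rfl | rfl
      · left; norm_num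
      · right; norm_num
    · rcases hb with rfl | rfl
      · left; norm_num
      · right; norm_num
    · rintro rfl
      exact h0 rfl
    · intro h
      have : p = a := by exact_mod_cast h
      subst this
      exact h1 rfl
    · intro h
      have : p = -b := by exact_mod_cast h
      subst this
      exact h2 (by simp)
  have ver : ∀ {a b : ℤ}, (a = 1 ∨ a = -1) → (b = 1 ∨ b = -1) → u = (0, a) → v = (0, b) →
      False := by
    rintro a b ha hb rfl rfl
    simp only [Int.cast_zero, mul_zero, add_zero, sub_zero] at c1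
    have hq := int_zero (p := p) (by linarith) (by linarith)
    subst hq
    refine key_line (p := q) (u := a) (v := b) ?_ ?_ ?_ ?_ ?_ t0 t1 r0 r1 c2.1 c2.2
    · rcases ha with rfl | rfl
      · left; norm_num
      · right; norm_num
    · rcases hb with rfl | rfl
      · left; norm_num
      · right; norm_num
    · rintro rfl
      exact h0 rfl
    · intro h
      have : q = a := by exact_mod_cast h
      subst this
      exact h1 rfl
    · intro h
      have : q = -b := by exact_mod_cast h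
      subst this
      exact h2 (by simp)
  have mix : ∀ {a b : ℤ}, (a = 1 ∨ a = -1) → (b = 1 ∨ b = -1) →
      (u = (a, 0) ∧ v = (0, b)) ∨ (u = (0, a) ∧ v = (b, 0)) → False := by
    intro a b ha hb h
    have ha' : -1 ≤ (a : ℝ) ∧ (a : ℝ) ≤ 1 := by rcases ha with rfl | rfl <;> norm_num
    have hb' : -1 ≤ (b : ℝ) ∧ (b : ℝ) ≤ 1 := by rcases hb with rfl | rfl <;> norm_num
    have e1 : -(1 / 2) ≤ t * (a : ℝ) ∧ t * (a : ℝ) ≤ 1 / 2 := by
      constructor <;> nlinarith
    have e2 : -(1 / 2) ≤ r * (b : ℝ) ∧ r * (b : ℝ) ≤ 1 / 2 := by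
      constructor <;> nlinarith
    rcases h with ⟨rfl, rfl⟩ | ⟨rfl, rfl⟩
    · simp only [Int.cast_zero, mul_zero, add_zero, sub_zero] at c1 c2
      have hp := int_zero (p := p) (by linarith [c1.1, e1.1]) (by linarith [c1.2, e1.2])
      have hq := int_zero (p := q) (by linarith [c2.1, e2.2]) (by linarith [c2.2, e2.1])
      exact h0 (by rw [hp, hq])
    · simp only [Int.cast_zero, mul_zero, add_zero, sub_zero] at c1 c2
      have hp := int_zero (p := p) (by linarith [c1.1, e2.2]) (by linarith [c1.2, e2.1])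
      have hq := int_zero (p := q) (by linarith [c2.1, e1.1]) (by linarith [c2.2, e1.2])
      exact h0 (by rw [hp, hq])
  rcases hu with hu | hu | hu | hu <;> rcases hv with hv | hv | hv | hv
  · exact hor (Or.inl rfl) (Or.inl rfl) hu hv
  · exact mix (Or.inl rfl) (Or.inl rfl) (Or.inl ⟨hu, hv⟩)
  · exact hor (Or.inl rfl) (Or.inr rfl) hu hv
  · exact mix (Or.inl rfl) (Or.inr rfl) (Or.inl ⟨hu, hv⟩)
  · exact mix (Or.inl rfl) (Or.inl rfl) (Or.inr ⟨hu, hv⟩)
  · exact ver (Or.inl rfl) (Or.inl rfl) hu hv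
  · exact mix (Or.inl rfl) (Or.inr rfl) (Or.inr ⟨hu, hv⟩)
  · exact ver (Or.inl rfl) (Or.inr rfl) hu hv
  · exact hor (Or.inr rfl) (Or.inl rfl) hu hv
  · exact mix (Or.inr rfl) (Or.inl rfl) (Or.inl ⟨hu, hv⟩)
  · exact hor (Or.inr rfl) (Or.inr rfl) hu hv
  · exact mix (Or.inr rfl) (Or.inr rfl) (Or.inl ⟨hu, hv⟩)
  · exact mix (Or.inr rfl) (Or.inl rfl) (Or.inr ⟨hu, hv⟩)
  · exact ver (Or.inr rfl) (Or.inl rfl) hu hv
  · exact mix (Or.inr rfl) (Or.inr rfl) (Or.inr ⟨hu, hv⟩)
  · exact ver (Or.inr rfl) (Or.inr rfl) hu hv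

/-- `a` and `b` are not equal and not neighbours on the cycle -/
def Far (M : ℕ) (a b : ℤ) : Prop :=
  ¬ (M : ℤ) ∣ b - a ∧ ¬ (M : ℤ) ∣ b - a - 1 ∧ ¬ (M : ℤ) ∣ b - a + 1

/-- **arms at far vertices are at sup distance at least `1/2`** -/
theorem sep_int (hW : LCyc M W) {a b : ℤ} (h : Far M a b) {u v : ℤ × ℤ} (hu : Am W a u)
    (hv : Am W b v) {t r : ℝ} (t0 : 0 ≤ t) (t1 : t ≤ 1 / 2) (r0 : 0 ≤ r) (r1 : r ≤ 1 / 2) :
    1 / 2 ≤ |((W b).1 : ℝ) + r * v.1 - ((W a).1 + t * u.1)| ∨
      1 / 2 ≤ |((W b).2 : ℝ) + r * v.2 - ((W a).2 + t * u.2)| := by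
  have h0 : ((W b - W a).1, (W b - W a).2) ≠ (0, 0) := by
    intro h'
    apply h.1
    apply hW.inj
    have : W b - W a = 0 := h'
    exact (sub_eq_zero.1 this).symm
  have h1 : ((W b - W a).1, (W b - W a).2) ≠ u := by
    intro h'
    have h'' : W b - W a = u := h'
    have h3 : W a + u = W b := by rw [← h'']; abel
    rcases hu.add with e | e
    · apply h.2.1
      have := hW.inj (a + 1) b (by rw [← e, h3])
      rw [show b - a - 1 = b - (a + 1) by ring]
      exact this
    · apply h.2.2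
      have := hW.inj (a - 1) b (by rw [← e, h3])
      rw [show b - a + 1 = b - (a - 1) by ring]
      exact this
  have h2 : ((W b - W a).1, (W b - W a).2) ≠ -v := by
    intro h'
    have h'' : W b - W a = -v := h'
    have h3 : W b + v = W a := by
      have : v = W a - W b := by rw [← neg_sub, h'', neg_neg]
      rw [this]; abel
    rcases hv.add with e | e
    · apply h.2.2
      have := hW.inj a (b + 1) (by rw [← e, h3])
      rw [show b - a + 1 = b + 1 - a by ring]
      exact this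
    · apply h.2.1
      have := hW.inj a (b - 1) (by rw [← e, h3])
      rw [show b - a - 1 = b - 1 - a by ring]
      exact this
  have h3 := key (hu.un hW) (hv.un hW) h0 h1 h2 t0 t1 r0 r1
  have e1 : (((W b - W a).1 : ℤ) : ℝ) = ((W b).1 : ℝ) - (W a).1 := by
    rw [Prod.fst_sub]; push_cast; ring
  have e2 : (((W b - W a).2 : ℤ) : ℝ) = ((W b).2 : ℝ) - (W a).2 := by
    rw [Prod.snd_sub]; push_cast; ring
  rw [e1, e2] at h3
  rcases h3 with h3 | h3
  · left
    refine h3.trans (le_of_eq ?_)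
    congr 1
    ring
  · right
    refine h3.trans (le_of_eq ?_)
    congr 1
    ring

end Crest.Agent.R143.TileLx40
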