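import Crest.Agent.R143.TileRR_345
import Crest.Agent.R143.RH_73

/-!
# Row 143, CORE-C, box R1d (annealed half): quenched tile bound (helper120)

Frames and lanes of TileRR_345, half events in link form (73).
* `Kr` : positions of the link regions of the two gates
* `tile_of_hf` : half events at the two gates and middles give the tile event
* `tileQ` : **quenched tile bound** `a (p p) a ≤ pr D (Tile ..)`
-/

set_option autoImplicit false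

noncomputable section

open scoped Classical

namespace Crest.Agent.R143.TileQ2x120

open Crest.Agent.R143.B0x346 Crest.Agent.R143.DelGx806 Crest.Agent.R143.DelRx806
open Crest.Agent.R143.ToolWx838 Crest.Agent.R143.Blkx838 Crest.Agent.R143.ToolW2x838
open Crest.Agent.R143.ToolW3x838 Crest.Agent.R143.Circ4x838 Crest.Agent.R143.Harx315
open Crest.Agent.R143.RB0x838 Crest.Agent.R143.CircPx838 Crest.Agent.R143.Gatex838
open Crest.Agent.R143.Neckx921 Crest.Agent.R143.TileGx73 Crest.Agent.R143.TileRRx345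
open Crest.Agent.R143.Thetax73
open Crest.Agent.R143.RHx73 (Hf)

variable {S G D G' q q' β : Finset ℂ} {z e z' e' : ℂ} {m m' T l0 l1 r0 p0 p1 d0 d1 a p : ℝ}

/-! ### the tile event -/

variable {KB KW KB' KW' R Pb Pw Pb' Pw' : Set ℂ}

/-- **deterministic half** -/
theorem tile_of_hf (hS : GP (S : Set ℂ)) (he : e ≠ 0) (hT : 40 ≤ T) (f : Fr T z e z' e')
    (hl : l1 ≤ 12) (hr : -12 ≤ r0) (hp0 : p0 ≤ -7) (hp1 : -6 ≤ p1) (hd0 : d0 ≤ 4) (hd1 : 6 ≤ d1)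
    (hβ : β ⊆ S)
    (rB : ∀ s ∈ S, s ∈ KB → s ∈ R) (rW : ∀ s ∈ S, s ∈ KW → s ∈ R) (rB' : ∀ s ∈ S, s ∈ KB' → s ∈ R)
    (rW' : ∀ s ∈ S, s ∈ KW' → s ∈ R)
    (rM : ∀ s ∈ S, s ∈ Mi z e z' e' → s ∈ Re T z e z' e' → s ∈ R)
    (h1 : Hf S z e 10 l1 p0 p1 m KB Pb β) (h2 : Hf S z e 10 l1 d0 d1 m KW Pw (S \ β))
    (h3 : Hf S z' e' r0 (-10) p0 p1 m KB' Pb' β) (h4 : Hf S z' e' r0 (-10) d0 d1 m KW' Pw' (S \ β))
    (h5 : MidB S T z e z' e' β) (h6 : MidW S T z e z' e' (S \ β)) :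
    ∀ y ∈ Pb, ∀ x ∈ Pw, ∀ y' ∈ Pb', ∀ x' ∈ Pw', Tile S S β R y x y' x' := by
  intro y hy x hx y' hy' x' hx'
  obtain ⟨Q, v, k⟩ := h1
  obtain ⟨Qw, vw, kw⟩ := h2
  obtain ⟨Q', v', k'⟩ := h3
  obtain ⟨Qw', vw', kw'⟩ := h4
  refine tile_all ?_ ?_
  · exact half_b hS he hT f v v' hl hr hp0 hp1 h5
      (fun t ht => (k y hy t ht).mono fun s hs => ⟨hs.1, rB s (hβ hs.1) hs.2⟩)
      (fun t ht => (k' y' hy' t ht).mono fun s hs => ⟨hs.1, rB' s (hβ hs.1) hs.2⟩)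
      fun s hs => rM s (hβ hs)
  · exact half_w hS he hT f vw vw' hl hr hd0 hd1 h6
      (fun t ht => (kw x hx t ht).mono fun s hs => ⟨Finset.mem_sdiff.1 hs.1,
        rW s (Finset.mem_sdiff.1 hs.1).1 hs.2⟩)
      (fun t ht => (kw' x' hx' t ht).mono fun s hs => ⟨Finset.mem_sdiff.1 hs.1,
        rW' s (Finset.mem_sdiff.1 hs.1).1 hs.2⟩) rM

/-- regions of the links near the two gates, in the frames of the gates -/
structure Kr (D : Finset ℂ) (z e z' e' : ℂ) (KB KW KB' KW' : Set ℂ) : Prop where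
  b : ∀ s ∈ D, s ∈ KB → Y z e s < 1 ∧ X z e s ≤ 18
  w : ∀ s ∈ D, s ∈ KW → 1 < Y z e s ∧ X z e s ≤ 18
  b' : ∀ s ∈ D, s ∈ KB' → Y z' e' s < 1 ∧ -18 ≤ X z' e' s
  w' : ∀ s ∈ D, s ∈ KW' → 1 < Y z' e' s ∧ -18 ≤ X z' e' s

/-- **quenched tile bound**, all three tile types -/
theorem tileQ (hS : GP (S : Set ℂ)) (he : e ≠ 0) (hT : 40 ≤ T) (f : Fr T z e z' e')
    (hSS : S = G ∪ D ∪ G') (hG : Disjoint G D) (hG' : Disjoint G' D) (hGG : Disjoint G G')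
    (hq : q ⊆ G) (hq' : q' ⊆ G') (ha : 0 ≤ a) (hp : 0 ≤ p)
    (hl : l1 ≤ 12) (hr : -12 ≤ r0) (hp0 : p0 ≤ -7) (hp1 : -6 ≤ p1) (hpm : p1 + m < 1)
    (hd0 : d0 ≤ 4) (hd1 : 6 ≤ d1) (hdm : 1 < d0 - m)
    (K : Kr D z e z' e' KB KW KB' KW')
    (rB : ∀ s ∈ S, s ∈ KB → s ∈ R) (rW : ∀ s ∈ S, s ∈ KW → s ∈ R) (rB' : ∀ s ∈ S, s ∈ KB' → s ∈ R)
    (rW' : ∀ s ∈ S, s ∈ KW' → s ∈ R)
    (rM : ∀ s ∈ S, s ∈ Mi z e z' e' → s ∈ Re T z e z' e' → s ∈ R)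
    (g1 : Gd G D (Hf S z e 10 l1 d0 d1 m KW Pw) (Hf S z e 10 l1 p0 p1 m KB Pb) a q)
    (g2 : Gd G' D (Hf S z' e' r0 (-10) d0 d1 m KW' Pw') (Hf S z' e' r0 (-10) p0 p1 m KB' Pb') a q')
    (mW : p ≤ pr D fun τ => MidW S T z e z' e' (D \ τ)) (mB : p ≤ pr D (MidB S T z e z' e')) :
    a * (p * p) * a ≤ pr D fun τ => ∀ y ∈ Pb, ∀ x ∈ Pw, ∀ y' ∈ Pb', ∀ x' ∈ Pw',
      Tile S S (τ ∪ (q ∪ q')) R y x y' x' := by
  set To := D.filter (· ∈ Wh z e z' e') with hTo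
  set Ti := D.filter (· ∉ Wh z e z' e') with hTi
  have mo : ∀ {s : ℂ}, s ∈ D → s ∈ Wh z e z' e' → s ∈ To := fun h1 h2 =>
    Finset.mem_filter.2 ⟨h1, h2⟩
  have mi : ∀ {s : ℂ}, s ∈ D → s ∉ Wh z e z' e' → s ∈ Ti := fun h1 h2 =>
    Finset.mem_filter.2 ⟨h1, h2⟩
  have cs : ∀ {E U W : Finset ℂ} {s : ℂ}, s ∈ E ∪ U → (s ∈ U → s ∈ W) → s ∈ E ∪ W := by
    intro E U W s hs h
    rcases Finset.mem_union.1 hs with h1 | h1
    · exact Finset.mem_union_left _ h1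
    · exact Finset.mem_union_right _ (h h1)
  have dTT : Disjoint To Ti := by
    rw [Finset.disjoint_left]
    intro s h1 h2
    exact (Finset.mem_filter.1 h2).2 (Finset.mem_filter.1 h1).2
  have sEw : Su (G ∪ D) (G ∪ To) (Hf S z e 10 l1 d0 d1 m KW Pw) := Hf.su
    (fun s hs hK => cs hs fun h => mo h (wh he hT f (K.w s h hK).1 (K.w s h hK).2))
    (fun s hs h1 h2 h3 h4 => cs hs fun h => mo h (wh he hT f (by linarith) (by linarith)))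
  have sEb : Su (G ∪ D) (G ∪ Ti) (Hf S z e 10 l1 p0 p1 m KB Pb) := Hf.su
    (fun s hs hK => cs hs fun h => mi h (not_wh he hT f (K.b s h hK).1 (K.b s h hK).2))
    (fun s hs h1 h2 h3 h4 => cs hs fun h => mi h (not_wh he hT f (by linarith) (by linarith)))
  have sFw : Su (G' ∪ D) (G' ∪ To) (Hf S z' e' r0 (-10) d0 d1 m KW' Pw') := Hf.su
    (fun s hs hK => cs hs fun h => mo h (wh' he hT f (K.w' s h hK).1 (K.w' s h hK).2))
    (fun s hs h1 h2 h3 h4 => cs hs fun h => mo h (wh' he hT f (by linarith) (by linarith)))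
  have sFb : Su (G' ∪ D) (G' ∪ Ti) (Hf S z' e' r0 (-10) p0 p1 m KB' Pb') := Hf.su
    (fun s hs hK => cs hs fun h => mi h (not_wh' he hT f (K.b' s h hK).1 (K.b' s h hK).2))
    (fun s hs h1 h2 h3 h4 => cs hs fun h => mi h (not_wh' he hT f (by linarith) (by linarith)))
  have sMw : Su D To (MidW S T z e z' e') := su_midW he hT f fun s hs h1 _ _ => mo hs h1
  have sMb : Su D Ti (MidB S T z e z' e') := su_midB he hT f fun s hs h1 _ _ => mi hs h1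
  exact theta_ge (E := fun β => ∀ y ∈ Pb, ∀ x ∈ Pw, ∀ y' ∈ Pb', ∀ x' ∈ Pw',
      Tile S S β R y x y' x') ha hp hG hG' hGG dTT hq hq' Hf.mo Hf.mo Hf.mo Hf.mo mo_midW
    mo_midB sEw sEb sFw sFb sMw sMb g1 mW mB g2 fun β hβ e1 e2 e3 e4 e5 e6 => by
      rw [← hSS] at hβ e2 e4 e6
      exact tile_of_hf hS he hT f hl hr hp0 hp1 hd0 hd1 hβ rB rW rB' rW' rM e1 e2 e3 e4 e5 e6

end Crest.Agent.R143.TileQ2x120
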