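import Crest.Agent.R143.TileP_176
import Crest.Agent.R143.Dbl2_609

/-!
# Row 143 (S0194), box R6, model half, part 2 (helper176): from the sums over the colourings of the
sites of a box to the sample

* `quench` : a bound between the sums over all pairs of colourings (609's `paint2`) of the points of
  the box, for almost every sample, gives the bound of the integrals; left side: any function
* `quench1` : the same with one colouring
* `tileQ` : **box R6, model half**: on 978's `Net`, for a window `I₁`, `J₁`: if for almost every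
  environment the sum over the pairs of colourings of `g_off win X` is at most `K` times the sum of
  `g_off Hd`, then `c^#J₁ ∏ E a_i · E[g X] ≤ K C s² E[g]`
-/

set_option autoImplicit false

noncomputable section

namespace Crest.Agent.R143.TileQx176

open MeasureTheory Set Filter Topology
open Crest.ProbabilityR.Voronoi
open Crest.Agent.R143.PP0x831 Crest.Agent.R143.Poisx304 Crest.Agent.R143.Janx304
open Crest.Agent.R143.Prodx609 Crest.Agent.R143.ColSumx304 Crest.Agent.R143.Lawx831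
open Crest.Agent.R143.Dblx609 Crest.Agent.R143.Dbl2x609
open Crest.Agent.R143.IndLocx279 Crest.Agent.R143.PWx978 Crest.Agent.R143.TilePx176
open Crest.Agent.R143.SumScx302 (sq)
open scoped ENNReal

variable {ε : ℝ} {B : Set ℂ}

/-- **quenched bound, two colourings** -/
theorem quench (hε : 0 < ε) (hB : MeasurableSet B) (hb : Bornology.IsBounded B)
    {Φ Ψ : Set (ℂ × (Bool × Bool)) → ℝ≥0∞} (hΨ : FM Ψ) {K : ℝ≥0∞} (hK : K ≠ ∞)
    (h : ∀ᵐ ω ∂sampleLaw, ∑ β ∈ (Ap ε B ω).powerset, ∑ β' ∈ (Ap ε B ω).powerset,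
        Φ (paint2 (Ap ε B ω) β β') ≤
      K * ∑ β ∈ (Ap ε B ω).powerset, ∑ β' ∈ (Ap ε B ω).powerset, Ψ (paint2 (Ap ε B ω) β β')) :
    ∫⁻ ω, Φ (dcf ε ω ∩ ovM (Bool × Bool) B) ∂sampleLaw ≤
      K * ∫⁻ ω, Ψ (dcf ε ω ∩ ovM (Bool × Bool) B) ∂sampleLaw := by
  have h1 := lint_le_qav (d := dd) ε B Φ
  have h2 := lint_eq_qav measurable_dd hε hB hb hΨ
  have h3 : ∫⁻ ω, qav dd ε B Φ ω ∂sampleLaw ≤ ∫⁻ ω, K * qav dd ε B Ψ ω ∂sampleLaw := by
    refine lintegral_mono_ae ?_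
    filter_upwards [ae_injω hε, h] with ω hi hω
    have hA := coe_Ap hε hb ω
    rw [qav_dd hi hA Φ, qav_dd hi hA Ψ]
    calc ((4 : ℝ≥0∞) ^ (Ap ε B ω).card)⁻¹ * ∑ β ∈ (Ap ε B ω).powerset,
          ∑ β' ∈ (Ap ε B ω).powerset, Φ (paint2 (Ap ε B ω) β β')
        ≤ ((4 : ℝ≥0∞) ^ (Ap ε B ω).card)⁻¹ * (K * ∑ β ∈ (Ap ε B ω).powerset,
          ∑ β' ∈ (Ap ε B ω).powerset, Ψ (paint2 (Ap ε B ω) β β')) := by gcongr
      _ = _ := by ring
  rw [lintegral_const_mul' _ _ hK, h2] at h3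
  exact h1.trans h3

/-- **quenched bound, one colouring** -/
theorem quench1 (hε : 0 < ε) (hB : MeasurableSet B) (hb : Bornology.IsBounded B)
    {Φ Ψ : Set (ℂ × Bool) → ℝ≥0∞} (hΨ : FM Ψ) {K : ℝ≥0∞} (hK : K ≠ ∞)
    (h : ∀ᵐ ω ∂sampleLaw, ∑ β ∈ (Ap ε B ω).powerset, Φ (paint (Ap ε B ω) β) ≤
      K * ∑ β ∈ (Ap ε B ω).powerset, Ψ (paint (Ap ε B ω) β)) :
    ∫⁻ ω, Φ (cfg ε ω ∩ ovr B) ∂sampleLaw ≤ K * ∫⁻ ω, Ψ (cfg ε ω ∩ ovr B) ∂sampleLaw := by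
  have h1 := lint_le_qav (d := dec) ε B Φ
  have h2 := lint_eq_qav measurable_dec hε hB hb hΨ
  have h3 : ∫⁻ ω, qav dec ε B Φ ω ∂sampleLaw ≤ ∫⁻ ω, K * qav dec ε B Ψ ω ∂sampleLaw := by
    refine lintegral_mono_ae ?_
    filter_upwards [ae_injω hε, h] with ω hi hω
    have hA := coe_Ap hε hb ω
    rw [qav_bool hi hA Φ, qav_bool hi hA Ψ]
    calc ((2 : ℝ≥0∞) ^ (Ap ε B ω).card)⁻¹ * ∑ β ∈ (Ap ε B ω).powerset, Φ (paint (Ap ε B ω) β)
        ≤ ((2 : ℝ≥0∞) ^ (Ap ε B ω).card)⁻¹ * (K * ∑ β ∈ (Ap ε B ω).powerset,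
          Ψ (paint (Ap ε B ω) β)) := by gcongr
      _ = _ := by ring
  rw [lintegral_const_mul' _ _ hK, h2] at h3
  exact h1.trans h3

/-- a local function of the sample is a function of the box of the double sample -/
theorem local_dcf {E : Type*} {F : Cf → E} (hF : LocalOn B F) (ω : Sample) :
    F (p1 (dcf ε ω ∩ ovM (Bool × Bool) B)) = F (cfg ε ω) := by
  rw [p1_inter, p1_dcf, hF (cfg ε ω)]
  rfl

/-- **R6, MODEL HALF** -/
theorem tileQ : ∃ C : ℝ≥0∞, C ≠ ∞ ∧ ∀ {ε s : ℝ} {ι κ : Type} [DecidableEq ι] [DecidableEq κ]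
    (M : Net ε ι κ) (I I₁ : Finset ι) (J J₁ : Finset κ), ε ≤ s → I₁ ⊆ I → J₁ ⊆ J →
    (∀ k ∈ J, M.N k ⊆ I) → (∀ k ∈ J \ J₁, M.N k ⊆ I \ I₁) →
    ∀ (z : ℂ) (D W B : Set ℂ) (d : ℝ), MeasurableSet D → MeasurableSet W → MeasurableSet B →
    Bornology.IsBounded B → W ⊆ B → M.reg I J ⊆ B → W ⊆ sq z s →
    (∀ o ∈ D, Metric.closedBall o d ⊆ W) → Disjoint (M.reg (I \ I₁) (J \ J₁)) W →
    ∀ (X : Set (ℂ × (Bool × Bool)) → ℝ≥0∞) (K : ℝ≥0∞), K ≠ ∞ →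
    (∀ᵐ ω ∂sampleLaw, ∑ β ∈ (Ap ε B ω).powerset, ∑ β' ∈ (Ap ε B ω).powerset,
        M.gw (I \ I₁) (J \ J₁) (paint (Ap ε B ω) β) *
          (win M I₁ J₁ (paint (Ap ε B ω) β) * X (paint2 (Ap ε B ω) β β')) ≤
      K * ∑ β ∈ (Ap ε B ω).powerset, ∑ _β' ∈ (Ap ε B ω).powerset,
        M.gw (I \ I₁) (J \ J₁) (paint (Ap ε B ω) β) * Hd D d (paint (Ap ε B ω) β)) →
    (M.c ^ J₁.card * ∏ i ∈ I₁, ∫⁻ ω, M.a i (cfg ε ω) ∂sampleLaw) *
        ∫⁻ ω, M.gw I J (cfg ε ω) * X (dcf ε ω ∩ ovM (Bool × Bool) B) ∂sampleLaw ≤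
      K * (C * ENNReal.ofReal (s ^ 2)) * ∫⁻ ω, M.gw I J (cfg ε ω) ∂sampleLaw := by
  obtain ⟨C, hC, h⟩ := tile
  refine ⟨C, hC, ?_⟩
  intro ε s ι κ _ _ M I I₁ J J₁ hs hI hJ hN hN₁ z D W B d hD hW hB hBb hWB hregB hWs hDW hd X K hK hX
  refine h M I I₁ J J₁ hs hI hJ hN hN₁ z D W d hD hW hWs hDW hd _ K ?_
  have g0 : LocalOn B (M.gw (I \ I₁) (J \ J₁)) :=
    LocalOn.mono ((M.reg_mono Finset.sdiff_subset Finset.sdiff_subset).trans hregB)
      (M.gw_local hN₁)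
  have w0 : LocalOn B (win M I₁ J₁) := by
    refine LocalOn.mono hregB ?_
    refine LocalOn.mul ?_ (local_prod' J₁ fun k hk => LocalOn.mono ?_ (M.el k))
    · exact LocalOn.mono (M.reg_mono hI hJ) (M.a_local (I := I₁) (J := J₁))
    · exact union_subset_union (biUnion_subset_biUnion_left (hN k (hJ hk)))
        (subset_biUnion_of_mem (u := M.C) (hJ hk))
  have h0 : LocalOn B (Hd D d) := LocalOn.mono hWB (Hd_local hDW)
  have hm : FM fun Z : Set (ℂ × (Bool × Bool)) =>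
      M.gw (I \ I₁) (J \ J₁) (p1 Z) * Hd D d (p1 Z) := by
    have h1 : FMe fun Y : Cf => M.gw (I \ I₁) (J \ J₁) Y * Hd D d Y :=
      fun n => (M.gw_meas _ _ n).mul (Hd_meas hD d n)
    exact fme_p1 h1
  have key := quench (ε := ε) (B := B) M.eps hB hBb
    (Φ := fun Z => M.gw (I \ I₁) (J \ J₁) (p1 Z) * (win M I₁ J₁ (p1 Z) * X Z))
    (Ψ := fun Z => M.gw (I \ I₁) (J \ J₁) (p1 Z) * Hd D d (p1 Z)) hm hK (by
      filter_upwards [hX] with ω hω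
      simpa only [p1_paint2] using hω)
  simpa only [local_dcf g0, local_dcf w0, local_dcf h0] using key

end Crest.Agent.R143.TileQx176
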