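import Crest.Agent.R143.TileM_683

/-!
# Row 143 (S0194), RIG, R6 second half: the window of a full tile, deterministic half (helper490)

Window `T` (cells), everything off `T` is ONE BLACK class (683's `piT T`, `bl T σ`).

* `win_blk` : a loop of `σ` with the cut times `Tm a ≤ .. ≤ Tm b` (`a + 3 ≤ b`); the states of the inner
  arcs `a + 1, .., b - 2` are in `T`, the left cells at the times `Tm a` and `Tm b` are not in `T`; the
  field vanishes on the faces of the two outer arcs. Then the block path sum of the inner arcs is the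
  sum over ONE block of the coarse map.
* `corr_win` : the same for 117's corridor `Corr` + `LinksO` (both directions), sum of the `ZZ`;
  `corr_le` : its square is at most the sum of the squares of the block sums (`hX` of `tile_one`)
* `Wv` : what is asked of a colouring; `corr_one` : **mean over the colours, weight of the rest**
-/

set_option autoImplicit false

noncomputable section

open scoped Classical

namespace Crest.Agent.R143.TileWx490

open Crest.Agent.R143.Frame1x395 Crest.Agent.R143.Frame2x395 Crest.Agent.R143.Frame3x395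
  Crest.Agent.R143.Frame4x395 Crest.Agent.R143.Frame8x395 Crest.Agent.R143.Frame9x395
  Crest.Agent.R143.NonXx592 Crest.Agent.R143.Coarsex166 Crest.Agent.R143.Giantx46
  Crest.Agent.R143.Resax778 Crest.Agent.R143.Partx778 Crest.Agent.R143.ChordCx357
  Crest.Agent.R143.Splx117 Crest.Agent.R143.TileMx683 Crest.Agent.R143.Gntx535

variable {D C : Type} {M : CMap D C} {T : Finset C} {σ : C → ZMod 2}

theorem bl_on {c : C} (h : c ∈ T) : bl T σ c = σ c := if_pos h

theorem bl_off {c : C} (h : c ∉ T) : bl T σ c = 1 := if_neg h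

/-- a black left cell: the right cell is white -/
theorem white {d : D} (h : cfg M σ d = 1) (hc : σ (M.cell d) = 1) : σ (M.cell (M.rho d)) = 0 := by
  have h1 : σ (M.cell d) + σ (M.cell (M.rho d)) = 1 := h
  rw [hc] at h1
  revert h1
  generalize σ (M.cell (M.rho d)) = v
  revert v; decide

theorem cfg_zero {d : D} (h : cfg M σ d = 0) : σ (M.cell d) = σ (M.cell (M.rho d)) := by
  have h1 : σ (M.cell d) + σ (M.cell (M.rho d)) = 0 := h
  revert h1
  generalize σ (M.cell (M.rho d)) = v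
  generalize σ (M.cell d) = u
  revert u v; decide

/-- **THE WINDOW** -/
theorem win_blk [Fintype D] [Fintype C] (hT : ClsCon M (piT T)) {q : D} {N : ℕ} (L : Lp M (cfg M σ) q N)
    {Tm : ℕ → ℕ} {a b : ℕ} (hab : a + 3 ≤ b)
    (mono : ∀ k, a ≤ k → k < b → Tm k ≤ Tm (k + 1)) (hN : Tm b ≤ Tm a + N)
    (cut : Cut M (cfg M σ) q Tm a b) (hcol : σ (M.cell q) = 1)
    (hin : ∀ i, Tm (a + 1) ≤ i → i ≤ Tm (b - 1) →
      M.cell (P M (cfg M σ) q i) ∈ T ∧ M.cell (M.rho (P M (cfg M σ) q i)) ∈ T)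
    (h0 : lc M (cfg M σ) q (Tm a) ∉ T) (h1 : lc M (cfg M σ) q (Tm b) ∉ T) :
    ∃ k₀, Gp M (cfg M (bl T σ)) k₀ ∧ ∀ {E : Type} [AddCommMonoid E] (w : D → E),
      (∀ i, (Tm a ≤ i ∧ i < Tm (a + 1)) ∨ (Tm (b - 1) ≤ i ∧ i < Tm b) →
        ∀ d ∈ Fa M (P M (cfg M σ) q i), w d = 0) →
      KS M (cfg M σ) q w (Tm (a + 1)) (Tm (b - 1)) =
        ∑ g ∈ blk (coarse M (piT T) hT) (cfg M (bl T σ)) k₀, w g := by
  set x := cfg M σ with hx
  set y := cfg M (bl T σ) with hy
  have ev : IsC M ∅ x := cfg_isC σ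
  have evy : IsC M ∅ y := cfg_isC _
  have occ : ∀ i, x (P M x q i) = 1 := P_occ ev L.occ
  have blk1 : ∀ i, σ (M.cell (P M x q i)) = 1 := fun i => by
    rw [it_col ev L.occ (χ := σ) (fun d hd => cfg_zero hd) i, hcol]
  have wht : ∀ i, σ (M.cell (M.rho (P M x q i))) = 0 := fun i => white (occ i) (blk1 i)
  have hmono : ∀ {k l : ℕ}, a ≤ k → k ≤ l → l ≤ b → Tm k ≤ Tm l := fun h1 h2 h3 =>
    mono_of mono h1 h2 h3
  have ha1 := hmono le_rfl (show a ≤ a + 1 by omega) (by omega)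
  have ha2 := hmono (show a ≤ a + 1 by omega) (show a + 1 ≤ b - 1 by omega) (by omega)
  have ha3 := hmono (show a ≤ b - 1 by omega) (show b - 1 ≤ b by omega) le_rfl
  set In : ℕ → Prop := fun i => M.cell (P M x q i) ∈ T ∧ M.cell (M.rho (P M x q i)) ∈ T with hIn
  have n0 : ¬ In (Tm a) := fun h => h0 h.1
  have n1 : ¬ In (Tm b) := fun h => h1 h.1
  have i0 : In (Tm (a + 1)) := hin _ le_rfl ha2
  have i1 : In (Tm (b - 1)) := hin _ ha2 le_rfl
  have e0 : Tm a ≠ Tm (a + 1) := fun e => n0 (by rw [e]; exact i0)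
  have e1 : Tm (b - 1) ≠ Tm b := fun e => n1 (by rw [← e]; exact i1)
  obtain ⟨j0, b1, b2, b3, b4⟩ := last_time (Q := fun i => ¬ In i)
    (show Tm a < Tm (a + 1) by omega) n0 (not_not.2 i0)
  obtain ⟨j1, c1, c2, c3, c4⟩ := first_time (Q := fun i => ¬ In i)
    (show Tm (b - 1) < Tm b by omega) n1 (not_not.2 i1)
  have inn : ∀ i, j0 < i → i < j1 → In i := by
    intro i h1 h2
    rcases Nat.lt_or_ge (Tm (a + 1)) i with h3 | h3
    · rcases Nat.lt_or_ge i (Tm (b - 1)) with h4 | h4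
      · exact hin i h3.le h4.le
      · exact not_not.1 (c4 i h4 h2)
    · exact not_not.1 (b4 i h1 h3)
  obtain ⟨n, hn⟩ : ∃ n, j1 = j0 + n + 2 := ⟨j1 - j0 - 2, by omega⟩
  -- the walk inside the window
  set q' := P M x q (j0 + 1) with hq'
  have hP : ∀ i, P M x q' i = P M x q (j0 + 1 + i) := by
    intro i
    rw [hq', ← P_add]
    congr 1
    omega
  obtain ⟨hyq, hyw⟩ := walk_agree (χ := σ) (χ' := bl T σ) (p := q') (occ _) (n := n) (by
    intro c hc
    apply bl_on
    rw [Finset.mem_union] at hc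
    rcases hc with hc | hc
    · obtain ⟨j, hj, rfl⟩ := mem_wl.1 hc
      show M.cell (P M x q' j) ∈ T
      rw [hP]
      exact (inn _ (by omega) (by omega)).1
    · obtain ⟨j, hj, rfl⟩ := mem_wr.1 hc
      show M.cell (M.rho (P M x q' j)) ∈ T
      rw [hP]
      exact (inn _ (by omega) (by omega)).2)
  change y q' = 1 at hyq
  change ∀ j ≤ n, P M y q' j = P M x q' j at hyw
  -- the last state before the window
  set r := P M x q j0 with hr
  have hrq : stp M x r = q' := by rw [hr, hq', P_succ]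
  have inq : In (j0 + 1) := inn _ (by omega) (by omega)
  have ql : q' ∈ M.live := ev.lv (occ _)
  set d := M.iota q' with hd
  set p' := M.rho (M.rho d) with hp'
  have cd : M.cell d = M.cell (M.rho q') := M.cell_iota _ ql
  have cd' : M.cell (M.rho d) = M.cell q' := cell_rho_iota M ql
  have cr : M.cell (M.rho p') = M.cell (M.rho q') := by rw [hp', M.rho3, cd]
  have b3' : ¬ (M.cell r ∈ T ∧ M.cell (M.rho r) ∈ T) := b3
  have hface : (p' = r ∨ p' = M.rho r) ∧ M.cell p' ∉ T := by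
    rcases stp_cases ev (show x r = 1 from occ j0) (Set.notMem_empty _) with
      ⟨s1, s2, s3⟩ | ⟨s1, s2, s3⟩
    · have e : d = M.rho r := by rw [hd, ← hrq, s3, M.iota2]
      have e2 : p' = r := by rw [hp', e, M.rho3]
      refine ⟨Or.inl e2, fun hc => b3' ⟨by rw [← e2]; exact hc, ?_⟩⟩
      rw [← e, cd]
      exact inq.2
    · have e : d = M.rho (M.rho r) := by rw [hd, ← hrq, s3, M.iota2]
      have e2 : p' = M.rho r := by rw [hp', e, M.rho3]
      refine ⟨Or.inr e2, fun hc => b3' ⟨?_, by rw [← e2]; exact hc⟩⟩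
      have e3 : M.cell r = M.cell q' := by
        rw [← cd', e, M.rho3]
      rw [e3]
      exact inq.1
  obtain ⟨hpr, hpT⟩ := hface
  have yp : y p' = 1 := by
    show bl T σ (M.cell p') + bl T σ (M.cell (M.rho p')) = 1
    rw [bl_off hpT, cr, bl_on inq.2, wht]
    rfl
  have sp : stp M y p' = q' := by
    have e2 : M.rho p' = d := by rw [hp', M.rho3]
    have e3 : y d = 1 := by rw [hd, evy.iot]; exact hyq
    unfold stp
    rw [e2, if_pos e3, hd, M.iota2]
  have hPy : ∀ i, P M y p' (i + 1) = P M y q' i := by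
    intro i
    rw [P_add]
    congr 1
  have hst : ∀ s, 1 ≤ s → s ≤ n + 1 → P M y p' s = P M x q (j0 + s) := by
    intro s h1 h2
    obtain ⟨s, rfl⟩ : ∃ s', s = s' + 1 := ⟨s - 1, by omega⟩
    rw [hPy, hyw s (by omega), hP]
    congr 1
    omega
  -- the first state after the window
  have hexit : M.cell (P M y p' (n + 2)) ∉ T := by
    have i2 : In (j0 + (n + 1)) := inn _ (by omega) (by omega)
    rw [P_succ, hst (n + 1) (by omega) le_rfl]
    set s := P M x q (j0 + (n + 1)) with hs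
    have hthird : M.cell (M.rho (M.rho s)) ∉ T := by
      intro hc
      apply c3
      have e : P M x q j1 = stp M x s := by
        rw [hs, ← P_succ, show j0 + (n + 1) + 1 = j1 by omega]
      show M.cell (P M x q j1) ∈ T ∧ M.cell (M.rho (P M x q j1)) ∈ T
      rw [e]
      rcases stp_cases ev (occ (j0 + (n + 1))) (Set.notMem_empty _) with ⟨s1, s2, s3⟩ | ⟨s1, s2, s3⟩
      · rw [s3, M.cell_iota _ (ev.lv s1), cell_rho_iota M (ev.lv s1)]
        exact ⟨hc, i2.2⟩
      · rw [s3, M.cell_iota _ (ev.lv s2), cell_rho_iota M (ev.lv s2), M.rho3]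
        exact ⟨i2.1, hc⟩
    have y1 : y (M.rho s) = 1 := by
      show bl T σ (M.cell (M.rho s)) + bl T σ (M.cell (M.rho (M.rho s))) = 1
      rw [bl_off hthird, bl_on i2.2, wht]
      rfl
    unfold stp
    rw [if_pos y1, M.cell_iota _ (evy.lv y1)]
    exact hthird
  -- the gap at the time `0`
  set k₀ := M.rho (M.rho p') with hk
  have rk : M.rho k₀ = p' := M.rho3 _
  have ck : M.cell k₀ = M.cell q' := by
    rw [hk, hp', M.rho3, cd']
  have gk : Gp M y k₀ := by
    refine ⟨?_, by rw [rk]; exact yp⟩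
    show bl T σ (M.cell k₀) + bl T σ (M.cell (M.rho k₀)) = 0
    rw [rk, ck, bl_off hpT, bl_on inq.1, blk1]
    decide
  have hne : ∃ c, c ∉ T := ⟨_, hpT⟩
  have hxc : IsC (coarse M (piT T) hT) ∅ y := isC_bl hne hT σ
  have hinT : ∀ s, 1 ≤ s → s ≤ n + 1 → M.cell (P M y p' s) ∈ T := by
    intro s h1 h2
    rw [hst s h1 h2]
    exact (inn _ (by omega) (by omega)).1
  have hcs := chord_c (hπ := hT) hxc (o := none) yp (t₁ := 0) (t₂ := n + 2) (by omega)
    (fun u v h1 h2 h3 e => piT_inj (hinT u (by omega) (by omega)) e) gk rk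
    (piT_off hpT) (piT_off hexit) (fun u h1 h2 => piT_ne (hinT u (by omega) (by omega)))
  refine ⟨k₀, gk, fun {E} _ w hw => ?_⟩
  rw [hcs]
  set A := Tm (a + 1) with hA
  set B := Tm (b - 1) with hB
  -- gaps of the block path of the inner arcs
  have key : ∀ i, InK M x q A B i → ∀ u v, j0 < u → u ≤ i → i < v → v < j1 →
      lc M x q u ≠ lc M x q v := by
    intro i hi u v d1 d2 d3 d4 e
    have i1 := hi.lo
    have i2 := hi.hi
    rcases Nat.lt_or_ge u A with hu | hu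
    · -- `u` in the arc `a`
      rcases Nat.lt_or_ge B v with hv | hv
      · have := (cut a (b - 1) le_rfl (by omega) (by omega) u v (by omega) (by omega) hv.le
          (by rw [show b - 1 + 1 = b by omega]; omega) e).1
        omega
      · obtain ⟨k, k1, k2, k3, k4⟩ := arc_of (T := Tm) (a := a + 1) (b := b - 1) (u := v)
          (by omega) (by omega) hv
        obtain ⟨f1, f2⟩ := cut a k le_rfl (by omega) (by omega) u v (by omega) hu.le k3 k4 e
        rw [f1] at f2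
        exact hi.sep A v le_rfl i1 d3 hv (by rw [← e, f2])
    · rcases Nat.lt_or_ge B v with hv | hv
      · obtain ⟨k, k1, k2, k3, k4⟩ := arc_of (T := Tm) (a := a + 1) (b := b - 1) (u := u)
          (by omega) hu (by omega)
        obtain ⟨f1, f2⟩ := cut k (b - 1) (by omega) (by omega) (by omega) u v k3 k4 hv.le
          (by rw [show b - 1 + 1 = b by omega]; omega) e
        exact hi.sep u B hu d2 i2 le_rfl f2
      · exact hi.sep u v hu d2 d3 hv e
  have himg : ((Finset.Ico A B).filter (InK M x q A B)).image (gp M x q) ⊆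
      cset M (P M y p') 0 (n + 2) := by
    intro h hh
    obtain ⟨i, hi, rfl⟩ := Finset.mem_image.1 hh
    rw [Finset.mem_filter, Finset.mem_Ico] at hi
    obtain ⟨⟨i1, i2⟩, hi⟩ := hi
    refine mem_cset.2 ⟨i - j0, Nat.zero_le _, by omega, ?_, ?_, fun u v d1 d2 d3 d4 => ?_⟩
    · rw [hst _ (by omega) (by omega), show j0 + (i - j0) = i by omega]
      exact rho_gp i
    · rw [hst _ (by omega) (by omega), show j0 + (i - j0 + 1) = i + 1 by omega]
      exact L.out_eq hi.gap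
    · rw [hst u (by omega) (by omega), hst v (by omega) (by omega)]
      exact key i hi _ _ (by omega) (by omega) (by omega) (by omega)
  rw [← Finset.sum_subset himg, Finset.sum_image]
  · rfl
  · intro u hu v hv e
    rw [Finset.mem_coe, Finset.mem_filter, Finset.mem_Ico] at hu hv
    rcases lt_trichotomy u v with h | h | h
    · exact absurd e (L.gp_ne h (by omega))
    · exact h
    · exact absurd e.symm (L.gp_ne h (by omega))
  · intro g hg hgn
    obtain ⟨s, -, s2, s3, s4, s5⟩ := mem_cset.1 hg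
    have hgs : g = M.rho (M.rho (P M y p' s)) := by rw [← s3, M.rho3]
    rcases Nat.eq_zero_or_pos s with rfl | hs
    · refine hw j0 (Or.inl ⟨b1, b2⟩) g ?_
      rw [hgs]
      change M.rho (M.rho p') ∈ Fa M r
      rcases hpr with e | e
      · rw [e]; exact Or.inr (Or.inr rfl)
      · rw [e, M.rho3]; exact Or.inl rfl
    · have e : P M y p' s = P M x q (j0 + s) := hst s hs (by omega)
      have hgf : g ∈ Fa M (P M x q (j0 + s)) := by
        rw [hgs, e]; exact Or.inr (Or.inr rfl)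
      rcases Nat.lt_or_ge (j0 + s) A with h1 | h1
      · exact hw (j0 + s) (Or.inl ⟨by omega, h1⟩) g hgf
      rcases Nat.lt_or_ge (j0 + s) B with h2 | h2
      · exfalso
        apply hgn
        have g1 : Gp M x g := gp_of_out ev (occ (j0 + s)) (by rw [s3, e]) (by
          rw [s4, hst (s + 1) (by omega) (by omega)]
          exact P_succ _ _)
        have g2 : g = gp M x q (j0 + s) := by rw [hgs, e]; rfl
        refine Finset.mem_image.2 ⟨j0 + s, Finset.mem_filter.2 ⟨Finset.mem_Ico.2 ⟨h1, h2⟩,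
          h1, h2, by rw [← g2]; exact g1.1, fun u v d1 d2 d3 d4 => ?_⟩, g2.symm⟩
        have := s5 (u - j0) (v - j0) (by omega) (by omega) (by omega) (by omega)
        rw [hst _ (by omega) (by omega), hst _ (by omega) (by omega),
          show j0 + (u - j0) = u by omega, show j0 + (v - j0) = v by omega] at this
        exact this
      · exact hw (j0 + s) (Or.inr ⟨h2, by omega⟩) g hgf

/-! ### corridors -/

section corr

variable [Fintype D] [Fintype C] {n : ℕ} {p : ℕ → D} {R : ℕ → Set D}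

/-- all arcs forward -/
theorem fwd_win (hT : ClsCon M (piT T)) (n3 : 3 ≤ n) (A : Corr M (cfg M σ) n p R)
    (hf : ∀ k, k < n → FA M (cfg M σ) (R k) (p k) (p (k + 1)))
    (G : ∀ k, k < n → ∀ d ∈ R k, Gen M (M.cell d)) (hl : LinksO M (cfg M σ) n p)
    (hcol : σ (M.cell (p 0)) = 1)
    (hin : ∀ k, 1 ≤ k → k + 1 < n → ∀ d ∈ R k, M.cell d ∈ T ∧ M.cell (M.rho d) ∈ T)
    (h0 : M.cell (p 0) ∉ T) (hn : M.cell (p n) ∉ T) :
    ∃ k₀, Gp M (cfg M (bl T σ)) k₀ ∧ ∀ {E : Type} [AddCommMonoid E] (w : D → E),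
      (∀ k, k = 0 ∨ k + 1 = n → ∀ d ∈ R k, ∀ e ∈ Fa M d, w e = 0) →
      ∑ k ∈ Finset.Ico 1 (n - 1), ZZ M (cfg M σ) w (R k) (p k) (p (k + 1)) =
        ∑ g ∈ blk (coarse M (piT T) hT) (cfg M (bl T σ)) k₀, w g := by
  obtain ⟨N, Tm, L, T0, TN, -, Tlt, Tp, TR, cut, hk⟩ := A.main hf G hl
  have mono : ∀ k, 0 ≤ k → k < n → Tm k ≤ Tm (k + 1) := fun k _ hk => (Tlt k hk).le
  obtain ⟨k₀, gk, hb⟩ := win_blk hT L (Tm := Tm) (a := 0) (b := n) (by omega) mono
    (by omega) cut hcol (fun i h1 h2 => by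
      obtain ⟨k, k1, k2, k3, k4⟩ := arc_of (T := Tm) (a := 1) (b := n - 1) (u := i) (by omega) h1 h2
      exact hin k k1 (by omega) _ (TR k (by omega) i k3 k4))
    (by
      show M.cell (P M (cfg M σ) (p 0) (Tm 0)) ∉ T
      rw [T0]; exact h0)
    (by
      show M.cell ((stp M (cfg M σ))^[Tm n] (p 0)) ∉ T
      rw [Tp n le_rfl]; exact hn)
  refine ⟨k₀, gk, fun {E} _ w hw => ?_⟩
  rw [← hb w ?_, ks_sum (T := Tm) (a := 0 + 1) (b := n - 1) (by omega)
    (fun k h1 h2 => mono k (Nat.zero_le _) (by omega)) (cut.sub (by omega) (by omega))]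
  · refine Finset.sum_congr (by rw [zero_add]) fun k hk' => ?_
    rw [Finset.mem_Ico] at hk'
    exact (hk w k (by omega)).symm
  · rintro i (⟨h1, h2⟩ | ⟨h1, h2⟩) d hd
    · exact hw 0 (Or.inl rfl) _ (TR 0 (by omega) i h1 h2.le) d hd
    · refine hw (n - 1) (Or.inr (by omega)) _ (TR (n - 1) (by omega) i h1 ?_) d hd
      rw [show n - 1 + 1 = n by omega]
      exact h2.le

/-- **the window of 117's corridor** : the tiles `0` and `n - 1` are the outer tiles -/
theorem corr_win (hT : ClsCon M (piT T)) (n3 : 3 ≤ n) (A : Corr M (cfg M σ) n p R)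
    (G : ∀ k, k < n → ∀ d ∈ R k, Gen M (M.cell d)) (hl : LinksO M (cfg M σ) n p)
    (hcol : ∀ k, k ≤ n → σ (M.cell (p k)) = 1)
    (hin : ∀ k, 1 ≤ k → k + 1 < n → ∀ d ∈ R k, M.cell d ∈ T ∧ M.cell (M.rho d) ∈ T)
    (h0 : M.cell (p 0) ∉ T) (hn : M.cell (p n) ∉ T) :
    ∃ k₀, Gp M (cfg M (bl T σ)) k₀ ∧ ∀ {E : Type} [AddCommMonoid E] (w : D → E),
      (∀ k, k = 0 ∨ k + 1 = n → ∀ d ∈ R k, ∀ e ∈ Fa M d, w e = 0) →
      ∑ k ∈ Finset.Ico 1 (n - 1), ZZ M (cfg M σ) w (R k) (p k) (p (k + 1)) =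
        ∑ g ∈ blk (coarse M (piT T) hT) (cfg M (bl T σ)) k₀, w g := by
  by_cases hf : ∀ k, k < n → FA M (cfg M σ) (R k) (p k) (p (k + 1))
  · exact fwd_win hT n3 A hf G hl (hcol 0 (by omega)) hin h0 hn
  push Not at hf
  obtain ⟨k1, hk1, hk1'⟩ := hf
  obtain ⟨hb, hno⟩ := A.dir_back hk1 hk1'
  obtain ⟨k₀, gk, H⟩ := fwd_win (p := fun k => p (n - k)) (R := fun k => R (n - 1 - k)) hT n3 A.rev
    (fun k hk => by
      have h1 := hb (n - 1 - k) (by omega)
      rw [show n - 1 - k + 1 = n - k by omega] at h1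
      show FA M (cfg M σ) (R (n - 1 - k)) (p (n - k)) (p (n - (k + 1)))
      rw [show n - (k + 1) = n - 1 - k by omega]
      exact h1)
    (fun k hk d hd => G _ (by omega) d hd) hl.rev
    (by
      show σ (M.cell (p (n - 0))) = 1
      exact hcol _ (by omega))
    (fun k h1 h2 d hd => hin (n - 1 - k) (by omega) (by omega) d hd)
    (by
      show M.cell (p (n - 0)) ∉ T
      rw [Nat.sub_zero]; exact hn)
    (by
      show M.cell (p (n - n)) ∉ T
      rw [Nat.sub_self]; exact h0)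
  refine ⟨k₀, gk, fun {E} _ w hw => ?_⟩
  rw [← H w fun k hk d hd e he => hw (n - 1 - k) (by omega) d hd e he]
  refine Finset.sum_nbij' (fun k => n - 1 - k) (fun k => n - 1 - k) ?_ ?_ ?_ ?_ ?_
  · intro k hk
    rw [Finset.mem_Ico] at hk ⊢
    omega
  · intro k hk
    rw [Finset.mem_Ico] at hk ⊢
    omega
  · intro k hk
    rw [Finset.mem_Ico] at hk
    omega
  · intro k hk
    rw [Finset.mem_Ico] at hk
    omega
  · intro k hk
    rw [Finset.mem_Ico] at hk
    show ZZ M (cfg M σ) w (R k) (p k) (p (k + 1)) =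
      ZZ M (cfg M σ) w (R (n - 1 - (n - 1 - k))) (p (n - (n - 1 - k))) (p (n - (n - 1 - k + 1)))
    rw [show n - 1 - (n - 1 - k) = k by omega, show n - (n - 1 - k) = k + 1 by omega,
      show n - (n - 1 - k + 1) = k by omega]
    unfold ZZ
    rw [if_neg (hno k (by omega)), if_pos (hb k (by omega)), if_pos (hb k (by omega))]

/-- **hypothesis `hX` of 683's `tile_one`** -/
theorem corr_le (hT : ClsCon M (piT T)) (n3 : 3 ≤ n) (A : Corr M (cfg M σ) n p R)
    (G : ∀ k, k < n → ∀ d ∈ R k, Gen M (M.cell d)) (hl : LinksO M (cfg M σ) n p)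
    (hcol : ∀ k, k ≤ n → σ (M.cell (p k)) = 1)
    (hin : ∀ k, 1 ≤ k → k + 1 < n → ∀ d ∈ R k, M.cell d ∈ T ∧ M.cell (M.rho d) ∈ T)
    (h0 : M.cell (p 0) ∉ T) (hn : M.cell (p n) ∉ T) {a : D → ℂ}
    (hw : ∀ k, k = 0 ∨ k + 1 = n → ∀ d ∈ R k, ∀ e ∈ Fa M d, a e = 0) :
    ‖∑ k ∈ Finset.Ico 1 (n - 1), ZZ M (cfg M σ) a (R k) (p k) (p (k + 1))‖ ^ 2 ≤
      ∑ β ∈ blks (coarse M (piT T) hT) (cfg M (bl T σ)), ‖∑ g ∈ β, a g‖ ^ 2 := by
  obtain ⟨k₀, gk, H⟩ := corr_win hT n3 A G hl hcol hin h0 hn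
  rw [H a hw]
  exact Finset.single_le_sum (f := fun β : Finset D => ‖∑ g ∈ β, a g‖ ^ 2)
    (fun β _ => by positivity) (Finset.mem_image_of_mem _ (mem_gaps.2 gk))

end corr

/-- what is asked of a colouring `σ` of the window event -/
structure Wv (M : CMap D C) (T : Finset C) (σ : C → ZMod 2) (n : ℕ) (p : ℕ → D)
    (R : ℕ → Set D) : Prop where
  corr : Corr M (cfg M σ) n p R
  links : LinksO M (cfg M σ) n p
  col : ∀ k, k ≤ n → σ (M.cell (p k)) = 1
  fst : M.cell (p 0) ∉ T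
  lst : M.cell (p n) ∉ T

/-- **FULL TILES, mean over the colours** : `G` window event, `g (r σ)` weight of the gates and tiles
off the window -/
theorem corr_one [Fintype D] [Fintype C] {w : ℂ} (w3 : w ^ 3 = 1) (w1 : w ≠ 1)
    (wc : (starRingEnd ℂ) w = w ^ 2) (hT : ClsCon M (piT T)) {Q : Type}
    {r : (C → ZMod 2) → Q} (hr : ∀ σ τ, (∀ s, s ∉ T → τ s = σ s) → r τ = r σ)
    {G : (C → ZMod 2) → Prop} {g : Q → ℝ} (hg0 : ∀ σ, 0 ≤ g (r σ))
    {a : D → ℂ} (ha : Spin M w a) {n : ℕ} {R : ℕ → Set D} (n3 : 3 ≤ n)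
    (gen : ∀ k, k < n → ∀ d ∈ R k, Gen M (M.cell d))
    (hin : ∀ k, 1 ≤ k → k + 1 < n → ∀ d ∈ R k, M.cell d ∈ T ∧ M.cell (M.rho d) ∈ T)
    (hw : ∀ k, k = 0 ∨ k + 1 = n → ∀ d ∈ R k, ∀ e ∈ Fa M d, a e = 0)
    {p : (C → ZMod 2) → ℕ → D} (hG : ∀ σ, G σ → Wv M T σ n (p σ) R) :
    ∑ σ, (if G σ then g (r σ) *
      ‖∑ k ∈ Finset.Ico 1 (n - 1), ZZ M (cfg M σ) a (R k) (p σ k) (p σ (k + 1))‖ ^ 2 else 0) ≤
      1 / 2 * ∑ σ, g (r σ) * ∑ k, ‖a k‖ ^ 2 := by
  by_cases ex : ∃ σ, G σ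
  · obtain ⟨σ₀, h₀⟩ := ex
    exact tile_one w3 w1 wc ⟨_, (hG σ₀ h₀).fst⟩ hT hr hg0 ha (X := fun σ =>
      ‖∑ k ∈ Finset.Ico 1 (n - 1), ZZ M (cfg M σ) a (R k) (p σ k) (p σ (k + 1))‖ ^ 2)
      fun σ h _ => corr_le hT n3 (hG σ h).corr gen (hG σ h).links (hG σ h).col hin (hG σ h).fst
        (hG σ h).lst hw
  · push Not at ex
    rw [Finset.sum_eq_zero fun σ _ => if_neg (ex σ)]
    have : 0 ≤ ∑ σ, g (r σ) * ∑ k, ‖a k‖ ^ 2 := Finset.sum_nonneg fun σ _ =>
      mul_nonneg (hg0 σ) (Finset.sum_nonneg fun k _ => by positivity)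
    linarith

end Crest.Agent.R143.TileWx490
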