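import Crest.Agent.R143.TileM_683

/-!
# Row 143 (S0194), RIG, R6 full tiles: the deterministic half (helper683; 490's map)

`M` a closed map, `T` = cells of a window, `σ` a colouring, `L` = the loop of the corridor, `[0, E]` =
the times of the corridor, the left cells are black (`1`). Everything off `T` is made ONE black cell
(`piT`, `bl` of `TileM_683`). Let `w` be a weight of darts which vanishes at the faces which are not
inside `T` and, on `[0, E]`, outside the times `[a, m)`. If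

* the cells of the times `[a, b]`, `m ≤ b`, are in `T`,
* the corridor touches a cell off `T` before `a` and after `b`,
* there are gaps `r₁`, `r₂` of the block path with `a ≤ r₁ ≤ b`, `lc r₁ = lc a` (last visit of the
  neck) or `r₁ ≤ a` in the window, same for `r₂` and `m`,

then `KS w 0 E` is the sum of `w` over ONE block of the coarse map (`tile_blk`); `tile_le` is the
hypothesis `hX` of `TileMx683.tile_one`. No wall below the corridor is needed: the block of the coarse
map is the chord between two visits of the giant (`chord_c`).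
-/

set_option autoImplicit false
set_option linter.unusedSectionVars false

noncomputable section

open scoped Classical

namespace Crest.Agent.R143.TileWx683

open Crest.Agent.R143.Frame1x395 Crest.Agent.R143.Frame2x395 Crest.Agent.R143.Frame3x395
  Crest.Agent.R143.Frame4x395 Crest.Agent.R143.Frame8x395 Crest.Agent.R143.Frame9x395
  Crest.Agent.R143.NonXx592
  Crest.Agent.R143.Coarsex166 Crest.Agent.R143.Coarse2x166 Crest.Agent.R143.Giantx46
  Crest.Agent.R143.Resax778 Crest.Agent.R143.Partx778 Crest.Agent.R143.ChordCx357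
  Crest.Agent.R143.Splx117 Crest.Agent.R143.TileMx683

variable {D C : Type} {M : CMap D C} {T : Finset C} {σ : C → ZMod 2} [Fintype D] [Fintype C]

/-! ### the two configurations agree inside the window -/

theorem x_eq {d : D} (h1 : M.cell d ∈ T) (h2 : M.cell (M.rho d) ∈ T) :
    cfg M (bl T σ) d = cfg M σ d := by
  unfold cfg bl
  rw [if_pos h1, if_pos h2]

/-- one step in a face inside the window -/
theorem stp_eq {p : D} (h2 : M.cell (M.rho p) ∈ T)
    (h3 : M.cell (M.rho (M.rho p)) ∈ T) : stp M (cfg M (bl T σ)) p = stp M (cfg M σ) p := by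
  unfold stp
  rw [x_eq h2 h3]

/-- the third cell of a face is a cell of the next state -/
theorem third {x : D → ZMod 2} (hx : IsC M ∅ x) {p : D} (hp : x p = 1) :
    (M.cell (stp M x p) = M.cell (M.rho (M.rho p)) ∧
      M.cell (M.rho (stp M x p)) = M.cell (M.rho p)) ∨
    (M.cell (stp M x p) = M.cell p ∧
      M.cell (M.rho (stp M x p)) = M.cell (M.rho (M.rho p))) := by
  rcases stp_cases hx hp (Set.notMem_empty _) with ⟨h1, -, e⟩ | ⟨-, h1, e⟩
  · left
    rw [e, M.cell_iota _ (hx.lv h1), cell_rho_iota M (hx.lv h1)]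
    exact ⟨rfl, rfl⟩
  · right
    rw [e, M.cell_iota _ (hx.lv h1), cell_rho_iota M (hx.lv h1), M.rho3]
    exact ⟨rfl, rfl⟩

/-- the right cell at the time `i` -/
def rc (M : CMap D C) (x : D → ZMod 2) (q : D) (i : ℕ) : C := M.cell (M.rho ((stp M x)^[i] q))

/-- **forward exit**: the next state has a cell off the window, the left cell is black -/
theorem exit_fwd {p : D} (hp : cfg M σ p = 1) (hb : σ (M.cell p) = 1) (h1 : M.cell p ∈ T)
    (h2 : M.cell (M.rho p) ∈ T)
    (h3 : ¬ (M.cell (stp M (cfg M σ) p) ∈ T ∧ M.cell (M.rho (stp M (cfg M σ) p)) ∈ T)) :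
    M.cell (M.rho (M.rho p)) ∉ T ∧ M.cell (stp M (cfg M (bl T σ)) p) ∉ T := by
  have h4 : M.cell (M.rho (M.rho p)) ∉ T := by
    intro h4
    apply h3
    rcases third (cfg_isC σ) hp with ⟨e1, e2⟩ | ⟨e1, e2⟩
    · exact ⟨e1 ▸ h4, e2 ▸ h2⟩
    · exact ⟨e1 ▸ h1, e2 ▸ h4⟩
  refine ⟨h4, ?_⟩
  have hr : σ (M.cell (M.rho p)) = 0 := by
    have : σ (M.cell p) + σ (M.cell (M.rho p)) = 1 := hp
    rw [hb] at this
    revert this
    generalize σ (M.cell (M.rho p)) = c
    revert c; decide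
  have e : cfg M (bl T σ) (M.rho p) = 1 := by
    unfold cfg bl
    rw [if_pos h2, if_neg h4, hr]
    decide
  unfold stp
  rw [if_pos e, M.cell_iota _ ((cfg_isC (bl T σ)).lv e)]
  exact h4

/-- **backward exit**: `p` precedes `p₁` for `σ` and has a cell off the window; `p₀` precedes `p₁` for
the recoloured configuration: its left cell is off the window -/
theorem exit_bwd {p p₀ p₁ : D} (hp : cfg M σ p = 1) (hp0 : cfg M (bl T σ) p₀ = 1)
    (e : stp M (cfg M σ) p = p₁) (e0 : stp M (cfg M (bl T σ)) p₀ = p₁)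
    (hb : σ (M.cell p₁) = 1) (h1 : M.cell p₁ ∈ T) (h2 : M.cell (M.rho p₁) ∈ T)
    (h3 : ¬ (M.cell p ∈ T ∧ M.cell (M.rho p) ∈ T)) : M.cell p₀ ∉ T := by
  have hx := cfg_isC (M := M) σ
  have hx' := cfg_isC (M := M) (bl T σ)
  intro h4
  -- the face
  have f0 : M.iota p₁ = M.rho p₀ ∨ M.iota p₁ = M.rho (M.rho p₀) := by
    rcases stp_cases hx' hp0 (Set.notMem_empty _) with ⟨-, -, e1⟩ | ⟨-, -, e1⟩
    · left; rw [← e0, e1, M.iota2]
    · right; rw [← e0, e1, M.iota2]
  have f1 : M.iota p₁ = M.rho p ∨ M.iota p₁ = M.rho (M.rho p) := by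
    rcases stp_cases hx hp (Set.notMem_empty _) with ⟨-, -, e1⟩ | ⟨-, -, e1⟩
    · left; rw [← e, e1, M.iota2]
    · right; rw [← e, e1, M.iota2]
  have hp1 : cfg M σ p₁ = 1 := by
    rcases stp_cases hx hp (Set.notMem_empty _) with ⟨h5, -, e1⟩ | ⟨-, h5, e1⟩
    · rw [← e, e1, hx.iot]; exact h5
    · rw [← e, e1, hx.iot]; exact h5
  have hl : p₁ ∈ M.live := hx.lv hp1
  have c1 : M.cell (M.iota p₁) = M.cell (M.rho p₁) := M.cell_iota _ hl
  have c2 : M.cell (M.rho (M.iota p₁)) = M.cell p₁ := cell_rho_iota M hl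
  -- the third cell is off the window
  have hz : M.cell (M.rho (M.rho (M.iota p₁))) ∉ T := by
    intro hz
    apply h3
    rcases f1 with f1 | f1
    · -- `iota p₁ = rho p`, `p = rho (rho (iota p₁))`
      have e2 : p = M.rho (M.rho (M.iota p₁)) := by rw [f1, M.rho3]
      have e3 : M.rho p = M.iota p₁ := f1.symm
      exact ⟨e2 ▸ hz, by rw [e3, c1]; exact h2⟩
    · have e2 : p = M.rho (M.iota p₁) := by rw [f1, M.rho3]
      have e3 : M.rho p = M.rho (M.rho (M.iota p₁)) := by rw [← e2]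
      exact ⟨by rw [e2, c2]; exact h1, by rw [e3]; exact hz⟩
  rcases f0 with f0 | f0
  · have e2 : p₀ = M.rho (M.rho (M.iota p₁)) := by rw [f0, M.rho3]
    exact hz (e2 ▸ h4)
  · have e2 : p₀ = M.rho (M.iota p₁) := by rw [f0, M.rho3]
    have e3 : M.rho p₀ = M.rho (M.rho (M.iota p₁)) := by rw [← e2]
    have h5 : bl T σ (M.cell p₀) + bl T σ (M.cell (M.rho p₀)) = 1 := hp0
    rw [e3, e2, c2] at h5
    unfold bl at h5
    rw [if_pos h1, if_neg hz, hb] at h5
    revert h5
    decide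

/-! ### the block -/

/-- **the charge of a tile is the charge of one block of the window map** -/
theorem tile_blk (hT : ClsCon M (piT T)) (hne : ∃ c, c ∉ T) {q : D} {N : ℕ}
    (L : Lp M (cfg M σ) q N) {E a b m r₁ r₂ : ℕ}
    (black : σ (M.cell q) = 1)
    (hEN : E < N) (ham : a < m) (hmb : m ≤ b) (hbE : b ≤ E)
    (hin : ∀ i, a ≤ i → i ≤ b → lc M (cfg M σ) q i ∈ T ∧ rc M (cfg M σ) q i ∈ T)
    (hbef : ∃ i, i < a ∧ ¬ (lc M (cfg M σ) q i ∈ T ∧ rc M (cfg M σ) q i ∈ T))
    (haft : ∃ i, b < i ∧ i ≤ E ∧ ¬ (lc M (cfg M σ) q i ∈ T ∧ rc M (cfg M σ) q i ∈ T))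
    (k1 : InK M (cfg M σ) q 0 E r₁) (k2 : InK M (cfg M σ) q 0 E r₂)
    (g1 : a ≤ r₁ ∧ r₁ ≤ b ∧ lc M (cfg M σ) q r₁ = lc M (cfg M σ) q a)
    (g2 : m ≤ r₂ ∧ r₂ ≤ b) {A : Type} [AddCommMonoid A] (w : D → A)
    (hw : ∀ i, i < E → cfg M σ (gp M (cfg M σ) q i) = 0 → w (gp M (cfg M σ) q i) ≠ 0 →
      a ≤ i ∧ i < m)
    (hwT : ∀ d, w d ≠ 0 → M.cell d ∈ T ∧ M.cell (M.rho d) ∈ T ∧ M.cell (M.rho (M.rho d)) ∈ T) :
    ∃ k₀, Gp M (cfg M (bl T σ)) k₀ ∧
      KS M (cfg M σ) q w 0 E = ∑ k ∈ blk (coarse M (piT T) hT) (cfg M (bl T σ)) k₀, w k := by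
  set x := cfg M σ with hx0
  set x' := cfg M (bl T σ) with hx0'
  have hx : IsC M ∅ x := cfg_isC σ
  have hK : IsC (coarse M (piT T) hT) ∅ x' := isC_bl hne hT σ
  have hx' : IsC M ∅ x' := cfg_isC (bl T σ)
  -- the window interval
  obtain ⟨e1, he1, hoff1⟩ := hbef
  obtain ⟨e2, he2, he2E, hoff2⟩ := haft
  have hina := hin a le_rfl (by omega)
  have hinb := hin b (by omega) le_rfl
  obtain ⟨t1, b1, b2, b3, b4⟩ := last_time
    (Q := fun i => ¬ (lc M x q i ∈ T ∧ rc M x q i ∈ T)) he1 hoff1 (not_not.2 hina)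
  obtain ⟨t2, c1, c2, c3, c4⟩ := first_time
    (Q := fun i => ¬ (lc M x q i ∈ T ∧ rc M x q i ∈ T)) he2 hoff2 (not_not.2 hinb)
  have inside : ∀ i, t1 < i → i < t2 → lc M x q i ∈ T ∧ rc M x q i ∈ T := by
    intro i h1 h2
    rcases Nat.lt_or_ge i a with h | h
    · exact not_not.1 (b4 i h1 h.le)
    rcases Nat.lt_or_ge b i with h' | h'
    · exact not_not.1 (c4 i h'.le h2)
    · exact hin i h h'
  -- colours of the left cells
  have hcol : ∀ i, σ (lc M x q i) = 1 := by
    intro i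
    have h0 : ∀ d, x d = 0 → σ (M.cell d) = σ (M.cell (M.rho d)) := by
      intro d hd
      have : σ (M.cell d) + σ (M.cell (M.rho d)) = 0 := hd
      revert this
      generalize σ (M.cell d) = u
      generalize σ (M.cell (M.rho d)) = v
      revert u v; decide
    have := it_col hx L.occ h0 i
    exact this.trans black
  set p₁ := (stp M x)^[t1 + 1] q with hp₁
  have in1 := inside (t1 + 1) (by omega) (by omega)
  have o1' : x' p₁ = 1 := by
    rw [hx0', x_eq in1.1 in1.2]
    exact L.st (t1 + 1)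
  -- the coarse predecessor
  obtain ⟨N', L'⟩ := lp_exists hx' o1'
  set p₀ := (stp M x')^[N' - 1] p₁ with hp₀
  have hN' := L'.pos
  have st0 : stp M x' p₀ = p₁ := by
    have h1 := L'.per
    rw [show N' = (N' - 1) + 1 by omega, Function.iterate_succ_apply'] at h1
    exact h1
  have o0 : x' p₀ = 1 := L'.st _
  have off0 : M.cell p₀ ∉ T := by
    refine exit_bwd (σ := σ) (p := (stp M x)^[t1] q) (L.st t1) o0
      (Function.iterate_succ_apply' _ _ _).symm st0 (hcol (t1 + 1)) in1.1 in1.2 b3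
  -- the coarse strand
  have run : ∀ j, t1 + 1 + j < t2 → (stp M x')^[j] p₁ = (stp M x)^[t1 + 1 + j] q := by
    intro j
    induction j with
    | zero => intro _; rfl
    | succ j ih =>
      intro hj
      rw [Function.iterate_succ_apply', ih (by omega), show t1 + 1 + (j + 1) = (t1 + 1 + j) + 1 by
        omega, Function.iterate_succ_apply']
      have i1 := inside (t1 + 1 + j) (by omega) (by omega)
      have i2 := inside (t1 + 1 + j + 1) (by omega) (by omega)
      refine stp_eq i1.2 ?_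
      have e3 : stp M x ((stp M x)^[t1 + 1 + j] q) = (stp M x)^[t1 + 1 + j + 1] q :=
        (Function.iterate_succ_apply' _ _ _).symm
      rcases third hx (L.st (t1 + 1 + j)) with ⟨f1, -⟩ | ⟨-, f1⟩
      · rw [← f1, e3]; exact i2.1
      · rw [← f1, e3]; exact i2.2
  set n := t2 - t1 with hn
  have hn2 : 2 ≤ n := by omega
  have base : ∀ s, P M x' p₀ (s + 1) = (stp M x')^[s] p₁ := by
    intro s
    show (stp M x')^[s + 1] p₀ = _
    rw [Function.iterate_succ_apply, st0]
  have Pin : ∀ s, 0 < s → s < n → P M x' p₀ s = (stp M x)^[t1 + s] q := by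
    intro s h1 h2
    obtain ⟨s, rfl⟩ : ∃ s', s = s' + 1 := ⟨s - 1, by omega⟩
    rw [base, run s (by omega)]
    congr 1
    omega
  -- the last step
  have lst := inside (t2 - 1) (by omega) (by omega)
  have ex := exit_fwd (σ := σ) (T := T) (p := (stp M x)^[t2 - 1] q) (L.st (t2 - 1))
    (hcol (t2 - 1)) lst.1 lst.2 (by
      have e3 : stp M x ((stp M x)^[t2 - 1] q) = (stp M x)^[t2] q := by
        rw [← Function.iterate_succ_apply' (stp M x)]
        congr 1
        omega
      show ¬ (M.cell (stp M x ((stp M x)^[t2 - 1] q)) ∈ T ∧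
        M.cell (M.rho (stp M x ((stp M x)^[t2 - 1] q))) ∈ T)
      rw [e3]
      exact c3)
  have Pn : M.cell (P M x' p₀ n) ∉ T := by
    have h1 : P M x' p₀ n = stp M x' ((stp M x)^[t2 - 1] q) := by
      have h2 := Pin (n - 1) (by omega) (by omega)
      rw [show t1 + (n - 1) = t2 - 1 by omega] at h2
      rw [← h2]
      show (stp M x')^[n] p₀ = stp M x' ((stp M x')^[n - 1] p₀)
      rw [← Function.iterate_succ_apply' (stp M x')]
      congr 1
      omega
    rw [h1]
    exact ex.2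
  have cin : ∀ s, 0 < s → s < n → M.cell (P M x' p₀ s) ∈ T := by
    intro s h1 h2
    rw [Pin s h1 h2]
    exact (inside (t1 + s) (by omega) (by omega)).1
  -- the root gap
  have L0 : Lp M x' p₀ N' := by
    rw [hp₀]
    refine ⟨hx', L'.st _, L'.pos, ?_, fun i j hij hj => ?_⟩
    · rw [← Function.iterate_add_apply, Nat.add_comm, L'.add]
    · rw [← Function.iterate_add_apply, ← Function.iterate_add_apply]
      exact L'.ne (by omega) (by omega)
  set k₀ := gp M x' p₀ 0 with hk₀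
  have xk : x' k₀ = 0 := L0.gap_of_ne (by
    intro e
    have h1 : M.cell (P M x' p₀ 1) = M.cell p₀ := e
    have h2 := cin 1 (by omega) (by omega)
    rw [h1] at h2
    exact off0 h2)
  have hk : Gp M x' k₀ := L0.gap xk
  have hb := chord_c (hπ := hT) hK (o := none) o0 (t₁ := 0) (t₂ := n) (by omega)
    (fun u v h1 h2 h3 e => piT_inj (cin u h1 (by omega)) e) hk (rho_gp 0) (piT_off off0)
    (piT_off Pn) (fun u h1 h2 => piT_ne (cin u h1 h2))
  refine ⟨k₀, hk, ?_⟩
  rw [hb]
  -- the common index set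
  set I : Finset ℕ := (Finset.Ico a m).filter fun i => x (gp M x q i) = 0 ∧
    ∀ u v, t1 < u → u ≤ i → i < v → v < t2 → lc M x q u ≠ lc M x q v with hI
  have memI : ∀ i, i ∈ I ↔ a ≤ i ∧ i < m ∧ x (gp M x q i) = 0 ∧
      ∀ u v, t1 < u → u ≤ i → i < v → v < t2 → lc M x q u ≠ lc M x q v := by
    intro i
    rw [hI, Finset.mem_filter, Finset.mem_Ico, and_assoc]
  have key : ∀ i, a ≤ i → i < m → (InK M x q 0 E i ↔ i ∈ I) := by
    intro i h1 h2
    rw [memI]
    constructor
    · intro h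
      exact ⟨h1, h2, h.gap, fun u v d1 d2 d3 d4 => h.sep u v (by omega) d2 d3 (by omega)⟩
    · rintro ⟨-, -, h3, h4⟩
      refine ⟨by omega, by omega, h3, fun j l d1 d2 d3 d4 e => ?_⟩
      rcases Nat.lt_or_ge t1 j with hj | hj
      · rcases Nat.lt_or_ge l t2 with hl | hl
        · exact h4 j l hj d2 d3 hl e
        · exact k2.sep j l (by omega) (by omega) (by omega) d4 e
      · rcases Nat.lt_or_ge i r₁ with h5 | h5
        · exact h4 a r₁ (by omega) h1 h5 (by omega) g1.2.2.symm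
        · exact k1.sep j l (by omega) (by omega) (by omega) d4 e
  have s1 : KS M x q w 0 E = ∑ i ∈ I, w (gp M x q i) := by
    unfold KS
    refine (Finset.sum_subset ?_ ?_).symm
    · intro i hi
      have h1 := (memI i).1 hi
      have h2 := (key i h1.1 h1.2.1).2 hi
      exact Finset.mem_filter.2 ⟨Finset.mem_Ico.2 ⟨h2.lo, h2.hi⟩, h2⟩
    · intro i hi hni
      rw [Finset.mem_filter, Finset.mem_Ico] at hi
      by_contra hne'
      obtain ⟨h1, h2⟩ := hw i hi.1.2 hi.2.gap hne'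
      exact hni ((key i h1 h2).1 hi.2)
  have inj : ∀ i ∈ I, ∀ j ∈ I, gp M x q i = gp M x q j → i = j := by
    intro i hi j hj e
    have h1 := (memI i).1 hi
    have h2 := (memI j).1 hj
    rcases lt_trichotomy i j with h | h | h
    · exact absurd e (L.gp_ne h (by omega))
    · exact h
    · exact absurd e.symm (L.gp_ne h (by omega))
  have s2 : ∑ i ∈ I, w (gp M x q i) = ∑ k ∈ I.image (gp M x q), w k :=
    (Finset.sum_image inj).symm
  rw [s1, s2]
  refine Finset.sum_subset ?_ ?_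
  · intro h hh
    obtain ⟨i, hi, rfl⟩ := Finset.mem_image.1 hh
    obtain ⟨h1, h2, h3, h4⟩ := (memI i).1 hi
    refine mem_cset.2 ⟨i - t1, by omega, by omega, ?_, ?_, ?_⟩
    · rw [rho_gp, Pin (i - t1) (by omega) (by omega), show t1 + (i - t1) = i by omega]
    · rw [L.out_eq h3, Pin (i - t1 + 1) (by omega) (by omega),
        show t1 + (i - t1 + 1) = i + 1 by omega]
    · intro u v d1 d2 d3 d4
      rw [Pin u d1 (by omega), Pin v (by omega) d4]
      exact h4 (t1 + u) (t1 + v) (by omega) (by omega) (by omega) (by omega)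
  · intro h hh hni
    by_contra hwh
    obtain ⟨s, d1, d2, d3, d4, d5⟩ := mem_cset.1 hh
    obtain ⟨f1, f2, f3⟩ := hwT h hwh
    have s0 : 0 < s := by
      rcases Nat.eq_zero_or_pos s with rfl | h0
      · exfalso
        have : M.rho h = p₀ := d3
        rw [this] at f2
        exact off0 f2
      · exact h0
    have sn : s + 1 < n := by
      by_contra hc
      have e4 : s = n - 1 := by omega
      have h2 := Pin (n - 1) (by omega) (by omega)
      rw [show t1 + (n - 1) = t2 - 1 by omega] at h2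
      rw [e4, h2] at d3
      apply ex.1
      rw [← d3, M.rho3]
      exact f1
    have e5 := Pin s s0 (by omega)
    have e6 := Pin (s + 1) (by omega) sn
    rw [e5] at d3
    rw [e6, ← Nat.add_assoc, Function.iterate_succ_apply'] at d4
    have hg : Gp M x h := gp_of_out hx (L.st (t1 + s)) d3 d4
    have e7 : h = gp M x q (t1 + s) := L.eq_gp d3.symm
    apply hni
    rw [e7] at hwh hg ⊢
    obtain ⟨h7, h8⟩ := hw (t1 + s) (by omega) hg.1 hwh
    refine Finset.mem_image.2 ⟨t1 + s, (memI _).2 ⟨h7, h8, hg.1, ?_⟩, rfl⟩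
    intro u v a1 a2 a3 a4
    have := d5 (u - t1) (v - t1) (by omega) (by omega) (by omega) (by omega)
    rw [Pin (u - t1) (by omega) (by omega), Pin (v - t1) (by omega) (by omega),
      show t1 + (u - t1) = u by omega, show t1 + (v - t1) = v by omega] at this
    exact this

/-- **the hypothesis `hX` of `tile_one`** -/
theorem tile_le (hT : ClsCon M (piT T)) (hne : ∃ c, c ∉ T) {q : D} {N : ℕ}
    (L : Lp M (cfg M σ) q N) {E a b m r₁ r₂ : ℕ}
    (black : σ (M.cell q) = 1)
    (hEN : E < N) (ham : a < m) (hmb : m ≤ b) (hbE : b ≤ E)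
    (hin : ∀ i, a ≤ i → i ≤ b → lc M (cfg M σ) q i ∈ T ∧ rc M (cfg M σ) q i ∈ T)
    (hbef : ∃ i, i < a ∧ ¬ (lc M (cfg M σ) q i ∈ T ∧ rc M (cfg M σ) q i ∈ T))
    (haft : ∃ i, b < i ∧ i ≤ E ∧ ¬ (lc M (cfg M σ) q i ∈ T ∧ rc M (cfg M σ) q i ∈ T))
    (k1 : InK M (cfg M σ) q 0 E r₁) (k2 : InK M (cfg M σ) q 0 E r₂)
    (g1 : a ≤ r₁ ∧ r₁ ≤ b ∧ lc M (cfg M σ) q r₁ = lc M (cfg M σ) q a)
    (g2 : m ≤ r₂ ∧ r₂ ≤ b) (w : D → ℂ)
    (hw : ∀ i, i < E → cfg M σ (gp M (cfg M σ) q i) = 0 → w (gp M (cfg M σ) q i) ≠ 0 →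
      a ≤ i ∧ i < m)
    (hwT : ∀ d, w d ≠ 0 → M.cell d ∈ T ∧ M.cell (M.rho d) ∈ T ∧ M.cell (M.rho (M.rho d)) ∈ T) :
    ‖KS M (cfg M σ) q w 0 E‖ ^ 2 ≤
      ∑ β ∈ blks (coarse M (piT T) hT) (cfg M (bl T σ)), ‖∑ k ∈ β, w k‖ ^ 2 := by
  obtain ⟨k₀, h1, h2⟩ := tile_blk hT hne L black hEN ham hmb hbE hin hbef haft k1 k2 g1 g2 w hw hwT
  rw [h2]
  refine Finset.single_le_sum (f := fun β => ‖∑ k ∈ β, w k‖ ^ 2) (fun β _ => by positivity) ?_
  exact Finset.mem_image.2 ⟨k₀, by
    unfold gaps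
    exact Finset.mem_filter.2 ⟨Finset.mem_univ _, h1⟩, rfl⟩

end Crest.Agent.R143.TileWx683
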