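import Crest.Agent.R143.FinC_811
import Crest.Agent.R143.DomB_722
import Crest.Agent.R143.TileW_490
import Crest.Agent.R143.CorrD_117

/-!
# Row 143 (S0194), RIG, R6 second half: the window of a full tile on `rc0 hS` (helper490)

* `hull_far` : the Voronoi cell of a hull site is not bounded
* `Tw hS h3 W` : the cells of the sites whose Voronoi cell is inside `W`; `mem_Tw`, `Tw_of_ball`,
  `Tw_off` (sites off `W`), `ne_Tw`
* `cls_Tw` : **everything off the window is one class** (`W` bounded, complement connected)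
-/

set_option autoImplicit false

noncomputable section

open scoped Classical

namespace Crest.Agent.R143.TileYx490

open Crest.Agent.R143.B0x346 Crest.Agent.R143.DelGx806 Crest.Agent.R143.DelRx806
  Crest.Agent.R143.B0Dx346 Crest.Agent.R143.DomBx722 Crest.Agent.R143.Mass3x302
  Crest.Agent.R143.FinCx811 Crest.Agent.R143.WLocx713
open Crest.Agent.R143.Frame1x395 Crest.Agent.R143.Frame2x395 Crest.Agent.R143.Frame3x395
  Crest.Agent.R143.Frame4x395 Crest.Agent.R143.Frame8x395 Crest.Agent.R143.Frame9x395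
  Crest.Agent.R143.Frame10x395 Crest.Agent.R143.Coarsex166 Crest.Agent.R143.Splx117
  Crest.Agent.R143.TileMx683 Crest.Agent.R143.TileWx490 Crest.Agent.R143.RingDx117
  Crest.Agent.R143.CorrDx117
open Crest.Agent.R143.Frame5x395 (sd mem_sd th th_spec)

variable {S : Finset ℂ} {W : Set ℂ}

/-! ### Voronoi cells of hull sites -/

theorem hull_far {v : ℂ} (hv : OnHull S v) (r : ℝ) : ∃ z ∈ cell (S : Set ℂ) v, r < ‖z‖ := by
  obtain ⟨a, ha⟩ := hv
  obtain ⟨c, hc⟩ := ha.1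
  obtain ⟨o, hT⟩ := mem_delT_iff.1 hc
  have hne : a ≠ v := hT.ne.1
  have hn : 0 < ‖v - a‖ := norm_pos_iff.2 (sub_ne_zero.2 hne.symm)
  set t : ℝ := (‖o‖ + |r| + 1) / ‖v - a‖ with ht
  have ht0 : 0 ≤ t := by positivity
  have hz : o - t * (Complex.I * (v - a)) ∈ vedge (S : Set ℂ) a v := by
    rw [vedge_hull hT ha]
    exact ⟨t, ht0, rfl⟩
  refine ⟨_, vedge_sub_right _ _ _ hz, ?_⟩
  have h1 : ‖(t : ℂ) * (Complex.I * (v - a))‖ = ‖o‖ + |r| + 1 := by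
    rw [norm_mul, norm_mul, Complex.norm_I, one_mul, Complex.norm_real, Real.norm_eq_abs,
      abs_of_nonneg ht0, ht, div_mul_cancel₀ _ hn.ne']
  have h2 := norm_sub_norm_le ((t : ℂ) * (Complex.I * (v - a))) o
  rw [h1, norm_sub_rev] at h2
  have h3 := le_abs_self r
  linarith

theorem not_hull_of {v : ℂ} (hW : Bornology.IsBounded W) (h : cell (S : Set ℂ) v ⊆ W) :
    ¬ OnHull S v := by
  intro hv
  obtain ⟨r, hr⟩ := hW.subset_closedBall 0
  obtain ⟨z, hz, hz'⟩ := hull_far hv r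
  have := hr (h hz)
  rw [mem_closedBall_zero_iff] at this
  linarith

/-- a cell is in a ball -/
theorem cell_ball {v : ℂ} {r : ℝ} (h : ∀ z, ‖z - v‖ = r → ∃ s ∈ S, ‖z - s‖ < r) (hr : 0 < r) :
    cell (S : Set ℂ) v ⊆ Metric.ball v r := by
  intro z hz
  rw [Metric.mem_ball, dist_eq_norm]
  by_contra hc
  push Not at hc
  have hn : 0 < ‖z - v‖ := lt_of_lt_of_le hr hc
  set t : ℝ := r / ‖z - v‖ with ht
  have ht0 : 0 ≤ t := by positivity
  have ht1 : t ≤ 1 := (div_le_one hn).2 hc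
  set z' : ℂ := v + t * (z - v) with hz'
  have e1 : ‖z' - v‖ = r := by
    rw [hz', add_sub_cancel_left, norm_mul, Complex.norm_real, Real.norm_eq_abs,
      abs_of_nonneg ht0, ht, div_mul_cancel₀ _ hn.ne']
  obtain ⟨s, hs, hs'⟩ := h z' e1
  have h1 := hz s hs
  have e2 : ‖z - z'‖ = (1 - t) * ‖z - v‖ := by
    rw [hz', show z - (v + t * (z - v)) = ((1 - t : ℝ) : ℂ) * (z - v) by push_cast; ring, norm_mul,
      Complex.norm_real, Real.norm_eq_abs, abs_of_nonneg (by linarith)]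
  have e3 : ‖z - s‖ ≤ ‖z - z'‖ + ‖z' - s‖ := norm_sub_le_norm_sub_add_norm_sub z z' s
  have e4 : t * ‖z - v‖ = r := by rw [ht, div_mul_cancel₀ _ hn.ne']
  rw [e2] at e3
  nlinarith

/-! ### the cells of the window -/

/-- the cells of the sites whose Voronoi cell is inside `W` -/
def Tw (hS : GP (S : Set ℂ)) (h3 : 3 ≤ S.card) (W : Set ℂ) : Finset (Cs hS) :=
  Finset.univ.filter fun c => ∃ v : {v // v ∈ S}, cs hS h3 v = c ∧ cell (S : Set ℂ) v.1 ⊆ W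

variable {hS : GP (S : Set ℂ)} {h3 : 3 ≤ S.card}

theorem mem_Tw (hW : Bornology.IsBounded W) {v : {v // v ∈ S}} :
    cs hS h3 v ∈ Tw hS h3 W ↔ cell (S : Set ℂ) v.1 ⊆ W := by
  unfold Tw
  rw [Finset.mem_filter]
  constructor
  · rintro ⟨-, u, h1, h2⟩
    rw [cs_inj hS h3 (not_hull_of hW h2) h1]
    exact h2
  · exact fun h => ⟨Finset.mem_univ _, v, rfl, h⟩

theorem own_cell (v : ℂ) : v ∈ cell (S : Set ℂ) v := fun s _ => by
  rw [sub_self, norm_zero]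
  exact norm_nonneg _

theorem Tw_off (hW : Bornology.IsBounded W) {v : {v // v ∈ S}} (hv : v.1 ∉ W) :
    cs hS h3 v ∉ Tw hS h3 W := fun h => hv ((mem_Tw hW).1 h (own_cell v.1))

theorem Tw_of_ball (hW : Bornology.IsBounded W) {v : {v // v ∈ S}} {r : ℝ} (hr : 0 < r)
    (h : ∀ z, ‖z - v.1‖ = r → ∃ s ∈ S, ‖z - s‖ < r) (hb : Metric.ball v.1 r ⊆ W) :
    cs hS h3 v ∈ Tw hS h3 W := (mem_Tw hW).2 ((cell_ball h hr).trans hb)

theorem ne_Tw (hW : Bornology.IsBounded W) : ∃ c, c ∉ Tw hS h3 W := by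
  obtain ⟨r, hr⟩ := hW.subset_closedBall 0
  have hne : S.Nonempty := Finset.card_pos.1 (by omega)
  obtain ⟨v, hv, hz⟩ := cell_cover hne (((|r| + 1 : ℝ) : ℂ))
  refine ⟨cs hS h3 ⟨v, hv⟩, fun h => ?_⟩
  have h1 := hr ((mem_Tw hW).1 h hz)
  rw [mem_closedBall_zero_iff, Complex.norm_real, Real.norm_eq_abs, abs_of_nonneg (by positivity)]
    at h1
  have := le_abs_self r
  linarith

/-- every cell of `restr (cm0 hS)` is the cell of a site -/
theorem cell_cs (d : D0 S) : ∃ v : {v // v ∈ S}, v.1 = d.1.1 ∧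
    (restr (cm0 hS)).cell d = cs hS h3 v := by
  have h1 : d.1.1 ∈ S := (mem_delT.1 (th_spec d.2)).1
  exact ⟨⟨d.1.1, h1⟩, rfl, rfl⟩

theorem cell_cs' (d : D0 S) : ∃ v : {v // v ∈ S}, v.1 = d.1.2 ∧
    (restr (cm0 hS)).cell ((restr (cm0 hS)).rho d) = cs hS h3 v := by
  have h1 : d.1.2 ∈ S := (mem_delT.1 (th_spec d.2)).2.1
  exact ⟨⟨d.1.2, h1⟩, rfl, rfl⟩

/-- one step outside the window -/
theorem step_out (hW : Bornology.IsBounded W) {x y : ℂ} (h : KStep S Wᶜ x y) :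
    ∃ (hx : x ∈ S) (hy : y ∈ S), Relation.EqvGen (Adj (restr (cm0 hS)) (piT (Tw hS h3 W)))
      (cs hS h3 ⟨x, hx⟩) (cs hS h3 ⟨y, hy⟩) := by
  obtain ⟨hx, hy, -, ⟨z, hz1, hz2⟩, hd⟩ := h
  have ox : cs hS h3 ⟨x, hx⟩ ∉ Tw hS h3 W := fun h =>
    hz2 ((mem_Tw hW).1 h (vedge_sub_left _ _ _ hz1))
  have oy : cs hS h3 ⟨y, hy⟩ ∉ Tw hS h3 W := fun h =>
    hz2 ((mem_Tw hW).1 h (vedge_sub_right _ _ _ hz1))
  have e : piT (Tw hS h3 W) (cs hS h3 ⟨x, hx⟩) = piT (Tw hS h3 W) (cs hS h3 ⟨y, hy⟩) := by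
    rw [piT_off ox, piT_off oy]
  refine ⟨hx, hy, ?_⟩
  have key : ∀ {a b : ℂ} (ha : a ∈ S) (hb : b ∈ S), (∃ c, (a, b, c) ∈ delT S) →
      piT (Tw hS h3 W) (cs hS h3 ⟨a, ha⟩) = piT (Tw hS h3 W) (cs hS h3 ⟨b, hb⟩) →
      Relation.EqvGen (Adj (restr (cm0 hS)) (piT (Tw hS h3 W)))
        (cs hS h3 ⟨a, ha⟩) (cs hS h3 ⟨b, hb⟩) := by
    intro a b ha hb hab e
    have hm : (a, b) ∈ sd S := mem_sd.2 hab
    by_cases hl : (⟨(a, b), hm⟩ : D0 S) ∈ (cm0 hS).live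
    · exact Relation.EqvGen.rel _ _ ⟨e, ⟨(a, b), hm⟩, hl, rfl, rfl⟩
    · have := (restr (cm0 hS)).dead ⟨(a, b), hm⟩ hl
      have e2 : cs hS h3 ⟨a, ha⟩ = cs hS h3 ⟨b, hb⟩ := this
      rw [e2]
      exact Relation.EqvGen.refl _
  rcases hd with hd | hd
  · exact key hx hy hd e
  · exact (key hy hx hd e.symm).symm _ _

/-- **everything off the window is one class** -/
theorem cls_Tw (hW : Bornology.IsBounded W) (hc : IsPreconnected Wᶜ) :
    ClsCon (restr (cm0 hS)) (piT (Tw hS h3 W)) := by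
  intro a b e
  obtain ⟨u, -, hu⟩ := cell_cs (hS := hS) (h3 := h3) a
  obtain ⟨v, -, hv⟩ := cell_cs (hS := hS) (h3 := h3) b
  rw [hu, hv] at e ⊢
  by_cases h1 : cs hS h3 u ∈ Tw hS h3 W
  · rw [piT_inj h1 e]
    exact Relation.EqvGen.refl _
  · have h2 : cs hS h3 v ∉ Tw hS h3 W := by
      intro h2
      rw [piT_off h1, piT_on h2] at e
      exact absurd e (by simp)
    rw [mem_Tw hW] at h1 h2
    rw [Set.not_subset] at h1 h2
    obtain ⟨z1, z1a, z1b⟩ := h1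
    obtain ⟨z2, z2a, z2b⟩ := h2
    have h := out_conn hS h3 hc u.2 v.2 ⟨z1, z1a, z1b⟩ ⟨z2, z2a, z2b⟩
    have key : ∀ {x : ℂ}, Relation.ReflTransGen (KStep S Wᶜ) u.1 x → ∃ hx : x ∈ S,
        Relation.EqvGen (Adj (restr (cm0 hS)) (piT (Tw hS h3 W))) (cs hS h3 u)
          (cs hS h3 ⟨x, hx⟩) := by
      intro x hx
      induction hx with
      | refl => exact ⟨u.2, Relation.EqvGen.refl _⟩
      | tail _ h1 ih =>
        obtain ⟨m1, ih⟩ := ih
        obtain ⟨m2, m3, h4⟩ := step_out (hS := hS) (h3 := h3) hW h1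
        exact ⟨m3, ih.trans _ _ _ h4⟩
    obtain ⟨_, h5⟩ := key h
    exact h5

end Crest.Agent.R143.TileYx490
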