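import Crest.Agent.R143.TileY_490
import Crest.Agent.R143.FarEk_88
import Crest.Agent.R143.TileR1_228
import Crest.Agent.R143.TileR2_228

/-!
# Row 143 (S0194), RIG, R6 second half: the region of the window of a full tile (helper490)

* `W3 h ρ W a` : the three open squares of half side `ρ` at the vertices `a - 1, a, a + 1` of the path;
  `W3_bdd`, `W3_pre` (the complement is preconnected), `W3_tile`
* `gate_sp` : a gate is at sup distance `≥ h` from the other vertices; `W3_gate`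
-/

set_option autoImplicit false

noncomputable section

open scoped Classical

namespace Crest.Agent.R143.TileZx490

open Crest.Agent.R143.Gatex838 (X Y)
open Crest.Agent.R143.TileRx228
open Crest.Agent.R143.FarEkx88 (sp Cout cout_pre sp_lip sp_cont)

variable {M : ℕ} {W : ℤ → ℤ × ℤ} {h ρ A B : ℝ} {a : ℤ}

/-! ### the window -/

/-- **the window**: three squares -/
def W3 (h ρ : ℝ) (W : ℤ → ℤ × ℤ) (a : ℤ) : Set ℂ :=
  {z | sp (cen h W (a - 1)) z < ρ ∨ sp (cen h W a) z < ρ ∨ sp (cen h W (a + 1)) z < ρ}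

theorem seg1 {t x : ℝ} (hh : 0 < h) (hρ : h / 2 < ρ) (h0 : 0 ≤ t) (h1 : t ≤ 1)
    (hx : |x - h| < ρ) : |t * x - h| < ρ ∨ |t * x| < ρ := by
  rw [abs_lt] at hx
  obtain ⟨h2, h3⟩ := hx
  by_cases h4 : h - ρ < t * x
  · left
    rw [abs_lt]
    refine ⟨by linarith, ?_⟩
    rcases le_or_gt 0 x with h5 | h5
    · nlinarith
    · nlinarith [mul_nonneg h0 (neg_nonneg.2 h5.le)]
  · right
    push Not at h4
    rw [abs_lt]
    refine ⟨?_, by linarith⟩
    rcases le_or_gt 0 x with h5 | h5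
    · have := mul_nonneg h0 h5
      linarith
    · nlinarith

theorem seg0 {t y : ℝ} (h0 : 0 ≤ t) (h1 : t ≤ 1) (hy : |y| < ρ) : |t * y| < ρ := by
  rw [abs_mul, abs_of_nonneg h0]
  have := abs_nonneg y
  nlinarith

theorem sp_eq (z w : ℂ) : sp z w = max |(w - z).re| |(w - z).im| := by
  unfold FarEkx88.sp
  rw [Complex.sub_re, Complex.sub_im]

theorem sp_lt {z w : ℂ} {r : ℝ} : sp z w < r ↔ |(w - z).re| < r ∧ |(w - z).im| < r := by
  rw [sp_eq, max_lt_iff]

/-- one arm -/
theorem star1 {u : ℤ × ℤ} (hu : U4 u) {c z : ℂ} (hh : 0 < h) (hρ : h / 2 < ρ) {t : ℝ}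
    (h0 : 0 ≤ t) (h1 : t ≤ 1) (hz : sp (c + h * cz u) z < ρ) :
    sp (c + h * cz u) (c + t * (z - c)) < ρ ∨ sp c (c + t * (z - c)) < ρ := by
  rw [sp_lt] at hz ⊢
  rw [sp_lt]
  have e1 : (c + t * (z - c) - (c + h * cz u)).re = t * (z - c).re - h * u.1 := by
    simp [cz]
  have e2 : (c + t * (z - c) - (c + h * cz u)).im = t * (z - c).im - h * u.2 := by
    simp [cz]
  have e3 : (c + t * (z - c) - c).re = t * (z - c).re := by
    simp
  have e4 : (c + t * (z - c) - c).im = t * (z - c).im := by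
    simp
  have e5 : (z - (c + h * cz u)).re = (z - c).re - h * u.1 := by
    simp [cz]
    ring
  have e6 : (z - (c + h * cz u)).im = (z - c).im - h * u.2 := by
    simp [cz]
    ring
  rw [e5, e6] at hz
  rw [e1, e2, e3, e4]
  generalize (z - c).re = x at *
  generalize (z - c).im = y at *
  have hρ0 : 0 < ρ := by linarith
  rcases hu with rfl | rfl | rfl | rfl <;>
    simp only [Int.cast_neg, Int.cast_one, Int.cast_zero, mul_one, mul_zero, sub_zero, mul_neg,
      sub_neg_eq_add] at hz ⊢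
  · obtain ⟨h2, h3⟩ := hz
    rcases seg1 hh hρ h0 h1 h2 with h4 | h4
    · exact Or.inl ⟨h4, seg0 h0 h1 h3⟩
    · exact Or.inr ⟨h4, seg0 h0 h1 h3⟩
  · obtain ⟨h2, h3⟩ := hz
    rcases seg1 hh hρ h0 h1 h3 with h4 | h4
    · exact Or.inl ⟨seg0 h0 h1 h2, h4⟩
    · exact Or.inr ⟨seg0 h0 h1 h2, h4⟩
  · obtain ⟨h2, h3⟩ := hz
    have h5 : |-x - h| < ρ := by rw [← abs_neg]; convert h2 using 2; ring
    rcases seg1 hh hρ h0 h1 h5 with h4 | h4
    · refine Or.inl ⟨?_, seg0 h0 h1 h3⟩
      rw [← abs_neg]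
      convert h4 using 2
      ring
    · refine Or.inr ⟨?_, seg0 h0 h1 h3⟩
      rw [← abs_neg]
      convert h4 using 2
      ring
  · obtain ⟨h2, h3⟩ := hz
    have h5 : |-y - h| < ρ := by rw [← abs_neg]; convert h3 using 2; ring
    rcases seg1 hh hρ h0 h1 h5 with h4 | h4
    · refine Or.inl ⟨seg0 h0 h1 h2, ?_⟩
      rw [← abs_neg]
      convert h4 using 2
      ring
    · refine Or.inr ⟨seg0 h0 h1 h2, ?_⟩
      rw [← abs_neg]
      convert h4 using 2
      ring

theorem cen_add (h : ℝ) (W : ℤ → ℤ × ℤ) (a b : ℤ) : cen h W b = cen h W a + h * cz (W b - W a) := by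
  unfold cen
  rw [cz_sub]
  ring

/-- **star shaped about the middle vertex** -/
theorem W3_star (P : FPath M W) (hh : 0 < h) (hρ : h / 2 < ρ) {z : ℂ} (hz : z ∈ W3 h ρ W a)
    {t : ℝ} (h0 : 0 ≤ t) (h1 : t ≤ 1) : cen h W a + t * (z - cen h W a) ∈ W3 h ρ W a := by
  rcases hz with hz | hz | hz
  · rw [cen_add h W a (a - 1)] at hz
    rcases star1 (P.step' a) hh hρ h0 h1 hz with h2 | h2
    · left
      rw [cen_add h W a (a - 1)]
      exact h2
    · exact Or.inr (Or.inl h2)
  · right; left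
    rw [sp_lt] at hz ⊢
    have e3 : (cen h W a + t * (z - cen h W a) - cen h W a).re = t * (z - cen h W a).re := by simp
    have e4 : (cen h W a + t * (z - cen h W a) - cen h W a).im = t * (z - cen h W a).im := by simp
    rw [e3, e4]
    exact ⟨seg0 h0 h1 hz.1, seg0 h0 h1 hz.2⟩
  · rw [cen_add h W a (a + 1)] at hz
    rcases star1 (P.step a) hh hρ h0 h1 hz with h2 | h2
    · right; right
      rw [cen_add h W a (a + 1)]
      exact h2
    · exact Or.inr (Or.inl h2)

theorem sp_tri (z w v : ℂ) : sp z w ≤ sp z v + sp v w := by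
  rw [sp_eq, sp_eq, sp_eq]
  have h1 : |(w - z).re| ≤ |(v - z).re| + |(w - v).re| := by
    have : (w - z).re = (v - z).re + (w - v).re := by simp
    rw [this]
    exact abs_add_le _ _
  have h2 : |(w - z).im| ≤ |(v - z).im| + |(w - v).im| := by
    have : (w - z).im = (v - z).im + (w - v).im := by simp
    rw [this]
    exact abs_add_le _ _
  have h5 := le_max_left |(v - z).re| |(v - z).im|
  have h6 := le_max_right |(v - z).re| |(v - z).im|
  have h7 := le_max_left |(w - v).re| |(w - v).im|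
  have h8 := le_max_right |(w - v).re| |(w - v).im|
  exact max_le (by linarith) (by linarith)

theorem sp_symm (z w : ℂ) : sp z w = sp w z := by
  rw [sp_eq, sp_eq]
  congr 1
  · rw [← neg_sub, Complex.neg_re, abs_neg]
  · rw [← neg_sub, Complex.neg_im, abs_neg]

/-- neighbouring vertices -/
theorem sp_cen {u : ℤ × ℤ} (hu : U4 u) (hh : 0 ≤ h) (c : ℂ) : sp c (c + h * cz u) ≤ h := by
  rw [sp_eq, add_sub_cancel_left]
  rcases hu with rfl | rfl | rfl | rfl <;> simp [cz, abs_of_nonneg hh, hh]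

/-- everything far from the middle vertex is off the window -/
theorem W3_far (P : FPath M W) (hh : 0 ≤ h) {z : ℂ} (hz : z ∈ W3 h ρ W a) :
    sp (cen h W a) z < ρ + h := by
  rcases hz with hz | hz | hz
  · rw [cen_add h W a (a - 1)] at hz
    have := sp_tri (cen h W a) z (cen h W a + h * cz (W (a - 1) - W a))
    have h2 := sp_cen (P.step' a) hh (cen h W a)
    linarith
  · linarith
  · rw [cen_add h W a (a + 1)] at hz
    have := sp_tri (cen h W a) z (cen h W a + h * cz (W (a + 1) - W a))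
    have h2 := sp_cen (P.step a) hh (cen h W a)
    linarith

theorem W3_bdd (P : FPath M W) (hh : 0 ≤ h) : Bornology.IsBounded (W3 h ρ W a) := by
  refine (Metric.isBounded_closedBall (x := cen h W a) (r := 2 * (ρ + h))).subset ?_
  intro z hz
  have h1 := W3_far P hh hz
  rw [sp_lt] at h1
  rw [Metric.mem_closedBall, dist_eq_norm]
  have h2 := Complex.norm_le_abs_re_add_abs_im (z - cen h W a)
  linarith [h1.1, h1.2]

/-- **the complement of the window is connected** -/
theorem W3_pre (P : FPath M W) (hh : 0 < h) (hρ : h / 2 < ρ) : IsPreconnected (W3 h ρ W a)ᶜ := by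
  set c := cen h W a with hc
  have hsub : Cout c (ρ + h) ⊆ (W3 h ρ W a)ᶜ := by
    intro z hz h1
    have h2 : ρ + h ≤ sp c z := hz
    have := W3_far P hh.le h1
    rw [← hc] at this
    linarith
  have hρ0 : 0 < ρ := by linarith
  -- a base point
  have hx : (c + ((ρ + h : ℝ) : ℂ)) ∈ Cout c (ρ + h) := by
    show ρ + h ≤ sp c _
    rw [sp_eq, add_sub_cancel_left, Complex.ofReal_re]
    exact (le_abs_self _).trans (le_max_left _ _)
  refine isPreconnected_of_forall (c + ((ρ + h : ℝ) : ℂ)) fun y hy => ?_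
  -- the ray
  set R : Set ℂ := (fun t : ℝ => c + t * (y - c)) '' Set.Ici 1 with hR
  have hRc : IsPreconnected R := isPreconnected_Ici.image _ (by fun_prop)
  have hRs : R ⊆ (W3 h ρ W a)ᶜ := by
    rintro _ ⟨t, ht, rfl⟩ h1
    have ht' : (1 : ℝ) ≤ t := ht
    have ht0 : 0 < t := by linarith
    apply hy
    have h2 := W3_star P hh hρ h1 (t := t⁻¹) (by positivity) (inv_le_one_of_one_le₀ ht')
    have e : c + ((t⁻¹ : ℝ) : ℂ) * (c + t * (y - c) - c) = y := by
      have : (t : ℂ) ≠ 0 := by exact_mod_cast ht0.ne'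
      push_cast
      field_simp
      ring
    rw [← hc] at h2
    simp only at h2
    rwa [e] at h2
  have hy1 : y ∈ R := ⟨1, Set.mem_Ici.2 le_rfl, by push_cast; ring⟩
  have hyc : 0 < sp c y := by
    by_contra h3
    push Not at h3
    apply hy
    right; left
    rw [← hc]
    linarith
  have hy2 : ∃ z ∈ R, z ∈ Cout c (ρ + h) := by
    refine ⟨_, ⟨max 1 ((ρ + h) / sp c y), Set.mem_Ici.2 (le_max_left _ _), rfl⟩, ?_⟩
    show ρ + h ≤ sp c _
    set t := max 1 ((ρ + h) / sp c y) with ht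
    have ht1 : (1 : ℝ) ≤ t := le_max_left _ _
    have e : sp c (c + t * (y - c)) = t * sp c y := by
      rw [sp_eq, sp_eq, add_sub_cancel_left, Complex.re_ofReal_mul, Complex.im_ofReal_mul,
        abs_mul, abs_mul, abs_of_nonneg (by linarith : (0 : ℝ) ≤ t),
        mul_max_of_nonneg _ _ (by linarith : (0 : ℝ) ≤ t)]
    rw [e]
    have h4 : (ρ + h) / sp c y ≤ t := le_max_right _ _
    rwa [div_le_iff₀ hyc] at h4
  obtain ⟨z, hz1, hz2⟩ := hy2
  exact ⟨Cout c (ρ + h) ∪ R, Set.union_subset hsub hRs, Or.inl hx, Or.inr hy1,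
    IsPreconnected.union z hz2 hz1 (cout_pre _ _) hRc⟩

/-! ### tiles and gates -/

/-- the tiles `a - 1, a, a + 1` with a neighbourhood are in the window -/
theorem W3_tile (P : FPath M W) {b : ℤ} (hb : b = a - 1 ∨ b = a ∨ b = a + 1) (hAB : A ≤ B)
    {s t : ℂ} {d : ℝ} (hs : s ∈ RR A B h W b) (ht : ‖t - s‖ ≤ d) (hρ : B + d ≤ ρ) :
    t ∈ W3 h ρ W a := by
  have h1 := sp_lt.2 (TileRx228.ball P hAB hs)
  have h2 := sp_lip (cen h W b) t s
  have h3 : sp (cen h W b) t < ρ := by linarith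
  rcases hb with rfl | rfl | rfl
  · exact Or.inl h3
  · exact Or.inr (Or.inl h3)
  · exact Or.inr (Or.inr h3)

/-- a gate is at sup distance `≥ h` from the other vertices -/
theorem gate_sp (P : FPath M W) (hh : 0 ≤ h) {j v : ℤ} (h1 : W v ≠ W j) (h2 : W v ≠ W (j - 1)) :
    h ≤ sp (cen h W v) (gz h W j) := by
  have hu := U4_ge P j
  have e1 : (gz h W j - cen h W v).re =
      h / 2 * (((W j - W (j - 1)).1 + 2 * ((W (j - 1)).1 - (W v).1) : ℤ) : ℝ) := by
    unfold gz cen
    simp [cz]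
    ring
  have e2 : (gz h W j - cen h W v).im =
      h / 2 * (((W j - W (j - 1)).2 + 2 * ((W (j - 1)).2 - (W v).2) : ℤ) : ℝ) := by
    unfold gz cen
    simp [cz]
    ring
  rw [sp_eq, e1, e2]
  have key : ∀ n : ℤ, 2 ≤ |n| → h ≤ |h / 2 * (n : ℝ)| := by
    intro n hn
    have : (2 : ℝ) ≤ |(n : ℝ)| := by
      have h3 : ((2 : ℤ) : ℝ) ≤ ((|n| : ℤ) : ℝ) := by exact_mod_cast hn
      rw [Int.cast_abs] at h3
      simpa using h3
    rw [abs_mul, abs_of_nonneg (by linarith : (0 : ℝ) ≤ h / 2)]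
    nlinarith
  have h3 : W j = W (j - 1) + (W j - W (j - 1)) := by abel
  generalize W j - W (j - 1) = u at *
  generalize W (j - 1) = p at *
  generalize W v = q at *
  obtain ⟨p1, p2⟩ := p
  obtain ⟨q1, q2⟩ := q
  rw [h3] at h1
  simp only [ne_eq, Prod.mk.injEq, not_and] at h2
  have h5 : 2 ≤ |u.1 + 2 * (p1 - q1)| ∨ 2 ≤ |u.2 + 2 * (p2 - q2)| := by
    rcases hu with rfl | rfl | rfl | rfl <;>
      simp only [Prod.mk_add_mk, ne_eq, Prod.mk.injEq, not_and] at h1 ⊢ <;>
      (simp only [le_abs]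
       by_cases k1 : q1 = p1 <;> by_cases k2 : q2 = p2 <;> simp_all <;> omega)
  rcases h5 with h5 | h5
  · exact (key _ h5).trans (le_max_left _ _)
  · exact (key _ h5).trans (le_max_right _ _)

/-- the box of a gate which is not next to the three vertices is off the window -/
theorem W3_gate (P : FPath M W) (hh : 0 ≤ h) {j : ℤ}
    (hj : ∀ v : ℤ, a - 1 ≤ v → v ≤ a + 1 → ¬ (M : ℤ) ∣ j - v ∧ ¬ (M : ℤ) ∣ j - 1 - v) {s : ℂ}
    {r : ℝ} (hs : ‖s - gz h W j‖ ≤ r) (hr : ρ + r ≤ h) : s ∉ W3 h ρ W a := by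
  have key : ∀ v : ℤ, a - 1 ≤ v → v ≤ a + 1 → ¬ sp (cen h W v) s < ρ := by
    intro v h1 h2 h3
    obtain ⟨h4, h5⟩ := hj v h1 h2
    have h6 := gate_sp (h := h) P hh (j := j) (v := v) (fun e => h4 (P.simple _ _ e))
      (fun e => h5 (P.simple _ _ e))
    have h7 := sp_lip (cen h W v) (gz h W j) s
    rw [norm_sub_rev] at h7
    linarith
  rintro (h1 | h1 | h1)
  · exact key _ le_rfl (by omega) h1
  · exact key _ (by omega) (by omega) h1
  · exact key _ (by omega) le_rfl h1

end Crest.Agent.R143.TileZx490
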