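import Crest.Agent.R143.TlG_58

/-!
# Row 143 (S0194), RIG: the colourings without unique hits (helper58)

* `cH` : number of hits of the type `i` in a coloured configuration; `cH_loc`, `cH_meas`
* **`nu`** : `0` if the types `w + 1` (in `X`) and `w + 2` (in `fl X`) have exactly one hit, else `1`;
  `nu_loc`, `nu_meas`, `nu_clr`
* `Bad` : colourings of the free sites without unique hits; **`nu_frac`** : `cav nu S = frac V Bad`
* `sig_frac` : measurable with respect to the configuration in every `U ⊇ Wd`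
* `disp_near` : off `Bad` the hypotheses `hg` of 798's `dispV`
-/

set_option autoImplicit false

noncomputable section

open scoped Classical

namespace Crest.Agent.R143.TlNx58

open MeasureTheory Set
open Crest.ProbabilityR.Voronoi
open Crest.Agent.R143.PP0x831 Crest.Agent.R143.Janx304 Crest.Agent.R143.Prodx609
open Crest.Agent.R143.FinMx609 Crest.Agent.R143.FinTx609 Crest.Agent.R143.FinUx609
open Crest.Agent.R143.MeasPx609 Crest.Agent.R143.MeasDx609
open Crest.Agent.R143.NetUx346 Crest.Agent.R143.NetVx346 Crest.Agent.R143.PolyUx346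
open Crest.Agent.R143.IndLoc2x279 (sig meas_sig)
open Crest.Agent.R143.IndLoc3x279 (fs clr cav)
open Crest.Agent.R143.TlAx58 Crest.Agent.R143.TlGx58

variable (u : Poly) (d : ℝ) (Wd : Set ℂ)

/-- number of hits of the type `i` -/
def cH (i : ZMod 3) (X : Set (ℂ × Bool)) : ℕ :=
  (hitsV (Sf Wd X) (Vin (Sf Wd X) u.P d)
    (NetVx346.Bl (Sf Wd X) (Vin (Sf Wd X) u.P d) u.Lab) i (bl X)).card

theorem hitsV_congr {S V : Finset ℂ} {B : ZMod 3 → Set ℂ} {i : ZMod 3} {T T' : Set ℂ}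
    (h : ∀ x ∈ V, x ∈ T ↔ x ∈ T') : hitsV S V B i T = hitsV S V B i T' := by
  have e1 : {x | x ∈ V} ∩ T = {x | x ∈ V} ∩ T' := by
    ext x
    simp only [mem_inter_iff, mem_ofPred_eq]
    exact and_congr_right fun hx => h x hx
  have e2 : {x | x ∈ V} \ T = {x | x ∈ V} \ T' := by
    ext x
    simp only [Set.mem_sdiff, mem_ofPred_eq]
    exact and_congr_right fun hx => not_congr (h x hx)
  ext t
  rw [mem_hitsV, mem_hitsV]
  unfold HitV
  rw [e1, e2]

theorem cH_loc (i : ZMod 3) : LocalOn Wd (cH u d Wd i) := by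
  intro X
  show cH u d Wd i X = cH u d Wd i (X ∩ ovr Wd)
  unfold cH
  rw [Sf_ovr]
  refine congrArg _ (hitsV_congr fun x hx => ?_)
  have hx1 : x ∈ Sf Wd X := (Finset.mem_filter.1 hx).1
  have hx2 : x ∈ Wd := (mem_of_fs hx1).2
  show (x, true) ∈ X ↔ (x, true) ∈ X ∩ ovr Wd
  exact ⟨fun h => ⟨h, hx2⟩, fun h => h.1⟩

theorem cH_meas (hWd : MeasurableSet Wd) (i : ZMod 3) : FMe (cH u d Wd i) := by
  intro n
  have h := fme_hitsV (C := ℕ) (meas_UF hWd (meas_deep u d) (meas_Lab u)) (R := R0)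
    (fun a => a.elim) none natV_region i (f := fun _ => 1) measurable_const n
  simp only [Finset.sum_const, smul_eq_mul, mul_one] at h
  exact h

/-- **no unique hits** -/
def nu (w : ZMod 3) (X : Set (ℂ × Bool)) : ℝ :=
  if cH u d Wd (w + 1) X = 1 ∧ cH u d Wd (w + 2) (fl X) = 1 then 0 else 1

theorem nu_nonneg (w : ZMod 3) (X : Set (ℂ × Bool)) : 0 ≤ nu u d Wd w X := by
  unfold nu; split_ifs <;> norm_num

theorem nu_le (w : ZMod 3) (X : Set (ℂ × Bool)) : nu u d Wd w X ≤ 1 := by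
  unfold nu; split_ifs <;> norm_num

theorem nu_loc (w : ZMod 3) : LocalOn Wd (nu u d Wd w) := by
  intro X
  have h1 := cH_loc u d Wd (w + 1) X
  have h2 := loc_fl (cH_loc u d Wd (w + 2)) X
  simp only at h2
  unfold nu
  rw [h1, h2]

theorem nu_meas (hWd : MeasurableSet Wd) (w : ZMod 3) : FinMeas (nu u d Wd w) := by
  intro n
  have h1 := cH_meas u d Wd hWd (w + 1) n
  have h2 := fme_fl (cH_meas u d Wd hWd (w + 2)) n
  exact Measurable.ite ((h1 (measurableSet_singleton 1)).inter (h2 (measurableSet_singleton 1)))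
    measurable_const measurable_const

variable {u d Wd} {S β : Finset ℂ}

/-- colourings of the free sites without unique hits -/
def Bad (u : Poly) (d : ℝ) (Wd : Set ℂ) (S : Finset ℂ) (w : ZMod 3) (T : Finset ℂ) : Prop :=
  ¬ ((hitsV (Sw Wd S) (Vw u d Wd S) (Bw u d Wd S) (w + 1) (T : Set ℂ)).card = 1 ∧
    (hitsV (Sw Wd S) (Vw u d Wd S) (Bw u d Wd S) (w + 2)
      ((Vw u d Wd S \ T : Finset ℂ) : Set ℂ)).card = 1)

theorem cH_clr (i : ZMod 3) (hβ : β ⊆ S) : cH u d Wd i (clr S β) =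
    (hitsV (Sw Wd S) (Vw u d Wd S) (Bw u d Wd S) i ((β ∩ Vw u d Wd S : Finset ℂ) : Set ℂ)).card := by
  unfold cH
  rw [Sf_clr', bl_clr hβ]
  refine congrArg _ (hitsV_congr fun x hx => ?_)
  rw [Finset.mem_coe, Finset.mem_coe, Finset.mem_inter]
  exact ⟨fun h => ⟨h, hx⟩, fun h => h.1⟩

theorem cH_fl_clr (i : ZMod 3) : cH u d Wd i (fl (clr S β)) =
    (hitsV (Sw Wd S) (Vw u d Wd S) (Bw u d Wd S) i
      ((Vw u d Wd S \ (β ∩ Vw u d Wd S) : Finset ℂ) : Set ℂ)).card := by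
  unfold cH
  rw [Sf_fl, Sf_clr']
  refine congrArg _ (hitsV_congr fun x hx => ?_)
  have hxS : x ∈ S := Vw_sub hx
  rw [Finset.mem_coe, Finset.mem_sdiff, Finset.mem_inter]
  show (x, !true) ∈ clr S β ↔ _
  unfold IndLoc3x279.clr
  simp only [mem_ofPred_eq, Bool.not_true, Bool.false_eq_true, false_iff]
  constructor
  · rintro ⟨_, h2⟩
    exact ⟨hx, fun h3 => h2 h3.1⟩
  · rintro ⟨_, h2⟩
    exact ⟨hxS, fun h3 => h2 ⟨h3, hx⟩⟩

theorem nu_clr (w : ZMod 3) (hβ : β ⊆ S) : nu u d Wd w (clr S β) =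
    if Bad u d Wd S w (β ∩ Vw u d Wd S) then 1 else 0 := by
  unfold nu Bad
  rw [cH_clr (w + 1) hβ, cH_fl_clr (w + 2)]
  by_cases h : (hitsV (Sw Wd S) (Vw u d Wd S) (Bw u d Wd S) (w + 1)
      ((β ∩ Vw u d Wd S : Finset ℂ) : Set ℂ)).card = 1 ∧
    (hitsV (Sw Wd S) (Vw u d Wd S) (Bw u d Wd S) (w + 2)
      ((Vw u d Wd S \ (β ∩ Vw u d Wd S) : Finset ℂ) : Set ℂ)).card = 1
  · rw [if_pos h, if_neg (not_not.2 h)]
  · rw [if_neg h, if_pos h]

/-- real form of `cav_exC` -/
theorem cav_real {V : Finset ℂ} (hV : V ⊆ S) {F : Set (ℂ × Bool) → ℝ} {f : Finset ℂ → ℝ}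
    (hF : ∀ β ⊆ S, F (clr S β) = f (β ∩ V)) :
    cav F S = (∑ T ∈ V.powerset, f T) / 2 ^ V.card := by
  have h := cav_exC hV (F := fun X => (F X : ℂ)) (f := fun T => (f T : ℂ)) fun β hβ => by
    show ((F (clr S β) : ℝ) : ℂ) = _
    rw [hF β hβ]
  rw [← cav_ofReal] at h
  unfold exC at h
  apply Complex.ofReal_injective
  rw [h]
  push_cast
  rfl

/-- **279's mean of `nu` is 798's `frac`** -/
theorem nu_frac (u : Poly) (d : ℝ) (Wd : Set ℂ) (S : Finset ℂ) (w : ZMod 3) :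
    cav (nu u d Wd w) S = Dispx798.frac (Vw u d Wd S) (Bad u d Wd S w) :=
  cav_real Vw_sub fun _ hβ => nu_clr w hβ

/-- the fraction of the sites of the sample in the window -/
def frW (u : Poly) (d : ℝ) (Wd : Set ℂ) (w : ZMod 3) (S : Finset ℂ) : ℝ :=
  Dispx798.frac (Vw u d Wd S) (Bad u d Wd S w)

theorem Sw_Sw (S : Finset ℂ) : Sw Wd (Sw Wd S) = Sw Wd S := by
  unfold Sw
  rw [Finset.filter_filter]
  congr 1
  funext x
  exact propext and_self_iff

theorem frW_Sw (w : ZMod 3) (S : Finset ℂ) : frW u d Wd w (Sw Wd S) = frW u d Wd w S := by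
  unfold frW Bad Bw Vw
  rw [Sw_Sw]

theorem fme_frW (hWd : MeasurableSet Wd) (w : ZMod 3) :
    FMe fun X => frW u d Wd w (Sf Wd X) := by
  have h1 : FMe fun X => cav (fun X => ((nu u d Wd w X : ℝ) : ℂ)) (Sf Wd X) :=
    fme_cav (fun n => Complex.measurable_ofReal.comp (nu_meas u d Wd hWd w n)) hWd
  intro n
  have e : (fun z : Fin n → ℂ × Bool => (fun X => frW u d Wd w (Sf Wd X)) (range z)) =
      fun z => ((fun X => cav (fun X => ((nu u d Wd w X : ℝ) : ℂ)) (Sf Wd X)) (range z)).re := by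
    funext z
    simp only
    rw [← cav_ofReal, Complex.ofReal_re, nu_frac]
    rfl
  rw [e]
  exact Complex.measurable_re.comp (h1 n)

/-- **the fraction of the bad colourings is a function of the configuration in `U ⊇ Wd`** -/
theorem sig_frac {ε : ℝ} (hε : 0 < ε) (hb : Bornology.IsBounded Wd) {U : Set ℂ} (hWU : Wd ⊆ U)
    (hWd : MeasurableSet Wd) (w : ZMod 3) :
    Measurable[sig ε U] fun ω => frW u d Wd w (Dbl2x609.Ap ε Wd ω) :=
  sig_of hε hb hWU (f := frW u d Wd w) (fme_frW hWd w)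

/-- the same for every finite set of sites which contains the sites of the window -/
theorem frac_Ap {ε : ℝ} {ω : Sample} (hε : 0 < ε) (hb : Bornology.IsBounded Wd)
    (hS : (S : Set ℂ) ⊆ points ε ω ∧ points ε ω ∩ Wd ⊆ S) (w : ZMod 3) :
    Dispx798.frac (Vw u d Wd S) (Bad u d Wd S w) = frW u d Wd w (Dbl2x609.Ap ε Wd ω) := by
  rw [← Sw_Ap hε hb hS]
  exact (frW_Sw w S).symm

/-! ### the hypotheses of `dispV` -/

section near

open Crest.Agent.R143.TileRx228 Crest.Agent.R143.Layx416 Crest.Agent.R143.LayUx416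
open Crest.Agent.R143.Locx922 (Hol)
open Crest.Agent.R143.LocUx700 (deep)

variable {m M : ℕ} {p W : ℤ → ℤ × ℤ} {A e : ℤ → ℤ} {h c : ℝ}

/-- **hypothesis `hg` of 798's `dispV`** -/
theorem disp_near (H : LayU u m M p W A e) (hh : (m : ℝ) * h = u.s) (hd : 0 < d)
    (hPW : u.P ⊆ Wd) (hH : Hol (S : Set ℂ) (deep u.P d) d) (hc : 8 * h + 2 * d ≤ c * h)
    (w : ZMod 3) (T : Finset ℂ) (hT : ¬ Bad u d Wd S w T) :
    ca u d h Wd S W A e w T ≤ cb u d h Wd S W A e w T ∧
      cb u d h Wd S W A e w T ≤ nn A e w ∧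
      ‖Dispx798.xV (Sw Wd S) (Vw u d Wd S) (Bw u d Wd S) w T -
        gt h W A e w (cb u d h Wd S W A e w T)‖ ≤ c * h ∧
      ‖Dispx798.yV (Sw Wd S) (Vw u d Wd S) (Bw u d Wd S) w T -
        gt h W A e w (ca u d h Wd S W A e w T)‖ ≤ c * h := by
  obtain ⟨h1, h2⟩ := not_not.1 hT
  obtain ⟨h3, h4, h5⟩ := ca_le_cb (u := u) (S := S) (d := d) (h := h) (Wd := Wd) H.lay w T
  exact ⟨h3.trans h4, h5, (cb_near H hh hd hPW hH h1).trans hc,
    (ca_near H hh hd hPW hH h2).trans hc⟩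

/-- displacement of two consecutive gates -/
theorem gt_step (H : LayU u m M p W A e) (hh : 0 ≤ h) (w : ZMod 3) (k : ℕ) :
    ‖gt h W A e w (k + 1) - gt h W A e w k‖ ≤ h := by
  have hs1 := gz_cen H.lay.fp hh (al A e w + k)
  have hs2 : dist (gz h W (al A e w + k + 1)) (cen h W (al A e w + k)) ≤ h / 2 := by
    have e1 : gz h W (al A e w + k + 1) - cen h W (al A e w + k) =
        ((h / 2 : ℝ) : ℂ) * cz (W (al A e w + k + 1) - W (al A e w + k)) := by
      unfold gz cen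
      rw [LayQx811.cz_sub, add_sub_cancel_right]
      push_cast
      ring
    have hs := H.lay.fp.step (al A e w + k)
    have hn : ‖cz (W (al A e w + k + 1) - W (al A e w + k))‖ = 1 := by
      rcases hs with hs | hs | hs | hs <;> rw [hs] <;> unfold cz <;>
        simp [Complex.norm_def, Complex.normSq]
    rw [dist_eq_norm, e1, norm_mul, Complex.norm_real, Real.norm_of_nonneg (by linarith), hn,
      mul_one]
  have e2 : gt h W A e w (k + 1) = gz h W (al A e w + k + 1) := by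
    unfold gt
    push_cast
    rw [add_assoc]
  rw [e2, ← dist_eq_norm]
  unfold gt
  have h3 := dist_triangle (gz h W (al A e w + k + 1)) (cen h W (al A e w + k))
    (gz h W (al A e w + k))
  rw [dist_comm (cen h W (al A e w + k)) _] at h3
  linarith

end near

end Crest.Agent.R143.TlNx58
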