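import Crest.Agent.R143.Blk_838

/-!
# Row 143, block P, Tool W, part 2: jump formula (helper838)

* `tri_in`, `tri_out` : total angle of a triangle
* `jump` : the total angle of a loop jumps by `2π (#(a,b) - #(b,a))` across the edge `(a, b)`
* `jump_hull` : the same for a hull edge
-/

set_option autoImplicit false

noncomputable section

open scoped Classical

namespace Crest.Agent.R143.ToolW2x838

open Crest.Agent.R143.B0x346 Crest.Agent.R143.DelGx806 Crest.Agent.R143.DelRx806
open Crest.Agent.R143.ToolWx838 Crest.Agent.R143.Blkx838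

variable {S : Finset ℂ}

/-! ### triangles -/

theorem ang_pos {x a b : ℂ} (h : 0 < cr (a - x) (b - x)) : 0 < ang x a b ∧ ang x a b < Real.pi := by
  have hne : a - x ≠ 0 := by
    intro h0; rw [h0] at h; simp [cr] at h
  have him : 0 < ((b - x) / (a - x)).im := by
    have e : ((b - x) / (a - x)).im = cr (a - x) (b - x) / Complex.normSq (a - x) := by
      rw [Complex.div_im]; unfold cr; ring
    rw [e]
    exact div_pos h (Complex.normSq_pos.2 hne)
  unfold ang
  constructor
  · have h1 := Complex.arg_nonneg_iff.2 him.le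
    rcases h1.lt_or_eq with h2 | h2
    · exact h2
    · exfalso
      have := Complex.arg_eq_zero_iff.1 h2.symm
      linarith [this.2]
  · have h1 := Complex.arg_le_pi ((b - x) / (a - x))
    rcases h1.lt_or_eq with h2 | h2
    · exact h2
    · exfalso
      have := (Complex.arg_eq_pi_iff.1 h2).2
      linarith

theorem cr_view (x a b : ℂ) : cr (a - x) (b - x) = cr (b - a) (x - a) := by
  unfold cr; simp only [Complex.sub_re, Complex.sub_im]; ring

theorem tri_in {a b c x : ℂ} (hx : InO x a b c) :
    ang x a b + ang x b c + ang x c a = 2 * Real.pi := by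
  obtain ⟨x1, x2, x3⟩ := hx
  unfold Lft at x1 x2 x3
  rw [← cr_view] at x1 x2 x3
  have a1 := ang_pos x1
  have a2 := ang_pos x2
  have a3 := ang_pos x3
  have hne : ∀ s ∈ [a, b, c, a], s ≠ x := by
    intro s hs
    simp only [List.mem_cons, List.not_mem_nil, or_false] at hs
    rcases hs with rfl | rfl | rfl | rfl
    · rintro rfl; simp [cr] at x1
    · rintro rfl; simp [cr] at x1
    · rintro rfl; simp [cr] at x2
    · rintro rfl; simp [cr] at x1
  obtain ⟨k, hk⟩ := asum_closed hne (by simp)
  simp only [asum_cons, asum_one, add_zero] at hk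
  have hpi := Real.pi_pos
  have k1 : (0 : ℝ) < k := by
    by_contra hcon
    push Not at hcon
    have := mul_nonpos_of_nonneg_of_nonpos (by positivity : (0:ℝ) ≤ 2 * Real.pi) hcon
    linarith
  have k2 : (k : ℝ) < 2 := by
    by_contra hcon
    push Not at hcon
    have : 2 * Real.pi * 2 ≤ 2 * Real.pi * k := mul_le_mul_of_nonneg_left hcon (by positivity)
    linarith
  have k3 : k = 1 := by
    have h1 : 0 < k := by exact_mod_cast k1
    have h2 : k < 2 := by exact_mod_cast k2
    omega
  rw [k3] at hk
  push_cast at hk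
  linarith

theorem tri_out {a b c y : ℂ} (hpos : 0 < cr (b - a) (c - a)) (hy : Lft y b a) :
    ang y a b + ang y b c + ang y c a = 0 := by
  unfold Lft at hy
  rw [cr_swap] at hy
  have h := asum_out (l := [a, b, c, a]) (a := a) (b := b) (y := y) (by simp) (by
    intro s hs
    simp only [List.mem_cons, List.not_mem_nil, or_false] at hs
    rcases hs with rfl | rfl | rfl | rfl
    · rw [cr_left]
    · rw [cr_right]
    · exact hpos.le
    · rw [cr_left]) (by linarith)
  simp only [asum_cons, asum_one, add_zero] at h
  linarith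

/-! ### detours -/

/-- the chain with the edge `{a, b}` replaced by the way through `c` -/
def ins (a b c : ℂ) : List ℂ → List ℂ
  | [] => []
  | [p] => [p]
  | p :: q :: l =>
    if (p = a ∧ q = b) ∨ (p = b ∧ q = a) then p :: c :: ins a b c (q :: l)
    else p :: ins a b c (q :: l)

theorem ins_head (a b c : ℂ) (q : ℂ) (l : List ℂ) : ∃ m, ins a b c (q :: l) = q :: m := by
  cases l with
  | nil => exact ⟨[], rfl⟩
  | cons r l =>
    unfold ins
    split_ifs
    · exact ⟨_, rfl⟩
    · exact ⟨_, rfl⟩

theorem ins_head? (a b c : ℂ) (l : List ℂ) : (ins a b c l).head? = l.head? := by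
  cases l with
  | nil => rfl
  | cons q l =>
    obtain ⟨m, hm⟩ := ins_head a b c q l
    rw [hm]; rfl

theorem ins_getLast? (a b c : ℂ) (l : List ℂ) : (ins a b c l).getLast? = l.getLast? := by
  induction l with
  | nil => rfl
  | cons p l ih =>
    cases l with
    | nil => rfl
    | cons q l =>
      obtain ⟨m, hm⟩ := ins_head a b c q l
      unfold ins
      rw [hm] at ih ⊢
      split_ifs
      · rw [List.getLast?_cons_cons, List.getLast?_cons_cons, ih, List.getLast?_cons_cons]
      · rw [List.getLast?_cons_cons, ih, List.getLast?_cons_cons]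

theorem prs_ins {a b c : ℂ} {l : List ℂ} {p : ℂ × ℂ} (h : p ∈ prs (ins a b c l)) :
    (p ∈ prs l ∧ p ≠ (a, b) ∧ p ≠ (b, a)) ∨ p = (a, c) ∨ p = (c, b) ∨ p = (b, c) ∨ p = (c, a) := by
  induction l with
  | nil => simp [ins] at h
  | cons r l ih =>
    cases l with
    | nil => simp [ins] at h
    | cons q l =>
      obtain ⟨m, hm⟩ := ins_head a b c q l
      unfold ins at h
      rw [hm] at h ih
      split_ifs at h with h0
      · simp only [prs_cons, List.mem_cons] at h
        rcases h with h | h | h
        · rcases h0 with ⟨rfl, rfl⟩ | ⟨rfl, rfl⟩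
          · exact Or.inr (Or.inl h)
          · exact Or.inr (Or.inr (Or.inr (Or.inl h)))
        · rcases h0 with ⟨rfl, rfl⟩ | ⟨rfl, rfl⟩
          · exact Or.inr (Or.inr (Or.inl h))
          · exact Or.inr (Or.inr (Or.inr (Or.inr h)))
        · rcases ih h with h1 | h1
          · exact Or.inl ⟨by simp only [prs_cons, List.mem_cons]; exact Or.inr h1.1, h1.2⟩
          · exact Or.inr h1
      · simp only [prs_cons, List.mem_cons] at h
        rcases h with h | h
        · left
          refine ⟨by simp only [prs_cons, List.mem_cons]; exact Or.inl h, ?_, ?_⟩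
          · rintro rfl
            apply h0
            simp only [Prod.mk.injEq] at h
            exact Or.inl ⟨h.1.symm, h.2.symm⟩
          · rintro rfl
            apply h0
            simp only [Prod.mk.injEq] at h
            exact Or.inr ⟨h.1.symm, h.2.symm⟩
        · rcases ih h with h1 | h1
          · exact Or.inl ⟨by simp only [prs_cons, List.mem_cons]; exact Or.inr h1.1, h1.2⟩
          · exact Or.inr h1

/-- signed number of uses of the edge `(a, b)` -/
def num (l : List ℂ) (a b : ℂ) : ℤ := ((prs l).count (a, b) : ℤ) - ((prs l).count (b, a) : ℤ)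

theorem asum_ins {a b c : ℂ} (hab : a ≠ b) (z : ℂ) (l : List ℂ) :
    asum z (ins a b c l) = asum z l +
      ((prs l).count (a, b) : ℝ) * (ang z a c + ang z c b - ang z a b) +
      ((prs l).count (b, a) : ℝ) * (ang z b c + ang z c a - ang z b a) := by
  induction l with
  | nil => simp [ins]
  | cons p l ih =>
    cases l with
    | nil => simp [ins]
    | cons q l =>
      obtain ⟨m, hm⟩ := ins_head a b c q l
      unfold ins
      rw [hm] at ih ⊢
      split_ifs with h0
      · rw [asum_cons, asum_cons, ih, asum_cons, prs_cons, List.count_cons, List.count_cons]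
        rcases h0 with ⟨rfl, rfl⟩ | ⟨rfl, rfl⟩
        · have e1 : ((p, q) == (q, p)) = false := by
            simp only [beq_eq_false_iff_ne, ne_eq, Prod.mk.injEq, not_and]
            intro h; exact absurd h hab
          simp only [beq_self_eq_true, if_true, e1, Bool.false_eq_true, if_false]
          push_cast
          ring
        · have e1 : ((p, q) == (q, p)) = false := by
            simp only [beq_eq_false_iff_ne, ne_eq, Prod.mk.injEq, not_and]
            intro h; exact absurd h.symm hab
          simp only [beq_self_eq_true, if_true, e1, Bool.false_eq_true, if_false]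
          push_cast
          ring
      · rw [asum_cons, ih, asum_cons, prs_cons, List.count_cons, List.count_cons]
        push Not at h0
        have e1 : ((p, q) == (a, b)) = false := by
          simp only [beq_eq_false_iff_ne, ne_eq, Prod.mk.injEq, not_and]
          exact h0.1
        have e2 : ((p, q) == (b, a)) = false := by
          simp only [beq_eq_false_iff_ne, ne_eq, Prod.mk.injEq, not_and]
          exact h0.2
        simp only [e1, e2, Bool.false_eq_true, if_false]
        push_cast
        ring

theorem ins_loop {l : List ℂ} (hl : Loop S l) {a b c : ℂ} (h : (a, b, c) ∈ delT S) :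
    Loop S (ins a b c l) := by
  refine ⟨by rw [ins_head?, ins_getLast?]; exact hl.closed, fun p hp => ?_⟩
  rcases prs_ins hp with h1 | rfl | rfl | rfl | rfl
  · exact hl.del p h1.1
  · exact Or.inr ⟨b, rot_mem (rot_mem h)⟩
  · exact Or.inr ⟨a, rot_mem h⟩
  · exact Or.inl ⟨a, rot_mem h⟩
  · exact Or.inl ⟨b, rot_mem (rot_mem h)⟩

theorem ins_avoid {l : List ℂ} {a b c : ℂ} (h : (a, b, c) ∈ delT S) :
    Avoid (ins a b c l) (a, b) := by
  obtain ⟨o, ho⟩ := mem_delT_iff.1 h
  obtain ⟨n1, n2, n3⟩ := ho.ne
  constructor
  · intro hp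
    rcases prs_ins hp with h1 | h1 | h1 | h1 | h1
    · exact h1.2.1 rfl
    · simp only [Prod.mk.injEq] at h1; exact n2 h1.2
    · simp only [Prod.mk.injEq] at h1; exact n3 h1.1
    · simp only [Prod.mk.injEq] at h1; exact n1 h1.1
    · simp only [Prod.mk.injEq] at h1; exact n3 h1.1
  · intro hp
    rw [Prod.swap_prod_mk] at hp
    rcases prs_ins hp with h1 | h1 | h1 | h1 | h1
    · exact h1.2.2 rfl
    · simp only [Prod.mk.injEq] at h1; exact n1 h1.1.symm
    · simp only [Prod.mk.injEq] at h1; exact n2 h1.1
    · simp only [Prod.mk.injEq] at h1; exact n3 h1.2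
    · simp only [Prod.mk.injEq] at h1; exact n2 h1.1

theorem asum_ins_in {l : List ℂ} (hS : GP (S : Set ℂ)) {a b c x : ℂ} (h : (a, b, c) ∈ delT S)
    (hx : InO x a b c) : asum x (ins a b c l) = asum x l - 2 * Real.pi * (num l a b : ℝ) := by
  obtain ⟨o, ho⟩ := mem_delT_iff.1 h
  rw [asum_ins ho.ne.1]
  have h1 := tri_in hx
  have o1 := edge_open hS h hx (a' := a) (b' := b) (Or.inl ⟨c, h⟩)
  have o2 := edge_open hS h hx (a' := b) (b' := c) (Or.inl ⟨a, rot_mem h⟩)
  have o3 := edge_open hS h hx (a' := c) (b' := a) (Or.inl ⟨b, rot_mem (rot_mem h)⟩)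
  rw [ang_comm o1, ang_comm o2, ang_comm o3]
  have e1 : ang x a b = 2 * Real.pi - ang x b c - ang x c a := by linarith
  rw [e1]
  unfold num
  push_cast
  ring

theorem asum_ins_out {l : List ℂ} {a b c y : ℂ} (h : (a, b, c) ∈ delT S)
    (hy : Lft y b a) (o1 : y ∉ segment ℝ a b) (o2 : y ∉ segment ℝ b c) (o3 : y ∉ segment ℝ c a) :
    asum y (ins a b c l) = asum y l := by
  obtain ⟨o, ho⟩ := mem_delT_iff.1 h
  rw [asum_ins ho.ne.1]
  have h1 := tri_out (c := c) ho.pos hy
  rw [ang_comm o1, ang_comm o2, ang_comm o3]
  have e1 : ang y a b = - ang y b c - ang y c a := by linarith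
  rw [e1]
  ring

/-- **jump formula** -/
theorem jump (hS : GP (S : Set ℂ)) {l : List ℂ} (hl : Loop S l) {a b c e x y : ℂ}
    (h : (a, b, c) ∈ delT S) (h' : (b, a, e) ∈ delT S) (hx : InO x a b c) (hy : InO y b a e) :
    asum x l - asum y l = 2 * Real.pi * (num l a b : ℝ) := by
  have hl' := ins_loop hl h
  have hav := ins_avoid (l := l) h
  have h1 := asum_open_mid hS hl' h hx hav
  have h2 := asum_open_mid hS hl' h' hy hav.swap
  rw [mid_swap b a, ← h1] at h2
  rw [asum_ins_in hS h hx, asum_ins_out h hy.1
    (edge_open hS h' hy (Or.inl ⟨c, h⟩)) (edge_open hS h' hy (Or.inl ⟨a, rot_mem h⟩))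
    (edge_open hS h' hy (Or.inl ⟨b, rot_mem (rot_mem h)⟩))] at h2
  linarith

/-- jump at a hull edge -/
theorem jump_hull (hS : GP (S : Set ℂ)) {l : List ℂ} (hl : Loop S l) (hlS : ∀ s ∈ l, s ∈ S)
    {a b c x : ℂ} (h : (a, b, c) ∈ delT S) (hh : hullE S a b) (hx : InO x a b c) :
    asum x l = 2 * Real.pi * (num l a b : ℝ) := by
  have hl' := ins_loop hl h
  have hav := ins_avoid (l := l) h
  have h1 := asum_open_mid hS hl' h hx hav
  have hcS : c ∈ S := (mem_delT_iff.1 h).choose_spec.mc
  have hS' : ∀ m : List ℂ, (∀ s ∈ m, s ∈ S) → ∀ s ∈ ins a b c m, s ∈ S := by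
    intro m
    induction m with
    | nil => simp [ins]
    | cons p m ih =>
      cases m with
      | nil => intro hm s hs; simp only [ins] at hs; exact hm s hs
      | cons q m =>
        intro hm s hs
        have ih' := ih (fun s hs => hm s (List.mem_cons_of_mem _ hs))
        unfold ins at hs
        split_ifs at hs
        · rcases List.mem_cons.1 hs with rfl | hs
          · exact hm _ (by simp)
          rcases List.mem_cons.1 hs with rfl | hs
          · exact hcS
          exact ih' s hs
        · rcases List.mem_cons.1 hs with rfl | hs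
          · exact hm _ (by simp)
          exact ih' s hs
  rw [asum_hull hS hl' (hS' l hlS) hh hav, asum_ins_in hS h hx] at h1
  linarith

end Crest.Agent.R143.ToolW2x838
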