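import Crest.Agent.R143.Tpl2_978

/-!
# R143 (helper978): FORCE, the lower bound `pos` only almost surely (73's trap (4)(i))

* `fo ε c D E S := if c ≤ Rs ε D E S then E S else 1` : `fo_local`, `fo_fm`, `fo_le`, `fo_pos`
  (`c ≤ Rs ε D (fo ..) S` for ALL finite `S`)
* `Raw ε Ty` : a template without the lower bound; `Raw.tpl : Tpl ε Ty` with the forced events
* `ae_tr` : almost sure statements on a bounded region move with the frames
* `Raw.AePos` : the lower bound holds almost surely on good gates; `Raw.ae_net` : for every tile of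
  every path a.s. good gates give `c ≤ π`; `Raw.ae_e` : a.s. on good gates the forced event of the tile
  is the event; `Raw.ae_gw` : a.s. `gw` is the unforced product

-/

set_option autoImplicit false

noncomputable section

namespace Crest.Agent.R143.Tplx978

open MeasureTheory Set ProbabilityTheory
open Crest.ProbabilityR.Voronoi
open Crest.Agent.R143.PP0x831 Crest.Agent.R143.Poisx304 Crest.Agent.R143.Janx304
open Crest.Agent.R143.IndLocx279 Crest.Agent.R143.PWx978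
open scoped ENNReal

variable {ε : ℝ} {c : ℝ≥0∞} {B D : Set ℂ} {E : Cf → ℝ≥0∞}

open Classical in
/-- the forced event -/
def fo (ε : ℝ) (c : ℝ≥0∞) (D : Set ℂ) (E : Cf → ℝ≥0∞) (S : Cf) : ℝ≥0∞ :=
  if c ≤ Rs ε D E S then E S else 1

lemma fo_eq {S : Cf} (h : c ≤ Rs ε D E S) : fo ε c D E S = E S := if_pos h

lemma fo_eq' {S : Cf} (h : ¬ c ≤ Rs ε D E S) : fo ε c D E S = 1 := if_neg h

lemma fo_local (hε : 0 < ε) (hD : MeasurableSet D) (hDb : Bornology.IsBounded D)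
    (hE : LocalOn B E) : LocalOn B (fo ε c D E) := by
  intro S
  have h1 : Rs ε D E S = Rs ε D E (S ∩ ovr B) :=
    LocalOn.mono sdiff_subset (Rs_local hε hD hDb hE) S
  have h2 : E S = E (S ∩ ovr B) := hE S
  change fo ε c D E S = fo ε c D E (S ∩ ovr B)
  unfold fo
  rw [← h1, ← h2]

lemma fo_fm (hε : 0 < ε) (hD : MeasurableSet D) (hDb : Bornology.IsBounded D)
    (hE : FinMeas E) : FinMeas (fo ε c D E) := by
  classical
  intro n
  refine Measurable.ite ?_ (hE n) measurable_const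
  exact measurableSet_le measurable_const (Rs_meas hε hD hDb hE n)

lemma fo_le (hE : ∀ S, E S ≤ 1) (S : Cf) : fo ε c D E S ≤ 1 := by
  unfold fo
  split_ifs
  · exact hE S
  · exact le_refl 1

lemma Rs_off (hε : 0 < ε) (hD : MeasurableSet D) (hDb : Bornology.IsBounded D) (S T : Cf)
    (hT : T ⊆ ovr D) : Rs ε D E (S ∩ ovr Dᶜ ∪ T) = Rs ε D E S := by
  unfold Rs
  congr 1
  funext X
  congr 2
  ext p
  have := fun h : p ∈ T => hT h
  simp only [ovr, mem_inter_iff, mem_union, mem_ofPred_eq, mem_compl_iff] at this ⊢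
  tauto

/-- the mean of the forced event: `π` or `1` -/
lemma fo_Rs (hε : 0 < ε) (hD : MeasurableSet D) (hDb : Bornology.IsBounded D) (hE : FinMeas E)
    {S : Cf} (hS : S.Finite) :
    (c ≤ Rs ε D E S → Rs ε D (fo ε c D E) S = Rs ε D E S) ∧
      (¬ c ≤ Rs ε D E S → Rs ε D (fo ε c D E) S = 1) := by
  have := finite_mu' hε hDb
  constructor
  · intro h
    unfold Rs
    refine J_congr_ovr hε hD hDb fun X hX => ?_
    refine fo_eq ?_
    rw [Rs_off hε hD hDb S X hX]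
    exact h
  · intro h
    have h1 : Rs ε D (fo ε c D E) S = J (mu ε D) fun _ => (1 : ℝ≥0∞) := by
      unfold Rs
      refine J_congr_ovr hε hD hDb fun X hX => ?_
      refine fo_eq' ?_
      rw [Rs_off hε hD hDb S X hX]
      exact h
    rw [h1, J_const]

lemma fo_pos (hε : 0 < ε) (hD : MeasurableSet D) (hDb : Bornology.IsBounded D) (hE : FinMeas E)
    (hc : c ≤ 1) {S : Cf} (hS : S.Finite) : c ≤ Rs ε D (fo ε c D E) S := by
  by_cases h : c ≤ Rs ε D E S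
  · rw [(fo_Rs hε hD hDb hE hS).1 h]; exact h
  · rw [(fo_Rs hε hD hDb hE hS).2 h]; exact hc

/-- a template without the lower bound -/
structure Raw (ε : ℝ) (Ty : Type*) where
  Q : Set ℂ
  A : Cf → ℝ≥0∞
  D : Ty → Set ℂ
  E : Ty → Cf → ℝ≥0∞
  nx : Ty → Fr
  c : ℝ≥0∞
  eps : 0 < ε
  c0 : c ≠ 0
  c1 : c ≤ 1
  Qm : MeasurableSet Q
  Qb : Bornology.IsBounded Q
  Dm : ∀ t, MeasurableSet (D t)
  Db : ∀ t, Bornology.IsBounded (D t)
  Al : LocalOn Q A
  Am : FinMeas A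
  A1 : ∀ S, A S ≤ 1
  El : ∀ t, LocalOn ((Q ∪ (nx t).e.symm ⁻¹' Q) ∪ D t) (E t)
  Em : ∀ t, FinMeas (E t)
  E1 : ∀ t S, E t S ≤ 1

namespace Raw

variable {Ty : Type*} (R : Raw ε Ty)

/-- the template with the forced events -/
def tpl : Tpl ε Ty where
  Q := R.Q
  A := R.A
  D := R.D
  E t := fo ε R.c (R.D t) (R.E t)
  nx := R.nx
  c := R.c
  eps := R.eps
  c0 := R.c0
  c1 := ne_top_of_le_ne_top ENNReal.one_ne_top R.c1
  Qm := R.Qm
  Qb := R.Qb
  Dm := R.Dm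
  Db := R.Db
  Al := R.Al
  Am := R.Am
  A1 := R.A1
  El t := fo_local R.eps (R.Dm t) (R.Db t) (R.El t)
  Em t := fo_fm R.eps (R.Dm t) (R.Db t) (R.Em t)
  E1 t S := fo_le (R.E1 t) S
  pos t S hS _ _ := fo_pos R.eps (R.Dm t) (R.Db t) (R.Em t) R.c1 hS

/-- the lower bound holds almost surely on good gates -/
def AePos : Prop := ∀ t, ∀ᵐ ω ∂sampleLaw, R.A (cfg ε ω) ≠ 0 → tr (R.nx t).e R.A (cfg ε ω) ≠ 0 →
  R.c ≤ Rs ε (R.D t) (R.E t) (cfg ε ω)

end Raw

/-- almost sure statements on a bounded region move with the frames -/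
theorem ae_tr (hε : 0 < ε) (f : Fr) (hB : MeasurableSet B) (hb : Bornology.IsBounded B)
    {p : Cf → Prop} (hp : LocalOn B p) (hpm : FinMeas p) (h : ∀ᵐ ω ∂sampleLaw, p (cfg ε ω)) :
    ∀ᵐ ω ∂sampleLaw, tr f.e p (cfg ε ω) := by
  classical
  set F : Cf → ℝ≥0∞ := fun S => if p S then 0 else 1 with hF
  have hFl : LocalOn B F := by
    intro S
    have := hp S
    simp only [hF]
    rw [← this]
  have hFm : FinMeas F := by
    intro n
    exact Measurable.ite (measurableSet_setOfPred.2 (hpm n)) measurable_const measurable_const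
  have h1 := iso ε hε B hB hb f.e.symm (f.mp.symm f.e) (f.bdd' _ hb) F hFl hFm
  have h2 : ∫⁻ ω, F (cfg ε ω) ∂sampleLaw = 0 := by
    rw [lintegral_eq_zero_iff (meas_fun hε hB hb hFl hFm)]
    filter_upwards [h] with ω hω
    simp [hF, hω]
  have h3 : Measurable fun ω => F (mv f.e.symm (cfg ε ω)) :=
    meas_fun hε (f.e.symm.measurable hB) (f.bdd' _ hb) (local_mv f.e.symm hFl)
      (fm_mv f.e.symm hFm)
  have h4 : ∫⁻ ω, F (mv f.e.symm (cfg ε ω)) ∂sampleLaw = 0 := h1.trans h2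
  rw [lintegral_eq_zero_iff h3] at h4
  filter_upwards [h4] with ω hω
  by_contra h5
  have h6 : F (mv f.e.symm (cfg ε ω)) = 1 := by
    simp only [hF]
    exact if_neg h5
  rw [h6] at hω
  exact one_ne_zero hω

namespace Raw

variable {Ty : Type*} {R : Raw ε Ty} {ι κ : Type*}

/-- `Rs` of a finite configuration in a frame, at the sample -/
lemma Rs_tr_cfg (hε : 0 < ε) (f : Fr) {C B : Set ℂ} (hC : MeasurableSet C)
    (hCb : Bornology.IsBounded C) (hb : Bornology.IsBounded B) {F : Cf → ℝ≥0∞} (hF : FinMeas F)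
    (hl : LocalOn B F) (ω : Sample) :
    Rs ε (f.e.symm ⁻¹' C) (tr f.e F) (cfg ε ω) = tr f.e (Rs ε C F) (cfg ε ω) := by
  have hb' : Bornology.IsBounded (f.e.symm ⁻¹' B) := f.bdd' _ hb
  have hC' : MeasurableSet (f.e.symm ⁻¹' C) := f.e.symm.measurable hC
  have hCb' : Bornology.IsBounded (f.e.symm ⁻¹' C) := f.bdd' _ hCb
  have l1 : LocalOn (f.e.symm ⁻¹' B) (Rs ε (f.e.symm ⁻¹' C) (tr f.e F)) :=
    LocalOn.mono sdiff_subset (Rs_local hε hC' hCb' (tr_local f.e hl))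
  have l2 : LocalOn (f.e.symm ⁻¹' B) (tr f.e (Rs ε C F)) :=
    tr_local f.e (LocalOn.mono sdiff_subset (Rs_local hε hC hCb hl))
  rw [l1, l2 (cfg ε ω)]
  exact Rs_tr hε f hC hCb hF (cfg_finite hε hb' ω)

/-- a.s. good gates of a tile give the lower bound -/
theorem ae_net [DecidableEq ι] (h : R.AePos) (P : Pth R.tpl ι κ) (k : κ) :
    ∀ᵐ ω ∂sampleLaw, P.net.a (P.src k) (cfg ε ω) ≠ 0 → P.net.a (P.tgt k) (cfg ε ω) ≠ 0 →
      R.c ≤ tr (P.fr (P.src k)).e (Rs ε (R.D (P.ty k)) (R.E (P.ty k))) (cfg ε ω) := by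
  set t := P.ty k with ht
  set U : Set ℂ := (R.Q ∪ (R.nx t).e.symm ⁻¹' R.Q) ∪ R.D t with hU
  have hUm : MeasurableSet U := (R.Qm.union ((R.nx t).e.symm.measurable R.Qm)).union (R.Dm t)
  have hUb : Bornology.IsBounded U := (R.Qb.union ((R.nx t).bdd' _ R.Qb)).union (R.Db t)
  set p : Cf → Prop := fun S => R.A S ≠ 0 → tr (R.nx t).e R.A S ≠ 0 →
    R.c ≤ Rs ε (R.D t) (R.E t) S with hp
  have hpl : LocalOn U p := by
    intro S
    have e1 : R.A S = R.A (S ∩ ovr U) :=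
      LocalOn.mono (subset_union_left.trans subset_union_left) R.Al S
    have e2 : tr (R.nx t).e R.A S = tr (R.nx t).e R.A (S ∩ ovr U) :=
      LocalOn.mono (subset_union_right.trans subset_union_left) (tr_local _ R.Al) S
    have e3 : Rs ε (R.D t) (R.E t) S = Rs ε (R.D t) (R.E t) (S ∩ ovr U) :=
      LocalOn.mono sdiff_subset (Rs_local R.eps (R.Dm t) (R.Db t) (R.El t)) S
    change p S = p (S ∩ ovr U)
    simp only [hp]
    rw [← e1, ← e2, ← e3]
  have hpm : FinMeas p := by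
    intro n
    refine measurableSet_setOfPred.1 ?_
    have m1 : MeasurableSet {z : Fin n → ℂ × Bool | R.A (range z) ≠ 0} :=
      (R.Am n) (measurableSet_singleton 0).compl
    have m2 : MeasurableSet {z : Fin n → ℂ × Bool | tr (R.nx t).e R.A (range z) ≠ 0} :=
      (tr_fm (R.nx t).e R.Am n) (measurableSet_singleton 0).compl
    have m3 : MeasurableSet {z : Fin n → ℂ × Bool | R.c ≤ Rs ε (R.D t) (R.E t) (range z)} :=
      measurableSet_le measurable_const (Rs_meas R.eps (R.Dm t) (R.Db t) (R.Em t) n)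
    have e : {z : Fin n → ℂ × Bool | p (range z)} =
        {z | R.A (range z) ≠ 0}ᶜ ∪ ({z | tr (R.nx t).e R.A (range z) ≠ 0}ᶜ ∪
          {z | R.c ≤ Rs ε (R.D t) (R.E t) (range z)}) := by
      ext z
      simp only [hp, mem_ofPred_eq, mem_union, mem_compl_iff]
      tauto
    rw [e]
    exact m1.compl.union (m2.compl.union m3)
  have h1 := ae_tr R.eps (P.fr (P.src k)) hUm hUb hpl hpm (h t)
  filter_upwards [h1] with ω hω ha hb
  refine hω ha ?_
  have h2 : tr (P.fr (P.tgt k)).e R.A (cfg ε ω) ≠ 0 := hb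
  have h3 := P.tr_tgt k R.A (cfg ε ω)
  change tr (P.fr (P.tgt k)).e R.A (cfg ε ω) = tr (R.nx t).e R.A _ at h3
  rwa [h3] at h2

/-- a.s. on good gates the forced event of the tile is the event -/
theorem ae_e [DecidableEq ι] (h : R.AePos) (P : Pth R.tpl ι κ) (k : κ) :
    ∀ᵐ ω ∂sampleLaw, P.net.a (P.src k) (cfg ε ω) ≠ 0 → P.net.a (P.tgt k) (cfg ε ω) ≠ 0 →
      P.net.e k (cfg ε ω) = tr (P.fr (P.src k)).e (R.E (P.ty k)) (cfg ε ω) := by
  filter_upwards [ae_net h P k] with ω hω ha hb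
  exact fo_eq (hω ha hb)

/-- a.s. on good gates the mean of the forced event is the mean of the event -/
theorem ae_Rs [DecidableEq ι] (h : R.AePos) (P : Pth R.tpl ι κ) (k : κ) :
    ∀ᵐ ω ∂sampleLaw, P.net.a (P.src k) (cfg ε ω) ≠ 0 → P.net.a (P.tgt k) (cfg ε ω) ≠ 0 →
      Rs ε (P.net.C k) (P.net.e k) (cfg ε ω) =
        Rs ε (P.net.C k) (tr (P.fr (P.src k)).e (R.E (P.ty k))) (cfg ε ω) := by
  filter_upwards [ae_net h P k] with ω hω ha hb
  have h1 := hω ha hb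
  set f := P.fr (P.src k)
  set t := P.ty k
  set U : Set ℂ := (R.Q ∪ (R.nx t).e.symm ⁻¹' R.Q) ∪ R.D t with hU
  have hUb : Bornology.IsBounded U := (R.Qb.union ((R.nx t).bdd' _ R.Qb)).union (R.Db t)
  have e1 : Rs ε (P.net.C k) (P.net.e k) (cfg ε ω) =
      tr f.e (Rs ε (R.D t) (fo ε R.c (R.D t) (R.E t))) (cfg ε ω) :=
    Rs_tr_cfg R.eps f (R.Dm t) (R.Db t) hUb (fo_fm R.eps (R.Dm t) (R.Db t) (R.Em t))
      (fo_local R.eps (R.Dm t) (R.Db t) (R.El t)) ω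
  have e2 : Rs ε (P.net.C k) (tr f.e (R.E t)) (cfg ε ω) =
      tr f.e (Rs ε (R.D t) (R.E t)) (cfg ε ω) :=
    Rs_tr_cfg R.eps f (R.Dm t) (R.Db t) hUb (R.Em t) (R.El t) ω
  rw [e1, e2]
  have hb' : Bornology.IsBounded (f.e.symm ⁻¹' U) := f.bdd' _ hUb
  have l1 : LocalOn (f.e.symm ⁻¹' U) (tr f.e (Rs ε (R.D t) (fo ε R.c (R.D t) (R.E t)))) :=
    tr_local f.e (LocalOn.mono sdiff_subset (Rs_local R.eps (R.Dm t) (R.Db t)
      (fo_local R.eps (R.Dm t) (R.Db t) (R.El t))))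
  have l2 : LocalOn (f.e.symm ⁻¹' U) (tr f.e (Rs ε (R.D t) (R.E t))) :=
    tr_local f.e (LocalOn.mono sdiff_subset (Rs_local R.eps (R.Dm t) (R.Db t) (R.El t)))
  have h2 : R.c ≤ tr f.e (Rs ε (R.D t) (R.E t)) (cfg ε ω ∩ ovr (f.e.symm ⁻¹' U)) := by
    have := l2 (cfg ε ω)
    rw [this] at h1
    exact h1
  have e3 := l1 (cfg ε ω)
  have e4 := l2 (cfg ε ω)
  rw [e3, e4]
  exact (fo_Rs R.eps (R.Dm t) (R.Db t) (R.Em t)
    (mv_finite f.e.symm (cfg_finite R.eps hb' ω))).1 h2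

/-- a.s. the weight is the unforced product -/
theorem ae_gw [DecidableEq ι] (h : R.AePos) (P : Pth R.tpl ι κ) {I : Finset ι} {J : Finset κ}
    (hN : ∀ k ∈ J, P.src k ∈ I ∧ P.tgt k ∈ I) :
    ∀ᵐ ω ∂sampleLaw, P.net.gw I J (cfg ε ω) =
      (∏ i ∈ I, tr (P.fr i).e R.A (cfg ε ω)) * ∏ k ∈ J,
        tr (P.fr (P.src k)).e (R.E (P.ty k)) (cfg ε ω) *
          (R.c * (Rs ε (P.net.C k) (tr (P.fr (P.src k)).e (R.E (P.ty k))) (cfg ε ω))⁻¹) := by
  have h1 : ∀ᵐ ω ∂sampleLaw, ∀ k ∈ J, P.net.a (P.src k) (cfg ε ω) ≠ 0 →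
      P.net.a (P.tgt k) (cfg ε ω) ≠ 0 →
      P.net.e k (cfg ε ω) = tr (P.fr (P.src k)).e (R.E (P.ty k)) (cfg ε ω) :=
    (ae_ball_iff J.countable_toSet).2 fun k _ => ae_e h P k
  have h2 : ∀ᵐ ω ∂sampleLaw, ∀ k ∈ J, P.net.a (P.src k) (cfg ε ω) ≠ 0 →
      P.net.a (P.tgt k) (cfg ε ω) ≠ 0 →
      Rs ε (P.net.C k) (P.net.e k) (cfg ε ω) =
        Rs ε (P.net.C k) (tr (P.fr (P.src k)).e (R.E (P.ty k))) (cfg ε ω) :=
    (ae_ball_iff J.countable_toSet).2 fun k _ => ae_Rs h P k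
  filter_upwards [h1, h2] with ω w1 w2
  have e0 : P.net.gw I J (cfg ε ω) = (∏ i ∈ I, tr (P.fr i).e R.A (cfg ε ω)) *
      ∏ k ∈ J, P.net.fac k (cfg ε ω) := rfl
  rw [e0]
  by_cases h0 : ∏ i ∈ I, tr (P.fr i).e R.A (cfg ε ω) = 0
  · rw [h0, zero_mul, zero_mul]
  · congr 1
    refine Finset.prod_congr rfl fun k hk => ?_
    have ha : ∀ i ∈ I, P.net.a i (cfg ε ω) ≠ 0 := fun i hi h' => h0 (Finset.prod_eq_zero hi h')
    unfold Net.fac
    rw [w1 k hk (ha _ (hN k hk).1) (ha _ (hN k hk).2), w2 k hk (ha _ (hN k hk).1) (ha _ (hN k hk).2)]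
    rfl

/-- a.s. a nonzero weight makes all its events true: `E ≠ 0` for the raw events -/
theorem ae_ne [DecidableEq ι] (h : R.AePos) (P : Pth R.tpl ι κ) {I : Finset ι} {J : Finset κ}
    (hN : ∀ k ∈ J, P.src k ∈ I ∧ P.tgt k ∈ I) :
    ∀ᵐ ω ∂sampleLaw, P.net.gw I J (cfg ε ω) ≠ 0 →
      (∀ i ∈ I, tr (P.fr i).e R.A (cfg ε ω) ≠ 0) ∧
      ∀ k ∈ J, tr (P.fr (P.src k)).e (R.E (P.ty k)) (cfg ε ω) ≠ 0 := by
  filter_upwards [ae_gw h P hN] with ω hω h0
  rw [hω] at h0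
  refine ⟨fun i hi h' => h0 ?_, fun k hk h' => h0 ?_⟩
  · rw [Finset.prod_eq_zero hi h', zero_mul]
  · rw [Finset.prod_eq_zero hk (by rw [h', zero_mul]), mul_zero]

end Raw

end Crest.Agent.R143.Tplx978
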