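import Crest.Agent.R143.DicA_831

/-!
# Row 143 (S0194), energy transfer, part 1 (helper690): root block against local blocks

* `inB M B x` : the blocks of `x` inside the set of darts `B`
* `root_sq2` : second moment of the root block + energy of the blocks inside disjoint sets of darts
  which do not meet the root face is at most `∑ ‖f‖² nG`
* `root_le` : the same for a function which is nearly `c j • p` on `B j`
* `root_fin` : final form
-/

set_option autoImplicit false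
set_option linter.unusedSectionVars false
set_option linter.unusedVariables false

noncomputable section

open scoped Classical

namespace Crest.Agent.R143.Trans1x690

open Crest.Agent.R143.Frame1x395 Crest.Agent.R143.Frame2x395 Crest.Agent.R143.Frame3x395
  Crest.Agent.R143.Frame4x395 Crest.Agent.R143.Frame8x395 Crest.Agent.R143.DicAx831

variable {D C : Type} [Fintype D] {M : CMap D C} {x : D → ZMod 2}

/-- blocks inside the set `B` of darts -/
def inB (M : CMap D C) (B : Set D) (x : D → ZMod 2) : Finset (Finset D) :=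
  (blks M x).filter fun β => (β : Set D) ⊆ B

theorem mem_inB {B : Set D} {β : Finset D} : β ∈ inB M B x ↔ β ∈ blks M x ∧ (β : Set D) ⊆ B := by
  unfold inB
  rw [Finset.mem_filter]

theorem blk_ne {β : Finset D} (hβ : β ∈ blks M x) : β.Nonempty := by
  obtain ⟨g, hg, rfl⟩ := Finset.mem_image.1 hβ
  exact ⟨g, self_mem (mem_gaps.1 hg)⟩

variable {w : ℂ} {o : D} {ι : Type} {J : Finset ι} {B : ι → Set D}

/-- one configuration -/
theorem one_conf (hx : IsC M ∅ x) (f : D → ℂ)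
    (hd : ∀ i ∈ J, ∀ j ∈ J, i ≠ j → Disjoint (B i) (B j))
    (ho : ∀ i ∈ J, Disjoint (B i) (Fa M o)) :
    ∑ g ∈ rg M x o, ‖bs M x f g‖ ^ 2 + ∑ j ∈ J, ∑ β ∈ inB M (B j) x, ‖∑ g ∈ β, f g‖ ^ 2 ≤
      ∑ β ∈ blks M x, ‖∑ g ∈ β, f g‖ ^ 2 := by
  set R : Finset (Finset D) := (blks M x).filter fun β => ∃ g ∈ β, g ∈ Fa M o with hR
  have h0 : ∀ β : Finset D, (0 : ℝ) ≤ ‖∑ g ∈ β, f g‖ ^ 2 := fun _ => sq_nonneg _
  have h1 : ∑ g ∈ rg M x o, ‖bs M x f g‖ ^ 2 ≤ ∑ β ∈ R, ‖∑ g ∈ β, f g‖ ^ 2 := by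
    rcases Nat.le_one_iff_eq_zero_or_eq_one.1 (rg_card hx o) with h | h
    · rw [Finset.card_eq_zero.1 h, Finset.sum_empty]
      exact Finset.sum_nonneg fun β _ => h0 β
    · obtain ⟨a, h⟩ := Finset.card_eq_one.1 h
      rw [h, Finset.sum_singleton]
      have ha : a ∈ rg M x o := by rw [h]; exact Finset.mem_singleton_self a
      obtain ⟨ha1, ha2⟩ := mem_rg.1 ha
      have h2 : blk M x a ∈ R := by
        rw [hR, Finset.mem_filter]
        exact ⟨Finset.mem_image_of_mem _ (mem_gaps.2 ha1), a, self_mem ha1, ha2⟩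
      exact Finset.single_le_sum (f := fun β => ‖∑ g ∈ β, f g‖ ^ 2) (fun β _ => h0 β) h2
  have h2 : ∑ j ∈ J, ∑ β ∈ inB M (B j) x, ‖∑ g ∈ β, f g‖ ^ 2 =
      ∑ β ∈ J.biUnion fun j => inB M (B j) x, ‖∑ g ∈ β, f g‖ ^ 2 := by
    rw [Finset.sum_biUnion]
    intro i hi j hj hij
    rw [Function.onFun, Finset.disjoint_left]
    intro β hβ hβ'
    obtain ⟨g, hg⟩ := blk_ne (mem_inB.1 hβ).1
    exact Set.disjoint_left.1 (hd i hi j hj hij) ((mem_inB.1 hβ).2 hg) ((mem_inB.1 hβ').2 hg)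
  have h3 : Disjoint R (J.biUnion fun j => inB M (B j) x) := by
    rw [Finset.disjoint_left]
    intro β hβ hβ'
    obtain ⟨j, hj, hβ'⟩ := Finset.mem_biUnion.1 hβ'
    obtain ⟨-, g, hg, hgo⟩ := Finset.mem_filter.1 hβ
    exact Set.disjoint_left.1 (ho j hj) ((mem_inB.1 hβ').2 hg) hgo
  rw [h2]
  calc ∑ g ∈ rg M x o, ‖bs M x f g‖ ^ 2 +
        ∑ β ∈ J.biUnion fun j => inB M (B j) x, ‖∑ g ∈ β, f g‖ ^ 2
      ≤ ∑ β ∈ R, ‖∑ g ∈ β, f g‖ ^ 2 +
        ∑ β ∈ J.biUnion fun j => inB M (B j) x, ‖∑ g ∈ β, f g‖ ^ 2 := by gcongr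
    _ = ∑ β ∈ R ∪ J.biUnion fun j => inB M (B j) x, ‖∑ g ∈ β, f g‖ ^ 2 :=
        (Finset.sum_union h3).symm
    _ ≤ _ := by
        refine Finset.sum_le_sum_of_subset_of_nonneg ?_ fun β _ _ => h0 β
        intro β hβ
        rcases Finset.mem_union.1 hβ with hβ | hβ
        · exact (Finset.mem_filter.1 hβ).1
        · obtain ⟨j, -, hβ⟩ := Finset.mem_biUnion.1 hβ
          exact (mem_inB.1 hβ).1

/-- **root block and local blocks** -/
theorem root_sq2 (w3 : w ^ 3 = 1) (w1 : w ≠ 1) (wc : (starRingEnd ℂ) w = w ^ 2)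
    {f : D → ℂ} (sf : Spin M w f) (hd : ∀ i ∈ J, ∀ j ∈ J, i ≠ j → Disjoint (B i) (B j))
    (ho : ∀ i ∈ J, Disjoint (B i) (Fa M o)) :
    ∑ x ∈ ev M, ∑ g ∈ rg M x o, ‖bs M x f g‖ ^ 2 +
      ∑ j ∈ J, ∑ x ∈ ev M, ∑ β ∈ inB M (B j) x, ‖∑ g ∈ β, f g‖ ^ 2 ≤
      ∑ g, ‖f g‖ ^ 2 * (nG M g : ℝ) := by
  rw [← i1_norm w3 w1 wc sf, Finset.sum_comm, ← Finset.sum_add_distrib]
  exact Finset.sum_le_sum fun x hx => one_conf (mem_ev.1 hx) f hd ho

/-- energy of the blocks inside `B` -/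
def En (M : CMap D C) (B : Set D) (p : D → ℂ) : ℝ :=
  ∑ x ∈ ev M, ∑ β ∈ inB M B x, ‖∑ g ∈ β, p g‖ ^ 2

theorem En_nonneg (B : Set D) (p : D → ℂ) : 0 ≤ En M B p :=
  Finset.sum_nonneg fun _ _ => Finset.sum_nonneg fun _ _ => sq_nonneg _

/-- total weight of the set `B` -/
def Tot (B : Set D) (p : D → ℂ) : ℝ := ∑ g, if g ∈ B then ‖p g‖ ^ 2 else 0

theorem Tot_nonneg (B : Set D) (p : D → ℂ) : 0 ≤ Tot B p :=
  Finset.sum_nonneg fun _ _ => by split_ifs <;> positivity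

/-- the local step function -/
def stf (J : Finset ι) (B : ι → Set D) (c : ι → ℂ) (p : D → ℂ) (g : D) : ℂ :=
  ∑ j ∈ J, if g ∈ B j then c j * p g else 0

theorem stf_in (hd : ∀ i ∈ J, ∀ j ∈ J, i ≠ j → Disjoint (B i) (B j)) (c : ι → ℂ) (p : D → ℂ)
    {j : ι} (hj : j ∈ J) {g : D} (hg : g ∈ B j) : stf J B c p g = c j * p g := by
  unfold stf
  rw [Finset.sum_eq_single_of_mem j hj, if_pos hg]
  intro i hi hij
  rw [if_neg]
  exact fun h => Set.disjoint_left.1 (hd i hi j hj hij) h hg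

theorem stf_out (c : ι → ℂ) (p : D → ℂ) {g : D} (hg : ∀ j ∈ J, g ∉ B j) :
    stf J B c p g = 0 := by
  unfold stf
  exact Finset.sum_eq_zero fun j hj => if_neg (hg j hj)

theorem stf_spin {p : D → ℂ} (sp : Spin M w p) (c : ι → ℂ)
    (hB : ∀ j ∈ J, ∀ g, M.rho g ∈ B j ↔ g ∈ B j) : Spin M w (stf J B c p) := by
  intro g
  unfold stf
  rw [Finset.mul_sum]
  refine Finset.sum_congr rfl fun j hj => ?_
  rw [if_congr (hB j hj g) rfl rfl, sp g]
  split_ifs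
  · ring
  · rw [mul_zero]

theorem spin_sub {f p : D → ℂ} (sf : Spin M w f) (sp : Spin M w p) :
    Spin M w fun g => f g - p g := by
  intro g
  show f (M.rho g) - p (M.rho g) = w * (f g - p g)
  rw [sf, sp]
  ring

theorem sq_add (a b : ℂ) : ‖a + b‖ ^ 2 ≤ 2 * ‖a‖ ^ 2 + 2 * ‖b‖ ^ 2 := by
  have h := norm_add_le a b
  have h2 : ‖a + b‖ ^ 2 ≤ (‖a‖ + ‖b‖) ^ 2 := pow_le_pow_left₀ (norm_nonneg _) h 2
  nlinarith [sq_nonneg (‖a‖ - ‖b‖)]

/-- frame for one set of darts -/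
theorem En_le (w3 : w ^ 3 = 1) (w1 : w ≠ 1) (wc : (starRingEnd ℂ) w = w ^ 2)
    {p : D → ℂ} (sp : Spin M w p) {B : Set D} (hB : ∀ g, M.rho g ∈ B ↔ g ∈ B)
    (hG : ∀ g ∈ B, 4 * nG M g = nE M) : 4 * En M B p ≤ nE M * Tot B p := by
  set f : D → ℂ := fun g => if g ∈ B then p g else 0 with hf
  have sf : Spin M w f := by
    intro g
    simp only [hf]
    rw [if_congr (hB g) rfl rfl, sp g]
    split_ifs
    · rfl
    · rw [mul_zero]
  have h1 := i1_norm w3 w1 wc sf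
  have h2 : En M B p ≤ ∑ x ∈ ev M, ∑ β ∈ blks M x, ‖∑ g ∈ β, f g‖ ^ 2 := by
    unfold En
    refine Finset.sum_le_sum fun x _ => ?_
    have h3 : ∑ β ∈ inB M B x, ‖∑ g ∈ β, p g‖ ^ 2 = ∑ β ∈ inB M B x, ‖∑ g ∈ β, f g‖ ^ 2 := by
      refine Finset.sum_congr rfl fun β hβ => ?_
      congr 2
      refine Finset.sum_congr rfl fun g hg => ?_
      simp only [hf]
      rw [if_pos ((mem_inB.1 hβ).2 hg)]
    rw [h3]
    exact Finset.sum_le_sum_of_subset_of_nonneg (Finset.filter_subset _ _) fun _ _ _ => sq_nonneg _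
  rw [h1] at h2
  have h4 : 4 * ∑ g, ‖f g‖ ^ 2 * (nG M g : ℝ) = nE M * Tot B p := by
    unfold Tot
    rw [Finset.mul_sum, Finset.mul_sum]
    refine Finset.sum_congr rfl fun g _ => ?_
    simp only [hf]
    by_cases hg : g ∈ B
    · rw [if_pos hg, if_pos hg]
      have h5 : (4 : ℝ) * (nG M g : ℝ) = nE M := by exact_mod_cast hG g hg
      rw [← h5]; ring
    · rw [if_neg hg, if_neg hg]
      simp
  linarith

/-- **root block of a function which is nearly `c j • p` on `B j`** -/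
theorem root_fin (w3 : w ^ 3 = 1) (w1 : w ≠ 1) (wc : (starRingEnd ℂ) w = w ^ 2)
    {f p : D → ℂ} (sf : Spin M w f) (sp : Spin M w p)
    (hd : ∀ i ∈ J, ∀ j ∈ J, i ≠ j → Disjoint (B i) (B j))
    (ho : ∀ i ∈ J, Disjoint (B i) (Fa M o))
    (hB : ∀ j ∈ J, ∀ g, M.rho g ∈ B j ↔ g ∈ B j)
    (hG : ∀ j ∈ J, ∀ g ∈ B j, 4 * nG M g = nE M) {BQ : Set D} (hBQ : ∀ j ∈ J, B j ⊆ BQ)
    (hf0 : ∀ g, g ∉ BQ → f g = 0) {b τ : ℝ} (hb : 0 ≤ b) (hτ : 0 ≤ τ)
    (hfb : ∀ g, ‖f g‖ ≤ b * ‖p g‖) {c : ι → ℂ} (hc : ∀ j ∈ J, ‖c j‖ ≤ b)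
    (hfc : ∀ j ∈ J, ∀ g ∈ B j, ‖f g - c j * p g‖ ≤ τ * ‖p g‖) :
    ∑ x ∈ ev M, ∑ g ∈ rg M x o, ‖bs M x f g‖ ^ 2 + 8 * b ^ 2 * ∑ j ∈ J, En M (B j) p ≤
      2 * (b ^ 2 + τ ^ 2) * (nE M * Tot BQ p) := by
  set fc := stf J B c p with hfcd
  have sc : Spin M w fc := stf_spin sp c hB
  -- splitting
  have h1 : ∑ x ∈ ev M, ∑ g ∈ rg M x o, ‖bs M x f g‖ ^ 2 ≤
      2 * ∑ x ∈ ev M, ∑ g ∈ rg M x o, ‖bs M x fc g‖ ^ 2 +
      2 * ∑ x ∈ ev M, ∑ g ∈ rg M x o, ‖bs M x (fun g => f g - fc g) g‖ ^ 2 := by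
    rw [Finset.mul_sum, Finset.mul_sum, ← Finset.sum_add_distrib]
    refine Finset.sum_le_sum fun x _ => ?_
    rw [Finset.mul_sum, Finset.mul_sum, ← Finset.sum_add_distrib]
    refine Finset.sum_le_sum fun g _ => ?_
    have e : bs M x f g = bs M x fc g + bs M x (fun g => f g - fc g) g := by
      unfold bs
      rw [← Finset.sum_add_distrib]
      exact Finset.sum_congr rfl fun k _ => by ring
    rw [e]
    exact sq_add _ _
  have h2 := root_sq2 (o := o) w3 w1 wc sc hd ho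
  have h3 := root_sq (o := o) w3 w1 wc (spin_sub sf sc)
  -- energy of the step function on the blocks
  have h4 : ∑ j ∈ J, ∑ x ∈ ev M, ∑ β ∈ inB M (B j) x, ‖∑ g ∈ β, fc g‖ ^ 2 =
      ∑ j ∈ J, ‖c j‖ ^ 2 * En M (B j) p := by
    refine Finset.sum_congr rfl fun j hj => ?_
    unfold En
    rw [Finset.mul_sum]
    refine Finset.sum_congr rfl fun x _ => ?_
    rw [Finset.mul_sum]
    refine Finset.sum_congr rfl fun β hβ => ?_
    have e : ∑ g ∈ β, fc g = c j * ∑ g ∈ β, p g := by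
      rw [Finset.mul_sum]
      refine Finset.sum_congr rfl fun g hg => ?_
      exact stf_in hd c p hj ((mem_inB.1 hβ).2 hg)
    rw [e, norm_mul, mul_pow]
  -- sums over the darts
  have split : ∀ F : D → ℝ, ∑ g, F g = ∑ j ∈ J, (∑ g, if g ∈ B j then F g else 0) +
      ∑ g, if ∀ j ∈ J, g ∉ B j then F g else 0 := by
    intro F
    rw [Finset.sum_comm, ← Finset.sum_add_distrib]
    refine Finset.sum_congr rfl fun g _ => ?_
    by_cases hg : ∀ j ∈ J, g ∉ B j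
    · rw [if_pos hg, Finset.sum_eq_zero fun j hj => if_neg (hg j hj), zero_add]
    · rw [if_neg hg, add_zero]
      push Not at hg
      obtain ⟨j, hj, hgj⟩ := hg
      rw [Finset.sum_eq_single_of_mem j hj, if_pos hgj]
      intro i hi hij
      rw [if_neg]
      exact fun h => Set.disjoint_left.1 (hd i hi j hj hij) h hgj
  have h5 : ∑ g, ‖fc g‖ ^ 2 * (nG M g : ℝ) = ∑ j ∈ J, ‖c j‖ ^ 2 * (nE M / 4 * Tot (B j) p) := by
    rw [split fun g => ‖fc g‖ ^ 2 * (nG M g : ℝ)]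
    have e1 : (∑ g, if ∀ j ∈ J, g ∉ B j then ‖fc g‖ ^ 2 * (nG M g : ℝ) else 0) = 0 := by
      refine Finset.sum_eq_zero fun g _ => ?_
      split_ifs with hg
      · rw [hfcd, stf_out c p hg]; simp
      · rfl
    rw [e1, add_zero]
    refine Finset.sum_congr rfl fun j hj => ?_
    unfold Tot
    rw [Finset.mul_sum, Finset.mul_sum]
    refine Finset.sum_congr rfl fun g _ => ?_
    by_cases hg : g ∈ B j
    · rw [if_pos hg, if_pos hg, hfcd, stf_in hd c p hj hg, norm_mul, mul_pow]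
      have h5 : (4 : ℝ) * (nG M g : ℝ) = nE M := by exact_mod_cast hG j hj g hg
      rw [← h5]; ring
    · rw [if_neg hg, if_neg hg]
      simp
  have hn : (0 : ℝ) ≤ nE M := Nat.cast_nonneg _
  have h6 : ∑ g, ‖f g - fc g‖ ^ 2 * (nG M g : ℝ) ≤
      nE M * (τ ^ 2 * ∑ j ∈ J, Tot (B j) p + b ^ 2 * (Tot BQ p - ∑ j ∈ J, Tot (B j) p)) := by
    have e0 : ∑ g, ‖f g - fc g‖ ^ 2 * (nG M g : ℝ) ≤ ∑ g, nE M * ‖f g - fc g‖ ^ 2 := by
      refine Finset.sum_le_sum fun g _ => ?_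
      rw [mul_comm]
      have : (nG M g : ℝ) ≤ nE M := by exact_mod_cast nG_le_nE g
      gcongr
    rw [← Finset.mul_sum] at e0
    refine e0.trans (mul_le_mul_of_nonneg_left ?_ hn)
    rw [split fun g => ‖f g - fc g‖ ^ 2]
    have e1 : ∑ j ∈ J, (∑ g, if g ∈ B j then ‖f g - fc g‖ ^ 2 else 0) ≤
        τ ^ 2 * ∑ j ∈ J, Tot (B j) p := by
      rw [Finset.mul_sum]
      refine Finset.sum_le_sum fun j hj => ?_
      unfold Tot
      rw [Finset.mul_sum]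
      refine Finset.sum_le_sum fun g _ => ?_
      by_cases hg : g ∈ B j
      · rw [if_pos hg, if_pos hg, hfcd, stf_in hd c p hj hg]
        calc ‖f g - c j * p g‖ ^ 2 ≤ (τ * ‖p g‖) ^ 2 :=
              pow_le_pow_left₀ (norm_nonneg _) (hfc j hj g hg) 2
          _ = _ := by ring
      · rw [if_neg hg, if_neg hg, mul_zero]
    have e2 : (∑ g, if ∀ j ∈ J, g ∉ B j then ‖f g - fc g‖ ^ 2 else 0) ≤
        b ^ 2 * (Tot BQ p - ∑ j ∈ J, Tot (B j) p) := by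
      have e3 := split fun g => if g ∈ BQ then ‖p g‖ ^ 2 else 0
      have e4 : ∀ j ∈ J, (∑ g, if g ∈ B j then (if g ∈ BQ then ‖p g‖ ^ 2 else 0) else 0) =
          Tot (B j) p := by
        intro j hj
        unfold Tot
        refine Finset.sum_congr rfl fun g _ => ?_
        by_cases hg : g ∈ B j
        · rw [if_pos hg, if_pos hg, if_pos (hBQ j hj hg)]
        · rw [if_neg hg, if_neg hg]
      rw [Finset.sum_congr rfl e4] at e3
      have e5 : Tot BQ p - ∑ j ∈ J, Tot (B j) p =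
          ∑ g, if ∀ j ∈ J, g ∉ B j then (if g ∈ BQ then ‖p g‖ ^ 2 else 0) else 0 := by
        unfold Tot at e3 ⊢
        linarith
      rw [e5, Finset.mul_sum]
      refine Finset.sum_le_sum fun g _ => ?_
      by_cases hg : ∀ j ∈ J, g ∉ B j
      · rw [if_pos hg, if_pos hg, hfcd, stf_out c p hg, sub_zero]
        by_cases hQ : g ∈ BQ
        · rw [if_pos hQ]
          calc ‖f g‖ ^ 2 ≤ (b * ‖p g‖) ^ 2 := pow_le_pow_left₀ (norm_nonneg _) (hfb g) 2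
            _ = _ := by ring
        · rw [if_neg hQ, hf0 g hQ]
          simp
      · rw [if_neg hg, if_neg hg, mul_zero]
    linarith
  -- conclusion
  rw [h4, h5] at h2
  have h7 : ∀ j ∈ J, ‖c j‖ ^ 2 * (nE M / 4 * Tot (B j) p) - ‖c j‖ ^ 2 * En M (B j) p ≤
      b ^ 2 * (nE M * Tot (B j) p - 4 * En M (B j) p) := by
    intro j hj
    have k1 := En_le w3 w1 wc sp (hB j hj) (hG j hj)
    have k2 : ‖c j‖ ^ 2 ≤ b ^ 2 := pow_le_pow_left₀ (norm_nonneg _) (hc j hj) 2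
    have k3 : 0 ≤ nE M / 4 * Tot (B j) p - En M (B j) p := by linarith
    calc ‖c j‖ ^ 2 * (nE M / 4 * Tot (B j) p) - ‖c j‖ ^ 2 * En M (B j) p
        = ‖c j‖ ^ 2 * (nE M / 4 * Tot (B j) p - En M (B j) p) := by ring
      _ ≤ b ^ 2 * (nE M / 4 * Tot (B j) p - En M (B j) p) := by gcongr
      _ ≤ b ^ 2 * (4 * (nE M / 4 * Tot (B j) p - En M (B j) p)) := by
          gcongr
          linarith
      _ = _ := by ring
  have h8 := Finset.sum_le_sum h7
  rw [Finset.sum_sub_distrib] at h8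
  have h9 : ∑ j ∈ J, b ^ 2 * (nE M * Tot (B j) p - 4 * En M (B j) p) =
      b ^ 2 * (nE M * ∑ j ∈ J, Tot (B j) p) - 4 * b ^ 2 * ∑ j ∈ J, En M (B j) p := by
    rw [← Finset.mul_sum, Finset.sum_sub_distrib, ← Finset.mul_sum, ← Finset.mul_sum]
    ring
  rw [h9] at h8
  have hTJ : ∑ j ∈ J, Tot (B j) p ≤ Tot BQ p := by
    have e3 := split fun g => if g ∈ BQ then ‖p g‖ ^ 2 else 0
    have e4 : ∀ j ∈ J, (∑ g, if g ∈ B j then (if g ∈ BQ then ‖p g‖ ^ 2 else 0) else 0) =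
        Tot (B j) p := by
      intro j hj
      unfold Tot
      refine Finset.sum_congr rfl fun g _ => ?_
      by_cases hg : g ∈ B j
      · rw [if_pos hg, if_pos hg, if_pos (hBQ j hj hg)]
      · rw [if_neg hg, if_neg hg]
    rw [Finset.sum_congr rfl e4] at e3
    have e6 : (0 : ℝ) ≤ ∑ g, if ∀ j ∈ J, g ∉ B j then (if g ∈ BQ then ‖p g‖ ^ 2 else 0) else 0 :=
      Finset.sum_nonneg fun _ _ => by split_ifs <;> positivity
    unfold Tot at e3 ⊢
    linarith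
  have hT0 : 0 ≤ ∑ j ∈ J, Tot (B j) p := Finset.sum_nonneg fun j _ => Tot_nonneg _ _
  have h10 : nE M * (τ ^ 2 * ∑ j ∈ J, Tot (B j) p) ≤ nE M * (τ ^ 2 * Tot BQ p) := by gcongr
  nlinarith [h1, h2, h3, h6, h8, h10]

end Crest.Agent.R143.Trans1x690
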