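import Crest.Agent.R143.Trans3_690
import Crest.Agent.R143.FinM_609

/-!
# Row 143 (S0194), energy transfer, part 4 (helper690)

* `four_ph_le` : `4 Ph U X ≤ Wf (ps X) U` (302's `ph_le` with the exact probability `1 / 4` of a gap)
* `wf_meas` : `Wf (points ε ω) (sq z s)` is a measurable function of `ω` (almost everywhere)
* `markov` : the abstract Markov inequality with one measurable side
-/

set_option autoImplicit false
set_option linter.unusedSectionVars false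
set_option linter.unusedVariables false

noncomputable section

open scoped Classical

namespace Crest.Agent.R143.Trans4x690

open MeasureTheory Filter Topology
open Crest.ProbabilityR.Voronoi
open Crest.Agent.R143.B0x346 Crest.Agent.R143.SumScx302 Crest.Agent.R143.Mass1x302
  Crest.Agent.R143.DelGx806 Crest.Agent.R143.DelRx806 Crest.Agent.R143.Mass2x302
  Crest.Agent.R143.Mass3x302 Crest.Agent.R143.Mass4x302 Crest.Agent.R143.JColx54
open Crest.Agent.R143.Frame1x395 Crest.Agent.R143.Frame2x395 Crest.Agent.R143.Frame3x395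
  Crest.Agent.R143.Frame4x395 Crest.Agent.R143.Frame10x395
open Crest.Agent.R143.Frame8x395 (ev mem_ev blks blk mem_blks Spin i1_norm nG_eq)
open Crest.Agent.R143.Frame5x395 (sd mem_sd th th_spec)
open Crest.Agent.R143.Trans2x690 (Wf)
open Crest.Agent.R143.PP0x831
open scoped ENNReal

variable {P U : Set ℂ}

/-- **the frame for the local objects** -/
theorem four_ph_le (hP : GP P) (hfin : (P ∩ U).Finite) (hbd : Bornology.IsBounded U)
    {X : Set (ℂ × Bool)} (hX : ps X = P) : 4 * fam.Ph U X ≤ Wf P U := by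
  obtain ⟨r, hr⟩ := hbd.subset_closedBall 0
  set S0 := hfin.toFinset with hS0
  have m0 : ∀ z, z ∈ S0 ↔ z ∈ P ∧ z ∈ U := fun z => by rw [hS0, Set.Finite.mem_toFinset]; rfl
  have g0 : GP (S0 : Set ℂ) := Mass2x302.gp_mono (fun z hz => ((m0 z).1 hz).1) hP
  obtain ⟨F, hF3, hFr, hS, hin0⟩ := Farx832.far S0 g0 (max r 1) (by positivity)
  set S := S0 ∪ F with hSdef
  have hPS : ∀ z ∈ U, z ∈ P ↔ z ∈ (S : Set ℂ) := by
    intro z hz
    have hzr : ‖z‖ ≤ r := by simpa using hr hz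
    rw [Finset.mem_coe, hSdef, Finset.mem_union, m0]
    constructor
    · exact fun h => Or.inl ⟨h, hz⟩
    · rintro (h | h)
      · exact h.1
      · have := hFr z h
        linarith [le_max_left r 1]
  have hin : ∀ v ∈ S, v ∈ U → ¬ OnHull S v := by
    intro v hv hvU
    exact hin0 v ((m0 v).2 ⟨(hPS v hvU).2 hv, hvU⟩)
  have hc3 : 3 ≤ S.card := by
    rw [← hF3]
    exact Finset.card_le_card Finset.subset_union_right
  obtain ⟨a, b, c, o, hT⟩ := exists_tri hS hc3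
  set e0 : D0 S := ⟨(a, b), mem_sd.2 ⟨c, mem_delT_iff.2 ⟨o, hT⟩⟩⟩ with he0
  have A := agr0 hP hS hPS hin e0
  set M := cm0 hS with hM
  have hE0 : (ev M).card ≠ 0 := Finset.card_ne_zero_of_mem zero_ev
  have hE : ((ev M).card : ℝ≥0∞) ≠ 0 := by exact_mod_cast hE0
  have hE' : ((ev M).card : ℝ≥0∞) ≠ ∞ := ENNReal.natCast_ne_top _
  have s1 := sum_swap A Tru fun o => ENNReal.ofReal (‖NN o.2‖ ^ 2)
  have e1 : fam.Ph U X = ∑' o : Obj, (if IsOb P o ∧ spt o ⊆ U ∧ Tru o then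
      ENNReal.ofReal (‖NN o.2‖ ^ 2) * ENNReal.ofReal (pc o.1) else 0) := by
    unfold Fam.Ph
    refine tsum_congr fun o => ?_
    show (if IsOb (ps X) o ∧ spt o ⊆ U then wgt o else 0) = _
    rw [hX]
    refine if_congr ⟨fun h => ⟨h.1, h.2, trivial⟩, fun h => ⟨h.1, h.2.1⟩⟩ ?_ rfl
    unfold wgt
    rw [ENNReal.ofReal_mul (by positivity)]
  rw [← e1] at s1
  have s2 : ∑ x ∈ ev M, (∑' o : Obj, if (IsOb P o ∧ spt o ⊆ U ∧ Tru o) ∧ Cpt (dl e0) x o.1 then
      ENNReal.ofReal (‖NN o.2‖ ^ 2) else 0) ≤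
      ∑ x ∈ ev M, ∑ β ∈ blks M x, ENNReal.ofReal (‖∑ g ∈ β, ch P U S g‖ ^ 2) := by
    refine Finset.sum_le_sum fun x hx => ?_
    refine le_blocks A (mem_ev.1 hx) Tru _ _ fun o ho hU hc => ?_
    have h := lpU_of ho hU
    rw [sum_im A ho hU (ch P U S) fun t ht => ch_gd hS hPS e0 (h.fc ht)]
  have s3 : ∑ x ∈ ev M, ∑ β ∈ blks M x, ENNReal.ofReal (‖∑ g ∈ β, ch P U S g‖ ^ 2) =
      ENNReal.ofReal (∑ g, ‖ch P U S g‖ ^ 2 * (nG M g : ℝ)) := by
    rw [← i1_norm om3 om_ne om_conj (ch_spin hS),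
      ENNReal.ofReal_sum_of_nonneg fun _ _ => Finset.sum_nonneg fun _ _ => by positivity]
    refine Finset.sum_congr rfl fun x _ => ?_
    rw [ENNReal.ofReal_sum_of_nonneg fun _ _ => by positivity]
  have hG : ∀ g : D0 S, Fc P U g.1.1 g.1.2 (th S g.1) → 4 * nG M g = (ev M).card := by
    rintro ⟨⟨u, v⟩, hg⟩ hf
    have eg : (⟨(u, v), hg⟩ : D0 S) = dl e0 u v := (dl_eq hg).symm
    rw [eg]
    set c' := th S (u, v) with hc'
    have hne := del_ne hf.1
    have e0' : M.cell (dl e0 u v) = Quot.mk _ u := A.cel _ _ _ hf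
    have e1' : M.rho (dl e0 u v) = dl e0 v c' := A.rho _ _ _ hf
    have e2' : M.rho (dl e0 v c') = dl e0 c' u := A.rho _ _ _ hf.rot
    have e3' : M.cell (dl e0 v c') = Quot.mk _ v := A.cel _ _ _ hf.rot
    have e4' : M.cell (dl e0 c' u) = Quot.mk _ c' := A.cel _ _ _ hf.rot.rot
    refine nG_eq ?_ ?_ ?_
    · rw [e1', e0', e3']
      exact fun hc => hne.1 (A.inj _ _ _ _ _ _ hf hf.rot hc)
    · rw [e1', e2', e3', e4']
      exact fun hc => hne.2.1 (A.inj _ _ _ _ _ _ hf.rot hf.rot.rot hc)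
    · rw [e1', e2', e0', e4']
      exact fun hc => hne.2.2 (A.inj _ _ _ _ _ _ hf.rot.rot hf hc).symm
  have s4 : 4 * ENNReal.ofReal (∑ g, ‖ch P U S g‖ ^ 2 * (nG M g : ℝ)) =
      ((ev M).card : ℝ≥0∞) * ∑ g, ENNReal.ofReal (‖ch P U S g‖ ^ 2) := by
    rw [ENNReal.ofReal_sum_of_nonneg fun _ _ => by positivity, Finset.mul_sum, Finset.mul_sum]
    refine Finset.sum_congr rfl fun g _ => ?_
    by_cases hf : Fc P U g.1.1 g.1.2 (th S g.1)
    · have h4 := hG g hf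
      rw [ENNReal.ofReal_mul (by positivity), ENNReal.ofReal_natCast, ← h4]
      push_cast
      ring
    · have h0 : ch P U S g = 0 := if_neg hf
      rw [h0]
      simp
  have s5 : ∑ g, ENNReal.ofReal (‖ch P U S g‖ ^ 2) ≤ Wf P U := by
    set tt : D0 S → T3 := fun g => (g.1.2, th S g.1, g.1.1) with htt
    have hi : ∀ g g' : D0 S, tt g = tt g' → g = g' := by
      intro g g' e
      have e1 : g.1.2 = g'.1.2 := congrArg (fun t : T3 => t.1) e
      have e2 : g.1.1 = g'.1.1 := congrArg (fun t : T3 => t.2.2) e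
      exact Subtype.ext (Prod.ext e2 e1)
    calc ∑ g, ENNReal.ofReal (‖ch P U S g‖ ^ 2)
        = ∑ g, (fun t : T3 => if Fc P U t.1 t.2.1 t.2.2 then ENNReal.ofReal (‖Nn t‖ ^ 2) else 0)
          (tt g) := by
          refine Finset.sum_congr rfl fun g _ => ?_
          simp only [htt, ch]
          have e3 : Fc P U g.1.2 (th S g.1) g.1.1 ↔ Fc P U g.1.1 g.1.2 (th S g.1) :=
            ⟨fun h => h.rot.rot, fun h => h.rot⟩
          rw [if_congr e3 rfl rfl]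
          split_ifs
          · rfl
          · simp
      _ = ∑ t ∈ Finset.univ.image tt, (if Fc P U t.1 t.2.1 t.2.2 then
          ENNReal.ofReal (‖Nn t‖ ^ 2) else 0) :=
          (Finset.sum_image (f := fun t : T3 => if Fc P U t.1 t.2.1 t.2.2 then
            ENNReal.ofReal (‖Nn t‖ ^ 2) else 0) fun g _ g' _ e => hi g g' e).symm
      _ ≤ Wf P U := ENNReal.sum_le_tsum _
  have s6 : ((ev M).card : ℝ≥0∞) * (4 * fam.Ph U X) ≤ ((ev M).card : ℝ≥0∞) * Wf P U := by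
    calc ((ev M).card : ℝ≥0∞) * (4 * fam.Ph U X) = 4 * (((ev M).card : ℝ≥0∞) * fam.Ph U X) := by
          ring
      _ = _ := by rw [s1]
      _ ≤ 4 * ∑ x ∈ ev M, ∑ β ∈ blks M x, ENNReal.ofReal (‖∑ g ∈ β, ch P U S g‖ ^ 2) :=
          mul_le_mul_right s2 _
      _ = ((ev M).card : ℝ≥0∞) * ∑ g, ENNReal.ofReal (‖ch P U S g‖ ^ 2) := by rw [s3, s4]
      _ ≤ _ := by gcongr
  exact (ENNReal.mul_le_mul_iff_right hE hE').1 s6

/-! ### measurability -/

theorem ps_eq (X : Set (ℂ × Bool)) : FinMx609.ps X = ps X := rfl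

theorem cdisc_ball {P : Set ℂ} {t : T3} (h : Del P t.1 t.2.1 t.2.2) :
    cdisc t = Metric.closedBall (FinMx609.cen3 t) (FinMx609.rad3 t) := by
  have hpos := h.2.2.2.1
  have hc := (FinMx609.cen3_iff (a := t.1) (b := t.2.1) (c := t.2.2) hpos).2 rfl
  ext z
  rw [Metric.mem_closedBall, dist_eq_norm]
  constructor
  · rintro ⟨o, h1, h2, h3⟩
    have := (FinMx609.cen3_iff hpos).1 ⟨h1, h2⟩
    rw [this] at h3
    exact h3
  · intro hz
    exact ⟨_, hc.1, hc.2, hz⟩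

/-- the functional of the faces, for the coloured configuration -/
def WF (z : ℂ) (s : ℝ) (X : Set (ℂ × Bool)) : ℝ≥0∞ :=
  ∑ᶠ (t : ℂ × ℂ × ℂ) (_ : Del (FinMx609.ps X) t.1 t.2.1 t.2.2 ∧
    Metric.closedBall (FinMx609.cen3 t) (FinMx609.rad3 t) ⊆
      {w | z.re ≤ w.re ∧ w.re < z.re + s ∧ z.im ≤ w.im ∧ w.im < z.im + s}),
    ENNReal.ofReal (‖Nn t‖ ^ 2)

theorem WF_fme (z : ℂ) (s : ℝ) : Prodx609.FMe (WF z s) := by
  unfold WF
  refine FinMx609.fme_sum (ι := Empty) (κ := Unit) (U := fun a => a.elim)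
    (R := fun _ t => Metric.closedBall (FinMx609.cen3 t) (FinMx609.rad3 t) ⊆
      {w | z.re ≤ w.re ∧ w.re < z.re + s ∧ z.im ≤ w.im ∧ w.im < z.im + s})
    (fun a => a.elim) (fun _ => FinMx609.meas_disc_rect _ _ _ _)
    (P := fun X t => Del (FinMx609.ps X) t.1 t.2.1 t.2.2 ∧
      Metric.closedBall (FinMx609.cen3 t) (FinMx609.rad3 t) ⊆
      {w | z.re ≤ w.re ∧ w.re < z.re + s ∧ z.im ≤ w.im ∧ w.im < z.im + s})
    (fun X t h => ⟨h.1.1, h.1.2.1, h.1.2.2.1⟩) ?_ ?_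
  · intro X X' _ _ e he x hx y hy w hw h
    exact ⟨(he.del x hx y hy w hw).1 h.1, (he.rel x hx y hy w hw ()).1 h.2⟩
  · have h1 : Continuous Nn := by
      unfold Nn
      fun_prop
    exact (h1.norm.pow 2).measurable.ennreal_ofReal

theorem WF_eq {z : ℂ} {s : ℝ} {X : Set (ℂ × Bool)} (hfin : (ps X ∩ sq z s).Finite) :
    WF z s (X ∩ Janx304.ovr (sq z s)) = Wf (ps X) (sq z s) := by
  set Q := sq z s with hQ
  have hps : FinMx609.ps (X ∩ Janx304.ovr Q) = ps X ∩ Q := by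
    ext w
    constructor
    · rintro ⟨p, ⟨h1, h2⟩, rfl⟩
      exact ⟨⟨p, h1, rfl⟩, h2⟩
    · rintro ⟨⟨p, h1, rfl⟩, h2⟩
      exact ⟨p, ⟨h1, h2⟩, rfl⟩
  have hiff : ∀ t : T3, (Del (FinMx609.ps (X ∩ Janx304.ovr Q)) t.1 t.2.1 t.2.2 ∧
      Metric.closedBall (FinMx609.cen3 t) (FinMx609.rad3 t) ⊆
      {w | z.re ≤ w.re ∧ w.re < z.re + s ∧ z.im ≤ w.im ∧ w.im < z.im + s}) ↔
      Fc (ps X) Q t.1 t.2.1 t.2.2 := by
    intro t
    rw [hps]
    constructor
    · rintro ⟨h1, h2⟩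
      rw [← cdisc_ball h1] at h2
      exact fc_congr (P := ps X ∩ Q) (fun w hw => ⟨fun h => h.1, fun h => ⟨h, hw⟩⟩) ⟨h1, h2⟩
    · intro h
      have h1 := fc_congr (P := ps X) (Q := ps X ∩ Q)
        (fun w hw => ⟨fun h => ⟨h, hw⟩, fun h => h.1⟩) h
      refine ⟨h1.1, ?_⟩
      have h2 := h1.2
      change cdisc (t.1, t.2.1, t.2.2) ⊆ Q at h2
      have e : ((t.1, t.2.1, t.2.2) : T3) = t := rfl
      rw [e, cdisc_ball h1.1] at h2
      exact h2
  have hS : {t : T3 | Fc (ps X) Q t.1 t.2.1 t.2.2}.Finite := by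
    refine ((hfin.prod (hfin.prod hfin))).subset ?_
    intro t ht
    have ht' : Fc (ps X) Q t.1 t.2.1 t.2.2 := ht
    have m1 := fc_memU ht'
    have m2 := fc_memU ht'.rot
    have m3 := fc_memU ht'.rot.rot
    exact ⟨⟨ht'.1.1, m1⟩, ⟨ht'.1.2.1, m2⟩, ⟨ht'.1.2.2.1, m3⟩⟩
  unfold WF Wf
  have e1 : (∑ᶠ (t : ℂ × ℂ × ℂ) (_ : Del (FinMx609.ps (X ∩ Janx304.ovr Q)) t.1 t.2.1 t.2.2 ∧
      Metric.closedBall (FinMx609.cen3 t) (FinMx609.rad3 t) ⊆
      {w | z.re ≤ w.re ∧ w.re < z.re + s ∧ z.im ≤ w.im ∧ w.im < z.im + s}),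
      ENNReal.ofReal (‖Nn t‖ ^ 2)) =
      ∑ᶠ (t : ℂ × ℂ × ℂ) (_ : Fc (ps X) Q t.1 t.2.1 t.2.2), ENNReal.ofReal (‖Nn t‖ ^ 2) :=
    finsum_congr fun t => finsum_congr_Prop (propext (hiff t)) fun _ => rfl
  rw [e1]
  have e2 : (∑ᶠ (t : ℂ × ℂ × ℂ) (_ : Fc (ps X) Q t.1 t.2.1 t.2.2), ENNReal.ofReal (‖Nn t‖ ^ 2)) =
      ∑ t ∈ hS.toFinset, ENNReal.ofReal (‖Nn t‖ ^ 2) := by
    rw [← finsum_mem_coe_finset, Set.Finite.coe_toFinset]
    rfl
  rw [e2, tsum_eq_sum (s := hS.toFinset)]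
  · refine Finset.sum_congr rfl fun t ht => ?_
    have ht' : Fc (ps X) Q t.1 t.2.1 t.2.2 := (hS.mem_toFinset).1 ht
    rw [if_pos ht']
  · intro t ht
    rw [if_neg]
    exact fun h => ht (hS.mem_toFinset.2 h)

theorem sq_bdd (z : ℂ) (s : ℝ) : Bornology.IsBounded (sq z s) := by
  refine (Metric.isBounded_closedBall (x := z) (r := 2 * |s|)).subset ?_
  rintro w ⟨a1, a2, a3, a4⟩
  rw [Metric.mem_closedBall, dist_eq_norm]
  have := Complex.norm_le_abs_re_add_abs_im (w - z)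
  rw [Complex.sub_re, Complex.sub_im, abs_of_nonneg (by linarith : 0 ≤ w.re - z.re),
    abs_of_nonneg (by linarith : 0 ≤ w.im - z.im)] at this
  have h2 := le_abs_self s
  linarith

theorem sq_meas (z : ℂ) (s : ℝ) : MeasurableSet (sq z s) := by
  have e : sq z s = ({w | z.re ≤ w.re} ∩ {w | w.re < z.re + s}) ∩
      ({w | z.im ≤ w.im} ∩ {w | w.im < z.im + s}) := by
    ext w
    constructor
    · rintro ⟨a, b, c, d⟩
      exact ⟨⟨a, b⟩, c, d⟩
    · rintro ⟨⟨a, b⟩, c, d⟩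
      exact ⟨a, b, c, d⟩
  rw [e]
  exact ((measurableSet_le measurable_const Complex.measurable_re).inter
    (measurableSet_lt Complex.measurable_re measurable_const)).inter
    ((measurableSet_le measurable_const Complex.measurable_im).inter
    (measurableSet_lt Complex.measurable_im measurable_const))

theorem fin_sq {ε : ℝ} {ω : Sample} (h : ∀ r : ℝ, (points ε ω ∩ Metric.closedBall 0 r).Finite)
    (z : ℂ) (s : ℝ) : (points ε ω ∩ sq z s).Finite := by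
  obtain ⟨r, hr⟩ := (sq_bdd z s).subset_closedBall 0
  exact (h r).subset fun w hw => ⟨hw.1, hr hw.2⟩

/-- **the weight of the faces of a square is measurable** -/
theorem wf_meas {ε : ℝ} (hε : 0 < ε) (z : ℂ) (s : ℝ) :
    AEMeasurable (fun ω : Sample => Wf (points ε ω) (sq z s)) sampleLaw := by
  have h1 : Measurable fun ω : Sample => WF z s (cfg ε ω ∩ Janx304.ovr (sq z s)) :=
    Prodx609.meas_cfg hε (sq_meas z s) (sq_bdd z s) (WF_fme z s)
  refine ⟨_, h1, ?_⟩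
  filter_upwards [PoisM3x930.m3a ε hε] with ω hω
  have h2 : ps (cfg ε ω) = points ε ω := Mass5x302.ps_cfg ε ω
  rw [WF_eq (by rw [h2]; exact fin_sq hω.2.2 z s), h2]

/-- frame for the local objects, almost everywhere -/
theorem four_ae {ε : ℝ} (hε : 0 < ε) (z : ℂ) (s : ℝ) :
    ∀ᵐ ω ∂sampleLaw, 4 * fam.Ph (sq z s) (cfg ε ω) ≤ Wf (points ε ω) (sq z s) := by
  filter_upwards [PoisM3x930.m3a ε hε] with ω hω
  exact four_ph_le hω.1 (fin_sq hω.2.2 z s) (sq_bdd z s) (Mass5x302.ps_cfg ε ω)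

/-- Markov's inequality for `f - g`, `g` arbitrary, `f` measurable -/
theorem markov {Ω : Type*} [MeasurableSpace Ω] (μ : Measure Ω) {f g : Ω → ℝ≥0∞}
    (hf : AEMeasurable f μ) (hgf : ∀ᵐ ω ∂μ, g ω ≤ f ω) (A : Set Ω) (c : ℝ≥0∞)
    (hA : ∀ᵐ ω ∂μ, ω ∈ A → c + g ω ≤ f ω) :
    c * μ A + ∫⁻ ω, g ω ∂μ ≤ ∫⁻ ω, f ω ∂μ := by
  obtain ⟨g', hg'm, hg'le, hg'int⟩ := exists_measurable_le_lintegral_eq μ g
  obtain ⟨f', hf'm, hff'⟩ := hf
  set A' : Set Ω := {ω | c + g' ω ≤ f' ω} with hA'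
  have hA'm : MeasurableSet A' := measurableSet_le (measurable_const.add hg'm) hf'm
  have h1 : μ A ≤ μ A' := by
    refine measure_mono_ae ?_
    filter_upwards [hA, hff'] with ω h2 h3 h4
    have h5 := h2 h4
    rw [h3] at h5
    exact le_trans (by gcongr; exact hg'le ω) h5
  rw [hg'int]
  calc c * μ A + ∫⁻ ω, g' ω ∂μ ≤ c * μ A' + ∫⁻ ω, g' ω ∂μ := by gcongr
    _ = ∫⁻ ω, (A'.indicator (fun _ => c) ω + g' ω) ∂μ := by
        rw [lintegral_add_right _ hg'm, lintegral_indicator hA'm, setLIntegral_const]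
    _ ≤ ∫⁻ ω, f ω ∂μ := by
        refine lintegral_mono_ae ?_
        filter_upwards [hgf, hff'] with ω h2 h3
        by_cases hω : ω ∈ A'
        · rw [Set.indicator_of_mem hω, h3]
          exact hω
        · rw [Set.indicator_of_notMem hω, zero_add]
          exact (hg'le ω).trans h2

end Crest.Agent.R143.Trans4x690
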