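import Mathlib

/-!
# Row 143, block H, H5 (d): the wrong root is excluded by orientation (helper106)

Note 3909 (4)(d).  `Z 0, Z 1, Z 2` are (up to `r`) in the convex hulls of the bottom side, the right
side and the union of the top and left sides of the unit square; `D 0 = Z 2 - Z 1`,
`D 1 = Z 0 - Z 2`, `D 2 = Z 1 - Z 0`.  If for two of the three indices
`‖κ D i - w ^ i t‖ ≤ e` with `w = exp (-2πi/3)` (i.e. `w² + w + 1 = 0`, `Im w < 0`), then
`‖κ‖ ≤ 60 e` (for `r ≤ 1/200`).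

* `wrong_root` : unit square;  `wrong_root_sq` : square with corner `z0` and side `b`.
-/

set_option autoImplicit false

open Complex ComplexConjugate

namespace Crest.Agent.R143.Trix106

/-- twice the signed area of the triangle `a, b, c` -/
def ar (a b c : ℂ) : ℝ := (conj (b - a) * (c - a)).im

/-- hull of the bottom side -/
def Bot : Set ℂ := {z | ∃ x : ℝ, 0 ≤ x ∧ x ≤ 1 ∧ z = x}
/-- hull of the right side -/
def Rgt : Set ℂ := {z | ∃ y : ℝ, 0 ≤ y ∧ y ≤ 1 ∧ z = 1 + y * I}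
/-- hull of the top and left sides -/
def TopL : Set ℂ := {z | ∃ u v : ℝ, 0 ≤ u ∧ u ≤ v ∧ v ≤ 1 ∧ z = u + v * I}

/-- the three hulls: the signed area is nonnegative -/
lemma ar_nonneg {a b c : ℂ} (ha : a ∈ Bot) (hb : b ∈ Rgt) (hc : c ∈ TopL) : 0 ≤ ar a b c := by
  obtain ⟨x, hx, hx1, rfl⟩ := ha
  obtain ⟨y, hy, hy1, rfl⟩ := hb
  obtain ⟨u, v, hu, huv, hv, rfl⟩ := hc
  have : ar (x : ℂ) (1 + y * I) (u + v * I) = (1 - x) * v - y * (u - x) := by
    simp [ar]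
    ring
  rw [this]
  rcases le_total 0 (1 - x - y) with h | h
  · nlinarith [mul_nonneg hx hy, mul_nonneg hu h, mul_nonneg (sub_nonneg.2 hx1) (sub_nonneg.2 huv)]
  · nlinarith [mul_nonneg (sub_nonneg.2 hx1) (sub_nonneg.2 hy1),
      mul_nonneg (sub_nonneg.2 hx1) (sub_nonneg.2 huv),
      mul_nonneg (sub_nonneg.2 (huv.trans hv)) (sub_nonneg.2 h)]

/-- the three hulls are not close to a common point -/
lemma far {a b c : ℂ} (ha : a ∈ Bot) (hb : b ∈ Rgt) (hc : c ∈ TopL) {ρ : ℝ}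
    (h1 : ‖a - c‖ ≤ ρ) (h2 : ‖b - a‖ ≤ ρ) : 1 / 3 ≤ ρ := by
  obtain ⟨x, hx, hx1, rfl⟩ := ha
  obtain ⟨y, hy, hy1, rfl⟩ := hb
  obtain ⟨u, v, hu, huv, hv, rfl⟩ := hc
  have e1 := (abs_re_le_norm _).trans h1
  have e2 := (abs_im_le_norm _).trans h1
  have e3 := (abs_re_le_norm _).trans h2
  simp at e1 e2 e3
  rw [abs_le] at e1 e2 e3
  linarith [e1.1, e1.2, e2.1, e2.2, e3.1, e3.2]

lemma norm_le {x y : ℝ} (hx : |x| ≤ 1) (hy : |y| ≤ 1) : ‖(x : ℂ) + y * I‖ ≤ 3 / 2 := by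
  have h : ‖(x : ℂ) + y * I‖ ^ 2 = x ^ 2 + y ^ 2 := by
    rw [← normSq_eq_norm_sq, normSq_apply]
    simp
    ring
  have h1 : x ^ 2 ≤ 1 := by rw [← sq_abs]; nlinarith [abs_nonneg x]
  have h2 : y ^ 2 ≤ 1 := by rw [← sq_abs]; nlinarith [abs_nonneg y]
  nlinarith [norm_nonneg ((x : ℂ) + y * I)]

lemma ar_perturb {a b c a' b' c' : ℂ} {r : ℝ} (hr : r ≤ 1 / 4) (ha : ‖a' - a‖ ≤ r)
    (hb : ‖b' - b‖ ≤ r) (hc : ‖c' - c‖ ≤ r) (h1 : ‖b - a‖ ≤ 3 / 2) (h2 : ‖c - a‖ ≤ 3 / 2) :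
    ar a b c - 7 * r ≤ ar a' b' c' := by
  have hr0 : 0 ≤ r := (norm_nonneg _).trans ha
  have e : ar a b c - ar a' b' c' =
      (conj ((b - a) - (b' - a')) * (c' - a')).im + (conj (b - a) * ((c - a) - (c' - a'))).im := by
    simp only [ar, ← add_im, ← sub_im]
    congr 1
    simp only [map_sub]
    ring
  have n1 : ‖(b - a) - (b' - a')‖ ≤ 2 * r := by
    have : (b - a) - (b' - a') = (a' - a) - (b' - b) := by ring
    rw [this]
    exact (norm_sub_le _ _).trans (by linarith)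
  have n2 : ‖(c - a) - (c' - a')‖ ≤ 2 * r := by
    have : (c - a) - (c' - a') = (a' - a) - (c' - c) := by ring
    rw [this]
    exact (norm_sub_le _ _).trans (by linarith)
  have n3 : ‖c' - a'‖ ≤ 3 / 2 + 2 * r := by
    have : c' - a' = (c - a) - ((c - a) - (c' - a')) := by ring
    rw [this]
    exact (norm_sub_le _ _).trans (by linarith)
  have k1 : (conj ((b - a) - (b' - a')) * (c' - a')).im ≤ 2 * r * (3 / 2 + 2 * r) := by
    refine (le_abs_self _).trans ((abs_im_le_norm _).trans ?_)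
    rw [norm_mul, RCLike.norm_conj]
    exact mul_le_mul n1 n3 (norm_nonneg _) (by linarith)
  have k2 : (conj (b - a) * ((c - a) - (c' - a'))).im ≤ 3 / 2 * (2 * r) := by
    refine (le_abs_self _).trans ((abs_im_le_norm _).trans ?_)
    rw [norm_mul, RCLike.norm_conj]
    exact mul_le_mul h1 n2 (norm_nonneg _) (by norm_num)
  nlinarith

/-- primitive cube root of unity below the real axis -/
structure Rt (w : ℂ) : Prop where
  eq : w ^ 2 + w + 1 = 0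
  im : w.im < 0

lemma Rt.re {w : ℂ} (h : Rt w) : w.re = -1 / 2 := by
  have e := congrArg Complex.im h.eq
  simp [pow_two] at e
  have : w.im * (2 * w.re + 1) = 0 := by linarith
  rcases mul_eq_zero.1 this with h0 | h0
  · exact absurd h0 h.im.ne
  · linarith

lemma Rt.im_sq {w : ℂ} (h : Rt w) : w.im ^ 2 = 3 / 4 := by
  have e := congrArg Complex.re h.eq
  simp [pow_two] at e
  rw [h.re] at e
  nlinarith

lemma Rt.im_le {w : ℂ} (h : Rt w) : w.im ≤ -(43 / 50) := by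
  nlinarith [h.im_sq, h.im]

lemma Rt.norm {w : ℂ} (h : Rt w) : ‖w‖ = 1 := by
  have e : ‖w‖ ^ 2 = 1 := by
    rw [← normSq_eq_norm_sq, normSq_apply, h.re]
    nlinarith [h.im_sq]
  nlinarith [norm_nonneg w]

lemma Rt.cube {w : ℂ} (h : Rt w) : w ^ 3 = 1 := by
  linear_combination (w - 1) * h.eq

/-- **equilateral of negative orientation is impossible** -/
theorem no_neg {w : ℂ} (hw : Rt w) {Z : Fin 3 → ℂ} {r δ : ℝ} (hr : r ≤ 1 / 200) (hδ : δ ≤ 1 / 20)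
    (h0 : ∃ a ∈ Bot, ‖Z 0 - a‖ ≤ r) (h1 : ∃ b ∈ Rgt, ‖Z 1 - b‖ ≤ r)
    (h2 : ∃ c ∈ TopL, ‖Z 2 - c‖ ≤ r)
    (hD : ‖(Z 1 - Z 0) - w * (Z 0 - Z 2)‖ ≤ δ) : False := by
  obtain ⟨a, ha, ha'⟩ := h0
  obtain ⟨b, hb, hb'⟩ := h1
  obtain ⟨c, hc, hc'⟩ := h2
  have hr0 : 0 ≤ r := (norm_nonneg _).trans ha'
  have hδ0 : 0 ≤ δ := (norm_nonneg _).trans hD
  have hA := ar_nonneg ha hb hc
  -- the points of the hulls
  have nb : ‖b - a‖ ≤ 3 / 2 := by
    obtain ⟨x, hx, hx1, rfl⟩ := ha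
    obtain ⟨y, hy, hy1, rfl⟩ := hb
    have : (1 + y * I : ℂ) - x = ((1 - x : ℝ) : ℂ) + y * I := by push_cast; ring
    rw [this]
    exact norm_le (by rw [abs_of_nonneg (by linarith)]; linarith) (by rw [abs_of_nonneg hy]; linarith)
  have nc : ‖c - a‖ ≤ 3 / 2 := by
    obtain ⟨x, hx, hx1, rfl⟩ := ha
    obtain ⟨u, v, hu, huv, hv, rfl⟩ := hc
    have : (u + v * I : ℂ) - x = ((u - x : ℝ) : ℂ) + v * I := by push_cast; ring
    rw [this]
    exact norm_le (by rw [abs_le]; constructor <;> linarith)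
      (by rw [abs_of_nonneg (hu.trans huv)]; linarith)
  have hP := ar_perturb (by linarith : r ≤ 1 / 4) ha' hb' hc' nb nc
  -- the size of the sides
  set d := ‖Z 0 - Z 2‖ with hd
  have hside : 1 / 3 - 2 * r - δ ≤ d := by
    have q1 : ‖a - c‖ ≤ d + 2 * r := by
      have : a - c = (Z 0 - Z 2) - (Z 0 - a) + (Z 2 - c) := by ring
      rw [this]
      refine (norm_add_le _ _).trans ?_
      have := norm_sub_le (Z 0 - Z 2) (Z 0 - a)
      linarith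
    have q2 : ‖b - a‖ ≤ d + δ + 2 * r := by
      have : b - a = ((Z 1 - Z 0) - w * (Z 0 - Z 2)) + w * (Z 0 - Z 2) - (Z 1 - b) + (Z 0 - a) := by
        ring
      rw [this]
      refine (norm_add_le _ _).trans ?_
      have e1 := norm_sub_le (((Z 1 - Z 0) - w * (Z 0 - Z 2)) + w * (Z 0 - Z 2)) (Z 1 - b)
      have e2 := norm_add_le ((Z 1 - Z 0) - w * (Z 0 - Z 2)) (w * (Z 0 - Z 2))
      rw [norm_mul, hw.norm, one_mul] at e2
      linarith
    have := far ha hb hc (q1.trans (by linarith : d + 2 * r ≤ d + δ + 2 * r)) q2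
    linarith
  -- the area from the relation
  have hAr : ar (Z 0) (Z 1) (Z 2) ≤ w.im * d ^ 2 + δ * d := by
    set f := (Z 1 - Z 0) - w * (Z 0 - Z 2) with hf
    have e : ar (Z 0) (Z 1) (Z 2) = w.im * d ^ 2 + (-(conj f * (Z 0 - Z 2)).im) := by
      have e1 : Z 1 - Z 0 = f + w * (Z 0 - Z 2) := by rw [hf]; ring
      have e2 : Z 2 - Z 0 = -(Z 0 - Z 2) := by ring
      rw [ar, e1, e2, map_add, map_mul]
      have e3 : conj w * conj (Z 0 - Z 2) * (Z 0 - Z 2) = conj w * ((d ^ 2 : ℝ) : ℂ) := by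
        rw [mul_assoc, ← normSq_eq_conj_mul_self, normSq_eq_norm_sq]
      have e4 : (conj f + conj w * conj (Z 0 - Z 2)) * -(Z 0 - Z 2) =
          -(conj f * (Z 0 - Z 2)) - conj w * ((d ^ 2 : ℝ) : ℂ) := by
        rw [← e3]; ring
      rw [e4, sub_im, neg_im, im_mul_ofReal, conj_im]
      ring
    rw [e]
    have : -(conj f * (Z 0 - Z 2)).im ≤ δ * d := by
      refine (neg_le_abs _).trans ((abs_im_le_norm _).trans ?_)
      rw [norm_mul, RCLike.norm_conj]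
      exact mul_le_mul_of_nonneg_right hD (norm_nonneg _)
    linarith
  have him := hw.im_le
  have hd1 : 27 / 100 ≤ d := by linarith
  nlinarith [mul_le_mul_of_nonneg_right him (sq_nonneg d)]

/-- the difference vectors -/
def Df (Z : Fin 3 → ℂ) (i : Fin 3) : ℂ := Z (i + 2) - Z (i + 1)

lemma Df_sum (Z : Fin 3 → ℂ) : Df Z 0 + Df Z 1 + Df Z 2 = 0 := by
  have e0 : Df Z 0 = Z 2 - Z 1 := rfl
  have e1 : Df Z 1 = Z 0 - Z 2 := rfl
  have e2 : Df Z 2 = Z 1 - Z 0 := rfl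
  rw [e0, e1, e2]; ring

/-- **H5 (d)**: two of the three relations give `‖κ‖ ≤ 60 e` -/
theorem wrong_root {w : ℂ} (hw : Rt w) {Z : Fin 3 → ℂ} {r e : ℝ} {κ t : ℂ} (hr : r ≤ 1 / 200)
    (h0 : ∃ a ∈ Bot, ‖Z 0 - a‖ ≤ r) (h1 : ∃ b ∈ Rgt, ‖Z 1 - b‖ ≤ r)
    (h2 : ∃ c ∈ TopL, ‖Z 2 - c‖ ≤ r) {i j : Fin 3} (hij : i ≠ j)
    (hi : ‖κ * Df Z i - w ^ (i : ℕ) * t‖ ≤ e) (hj : ‖κ * Df Z j - w ^ (j : ℕ) * t‖ ≤ e) :
    ‖κ‖ ≤ 60 * e := by
  have he : 0 ≤ e := (norm_nonneg _).trans hi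
  have hsum : (1 : ℂ) + w + w ^ 2 = 0 := by linear_combination hw.eq
  -- `‖κ D 2 - w κ D 1‖ ≤ 3 e`
  have key : ‖κ * Df Z 2 - w * (κ * Df Z 1)‖ ≤ 3 * e := by
    have hS := Df_sum Z
    have n1 : ∀ x : ℂ, ‖w * x‖ = ‖x‖ := fun x => by rw [norm_mul, hw.norm, one_mul]
    have n2 : ∀ x : ℂ, ‖w ^ 2 * x‖ = ‖x‖ := fun x => by
      rw [norm_mul, norm_pow, hw.norm, one_pow, one_mul]
    have c01 : ‖κ * Df Z 0 - w ^ 0 * t‖ ≤ e → ‖κ * Df Z 1 - w ^ 1 * t‖ ≤ e →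
        ‖κ * Df Z 2 - w * (κ * Df Z 1)‖ ≤ 3 * e := by
      intro a b
      have : κ * Df Z 2 - w * (κ * Df Z 1) =
          -(κ * Df Z 0 - w ^ 0 * t) + w ^ 2 * (κ * Df Z 1 - w ^ 1 * t) := by
        linear_combination κ * hS - (κ * Df Z 1) * hw.eq + t * hw.cube
      rw [this]
      refine (norm_add_le _ _).trans ?_
      rw [norm_neg, n2]
      linarith
    have c12 : ‖κ * Df Z 1 - w ^ 1 * t‖ ≤ e → ‖κ * Df Z 2 - w ^ 2 * t‖ ≤ e →
        ‖κ * Df Z 2 - w * (κ * Df Z 1)‖ ≤ 3 * e := by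
      intro a b
      have : κ * Df Z 2 - w * (κ * Df Z 1) =
          (κ * Df Z 2 - w ^ 2 * t) - w * (κ * Df Z 1 - w ^ 1 * t) := by ring
      rw [this]
      refine (norm_sub_le _ _).trans ?_
      rw [n1]
      linarith
    have c02 : ‖κ * Df Z 0 - w ^ 0 * t‖ ≤ e → ‖κ * Df Z 2 - w ^ 2 * t‖ ≤ e →
        ‖κ * Df Z 2 - w * (κ * Df Z 1)‖ ≤ 3 * e := by
      intro a b
      have : κ * Df Z 2 - w * (κ * Df Z 1) =
          -(w ^ 2 * (κ * Df Z 2 - w ^ 2 * t)) + w * (κ * Df Z 0 - w ^ 0 * t) := by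
        linear_combination (-w * κ) * hS + (κ * Df Z 2) * hw.eq - (w * t) * hw.cube
      rw [this]
      refine (norm_add_le _ _).trans ?_
      rw [norm_neg, n1, n2]
      linarith
    fin_cases i <;> fin_cases j <;> first
      | exact absurd rfl hij
      | exact c01 hi hj
      | exact c01 hj hi
      | exact c12 hi hj
      | exact c12 hj hi
      | exact c02 hi hj
      | exact c02 hj hi
  by_contra hcon
  push Not at hcon
  have hκ : 0 < ‖κ‖ := lt_of_le_of_lt (by positivity) hcon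
  refine no_neg hw hr (le_refl (1 / 20 : ℝ)) h0 h1 h2 ?_
  have e1 : κ * ((Z 1 - Z 0) - w * (Z 0 - Z 2)) = κ * Df Z 2 - w * (κ * Df Z 1) := by
    have e1 : Df Z 1 = Z 0 - Z 2 := rfl
    have e2 : Df Z 2 = Z 1 - Z 0 := rfl
    rw [e1, e2]; ring
  have e2 : ‖κ‖ * ‖(Z 1 - Z 0) - w * (Z 0 - Z 2)‖ ≤ 3 * e := by
    rw [← norm_mul, e1]; exact key
  by_contra hc
  push Not at hc
  nlinarith

/-! ### convexity: the hypotheses pass to weighted means -/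

/-- points at distance `≤ r` of `S` -/
def Nr (S : Set ℂ) (r : ℝ) : Set ℂ := {z | ∃ a ∈ S, ‖z - a‖ ≤ r}

lemma Nr_convex {S : Set ℂ} (hS : Convex ℝ S) (r : ℝ) : Convex ℝ (Nr S r) := by
  rintro z ⟨a, ha, hza⟩ z' ⟨a', ha', hza'⟩ p q hp hq hpq
  refine ⟨p • a + q • a', hS ha ha' hp hq hpq, ?_⟩
  have : p • z + q • z' - (p • a + q • a') = p • (z - a) + q • (z' - a') := by
    simp only [smul_sub]; abel
  rw [this]
  refine (norm_add_le _ _).trans ?_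
  rw [norm_smul, norm_smul, Real.norm_of_nonneg hp, Real.norm_of_nonneg hq]
  calc p * ‖z - a‖ + q * ‖z' - a'‖ ≤ p * r + q * r := by gcongr
    _ = r := by rw [← add_mul, hpq, one_mul]

lemma Nr_closed {S : Set ℂ} (hS : IsCompact S) {r : ℝ} (hr : 0 ≤ r) : IsClosed (Nr S r) := by
  have : Nr S r = Metric.cthickening r S := by
    rw [hS.cthickening_eq_biUnion_closedBall hr]
    ext z
    simp [Nr, dist_eq_norm]
  rw [this]
  exact Metric.isClosed_cthickening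

/-- a weighted mean of points of `Nr S r` is in `Nr S r` -/
lemma mean_mem {S : Set ℂ} (hS : Convex ℝ S) {r : ℝ} {ι : Type*} (s : Finset ι) (p : ι → ℝ)
    (z : ι → ℂ) (hp : ∀ i ∈ s, 0 ≤ p i) (hm : 0 < ∑ i ∈ s, p i)
    (hz : ∀ i ∈ s, p i ≠ 0 → z i ∈ Nr S r) :
    ((∑ i ∈ s, p i : ℝ) : ℂ)⁻¹ * ∑ i ∈ s, (p i : ℂ) * z i ∈ Nr S r := by
  classical
  have h1 : ∑ i ∈ s with p i ≠ 0, p i = ∑ i ∈ s, p i := Finset.sum_filter_ne_zero s
  have h2 : ∑ i ∈ s with p i ≠ 0, (p i : ℂ) * z i = ∑ i ∈ s, (p i : ℂ) * z i := by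
    rw [Finset.sum_filter]
    refine Finset.sum_congr rfl fun i _ => ?_
    by_cases h : p i = 0 <;> simp [h]
  rw [← h1, ← h2]
  have := (Nr_convex hS r).centerMass_mem (t := s.filter fun i => p i ≠ 0) (w := p) (z := z)
    (fun i hi => hp i (Finset.mem_filter.1 hi).1) (by rw [h1]; exact hm)
    (fun i hi => hz i (Finset.mem_filter.1 hi).1 (Finset.mem_filter.1 hi).2)
  rw [Finset.centerMass] at this
  simpa [Complex.real_smul] using this

lemma Bot_eq : Bot = segment ℝ (0 : ℂ) 1 := by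
  ext z
  rw [segment_eq_image ℝ]
  constructor
  · rintro ⟨x, hx, hx1, rfl⟩
    exact ⟨x, ⟨hx, hx1⟩, by simp⟩
  · rintro ⟨x, ⟨hx, hx1⟩, rfl⟩
    exact ⟨x, hx, hx1, by simp⟩

lemma Rgt_eq : Rgt = segment ℝ (1 : ℂ) (1 + I) := by
  ext z
  rw [segment_eq_image ℝ]
  constructor
  · rintro ⟨x, hx, hx1, rfl⟩
    refine ⟨x, ⟨hx, hx1⟩, ?_⟩
    simp only [Complex.real_smul]
    push_cast
    ring
  · rintro ⟨x, ⟨hx, hx1⟩, rfl⟩
    refine ⟨x, hx, hx1, ?_⟩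
    simp only [Complex.real_smul]
    push_cast
    ring

lemma convex_Bot : Convex ℝ Bot := by rw [Bot_eq]; exact convex_segment _ _
lemma convex_Rgt : Convex ℝ Rgt := by rw [Rgt_eq]; exact convex_segment _ _
lemma compact_Bot : IsCompact Bot := by
  rw [Bot_eq, segment_eq_image ℝ]
  exact isCompact_Icc.image (by fun_prop)
lemma compact_Rgt : IsCompact Rgt := by
  rw [Rgt_eq, segment_eq_image ℝ]
  exact isCompact_Icc.image (by fun_prop)

lemma mem_TopL {z : ℂ} : z ∈ TopL ↔ 0 ≤ z.re ∧ z.re ≤ z.im ∧ z.im ≤ 1 := by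
  constructor
  · rintro ⟨u, v, hu, huv, hv, rfl⟩
    simp [hu, huv, hv]
  · rintro ⟨h1, h2, h3⟩
    exact ⟨z.re, z.im, h1, h2, h3, (re_add_im z).symm⟩

lemma convex_TopL : Convex ℝ TopL := by
  intro z hz z' hz' p q hp hq hpq
  rw [mem_TopL] at hz hz' ⊢
  obtain ⟨a1, a2, a3⟩ := hz
  obtain ⟨b1, b2, b3⟩ := hz'
  simp only [add_re, add_im, smul_re, smul_im, smul_eq_mul]
  refine ⟨by positivity, by gcongr, ?_⟩
  calc p * z.im + q * z'.im ≤ p * 1 + q * 1 := by gcongr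
    _ = 1 := by linarith

lemma compact_TopL : IsCompact TopL := by
  refine Metric.isCompact_of_isClosed_isBounded ?_ ?_
  · have : TopL = {z : ℂ | 0 ≤ z.re} ∩ {z | z.re ≤ z.im} ∩ {z | z.im ≤ 1} := by
      ext z
      simp [mem_TopL, and_assoc]
    rw [this]
    exact ((isClosed_le continuous_const continuous_re).inter
      (isClosed_le continuous_re continuous_im)).inter (isClosed_le continuous_im continuous_const)
  · refine (Metric.isBounded_closedBall (x := (0 : ℂ)) (r := 3 / 2)).subset ?_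
    rintro z ⟨u, v, hu, huv, hv, rfl⟩
    rw [mem_closedBall_zero_iff]
    exact norm_le (by rw [abs_of_nonneg hu]; linarith) (by rw [abs_of_nonneg (hu.trans huv)]; exact hv)

/-- **H5 (d), square with lower left corner `z0` and side `b`** -/
theorem wrong_root_sq {w : ℂ} (hw : Rt w) {Z : Fin 3 → ℂ} {z0 : ℂ} {b r e : ℝ} {κ t : ℂ}
    (hb : 0 < b) (hr : r ≤ b / 200)
    (h0 : ∃ x : ℝ, 0 ≤ x ∧ x ≤ b ∧ ‖Z 0 - (z0 + x)‖ ≤ r)
    (h1 : ∃ y : ℝ, 0 ≤ y ∧ y ≤ b ∧ ‖Z 1 - (z0 + b + y * I)‖ ≤ r)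
    (h2 : ∃ u v : ℝ, 0 ≤ u ∧ u ≤ v ∧ v ≤ b ∧ ‖Z 2 - (z0 + u + v * I)‖ ≤ r)
    {i j : Fin 3} (hij : i ≠ j)
    (hi : ‖κ * Df Z i - w ^ (i : ℕ) * t‖ ≤ e) (hj : ‖κ * Df Z j - w ^ (j : ℕ) * t‖ ≤ e) :
    ‖κ‖ * b ≤ 60 * e := by
  have hbc : (b : ℂ) ≠ 0 := by exact_mod_cast hb.ne'
  set Z' : Fin 3 → ℂ := fun k => (Z k - z0) / b with hZ'
  have hsc : ∀ k a, ‖Z k - (z0 + b * a)‖ ≤ r → ‖Z' k - a‖ ≤ r / b := by
    intro k a h
    have : Z' k - a = (Z k - (z0 + b * a)) / b := by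
      rw [hZ']; field_simp; ring
    rw [this, norm_div, Complex.norm_of_nonneg hb.le]
    gcongr
  have hDf : ∀ k, Df Z k = b * Df Z' k := by
    intro k
    simp only [Df, hZ']
    field_simp
    ring
  have hr' : r / b ≤ 1 / 200 := by
    rw [div_le_iff₀ hb]; linarith
  have g0 : ∃ a ∈ Bot, ‖Z' 0 - a‖ ≤ r / b := by
    obtain ⟨x, hx, hxb, h⟩ := h0
    refine ⟨((x / b : ℝ) : ℂ), ⟨x / b, by positivity, (div_le_one hb).2 hxb, rfl⟩, hsc _ _ ?_⟩
    convert h using 3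
    push_cast
    field_simp
  have g1 : ∃ a ∈ Rgt, ‖Z' 1 - a‖ ≤ r / b := by
    obtain ⟨y, hy, hyb, h⟩ := h1
    refine ⟨1 + ((y / b : ℝ) : ℂ) * I, ⟨y / b, by positivity, (div_le_one hb).2 hyb, rfl⟩,
      hsc _ _ ?_⟩
    convert h using 3
    push_cast
    field_simp
    ring
  have g2 : ∃ a ∈ TopL, ‖Z' 2 - a‖ ≤ r / b := by
    obtain ⟨u, v, hu, huv, hvb, h⟩ := h2
    refine ⟨((u / b : ℝ) : ℂ) + ((v / b : ℝ) : ℂ) * I, ⟨u / b, v / b, by positivity, by gcongr,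
      (div_le_one hb).2 hvb, rfl⟩, hsc _ _ ?_⟩
    convert h using 3
    push_cast
    field_simp
    ring
  have hk : ∀ k, κ * Df Z k = (κ * b) * Df Z' k := fun k => by rw [hDf]; ring
  rw [hk] at hi hj
  have := wrong_root hw hr' g0 g1 g2 hij hi hj
  rwa [norm_mul, Complex.norm_of_nonneg hb.le] at this

end Crest.Agent.R143.Trix106
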