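import Crest.Agent.R143.Tube_707
import Crest.Agent.R143.Exit_707
import Crest.Agent.R143.RBm_838
import Crest.Agent.R143.Sur_313
import Crest.Agent.R143.Frame10_395

/-!
# Row 143 (S0194), block H: the white tube event on `cm0 hS` (helper707)

* `far_conn` : a site outside a square is joined to the hull by sites outside the square
* `lsite_list` : the left sites of a walk of `cm0 hS` are a chain of Delaunay edges
* `TW` : white circuit in the annulus `r1 < |s - z1| < 2 r1` and white crossing of the rectangle `q`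
* `tube_pr` : probability `≥ p`
* `tube_meet` : on `TW` there is a white chain from the outer side of `q` to a left site of every walk
  which enters the inner square
-/

set_option autoImplicit false

noncomputable section

open scoped Classical

namespace Crest.Agent.R143.TubeWx707

open Crest.Agent.R143.B0x346 Crest.Agent.R143.DelGx806 Crest.Agent.R143.DelRx806
open Crest.Agent.R143.ToolWx838 Crest.Agent.R143.Blkx838 Crest.Agent.R143.ToolW2x838
open Crest.Agent.R143.ToolW3x838 Crest.Agent.R143.Circ4x838 Crest.Agent.R143.Harx315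
open Crest.Agent.R143.RB0x838 Crest.Agent.R143.CircPx838 Crest.Agent.R143.Gatex838
open Crest.Agent.R143.CBx838 Crest.Agent.R143.Multix838 Crest.Agent.R143.RBmx838
open Crest.Agent.R143.JColx54
open Crest.Agent.R143.RE0x723 (Pth)
open Crest.Agent.R143.Visx313 (HullS)
open Crest.Agent.R143.Surx313 (Bd surround)
open Crest.Agent.R143.Frame1x395 Crest.Agent.R143.Frame2x395 Crest.Agent.R143.Frame3x395
  Crest.Agent.R143.Frame8x395 Crest.Agent.R143.Frame9x395 Crest.Agent.R143.Frame10x395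
  Crest.Agent.R143.NonXx592
open Crest.Agent.R143.Frame5x395 (sd mem_sd th th_spec)
open Crest.Agent.R143.Tubex707 Crest.Agent.R143.Exitx707

variable {S : Finset ℂ}

/-! ### sites outside a square are joined to the hull -/

/-- a closed chain in an open square does not wind around a point outside of it -/
theorem asum_out {z0 : ℂ} {r : ℝ} {c : List ℂ} (hcl : c.head? = c.getLast?)
    (hup : ∀ s ∈ c, sup (s - z0) < r) {z : ℂ} (hz : r ≤ sup (z - z0)) : asum z c = 0 := by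
  have hup : ∀ s ∈ c, |s.re - z0.re| < r ∧ |s.im - z0.im| < r := by
    intro s hs
    have h1 := hup s hs
    unfold sup at h1
    rw [max_lt_iff, Complex.sub_re, Complex.sub_im] at h1
    exact h1
  unfold sup at hz
  rw [le_max_iff, Complex.sub_re, Complex.sub_im, le_abs, le_abs] at hz
  rcases hz with (hz | hz) | (hz | hz)
  · refine asum_half_closed (u := -1) hcl fun s hs => ?_
    have := (abs_lt.1 (hup s hs).1).2
    rw [div_neg1]; simp; linarith
  · refine asum_half_closed (u := 1) hcl fun s hs => ?_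
    have := (abs_lt.1 (hup s hs).1).1
    rw [div_one]; simp; linarith
  · refine asum_half_closed (u := -Complex.I) hcl fun s hs => ?_
    have := (abs_lt.1 (hup s hs).2).2
    rw [div_negI]; simp; linarith
  · refine asum_half_closed (u := Complex.I) hcl fun s hs => ?_
    have := (abs_lt.1 (hup s hs).2).1
    rw [div_I]; simp; linarith

/-- **a site outside a square is joined to the hull by sites outside the square** -/
theorem far_conn (hS : GP (S : Set ℂ)) (h3 : 3 ≤ S.card) {z : ℂ} {r : ℝ} {q : ℂ} (hq : q ∈ S)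
    (hout : r ≤ sup (q - z)) :
    ∃ a, HullS S a ∧ Pth S {s | s ∈ S ∧ r ≤ sup (s - z)} q a := by
  set F : Set ℂ := {s | s ∈ S ∧ r ≤ sup (s - z)} with hF
  by_contra hcon
  push Not at hcon
  set K : Set ℂ := {v | Pth S F q v} with hK
  have hqK : q ∈ K := ⟨⟨hq, hout⟩, Relation.ReflTransGen.refl⟩
  have hKF : ∀ v ∈ K, v ∈ F := by
    rintro v ⟨h1, h2⟩
    rcases Relation.ReflTransGen.cases_tail h2 with h3 | ⟨c, -, h4⟩
    · rw [h3]; exact h1
    · exact h4.2
  obtain ⟨C, hC, hB, h0⟩ := surround hS h3 (K := K) (fun v hv => (hKF v hv).1)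
    (fun v hv h => hcon v h hv) hqK
  refine h0 (asum_out (z0 := z) (r := r) hC.closed (fun s hs => ?_) hout)
  obtain ⟨h1, h2, u, hu, h4⟩ := hB s hs
  by_contra hc
  push Not at hc
  exact h2 ⟨hu.1, hu.2.tail ⟨h4.symm, h1, hc⟩⟩

/-! ### the left sites of a walk -/

/-- left site of a state of `cm0` -/
def ls (d : D0 S) : ℂ := d.1.1

theorem ls_cell (hS : GP (S : Set ℂ)) (d : D0 S) :
    (cm0 hS).cell d = (Quot.mk _ (ls d) : Quot (hullE S)) := rfl

theorem ls_mem (d : D0 S) : ls d ∈ S := by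
  obtain ⟨c, hc⟩ := mem_sd.1 d.2
  exact (mem_delT.1 hc).1

/-- neighbouring cells -/
theorem nb_de (hS : GP (S : Set ℂ)) {a b : ℂ} (h : DE S a b) :
    Nb (cm0 hS) (Quot.mk _ a) (Quot.mk _ b) := by
  have key : ∀ {a b : ℂ}, (∃ c, (a, b, c) ∈ delT S) →
      Nb (cm0 hS) (Quot.mk _ a) (Quot.mk _ b) := fun {a b} h =>
    ⟨⟨(a, b), mem_sd.2 h⟩, rfl, rfl⟩
  rcases h with h | h
  · exact key h
  · exact nb_symm (key h)

theorem ls_step (hS : GP (S : Set ℂ)) {x : D0 S → ZMod 2} (hx : IsC (cm0 hS) ∅ x) {p : D0 S}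
    (hp : x p = 1) : ls (stp (cm0 hS) x p) = ls p ∨ DE S (ls p) (ls (stp (cm0 hS) x p)) := by
  rcases stp_cases hx hp (Set.notMem_empty _) with ⟨h1, -, e⟩ | ⟨-, h2, e⟩
  · right
    rw [e]
    have hl : (cm0 hS).rho p ∈ (cm0 hS).live := hx.lv h1
    have e1 : (cm0 hS).iota ((cm0 hS).rho p) = ⟨(((cm0 hS).rho p).1.2, ((cm0 hS).rho p).1.1), hl⟩ :=
      io0_live hl
    rw [e1]
    show DE S p.1.1 (th S p.1)
    exact Or.inr ⟨_, delT_rot hS (delT_rot hS (th_spec p.2))⟩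
  · left
    rw [e]
    have hl : (cm0 hS).rho ((cm0 hS).rho p) ∈ (cm0 hS).live := hx.lv h2
    have e1 : (cm0 hS).iota ((cm0 hS).rho ((cm0 hS).rho p)) =
        ⟨(((cm0 hS).rho ((cm0 hS).rho p)).1.2, ((cm0 hS).rho ((cm0 hS).rho p)).1.1), hl⟩ :=
      io0_live hl
    rw [e1]
    have h3 := congrArg (fun e : D0 S => e.1.1) ((cm0 hS).rho3 p)
    exact h3

/-- **the left sites of a walk are a chain** -/
theorem lsite_list (hS : GP (S : Set ℂ)) {x : D0 S → ZMod 2} (hx : IsC (cm0 hS) ∅ x) {p : D0 S}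
    (hp : x p = 1) (n : ℕ) : ∃ l : List ℂ, ∃ hl : l ≠ [], l.head hl = ls p ∧
      l.getLast hl = ls (P (cm0 hS) x p n) ∧ (∀ e ∈ prs l, DE S e.1 e.2) ∧
      ∀ s ∈ l, ∃ j, j ≤ n ∧ s = ls (P (cm0 hS) x p j) := by
  -- built backwards: chain from the time `n` to the time `0`
  suffices h : ∃ l : List ℂ, ∃ hl : l ≠ [], l.head hl = ls (P (cm0 hS) x p n) ∧
      l.getLast hl = ls p ∧ (∀ e ∈ prs l, DE S e.1 e.2) ∧
      ∀ s ∈ l, ∃ j, j ≤ n ∧ s = ls (P (cm0 hS) x p j) by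
    obtain ⟨l, hl, h1, h2, h3, h4⟩ := h
    refine ⟨l.reverse, by simpa using hl, ?_, ?_, ?_, fun s hs => h4 s (List.mem_reverse.1 hs)⟩
    · rw [List.head_reverse]; exact h2
    · rw [List.getLast_reverse]; exact h1
    · intro e he
      rw [prs_reverse, List.mem_reverse, List.mem_map] at he
      obtain ⟨e', he', rfl⟩ := he
      exact (h3 e' he').symm
  induction n with
  | zero => exact ⟨[ls p], by simp, rfl, rfl, by simp, by
      intro s hs
      exact ⟨0, le_rfl, List.mem_singleton.1 hs⟩⟩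
  | succ n ih =>
    obtain ⟨l, hl, h1, h2, h3, h4⟩ := ih
    rcases ls_step hS hx (P_occ hx hp n) with h5 | h5
    · refine ⟨l, hl, ?_, h2, h3, fun s hs => ?_⟩
      · rw [h1, P_succ, h5]
      · obtain ⟨j, hj, e⟩ := h4 s hs
        exact ⟨j, by omega, e⟩
    · rw [← P_succ] at h5
      obtain ⟨a, l', rfl⟩ := List.exists_cons_of_ne_nil hl
      change a = _ at h1
      refine ⟨ls (P (cm0 hS) x p (n + 1)) :: a :: l', by simp, rfl, ?_, ?_, ?_⟩
      · rw [List.getLast_cons (by simp)]; exact h2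
      · intro e he
        rw [prs_cons, List.mem_cons] at he
        rcases he with rfl | he
        · show DE S _ a
          rw [h1]; exact h5.symm
        · exact h3 e he
      · intro s hs
        rcases List.mem_cons.1 hs with rfl | hs
        · exact ⟨n + 1, le_rfl, rfl⟩
        · obtain ⟨j, hj, e⟩ := h4 s hs
          exact ⟨j, by omega, e⟩

/-! ### the tube event -/

/-- white circuit and white crossing (`b` = the black coins) -/
def TW (S V : Finset ℂ) (z1 : ℂ) (r1 : ℝ) (q : Rect) (b : Finset ℂ) : Prop :=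
  (∃ c, CircC S z1 r1 (V \ b) c) ∧ q.Ev S (V \ b)

/-- **probability of the tube event** -/
theorem tube_pr (hRB : RBm) : ∀ k : ℝ, 1 ≤ k → ∀ C4 : ℝ, 0 ≤ C4 →
    ∃ p c1 c2 K : ℝ, 0 < p ∧ 0 < c1 ∧ 0 < c2 ∧ c2 ≤ 1 ∧ 0 < K ∧
    ∀ (S : Finset ℂ) (z0 : ℂ) (R ρ d : ℝ), 0 < ρ → NvA S z0 R c2 ρ d C4 → d ≤ c1 * ρ →
    ∀ V : Finset ℂ, V ⊆ S → ∀ (z1 : ℂ) (r1 : ℝ) (q : Rect), ρ ≤ k * r1 → r1 ≤ ρ →
    ‖z1 - z0‖ + K * ρ ≤ R → ‖q.z - z0‖ + K * ρ ≤ R → q.Fit k ρ →
    (∀ s ∈ S, r1 < sup (s - z1) → sup (s - z1) < 2 * r1 → s ∈ V) →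
    (∀ s ∈ S, q.Reg s → s ∈ V) → p ≤ pr V (TW S V z1 r1 q) := by
  intro k hk C4 hC4
  obtain ⟨p, c1, c2, K, hp, hc1, hc2, hc2', hK, H⟩ := multim hRB k hk C4 hC4
  refine ⟨p ^ 2, c1, c2, K, by positivity, hc1, hc2, hc2', hK, ?_⟩
  intro S z0 R ρ d hρ hN hd V hV z1 r1 q h1 h2 h3 h4 hF hA hQ
  have h5 := H S z0 R ρ d hρ hN hd V ∅ hV (Finset.empty_subset _) (Finset.disjoint_empty_right _)
    [z1] r1 [q] h1 h2 (by simpa using h3) (by simpa using h4) (by simpa using hF)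
    (by simpa using hA) (by simpa using hQ)
  have h6 : pr V (TW S V z1 r1 q) =
      pr V (fun β => (∃ c, CircC S z1 r1 β c) ∧ q.Ev S β) :=
    pr_flip V (fun β => (∃ c, CircC S z1 r1 β c) ∧ q.Ev S β)
  rw [h6]
  refine le_trans (le_of_eq ?_) (h5.trans (le_of_eq ?_))
  · simp
  · apply pr_congr
    intro β _
    simp

/-- **the white chain of the tube event meets every deep walk**: it starts at the outer side of the
rectangle, its sites are white and in the rectangle or in the annulus, its last site is a left site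
of the walk -/
theorem tube_meet (hS : GP (S : Set ℂ)) {V b : Finset ℂ} {z1 : ℂ} {r1 : ℝ} {q : Rect}
    (hT : TW S V z1 r1 q b)
    (ho : ∀ s ∈ V, q.Reg s → Rect.Out q s → 2 * r1 ≤ sup (s - z1))
    (hi : ∀ s ∈ V, q.Reg s → Rect.Inn q s → sup (s - z1) ≤ r1)
    {x : D0 S → ZMod 2} (hx : IsC (cm0 hS) ∅ x) {p : D0 S} (hp : x p = 1) {m : ℕ}
    (h0 : 2 * r1 ≤ sup (ls p - z1)) (hd : ∃ j, j ≤ m ∧ sup (ls (P (cm0 hS) x p j) - z1) ≤ r1) :
    ∃ (w : ℕ → ℂ) (n : ℕ), Rect.Out q (w 0) ∧ q.Reg (w 0) ∧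
      (∀ i, i ≤ n → w i ∈ V \ b ∧ (q.Reg (w i) ∨ (r1 < sup (w i - z1) ∧ sup (w i - z1) < 2 * r1))) ∧
      (∀ i, i < n → DE S (w i) (w (i + 1))) ∧
      ∃ j, j ≤ m ∧ w n = ls (P (cm0 hS) x p j) := by
  obtain ⟨⟨c1, hc1⟩, hq⟩ := hT
  obtain ⟨l, hn, hl, hm, he⟩ := rect_chain hq
  have e0 : Rect.Out q (l.head hn) ∧ Rect.Inn q (l.getLast hn) := by
    unfold Rect.Out Rect.Inn
    split_ifs at he ⊢ with hh
    · exact he
    · exact he
  have mh := hm _ (List.head_mem hn)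
  have ml := hm _ (List.getLast_mem hn)
  have o1 := ho _ (Finset.mem_sdiff.1 mh.1).1 mh.2 e0.1
  have i1 := hi _ (Finset.mem_sdiff.1 ml.1).1 ml.2 e0.2
  obtain ⟨s, hs1, hs2⟩ := meet_circ hS hc1 hn hl (Or.inl ⟨o1, i1⟩)
  obtain ⟨j, hj, hdj⟩ := hd
  obtain ⟨g, hg, g1, g2, g3, g4⟩ := lsite_list hS hx hp j
  obtain ⟨t, ht1, ht2⟩ := meet_circ hS hc1 hg g3 (Or.inl ⟨by rw [g1]; exact h0, by rw [g2]; exact hdj⟩)
  obtain ⟨i, hi', e⟩ := g4 t ht2
  set R : ℂ → Prop := fun s => s ∈ V \ b ∧ (q.Reg s ∨ (r1 < sup (s - z1) ∧ sup (s - z1) < 2 * r1))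
    with hR
  have hc : Rc S R (l.head hn) t :=
    (rc_list hl (fun s hs => ⟨(hm s hs).1, Or.inl (hm s hs).2⟩) (List.head_mem hn) hs2).trans
      (rc_list hc1.loop.del (fun s hs => ⟨hc1.col s hs, Or.inr ⟨hc1.lo s hs, hc1.up s hs⟩⟩)
        hs1 ht1)
  obtain ⟨w, n, w0, wn, hw⟩ := fun_of_rtg hc
  refine ⟨w, n, by rw [w0]; exact e0.1, by rw [w0]; exact mh.2, ?_, fun i hi => (hw i hi).1,
    i, by omega, by rw [wn]; exact e⟩
  intro i hi
  rcases Nat.eq_zero_or_pos i with h | h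
  · rw [h, w0]; exact ⟨mh.1, Or.inl mh.2⟩
  · have := (hw (i - 1) (by omega)).2
    rwa [Nat.sub_add_cancel h] at this

end Crest.Agent.R143.TubeWx707
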