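import Crest.Agent.R143.Multi_838

/-!
# Row 143 (S0194), block H: the tube event, deterministic half (helper707)

* `Rc S R` : adjacency to a site with the property `R`
* `rc_list` : the sites of a chain are connected
* `tube` : a chain (tube) which leaves a circuit `c1` and crosses an outer circuit `c2`, together
  with `c1`, joins a site of `c2` to a site of every chain `Q` which enters `c1`
* `tube_rect` : the same for the events of `Multi_838` (`CircC`, `Rect.Ev`)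
* `fun_of_rtg` : chains as functions `ℕ → _` (form of `Exitx707.join`)
-/

set_option autoImplicit false

noncomputable section

open scoped Classical

namespace Crest.Agent.R143.Tubex707

open Crest.Agent.R143.B0x346 Crest.Agent.R143.DelGx806 Crest.Agent.R143.DelRx806
open Crest.Agent.R143.ToolWx838 Crest.Agent.R143.Blkx838 Crest.Agent.R143.ToolW2x838
open Crest.Agent.R143.ToolW3x838 Crest.Agent.R143.Circ4x838 Crest.Agent.R143.Harx315
open Crest.Agent.R143.RB0x838 Crest.Agent.R143.CircPx838 Crest.Agent.R143.Gatex838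
open Crest.Agent.R143.CBx838 Crest.Agent.R143.Multix838

variable {S : Finset ℂ} {R : ℂ → Prop}

/-- connected by Delaunay edges, all sites after the first one have the property `R` -/
def Rc (S : Finset ℂ) (R : ℂ → Prop) (a b : ℂ) : Prop :=
  Relation.ReflTransGen (fun s t => DE S s t ∧ R t) a b

theorem Rc.refl (a : ℂ) : Rc S R a a := Relation.ReflTransGen.refl

theorem Rc.trans {a b c : ℂ} (h : Rc S R a b) (h' : Rc S R b c) : Rc S R a c :=
  Relation.ReflTransGen.trans h h'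

theorem Rc.mono {R' : ℂ → Prop} (hR : ∀ s, R s → R' s) {a b : ℂ} (h : Rc S R a b) :
    Rc S R' a b := by
  induction h with
  | refl => exact Rc.refl _
  | tail _ h2 ih => exact ih.trans (Relation.ReflTransGen.single ⟨h2.1, hR _ h2.2⟩)

/-- the sites of a chain are connected to its head -/
theorem rc_chain {l : List ℂ} (hd : ∀ p ∈ prs l, DE S p.1 p.2) (hR : ∀ s ∈ l, R s) {a : ℂ}
    (ha : l.head? = some a) : ∀ b ∈ l, Rc S R a b ∧ Rc S R b a := by
  induction l generalizing a with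
  | nil => simp at ha
  | cons c l ih =>
    have hca : c = a := by simpa using ha
    subst hca
    intro b hb
    cases l with
    | nil =>
      have : b = c := by simpa using hb
      subst this
      exact ⟨Rc.refl _, Rc.refl _⟩
    | cons c' l =>
      have h1 : DE S c c' := hd (c, c') (by simp)
      rcases List.mem_cons.1 hb with rfl | hb
      · exact ⟨Rc.refl _, Rc.refl _⟩
      · obtain ⟨i1, i2⟩ := ih (fun p hp => hd p (by rw [prs_cons]; exact List.mem_cons_of_mem _ hp))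
          (fun s hs => hR s (List.mem_cons_of_mem _ hs)) (a := c') rfl b hb
        refine ⟨Rc.trans (Relation.ReflTransGen.single ⟨h1, hR c' (by simp)⟩) i1,
          i2.trans (Relation.ReflTransGen.single ⟨h1.symm, hR c (by simp)⟩)⟩

/-- **the sites of a chain are connected** -/
theorem rc_list {l : List ℂ} (hd : ∀ p ∈ prs l, DE S p.1 p.2) (hR : ∀ s ∈ l, R s) {a b : ℂ}
    (ha : a ∈ l) (hb : b ∈ l) : Rc S R a b := by
  cases l with
  | nil => simp at ha
  | cons c l =>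
    exact (rc_chain hd hR rfl a ha).2.trans (rc_chain hd hR rfl b hb).1

/-- a chain from outside to inside of a circuit has a site on the circuit -/
theorem meet_circ (hS : GP (S : Set ℂ)) {z : ℂ} {r : ℝ} {β : Finset ℂ} {c : List ℂ}
    (hc : CircC S z r β c) {q : List ℂ} (hn : q ≠ []) (hq : ∀ p ∈ prs q, DE S p.1 p.2)
    (h : (2 * r ≤ sup (q.head hn - z) ∧ sup (q.getLast hn - z) ≤ r) ∨
      (2 * r ≤ sup (q.getLast hn - z) ∧ sup (q.head hn - z) ≤ r)) : ∃ s, s ∈ c ∧ s ∈ q := by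
  refine site_of_ne hS hc.loop hq hn ?_
  have hpi := Real.pi_pos
  rcases h with ⟨h1, h2⟩ | ⟨h1, h2⟩
  · rw [hc.out h1, hc.wind _ h2]
    linarith
  · rw [hc.out h1, hc.wind _ h2]
    linarith

/-- **tube and circuits** -/
theorem tube (hS : GP (S : Set ℂ)) {z1 z2 : ℂ} {r1 r2 : ℝ} {β1 β2 : Finset ℂ} {c1 c2 : List ℂ}
    (h1 : CircC S z1 r1 β1 c1) (h2 : CircC S z2 r2 β2 c2) {l : List ℂ} (hn : l ≠ [])
    (hl : ∀ p ∈ prs l, DE S p.1 p.2) (a1 : 2 * r1 ≤ sup (l.head hn - z1))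
    (a2 : sup (l.getLast hn - z1) ≤ r1) (b1 : 2 * r2 ≤ sup (l.head hn - z2))
    (b2 : sup (l.getLast hn - z2) ≤ r2) (hR : ∀ s, s ∈ l ∨ s ∈ c1 → R s) :
    ∃ a, a ∈ c2 ∧ R a ∧ ∀ q : List ℂ, ∀ hq : q ≠ [], (∀ p ∈ prs q, DE S p.1 p.2) →
      ((2 * r1 ≤ sup (q.head hq - z1) ∧ sup (q.getLast hq - z1) ≤ r1) ∨
      (2 * r1 ≤ sup (q.getLast hq - z1) ∧ sup (q.head hq - z1) ≤ r1)) →
      ∃ b, b ∈ q ∧ Rc S R a b := by
  obtain ⟨a, ha1, ha2⟩ := meet_circ hS h2 hn hl (Or.inl ⟨b1, b2⟩)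
  obtain ⟨s, hs1, hs2⟩ := meet_circ hS h1 hn hl (Or.inl ⟨a1, a2⟩)
  refine ⟨a, ha1, hR a (Or.inl ha2), fun q hq hqd hqe => ?_⟩
  obtain ⟨b, hb1, hb2⟩ := meet_circ hS h1 hq hqd hqe
  exact ⟨b, hb2, (rc_list hl (fun s hs => hR s (Or.inl hs)) ha2 hs2).trans
    (rc_list h1.loop.del (fun s hs => hR s (Or.inr hs)) hs1 hb1)⟩

/-! ### the events of `Multi_838` -/

/-- the crossing of a rectangle: chain with one end on each side -/
theorem rect_chain {q : Rect} {β : Finset ℂ} (h : q.Ev S β) : ∃ l : List ℂ, ∃ hn : l ≠ [],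
    (∀ p ∈ prs l, DE S p.1 p.2) ∧ (∀ s ∈ l, s ∈ β ∧ q.Reg s) ∧
    (if q.hor then X q.z q.e (l.head hn) ≤ q.x0 ∧ q.x1 ≤ X q.z q.e (l.getLast hn)
      else Y q.z q.e (l.head hn) ≤ q.y0 ∧ q.y1 ≤ Y q.z q.e (l.getLast hn)) := by
  unfold Rect.Ev at h
  unfold Rect.Reg
  split_ifs at h ⊢ with hq
  · obtain ⟨l, h⟩ := h
    exact ⟨l, h.ne, h.adj, fun s hs => ⟨h.col s hs, h.strip s hs, h.loc s hs⟩, h.left, h.right⟩
  · obtain ⟨l, h⟩ := h
    exact ⟨l, h.ne, h.adj, fun s hs => ⟨h.col s hs, h.strip s hs, h.loc s hs⟩, h.left, h.right⟩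

/-- the sites on the outer side of the rectangle -/
def Rect.Out (q : Rect) (s : ℂ) : Prop :=
  if q.hor then X q.z q.e s ≤ q.x0 else Y q.z q.e s ≤ q.y0

/-- the sites on the inner side of the rectangle -/
def Rect.Inn (q : Rect) (s : ℂ) : Prop :=
  if q.hor then q.x1 ≤ X q.z q.e s else q.y1 ≤ Y q.z q.e s

/-- **tube and circuits**, events of `Multi_838`; the sites of the joining chain are in `β` and in
the rectangle or in the annulus -/
theorem tube_rect (hS : GP (S : Set ℂ)) {z1 z2 : ℂ} {r1 r2 : ℝ} {β β2 : Finset ℂ} {c2 : List ℂ}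
    {q : Rect} (h1 : ∃ c, CircC S z1 r1 β c) (hq : q.Ev S β) (h2 : CircC S z2 r2 β2 c2)
    (ho : ∀ s, q.Reg s → Rect.Out q s → 2 * r1 ≤ sup (s - z1) ∧ 2 * r2 ≤ sup (s - z2))
    (hi : ∀ s, q.Reg s → Rect.Inn q s → sup (s - z1) ≤ r1 ∧ sup (s - z2) ≤ r2) :
    ∃ a, a ∈ c2 ∧ a ∈ β ∧ q.Reg a ∧ ∀ g : List ℂ, ∀ hg : g ≠ [], (∀ p ∈ prs g, DE S p.1 p.2) →
      ((2 * r1 ≤ sup (g.head hg - z1) ∧ sup (g.getLast hg - z1) ≤ r1) ∨
      (2 * r1 ≤ sup (g.getLast hg - z1) ∧ sup (g.head hg - z1) ≤ r1)) →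
      ∃ b, b ∈ g ∧ Rc S (fun s => s ∈ β ∧ (q.Reg s ∨ (r1 < sup (s - z1) ∧ sup (s - z1) < 2 * r1)))
        a b := by
  obtain ⟨c1, hc1⟩ := h1
  obtain ⟨l, hn, hl, hm, he⟩ := rect_chain hq
  have e0 : Rect.Out q (l.head hn) ∧ Rect.Inn q (l.getLast hn) := by
    unfold Rect.Out Rect.Inn
    split_ifs at he ⊢ with hh
    · exact he
    · exact he
  obtain ⟨o1, o2⟩ := ho _ (hm _ (List.head_mem hn)).2 e0.1
  obtain ⟨i1, i2⟩ := hi _ (hm _ (List.getLast_mem hn)).2 e0.2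
  obtain ⟨a, ha1, ha2⟩ := meet_circ hS h2 hn hl (Or.inl ⟨o2, i2⟩)
  obtain ⟨s, hs1, hs2⟩ := meet_circ hS hc1 hn hl (Or.inl ⟨o1, i1⟩)
  refine ⟨a, ha1, (hm a ha2).1, (hm a ha2).2, fun g hg hgd hge => ?_⟩
  obtain ⟨b, hb1, hb2⟩ := meet_circ hS hc1 hg hgd hge
  exact ⟨b, hb2, (rc_list hl (fun s hs => ⟨(hm s hs).1, Or.inl (hm s hs).2⟩) ha2 hs2).trans
    (rc_list hc1.loop.del (fun s hs => ⟨hc1.col s hs, Or.inr ⟨hc1.lo s hs, hc1.up s hs⟩⟩) hs1 hb1)⟩

/-! ### chains as functions -/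

theorem fun_of_rtg {A : Type*} {r : A → A → Prop} {a b : A} (h : Relation.ReflTransGen r a b) :
    ∃ (w : ℕ → A) (n : ℕ), w 0 = a ∧ w n = b ∧ ∀ i, i < n → r (w i) (w (i + 1)) := by
  induction h with
  | refl => exact ⟨fun _ => a, 0, rfl, rfl, fun i hi => absurd hi (Nat.not_lt_zero i)⟩
  | @tail b c _ h2 ih =>
    obtain ⟨w, n, h0, hn, hw⟩ := ih
    refine ⟨fun i => if i ≤ n then w i else c, n + 1, ?_, ?_, ?_⟩
    · show (if 0 ≤ n then w 0 else c) = a
      rw [if_pos (Nat.zero_le n), h0]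
    · show (if n + 1 ≤ n then w (n + 1) else c) = c
      rw [if_neg (by omega)]
    · intro i hi
      show r (if i ≤ n then w i else c) (if i + 1 ≤ n then w (i + 1) else c)
      rw [if_pos (show i ≤ n by omega)]
      rcases Nat.lt_or_ge i n with h3 | h3
      · rw [if_pos (show i + 1 ≤ n by omega)]
        exact hw i h3
      · have e : i = n := by omega
        rw [e, if_neg (by omega), hn]
        exact h2

end Crest.Agent.R143.Tubex707
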