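import Crest.Agent.R143.RingWD_445
import Crest.Agent.R143.Tpl3_978
import Crest.Agent.R143.Fair_653

/-!
# Row 143 (S0194), block H, note 4372: the arm box in standard position gives all arms (helper366)

* `up y` : translation by `i y`; `Up P P' h y j a` : the gate `a` of `P'` is the gate `j` of `P` moved
  up by `y`, both tiles straight
* **`AB T A B h y Cu F0 c₁`** : the arm box in STANDARD POSITION: column `Cu` (off the two tiles),
  event `F0`, the annealed lower bound `c₁` almost surely on good gates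
* `AB.of_raw` : the same from the raw (unforced) events of 978's `Raw`
* `cutC`, **`AB.of_col`** : the column may overlap the tiles (off the four gate boxes)
* `colT`, `FT` : column and event of the arm at the gate `j`
* **`hc`** : the hypothesis of `TwoNx366.arms_two_ae` at every gate
* **`arms_ring`** : `c₁^m ∫ gO ∫ gO' ≤ ∫ gO gO' ∏ F`; `arm_wd` : field `arm` of 445's `wd_ev`
-/

set_option autoImplicit false

noncomputable section

open scoped Classical

namespace Crest.Agent.R143.TwoRx366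

open MeasureTheory Set Filter Topology
open Crest.ProbabilityR.Voronoi
open Crest.Agent.R143.PP0x831 Crest.Agent.R143.Poisx304 Crest.Agent.R143.Janx304
open Crest.Agent.R143.IndLocx279 Crest.Agent.R143.PWx978 Crest.Agent.R143.Tplx978
open Crest.Agent.R143.TileRx228 Crest.Agent.R143.PthFx765 Crest.Agent.R143.CorNx765
open Crest.Agent.R143.TplIx204 Crest.Agent.R143.RngNx765 Crest.Agent.R143.TwoNx366
open Crest.Agent.R143.RingLx239 Crest.Agent.R143.RingWDx445
open scoped ENNReal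

variable {M M' : ℕ} {W W' : ℤ → ℤ × ℤ} {A B h y ε : ℝ} {T : Tpl ε (Tn × Bool)}

/-! ### the frame above -/

/-- translation by `i y` -/
def up (y : ℝ) : Fr := Fr.aff ((y : ℂ) * Complex.I) 1 (by simp)

theorem up_apply (y : ℝ) (z : ℂ) : (up y).e z = (y : ℂ) * Complex.I + z := by
  unfold up
  rw [Fr.aff_apply, one_mul]

/-- the gate `a` of `P'` is above the gate `j` of `P`; both tiles are straight -/
structure Up (W W' : ℤ → ℤ × ℤ) (h y : ℝ) (j a : ℤ) : Prop where
  s : tn W j = Tn.S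
  s' : tn W' a = Tn.S
  g : ge W' a = ge W j
  z : gz h W' a = gz h W j + ge W j * ((y : ℂ) * Complex.I)

theorem Up.frm (P : FPath M W) (P' : FPath M' W') {j a : ℤ} (H : Up W W' h y j a) (z : ℂ) :
    (frm P' h a).e z = (frm P h j).e ((up y).e z) := by
  rw [frm_apply, frm_apply, up_apply, H.z, H.g]
  ring

theorem Up.frm_symm (P : FPath M W) (P' : FPath M' W') {j a : ℤ} (H : Up W W' h y j a) (z : ℂ) :
    (PthFx765.frm P' h a).e.symm z = (up y).e.symm ((PthFx765.frm P h j).e.symm z) := by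
  have h1 := H.frm P P' ((up y).e.symm ((PthFx765.frm P h j).e.symm z))
  rw [MeasurableEquiv.apply_symm_apply, MeasurableEquiv.apply_symm_apply] at h1
  rw [← h1, MeasurableEquiv.symm_apply_apply, h1]

/-- functions of the gates above -/
theorem Up.tr (P : FPath M W) (P' : FPath M' W') {j a : ℤ} (H : Up W W' h y j a) {X : Type*}
    (F : Cf → X) (S : Cf) :
    Tplx978.tr (PthFx765.frm P' h a).e F S =
      Tplx978.tr (PthFx765.frm P h j).e (Tplx978.tr (up y).e F) S := by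
  unfold Tplx978.tr
  rw [mv_mv]
  exact congrArg F (mv_congr (fun z => H.frm_symm P P' z) S)

theorem tr_succ (P : FPath M W) (j : ℤ) {X : Type*} (F : Cf → X) (S : Cf) :
    tr (frm P h (j + 1)).e F S = tr (frm P h j).e (tr (nxt h (tn W j)).e F) S := by
  unfold tr
  rw [mv_mv]
  exact congrArg F (mv_congr (fun z => frm_symm_succ P h j z) S)

/-! ### the arm box -/

/-- the two tiles in standard position and the column -/
def UB (A B h y : ℝ) (Cu : Set ℂ) : Set ℂ :=
  (WR A B h Tn.S ∪ (up y).e.symm ⁻¹' WR A B h Tn.S) ∪ Cu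

/-- the region which is integrated out -/
def DB (A B h y : ℝ) (Cu : Set ℂ) : Set ℂ :=
  (WD A B h Tn.S ∪ (up y).e.symm ⁻¹' WD A B h Tn.S) ∪ Cu

/-- the product of the two tile events and the arm -/
def GB0 (T : Tpl ε (Tn × Bool)) (y : ℝ) (F0 : Cf → ℝ≥0∞) (X : Cf) : ℝ≥0∞ :=
  (T.E (Tn.S, true) X * tr (up y).e (T.E (Tn.S, false)) X) * F0 X

/-- **the arm box in standard position** -/
structure AB (T : Tpl ε (Tn × Bool)) (A B h y : ℝ) (Cu : Set ℂ) (F0 : Cf → ℝ≥0∞) (c₁ : ℝ≥0∞) :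
    Prop where
  Cm : MeasurableSet Cu
  Cb : Bornology.IsBounded Cu
  Fl : LocalOn (UB A B h y Cu) F0
  Fm : FinMeas F0
  lo : ∀ᵐ ω ∂sampleLaw, T.A (cfg ε ω) ≠ 0 → tr (nxt h Tn.S).e T.A (cfg ε ω) ≠ 0 →
    tr (up y).e T.A (cfg ε ω) ≠ 0 → tr (up y).e (tr (nxt h Tn.S).e T.A) (cfg ε ω) ≠ 0 →
    c₁ ≤ Rs ε (DB A B h y Cu) (GB0 T y F0) (cfg ε ω)

variable {Cu : Set ℂ} {F0 : Cf → ℝ≥0∞} {c₁ : ℝ≥0∞}

theorem fo_ge {c : ℝ≥0∞} {D : Set ℂ} {E : Cf → ℝ≥0∞} (hE : ∀ S, E S ≤ 1) (S : Cf) :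
    E S ≤ fo ε c D E S := by
  by_cases h : c ≤ Rs ε D E S
  · rw [fo_eq h]
  · rw [fo_eq' h]
    exact hE S

/-- **the lower bound for the raw events is enough** -/
theorem AB.of_raw {R : Raw ε (Tn × Bool)} (Cm : MeasurableSet Cu) (Cb : Bornology.IsBounded Cu)
    (Fl : LocalOn (UB A B h y Cu) F0) (Fm : FinMeas F0)
    (lo : ∀ᵐ ω ∂sampleLaw, R.A (cfg ε ω) ≠ 0 → tr (nxt h Tn.S).e R.A (cfg ε ω) ≠ 0 →
      tr (up y).e R.A (cfg ε ω) ≠ 0 → tr (up y).e (tr (nxt h Tn.S).e R.A) (cfg ε ω) ≠ 0 →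
      c₁ ≤ Rs ε (DB A B h y Cu)
        (fun X => (R.E (Tn.S, true) X * tr (up y).e (R.E (Tn.S, false)) X) * F0 X) (cfg ε ω)) :
    AB R.tpl A B h y Cu F0 c₁ where
  Cm := Cm
  Cb := Cb
  Fl := Fl
  Fm := Fm
  lo := by
    filter_upwards [lo] with ω hω a1 a2 a3 a4
    refine (hω a1 a2 a3 a4).trans (Fairx653.Rs_mono (fun X => ?_) _)
    unfold GB0
    exact mul_le_mul' (mul_le_mul' (fo_ge (R.E1 _) X) (fo_ge (R.E1 _) _)) le_rfl

/-- the column minus the two tiles -/
def cutC (A B h y : ℝ) (Cu : Set ℂ) : Set ℂ :=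
  Cu \ (WR A B h Tn.S ∪ (up y).e.symm ⁻¹' WR A B h Tn.S)

/-- a column off the four gate boxes may be cut -/
theorem DB_cut {Cu : Set ℂ} (h1 : Disjoint Cu (WQ A B h))
    (h2 : Disjoint Cu ((nxt h Tn.S).e.symm ⁻¹' WQ A B h))
    (h3 : Disjoint Cu ((up y).e.symm ⁻¹' WQ A B h))
    (h4 : Disjoint Cu ((up y).e.symm ⁻¹' ((nxt h Tn.S).e.symm ⁻¹' WQ A B h))) :
    DB A B h y (cutC A B h y Cu) = DB A B h y Cu := by
  unfold DB cutC
  refine Subset.antisymm (union_subset_union_right _ sdiff_subset) ?_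
  rintro z (hz | hz)
  · exact Or.inl hz
  · by_cases h5 : z ∈ WR A B h Tn.S
    · exact Or.inl (Or.inl ⟨h5, fun h6 => h6.elim (Set.disjoint_left.1 h1 hz)
        (Set.disjoint_left.1 h2 hz)⟩)
    by_cases h6 : z ∈ (up y).e.symm ⁻¹' WR A B h Tn.S
    · refine Or.inl (Or.inr ⟨h6, fun h7 => h7.elim (fun h8 => Set.disjoint_left.1 h3 hz h8)
        fun h8 => Set.disjoint_left.1 h4 hz h8⟩)
    · exact Or.inr ⟨hz, fun h7 => h7.elim h5 h6⟩

theorem UB_cut {Cu : Set ℂ} : UB A B h y (cutC A B h y Cu) = UB A B h y Cu := by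
  unfold UB cutC
  refine Subset.antisymm (union_subset_union_right _ sdiff_subset) ?_
  rintro z (hz | hz)
  · exact Or.inl hz
  · by_cases h5 : z ∈ WR A B h Tn.S ∪ (up y).e.symm ⁻¹' WR A B h Tn.S
    · exact Or.inl h5
    · exact Or.inr ⟨hz, h5⟩

theorem cut_meas {Cu : Set ℂ} (hC : MeasurableSet Cu) : MeasurableSet (cutC A B h y Cu) :=
  hC.diff ((WR_meas _).union ((up y).e.symm.measurable (WR_meas _)))

/-- **the box with a column off the gate boxes** (345's form), raw events -/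
theorem AB.of_col {R : Raw ε (Tn × Bool)} {Cu : Set ℂ} (Cm : MeasurableSet Cu)
    (Cb : Bornology.IsBounded Cu) (h1 : Disjoint Cu (WQ A B h))
    (h2 : Disjoint Cu ((nxt h Tn.S).e.symm ⁻¹' WQ A B h))
    (h3 : Disjoint Cu ((up y).e.symm ⁻¹' WQ A B h))
    (h4 : Disjoint Cu ((up y).e.symm ⁻¹' ((nxt h Tn.S).e.symm ⁻¹' WQ A B h)))
    (Fl : LocalOn (UB A B h y Cu) F0) (Fm : FinMeas F0)
    (lo : ∀ᵐ ω ∂sampleLaw, R.A (cfg ε ω) ≠ 0 → tr (nxt h Tn.S).e R.A (cfg ε ω) ≠ 0 →
      tr (up y).e R.A (cfg ε ω) ≠ 0 → tr (up y).e (tr (nxt h Tn.S).e R.A) (cfg ε ω) ≠ 0 →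
      c₁ ≤ Rs ε (DB A B h y Cu)
        (fun X => (R.E (Tn.S, true) X * tr (up y).e (R.E (Tn.S, false)) X) * F0 X) (cfg ε ω)) :
    AB R.tpl A B h y (cutC A B h y Cu) F0 c₁ := by
  refine AB.of_raw (cut_meas Cm) (Cb.subset sdiff_subset) ?_ Fm ?_
  · rw [UB_cut]
    exact Fl
  · rw [DB_cut h1 h2 h3 h4]
    exact lo

theorem wq_wr (Hs : Std T A B h Prod.fst) : WQ A B h ⊆ WR A B h Tn.S :=
  WQ_sub Hs.hA Hs.hB _

theorem wq_wr' (Hs : Std T A B h Prod.fst) :
    (nxt h Tn.S).e.symm ⁻¹' WQ A B h ⊆ WR A B h Tn.S := WQ_sub' Hs.hA Hs.hB _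

theorem UB_meas (hC : MeasurableSet Cu) : MeasurableSet (UB A B h y Cu) :=
  ((WR_meas _).union ((up y).e.symm.measurable (WR_meas _))).union hC

theorem UB_bdd (hC : Bornology.IsBounded Cu) : Bornology.IsBounded (UB A B h y Cu) :=
  ((WR_bdd _).union ((up y).bdd' _ (WR_bdd _))).union hC

theorem DB_meas (hC : MeasurableSet Cu) : MeasurableSet (DB A B h y Cu) :=
  ((WD_meas _).union ((up y).e.symm.measurable (WD_meas _))).union hC

theorem DB_bdd (hC : Bornology.IsBounded Cu) : Bornology.IsBounded (DB A B h y Cu) :=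
  ((WD_bdd _).union ((up y).bdd' _ (WD_bdd _))).union hC

/-- locality of the tile events -/
theorem E_local (Hs : Std T A B h Prod.fst) (b : Bool) :
    LocalOn (WR A B h Tn.S) (T.E (Tn.S, b)) := by
  have h1 := T.El (Tn.S, b)
  rw [Hs.Q, Hs.D, Hs.nx, WR_eq Hs.hA Hs.hB] at h1
  exact h1

theorem G_local (Hs : Std T A B h Prod.fst) (H : AB T A B h y Cu F0 c₁) :
    LocalOn (UB A B h y Cu) (GB0 T y F0) := by
  refine LocalOn.mul (LocalOn.mul ?_ ?_) H.Fl
  · exact LocalOn.mono (subset_union_left.trans subset_union_left) (E_local Hs true)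
  · exact LocalOn.mono (subset_union_right.trans subset_union_left)
      (tr_local (up y).e (E_local Hs false))

theorem G_fm (H : AB T A B h y Cu F0 c₁) : FinMeas (GB0 T y F0) :=
  fm_mul (fm_mul (T.Em _) (tr_fm _ (T.Em _))) H.Fm

/-- the almost sure statement of the box -/
def pAB (T : Tpl ε (Tn × Bool)) (A B h y : ℝ) (Cu : Set ℂ) (F0 : Cf → ℝ≥0∞) (c₁ : ℝ≥0∞) (S : Cf) :
    Prop :=
  T.A S ≠ 0 → tr (nxt h Tn.S).e T.A S ≠ 0 →
    tr (up y).e T.A S ≠ 0 → tr (up y).e (tr (nxt h Tn.S).e T.A) S ≠ 0 →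
    c₁ ≤ Rs ε (DB A B h y Cu) (GB0 T y F0) S

theorem A_loc (Hs : Std T A B h Prod.fst) : LocalOn (WR A B h Tn.S) T.A := by
  have h1 := T.Al
  rw [Hs.Q] at h1
  exact LocalOn.mono (wq_wr Hs) h1

theorem A_loc' (Hs : Std T A B h Prod.fst) : LocalOn (WR A B h Tn.S) (tr (nxt h Tn.S).e T.A) := by
  have h1 := T.Al
  rw [Hs.Q] at h1
  exact LocalOn.mono (wq_wr' Hs) (tr_local _ h1)

theorem pAB_local (Hs : Std T A B h Prod.fst) (H : AB T A B h y Cu F0 c₁) :
    LocalOn (UB A B h y Cu) (pAB T A B h y Cu F0 c₁) := by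
  have l1 : LocalOn (UB A B h y Cu) T.A :=
    LocalOn.mono (subset_union_left.trans subset_union_left) (A_loc Hs)
  have l2 : LocalOn (UB A B h y Cu) (tr (nxt h Tn.S).e T.A) :=
    LocalOn.mono (subset_union_left.trans subset_union_left) (A_loc' Hs)
  have l3 : LocalOn (UB A B h y Cu) (tr (up y).e T.A) :=
    LocalOn.mono (subset_union_right.trans subset_union_left) (tr_local _ (A_loc Hs))
  have l4 : LocalOn (UB A B h y Cu) (tr (up y).e (tr (nxt h Tn.S).e T.A)) :=
    LocalOn.mono (subset_union_right.trans subset_union_left) (tr_local _ (A_loc' Hs))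
  have l5 : LocalOn (UB A B h y Cu) (Rs ε (DB A B h y Cu) (GB0 T y F0)) :=
    LocalOn.mono sdiff_subset (Rs_local T.eps (DB_meas H.Cm) (DB_bdd H.Cb) (G_local Hs H))
  intro S
  have e1 : T.A S = T.A (S ∩ ovr (UB A B h y Cu)) := l1 S
  have e2 : tr (nxt h Tn.S).e T.A S = tr (nxt h Tn.S).e T.A (S ∩ ovr (UB A B h y Cu)) := l2 S
  have e3 : tr (up y).e T.A S = tr (up y).e T.A (S ∩ ovr (UB A B h y Cu)) := l3 S
  have e4 : tr (up y).e (tr (nxt h Tn.S).e T.A) S =
    tr (up y).e (tr (nxt h Tn.S).e T.A) (S ∩ ovr (UB A B h y Cu)) := l4 S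
  have e5 : Rs ε (DB A B h y Cu) (GB0 T y F0) S =
    Rs ε (DB A B h y Cu) (GB0 T y F0) (S ∩ ovr (UB A B h y Cu)) := l5 S
  change pAB T A B h y Cu F0 c₁ S = pAB T A B h y Cu F0 c₁ (S ∩ ovr (UB A B h y Cu))
  unfold pAB
  rw [← e1, ← e2, ← e3, ← e4, ← e5]

theorem fm_imp {p q : Cf → Prop} (hp : FinMeas p) (hq : FinMeas q) :
    FinMeas fun S => p S → q S := by
  intro n
  refine measurableSet_setOfPred.1 ?_
  have m1 : MeasurableSet {z : Fin n → ℂ × Bool | p (range z)} := measurableSet_setOfPred.2 (hp n)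
  have m2 : MeasurableSet {z : Fin n → ℂ × Bool | q (range z)} := measurableSet_setOfPred.2 (hq n)
  have e : {z : Fin n → ℂ × Bool | p (range z) → q (range z)} =
      {z : Fin n → ℂ × Bool | p (range z)}ᶜ ∪ {z : Fin n → ℂ × Bool | q (range z)} := by
    ext z
    simp only [mem_ofPred_eq, mem_union, mem_compl_iff]
    tauto
  rw [e]
  exact m1.compl.union m2

theorem fm_ne {F : Cf → ℝ≥0∞} (hF : FinMeas F) : FinMeas fun S => F S ≠ 0 := by
  intro n
  exact measurableSet_setOfPred.1 ((hF n) (measurableSet_singleton 0).compl)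

theorem pAB_fm (H : AB T A B h y Cu F0 c₁) : FinMeas (pAB T A B h y Cu F0 c₁) := by
  refine fm_imp (fm_ne T.Am) (fm_imp (fm_ne (tr_fm _ T.Am)) (fm_imp (fm_ne (tr_fm _ T.Am))
    (fm_imp (fm_ne (tr_fm _ (tr_fm _ T.Am))) ?_)))
  intro n
  exact measurableSet_setOfPred.1
    (measurableSet_le measurable_const (Rs_meas T.eps (DB_meas H.Cm) (DB_bdd H.Cb) (G_fm H) n))

/-! ### all gates -/

/-- the column at the gate `j` -/
def colT (P : FPath M W) (h : ℝ) (Cu : Set ℂ) (j : ℤ) : Set ℂ := (frm P h j).e.symm ⁻¹' Cu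

/-- the arm at the gate `j` -/
def FT (P : FPath M W) (h : ℝ) (F0 : Cf → ℝ≥0∞) (j : ℤ) : Cf → ℝ≥0∞ := tr (frm P h j).e F0

section gates

variable (P : FPath M W) (P' : FPath M' W') (Hs : Std T A B h Prod.fst)

theorem rN (b : Bool) (k : ZMod M) : (rpth P Hs b).net.N k = {k, k + 1} := rfl

/-- **the annealed bound at every gate** = hypothesis `hc` of `arms_two_ae` -/
theorem hc [Fintype (ZMod M)] [Fintype (ZMod M')] (H : AB T A B h y Cu F0 c₁) {j a : ℤ}
    (hu : Up W W' h y j a) :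
    ∀ᵐ ω ∂sampleLaw, (∀ i ∈ (rpth P Hs true).net.N (j : ZMod M),
        (rpth P Hs true).net.a i (cfg ε ω) ≠ 0) →
      (∀ i ∈ (rpth P' Hs false).net.N (a : ZMod M'), (rpth P' Hs false).net.a i (cfg ε ω) ≠ 0) →
      c₁ ≤ Rs ε (((rpth P Hs true).net.C (j : ZMod M) ∪ (rpth P' Hs false).net.C (a : ZMod M')) ∪
          colT P h Cu j)
        (fun S => ((rpth P Hs true).net.e (j : ZMod M) S *
          (rpth P' Hs false).net.e (a : ZMod M') S) * FT P h F0 j S) (cfg ε ω) := by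
  have h1 := ae_tr T.eps (frm P h j) (UB_meas H.Cm) (UB_bdd H.Cb) (pAB_local Hs H) (pAB_fm H) H.lo
  filter_upwards [h1] with ω hω hN hN'
  have a1 : (rpth P Hs true).net.a (j : ZMod M) = tr (frm P h j).e T.A :=
    net_a P Hs (rty_typ true) j
  have a2 : (rpth P Hs true).net.a ((j : ZMod M) + 1) = tr (frm P h (j + 1)).e T.A := by
    have := net_a P Hs (rty_typ true) (j + 1)
    push_cast at this
    exact this
  have a3 : (rpth P' Hs false).net.a (a : ZMod M') = tr (frm P' h a).e T.A :=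
    net_a P' Hs (rty_typ false) a
  have a4 : (rpth P' Hs false).net.a ((a : ZMod M') + 1) = tr (frm P' h (a + 1)).e T.A := by
    have := net_a P' Hs (rty_typ false) (a + 1)
    push_cast at this
    exact this
  have n1 := hN (j : ZMod M) (by rw [rN]; exact Finset.mem_insert_self _ _)
  have n2 := hN ((j : ZMod M) + 1) (by
    rw [rN]; exact Finset.mem_insert_of_mem (Finset.mem_singleton_self _))
  have n3 := hN' (a : ZMod M') (by rw [rN]; exact Finset.mem_insert_self _ _)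
  have n4 := hN' ((a : ZMod M') + 1) (by
    rw [rN]; exact Finset.mem_insert_of_mem (Finset.mem_singleton_self _))
  rw [a1] at n1
  rw [a2, tr_succ, hu.s] at n2
  rw [a3, hu.tr P P'] at n3
  rw [a4, tr_succ, hu.s', hu.tr P P'] at n4
  have key := hω n1 n2 n3 n4
  have e1 : tr (frm P h j).e (Rs ε (DB A B h y Cu) (GB0 T y F0)) (cfg ε ω) =
      Rs ε ((frm P h j).e.symm ⁻¹' DB A B h y Cu) (tr (frm P h j).e (GB0 T y F0)) (cfg ε ω) :=
    (Raw.Rs_tr_cfg T.eps (frm P h j) (DB_meas H.Cm) (DB_bdd H.Cb) (UB_bdd H.Cb) (G_fm H)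
      (G_local Hs H) ω).symm
  have key2 : c₁ ≤ tr (frm P h j).e (Rs ε (DB A B h y Cu) (GB0 T y F0)) (cfg ε ω) := key
  rw [e1] at key2
  have c1 : (rpth P Hs true).net.C (j : ZMod M) = (frm P h j).e.symm ⁻¹' WD A B h Tn.S := by
    have := net_C P Hs (rty_typ (W := W) true) j
    unfold rpth
    rw [this]
    ext s
    rw [mem_preimage, ← hu.s, mem_WD]
  have c2 : (rpth P' Hs false).net.C (a : ZMod M') =
      (frm P h j).e.symm ⁻¹' ((up y).e.symm ⁻¹' WD A B h Tn.S) := by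
    have := net_C P' Hs (rty_typ (W := W') false) a
    unfold rpth
    rw [this]
    ext s
    rw [mem_preimage, mem_preimage, ← hu.frm_symm P P', ← hu.s', mem_WD]
  have e2 : (frm P h j).e.symm ⁻¹' DB A B h y Cu =
      ((rpth P Hs true).net.C (j : ZMod M) ∪ (rpth P' Hs false).net.C (a : ZMod M')) ∪
        colT P h Cu j := by
    unfold DB colT
    rw [preimage_union, preimage_union, c1, c2]
  have d1 : (rpth P Hs true).net.e (j : ZMod M) = tr (frm P h j).e (T.E (Tn.S, true)) := by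
    have := net_e P Hs (rty_typ (W := W) true) j
    rw [rty_cast P, hu.s] at this
    exact this
  have d2 : (rpth P' Hs false).net.e (a : ZMod M') = tr (frm P' h a).e (T.E (Tn.S, false)) := by
    have := net_e P' Hs (rty_typ (W := W') false) a
    rw [rty_cast P', hu.s'] at this
    exact this
  have e3 : tr (frm P h j).e (GB0 T y F0) =
      fun S => ((rpth P Hs true).net.e (j : ZMod M) S *
          (rpth P' Hs false).net.e (a : ZMod M') S) * FT P h F0 j S := by
    funext S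
    rw [d1, d2, hu.tr P P']
    rfl
  rw [e2, e3] at key2
  exact key2

include P' in
/-- the region of the arm -/
theorem FT_local (H : AB T A B h y Cu F0 c₁) {j a : ℤ} (hu : Up W W' h y j a) :
    LocalOn ((RR A B h W j ∪ RR A B h W' a) ∪ colT P h Cu j) (FT P h F0 j) := by
  have h1 := tr_local (frm P h j).e H.Fl
  refine LocalOn.mono ?_ h1
  unfold UB colT
  rw [preimage_union, preimage_union]
  refine union_subset_union_left _ (union_subset_union ?_ ?_)
  · intro s hs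
    rw [mem_preimage, ← hu.s, mem_WR] at hs
    exact hs
  · intro s hs
    rw [mem_preimage, mem_preimage, ← hu.frm_symm P P', ← hu.s', mem_WR] at hs
    exact hs

/-- the region of a tile of the net -/
theorem RR_net (b : Bool) (j : ℤ) : RR A B h W j =
    (⋃ i ∈ (rpth P Hs b).net.N (j : ZMod M), (rpth P Hs b).net.B i) ∪
      (rpth P Hs b).net.C (j : ZMod M) := by
  have c1 : (rpth P Hs b).net.C (j : ZMod M) = TB A B h W j := net_C P Hs (rty_typ (W := W) b) j
  have b1 : (rpth P Hs b).net.B (j : ZMod M) = GB A B h W j := net_B P Hs (rty_typ (W := W) b) j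
  have b2 : (rpth P Hs b).net.B ((j : ZMod M) + 1) = GB A B h W (j + 1) := by
    have := net_B P Hs (rty_typ (W := W) b) (j + 1)
    push_cast at this
    exact this
  have n1 : (rpth P Hs b).net.N (j : ZMod M) = {(j : ZMod M), (j : ZMod M) + 1} := rfl
  rw [n1, Finset.set_biUnion_insert, Finset.set_biUnion_singleton, b1, b2, c1]
  refine Subset.antisymm ?_ ?_
  · intro s hs
    by_cases h1 : s ∈ GB A B h W j ∪ GB A B h W (j + 1)
    · exact Or.inl h1
    · exact Or.inr ⟨hs, h1⟩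
  · refine union_subset (union_subset (GB_sub P Hs.hA Hs.hB j) (GB_sub' P Hs.hA Hs.hB j)) ?_
    exact fun s hs => hs.1

/-- two indices without common gates -/
def Off2 (M : ℕ) (i j : ℤ) : Prop :=
  ¬ (M : ℤ) ∣ j - i ∧ ¬ (M : ℤ) ∣ j - i + 1 ∧ ¬ (M : ℤ) ∣ j - i - 1

theorem cast_ne {i j : ℤ} (hd : ¬ (M : ℤ) ∣ j - i) : (i : ZMod M) ≠ (j : ZMod M) := fun he =>
  hd ((ZMod.intCast_eq_intCast_iff_dvd_sub i j M).1 he)

theorem Off2.ne {i j : ℤ} (H : Off2 M i j) : (i : ZMod M) ≠ (j : ZMod M) := cast_ne H.1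

theorem Off2.disj {i j : ℤ} (H : Off2 M i j) :
    Disjoint ({(i : ZMod M), (i : ZMod M) + 1} : Finset (ZMod M)) {(j : ZMod M), (j : ZMod M) + 1} := by
  rw [Finset.disjoint_left]
  intro x hx hx'
  rw [Finset.mem_insert, Finset.mem_singleton] at hx hx'
  obtain ⟨h0, h1, h2⟩ := H
  rcases hx with rfl | rfl
  · rcases hx' with he | he
    · exact cast_ne h0 he
    · refine cast_ne (i := i) (j := j + 1) ?_ (by rw [he]; push_cast; ring)
      rwa [show j + 1 - i = j - i + 1 by ring]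
  · rcases hx' with he | he
    · refine cast_ne (i := i + 1) (j := j) ?_ (by rw [← he]; push_cast; ring)
      rwa [show j - (i + 1) = j - i - 1 by ring]
    · exact cast_ne h0 (add_right_cancel he)

/-- **ALL ARMS** -/
theorem arms_ring [Fintype (ZMod M)] [Fintype (ZMod M')]
    (hd : Disjoint (Rall A B h W) (Rall A B h W')) (H : AB T A B h y Cu F0 c₁) {α : Type*}
    (s : Finset α) {j a : α → ℤ} (hu : ∀ t ∈ s, Up W W' h y (j t) (a t))
    (hj : ∀ t ∈ s, ∀ t' ∈ s, t ≠ t' → Off2 M (j t) (j t'))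
    (ha : ∀ t ∈ s, ∀ t' ∈ s, t ≠ t' → Off2 M' (a t) (a t'))
    (hC : ∀ t ∈ s, ∀ t' ∈ s, t ≠ t' → Disjoint (colT P h Cu (j t)) (colT P h Cu (j t')))
    (hW : ∀ t ∈ s, Disjoint (colT P h Cu (j t)) (Rall A B h W))
    (hW' : ∀ t ∈ s, Disjoint (colT P h Cu (j t)) (Rall A B h W')) :
    c₁ ^ s.card * ((∫⁻ ω, gO P Hs true (cfg ε ω) ∂sampleLaw) *
        ∫⁻ ω, gO P' Hs false (cfg ε ω) ∂sampleLaw) ≤
      ∫⁻ ω, gO P Hs true (cfg ε ω) * gO P' Hs false (cfg ε ω) *
        ∏ t ∈ s, FT P h F0 (j t) (cfg ε ω) ∂sampleLaw := by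
  have hm : ∀ t : s, MeasurableSet (colT P h Cu (j t)) := fun t =>
    (frm P h (j t)).e.symm.measurable H.Cm
  have hb : ∀ t : s, Bornology.IsBounded (colT P h Cu (j t)) := fun t =>
    (frm P h (j t)).bdd' _ H.Cb
  have Bx0 := bx P P' Hs true false hd (D := fun t : s => colT P h Cu (j t)) hm hb
    (fun t t' hne => hC t t.2 t' t'.2 fun he => hne (Subtype.ext he)) (fun t => hW t t.2)
    fun t => hW' t t.2
  have key := arms_two_ae (dj P P' Hs true false hd) Bx0 (Finset.univ : Finset s)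
    (I := Finset.univ) (J := Finset.univ) (I' := Finset.univ) (J' := Finset.univ)
    (hNr P Hs true) (hNr P' Hs false) (j := fun t : s => ((j t : ℤ) : ZMod M))
    (a := fun t : s => ((a t : ℤ) : ZMod M')) (F := fun t : s => FT P h F0 (j t)) (c₁ := c₁)
    (fun _ _ => Finset.mem_univ _) (fun _ _ => Finset.mem_univ _)
    (fun t _ t' _ hne => (hj t t.2 t' t'.2 fun he => hne (Subtype.ext he)).ne)
    (fun t _ t' _ hne => (ha t t.2 t' t'.2 fun he => hne (Subtype.ext he)).ne)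
    (fun t _ t' _ hne => (hj t t.2 t' t'.2 fun he => hne (Subtype.ext he)).disj)
    (fun t _ t' _ hne => (ha t t.2 t' t'.2 fun he => hne (Subtype.ext he)).disj)
    (fun t _ => by
      have h1 := FT_local P P' H (hu t t.2)
      rw [RR_net P Hs true, RR_net P' Hs false] at h1
      exact h1)
    (fun t _ => tr_fm _ H.Fm) fun t _ => hc P P' Hs H (hu t t.2)
  have e1 : (Finset.univ : Finset s).card = s.card := by
    rw [Finset.card_univ, Fintype.card_coe]
  have e2 : ∀ ω, ∏ t : s, FT P h F0 (j t) (cfg ε ω) = ∏ t ∈ s, FT P h F0 (j t) (cfg ε ω) :=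
    fun ω => Finset.prod_coe_sort s fun t => FT P h F0 (j t) (cfg ε ω)
  rw [e1] at key
  simp only [e2] at key
  exact key

end gates

end Crest.Agent.R143.TwoRx366
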