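import Crest.Agent.R143.TwoC_640

/-!
Row 143, B4 of CORE-B: transport of a small log-ratio from a SHORT real segment `[1, 1 + ρ]`
(`ρ → 0`) to a point `p` of a fixed simply connected domain (helper927).

The loss is only in the exponent: `η ^ w` with `w = c / (1 + log (1 / ρ))`.
-/

open Complex Set Metric
open scoped Topology Real

namespace Crest.Agent.R143.TwoSx927

open Crest.Agent.R143.TwoCx640

/-- Segment to disc, general exponent: `g` holomorphic and bounded by `M` on `ball c R`, bounded by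
`η` on the horizontal segment of half length `s` around `c`. -/
theorem tc_seg' {g : ℂ → ℂ} {c : ℂ} {R s M η a b : ℝ} (hs : 0 < s) (ha : 0 < a) (hba : b ≤ a)
    (hsR : s * Real.cosh a < R) (hg : DifferentiableOn ℂ g (ball c R))
    (hM : ∀ z ∈ ball c R, ‖g z‖ ≤ M) (hη0 : 0 < η) (hηM : η ≤ M)
    (hη : ∀ x : ℝ, |x| ≤ s → ‖g (c + x)‖ ≤ η) {w : ℂ} (hw : ‖w - c‖ ≤ s * Real.sinh b) :
    ‖g w‖ ≤ η ^ (1 - b / a) * M ^ (b / a) := by
  have hsC : (s : ℂ) ≠ 0 := by exact_mod_cast hs.ne'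
  obtain ⟨ζ, hζ, h0, h1⟩ := exists_cosh (a := b) (u := (w - c) / s) (by
    rw [norm_div, Complex.norm_real, Real.norm_eq_abs, abs_of_pos hs, div_le_iff₀ hs]
    linarith)
  have hw' : c + s * Complex.cosh ζ = w := by
    rw [hζ]; field_simp; ring
  have hstrip : ∀ z : ℂ, 0 ≤ z.re → z.re ≤ a → c + s * Complex.cosh z ∈ ball c R := by
    intro z hz0 hz
    rw [mem_ball, dist_eq_norm, add_sub_cancel_left, norm_mul, Complex.norm_real,
      Real.norm_eq_abs, abs_of_pos hs]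
    have h2 : Real.cosh z.re ≤ Real.cosh a := by
      rw [Real.cosh_le_cosh, abs_of_nonneg hz0, abs_of_pos ha]; exact hz
    calc s * ‖Complex.cosh z‖ ≤ s * Real.cosh a := by
          apply mul_le_mul_of_nonneg_left _ hs.le
          exact (norm_cosh_le z).trans h2
      _ < R := hsR
  have hdiff : ∀ z : ℂ, 0 ≤ z.re → z.re ≤ a →
      DifferentiableAt ℂ (fun z => g (c + s * Complex.cosh z)) z := by
    intro z hz0 hz
    have h1 : DifferentiableAt ℂ g (c + s * Complex.cosh z) :=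
      hg.differentiableAt (isOpen_ball.mem_nhds (hstrip z hz0 hz))
    exact h1.comp z (by fun_prop)
  have key := Complex.HadamardThreeLines.norm_le_interp_of_mem_verticalClosedStrip'
    (f := fun z => g (c + s * Complex.cosh z)) (z := ζ) (a := η) (b := M) ha
    ⟨h0, h1.trans hba⟩
    (by
      have hcl : closure (Complex.HadamardThreeLines.verticalStrip 0 a)
          ⊆ {z : ℂ | 0 ≤ z.re ∧ z.re ≤ a} := by
        apply closure_minimal _ ((isClosed_le continuous_const Complex.continuous_re).inter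
          (isClosed_le Complex.continuous_re continuous_const))
        intro z hz
        exact ⟨hz.1.le, hz.2.le⟩
      refine ⟨?_, ?_⟩
      · intro z hz
        exact (hdiff z hz.1.le hz.2.le).differentiableWithinAt
      · intro z hz
        exact (hdiff z (hcl hz).1 (hcl hz).2).continuousAt.continuousWithinAt)
    (by
      refine ⟨M, ?_⟩
      rintro _ ⟨z, hz, rfl⟩
      exact hM _ (hstrip z hz.1 hz.2))
    (by
      intro z hz
      have hz' : z.re = 0 := hz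
      have hz2 : z = (z.im : ℂ) * I := by
        apply Complex.ext <;> simp [hz']
      have h3 : c + s * Complex.cosh z = c + ((s * Real.cos z.im : ℝ) : ℂ) := by
        conv_lhs => rw [hz2, Complex.cosh_mul_I]
        push_cast
        ring
      rw [h3]
      apply hη
      rw [abs_mul, abs_of_pos hs]
      calc s * |Real.cos z.im| ≤ s * 1 := by
            apply mul_le_mul_of_nonneg_left (Real.abs_cos_le_one _) hs.le
        _ = s := mul_one s)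
    (by
      intro z hz
      have hz' : z.re = a := hz
      exact hM _ (hstrip z (by rw [hz']; exact ha.le) hz'.le))
  simp only [hw'] at key
  refine key.trans (interp_mono hη0 hηM ?_)
  rw [sub_zero, sub_zero]
  exact div_le_div_of_nonneg_right h1 ha.le

/-- Short segment to disc of fixed radius: exponent `1 / log (R / s)`. -/
theorem short_seg {g : ℂ → ℂ} {c : ℂ} {R s M η : ℝ} (hs : 0 < s) (hsR : s ≤ R / 24)
    (hg : DifferentiableOn ℂ g (ball c R))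
    (hM : ∀ z ∈ ball c R, ‖g z‖ ≤ M) (hη0 : 0 < η) (hηM : η ≤ M)
    (hη : ∀ x : ℝ, |x| ≤ s → ‖g (c + x)‖ ≤ η) {w : ℂ} (hw : ‖w - c‖ ≤ R / 8) :
    1 < Real.log (R / s) ∧
    ‖g w‖ ≤ η ^ (1 / Real.log (R / s)) * M ^ (1 - 1 / Real.log (R / s)) := by
  have hR : 0 < R := by linarith
  set a : ℝ := Real.log (R / s) with ha
  have hRs : 24 ≤ R / s := by
    rw [le_div_iff₀ hs]; linarith
  have hexp : Real.exp a = R / s := by
    rw [ha, Real.exp_log (by positivity)]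
  have ha1 : 1 < a := by
    rw [ha, Real.lt_log_iff_exp_lt (by positivity)]
    linarith [Real.exp_one_lt_three]
  have ha0 : 0 < a := by linarith
  refine ⟨ha1, ?_⟩
  have hcosh : s * Real.cosh a < R := by
    rw [Real.cosh_eq, hexp]
    have h1 : Real.exp (-a) < 24 := by
      have : Real.exp (-a) < Real.exp 0 := Real.exp_lt_exp.mpr (by linarith)
      rw [Real.exp_zero] at this
      linarith
    have h2 : s * ((R / s + Real.exp (-a)) / 2) = (R + s * Real.exp (-a)) / 2 := by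
      field_simp
    rw [h2]
    have h3 : s * Real.exp (-a) < s * 24 := mul_lt_mul_of_pos_left h1 hs
    linarith
  have hsinh : R / 8 ≤ s * Real.sinh (a - 1) := by
    rw [Real.sinh_eq]
    have h1 : Real.exp (a - 1) = R / s * Real.exp (-1) := by
      rw [sub_eq_add_neg, Real.exp_add, hexp]
    have h2 : Real.exp (-(a - 1)) ≤ 1 := by
      have : Real.exp (-(a - 1)) ≤ Real.exp 0 := Real.exp_le_exp.mpr (by linarith)
      rwa [Real.exp_zero] at this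
    have h3 : 1 / 3 ≤ Real.exp (-1) := by
      rw [Real.exp_neg, one_div]
      exact inv_anti₀ (Real.exp_pos 1) Real.exp_one_lt_three.le
    rw [h1]
    have h4 : s * ((R / s * Real.exp (-1) - Real.exp (-(a - 1))) / 2) =
        (R * Real.exp (-1) - s * Real.exp (-(a - 1))) / 2 := by
      field_simp
    rw [h4]
    have h5 : s * Real.exp (-(a - 1)) ≤ R / 24 := by
      calc s * Real.exp (-(a - 1)) ≤ s * 1 := by gcongr
        _ ≤ R / 24 := by linarith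
    have h6 : R * (1 / 3) ≤ R * Real.exp (-1) := by gcongr
    linarith
  have key := tc_seg' (g := g) (c := c) (R := R) (s := s) (M := M) (η := η) (a := a) (b := a - 1)
    hs ha0 (by linarith) hcosh hg hM hη0 hηM hη (w := w) (hw.trans hsinh)
  have h1 : (a - 1) / a = 1 - 1 / a := by field_simp
  rw [h1] at key
  have h2 : 1 - (1 - 1 / a) = 1 / a := by ring
  rw [h2] at key
  exact key

/-- class of log-ratios, small in a disc around `1` -/
def LogS (U : Set ℂ) (r0 : ℝ) (ℓ : ℂ → ℂ) (L η : ℝ) : Prop :=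
  0 < η ∧ η ≤ L ∧ DifferentiableOn ℂ ℓ U ∧ (∀ z ∈ ball (1 : ℂ) r0, ‖ℓ z‖ ≤ η) ∧
  ∃ g : Fin 4 → ℂ → ℂ, (∀ z, ℓ z = g 0 z + g 1 z - g 2 z - g 3 z) ∧
    ∀ i, DifferentiableOn ℂ (g i) U ∧ (∀ z ∈ U, (g i z).re ≤ L) ∧ ‖g i (1 : ℝ)‖ ≤ L

/-- local bound for combinations of four functions with bounded real part -/
theorem loc4 {U : Set ℂ} (hUo : IsOpen U) (hUc : IsPreconnected U) (h1U : ((1 : ℝ) : ℂ) ∈ U)
    {q : ℂ} (hq : q ∈ U) : ∃ C r : ℝ, 1 ≤ C ∧ 0 < r ∧ ball q r ⊆ U ∧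
      ∀ (g : Fin 4 → ℂ → ℂ) (L : ℝ), 0 < L → (∀ i, DifferentiableOn ℂ (g i) U ∧
        (∀ z ∈ U, (g i z).re ≤ L) ∧ ‖g i (1 : ℝ)‖ ≤ L) →
      ∀ z ∈ ball q r, ‖g 0 z + g 1 z - g 2 z - g 3 z‖ ≤ C * L := by
  obtain ⟨C, r, hC, hr, hsub, h⟩ := bc_chain hUo hUc h1U hq
  refine ⟨4 * C, r, by linarith, hr, hsub, ?_⟩
  intro g L hL0 hgi z hz
  have hb : ∀ i, ‖g i z‖ ≤ C * L := fun i =>
    h (g i) L hL0 (hgi i).1 (hgi i).2.1 (hgi i).2.2 z hz
  calc ‖g 0 z + g 1 z - g 2 z - g 3 z‖ ≤ ‖g 0 z‖ + ‖g 1 z‖ + ‖g 2 z‖ + ‖g 3 z‖ := by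
        have h1 := norm_sub_le (g 0 z + g 1 z - g 2 z) (g 3 z)
        have h2 := norm_sub_le (g 0 z + g 1 z) (g 2 z)
        have h3 := norm_add_le (g 0 z) (g 1 z)
        linarith
    _ ≤ 4 * C * L := by
        have h0 := hb 0
        have h1 := hb 1
        have h2 := hb 2
        have h3 := hb 3
        linarith

/-- disc to point, exponent depending only on the geometry -/
theorem logS_bound {U : Set ℂ} (hUo : IsOpen U) (hUc : IsPreconnected U)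
    (h1U : ((1 : ℝ) : ℂ) ∈ U) {r0 : ℝ} (hr0 : 0 < r0) {p : ℂ} (hp : p ∈ U) :
    ∃ C ω : ℝ, 1 ≤ C ∧ 0 < ω ∧ ω ≤ 1 ∧
      ∀ ℓ L η, LogS U r0 ℓ L η → ‖ℓ p‖ ≤ C * (η ^ ω * L ^ (1 - ω)) := by
  have hloc : ∀ q ∈ U, ∃ C r : ℝ, 1 ≤ C ∧ 0 < r ∧ ball q r ⊆ U ∧
      ∀ ℓ L η, LogS U r0 ℓ L η → ∀ z ∈ ball q r, ‖ℓ z‖ ≤ C * L := by
    intro q hq
    obtain ⟨C, r, hC, hr, hsub, h⟩ := loc4 hUo hUc h1U hq
    refine ⟨C, r, hC, hr, hsub, ?_⟩
    rintro ℓ L η ⟨hη0, hηL, hℓ, -, g, hg, hgi⟩ z hz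
    rw [hg z]
    exact h g L (lt_of_lt_of_le hη0 hηL) hgi z hz
  have h1U' : (1 : ℂ) ∈ U := by simpa using h1U
  obtain ⟨C, r, ω, hC, hr, hω0, hω1, h⟩ := tc_chain hUc (LogS U r0)
    (fun ℓ L η h => ⟨h.1, h.2.1, h.2.2.1⟩) hloc h1U'
    ⟨1, r0, 1, le_refl _, hr0, one_pos, le_refl _, by
      intro g L η hF z hz
      rw [sub_self, Real.rpow_zero, Real.rpow_one, mul_one, one_mul]
      exact hF.2.2.2.1 z hz⟩ hp
  exact ⟨C, ω, hC, hω0, hω1, fun ℓ L η hF => h ℓ L η hF p (mem_ball_self hr)⟩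

/-- the exponent of the short segment -/
noncomputable def ex (c ρ : ℝ) : ℝ := c / (1 + Real.log (1 / ρ))

theorem ex_pos {c ρ : ℝ} (hc : 0 < c) (hρ : 0 < ρ) (hρ1 : ρ ≤ 1) : 0 < ex c ρ := by
  unfold ex
  have : 0 ≤ Real.log (1 / ρ) := Real.log_nonneg (by rw [le_div_iff₀ hρ]; linarith)
  positivity

theorem ex_le {c ρ : ℝ} (hc : c ≤ 1) (hρ : 0 < ρ) (hρ1 : ρ ≤ 1) : ex c ρ ≤ 1 := by
  unfold ex
  have : 0 ≤ Real.log (1 / ρ) := Real.log_nonneg (by rw [le_div_iff₀ hρ]; linarith)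
  rw [div_le_one (by positivity)]
  linarith

/-- monotonicity of `η ^ u * L ^ (1 - u)` in `u`. -/
theorem interp_anti {η M : ℝ} (hη0 : 0 < η) (hηM : η ≤ M) {u v : ℝ} (huv : u ≤ v) :
    η ^ v * M ^ (1 - v) ≤ η ^ u * M ^ (1 - u) := by
  have h := interp_mono hη0 hηM (s := 1 - v) (t := 1 - u) (by linarith)
  rwa [sub_sub_cancel, sub_sub_cancel] at h

/-- Two constants for log-ratios which are small on the short segment `[1, 1 + ρ]`. -/
theorem short_bound {U : Set ℂ} (hUo : IsOpen U) (hUc : IsPreconnected U) {d : ℝ} (hd : 0 < d)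
    (h1U : ((1 : ℝ) : ℂ) ∈ U) {p : ℂ} (hp : p ∈ U) :
    ∃ C c : ℝ, 1 ≤ C ∧ 0 < c ∧ c ≤ 1 ∧
      ∀ (g : Fin 4 → ℂ → ℂ) (L η ρ : ℝ), 0 < η → η ≤ L → 0 < ρ → ρ ≤ d → ρ ≤ 1 →
      (∀ i, DifferentiableOn ℂ (g i) U ∧ (∀ z ∈ U, (g i z).re ≤ L) ∧ ‖g i (1 : ℝ)‖ ≤ L) →
      (∀ x ∈ Icc (1 : ℝ) (1 + ρ), ‖g 0 x + g 1 x - g 2 x - g 3 x‖ ≤ η) →
      ‖g 0 p + g 1 p - g 2 p - g 3 p‖ ≤ C * (η ^ (ex c ρ) * L ^ (1 - ex c ρ)) := by
  obtain ⟨C1, R1, hC1, hR1, hsub1, hloc⟩ := loc4 hUo hUc h1U h1U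
  -- radius of the discs around the middle of the short segment
  set R : ℝ := R1 / 2 with hR
  have hR0 : 0 < R := by rw [hR]; positivity
  obtain ⟨C2, ω, hC2, hω0, hω1, hchain⟩ := logS_bound hUo hUc h1U (r0 := R / 12)
    (by positivity) hp
  set k : ℝ := min (1 / 2) (R / (24 * d)) with hk
  have hk0 : 0 < k := by rw [hk]; positivity
  have hk1 : k ≤ 1 / 2 := min_le_left _ _
  have hk2 : k ≤ R / (24 * d) := min_le_right _ _
  set A : ℝ := max 1 (Real.log (R / k)) with hA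
  have hA1 : 1 ≤ A := le_max_left _ _
  have hA2 : Real.log (R / k) ≤ A := le_max_right _ _
  have hA0 : 0 < A := by linarith
  refine ⟨C2 * C1, ω / A, ?_, by positivity, ?_, ?_⟩
  · nlinarith
  · rw [div_le_one hA0]; linarith
  intro g L η ρ hη0 hηL hρ hρd hρ1 hgi hsmall
  have hL0 : 0 < L := lt_of_lt_of_le hη0 hηL
  set s : ℝ := k * ρ with hs
  have hs0 : 0 < s := by positivity
  have hsR : s ≤ R / 24 := by
    calc s ≤ R / (24 * d) * d := by rw [hs]; gcongr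
      _ = R / 24 := by field_simp
  have hsρ : 2 * s ≤ ρ := by rw [hs]; nlinarith
  set ℓ : ℂ → ℂ := fun z => g 0 z + g 1 z - g 2 z - g 3 z with hℓ
  have hℓd : DifferentiableOn ℂ ℓ U :=
    ((((hgi 0).1).add ((hgi 1).1)).sub ((hgi 2).1)).sub ((hgi 3).1)
  have hbsub : ball (((1 + s : ℝ)) : ℂ) R ⊆ ball ((1 : ℝ) : ℂ) R1 := by
    intro z hz
    rw [mem_ball] at hz ⊢
    have h1 := dist_triangle z ((1 + s : ℝ) : ℂ) ((1 : ℝ) : ℂ)
    have h2 : dist (((1 + s : ℝ)) : ℂ) ((1 : ℝ) : ℂ) = s := by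
      rw [dist_eq_norm, ← Complex.ofReal_sub, Complex.norm_real, Real.norm_eq_abs,
        add_sub_cancel_left, abs_of_pos hs0]
    rw [h2] at h1
    have : R1 = 2 * R := by rw [hR]; ring
    linarith
  set w0 : ℝ := 1 / Real.log (R / s) with hw0
  have hdisc : ∀ z ∈ ball (1 : ℂ) (R / 12), ‖ℓ z‖ ≤ C1 * (η ^ w0 * L ^ (1 - w0)) ∧ 0 < w0 ∧
      w0 ≤ 1 := by
    intro z hz
    have h := short_seg (g := ℓ) (c := ((1 + s : ℝ) : ℂ)) (R := R) (s := s) (M := C1 * L) (η := η)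
      hs0 hsR (hℓd.mono (hbsub.trans hsub1))
      (fun z hz => hloc g L hL0 hgi z (hbsub hz)) hη0 (by nlinarith)
      (by
        intro x hx
        rw [← Complex.ofReal_add]
        apply hsmall
        have := abs_le.mp hx
        exact ⟨by linarith, by linarith⟩)
      (w := z)
      (by
        rw [← dist_eq_norm]
        have h1 := dist_triangle z 1 ((1 + s : ℝ) : ℂ)
        have h2 : dist (1 : ℂ) ((1 + s : ℝ) : ℂ) = s := by
          rw [dist_comm, dist_eq_norm]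
          have : (((1 + s : ℝ)) : ℂ) - 1 = ((s : ℝ) : ℂ) := by push_cast; ring
          rw [this, Complex.norm_real, Real.norm_eq_abs, abs_of_pos hs0]
        rw [h2] at h1
        rw [mem_ball] at hz
        linarith)
    rw [← hw0] at h
    obtain ⟨h1, h2⟩ := h
    have hw01 : w0 ≤ 1 := by
      rw [hw0, div_le_one (by linarith)]; exact h1.le
    have hw00 : 0 < w0 := by rw [hw0]; positivity
    refine ⟨h2.trans ?_, hw00, hw01⟩
    rw [Real.mul_rpow (by linarith) hL0.le]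
    have h3 : C1 ^ (1 - w0) ≤ C1 := by
      calc C1 ^ (1 - w0) ≤ C1 ^ (1 : ℝ) := Real.rpow_le_rpow_of_exponent_le hC1 (by linarith)
        _ = C1 := Real.rpow_one C1
    calc η ^ w0 * (C1 ^ (1 - w0) * L ^ (1 - w0)) = C1 ^ (1 - w0) * (η ^ w0 * L ^ (1 - w0)) := by
          ring
      _ ≤ C1 * (η ^ w0 * L ^ (1 - w0)) := by gcongr
  obtain ⟨-, hw00, hw01⟩ := hdisc 1 (mem_ball_self (by positivity))
  have hle : η ^ w0 * L ^ (1 - w0) ≤ L := by
    calc η ^ w0 * L ^ (1 - w0) ≤ L ^ w0 * L ^ (1 - w0) := by gcongr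
      _ = L := by rw [← Real.rpow_add hL0]; simp
  have hF : LogS U (R / 12) ℓ (C1 * L) (C1 * (η ^ w0 * L ^ (1 - w0))) := by
    refine ⟨by positivity, by gcongr, hℓd, fun z hz => (hdisc z hz).1, g, fun z => rfl, ?_⟩
    intro i
    have hLL : L ≤ C1 * L := by nlinarith
    exact ⟨(hgi i).1, fun z hz => ((hgi i).2.1 z hz).trans hLL, (hgi i).2.2.trans hLL⟩
  have h1 := hchain ℓ _ _ hF
  have hC10 : 0 < C1 := by linarith
  have h2 : (C1 * (η ^ w0 * L ^ (1 - w0))) ^ ω * (C1 * L) ^ (1 - ω) =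
      C1 * (η ^ (w0 * ω) * L ^ (1 - w0 * ω)) := by
    rw [Real.mul_rpow hC10.le (by positivity), Real.mul_rpow (by positivity) (by positivity),
      Real.mul_rpow hC10.le hL0.le, ← Real.rpow_mul hη0.le, ← Real.rpow_mul hL0.le]
    have h3 : C1 ^ ω * C1 ^ (1 - ω) = C1 := by rw [← Real.rpow_add hC10]; simp
    have h4 : L ^ ((1 - w0) * ω) * L ^ (1 - ω) = L ^ (1 - w0 * ω) := by
      rw [← Real.rpow_add hL0]; congr 1; ring
    calc C1 ^ ω * (η ^ (w0 * ω) * L ^ ((1 - w0) * ω)) * (C1 ^ (1 - ω) * L ^ (1 - ω))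
        = (C1 ^ ω * C1 ^ (1 - ω)) * (η ^ (w0 * ω) * (L ^ ((1 - w0) * ω) * L ^ (1 - ω))) := by ring
      _ = C1 * (η ^ (w0 * ω) * L ^ (1 - w0 * ω)) := by rw [h3, h4]
  rw [h2] at h1
  have hex : ex (ω / A) ρ ≤ w0 * ω := by
    have hlog : Real.log (R / s) ≤ A * (1 + Real.log (1 / ρ)) := by
      have h3 : R / s = R / k * (1 / ρ) := by rw [hs]; field_simp
      have h4 : 0 ≤ Real.log (1 / ρ) := Real.log_nonneg (by rw [le_div_iff₀ hρ]; linarith)
      rw [h3, Real.log_mul (by positivity) (by positivity)]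
      nlinarith
    have h5 : 0 < Real.log (R / s) := by
      rw [hw0] at hw00
      exact one_div_pos.mp hw00
    unfold ex
    rw [hw0]
    calc ω / A / (1 + Real.log (1 / ρ)) = ω * (1 / (A * (1 + Real.log (1 / ρ)))) := by
          rw [div_div, mul_one_div]
      _ ≤ ω * (1 / Real.log (R / s)) := by
          gcongr
      _ = 1 / Real.log (R / s) * ω := by ring
  calc ‖g 0 p + g 1 p - g 2 p - g 3 p‖ ≤ C2 * (C1 * (η ^ (w0 * ω) * L ^ (1 - w0 * ω))) := h1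
    _ = C2 * C1 * (η ^ (w0 * ω) * L ^ (1 - w0 * ω)) := by ring
    _ ≤ C2 * C1 * (η ^ (ex (ω / A) ρ) * L ^ (1 - ex (ω / A) ρ)) := by
        have := interp_anti hη0 hηL hex
        gcongr

/-- **B4, transport from a short segment.** -/
theorem transport_short {U : Set ℂ} (hUo : IsOpen U) (hUs : IsSimplyConnected U) {d : ℝ}
    (hd : 0 < d) (hseg : ∀ x ∈ Icc (1 : ℝ) (1 + d), (x : ℂ) ∈ U) {p : ℂ} (hp : p ∈ U) :
    ∃ C c : ℝ, 1 ≤ C ∧ 0 < c ∧ c ≤ 1 ∧ ∀ (X : Fin 4 → ℂ → ℂ) (L η ρ : ℝ), 0 < η → η ≤ L →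
      0 < ρ → ρ ≤ d → ρ ≤ 1 →
      (∀ i, DifferentiableOn ℂ (X i) U) → (∀ i, ∀ z ∈ U, X i z ≠ 0) →
      (∀ i, ∀ z ∈ U, ‖X i z‖ ≤ Real.exp L) →
      (∀ i, ∀ x ∈ Icc (1 : ℝ) (1 + ρ), (X i x).im = 0 ∧ 0 < (X i x).re) →
      (∀ i, Real.exp (-L) ≤ (X i (1 : ℝ)).re) →
      (∀ x ∈ Icc (1 : ℝ) (1 + ρ), |Real.log (X 0 x).re + Real.log (X 1 x).re -
        Real.log (X 2 x).re - Real.log (X 3 x).re| ≤ η) →
      (∀ i, Real.exp (-(C * L)) ≤ ‖X i p‖) ∧
      ∃ ℓ : ℂ, X 0 p * X 1 p = Complex.exp ℓ * (X 2 p * X 3 p) ∧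
        ‖ℓ‖ ≤ C * (η ^ (ex c ρ) * L ^ (1 - ex c ρ)) := by
  have hUc : IsPreconnected U := hUs.isPathConnected.isConnected.isPreconnected
  have h1U : ((1 : ℝ) : ℂ) ∈ U := hseg 1 ⟨le_refl _, by linarith⟩
  obtain ⟨C1, r1, hC1, hr1, -, hbc⟩ := bc_chain hUo hUc h1U hp
  obtain ⟨C2, c, hC2, hc0, hc1, htc⟩ := short_bound hUo hUc hd h1U hp
  refine ⟨max C1 C2, c, hC1.trans (le_max_left _ _), hc0, hc1, ?_⟩
  intro X L η ρ hη0 hηL hρ hρd hρ1 hX h0 hup hpos hlow hratio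
  have hL0 : 0 < L := lt_of_lt_of_le hη0 hηL
  have hseg' : ∀ x ∈ Icc (1 : ℝ) (1 + ρ), (x : ℂ) ∈ U := fun x hx =>
    hseg x ⟨hx.1, by linarith [hx.2]⟩
  choose g hgd hge hgr using fun i =>
    exists_log_real hUo hUs hρ.le hseg' (hX i) (h0 i) (hpos i)
  have h1mem : (1 : ℝ) ∈ Icc (1 : ℝ) (1 + ρ) := ⟨le_refl _, by linarith⟩
  have hre : ∀ i, ∀ z ∈ U, (g i z).re ≤ L := by
    intro i z hz
    have h1 := hup i z hz
    rw [← hge i z hz, Complex.norm_exp] at h1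
    exact Real.exp_le_exp.mp h1
  have hg1 : ∀ i, ‖g i (1 : ℝ)‖ ≤ L := by
    intro i
    rw [hgr i 1 h1mem, Complex.norm_real, Real.norm_eq_abs, abs_le]
    have hp1 := (hpos i 1 h1mem).2
    refine ⟨?_, ?_⟩
    · rw [Real.le_log_iff_exp_le hp1]
      exact hlow i
    · have h1 := hre i _ h1U
      rw [hgr i 1 h1mem, Complex.ofReal_re] at h1
      exact h1
  refine ⟨?_, ?_⟩
  · intro i
    have h1 := hbc (g i) L hL0 (hgd i) (hre i) (hg1 i) p (mem_ball_self hr1)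
    rw [← hge i p hp, Complex.norm_exp]
    apply Real.exp_le_exp.mpr
    have h2 := Complex.abs_re_le_norm (g i p)
    have h3 := neg_abs_le (g i p).re
    have h4 : C1 * L ≤ max C1 C2 * L := by
      gcongr
      exact le_max_left _ _
    linarith
  · refine ⟨g 0 p + g 1 p - g 2 p - g 3 p, ?_, ?_⟩
    · rw [← hge 0 p hp, ← hge 1 p hp, ← hge 2 p hp, ← hge 3 p hp, ← Complex.exp_add,
        ← Complex.exp_add, ← Complex.exp_add]
      congr 1
      ring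
    · have h1 := htc g L η ρ hη0 hηL hρ hρd hρ1 (fun i => ⟨hgd i, hre i, hg1 i⟩)
        (by
          intro x hx
          have h1 := hratio x hx
          rw [hgr 0 x hx, hgr 1 x hx, hgr 2 x hx, hgr 3 x hx, ← Complex.ofReal_add,
            ← Complex.ofReal_sub, ← Complex.ofReal_sub, Complex.norm_real, Real.norm_eq_abs]
          exact h1)
      refine h1.trans ?_
      have h2 : 0 < η ^ (ex c ρ) * L ^ (1 - ex c ρ) := by positivity
      exact mul_le_mul_of_nonneg_right (le_max_right _ _) h2.le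

/-- Final form: when the error is at most one, the products are comparable up to that error. -/
theorem transport_short_diff {U : Set ℂ} (hUo : IsOpen U) (hUs : IsSimplyConnected U) {d : ℝ}
    (hd : 0 < d) (hseg : ∀ x ∈ Icc (1 : ℝ) (1 + d), (x : ℂ) ∈ U) {p : ℂ} (hp : p ∈ U) :
    ∃ C c : ℝ, 1 ≤ C ∧ 0 < c ∧ c ≤ 1 ∧ ∀ (X : Fin 4 → ℂ → ℂ) (L η ρ : ℝ), 0 < η → η ≤ L →
      0 < ρ → ρ ≤ d → ρ ≤ 1 →
      (∀ i, DifferentiableOn ℂ (X i) U) → (∀ i, ∀ z ∈ U, X i z ≠ 0) →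
      (∀ i, ∀ z ∈ U, ‖X i z‖ ≤ Real.exp L) →
      (∀ i, ∀ x ∈ Icc (1 : ℝ) (1 + ρ), (X i x).im = 0 ∧ 0 < (X i x).re) →
      (∀ i, Real.exp (-L) ≤ (X i (1 : ℝ)).re) →
      (∀ x ∈ Icc (1 : ℝ) (1 + ρ), |Real.log (X 0 x).re + Real.log (X 1 x).re -
        Real.log (X 2 x).re - Real.log (X 3 x).re| ≤ η) →
      C * (η ^ (ex c ρ) * L ^ (1 - ex c ρ)) ≤ 1 →
      (∀ i, Real.exp (-(C * L)) ≤ ‖X i p‖) ∧
      ‖X 0 p * X 1 p - X 2 p * X 3 p‖ ≤
        2 * (C * (η ^ (ex c ρ) * L ^ (1 - ex c ρ))) * ‖X 2 p * X 3 p‖ := by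
  obtain ⟨C, c, hC, hc0, hc1, h⟩ := transport_short hUo hUs hd hseg hp
  refine ⟨C, c, hC, hc0, hc1,
    fun X L η ρ hη0 hηL hρ hρd hρ1 hX h0 hup hpos hlow hratio hsm => ?_⟩
  obtain ⟨h1, ℓ, hℓ, hℓ2⟩ := h X L η ρ hη0 hηL hρ hρd hρ1 hX h0 hup hpos hlow hratio
  refine ⟨h1, ?_⟩
  rw [hℓ]
  have h2 : Complex.exp ℓ * (X 2 p * X 3 p) - X 2 p * X 3 p =
      (Complex.exp ℓ - 1) * (X 2 p * X 3 p) := by ring
  rw [h2, norm_mul]
  apply mul_le_mul_of_nonneg_right _ (norm_nonneg _)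
  have h3 := Complex.norm_exp_sub_one_le (hℓ2.trans hsm)
  linarith

end Crest.Agent.R143.TwoSx927
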