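import Crest.Agent.R143.RingU_197
import Crest.Agent.R143.RingLow_765
import Crest.Agent.R143.TwoG_366

/-!
# Row 143 (S0194), block H: 445's `WD` of 197's family, with the arms (helper366)

Names of `RingU_197`: `et n = 1 / (100 n)`, `Wi n`, `Wo n`, `zB`, box `Bx Rr`. Arms in the columns of
the tiles `j ∈ J` of the ring.

* `FA P h F0 J` : product of the arms
* `sc_zB`, `rall_ball` : the regions are in the box; `col_ball` : the columns are in the box
* **`wd_fam`** : for all small `ε` the data `WD` with `F = FA ..`, `K = (c₁^#J)⁻¹`, and the lower bound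
  of the mass, from the arm box `AB` in standard position
-/

set_option autoImplicit false

noncomputable section

open scoped Classical

namespace Crest.Agent.R143.TwoWx366

open MeasureTheory Set Filter Topology
open Crest.ProbabilityR.Voronoi
open Crest.Agent.R143.PP0x831 Crest.Agent.R143.Poisx304 Crest.Agent.R143.Janx304
open Crest.Agent.R143.IndLocx279 Crest.Agent.R143.PWx978 Crest.Agent.R143.Tplx978
open Crest.Agent.R143.TileRx228 Crest.Agent.R143.PthFx765 Crest.Agent.R143.CorNx765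
open Crest.Agent.R143.TplIx204 Crest.Agent.R143.RngNx765 Crest.Agent.R143.TwoNx366
open Crest.Agent.R143.RingLx239 Crest.Agent.R143.RingWDx445 Crest.Agent.R143.TwoRx366
open Crest.Agent.R143.SqPx503 Crest.Agent.R143.SqGx445 Crest.Agent.R143.TwoGx366
open Crest.Agent.R143.CircPx838 (sup)
open Crest.Agent.R143.Asm3x414 Crest.Agent.R143.WgtHx445
open Crest.Agent.R143.RngLx765 Crest.Agent.R143.PosFx653
open Crest.Agent.R143.RingUx197 (et et_pos et_mul Wi Wo zB Bx norm_sp)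
open Crest.Agent.R143.FarEkx88 (sp)
open scoped ENNReal

variable {M : ℕ} {W : ℤ → ℤ × ℤ}

/-- product of the arms of the tiles `j ∈ J` -/
def FA (P : FPath M W) (h : ℝ) (F0 : Cf → ℝ≥0∞) (J : Finset ℤ) (X : Cf) : ℝ≥0∞ :=
  ∏ j ∈ J, FT P h F0 j X

theorem FA_ne {P : FPath M W} {h : ℝ} {F0 : Cf → ℝ≥0∞} {J : Finset ℤ} {X : Cf}
    (H : FA P h F0 J X ≠ 0) {j : ℤ} (hj : j ∈ J) : FT P h F0 j X ≠ 0 := fun h0 =>
  H (Finset.prod_eq_zero hj h0)

theorem FA_le {P : FPath M W} {h : ℝ} {F0 : Cf → ℝ≥0∞} (H : ∀ X, F0 X ≤ 1) (J : Finset ℤ)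
    (X : Cf) : FA P h F0 J X ≤ 1 := Finset.prod_le_one' fun _ _ => H _

theorem FA_fm {P : FPath M W} {h : ℝ} {F0 : Cf → ℝ≥0∞} (H : FinMeas F0) (J : Finset ℤ) :
    FinMeas (FA P h F0 J) := fm_prod J fun _ _ => tr_fm _ H

/-! ### the box -/

variable {n : ℕ}

theorem sc_zB (hn : 0 < n) : sc (100 * et n) (n + 2) (-1, -1) = zB := by
  have h := et_mul hn
  unfold sc zB
  apply Complex.ext
  · show 100 * et n * (((-1 : ℤ) : ℝ) + ((n + 2 : ℕ) : ℝ) / 2) = 1 / 2
    push_cast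
    linear_combination h / 2
  · show 100 * et n * (((-1 : ℤ) : ℝ) + ((n + 2 : ℕ) : ℝ) / 2) = 1 / 2
    push_cast
    linear_combination h / 2

theorem sc_zB' (hn : 0 < n) : sc (100 * et n) (n + 22) (-11, -11) = zB :=
  (sc_shift (100 * et n) (n + 2) 10 (-1, -1)).trans (sc_zB hn)

/-- a point of level at most `3 / 2` is in the box -/
theorem mem_bx {Rr : ℝ} (hR : 4 ≤ Rr) {s : ℂ} (hs : sup (s - zB) ≤ 3 / 2) : s ∈ Bx Rr := by
  rw [mem_closedBall_zero_iff]
  have h1 := norm_sp s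
  have h2 : sup (s - zB) = sp zB s := by
    unfold CircPx838.sup sp
    rw [Complex.sub_re, Complex.sub_im]
  linarith

theorem et_le (hn : 20 ≤ n) : 2000 * et n ≤ 1 := by
  have h := et_mul (show 0 < n by omega)
  have h1 : (20 : ℝ) ≤ n := by exact_mod_cast hn
  have h2 := et_pos (show 0 < n by omega)
  nlinarith

/-- the inner tiles are in the box -/
theorem rall_in {Rr : ℝ} (hn : 20 ≤ n) (hR : 4 ≤ Rr) :
    Rall (12 * et n) (52 * et n) (100 * et n) (Wi n) ⊆ Bx Rr := by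
  intro s hs
  obtain ⟨a, ha⟩ := mem_iUnion.1 hs
  have h0 := et_pos (show 0 < n by omega)
  have hm := et_mul (show 0 < n by omega)
  have h1 := abs_lt.1 (rr_sup (K := n + 2) (v := (-1, -1)) (by omega) (by linarith)
    (by linarith) (by linarith) ha)
  rw [sc_zB (by omega)] at h1
  refine mem_bx hR ?_
  have h2 := h1.2
  push_cast at h2
  have h3 := et_le hn
  nlinarith

/-- the outer tiles are in the box -/
theorem rall_out {Rr : ℝ} (hn : 20 ≤ n) (hR : 4 ≤ Rr) :
    Rall (12 * et n) (52 * et n) (100 * et n) (Wo n) ⊆ Bx Rr := by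
  intro s hs
  obtain ⟨a, ha⟩ := mem_iUnion.1 hs
  have h0 := et_pos (show 0 < n by omega)
  have hm := et_mul (show 0 < n by omega)
  have h1 := abs_lt.1 (rr_sup (K := n + 22) (v := (-11, -11)) (by omega) (by linarith)
    (by linarith) (by linarith) ha)
  rw [sc_zB' (by omega)] at h1
  refine mem_bx hR ?_
  have h2 := h1.2
  push_cast at h2
  have h3 := et_le hn
  nlinarith

/-- the columns are in the box -/
theorem col_in {Rr : ℝ} (hn : 20 ≤ n) (hR : 4 ≤ Rr) {j : ℤ} (hj : Nc (n + 2) j) {Cu : Set ℂ}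
    (hC : Over (100 * et n) Cu) (hCb : ∀ z ∈ Cu, z.im ≤ 18 * (100 * et n))
    (P : FPath (4 * (n + 2)) (Wi n)) : colT P (100 * et n) Cu j ⊆ Bx Rr := by
  intro s hs
  have h0 := et_pos (show 0 < n by omega)
  have hm := et_mul (show 0 < n by omega)
  obtain ⟨z, hz, e1⟩ := (pos_nc (K := n + 2) (by omega) (-1, -1) hj).level (by omega)
    (by linarith) hC (Cu := Cu) hs
  rw [sc_zB (by omega)] at e1
  refine mem_bx hR ?_
  rw [e1]
  have h2 := hCb z hz
  have h3 := et_le hn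
  push_cast
  nlinarith

/-! ### the weight -/

/-- **`WD` OF THE FAMILY WITH THE ARMS** -/
theorem wd_fam (hn : 20 ≤ n) {Rr ρ0 : ℝ} (hR : 4 ≤ Rr) (hρ0 : 0 < ρ0)
    [Fintype (ZMod (4 * (n + 2)))] [Fintype (ZMod (4 * (n + 22)))]
    (P : FPath (4 * (n + 2)) (Wi n)) (P' : FPath (4 * (n + 22)) (Wo n)) {J : Finset ℤ}
    (hJ : ∀ j ∈ J, Nc (n + 2) j) (hJJ : ∀ j ∈ J, ∀ j' ∈ J, j ≠ j' → Off2 (4 * (n + 2)) j j')
    {Cu : Set ℂ} (hC : Over (100 * et n) Cu) (hCb : ∀ z ∈ Cu, z.im ≤ 18 * (100 * et n)) {c1 : ℝ}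
    (hc1 : 0 < c1) {F0 : ∀ ε : ℝ, 0 < ε → 0 < et n → Cf → ℝ≥0∞}
    (F01 : ∀ ε hε hη X, F0 ε hε hη X ≤ 1)
    (H : ∀ᶠ ε : ℝ in 𝓝[>] 0, ∀ (hε : 0 < ε) (hη : 0 < et n),
      AB (Tr (et n) ε hε hη).tpl (12 * et n) (52 * et n) (100 * et n) (1000 * et n)
        (cutC (12 * et n) (52 * et n) (100 * et n) (1000 * et n) Cu) (F0 ε hε hη)
        (ENNReal.ofReal c1)) :
    ∀ᶠ ε : ℝ in 𝓝[>] 0, ∀ (hε : 0 < ε) (hη : 0 < et n),
      WD ε (Bx Rr) (Rall (12 * et n) (52 * et n) (100 * et n) (Wi n))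
          (Rall (12 * et n) (52 * et n) (100 * et n) (Wo n)) (gO P (stdT hε hη) true)
          (gO P' (stdT hε hη) false) (FA P (100 * et n) (F0 ε hε hη) J)
          (eB (Bx Rr) Rr √ε ρ0) (ENNReal.ofReal (c1 ^ J.card))⁻¹ ∧
        ENNReal.ofReal (c1 ^ J.card *
            (cT ^ (4 * (n + 2)) * cA ^ (4 * (n + 2)) * (cT ^ (4 * (n + 22)) * cA ^ (4 * (n + 22)))) /
              2) ≤
          Mg ε (Bx Rr) (wt (Bx Rr) (gO P (stdT hε hη) true) (gO P' (stdT hε hη) false)
            (FA P (100 * et n) (F0 ε hε hη) J) (eB (Bx Rr) Rr √ε ρ0)) := by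
  have h0 := et_pos (show 0 < n by omega)
  have hm := et_mul (show 0 < n by omega)
  have hel := et_le hn
  have hd : Disjoint (Rall (12 * et n) (52 * et n) (100 * et n) (Wi n))
      (Rall (12 * et n) (52 * et n) (100 * et n) (Wo n)) :=
    rall_gen (n + 2) 10 (-1, -1) rfl rfl (by omega) (by linarith) (by linarith) (by linarith)
      (by push_cast; linarith)
  have f1 := wd_ev P P' (by omega) (by omega) hd (Bb := Bx Rr) measurableSet_closedBall
    Metric.isBounded_closedBall (rall_in hn hR) (rall_out hn hR) (R := Rr) (ρ0 := ρ0) subset_rfl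
    hρ0 cT_pos cA_pos (c := c1 ^ J.card) (pow_pos hc1 _)
  have f2 := tpl_ev h0 (show 10 * et n ≤ 1 by linarith)
  filter_upwards [f1, f2, H] with ε g1 g2 g3 hε hη
  obtain ⟨-, k1, k2, -⟩ := g2.2.2.2 hε hη
  have hA := g3 hε hη
  have h1 := g1 (Tr (et n) ε hε hη).tpl (stdT hε hη) k1 k2 (FA P (100 * et n) (F0 ε hε hη) J) ?_
    (FA_fm hA.Fm J) (fun X _ => FA_le (F01 ε hε hη) J X) ?_
  · exact h1
  · refine local_prod' J fun j hj => ?_
    have hu : Up (Wi n) (Wo n) (100 * et n) (1000 * et n) j (abv (n + 2) 10 j) := by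
      have := (pos_nc (K := n + 2) (by omega) (-1, -1) (hJ j hj)).up (100 * et n) (by omega)
        (pos_abv (d := 10) (by omega) (-1, -1) (hJ j hj))
      have e : ((10 : ℕ) : ℝ) * (100 * et n) = 1000 * et n := by push_cast; ring
      rw [e] at this
      exact this
    have h2 := FT_local P P' hA hu
    refine LocalOn.mono ?_ h2
    refine union_subset (union_subset ?_ ?_) ?_
    · exact (subset_iUnion _ j).trans (rall_in hn hR)
    · exact (subset_iUnion _ (abv (n + 2) 10 j)).trans (rall_out hn hR)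
    · exact col_in hn hR (hJ j hj) hC.cut (fun z hz => hCb z hz.1) P
  · have h3 := arms_gen (n + 2) 10 (-1, -1) rfl rfl rfl rfl
      (show 1000 * et n = ((10 : ℕ) : ℝ) * (100 * et n) by push_cast; ring) (by omega)
      (by linarith) (by linarith) (by linarith) (stdT hε hη) P P' hC hA J (j := fun t => t) hJ hJJ
    rw [ENNReal.ofReal_pow hc1.le]
    exact h3

end Crest.Agent.R143.TwoWx366
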