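import Crest.Agent.R143.UIJ_136

/-!
# Row 143 (S0194), leaf UIJ (helper136), uniform form

* `good_evU` : environments, constants uniform over all domains with `‖D.c‖ + D.L ≤ L0`
* `uijU` : `M` depends only on `L0, r, l, η`
-/

set_option autoImplicit false

noncomputable section

open scoped Classical

namespace Crest.Agent.R143.UIJUx136

open Set Filter Topology MeasureTheory
open scoped ENNReal
open Crest.ProbabilityR.Voronoi
open Crest.Agent.R143.B0x346 Crest.Agent.R143.B0Dx346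
open Crest.Agent.R143.Y0x831 (Good)
open Crest.Agent.R143.PP1x831 (rad)
open Crest.Agent.R143.X0Bx683 (Fs)
open Crest.Agent.R143.Mabx377
open Crest.Agent.R143.Spinex422 (Room Linked)
open Crest.Agent.R143.B6Ix903 (net GoodB)
open Crest.Agent.R143.DicCx831 (rad_small ev_unit log_small)
open Crest.Agent.R143.DicDx831 (room_norm)
open Crest.Agent.R143.RB0x838 Crest.Agent.R143.RBmx838 Crest.Agent.R143.CircPx838
open Crest.Agent.R143.Harx315 Crest.Agent.R143.XW1x315
open Crest.Agent.R143.NstAx700 Crest.Agent.R143.NstBx700 Crest.Agent.R143.NstCx700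
open Crest.Agent.R143.LawOmx139 Crest.Agent.R143.CNTx930 Crest.Agent.R143.UIx136
open Crest.Agent.R143.NstUIx136 Crest.Agent.R143.EQE3x63 Crest.Agent.R143.AsmNx758

/-- **environments: the constants depend only on `L0 ≥ ‖D.c‖ + D.L`**, as does the threshold -/
theorem good_evU (L0 : ℝ) (hL0 : 0 < L0) : ∃ C K a C4 : ℝ, 0 < C ∧ 0 < K ∧ 0 < a ∧ 0 < C4 ∧
    ∀ᶠ ε : ℝ in 𝓝[>] 0, ∀ D : Dom, ‖D.c‖ + D.L ≤ L0 →
      sampleLaw {ω | ¬ Good D ε C K a C4 ω} ≤ ENNReal.ofReal ε := by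
  obtain ⟨C, K, a, C4, hC, hK, ha, hC4, hMP⟩ := MGx501.mg L0 30 hL0 (by norm_num)
  refine ⟨C, K, a, C4, hC, hK, ha, hC4, ?_⟩
  unfold B6Ix903.MP at hMP
  filter_upwards [hMP, ev_unit] with ε h1 h2 D hD
  have hsub : {ω | ¬ Good D ε C K a C4 ω} ⊆ {ω | ¬ GoodB L0 ε C K a C4 ω} := by
    intro ω hω h
    refine hω ?_
    have h3 : ∀ s : ℝ, Metric.closedBall D.c (D.L - s) ⊆
        Metric.closedBall (0 : ℂ) (L0 - s) := by
      intro s
      refine Metric.closedBall_subset_closedBall' ?_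
      rw [dist_zero_right]
      linarith
    have h0 : Metric.closedBall D.c D.L ⊆ Metric.closedBall (0 : ℂ) L0 := by
      refine Metric.closedBall_subset_closedBall' ?_
      rw [dist_zero_right]
      linarith
    exact ⟨⟨h.env.fin.subset (inter_subset_inter_right _ h0), h.env.gp,
      fun z hz => h.env.hole z (h3 _ hz), fun z hz => h.env.cnt z (h0 hz)⟩,
      fun z hz => h.diam z (h0 hz)⟩
  refine (measure_mono hsub).trans (h1.trans (ENNReal.ofReal_le_ofReal ?_))
  have h4 := Real.rpow_le_rpow_of_exponent_ge h2.1 h2.2.le (show (1 : ℝ) ≤ 30 by norm_num)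
  rwa [Real.rpow_one] at h4

/-- **leaf UIJ, uniform form**: `M` depends only on `L0, r, l, η` -/
def UIJU (Adm : Dom → ℝ → Prop) : Prop := ∀ L0 > 0, ∀ r > 0, ∀ l > 0, 4 * l < r → ∀ η > 0,
  ∃ M : ℕ, ∀ (D : Dom) (δ : ℝ), Adm D δ → ‖D.c‖ + D.L ≤ L0 → ∀ z : ℂ, Room D (4 * r) z →
  ∀ᶠ ε : ℝ in 𝓝[>] 0, sampleLaw {ω | η < av (net D ε ω) (fun J =>
    if M < cnt (D.sites ε ω) (net D ε ω) l z (2 * r) J then
      (cnt (D.sites ε ω) (net D ε ω) l z (2 * r) J : ℝ) else 0)} ≤ ENNReal.ofReal η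

theorem uijU {Adm : Dom → ℝ → Prop} (hAdm : ∀ D δ, Adm D δ → D.W δ) : UIJU Adm := by
  intro L0 hL0 r hr l hl hlr η hη
  obtain ⟨C, Kg, a, C4, hC, hKg, ha, hC4, hgood⟩ := good_evU L0 hL0
  obtain ⟨p, c1, c2, K, hp, hc1, hc2, hc2', hK, hq⟩ := UIJx136.quenched (36 * C4) (by positivity)
  set q : ℝ := min (l / 5) (min (r / (2 * (K + 6))) (1 / 6)) with hqdef
  have hq0 : 0 < q := by positivity
  have hq1 : 5 * q ≤ l := by
    have : q ≤ l / 5 := min_le_left _ _
    linarith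
  have hq2 : (K + 6) * q ≤ r / 2 := by
    have : q ≤ r / (2 * (K + 6)) := (min_le_right _ _).trans (min_le_left _ _)
    rw [le_div_iff₀ (by positivity)] at this
    linarith
  have hq3 : q ≤ 1 / 6 := (min_le_right _ _).trans (min_le_right _ _)
  set A : ℝ := (25 * (2 * r / (q / 2)) ^ 2) ^ 2 * (512 / p ^ 2) with hA
  have hA0 : 0 ≤ A := by positivity
  obtain ⟨M, hM⟩ := exists_nat_gt (A / η)
  have hM1 : 0 < M + 1 := Nat.succ_pos M
  refine ⟨M + 1, ?_⟩
  intro D δ hD hDL z hz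
  have hW := hAdm D δ hD
  have hL := hW.Lpos
  have h1 := room_norm hz (by linarith)
  have hgr : ((grid z (2 * r) (q / 2)).card : ℝ) ≤ 25 * (2 * r / (q / 2)) ^ 2 :=
    grid_card z (by linarith) (by linarith)
  filter_upwards [ev_unit, hnet_evW (C := C) hW, hgood, (rad_small C).eventually
    (ge_mem_nhds (show (0 : ℝ) < min (min (c1 * q) (r / 8)) (min (c2 * q / 2) (D.L / 8)) by positivity)),
    (log_small a).eventually (ge_mem_nhds (show (0 : ℝ) < c2 * q by positivity)),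
    nhdsWithin_le_nhds (ge_mem_nhds (show (0 : ℝ) < η from hη))] with ε e1 e2 e3 e4 e5 e6
  refine (measure_mono ?_).trans ((e3 D hDL).trans (ENNReal.ofReal_le_ofReal e6))
  intro ω hω hG
  change η < _ at hω
  have hd0 : 0 < rad C ε := DicCx831.rad_pos hC e1
  have d1 : rad C ε ≤ c1 * q := e4.trans ((min_le_left _ _).trans (min_le_left _ _))
  have d2 : rad C ε ≤ r / 8 := e4.trans ((min_le_left _ _).trans (min_le_right _ _))
  have d3 : rad C ε ≤ c2 * q / 2 := e4.trans ((min_le_right _ _).trans (min_le_left _ _))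
  have d4 : rad C ε ≤ D.L / 8 := e4.trans ((min_le_right _ _).trans (min_le_right _ _))
  have hN := e2 Kg a C4 ω hG
  have hWd : Wd (D.sites ε ω) (net D ε ω) z (3 * r) (rad C ε) :=
    EQE4x63.wd_of_env hd0 hG.env hN hz (by linarith) (by linarith)
  have h7 : 4 * r ≤ D.L / 2 := by
    have h0 : 0 ≤ ‖z - D.c‖ := norm_nonneg _
    linarith
  have hbnd := hq (D.sites ε ω) (net D ε ω) z (3 * r) (rad C ε) l q (2 * r) hWd hq0 hq1
    (by linarith) (by linarith) (fun b hb b' hb1 hb2 => by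
      have hb0 : 0 < b' := lt_of_lt_of_le (by positivity) hb1
      have hKq : K * q / b' * b' = K * q := by field_simp
      have h5 := norm_sub_le_norm_sub_add_norm_sub b z D.c
      have h8 := XW6x315.mesh_good (w := b) hG hd0 hC4.le (K1 := K * q / b') hb0.le
        (by linarith) (by linarith) (by linarith) (by
          rw [hKq]
          nlinarith)
      rwa [hKq] at h8) d1 (M + 1) hM1
  have : ((grid z (2 * r) (q / 2)).card : ℝ) ^ 2 * (512 / p ^ 2) / ((M + 1 : ℕ) : ℝ) ≤ η := by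
    have h9 : ((grid z (2 * r) (q / 2)).card : ℝ) ^ 2 * (512 / p ^ 2) ≤ A := by
      rw [hA]
      gcongr
    rw [div_lt_iff₀ hη] at hM
    rw [div_le_iff₀ (by positivity)]
    push_cast
    nlinarith
  exact absurd (hbnd.trans this) (not_le.2 hω)

/-- the non-uniform leaf again -/
theorem uij_of_U {Adm : Dom → ℝ → Prop} (hAdm : ∀ D δ, Adm D δ → D.W δ) (h : UIJU Adm) :
    UIJ Adm := by
  intro D δ hD m hm r hr z hz hli l hl hlr η hη
  have hL := (hAdm D δ hD).Lpos
  obtain ⟨M, hM⟩ := h (‖D.c‖ + D.L) (by positivity) r hr l hl hlr η hη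
  exact ⟨M, hM D δ hD le_rfl z hz⟩

end Crest.Agent.R143.UIJUx136
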