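import Crest.Agent.R143.NstUI_136
import Crest.Agent.R143.LawOm_139

/-!
# Row 143 (S0194): uniform integrability of the number of steps, finite part (helper136)

* `ex_big` : truncated mean of a sum of counts with bounded second moments
* `avg_ui` : the same for the average over the joins of a net with two marks
-/

set_option autoImplicit false

noncomputable section

open scoped Classical
open Finset

namespace Crest.Agent.R143.UIx136

open Crest.Agent.R143.NstUIx136 Crest.Agent.R143.LawOmx139 Crest.Agent.R143.B0x346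
  Crest.Agent.R143.B0Dx346 Crest.Agent.R143.JCol2x54 Crest.Agent.R143.Harx315
  Crest.Agent.R143.XW1x315 Crest.Agent.R143.J8x872 Crest.Agent.R143.JColx54

variable {κ α : Type*}

theorem trunc_mono {a b M : ℝ} (hM : 0 ≤ M) (h : a ≤ b) :
    (if M < a then a else 0) ≤ if M < b then b else 0 := by
  by_cases h1 : M < a
  · rw [if_pos h1, if_pos (h1.trans_le h)]
    exact h
  · rw [if_neg h1]
    split_ifs with h2
    · linarith
    · exact le_rfl

theorem trunc_nonneg {a M : ℝ} (hM : 0 ≤ M) : 0 ≤ (if M < a then a else 0) := by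
  split_ifs with h
  · linarith
  · exact le_rfl

/-- truncated mean of a sum of counts -/
theorem ex_big {V : Finset α} {t : Finset κ} {X : κ → Finset α → ℝ} {C0 M : ℝ} (hM : 0 < M)
    (h0 : ∀ b ∈ t, ∀ β, β ⊆ V → 0 ≤ X b β) (h2 : ∀ b ∈ t, ex V (fun β => X b β ^ 2) ≤ C0) :
    ex V (fun β => if M < ∑ b ∈ t, X b β then ∑ b ∈ t, X b β else 0) ≤
      (t.card : ℝ) ^ 2 * C0 / M := by
  have h3 := big_le (s := V.powerset) (f := fun β => ∑ b ∈ t, X b β) hM
    (fun β hβ => sum_nonneg fun b hb => h0 b hb β (mem_powerset.1 hβ))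
  rw [← ex_av, ← ex_av] at h3
  refine h3.trans ?_
  apply div_le_div_of_nonneg_right _ hM.le
  have h4 : ex V (fun β => (∑ b ∈ t, X b β) ^ 2) ≤
      ex V (fun β => (t.card : ℝ) * ∑ b ∈ t, X b β ^ 2) :=
    ex_mono fun β _ => sq_sum_le_card_mul_sum_sq
  refine h4.trans ?_
  rw [ex_mul_const, ex_sum, sq, mul_assoc]
  apply mul_le_mul_of_nonneg_left _ (Nat.cast_nonneg _)
  refine (sum_le_sum h2).trans (le_of_eq ?_)
  rw [sum_const, nsmul_eq_mul]

/-- **truncated average over the joins** -/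
theorem avg_ui {S : Finset ℂ} {N : Net ℂ} {k : ZMod 3} {V : Finset ℂ} (H : HNet S N)
    (h3 : 3 ≤ S.card) (hV : FreeS S N.kl V) (hVS : V ⊆ S) {t : Finset κ}
    {X : κ → Finset ℂ → ℝ} {C0 M : ℝ} (hM : 0 < M) (h0 : ∀ b ∈ t, ∀ β, 0 ≤ X b β)
    (h2 : ∀ b ∈ t, ex V (fun β => X b β ^ 2) ≤ C0)
    (hX : ∀ b ∈ t, ∀ B, B ⊆ S → X b B = X b (B ∩ V)) {g : Finset (ℂ × ℂ) → ℝ}
    (hg : ∀ B ∈ Ck S N k, g (jn N k B) ≤ ∑ b ∈ t, X b B) :
    ∑ J ∈ Omk N k, (if M < g J then g J else 0) ≤
      (Omk N k).card * ((t.card : ℝ) ^ 2 * C0 / M) := by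
  have h4 := avg_free H h3 (k := k) hV hVS
    (g := fun J => if M < g J then g J else 0)
    (F := fun β => if M < ∑ b ∈ t, X b β then ∑ b ∈ t, X b β else 0)
    (fun B hB => by
      have e : ∑ b ∈ t, X b B = ∑ b ∈ t, X b (B ∩ V) :=
        sum_congr rfl fun b hb => hX b hb B hB
      show (if M < ∑ b ∈ t, X b B then ∑ b ∈ t, X b B else 0) = _
      rw [e])
    (fun B hB => trunc_mono hM.le (hg B hB))
  exact h4.trans (mul_le_mul_of_nonneg_left (ex_big hM (fun b hb β _ => h0 b hb β) h2)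
    (Nat.cast_nonneg _))

end Crest.Agent.R143.UIx136
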