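import Crest.Agent.R143.UKinB_571
import Crest.Agent.R143.CorrC_831

/-!
# Row 143 (S0194), RIG, box (7): `reg` and `y_a ∈ A (-j)` for 358's giants `gA` (helper571)

`S` sites, `hS : GP S`, `s : Cs hS → ZMod 2` colours, `X` a configuration with `sX X = S` and 713's
`CorH X U M W η d (al A e i) (nn A e i)`, layout `Lay` of 416 (label `i` white), strand `SDS` of 831 and
168's event `EvA` with the root window `Q = RD S (Bk η W (al A e i) (rr A e i - 1))`.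

* `gA_AA` : on the event `gA .. k s = AA .. k`
* **`reg_gA`** : the field `reg` of 923's `UKin`, `h = 100 η`, `A1 = 19/2 η`, `B1 = 103/2 η`, for
  `A l = st (gA .. (i + 1) s) l`
* **`ymem_gA`** : `yy η W X a ∈ A (-j)` for `g j + 3 ≤ a`, `a + 3 ≤ g (j + 1)`, `-j ≠ i`
-/

set_option autoImplicit false
set_option linter.unusedSectionVars false

noncomputable section

open scoped Classical

namespace Crest.Agent.R143.UKinCx571

open Crest.Agent.R143.B0x346 Crest.Agent.R143.DelGx806 Crest.Agent.R143.DelRx806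
  Crest.Agent.R143.JColx54
open Crest.Agent.R143.Frame1x395 Crest.Agent.R143.Frame2x395 Crest.Agent.R143.Frame3x395
  Crest.Agent.R143.Frame4x395 Crest.Agent.R143.Frame8x395 Crest.Agent.R143.Frame9x395
  Crest.Agent.R143.Frame10x395 Crest.Agent.R143.Frame11x395
open Crest.Agent.R143.FinCx811 (Cs rc0)
open Crest.Agent.R143.NonXx592 (P)
open Crest.Agent.R143.R5qx166 (AA)
open Crest.Agent.R143.C2SCx395 (st)
open Crest.Agent.R143.OutSx358 (gA ga rr_spec)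
open Crest.Agent.R143.StGluex867 (pick_eq)
open Crest.Agent.R143.SysAx168 (EvA evA_uniq)
open Crest.Agent.R143.RingDx117 (RD)
open Crest.Agent.R143.Uniqx323 (Zn)
open Crest.Agent.R143.CorHx713
open Crest.Agent.R143.CorrIx831
open Crest.Agent.R143.Layx416 (Lay g al mi be jj nn)
open Crest.Agent.R143.TileRx228 (RR gz ge)
open Crest.Agent.R143.R10Px923 (Use)
open Crest.Agent.R143.UKinBx571
open Crest.Agent.R143.WLocx713 (sX)

section ev

variable {S : Finset ℂ} {hS : GP (S : Set ℂ)} {Hh Rw : Set (Cs hS)} {Q : Set (D0 S)}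
  {Z : Zn (rc0 hS)} {s : Cs hS → ZMod 2} {q : D0 S} {n : ℕ}

/-- the giants on the event of the strand `(q, n)` -/
theorem gA_AA (hE : EvA (rc0 hS) Hh Rw Q Z (q, n) s) (k : ZMod 3) :
    gA (rc0 hS) Hh Rw Q (fun (i : D0 S × ℕ) _ => i.1) (fun i _ => i.2) (EvA (rc0 hS) Hh Rw Q Z) k s =
      AA (rc0 hS) s q n (OutSx358.rr (rc0 hS) (cfg (rc0 hS) s) q n Q)
        (Extx358.Ww (rc0 hS) Hh Rw q n s) k := by
  have hu : ∀ (i j : D0 S × ℕ) (σ : Cs hS → ZMod 2), EvA (rc0 hS) Hh Rw Q Z i σ →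
      EvA (rc0 hS) Hh Rw Q Z j σ →
      ga (rc0 hS) Hh Rw Q (fun (i : D0 S × ℕ) _ => i.1) (fun i _ => i.2) k i σ =
        ga (rc0 hS) Hh Rw Q (fun (i : D0 S × ℕ) _ => i.1) (fun i _ => i.2) k j σ := by
    intro i j σ hi hj
    rw [evA_uniq hi hj]
  have e := pick_eq (x0 := fun _ : ZMod 3 => (∅ : Set (Cs hS))) hu hE
  exact e

/-- the root time -/
theorem root (hE : EvA (rc0 hS) Hh Rw Q Z (q, n) s) :
    OutSx358.rr (rc0 hS) (cfg (rc0 hS) s) q n Q < n ∧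
      P (rc0 hS) (cfg (rc0 hS) s) q (OutSx358.rr (rc0 hS) (cfg (rc0 hS) s) q n Q) ∈ Q := by
  have h := rr_spec hE.2.ink
  exact ⟨h.2.hi, h.1⟩

end ev

variable {S : Finset ℂ} {hS : GP (S : Set ℂ)} {Rw : Set (Cs hS)} {h₀ : Cs hS}
  {Z : Zn (rc0 hS)} {s : Cs hS → ZMod 2} {q : D0 S} {T : ℕ → ℕ} {N : ℕ} {p : ℕ → D0 S}
  {X : Set (ℂ × Bool)} {U : Set ℂ} {M n' : ℕ} {m' : ℤ} {p' W : ℤ → ℤ × ℤ} {A e : ℤ → ℤ}
  {η d : ℝ} {i : ZMod 3}

/-- the giants on sites -/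
abbrev Ag (hS : GP (S : Set ℂ)) (h₀ : Cs hS) (Rw : Set (Cs hS)) (Z : Zn (rc0 hS)) (η : ℝ)
    (W : ℤ → ℤ × ℤ) (A e : ℤ → ℤ) (i : ZMod 3) (s : Cs hS → ZMod 2) : ZMod 3 → Set ℂ :=
  st (gA (rc0 hS) {h₀} Rw (RD S (Bk η W (al A e i) (Layx416.rr A e i - 1)))
    (fun (i : D0 S × ℕ) _ => i.1) (fun i _ => i.2)
    (EvA (rc0 hS) {h₀} Rw (RD S (Bk η W (al A e i) (Layx416.rr A e i - 1))) Z) (i + 1) s)

/-- **`reg`** -/
theorem reg_gA (L : Lay n' M m' p' W A e) (H : CorH X U M W η d (al A e i) (nn A e i))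
    (hX : sX X = S) (hT : SDS hS s η W (al A e i) (nn A e i) p q N T)
    (hE : EvA (rc0 hS) {h₀} Rw (RD S (Bk η W (al A e i) (Layx416.rr A e i - 1))) Z
      (q, T (nn A e i)) s) :
    ∀ l, l ≠ i → ∀ v ∈ Ag hS h₀ Rw Z η W A e i s l, ∃ a j : ℤ,
      v ∈ RR (19 / 2 * η) (103 / 2 * η) (100 * η) W a ∧ g A e j ≤ a + 2 ∧
        a ≤ g A e (j + 1) + 1 ∧ (-(j : ZMod 3)) = l := by
  subst hX
  intro l hl v hv
  unfold Ag at hv
  rw [gA_AA hE] at hv
  exact reg L (T := T) hT (fun k _ => inn_Bk H k) (fun a b h1 h2 => dis_Bk H a b h1 h2)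
    (root hE).1.le (root hE).2 l hl v hv

/-- **`y_a ∈ A (-j)`** -/
theorem ymem_gA (L : Lay n' M m' p' W A e) (H : CorH X U M W η d (al A e i) (nn A e i))
    (hX : sX X = S) (hT : SDS hS s η W (al A e i) (nn A e i) p q N T)
    (hE : EvA (rc0 hS) {h₀} Rw (RD S (Bk η W (al A e i) (Layx416.rr A e i - 1))) Z
      (q, T (nn A e i)) s)
    (hp : ∀ k : ℕ, (p k).1 = (yy η W X (al A e i + k), xx η W X (al A e i + k))) {a j : ℤ}
    (u1 : g A e j + 3 ≤ a) (u2 : a + 3 ≤ g A e (j + 1)) (hj : (-(j : ZMod 3)) ≠ i) :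
    yy η W X a ∈ Ag hS h₀ Rw Z η W A e i s (-(j : ZMod 3)) := by
  subst hX
  unfold Ag
  rw [gA_AA hE]
  exact ymem L (T := T) hT (fun a b h1 h2 => dis_Bk H a b h1 h2)
    (root hE).1.le (root hE).2 (fun a => H.yper a) (fun k _ => by rw [hp k]) u1 u2 hj

end Crest.Agent.R143.UKinCx571
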