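import Crest.Agent.R143.UKLowU_568
import Crest.Agent.R143.UKinC_571

/-!
# Row 143 (S0194), RIG, box (7): the fields `low` and `nk` of 923's `UKin` for 358's giants (helper568)

`S` sites, `hS : GP S`, `s : Cs hS → ZMod 2` colours, `X` a configuration with `Col hS X s` (831) and
713's `CorH X U M W η d (al A e i) (nn A e i)`, layout `LayU` of 416 (label `i` white), strand `SDS` of
831, 168's event `EvA`, 571's triple `Ag hS h₀ Rw Z η W A e i s`; `Rw` = cells of the sites of 697's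
`BR η W M (al A e i) (nn A e i)`, `h₀` = hull cell.

* `gate_low` : the gates with `Use` of the labels `≠ i`, any root time
* `gate_gA` : the same for `Ag`
* **`low_gA`**, **`nk_gA`** : the fields `low`, `nk` of `UKin`, `h = 100 η`, `w ≤ 4 η`, `b0 ≤ -9 η`
  (`low`), `a0 = -η`, `a1 = η`, `b0 = -9 η`, `b1 = 10 η`, `m' = η` (`nk`)
-/

set_option autoImplicit false
set_option linter.unusedSectionVars false

noncomputable section

open scoped Classical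

namespace Crest.Agent.R143.UKLowx568

open Crest.Agent.R143.B0x346 Crest.Agent.R143.DelGx806 Crest.Agent.R143.DelRx806
open Crest.Agent.R143.ToolWx838 Crest.Agent.R143.Blkx838
open Crest.Agent.R143.ToolW3x838
open Crest.Agent.R143.Frame1x395 Crest.Agent.R143.Frame2x395 Crest.Agent.R143.Frame3x395
  Crest.Agent.R143.Frame4x395 Crest.Agent.R143.Frame8x395 Crest.Agent.R143.Frame9x395
  Crest.Agent.R143.Frame10x395 Crest.Agent.R143.Frame11x395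
open Crest.Agent.R143.WLocx713 Crest.Agent.R143.RingDx117
open Crest.Agent.R143.TileRx228
open Crest.Agent.R143.EvGx168 (SD)
open Crest.Agent.R143.FinCx811 (Cs rc0 rcol)
open Crest.Agent.R143.RcTx422 (Hc Hc_eq)
open Crest.Agent.R143.Extx358 (Ww)
open Crest.Agent.R143.R5qx166 (AA)
open Crest.Agent.R143.CorHx713
open Crest.Agent.R143.SepHx697 (Geo BR)
open Crest.Agent.R143.Layx416 (Lay g al mi be nn rr jj)
open Crest.Agent.R143.LayUx416 (LayU)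
open Crest.Agent.R143.PolyUx346 (Poly)
open Crest.Agent.R143.R10Px923 (Use col_of_neck)
open Crest.Agent.R143.CorrIx831 (SDS Bk Col col_eq)
open Crest.Agent.R143.SysAx168 (EvA)
open Crest.Agent.R143.Uniqx323 (Zn)
open Crest.Agent.R143.UKinCx571 (gA_AA root Ag ymem_gA)

/-- **the gates with `Use` of the labels `≠ i`**, any root time -/
theorem gate_low {X : Set (ℂ × Bool)} {U : Set ℂ} {M : ℕ} {p W : ℤ → ℤ × ℤ} {η d : ℝ} {u : Poly}
    {mm : ℕ} {Ai ei : ℤ → ℤ} {i : ZMod 3}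
    (L : LayU u mm M p W Ai ei) (hh : (mm : ℝ) * (100 * η) = u.s)
    (H : CorH X U M W η d (al Ai ei i) (nn Ai ei i)) {Rs : Set (D0 (sX X))} {q : D0 (sX X)} {N : ℕ}
    {T : ℕ → ℕ} {Rw : Set (Cs H.gp)}
    (St : SD H.gp H.hull (nn Ai ei i) Rs H.p
      (fun k : ℕ => RR (19 / 2 * η) (103 / 2 * η) (100 * η) W (al Ai ei i + k)) q N T)
    (hR1 : ∀ c ∈ Rw, ∃ s ∈ sX X, s ∈ BR η W M (al Ai ei i) (nn Ai ei i) ∧ c.1 = Quot.mk _ s)
    (hR2 : ∀ s ∈ sX X, s ∈ BR η W M (al Ai ei i) (nn Ai ei i) → ∃ c ∈ Rw, c.1 = Quot.mk _ s)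
    {a k j : ℤ} (hu : Use Ai ei a k j) (hj : (-(j : ZMod 3)) ≠ i) :
    ∃ dn : List ℂ, R10Px923.Col (sX X) (gz (100 * η) W a) (ge W a) (-η) η (-(9 * η)) (10 * η) η
        (yy η W X a) dn ∧
      ∀ s, (|Gatex838.X (gz (100 * η) W a) (ge W a) s| < 4 * η ∧
        -(100 * η) ≤ Gatex838.Y (gz (100 * η) W a) (ge W a) s ∧
        Gatex838.Y (gz (100 * η) W a) (ge W a) s ≤ -(9 * η)) ∨ s ∈ dn →
      ∀ (j' l : ZMod 3) (r' : ℕ), r' ≤ T (nn Ai ei i) →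
        s ∉ stA H Rw q (T (nn Ai ei i)) r' j' l := by
  have h0 := H.e0
  obtain ⟨k', t, e, h3, hn, hst, -⟩ := use_red L i hu hj
  obtain ⟨k1, G⟩ := geo_at L hh H h3 hn hst
  have q1 := L.lay.rr_pos i
  have q2 := L.lay.rr_lt i
  have q4 := L.lay.rr_eq i
  obtain ⟨hf, -⟩ := CorrIx831.back H (r := rr Ai ei i) (by omega) (by omega)
    (fun b h1 h2 => (L.lay.run_mi i (by omega) (by omega)).1)
  obtain ⟨up, dn, Nk, hlow⟩ := low_H hf St hR1 hR2 G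
    (fun w h1 h2 h3 => box_at L hh h0 w h1 h2 h3)
  have ez : gz (100 * η) W (al Ai ei i + k') = gz (100 * η) W a := by
    rw [e]; exact PthFx765.gz_dvd L.lay.fp ⟨t, by ring⟩ _
  have eg : ge W (al Ai ei i + k') = ge W a := by
    rw [e]; exact PthFx765.ge_dvd L.lay.fp ⟨t, by ring⟩
  have ey : yy η W X (al Ai ei i + k') = yy η W X a := by
    rw [e]; exact UKinBx571.per_int (fun a => H.yper a) a t
  rw [ez, eg] at Nk hlow
  rw [ey] at Nk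
  exact ⟨dn, col_of_neck Nk, hlow⟩

variable {S : Finset ℂ} {hS : GP (S : Set ℂ)} {Rw : Set (Cs hS)} {h₀ : Cs hS}
  {Z : Zn (rc0 hS)} {s : Cs hS → ZMod 2} {q : D0 S} {T : ℕ → ℕ} {N : ℕ} {p : ℕ → D0 S}
  {X : Set (ℂ × Bool)} {U : Set ℂ} {M mm : ℕ} {u : Poly} {p' W : ℤ → ℤ × ℤ} {A e : ℤ → ℤ}
  {η d : ℝ} {i : ZMod 3}

/-- **the gates with `Use` of the labels `≠ i`, for 358's giants** -/
theorem gate_gA (L : LayU u mm M p' W A e) (hh : (mm : ℝ) * (100 * η) = u.s)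
    (H : CorH X U M W η d (al A e i) (nn A e i)) (h3 : 3 ≤ S.card) (C : Col hS X s)
    (h0 : h₀ ∈ Hc hS)
    (hp : ∀ k : ℕ, (p k).1 = (yy η W X (al A e i + k), xx η W X (al A e i + k)))
    (hT : SDS hS s η W (al A e i) (nn A e i) p q N T)
    (hE : EvA (rc0 hS) {h₀} Rw (RD S (Bk η W (al A e i) (rr A e i - 1))) Z (q, T (nn A e i)) s)
    (hR1 : ∀ c ∈ Rw, ∃ v ∈ S, v ∈ BR η W M (al A e i) (nn A e i) ∧ c.1 = Quot.mk _ v)
    (hR2 : ∀ v ∈ S, v ∈ BR η W M (al A e i) (nn A e i) → ∃ c ∈ Rw, c.1 = Quot.mk _ v)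
    {a k j : ℤ} (hu : Use A e a k j) (hj : (-(j : ZMod 3)) ≠ i) :
    ∃ (y : ℂ) (dn : List ℂ), R10Px923.Col S (gz (100 * η) W a) (ge W a) (-η) η (-(9 * η))
        (10 * η) η y dn ∧ y ∈ Ag hS h₀ Rw Z η W A e i s (-(j : ZMod 3)) ∧
      ∀ v, (|Gatex838.X (gz (100 * η) W a) (ge W a) v| < 4 * η ∧
        -(100 * η) ≤ Gatex838.Y (gz (100 * η) W a) (ge W a) v ∧
        Gatex838.Y (gz (100 * η) W a) (ge W a) v ≤ -(9 * η)) ∨ v ∈ dn →
      ∀ l, v ∉ Ag hS h₀ Rw Z η W A e i s l := by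
  obtain rfl : sX X = S := C.e
  obtain rfl := col_eq H.hull h3 C
  have hpe : p = H.p := by
    funext k
    exact Subtype.ext (hp k)
  subst hpe
  obtain ⟨dn, h1, h2⟩ := gate_low L hh H (Rs := RD (sX X) (CorrIx831.Rts η W (al A e i) (nn A e i)))
    (Rw := Rw) (q := q) (N := N) (T := T) hT hR1 hR2 hu hj
  refine ⟨_, dn, h1, ymem_gA L.lay H rfl hT hE hp hu.2.1 hu.2.2 hj, fun v hv l hl => ?_⟩
  refine h2 v hv (i + 1) l _ (root hE).1.le ?_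
  unfold stA
  rw [Hc_eq h0]
  unfold Ag at hl
  rw [gA_AA hE] at hl
  exact hl

/-- **field `low` of `UKin`** -/
theorem low_gA (L : LayU u mm M p' W A e) (hh : (mm : ℝ) * (100 * η) = u.s)
    (H : CorH X U M W η d (al A e i) (nn A e i)) (h3 : 3 ≤ S.card) (C : Col hS X s)
    (h0 : h₀ ∈ Hc hS)
    (hp : ∀ k : ℕ, (p k).1 = (yy η W X (al A e i + k), xx η W X (al A e i + k)))
    (hT : SDS hS s η W (al A e i) (nn A e i) p q N T)
    (hE : EvA (rc0 hS) {h₀} Rw (RD S (Bk η W (al A e i) (rr A e i - 1))) Z (q, T (nn A e i)) s)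
    (hR1 : ∀ c ∈ Rw, ∃ v ∈ S, v ∈ BR η W M (al A e i) (nn A e i) ∧ c.1 = Quot.mk _ v)
    (hR2 : ∀ v ∈ S, v ∈ BR η W M (al A e i) (nn A e i) → ∃ c ∈ Rw, c.1 = Quot.mk _ v)
    {w : ℝ} (hw : w ≤ 4 * η) {b0 : ℝ} (hb : b0 ≤ -(9 * η)) :
    ∀ a k j : ℤ, Use A e a k j → (-(j : ZMod 3)) ≠ i → ∀ l,
      ∀ v ∈ Ag hS h₀ Rw Z η W A e i s l,
      |Gatex838.X (gz (100 * η) W a) (ge W a) v| < w →
      -(100 * η) ≤ Gatex838.Y (gz (100 * η) W a) (ge W a) v →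
      b0 < Gatex838.Y (gz (100 * η) W a) (ge W a) v := by
  intro a k j hu hj l v hv h1 h2
  by_contra hn
  obtain ⟨y, dn, -, -, hlow⟩ := gate_gA L hh H h3 C h0 hp hT hE hR1 hR2 hu hj
  exact hlow v (Or.inl ⟨by linarith, h2, by linarith⟩) l hv

/-- **field `nk` of `UKin`** -/
theorem nk_gA (L : LayU u mm M p' W A e) (hh : (mm : ℝ) * (100 * η) = u.s)
    (H : CorH X U M W η d (al A e i) (nn A e i)) (h3 : 3 ≤ S.card) (C : Col hS X s)
    (h0 : h₀ ∈ Hc hS)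
    (hp : ∀ k : ℕ, (p k).1 = (yy η W X (al A e i + k), xx η W X (al A e i + k)))
    (hT : SDS hS s η W (al A e i) (nn A e i) p q N T)
    (hE : EvA (rc0 hS) {h₀} Rw (RD S (Bk η W (al A e i) (rr A e i - 1))) Z (q, T (nn A e i)) s)
    (hR1 : ∀ c ∈ Rw, ∃ v ∈ S, v ∈ BR η W M (al A e i) (nn A e i) ∧ c.1 = Quot.mk _ v)
    (hR2 : ∀ v ∈ S, v ∈ BR η W M (al A e i) (nn A e i) → ∃ c ∈ Rw, c.1 = Quot.mk _ v) :
    ∀ a k j : ℤ, Use A e a k j → (-(j : ZMod 3)) ≠ i → ∃ y dn,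
      R10Px923.Col S (gz (100 * η) W a) (ge W a) (-η) η (-(9 * η)) (10 * η) η y dn ∧
      y ∈ Ag hS h₀ Rw Z η W A e i s (-(j : ZMod 3)) ∧
      ∀ v ∈ dn, ∀ l, v ∉ Ag hS h₀ Rw Z η W A e i s l := by
  intro a k j hu hj
  obtain ⟨y, dn, h1, h2, hlow⟩ := gate_gA L hh H h3 C h0 hp hT hE hR1 hR2 hu hj
  exact ⟨y, dn, h1, h2, fun v hv => hlow v (Or.inr hv)⟩

end Crest.Agent.R143.UKLowx568
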