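import Crest.Agent.R143.UKLow_568
import Crest.Agent.R143.EvG_168
import Crest.Agent.R143.RcT_422

/-!
# Row 143 (S0194), RIG: fields LOW and DN of `UKin` for the out strand on `rc0 hS` (helper568)

* `exists_backS` : the arcs of the corridor, with the times of the strand at the inner tiles
* `ls_strand`, `rs_strand` : left / right sites of the strand = those of the inner arcs, and sites of
  the two end regions; `rs_arc`, `ls_arc` : converse for the inner arcs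
* **`low_strand`** : sites of the lower part and of the lower arm of a straight inner gate are not in
  the giants `R5qx166.AA (rc0 hS) σ q (T n) r (Ww ..) i l`, `l : ZMod 3`
-/

set_option autoImplicit false
set_option linter.unusedSectionVars false

noncomputable section

open scoped Classical

namespace Crest.Agent.R143.UKLowx568

open Crest.Agent.R143.B0x346 Crest.Agent.R143.DelGx806 Crest.Agent.R143.DelRx806
open Crest.Agent.R143.ToolWx838 Crest.Agent.R143.Blkx838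
open Crest.Agent.R143.ToolW3x838 Crest.Agent.R143.Gatex838 Crest.Agent.R143.Neckx921
open Crest.Agent.R143.Frame1x395 Crest.Agent.R143.Frame2x395 Crest.Agent.R143.Frame3x395
  Crest.Agent.R143.Frame4x395 Crest.Agent.R143.Frame8x395 Crest.Agent.R143.Frame9x395
  Crest.Agent.R143.Frame10x395 Crest.Agent.R143.Frame11x395
open Crest.Agent.R143.Frame5x395 (sd mem_sd th th_spec)
open Crest.Agent.R143.Splx117 Crest.Agent.R143.WLocx713 Crest.Agent.R143.RingDx117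
  Crest.Agent.R143.CorrDx117
open Crest.Agent.R143.Idxx927 (RingP cyc wl X_wl Y_wl)
open Crest.Agent.R143.TileRx228
open Crest.Agent.R143.Sepx686 Crest.Agent.R143.SepLx686 Crest.Agent.R143.LowDx568
open Crest.Agent.R143.EvGx168 (SD)
open Crest.Agent.R143.FinCx811 (Cs rc0 rcol)
open Crest.Agent.R143.RcTx422 (Hc mem_wl_LS mem_wr_RS ext_restr pre_image)
open Crest.Agent.R143.Gntx535 (wr)
open Crest.Agent.R143.Extx358 (Ext Wg Ww Zc)
open Crest.Agent.R143.OutSx358 (zc)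
open Crest.Agent.R143.R5qx166 (AA)

variable {S : Finset ℂ} {M n k0 k1 : ℕ} {W : ℤ → ℤ × ℤ} {A B h b1 m ρ τ κ : ℝ} {o : ℤ} {K0 : Set ℂ}
variable {χ : ℂ → ZMod 2} {hS : GP (S : Set ℂ)} {hχ : HullC S χ} {y z : ℕ → ℂ} {p : ℕ → D0 S}

/-! ### the strand and the arcs -/

section strand

variable {Aa Bb : ℕ → Set ℂ} {Rs : Set (D0 S)} {q : D0 S} {N : ℕ} {T : ℕ → ℕ} {t : ℕ → ℕ}

theorem sd_st (H : SD hS hχ n Rs p Bb q N T) (i : ℕ) :
    ((stp (cm0 hS) (xc hS hχ))^[i] q).1 = (nx S χ)^[i] q.1 :=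
  it_eq hS hχ (show cfg (cm0 hS) (lift S hχ) q = 1 from H.lp.occ) i

theorem sd_mono (H : SD hS hχ n Rs p Bb q N T) {a b : ℕ} (hab : a ≤ b) (hb : b ≤ n) : T a ≤ T b := by
  induction b, hab using Nat.le_induction with
  | base => exact le_rfl
  | succ b _ ih => exact (ih (by omega)).trans (H.mono b (by omega))

/-- **the arcs with the times of the strand** -/
theorem exists_backS (D : DCorr hS hχ n y z Aa Bb p)
    (hb : ∀ k, k < n → FA (cm0 hS) (xc hS hχ) (RD S (Bb k)) (p (k + 1)) (p k))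
    (H : SD hS hχ n Rs p Bb q N T) : ∃ t, Back D t ∧
      ∀ k, 0 < k → k + 1 < n → t k = T (n - k) - T (n - 1 - k) := by
  obtain ⟨t0, B0⟩ := exists_back D hb
  set t : ℕ → ℕ := fun k => if 0 < k ∧ k + 1 < n then T (n - k) - T (n - 1 - k) else t0 k with ht
  have key : ∀ k, 0 < k → k + 1 < n → ∀ i, i ≤ T (n - k) - T (n - 1 - k) →
      (nx S χ)^[i] (p (k + 1)).1 = ((stp (cm0 hS) (xc hS hχ))^[T (n - 1 - k) + i] q).1 := by
    intro k h1 h2 i _
    have e1 : (stp (cm0 hS) (xc hS hχ))^[T (n - 1 - k)] q = p (k + 1) := by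
      have := H.at_ (n - 1 - k) (by omega) (by omega)
      rw [show n - (n - 1 - k) = k + 1 by omega] at this
      exact this
    rw [sd_st H, Nat.add_comm (T (n - 1 - k)) i, Function.iterate_add_apply, ← sd_st H, e1]
  have mono : ∀ k, 0 < k → k + 1 < n → T (n - 1 - k) ≤ T (n - k) := by
    intro k _ _
    have := H.mono (n - 1 - k) (by omega)
    rwa [show n - 1 - k + 1 = n - k by omega] at this
  have reg : ∀ k, 0 < k → k + 1 < n → ∀ i, i ≤ T (n - k) - T (n - 1 - k) →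
      (stp (cm0 hS) (xc hS hχ))^[T (n - 1 - k) + i] q ∈ RD S (Bb k) := by
    intro k h1 h2 i hi
    have h3 := mono k h1 h2
    have := H.arc (n - 1 - k) (by omega) (T (n - 1 - k) + i) (by omega)
      (by rw [show n - 1 - k + 1 = n - k by omega]; omega)
    rw [show n - 1 - (n - 1 - k) = k by omega] at this
    exact this
  refine ⟨t, ⟨?_, ?_, ?_⟩, fun k h1 h2 => if_pos ⟨h1, h2⟩⟩
  · intro k hk
    by_cases hc : 0 < k ∧ k + 1 < n
    · have e : t k = T (n - k) - T (n - 1 - k) := if_pos hc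
      rw [e, key k hc.1 hc.2 _ le_rfl]
      have h3 := mono k hc.1 hc.2
      rw [show T (n - 1 - k) + (T (n - k) - T (n - 1 - k)) = T (n - k) by omega]
      have := H.at_ (n - k) (by omega) (by omega)
      rw [show n - (n - k) = k by omega] at this
      exact congrArg Subtype.val this
    · have e : t k = t0 k := if_neg hc
      rw [e]
      exact B0.arr k hk
  · intro k hk
    by_cases hc : 0 < k ∧ k + 1 < n
    · have e : t k = T (n - k) - T (n - 1 - k) := if_pos hc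
      rw [e]
      rintro s ⟨i, hi, rfl⟩
      rw [key k hc.1 hc.2 i hi]
      exact (reg k hc.1 hc.2 i hi).1
    · have e : t k = t0 k := if_neg hc
      rw [e]
      exact B0.lB k hk
  · intro k hk
    by_cases hc : 0 < k ∧ k + 1 < n
    · have e : t k = T (n - k) - T (n - 1 - k) := if_pos hc
      rw [e]
      rintro s ⟨i, hi, rfl⟩
      rw [key k hc.1 hc.2 i hi]
      exact (reg k hc.1 hc.2 i hi).2
    · have e : t k = t0 k := if_neg hc
      rw [e]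
      exact B0.rB k hk

/-- the tile of a time -/
theorem sd_tile (H : SD hS hχ n Rs p Bb q N T) {i : ℕ} (hi : i ≤ T n) :
    ∃ k, k < n ∧ T k ≤ i ∧ i ≤ T (k + 1) := by
  have key : ∀ b, b ≤ n → 0 < b → i ≤ T b → ∃ k, k < b ∧ T k ≤ i ∧ i ≤ T (k + 1) := by
    intro b
    induction b with
    | zero => intro _ h; omega
    | succ b ih =>
      intro hb _ h
      rcases Nat.lt_or_ge (T b) i with h1 | h1
      · exact ⟨b, by omega, h1.le, h⟩
      · rcases Nat.eq_zero_or_pos b with h2 | h2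
        · subst h2
          have h0 := H.T0
          exact ⟨0, by omega, by omega, h⟩
        · obtain ⟨k, k1, k2, k3⟩ := ih (by omega) h2 h1
          exact ⟨k, by omega, k2, k3⟩
  have := H.n3
  exact key n le_rfl (by omega) hi

/-- a state of the strand is a state of an inner arc or it is in an end region -/
theorem sd_state (H : SD hS hχ n Rs p Bb q N T)
    (ht : ∀ k, 0 < k → k + 1 < n → t k = T (n - k) - T (n - 1 - k)) {i : ℕ} (hi : i ≤ T n) :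
    (∃ k, 0 < k ∧ k + 1 < n ∧ ∃ j ≤ t k, (nx S χ)^[i] q.1 = (nx S χ)^[j] (p (k + 1)).1) ∨
      ((nx S χ)^[i] q.1).1 ∈ Bb 0 ∧ ((nx S χ)^[i] q.1).2 ∈ Bb 0 ∨
      ((nx S χ)^[i] q.1).1 ∈ Bb (n - 1) ∧ ((nx S χ)^[i] q.1).2 ∈ Bb (n - 1) := by
  obtain ⟨k, k1, k2, k3⟩ := sd_tile H hi
  have h3 := H.n3
  by_cases hc : 0 < k ∧ k + 1 < n
  · left
    refine ⟨n - 1 - k, by omega, by omega, i - T k, ?_, ?_⟩
    · rw [ht (n - 1 - k) (by omega) (by omega), show n - (n - 1 - k) = k + 1 by omega,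
        show n - 1 - (n - 1 - k) = k by omega]
      omega
    · have e1 : (stp (cm0 hS) (xc hS hχ))^[T k] q = p (n - 1 - k + 1) := by
        have := H.at_ k hc.1 (by omega)
        rw [show n - k = n - 1 - k + 1 by omega] at this
        exact this
      have e2 : (nx S χ)^[T k] q.1 = (p (n - 1 - k + 1)).1 := by rw [← sd_st H, e1]
      rw [← e2, ← Function.iterate_add_apply, show i - T k + T k = i by omega]
  · right
    have hr := H.arc k k1 i k2 k3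
    have e : (nx S χ)^[i] q.1 = ((stp (cm0 hS) (xc hS hχ))^[i] q).1 := (sd_st H i).symm
    rw [e]
    rcases Nat.eq_zero_or_pos k with h1 | h1
    · right
      subst h1
      exact hr
    · left
      have : n - 1 - k = 0 := by omega
      rw [this] at hr
      exact hr

/-- left sites of the strand -/
theorem ls_strand (H : SD hS hχ n Rs p Bb q N T)
    (ht : ∀ k, 0 < k → k + 1 < n → t k = T (n - k) - T (n - 1 - k)) {s : ℂ}
    (hs : s ∈ LS S χ q.1 (T n)) :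
    (∃ k, 0 < k ∧ k + 1 < n ∧ s ∈ LS S χ (p (k + 1)).1 (t k)) ∨ s ∈ Bb 0 ∨ s ∈ Bb (n - 1) := by
  obtain ⟨i, hi, rfl⟩ := hs
  rcases sd_state H ht hi with ⟨k, h1, h2, j, hj, e⟩ | h1 | h1
  · exact Or.inl ⟨k, h1, h2, j, hj, by rw [e]⟩
  · exact Or.inr (Or.inl h1.1)
  · exact Or.inr (Or.inr h1.1)

/-- right sites of the strand -/
theorem rs_strand (H : SD hS hχ n Rs p Bb q N T)
    (ht : ∀ k, 0 < k → k + 1 < n → t k = T (n - k) - T (n - 1 - k)) {s : ℂ}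
    (hs : s ∈ RS S χ q.1 (T n)) :
    (∃ k, 0 < k ∧ k + 1 < n ∧ s ∈ RS S χ (p (k + 1)).1 (t k)) ∨ s ∈ Bb 0 ∨ s ∈ Bb (n - 1) := by
  obtain ⟨i, hi, rfl⟩ := hs
  rcases sd_state H ht hi with ⟨k, h1, h2, j, hj, e⟩ | h1 | h1
  · exact Or.inl ⟨k, h1, h2, j, hj, by rw [e]⟩
  · exact Or.inr (Or.inl h1.2)
  · exact Or.inr (Or.inr h1.2)

/-- the states of an inner arc are states of the strand -/
theorem arc_state (H : SD hS hχ n Rs p Bb q N T) {k : ℕ} (h1 : 0 < k) (h2 : k + 1 < n) {i : ℕ}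
    (hi : i ≤ T (n - k) - T (n - 1 - k)) :
    T (n - 1 - k) + i ≤ T n ∧ (nx S χ)^[i] (p (k + 1)).1 = (nx S χ)^[T (n - 1 - k) + i] q.1 := by
  have e1 : (stp (cm0 hS) (xc hS hχ))^[T (n - 1 - k)] q = p (k + 1) := by
    have := H.at_ (n - 1 - k) (by omega) (by omega)
    rw [show n - (n - 1 - k) = k + 1 by omega] at this
    exact this
  have h3 := sd_mono H (show n - k ≤ n by omega) le_rfl
  have h4 := H.mono (n - 1 - k) (by omega)
  rw [show n - 1 - k + 1 = n - k by omega] at h4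
  refine ⟨by omega, ?_⟩
  rw [Nat.add_comm (T (n - 1 - k)) i, Function.iterate_add_apply, ← sd_st H (T (n - 1 - k)), e1]

theorem rs_arc (H : SD hS hχ n Rs p Bb q N T)
    (ht : ∀ k, 0 < k → k + 1 < n → t k = T (n - k) - T (n - 1 - k)) {k : ℕ} (h1 : 0 < k)
    (h2 : k + 1 < n) {s : ℂ} (hs : s ∈ RS S χ (p (k + 1)).1 (t k)) : s ∈ RS S χ q.1 (T n) := by
  obtain ⟨i, hi, rfl⟩ := hs
  rw [ht k h1 h2] at hi
  obtain ⟨h3, h4⟩ := arc_state H h1 h2 hi
  exact ⟨_, h3, by rw [h4]⟩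

theorem ls_arc (H : SD hS hχ n Rs p Bb q N T)
    (ht : ∀ k, 0 < k → k + 1 < n → t k = T (n - k) - T (n - 1 - k)) {k : ℕ} (h1 : 0 < k)
    (h2 : k + 1 < n) {s : ℂ} (hs : s ∈ LS S χ (p (k + 1)).1 (t k)) : s ∈ LS S χ q.1 (T n) := by
  obtain ⟨i, hi, rfl⟩ := hs
  rw [ht k h1 h2] at hi
  obtain ⟨h3, h4⟩ := arc_state H h1 h2 hi
  exact ⟨_, h3, by rw [h4]⟩

end strand

/-! ### LOW and DN on `rc0 hS` -/

/-- `j` is the index of a tile of the white part or of an end tile -/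
def Wj (n M j : ℕ) : Prop := j = 0 ∨ (n - 1 ≤ j ∧ j < M)

/-- **LOW and DN for the strand**: `Rw` = cells of the sites in the regions of the white tiles and of
the two end tiles -/
theorem low_strand (G : SGeo S M n k0 k1 W A B h b1 m ρ τ κ o K0)
    (D : DCorr hS hχ n y z (fun k => RR A B h W (o + k)) (fun k => RR (A + ρ) (B + ρ) h W (o + k)) p)
    (hb : ∀ k : ℕ, k < n →
      FA (cm0 hS) (xc hS hχ) (RD S (RR (A + ρ) (B + ρ) h W (o + k))) (p (k + 1)) (p k))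
    {a0 a1 : ℝ} {V β : Finset ℂ} {up dn : List ℂ}
    (N : NkG S k0 W A B h b1 m o χ y z a0 a1 V β up dn) {x : ℕ → ℂ} (hxz : ∀ k, k ≤ n → x k = z k)
    (hxM : ∀ j, x (j + M) = x j)
    (hW : ∀ j, n ≤ j → j < M → Lk S (WT S χ y W A B h o j) (x j) (x (j + 1)))
    {w0 c0 : ℝ} (hw1 : 0 < w0) (hw0 : w0 ≤ B + κ - h / 2)
    (hbox : ∀ w, |X (gz h W (o + k0)) (ge W (o + k0)) w| < w0 →
      -c0 ≤ Y (gz h W (o + k0)) (ge W (o + k0)) w →
      Y (gz h W (o + k0)) (ge W (o + k0)) w ≤ -(A + τ) → w ∈ K0)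
    (hwh : ∀ s ∈ dn, -A < Y (gz h W (o + k0)) (ge W (o + k0)) s → χ s ≠ χ (y 0))
    (hy0 : χ (y 0) = 1)
    -- the strand
    {Rs : Set (D0 S)} {q : D0 S} {Np : ℕ} {T : ℕ → ℕ}
    (H : SD hS hχ n Rs p (fun k => RR (A + ρ) (B + ρ) h W (o + k)) q Np T)
    {Rw : Set (Cs hS)}
    (hR1 : ∀ c ∈ Rw, ∃ j, Wj n M j ∧ ∃ s ∈ S, s ∈ RR (A + ρ) (B + ρ) h W (o + j) ∧
      c.1 = Quot.mk _ s)
    (hR2 : ∀ (c : Cs hS) (s : ℂ) (j : ℕ), s ∈ S → Wj n M j → s ∈ RR (A + ρ) (B + ρ) h W (o + j) →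
      c.1 = Quot.mk _ s → c ∈ Rw)
    {s : ℂ} (hs : (|X (gz h W (o + k0)) (ge W (o + k0)) s| < w0 ∧
      -c0 ≤ Y (gz h W (o + k0)) (ge W (o + k0)) s ∧ Y (gz h W (o + k0)) (ge W (o + k0)) s ≤ -A) ∨
      s ∈ dn) {c : Cs hS} (hc : c.1 = Quot.mk _ s) :
    ¬ OnHull S s ∧ c ∉ zc (rc0 hS) Rw q (T n) (rcol hS χ hχ) ∧
      ¬ Ext (rc0 hS) (Hc hS) (zc (rc0 hS) Rw q (T n) (rcol hS χ hχ)) c ∧
      ∀ (i l : ZMod 3) (r : ℕ), r ≤ T n → c ∉ AA (rc0 hS) (rcol hS χ hχ) q (T n) r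
        (Ww (rc0 hS) (Hc hS) Rw q (T n) (rcol hS χ hχ)) i l := by
  obtain ⟨t, Bk, ht⟩ := exists_backS D hb H
  have hk3 := G.k3
  have hkn := G.kn
  have hnM := G.nM
  have hρ0 := G.ρ0
  have hqc : xc hS hχ q = 1 := H.lp.occ
  set σ := rcol hS χ hχ with hσ
  -- sets of cells of `cm0 hS`
  set Zr : Set (Cs hS) := zc (rc0 hS) Rw q (T n) σ with hZr
  set Zm : Set (Quot (hullE S)) := Subtype.val '' Zr with hZm
  set ALm : Set (Quot (hullE S)) :=
    {v | ∃ k, k < n ∧ ∃ s ∈ LS S χ (p (k + 1)).1 (t k), v = Quot.mk _ s} with hALm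
  set ARm : Set (Quot (hullE S)) :=
    {v | ∃ k, k < n ∧ ∃ s ∈ RS S χ (p (k + 1)).1 (t k), v = Quot.mk _ s} with hARm
  have hwl : ∀ c : Cs hS, c ∈ Gntx535.wl (rc0 hS) (cfg (rc0 hS) σ) q (T n) ↔
      ∃ s ∈ LS S χ q.1 (T n), c.1 = Quot.mk _ s := fun c => mem_wl_LS hqc
  have hwr : ∀ c : Cs hS, c ∈ wr (rc0 hS) (cfg (rc0 hS) σ) q (T n) ↔
      ∃ s ∈ RS S χ q.1 (T n), c.1 = Quot.mk _ s := fun c => mem_wr_RS hqc
  -- cells of sites
  have hcell : ∀ v : ℂ, v ∈ S → ∃ c : Cs hS, c.1 = Quot.mk _ v := by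
    intro v hv
    exact ⟨⟨_, FinCx811.cell_mem hS (RcTx422.dart3 hS q) hv⟩, rfl⟩
  have hwhite : ∀ (c : Cs hS) (v : ℂ), c.1 = Quot.mk _ v → χ v ≠ χ (y 0) → σ c = 0 := by
    intro c v hcv hv
    rw [hσ, RcTx422.rcol_val hcv]
    rw [hy0] at hv
    revert hv
    generalize χ v = a
    revert a
    decide
  have hZ1 : ∀ k, k < n → ∀ s ∈ RS S χ (p (k + 1)).1 (t k), (Quot.mk _ s : Quot (hullE S)) ∈ Zm := by
    intro k hk v hv
    have hvS := RS_S D hk hv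
    obtain ⟨c, hcv⟩ := hcell v hvS
    refine ⟨c, ?_, hcv⟩
    by_cases hc : 0 < k ∧ k + 1 < n
    · exact Or.inl (Or.inr ((hwr c).2 ⟨v, rs_arc H ht hc.1 hc.2 hv, hcv⟩))
    · refine Or.inr ⟨hR2 c v k hvS ?_ (Bk.rB k hk hv) hcv, hwhite c v hcv (Bk.rcol hk hv)⟩
      unfold Wj
      omega
  have hZ2 : ∀ j, n ≤ j → j < M → ∀ s ∈ WT S χ y W A B h o j,
      (Quot.mk _ s : Quot (hullE S)) ∈ Zm := by
    rintro j h1 h2 v ⟨⟨h3, h4⟩, h5⟩
    obtain ⟨c, hcv⟩ := hcell v h3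
    refine ⟨c, Or.inr ⟨hR2 c v j h3 ?_ (RR_mono (by linarith) (by linarith) h W _ h5) hcv,
      hwhite c v hcv h4⟩, hcv⟩
    unfold Wj
    omega
  have hZ : ∀ v ∈ Zm, v ∈ ALm ∨ v ∈ ARm ∨ ∃ j : ℕ, j < M ∧ j ≠ k0 ∧ j + 1 ≠ k0 ∧ ∃ s ∈ S,
      s ∈ RR (A + ρ) (B + ρ) h W (o + j) ∧ v = Quot.mk _ s := by
    rintro _ ⟨c, hc', rfl⟩
    have hmem : ∀ i, ((nx S χ)^[i] q.1).1 ∈ S ∧ ((nx S χ)^[i] q.1).2 ∈ S := by
      intro i
      rw [← sd_st H i]
      exact dart_mem _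
    rcases hc' with (h1 | h1) | h1
    · obtain ⟨v, hv, e⟩ := (hwl c).1 h1
      have hvS : v ∈ S := by
        obtain ⟨i, -, rfl⟩ := hv
        exact (hmem i).1
      rcases ls_strand H ht hv with ⟨k, g1, g2, g3⟩ | g | g
      · exact Or.inl ⟨k, by omega, v, g3, e⟩
      · exact Or.inr (Or.inr ⟨0, by omega, by omega, by omega, v, hvS, g, e⟩)
      · exact Or.inr (Or.inr ⟨n - 1, by omega, by omega, by omega, v, hvS, g, e⟩)
    · obtain ⟨v, hv, e⟩ := (hwr c).1 h1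
      have hvS : v ∈ S := by
        obtain ⟨i, -, rfl⟩ := hv
        exact (hmem i).2
      rcases rs_strand H ht hv with ⟨k, g1, g2, g3⟩ | g | g
      · exact Or.inr (Or.inl ⟨k, by omega, v, g3, e⟩)
      · exact Or.inr (Or.inr ⟨0, by omega, by omega, by omega, v, hvS, g, e⟩)
      · exact Or.inr (Or.inr ⟨n - 1, by omega, by omega, by omega, v, hvS, g, e⟩)
    · obtain ⟨j, g1, v, g2, g3, g4⟩ := hR1 c h1.1
      unfold Wj at g1
      exact Or.inr (Or.inr ⟨j, by omega, by omega, by omega, v, g2, g3, g4⟩)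
  obtain ⟨r1, -, -, r4, r5, -⟩ := low_gate G D Bk N hxz hxM hW hw1 hw0 hbox hwh (Z := Zm) (AL := ALm)
    (AR := ARm) hZ1 hZ2 (fun _ h => h) (fun _ h => h) hZ hs
  have hcZ : c ∉ Zr := fun h => r4 ⟨c, h, hc⟩
  have hcE : ¬ Ext (rc0 hS) (Hc hS) Zr c := by
    intro h
    apply r5
    rw [← hc]
    have e1 : (Subtype.val ⁻¹' Zm : Set (Cs hS)) = Zr := pre_image Zr
    have h' : Ext (rc0 hS) (Hc hS) (Subtype.val ⁻¹' Zm : Set (Cs hS)) c := by
      rw [e1]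
      exact h
    exact ext_restr.1 h'
  refine ⟨r1, hcZ, hcE, fun i l r hr hA => ?_⟩
  have hL : c ∉ Gntx535.wl (rc0 hS) (cfg (rc0 hS) σ) q (T n) := fun h => hcZ (Or.inl (Or.inl h))
  have hRr : c ∉ wr (rc0 hS) (cfg (rc0 hS) σ) q (T n) := fun h => hcZ (Or.inl (Or.inr h))
  rcases R5qx166.AA_cases hA with ⟨-, v, -, hv, e⟩ | ⟨-, v, hv, e⟩ | ⟨-, h⟩
  · exact hL (Gntx535.mem_wl.2 ⟨v, hv, e⟩)
  · exact hL (Gntx535.mem_wl.2 ⟨v, hv.trans hr, e⟩)
  · rcases h with (h | h) | h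
    · exact hcE h
    · exact hcZ h.1
    · exact hRr h

/-- **the sites `y k` of the inner gates in the giants** (root gap in the tile `k₀`) -/
theorem gate_AA {Aa Bb : ℕ → Set ℂ} (D : DCorr hS hχ n y z Aa Bb p) {Rs : Set (D0 S)} {q : D0 S}
    {Np : ℕ} {T : ℕ → ℕ} (H : SD hS hχ n Rs p Bb q Np T) {k₀ r : ℕ} (hk : k₀ + 1 < n)
    (h1 : T (n - 1 - k₀) ≤ r) (h2 : r < T (n - k₀)) {Wc : Set (Cs hS)} (i : ZMod 3) {k : ℕ}
    (k1 : 0 < k) (k2 : k < n) {c : Cs hS} (hc : c.1 = Quot.mk _ (y k)) :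
    (k ≤ k₀ → c ∈ AA (rc0 hS) (rcol hS χ hχ) q (T n) r Wc i (i + 1)) ∧
      (k₀ < k → c ∈ AA (rc0 hS) (rcol hS χ hχ) q (T n) r Wc i i) := by
  have e1 : (stp (cm0 hS) (xc hS hχ))^[T (n - k)] q = p k := by
    have := H.at_ (n - k) (by omega) (by omega)
    rw [show n - (n - k) = k by omega] at this
    exact this
  have e2 : lc (rc0 hS) (cfg (rc0 hS) (rcol hS χ hχ)) q (T (n - k)) = c := by
    apply Subtype.ext
    rw [hc]
    show (Quot.mk _ ((stp (cm0 hS) (xc hS hχ))^[T (n - k)] q).1.1 : Quot (hullE S)) = _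
    rw [e1, D.st k (by omega)]
  constructor
  · intro h
    rw [R5qx166.AA_1]
    have h3 := sd_mono H (show n - k₀ ≤ n - k by omega) (by omega)
    have h4 := sd_mono H (show n - k ≤ n by omega) le_rfl
    exact ⟨_, by omega, h4, e2⟩
  · intro h
    rw [R5qx166.AA_0]
    have h3 := sd_mono H (show n - k ≤ n - 1 - k₀ by omega) (by omega)
    exact ⟨_, by omega, e2⟩

end Crest.Agent.R143.UKLowx568
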