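import Crest.Agent.R143.UKLowS_568
import Crest.Agent.R143.SepH_697
import Crest.Agent.R143.RegS_523
import Crest.Agent.R143.CorrA_831
import Crest.Agent.R143.R10P_923
import Crest.Agent.R143.C2SC_395

/-!
# Row 143 (S0194), RIG, box (7): the fields `low` and `nk` of 923's `UKin` (helper568)

`H : CorH X U M W η d o n` (713), strand `(q, N, T)` of the corridor on `rc0 H.gp` (168's `SD`),
`Rw` = cells of the sites of `BR η W M o n` (697), root time `r`.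

* `stA H Rw q m r j l` : sites of the giant `l` of 166's `AA` of type `j`
* `low_H` : at every straight inner gate with the points below it in `K0`
* `LayU` : `run_edge`, `use_red` (reduction of a gate modulo `M` to the out tiles)
* **`low_UK`**, **`nk_UK`** : the fields `low`, `nk` of `UKin`, literally, with `h = 100 η`,
  `w ≤ 4 η`, `a0 = -η`, `a1 = η`, `b0 = -9 η`, `b1 = 10 η`, `m' = η`
-/

set_option autoImplicit false

noncomputable section

open scoped Classical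

namespace Crest.Agent.R143.UKLowx568

open Crest.Agent.R143.B0x346 Crest.Agent.R143.DelGx806 Crest.Agent.R143.DelRx806
open Crest.Agent.R143.ToolWx838 Crest.Agent.R143.Blkx838
open Crest.Agent.R143.ToolW3x838
open Crest.Agent.R143.Neckx921 (Neck NeckD Tile Lk)
open Crest.Agent.R143.Frame1x395 Crest.Agent.R143.Frame2x395 Crest.Agent.R143.Frame3x395
  Crest.Agent.R143.Frame4x395 Crest.Agent.R143.Frame8x395 Crest.Agent.R143.Frame9x395
  Crest.Agent.R143.Frame10x395 Crest.Agent.R143.Frame11x395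
open Crest.Agent.R143.Frame5x395 (sd mem_sd th th_spec)
open Crest.Agent.R143.Splx117 Crest.Agent.R143.WLocx713 Crest.Agent.R143.RingDx117
  Crest.Agent.R143.CorrDx117
open Crest.Agent.R143.PP0x831
open Crest.Agent.R143.DCorGx713
open Crest.Agent.R143.TileRx228
open Crest.Agent.R143.Sepx686 Crest.Agent.R143.SepLx686 Crest.Agent.R143.LowDx568
open Crest.Agent.R143.EvGx168 (SD)
open Crest.Agent.R143.FinCx811 (Cs rc0 rcol)
open Crest.Agent.R143.RcTx422 (Hc)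
open Crest.Agent.R143.Extx358 (Ww)
open Crest.Agent.R143.R5qx166 (AA)
open Crest.Agent.R143.CorHx713
open Crest.Agent.R143.SepHx697 (Geo BR nkg edge_of inn_of rr_eq)
open Crest.Agent.R143.Layx416 (Lay g al mi be nn rr jj)
open Crest.Agent.R143.LayUx416 (LayU)
open Crest.Agent.R143.PolyUx346 (Poly)
open Crest.Agent.R143.R10Px923 (Use Col col_of_neck)

variable {X : Set (ℂ × Bool)} {U K0 : Set ℂ} {M n k0 k1 : ℕ} {W : ℤ → ℤ × ℤ} {η d : ℝ} {o : ℤ}

/-- the sites of the giants of the strand -/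
def stA (H : CorH X U M W η d o n) (Rw : Set (Cs H.gp)) (q : D0 (sX X)) (m r : ℕ) (j l : ZMod 3) :
    Set ℂ :=
  C2SCx395.st (AA (rc0 H.gp) (rcol H.gp (cX X) H.hull) q m r
    (Ww (rc0 H.gp) (Hc H.gp) Rw q m (rcol H.gp (cX X) H.hull)) j) l

section strand

variable {H : CorH X U M W η d o n} {Rs : Set (D0 (sX X))} {q : D0 (sX X)} {N : ℕ} {T : ℕ → ℕ}
  {Rw : Set (Cs H.gp)}

/-- **LOW and DN at a straight inner gate**, `CorH` form -/
theorem low_H (hf : ∀ k : ℕ, k < n → FA (cm0 H.gp) (xc H.gp H.hull)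
      (RD (sX X) (RR (19 / 2 * η) (103 / 2 * η) (100 * η) W (o + k))) (H.p (k + 1)) (H.p k))
    (St : SD H.gp H.hull n Rs H.p
      (fun k : ℕ => RR (19 / 2 * η) (103 / 2 * η) (100 * η) W (o + k)) q N T)
    (hR1 : ∀ c ∈ Rw, ∃ s ∈ sX X, s ∈ BR η W M o n ∧ c.1 = Quot.mk _ s)
    (hR2 : ∀ s ∈ sX X, s ∈ BR η W M o n → ∃ c ∈ Rw, c.1 = Quot.mk _ s)
    (G : Geo (sX X) M n k0 k1 W η o K0)
    (hbox : ∀ w, |Gatex838.X (gz (100 * η) W (o + k0)) (ge W (o + k0)) w| < 4 * η →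
      -(100 * η) ≤ Gatex838.Y (gz (100 * η) W (o + k0)) (ge W (o + k0)) w →
      Gatex838.Y (gz (100 * η) W (o + k0)) (ge W (o + k0)) w ≤ -(10 * η) → w ∈ K0) :
    ∃ up dn : List ℂ, Neck (sX X) (gz (100 * η) W (o + k0)) (ge W (o + k0)) (-η) η (-(9 * η))
      (10 * η) η (sX X) (bX X) up (yy η W X (o + k0)) dn ∧
      ∀ s, (|Gatex838.X (gz (100 * η) W (o + k0)) (ge W (o + k0)) s| < 4 * η ∧
        -(100 * η) ≤ Gatex838.Y (gz (100 * η) W (o + k0)) (ge W (o + k0)) s ∧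
        Gatex838.Y (gz (100 * η) W (o + k0)) (ge W (o + k0)) s ≤ -(9 * η)) ∨ s ∈ dn →
      ∀ (j l : ZMod 3) (r : ℕ), r ≤ T n → s ∉ stA H Rw q (T n) r j l := by
  have h0 := H.e0
  have hnM := H.nM
  have hkn := G.kn
  have D := H.corr
  have eB : (fun k : ℕ => RR (19 / 2 * η) (103 / 2 * η) (100 * η) W (o + k)) =
      fun k : ℕ => RR (9 * η + η / 2) (51 * η + η / 2) (100 * η) W (o + k) :=
    funext fun k => rr_eq η W _
  rw [eB] at D St
  obtain ⟨up, dn, Nk⟩ := nkg H k0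
  have hy0 : cX X (yy η W X (o + ((0 : ℕ) : ℤ))) = 1 := H.coly _
  refine ⟨up, dn, Nk.neck, ?_⟩
  rintro s hs j l r hr ⟨-, c, hcA, hcs⟩
  refine (low_strand (x := fun k : ℕ => xx η W X (o + k)) (w0 := 4 * η) (c0 := 100 * η) G D
    (fun k hk => by
      have := hf k hk
      rw [rr_eq] at this
      exact this) Nk (fun k _ => rfl) ?_ ?_ (by linarith) (by linarith) ?_ ?_ hy0 St (Rw := Rw)
    ?_ ?_ hs hcs).2.2.2 j l r hr hcA
  · intro j
    show xx η W X (o + ((j + M : ℕ) : ℤ)) = xx η W X (o + j)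
    rw [show o + ((j + M : ℕ) : ℤ) = o + j + M by push_cast; ring]
    exact H.xper _
  · intro j h1 h2
    have h3 := H.wht (o + j)
    show Lk (sX X) _ (xx η W X (o + j)) (xx η W X (o + ((j + 1 : ℕ) : ℤ)))
    rw [show o + ((j + 1 : ℕ) : ℤ) = o + j + 1 by push_cast; ring]
    refine h3.mono ?_
    rintro s ⟨⟨h4, h5⟩, h6⟩
    exact ⟨⟨h4, fun hc => h5 ((bX_iff s h4).1 (hc.trans hy0))⟩, h6⟩
  · intro w h1 h2 h3
    exact hbox w h1 h2 (by linarith)
  · intro v hv hY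
    have h1 := Nk.neck.cd v hv hY
    intro h2
    exact h1.2 ((bX_iff v h1.1).1 (h2.trans hy0))
  · intro c hc
    obtain ⟨v, h1, ⟨a, h2, h3, h4⟩, h5⟩ := hR1 c hc
    rw [rr_eq] at h4
    rcases h3.lt_or_eq with h6 | h6
    · refine ⟨(a - o).toNat, Or.inr ⟨by omega, by omega⟩, v, h1, ?_, h5⟩
      rw [show o + ((a - o).toNat : ℤ) = a by omega]
      exact h4
    · refine ⟨0, Or.inl rfl, v, h1, ?_, h5⟩
      rw [h6, RR_per H.path] at h4
      simpa using h4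
  · intro c v j hv hj hvR e
    have hB : v ∈ BR η W M o n := by
      rcases hj with hj | ⟨h1, h2⟩
      · refine ⟨o + M, by omega, le_rfl, ?_⟩
        rw [RR_per H.path, rr_eq]
        subst hj
        simpa using hvR
      · exact ⟨o + j, by omega, by omega, by rw [rr_eq]; exact hvR⟩
    obtain ⟨c', hc', e'⟩ := hR2 v hv hB
    have : c = c' := Subtype.ext (e.trans e'.symm)
    rw [this]
    exact hc'

end strand

/-! ### the layout -/

section lay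

variable {u : Poly} {mm : ℕ} {p : ℤ → ℤ × ℤ} {Ai ei : ℤ → ℤ}

/-- tiles strictly between two corners are straight -/
theorem run_edge (L : LayU u mm M p W Ai ei) {k a : ℤ} (h1 : Ai k < a) (h2 : a < Ai (k + 1)) :
    ge W (a + 1) = ge W a := by
  unfold ge
  rw [add_sub_cancel_right, L.lay.straight]
  intro j hj
  rcases lt_or_ge k j with h3 | h3
  · have := L.lay.Amono.monotone (show k + 1 ≤ j by omega)
    omega
  · have := L.lay.Amono.monotone h3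
    omega

/-- **reduction of a gate with `Use` to the out tiles** -/
theorem use_red (L : LayU u mm M p W Ai ei) (i : ZMod 3) {a k j : ℤ} (hu : Use Ai ei a k j)
    (hj : (-(j : ZMod 3)) ≠ i) : ∃ (k' : ℕ) (t : ℤ), al Ai ei i + k' = a + t * M ∧ 3 ≤ k' ∧
      k' + 3 ≤ nn Ai ei i ∧
      (∀ b : ℤ, al Ai ei i + k' - 2 ≤ b → b ≤ al Ai ei i + k' + 1 → ge W (b + 1) = ge W b) ∧
      ((-(j : ZMod 3)) = i + 2 ∧ k' + 3 ≤ rr Ai ei i ∨
        (-(j : ZMod 3)) = i + 1 ∧ rr Ai ei i + 3 ≤ k') := by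
  obtain ⟨⟨u1, u2⟩, u3, u4⟩ := hu
  have hz : ∀ x i : ZMod 3, x ≠ i → x = i + 1 ∨ x = i + 2 := by decide
  have e0 := Layx416.jj_lab i
  have q1 := L.lay.nn_eq i
  have q2 := L.lay.rr_eq i
  have q3 := L.lay.al_mi i
  have q4 := L.lay.mi_be i
  -- the multiple of `3`
  have key : ∀ c : ℤ, (-(j : ZMod 3)) = -((jj i + c : ℤ) : ZMod 3) → ∃ t : ℤ, jj i + c = j + 3 * t := by
    intro c hc
    have h1 : ((jj i + c - j : ℤ) : ZMod 3) = 0 := by
      push_cast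
      have h2 : (j : ZMod 3) = ((jj i + c : ℤ) : ZMod 3) := neg_injective hc
      push_cast at h2
      rw [h2]; ring
    obtain ⟨t, ht⟩ := (ZMod.intCast_zmod_eq_zero_iff_dvd _ 3).1 h1
    exact ⟨t, by push_cast at ht; omega⟩
  -- straightness at the shifted gate
  have str : ∀ t : ℤ, ∀ b : ℤ, a + t * M - 2 ≤ b → b ≤ a + t * M + 1 → ge W (b + 1) = ge W b := by
    intro t b h1 h2
    have h3 : ge W ((b - t * M) + 1) = ge W (b - t * M) := run_edge L (k := k) (by omega) (by omega)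
    have h4 : ∀ c : ℤ, ge W (c - t * M) = ge W c := fun c =>
      PthFx765.ge_dvd L.lay.fp ⟨-t, by ring⟩
    rw [h4 b, show b - t * M + 1 = (b + 1) - t * M by ring, h4 (b + 1)] at h3
    exact h3
  rcases hz _ _ hj with hc | hc
  · -- label `i + 1` : second half
    have h1 : (-(j : ZMod 3)) = -((jj i + 2 : ℤ) : ZMod 3) := by
      rw [hc, Int.cast_add, neg_add, e0]
      rfl
    obtain ⟨t, ht⟩ := key 2 h1
    have g1 := L.lay.g_per' j t
    have g2 := L.lay.g_per' (j + 1) t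
    rw [← ht] at g1
    rw [show j + 1 + 3 * t = j + 3 * t + 1 by ring, ← ht] at g2
    have e1 : mi Ai ei i = g Ai ei j + t * M := g1
    have e2 : be Ai ei i = g Ai ei (j + 1) + t * M := by
      rw [← g2]; unfold be; congr 1
    refine ⟨(a + t * M - al Ai ei i).toNat, t, by omega, by omega, by omega, ?_, Or.inr ⟨hc, by omega⟩⟩
    intro b h3 h4
    exact str t b (by omega) (by omega)
  · -- label `i + 2` : first half
    have h1 : (-(j : ZMod 3)) = -((jj i + 1 : ℤ) : ZMod 3) := by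
      rw [hc, Int.cast_add, neg_add, e0]
      rfl
    obtain ⟨t, ht⟩ := key 1 h1
    have g1 := L.lay.g_per' j t
    have g2 := L.lay.g_per' (j + 1) t
    rw [← ht] at g1
    rw [show j + 1 + 3 * t = j + 3 * t + 1 by ring, ← ht] at g2
    have e1 : al Ai ei i = g Ai ei j + t * M := g1
    have e2 : mi Ai ei i = g Ai ei (j + 1) + t * M := by
      rw [← g2]; unfold mi; congr 1
    refine ⟨(a + t * M - al Ai ei i).toNat, t, by omega, by omega, by omega, ?_, Or.inl ⟨hc, by omega⟩⟩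
    intro b h3 h4
    exact str t b (by omega) (by omega)

end lay

/-! ### the fields -/

section fields

variable {u : Poly} {mm : ℕ} {p : ℤ → ℤ × ℤ} {Ai ei : ℤ → ℤ} {i : ZMod 3}

/-- the geometry at a straight inner gate -/
theorem geo_at (L : LayU u mm M p W Ai ei) (hh : (mm : ℝ) * (100 * η) = u.s)
    (H : CorH X U M W η d (al Ai ei i) (nn Ai ei i)) {k' : ℕ} (h3 : 3 ≤ k')
    (hn : k' + 3 ≤ nn Ai ei i)
    (hst : ∀ b : ℤ, al Ai ei i + k' - 2 ≤ b → b ≤ al Ai ei i + k' + 1 → ge W (b + 1) = ge W b) :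
    ∃ k1, Geo (sX X) M (nn Ai ei i) k' k1 W η (al Ai ei i)
      (RegSx523.K0 (100 * η) (9 * η + η) u) := by
  have h0 := H.e0
  obtain ⟨k1, G⟩ := RegSx523.sgeo L hh (S := sX X) (A := 9 * η) (B := 51 * η) (b1 := 10 * η)
    (m := η) (ρ := η / 2) (τ := η) (κ := 3 * η) (by linarith) (by linarith) (by linarith)
    (by linarith) h0.le (by linarith) (by linarith) (by linarith) (by linarith) (by linarith)
    (fun a u v h hu hv => edge_of H a u v h hu hv) (fun a s hs hu => inn_of H a s hs hu) i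
  exact ⟨k1, G.gate h3 hn hst (RegSx523.K0_bot L hh (by linarith) (by linarith) _)⟩

/-- the points below a gate are in `K0` -/
theorem box_at (L : LayU u mm M p W Ai ei) (hh : (mm : ℝ) * (100 * η) = u.s) (h0 : 0 < η) {a : ℤ}
    (w : ℂ) (h1 : |Gatex838.X (gz (100 * η) W a) (ge W a) w| < 4 * η)
    (h2 : -(100 * η) ≤ Gatex838.Y (gz (100 * η) W a) (ge W a) w)
    (h3 : Gatex838.Y (gz (100 * η) W a) (ge W a) w ≤ -(10 * η)) :
    w ∈ RegSx523.K0 (100 * η) (9 * η + η) u :=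
  RegSx523.K0_below L hh (by linarith) h2 (by linarith)

/-- **the gates with `Use` of the labels `≠ i`** -/
theorem gate_UK (L : LayU u mm M p W Ai ei) (hh : (mm : ℝ) * (100 * η) = u.s)
    (H : CorH X U M W η d (al Ai ei i) (nn Ai ei i)) {Rs : Set (D0 (sX X))} {q : D0 (sX X)} {N : ℕ}
    {T : ℕ → ℕ} {Rw : Set (Cs H.gp)}
    (St : SD H.gp H.hull (nn Ai ei i) Rs H.p
      (fun k : ℕ => RR (19 / 2 * η) (103 / 2 * η) (100 * η) W (al Ai ei i + k)) q N T)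
    (hR1 : ∀ c ∈ Rw, ∃ s ∈ sX X, s ∈ BR η W M (al Ai ei i) (nn Ai ei i) ∧ c.1 = Quot.mk _ s)
    (hR2 : ∀ s ∈ sX X, s ∈ BR η W M (al Ai ei i) (nn Ai ei i) → ∃ c ∈ Rw, c.1 = Quot.mk _ s)
    {k₀ r : ℕ} (c1 : rr Ai ei i ≤ k₀ + 3) (c2 : k₀ < rr Ai ei i + 3)
    (r1 : T (nn Ai ei i - 1 - k₀) ≤ r) (r2 : r < T (nn Ai ei i - k₀)) {a k j : ℤ}
    (hu : Use Ai ei a k j) (hj : (-(j : ZMod 3)) ≠ i) :
    ∃ (y : ℂ) (dn : List ℂ), Col (sX X) (gz (100 * η) W a) (ge W a) (-η) η (-(9 * η)) (10 * η) η y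
        dn ∧
      y ∈ stA H Rw q (T (nn Ai ei i)) r (i + 1) (-(j : ZMod 3)) ∧
      ∀ s, (|Gatex838.X (gz (100 * η) W a) (ge W a) s| < 4 * η ∧
        -(100 * η) ≤ Gatex838.Y (gz (100 * η) W a) (ge W a) s ∧
        Gatex838.Y (gz (100 * η) W a) (ge W a) s ≤ -(9 * η)) ∨ s ∈ dn →
      ∀ (j' l : ZMod 3) (r' : ℕ), r' ≤ T (nn Ai ei i) →
        s ∉ stA H Rw q (T (nn Ai ei i)) r' j' l := by
  have h0 := H.e0
  obtain ⟨k', t, e, h3, hn, hst, hlab⟩ := use_red L i hu hj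
  obtain ⟨k1, G⟩ := geo_at L hh H h3 hn hst
  have q4 := L.lay.rr_eq i
  have q1 := L.lay.rr_pos i
  have q2 := L.lay.rr_lt i
  have q3 := L.lay.nn_lt i
  obtain ⟨hf, -⟩ := CorrIx831.back H (r := rr Ai ei i) (by omega) (by omega)
    (fun b h1 h2 => (L.lay.run_mi i (by omega) (by omega)).1)
  obtain ⟨up, dn, Nk, hlow⟩ := low_H hf St hR1 hR2 G
    (fun w h1 h2 h3 => box_at L hh h0 w h1 h2 h3)
  have ez : gz (100 * η) W (al Ai ei i + k') = gz (100 * η) W a := by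
    rw [e]; exact PthFx765.gz_dvd L.lay.fp ⟨t, by ring⟩ _
  have eg : ge W (al Ai ei i + k') = ge W a := by
    rw [e]; exact PthFx765.ge_dvd L.lay.fp ⟨t, by ring⟩
  rw [ez, eg] at Nk hlow
  refine ⟨_, dn, col_of_neck Nk, ?_, hlow⟩
  -- the label of `y`
  have hyS : yy η W X (al Ai ei i + k') ∈ sX X := (Nk.cy).1
  have hc : ∃ c : Cs H.gp, c.1 = Quot.mk _ (yy η W X (al Ai ei i + k')) :=
    ⟨⟨_, FinCx811.cell_mem H.gp (RcTx422.dart3 H.gp q) hyS⟩, rfl⟩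
  obtain ⟨c, hc⟩ := hc
  obtain ⟨g1, g2⟩ := gate_AA (Wc := Ww (rc0 H.gp) (Hc H.gp) Rw q (T (nn Ai ei i))
    (rcol H.gp (cX X) H.hull)) H.corr St (k₀ := k₀) (r := r) (by omega) r1 r2 (i + 1) (k := k')
    (by omega) (by omega) hc
  refine ⟨hyS, c, ?_, hc⟩
  rcases hlab with ⟨hl, h5⟩ | ⟨hl, h5⟩
  · rw [hl]
    have := g1 (by omega)
    rwa [show i + 1 + 1 = i + 2 by ring] at this
  · rw [hl]
    exact g2 (by omega)

/-- **field `low` of `UKin`** -/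
theorem low_UK (L : LayU u mm M p W Ai ei) (hh : (mm : ℝ) * (100 * η) = u.s)
    (H : CorH X U M W η d (al Ai ei i) (nn Ai ei i)) {Rs : Set (D0 (sX X))} {q : D0 (sX X)} {N : ℕ}
    {T : ℕ → ℕ} {Rw : Set (Cs H.gp)}
    (St : SD H.gp H.hull (nn Ai ei i) Rs H.p
      (fun k : ℕ => RR (19 / 2 * η) (103 / 2 * η) (100 * η) W (al Ai ei i + k)) q N T)
    (hR1 : ∀ c ∈ Rw, ∃ s ∈ sX X, s ∈ BR η W M (al Ai ei i) (nn Ai ei i) ∧ c.1 = Quot.mk _ s)
    (hR2 : ∀ s ∈ sX X, s ∈ BR η W M (al Ai ei i) (nn Ai ei i) → ∃ c ∈ Rw, c.1 = Quot.mk _ s)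
    {k₀ r : ℕ} (c1 : rr Ai ei i ≤ k₀ + 3) (c2 : k₀ < rr Ai ei i + 3)
    (r1 : T (nn Ai ei i - 1 - k₀) ≤ r) (r2 : r < T (nn Ai ei i - k₀)) {w : ℝ} (hw : w ≤ 4 * η)
    {b0 : ℝ} (hb : b0 ≤ -(9 * η)) :
    ∀ a k j : ℤ, Use Ai ei a k j → (-(j : ZMod 3)) ≠ i → ∀ l,
      ∀ s ∈ stA H Rw q (T (nn Ai ei i)) r (i + 1) l,
      |Gatex838.X (gz (100 * η) W a) (ge W a) s| < w →
      -(100 * η) ≤ Gatex838.Y (gz (100 * η) W a) (ge W a) s →
      b0 < Gatex838.Y (gz (100 * η) W a) (ge W a) s := by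
  intro a k j hu hj l s hs h1 h2
  by_contra hn
  obtain ⟨y, dn, -, -, hlow⟩ := gate_UK L hh H St hR1 hR2 c1 c2 r1 r2 hu hj
  have hr : r ≤ T (nn Ai ei i) :=
    r2.le.trans (sd_mono St (Nat.sub_le _ _) le_rfl)
  exact hlow s (Or.inl ⟨by linarith, h2, by linarith⟩) _ _ r hr hs

/-- **field `nk` of `UKin`** -/
theorem nk_UK (L : LayU u mm M p W Ai ei) (hh : (mm : ℝ) * (100 * η) = u.s)
    (H : CorH X U M W η d (al Ai ei i) (nn Ai ei i)) {Rs : Set (D0 (sX X))} {q : D0 (sX X)} {N : ℕ}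
    {T : ℕ → ℕ} {Rw : Set (Cs H.gp)}
    (St : SD H.gp H.hull (nn Ai ei i) Rs H.p
      (fun k : ℕ => RR (19 / 2 * η) (103 / 2 * η) (100 * η) W (al Ai ei i + k)) q N T)
    (hR1 : ∀ c ∈ Rw, ∃ s ∈ sX X, s ∈ BR η W M (al Ai ei i) (nn Ai ei i) ∧ c.1 = Quot.mk _ s)
    (hR2 : ∀ s ∈ sX X, s ∈ BR η W M (al Ai ei i) (nn Ai ei i) → ∃ c ∈ Rw, c.1 = Quot.mk _ s)
    {k₀ r : ℕ} (c1 : rr Ai ei i ≤ k₀ + 3) (c2 : k₀ < rr Ai ei i + 3)
    (r1 : T (nn Ai ei i - 1 - k₀) ≤ r) (r2 : r < T (nn Ai ei i - k₀)) :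
    ∀ a k j : ℤ, Use Ai ei a k j → (-(j : ZMod 3)) ≠ i → ∃ y dn,
      Col (sX X) (gz (100 * η) W a) (ge W a) (-η) η (-(9 * η)) (10 * η) η y dn ∧
      y ∈ stA H Rw q (T (nn Ai ei i)) r (i + 1) (-(j : ZMod 3)) ∧
      ∀ s ∈ dn, ∀ l, s ∉ stA H Rw q (T (nn Ai ei i)) r (i + 1) l := by
  intro a k j hu hj
  obtain ⟨y, dn, h1, h2, hlow⟩ := gate_UK L hh H St hR1 hR2 c1 c2 r1 r2 hu hj
  have hr : r ≤ T (nn Ai ei i) :=
    r2.le.trans (sd_mono St (Nat.sub_le _ _) le_rfl)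
  exact ⟨y, dn, h1, h2, fun s hs l => hlow s (Or.inr hs) _ _ r hr⟩

end fields

end Crest.Agent.R143.UKLowx568
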