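import Crest.Agent.R143.LowD_568
import Crest.Agent.R143.SepL_686

/-!
# Row 143 (S0194), RIG: fields LOW and DN of `UKin` along a fine path (helper568)

On 686's `SGeo` (228's fine path `W`, tiles `RR A B h W a`, gates `gz`, `ge`), for ANY straight inner
gate `o + k0`:

* `SGeo.gate` : change of the inner gate
* `low_chain` : the closed white chain; its index is `-2π` also in the lower part
  `|X| < w0`, `-c0 ≤ Y ≤ -A` of the gate and on the lower arm
* `other` : the lower part and the lower arm are off the regions of the other tiles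
* **`low_gate`** : sites of the lower part and of the lower arm: no cell of `AL` (left), `AR` (right),
  `Z`, `Ext`; in particular not in the white giant `Extx358.Wg`
-/

set_option autoImplicit false

noncomputable section

open scoped Classical

namespace Crest.Agent.R143.UKLowx568

open Crest.Agent.R143.B0x346 Crest.Agent.R143.DelGx806 Crest.Agent.R143.DelRx806
open Crest.Agent.R143.ToolWx838 Crest.Agent.R143.Blkx838
open Crest.Agent.R143.ToolW3x838 Crest.Agent.R143.Gatex838 Crest.Agent.R143.Neckx921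
open Crest.Agent.R143.Frame1x395 Crest.Agent.R143.Frame2x395 Crest.Agent.R143.Frame3x395
  Crest.Agent.R143.Frame4x395 Crest.Agent.R143.Frame8x395 Crest.Agent.R143.Frame9x395
  Crest.Agent.R143.Frame10x395 Crest.Agent.R143.Frame11x395
open Crest.Agent.R143.Frame5x395 (sd mem_sd th th_spec)
open Crest.Agent.R143.Splx117 Crest.Agent.R143.WLocx713 Crest.Agent.R143.RingDx117
  Crest.Agent.R143.CorrDx117
open Crest.Agent.R143.Idxx927 (RingP cyc wl X_wl Y_wl)
open Crest.Agent.R143.TileRx228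
open Crest.Agent.R143.Sepx686 Crest.Agent.R143.SepLx686 Crest.Agent.R143.LowDx568

variable {S : Finset ℂ} {M n k0 k1 : ℕ} {W : ℤ → ℤ × ℤ} {A B h b1 m ρ τ κ : ℝ} {o : ℤ} {K0 : Set ℂ}

/-- change of the inner gate -/
theorem _root_.Crest.Agent.R143.SepLx686.SGeo.gate (G : SGeo S M n k0 k1 W A B h b1 m ρ τ κ o K0)
    {k : ℕ} (h3 : 3 ≤ k) (hn : k + 3 ≤ n)
    (hst : ∀ a : ℤ, o + k - 2 ≤ a → a ≤ o + k + 1 → ge W (a + 1) = ge W a)
    (hK : wl (gz h W (o + k)) (ge W (o + k)) (-(A + τ)) ∈ K0) :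
    SGeo S M n k k1 W A B h b1 m ρ τ κ o K0 :=
  { G with k3 := h3, kn := hn, st := hst, K0k := hK }

variable {χ : ℂ → ZMod 2} {hS : GP (S : Set ℂ)} {hχ : HullC S χ} {y z : ℕ → ℂ} {p : ℕ → D0 S}

/-- the upper part of the lower box -/
def box (z0 e : ℂ) (w0 y0 y1 : ℝ) : Set ℂ :=
  {w | |X z0 e w| < w0 ∧ y0 ≤ Y z0 e w ∧ Y z0 e w ≤ y1}

theorem box_convex (z0 e : ℂ) (w0 y0 y1 : ℝ) : Convex ℝ (box z0 e w0 y0 y1) := by
  rintro u ⟨hu1, hu2, hu3⟩ v ⟨hv1, hv2, hv3⟩ s t hs ht hst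
  rw [abs_lt] at hu1 hv1
  refine ⟨?_, ?_, ?_⟩
  · rw [X_comb z0 e hst, abs_lt]
    exact ⟨cv_gt hs ht hst hu1.1 hv1.1, cv_lt hs ht hst hu1.2 hv1.2⟩
  · rw [Y_comb z0 e hst]
    have k1 := mul_le_mul_of_nonneg_left hu2 hs
    have k2 := mul_le_mul_of_nonneg_left hv2 ht
    have k3 : s * y0 + t * y0 = y0 := by rw [← add_mul, hst, one_mul]
    linarith
  · rw [Y_comb z0 e hst]
    exact cv_le hs ht hst hu3 hv3

/-- the index of the regions modulo `M` -/
theorem other {w0 c0 : ℝ} (G : SGeo S M n k0 k1 W A B h b1 m ρ τ κ o K0) (hw0 : w0 ≤ B + κ - h / 2)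
    (hbox : ∀ w, |X (gz h W (o + k0)) (ge W (o + k0)) w| < w0 →
      -c0 ≤ Y (gz h W (o + k0)) (ge W (o + k0)) w →
      Y (gz h W (o + k0)) (ge W (o + k0)) w ≤ -(A + τ) → w ∈ K0) {w : ℂ}
    (hX : |X (gz h W (o + k0)) (ge W (o + k0)) w| < w0)
    (hc : -c0 ≤ Y (gz h W (o + k0)) (ge W (o + k0)) w)
    (hY : Y (gz h W (o + k0)) (ge W (o + k0)) w ≤ -A) {j : ℕ} (hj : j < M) (h1 : j ≠ k0)
    (h2 : j + 1 ≠ k0) : w ∉ RR (A + τ) (B + τ) h W (o + j) := by
  have hA0 := G.A0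
  have hτκ := G.τκ
  have hρτ := G.ρτ
  have hρ0 := G.ρ0
  have hk3 := G.k3
  have hkn := G.kn
  have hnM := G.nM
  rcases le_or_gt (Y (gz h W (o + k0)) (ge W (o + k0)) w) (-(A + τ)) with hle | hgt
  · exact G.K0off w (hbox w hX hc hle) _
  · intro hR
    refine G.win_off (a := o + k0) (b := o + j) (ndvd (by omega) (by omega) (by omega))
      (ndvd (by omega) (by omega) (by omega)) (hX.trans_le hw0) ?_
      (RR_mono (by linarith) (by linarith) h W _ hR)
    rw [abs_lt]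
    constructor <;> linarith

/-- **the closed white chain along the fine path, with the index of the lower part of the gate** -/
theorem low_chain (G : SGeo S M n k0 k1 W A B h b1 m ρ τ κ o K0)
    (D : DCorr hS hχ n y z (fun k => RR A B h W (o + k)) (fun k => RR (A + ρ) (B + ρ) h W (o + k)) p)
    {t : ℕ → ℕ} (T : Back D t) {a0 a1 : ℝ} {V β : Finset ℂ} {up dn : List ℂ}
    (N : NkG S k0 W A B h b1 m o χ y z a0 a1 V β up dn) {x : ℕ → ℂ} (hxz : ∀ k, k ≤ n → x k = z k)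
    (hxM : ∀ j, x (j + M) = x j)
    (hW : ∀ j, n ≤ j → j < M → Lk S (WT S χ y W A B h o j) (x j) (x (j + 1)))
    {w0 c0 : ℝ} (hw1 : 0 < w0) (hw0 : w0 ≤ B + κ - h / 2)
    (hbox : ∀ w, |X (gz h W (o + k0)) (ge W (o + k0)) w| < w0 →
      -c0 ≤ Y (gz h W (o + k0)) (ge W (o + k0)) w →
      Y (gz h W (o + k0)) (ge W (o + k0)) w ≤ -(A + τ) → w ∈ K0) :
    ∃ cw : List ℂ, Loop S cw ∧ (∀ s ∈ cw, s ∈ S) ∧ (∀ s ∈ cw, χ s ≠ χ (y 0)) ∧
      (∀ s ∈ cw, (∃ k, k < n ∧ s ∈ RS S χ (p (k + 1)).1 (t k)) ∨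
        ∃ j, n ≤ j ∧ j < M ∧ s ∈ WT S χ y W A B h o j) ∧
      (∀ w ∈ K0, asum w cw = -(2 * Real.pi)) ∧ (∀ k, k ≤ n → asum (y k) cw = -(2 * Real.pi)) ∧
      (∀ k, k < n → ∀ s ∈ LS S χ (p (k + 1)).1 (t k), asum s cw = -(2 * Real.pi)) ∧
      (∀ s ∈ dn, s ∉ cw ∧ asum s cw = -(2 * Real.pi)) ∧
      ∀ w, |X (gz h W (o + k0)) (ge W (o + k0)) w| < w0 →
        -c0 ≤ Y (gz h W (o + k0)) (ge W (o + k0)) w →
        Y (gz h W (o + k0)) (ge W (o + k0)) w ≤ -A → asum w cw = -(2 * Real.pi) := by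
  have hA0 := G.A0
  have hAB := G.AB
  have hm0 := G.m0
  have hb1 := G.b1A
  have hbκ := G.b1κ
  have hτκ := G.τκ
  have hρ0 := G.ρ0
  have hρτ := G.ρτ
  have hh := G.hh
  have hBh := G.Bh
  have hk3 := G.k3
  have hkn := G.kn
  have hnM := G.nM
  have GI := inG G D N
  have sub1 : ∀ a, RR A B h W a ⊆ RR (A + ρ) (B + ρ) h W a := fun a =>
    RR_mono (by linarith) (by linarith) h W a
  have sub2 : ∀ a, RR (A + ρ) (B + ρ) h W a ⊆ RR (A + τ) (B + τ) h W a := fun a =>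
    RR_mono (by linarith) (by linarith) h W a
  have seg : ∀ (a : ℤ) (u v : ℂ), DE S u v → u ∈ RR (A + ρ) (B + ρ) h W a →
      v ∈ RR (A + ρ) (B + ρ) h W a → segment ℝ u v ⊆ RR (A + τ) (B + τ) h W a := by
    intro a u v hd hu hv
    have h1 := seg_RR G.fp hu (G.edge a u v hd hu hv)
    rwa [show A + ρ + (τ - ρ) = A + τ by ring, show B + ρ + (τ - ρ) = B + τ by ring] at h1
  -- the white sites of the gates are in the windows
  have zB : ∀ k, k < n → z k ∈ RR (A + ρ) (B + ρ) h W (o + k) ∧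
      z (k + 1) ∈ RR (A + ρ) (B + ρ) h W (o + k) := by
    intro k hk
    have e1 : (p (k + 1)).1.2 = z (k + 1) := by rw [D.st (k + 1) (by omega)]
    have e0 : (p k).1.2 = z k := by rw [D.st k (by omega)]
    refine ⟨T.rB k hk ?_, T.rB k hk ?_⟩
    · rw [← e0, ← T.arr k hk]; exact ⟨t k, le_rfl, rfl⟩
    · rw [← e1]; exact ⟨0, Nat.zero_le _, rfl⟩
  have hP : FPath M W := G.fp
  have hMpos : 0 < M := by omega
  have xR : ∀ j : ℕ, x j ∈ RR (A + ρ) (B + ρ) h W (o + j) ∧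
      x (j + 1) ∈ RR (A + ρ) (B + ρ) h W (o + j) := by
    have key : ∀ j : ℕ, j < M → x j ∈ RR (A + ρ) (B + ρ) h W (o + j) ∧
        x (j + 1) ∈ RR (A + ρ) (B + ρ) h W (o + j) := by
      intro j hj
      rcases Nat.lt_or_ge j n with h1 | h1
      · rw [hxz j h1.le, hxz (j + 1) h1]; exact zB j h1
      · have h2 := (hW j h1 hj).1
        exact ⟨sub1 _ h2.1.2, sub1 _ h2.2.2⟩
    intro j
    have hxm : ∀ q r, x (r + q * M) = x r := by
      intro q r
      induction q with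
      | zero => simp
      | succ q ih =>
        have e : r + (q + 1) * M = (r + q * M) + M := by ring
        rw [e, hxM, ih]
    have h1 := key (j % M) (Nat.mod_lt _ hMpos)
    rw [RR_mod hP] at h1
    have e1 : x j = x (j % M) := by
      conv_lhs => rw [← Nat.mod_add_div j M, mul_comm]
      exact hxm _ _
    have e2 : x (j + 1) = x (j % M + 1) := by
      have : j + 1 = (j % M + 1) + j / M * M := by
        have := Nat.mod_add_div j M
        rw [mul_comm] at this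
        omega
      rw [this, hxm]
    rw [e1, e2]
    exact h1
  have xwin : ∀ j : ℕ, |X (gz h W (o + (j + 1 : ℕ))) (ge W (o + (j + 1 : ℕ))) (x (j + 1))| <
      B + ρ - h / 2 := by
    intro j
    have h1 := (xR j).2
    have h2 := (xR (j + 1)).1
    rw [show o + ((j + 1 : ℕ) : ℤ) = o + j + 1 by push_cast; ring] at h2 ⊢
    exact (window hP (by linarith) (by linarith) h1 h2).1
  have xwin' : ∀ j : ℕ, |X (gz h W (o + j)) (ge W (o + j)) (x j)| < B + ρ - h / 2 := by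
    intro j
    have h1 := xwin (j + M - 1)
    rw [show j + M - 1 + 1 = j + M by omega, hxM] at h1
    have e1 : gz h W (o + ((j + M : ℕ) : ℤ)) = gz h W (o + j) := by
      unfold gz
      rw [show o + ((j + M : ℕ) : ℤ) - 1 = o + j - 1 + M by push_cast; ring,
        show o + ((j + M : ℕ) : ℤ) = o + j + M by push_cast; ring, hP.per, hP.per]
    have e2 : ge W (o + ((j + M : ℕ) : ℤ)) = ge W (o + j) := by
      unfold ge
      rw [show o + ((j + M : ℕ) : ℤ) - 1 = o + j - 1 + M by push_cast; ring,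
        show o + ((j + M : ℕ) : ℤ) = o + j + M by push_cast; ring, hP.per, hP.per]
    rw [e1, e2] at h1
    exact h1
  -- the enlarged inner side
  obtain ⟨bS, hbS⟩ : ∃ b, b = dn.getLast N.neck.nd := ⟨_, rfl⟩
  have hbm : bS ∈ dn := by rw [hbS]; exact List.getLast_mem _
  have hbw := N.neck.win bS (List.mem_append_right _ (List.mem_cons_of_mem _ hbm))
  have hbb : Y (gz h W (o + k0)) (ge W (o + k0)) bS ≤ -A := by rw [hbS]; exact N.neck.bot
  have hN1 := N.a0w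
  have hN2 := N.a1w
  have he := TileRx228.ge_ne hP (o + k0)
  set wb : ℂ := wl (gz h W (o + k0)) (ge W (o + k0)) (-(A + τ)) with hwb
  have hxb := X_wl (z0 := gz h W (o + k0)) he (-(A + τ))
  have hyb := Y_wl (z0 := gz h W (o + k0)) he (-(A + τ))
  have hsegb : ∀ w ∈ segment ℝ bS wb, |X (gz h W (o + k0)) (ge W (o + k0)) w| < B + κ - h / 2 ∧
      |Y (gz h W (o + k0)) (ge W (o + k0)) w| < A + κ ∧
      Y (gz h W (o + k0)) (ge W (o + k0)) w ≤ -A := by
    rintro w ⟨r, s, hr, hs, hrs, rfl⟩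
    rw [X_comb _ _ hrs, Y_comb _ _ hrs, hwb, hxb, hyb]
    obtain ⟨⟨w1, w2⟩, w3, -⟩ := hbw
    refine ⟨abs_lt.2 ⟨cv_gt hr hs hrs ?_ ?_, cv_lt hr hs hrs ?_ ?_⟩,
      abs_lt.2 ⟨cv_gt hr hs hrs ?_ ?_, cv_lt hr hs hrs ?_ ?_⟩, cv_le hr hs hrs hbb ?_⟩ <;> linarith
  have hlast : dn.getLast N.neck.nd ∈ segment ℝ bS wb := by
    rw [← hbS]; exact left_mem_segment ℝ _ _
  -- the box
  set bx : Set ℂ := box (gz h W (o + k0)) (ge W (o + k0)) w0 (-(A + τ)) (-A) with hbx
  have hwbx : wb ∈ bx := by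
    refine ⟨?_, ?_, ?_⟩
    · rw [hwb, hxb, abs_zero]; exact hw1
    · rw [hwb, hyb]
    · rw [hwb, hyb]; linarith
  -- the tiles near the extreme gate
  have st1 := G.st1
  have st2 := G.st2
  have ex1 := fun s => next_S hP st1 h s
  have ex2 := fun s => next_S hP st2 h s
  have hk1 := G.k1M
  have hcut : ∀ w, Y (gz h W (o + k0)) (ge W (o + k0)) w ≤ -A →
      |X (gz h W (o + k0)) (ge W (o + k0)) w| < B + κ - h / 2 →
      |Y (gz h W (o + k0)) (ge W (o + k0)) w| < A + κ → ∀ j : ℕ, j < M →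
      w ∉ cutR {k0} (fun k => gz h W (o + k)) (fun k => ge W (o + k)) (fun _ => -A)
        (fun j => RR (A + τ) (B + τ) h W (o + j)) j := by
    intro w g3 g1 g2 j hj
    refine off_cut (I := {k0}) (Set.mem_singleton k0) (fun h4 => ?_) g3
    by_contra hc
    push Not at hc
    exact G.win_off (a := o + k0) (b := o + j) (ndvd (by omega) (by omega) (by omega))
      (ndvd (by omega) (by omega) (by omega)) g1 g2
      (RR_mono (by linarith) (by linarith) h W _ h4)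
  obtain ⟨cw, c1, c2, c3, c4, c5, c6, c7, c8, c9⟩ := sep_all D T (N := M) (by omega)
    (I := {k0}) (gz := fun k => gz h W (o + k)) (ge := fun k => ge W (o + k)) (a0 := fun _ => a0)
    (a1 := fun _ => a1) (b0 := fun _ => -A) (b1 := fun _ => b1) (m := fun _ => m)
    (x0 := fun _ => -(3 * h / 2)) (x1 := fun _ => 3 * h / 2) (V := fun _ => V) (β := fun _ => β)
    (up := fun _ => up) (dn := fun _ => dn)
    (by
      intro k hk
      rw [Set.mem_singleton_iff.1 hk]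
      exact GI) hxz hxM
    (W := WT S χ y W A B h o) hW
    (fun j hj hj' s hs => ⟨hs.1.1, hs.1.2, fun k _ hsd => dn_off G N hj' (by omega) (by omega) hsd
      (RR_mono (by linarith) (by linarith) h W _ hs.2)⟩)
    (RR := fun j => RR (A + τ) (B + τ) h W (o + j))
    (fun j hj u v hd hu hv => seg _ u v hd hu hv)
    (fun j hj hj' u v hd hu hv => seg _ u v hd (sub1 _ hu.2) (sub1 _ hv.2))
    (k1 := k1) (z1 := gz h W (o + k1 + 1)) (e1 := ge W (o + k1 + 1)) (TileRx228.ge_ne hP _)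
    (y0 := -(A + τ)) (y1 := A + τ) (by linarith)
    (by
      intro j hj s hsS h1 h2
      have hsR : s ∈ RR (A + ρ) (B + ρ) h W (o + j) := by
        rcases Nat.lt_or_ge j n with h3 | h3
        · exact h1 h3
        · exact sub1 _ (h2 h3).2
      rcases hj with hj | hj
      · rw [hj, RR_mod hP] at hsR
        have h3 := ((frame_S hP (by linarith) (by linarith) st1).1 hsR).2
        rw [← (ex1 s).2, abs_lt] at h3
        constructor <;> linarith [h3.1, h3.2]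
      · rw [hj, RR_mod hP, show o + ((k1 + 1 : ℕ) : ℤ) = o + k1 + 1 by push_cast; ring] at hsR
        have h3 := ((frame_S hP (by linarith) (by linarith) st2).1 hsR).2
        rw [abs_lt] at h3
        constructor <;> linarith [h3.1, h3.2])
    (by
      have h3 := xwin' k1
      rw [(ex1 (x k1)).1]
      linarith [(abs_lt.1 h3).2])
    (by
      have h3 := xwin' (k1 + 2)
      rw [show o + ((k1 + 2 : ℕ) : ℤ) = o + k1 + 1 + 1 by push_cast; ring] at h3
      rw [(ex2 (x (k1 + 2))).1] at h3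
      linarith [(abs_lt.1 h3).1])
    (by
      intro j hj hj' t1 h3 h4 h5
      have h5' : wl (gz h W (o + k1 + 1)) (ge W (o + k1 + 1)) t1 ∈ RR (A + τ) (B + τ) h W (o + j) := by
        have := RR_mod hP (A + τ) (B + τ) h o j
        rw [← this]; exact h5
      refine G.win_off (a := o + k1 + 1) (b := o + j) (ndvd (by omega) (by omega) (by omega))
        (ndvd (by omega) (by omega) (by omega)) ?_ ?_ (RR_mono (by linarith) (by linarith) h W _ h5')
      · rw [X_wl (TileRx228.ge_ne hP _), abs_zero]; linarith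
      · rw [Y_wl (TileRx228.ge_ne hP _), abs_lt]; constructor <;> linarith)
    (by
      intro j hj t1 h3 h4
      have h5 := G.ext _ _ h4
      rw [Y_wl (TileRx228.ge_ne hP _)] at h5
      linarith)
    (K := (K0 ∪ segment ℝ bS wb) ∪ bx)
    ((G.K0pre.union wb G.K0k (right_mem_segment ℝ _ _) (convex_segment _ _).isPreconnected).union wb
      (Or.inl G.K0k) hwbx (box_convex _ _ _ _ _).isPreconnected)
    (by
      rintro w ((hw | hw) | hw) j hj
      · exact off_cut' (G.K0off w hw _)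
      · obtain ⟨g1, g2, g3⟩ := hsegb w hw
        exact hcut w g3 g1 g2 j hj
      · obtain ⟨g1, g2, g3⟩ := hw
        exact hcut w g3 (g1.trans_le hw0) (abs_lt.2 ⟨by linarith, by linarith⟩) j hj)
    (Or.inl (Or.inl G.K0e)) (k0 := k0) (Set.mem_singleton k0)
    (Or.inl (Or.inr hlast))
  refine ⟨cw, c1, c2, c3, c4, fun w hw => c6 w (Or.inl (Or.inl hw)), c7, c8,
    c9 k0 (Set.mem_singleton k0), ?_⟩
  intro w g1 g2 g3
  rcases le_or_gt (Y (gz h W (o + k0)) (ge W (o + k0)) w) (-(A + τ)) with hle | hgt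
  · exact c6 w (Or.inl (Or.inl (hbox w g1 g2 hle)))
  · exact c6 w (Or.inr ⟨g1, hgt.le, g3⟩)

/-- **LOW and DN at a straight inner gate**: the sites of the lower part and of the lower arm are no
left cells, no right cells, not in `Z` and not in `Ext` -/
theorem low_gate (G : SGeo S M n k0 k1 W A B h b1 m ρ τ κ o K0)
    (D : DCorr hS hχ n y z (fun k => RR A B h W (o + k)) (fun k => RR (A + ρ) (B + ρ) h W (o + k)) p)
    {t : ℕ → ℕ} (T : Back D t) {a0 a1 : ℝ} {V β : Finset ℂ} {up dn : List ℂ}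
    (N : NkG S k0 W A B h b1 m o χ y z a0 a1 V β up dn) {x : ℕ → ℂ} (hxz : ∀ k, k ≤ n → x k = z k)
    (hxM : ∀ j, x (j + M) = x j)
    (hW : ∀ j, n ≤ j → j < M → Lk S (WT S χ y W A B h o j) (x j) (x (j + 1)))
    {w0 c0 : ℝ} (hw1 : 0 < w0) (hw0 : w0 ≤ B + κ - h / 2)
    (hbox : ∀ w, |X (gz h W (o + k0)) (ge W (o + k0)) w| < w0 →
      -c0 ≤ Y (gz h W (o + k0)) (ge W (o + k0)) w →
      Y (gz h W (o + k0)) (ge W (o + k0)) w ≤ -(A + τ) → w ∈ K0)
    (hwh : ∀ s ∈ dn, -A < Y (gz h W (o + k0)) (ge W (o + k0)) s → χ s ≠ χ (y 0))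
    {Z AL AR : Set (Quot (hullE S))}
    (hZ1 : ∀ k, k < n → ∀ s ∈ RS S χ (p (k + 1)).1 (t k), (Quot.mk _ s : Quot (hullE S)) ∈ Z)
    (hZ2 : ∀ j, n ≤ j → j < M → ∀ s ∈ WT S χ y W A B h o j, (Quot.mk _ s : Quot (hullE S)) ∈ Z)
    (hAL : ∀ q ∈ AL, ∃ k, k < n ∧ ∃ s ∈ LS S χ (p (k + 1)).1 (t k), q = Quot.mk _ s)
    (hAR : ∀ q ∈ AR, ∃ k, k < n ∧ ∃ s ∈ RS S χ (p (k + 1)).1 (t k), q = Quot.mk _ s)
    (hZ : ∀ q ∈ Z, q ∈ AL ∨ q ∈ AR ∨ ∃ j : ℕ, j < M ∧ j ≠ k0 ∧ j + 1 ≠ k0 ∧ ∃ s ∈ S,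
      s ∈ RR (A + ρ) (B + ρ) h W (o + j) ∧ q = Quot.mk _ s)
    {s : ℂ} (hs : (|X (gz h W (o + k0)) (ge W (o + k0)) s| < w0 ∧
      -c0 ≤ Y (gz h W (o + k0)) (ge W (o + k0)) s ∧ Y (gz h W (o + k0)) (ge W (o + k0)) s ≤ -A) ∨
      s ∈ dn) :
    ¬ OnHull S s ∧ (Quot.mk _ s : Quot (hullE S)) ∉ AL ∧ (Quot.mk _ s : Quot (hullE S)) ∉ AR ∧
      (Quot.mk _ s : Quot (hullE S)) ∉ Z ∧
      ¬ Extx358.Ext (cm0 hS) (SepEx927.hc S) Z (Quot.mk _ s) ∧
      (Quot.mk _ s : Quot (hullE S)) ∉ Extx358.Wg (cm0 hS) (SepEx927.hc S) Z AR := by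
  have hA0 := G.A0
  have hρ0 := G.ρ0
  have hρτ := G.ρτ
  have hτκ := G.τκ
  have hkn := G.kn
  have hnM := G.nM
  have GI := inG G D N
  obtain ⟨cw, c1, c2, c3, c4, c5, c6, c7, c8, c9⟩ :=
    low_chain G D T N hxz hxM hW hw1 hw0 hbox
  have hin : ∀ s ∈ cw, ¬ OnHull S s := by
    intro s hs
    rcases c4 s hs with ⟨k, hk, h⟩ | ⟨j, -, -, h⟩
    · exact D.innB k hk s (c2 s hs) (T.rB k hk h)
    · exact G.inn _ s (c2 s hs) (RR_mono (by linarith [G.ρ0]) (by linarith [G.ρ0]) _ W _ h.2)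
  have hh : ∀ v, OnHull S v → asum v cw = 0 := fun v hv =>
    asum_onHull hS c1 c2 hv fun h => hin v h hv
  have hZc : SepEx927.cw S cw ⊆ Z := by
    rintro q ⟨s, hs, rfl⟩
    rcases c4 s hs with ⟨k, hk, h⟩ | ⟨j, h2, h3, h⟩
    · exact hZ1 k hk s h
    · exact hZ2 j h2 h3 s h
  have hpi := Real.pi_pos
  have hidx : asum s cw = -(2 * Real.pi) := by
    rcases hs with ⟨h1, h2, h3⟩ | hs
    · exact c9 s h1 h2 h3
    · exact (c8 s hs).2
  have hsi : ¬ OnHull S s := fun h => by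
    have := hh s h
    rw [hidx] at this
    linarith
  -- the regions of the other tiles
  have hoth : ∀ j : ℕ, j < M → j ≠ k0 → j + 1 ≠ k0 → s ∉ RR (A + ρ) (B + ρ) h W (o + j) := by
    intro j hj h1 h2 hR
    rcases hs with ⟨g1, g2, g3⟩ | hs
    · exact other G hw0 hbox g1 g2 g3 hj h1 h2 (RR_mono (by linarith) (by linarith) h W _ hR)
    · exact dn_off G N hj h1 h2 hs (RR_mono (by linarith) (by linarith) h W _ hR)
  have hL : ∀ k, k < n → s ∉ LS S χ (p (k + 1)).1 (t k) := by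
    intro k hk
    rcases hs with ⟨g1, g2, g3⟩ | hs
    · exact (low_arc T GI g3 (fun j hj h1 h2 => hoth j (by omega) h1 h2) hk).1
    · exact fun h => dn_left T GI hwh hk h hs
  have hR : ∀ k, k < n → s ∉ RS S χ (p (k + 1)).1 (t k) := by
    intro k hk
    rcases hs with ⟨g1, g2, g3⟩ | hs
    · exact (low_arc T GI g3 (fun j hj h1 h2 => hoth j (by omega) h1 h2) hk).2
    · exact fun h => (low_right T GI hk h).2.1 hs
  have qi : ∀ s' : ℂ, (Quot.mk _ s : Quot (hullE S)) = Quot.mk _ s' → s' = s := fun s' h =>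
    quot_inner hS hsi h
  have hnL : (Quot.mk _ s : Quot (hullE S)) ∉ AL := by
    intro h
    obtain ⟨k, hk, s', hs', e⟩ := hAL _ h
    rw [qi s' e] at hs'
    exact hL k hk hs'
  have hnR : (Quot.mk _ s : Quot (hullE S)) ∉ AR := by
    intro h
    obtain ⟨k, hk, s', hs', e⟩ := hAR _ h
    rw [qi s' e] at hs'
    exact hR k hk hs'
  have hnZ : (Quot.mk _ s : Quot (hullE S)) ∉ Z := by
    intro h
    rcases hZ _ h with h | h | ⟨j, hj, h1, h2, s', -, hs', e⟩
    · exact hnL h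
    · exact hnR h
    · rw [qi s' e] at hs'
      exact hoth j hj h1 h2 hs'
  have hnE : ¬ Extx358.Ext (cm0 hS) (SepEx927.hc S) Z (Quot.mk _ s) := by
    refine SepEx927.not_ext hS c1 hh hZc ?_
    rw [hidx]
    intro h; linarith
  refine ⟨hsi, hnL, hnR, hnZ, hnE, ?_⟩
  rintro ((h | h) | h)
  · exact hnE h
  · exact hnZ h.1
  · exact hnR h

end Crest.Agent.R143.UKLowx568
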