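import Crest.Agent.R143.UKG5_571
import Crest.Agent.R143.UK_969
import Crest.Agent.R143.R10G_930

/-!
# Row 143 (S0194), box R10: the free set of the polygon sees the three classes (helper930)

* `inner_far` : points of the segment from a boundary point of a cell of `F` to the centre of the cell
* `quarter` : quarter point of the first edge of the arc `j`
* **`vis_poly`** : `A'` classes with `ff S A' = Vin S u.P e`, labels right off the marks ⟹ the
  component of the centres of the cells is a centre `CtrX S A' X`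
-/

set_option autoImplicit false

noncomputable section

open scoped Classical

namespace Crest.Agent.R143.VisPx930

open Set
open Crest.ProbabilityR.Voronoi
open Crest.Agent.R158.Sp896 (V Cyc sq lc rc pt ed isClosed_sq)
open Crest.Agent.R143.Brkx478 (Bk cells Conn cells_finite)
open Crest.Agent.R143.Tenx416 (Pg)
open Crest.Agent.R143.PolyUx346
open Crest.Agent.R143.ArcPx571
open Crest.Agent.R143.OutCx571 (mem_pg ctr Far far_preconn ctr_far ctr_mem dist_of_far)
open Crest.Agent.R143.OutPx571 (F F_con F_fin P_eq)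
open Crest.Agent.R143.UKG5x571
open Crest.Agent.R143.B0x346 (GP)
open Crest.Agent.R143.JColx54 (Adj)
open Crest.Agent.R143.RE0x723 (Pth)
open Crest.Agent.R143.K33x877 (Cls CtrX)
open Crest.Agent.R143.NetUx346 (ff mem_ff)
open Crest.Agent.R143.NetVx346 (Vin)
open Crest.Agent.R143.UKx969 (cl cl_con)
open Crest.Agent.R143.UKx969 (self_cell)

variable {s ρ : ℝ} {G : Set V} {q : V}

/-- points between a point of a cell of `G` and its centre are at sup distance `> ρ` from the other
cells -/
theorem inner_far (hs : 0 < s) (hq : q ∈ G) {M : ℂ} (hM : M ∈ sq s q) {τ : ℝ} (_ : 0 ≤ τ)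
    (h1 : τ ≤ 1) (hτ : ρ < τ * s / 2) : M + (τ : ℂ) * (ctr s q - M) ∈ Far s ρ Gᶜ := by
  intro w hw
  obtain ⟨q', hq', hw'⟩ := mem_pg.1 hw
  have hne : q' ≠ q := fun e => hq' (e ▸ hq)
  obtain ⟨m1, m2, m3, m4⟩ := hM
  obtain ⟨w1, w2, w3, w4⟩ := hw'
  have hcr : (ctr s q).re = s * (q.1 + 1 / 2) := rfl
  have hci : (ctr s q).im = s * (q.2 + 1 / 2) := rfl
  have hr : (M + (τ : ℂ) * (ctr s q - M)).re = M.re + τ * ((ctr s q).re - M.re) := by
    simp [Complex.add_re, Complex.mul_re]
  have hi : (M + (τ : ℂ) * (ctr s q - M)).im = M.im + τ * ((ctr s q).im - M.im) := by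
    simp [Complex.add_im, Complex.mul_im]
  rw [hr, hi, hcr, hci]
  have lo : ∀ a b x : ℝ, s * a ≤ x → s * a + τ * s / 2 ≤ x + τ * (s * (a + 1 / 2) - x) := by
    intro a b x hx
    nlinarith
  have up : ∀ a b x : ℝ, x ≤ s * (a + 1) → x + τ * (s * (a + 1 / 2) - x) ≤
      s * (a + 1) - τ * s / 2 := by
    intro a b x hx
    nlinarith
  have key : ∀ a b : ℤ, a < b → s * ((a : ℝ) + 1) ≤ s * b := by
    intro a b hab
    have : (a : ℝ) + 1 ≤ b := by exact_mod_cast hab
    exact mul_le_mul_of_nonneg_left this hs.le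
  by_cases hx : q'.1 = q.1
  · have hy : q'.2 ≠ q.2 := fun e => hne (Prod.ext hx e)
    refine lt_of_lt_of_le ?_ (le_max_right _ _)
    have e1 := lo q.2 0 M.im m3
    have e2 := up q.2 0 M.im m4
    rcases lt_or_gt_of_ne hy with h | h
    · have := key _ _ h
      rw [lt_abs]
      left
      linarith
    · have := key _ _ h
      rw [lt_abs]
      right
      linarith
  · refine lt_of_lt_of_le ?_ (le_max_left _ _)
    have e1 := lo q.1 0 M.re m1
    have e2 := up q.1 0 M.re m2
    rcases lt_or_gt_of_ne hx with h | h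
    · have := key _ _ h
      rw [lt_abs]
      left
      linarith
    · have := key _ _ h
      rw [lt_abs]
      right
      linarith

/-- distance to the centre -/
theorem ctr_dist (_ : 0 < s) {M : ℂ} (hM : M ∈ sq s q) : ‖ctr s q - M‖ ≤ s := by
  obtain ⟨m1, m2, m3, m4⟩ := hM
  have hcr : (ctr s q).re = s * (q.1 + 1 / 2) := rfl
  have hci : (ctr s q).im = s * (q.2 + 1 / 2) := rfl
  have h := Complex.norm_le_abs_re_add_abs_im (ctr s q - M)
  rw [Complex.sub_re, Complex.sub_im, hcr, hci] at h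
  have h1 : |s * (q.1 + 1 / 2) - M.re| ≤ s / 2 := by rw [abs_le]; constructor <;> linarith
  have h2 : |s * (q.2 + 1 / 2) - M.im| ≤ s / 2 := by rw [abs_le]; constructor <;> linarith
  linarith

variable {u : Poly}

/-- quarter point of the first edge of the arc `j` -/
def qp (u : Poly) (j : Fin 3) : ℂ := bp u (u.k j) (3 / 4)

theorem qp_arc (j : Fin 3) : qp u j ∈ u.Arc j := by
  refine arc_iff.2 ⟨u.k j, 3 / 4, by norm_num, by norm_num, by linarith, ?_, rfl⟩
  have : (u.k j : ℝ) + 1 ≤ u.k' j := by exact_mod_cast k_lt (u := u) j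
  linarith

theorem qp_ed (j : Fin 3) : qp u j ∈ ed u.s (u.v (u.k j)) (u.v (u.k j + 1)) :=
  mem_ed.2 ⟨3 / 4, by norm_num, by norm_num, rfl⟩

/-- the marks are far from the quarter points -/
theorem qp_far (j l : Fin 3) : u.s / 4 ≤ dist (qp u j) (u.mid (u.k l)) := by
  have hs := u.s_pos
  by_contra hcon
  push Not at hcon
  have e0 : qp u j = ep u.s u.v (u.k j) (3 / 4) := rfl
  have e1 : u.mid (u.k l) = ep u.s u.v (u.k l) (1 / 2) := mid_eq _
  rw [dist_eq_norm, e0, e1] at hcon
  have h3 := Complex.abs_re_le_norm (ep u.s u.v (u.k j) (3 / 4) - ep u.s u.v (u.k l) (1 / 2))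
  have h4 := Complex.abs_im_le_norm (ep u.s u.v (u.k j) (3 / 4) - ep u.s u.v (u.k l) (1 / 2))
  rw [Complex.sub_re] at h3
  rw [Complex.sub_im] at h4
  have hm := mid_sep u.cyc hs (a := u.k l) (b := u.k j) (t := 3 / 4) (by norm_num) (by norm_num)
    (by linarith) (by linarith)
  rw [ep_mod u.cyc hm (1 / 2)] at hcon h3 h4
  have f1 : ∀ x y : ℝ, u.s * (x + 3 / 4 * (y - x)) - u.s * (x + 1 / 2 * (y - x)) =
      u.s * (y - x) / 4 := fun x y => by ring
  simp only [ep_re, ep_im] at h3 h4
  rw [f1] at h3 h4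
  have g1 := neg_abs_le (u.s * (((u.v (u.k j + 1)).1 : ℝ) - (u.v (u.k j)).1) / 4)
  have g2 := le_abs_self (u.s * (((u.v (u.k j + 1)).1 : ℝ) - (u.v (u.k j)).1) / 4)
  have g3 := neg_abs_le (u.s * (((u.v (u.k j + 1)).2 : ℝ) - (u.v (u.k j)).2) / 4)
  have g4 := le_abs_self (u.s * (((u.v (u.k j + 1)).2 : ℝ) - (u.v (u.k j)).2) / 4)
  rcases step_real u.cyc (u.k j) with (⟨e1, e2⟩ | ⟨e1, e2⟩) | (⟨e1, e2⟩ | ⟨e1, e2⟩)
  · rw [e1] at g1 g2 h3
    ring_nf at g1 g2 h3 hcon
    linarith
  · rw [e1] at g1 g2 h3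
    ring_nf at g1 g2 h3 hcon
    linarith
  · rw [e2] at g3 g4 h4
    ring_nf at g3 g4 h4 hcon
    linarith
  · rw [e2] at g3 g4 h4
    ring_nf at g3 g4 h4 hcon
    linarith

/-- balls round the points of `Far` of the complement are in the polygon -/
theorem ball_far {ρ : ℝ} {z : ℂ} (hz : z ∈ Far u.s ρ (F u)ᶜ) : Metric.closedBall z ρ ⊆ u.P := by
  intro w hw
  rw [Metric.mem_closedBall, dist_eq_norm, norm_sub_rev] at hw
  have hs := u.s_pos
  -- the cell of `w`
  have hw' : w ∈ sq u.s ((⌊w.re / u.s⌋, ⌊w.im / u.s⌋) : V) := by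
    refine ⟨?_, ?_, ?_, ?_⟩
    · have := Int.floor_le (w.re / u.s)
      rw [le_div_iff₀ hs] at this
      simp only
      linarith
    · have := (Int.lt_floor_add_one (w.re / u.s)).le
      rw [div_le_iff₀ hs] at this
      simp only
      linarith
    · have := Int.floor_le (w.im / u.s)
      rw [le_div_iff₀ hs] at this
      simp only
      linarith
    · have := (Int.lt_floor_add_one (w.im / u.s)).le
      rw [div_le_iff₀ hs] at this
      simp only
      linarith
  by_cases hq : ((⌊w.re / u.s⌋, ⌊w.im / u.s⌋) : V) ∈ F u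
  · exact mem_pg.2 ⟨_, hq, hw'⟩
  · exfalso
    have := dist_of_far hz (mem_pg.2 ⟨_, hq, hw'⟩)
    linarith

variable {S : Finset ℂ} {A : ZMod 3 → Set ℂ} {e : ℝ}

theorem sq_conv (s : ℝ) (q : V) : Convex ℝ (sq s q) := by
  have h1 : Convex ℝ {z : ℂ | s * q.1 ≤ z.re} := convex_halfSpace_re_ge _
  have h2 : Convex ℝ {z : ℂ | z.re ≤ s * (q.1 + 1)} := convex_halfSpace_re_le _
  have h3 : Convex ℝ {z : ℂ | s * q.2 ≤ z.im} := convex_halfSpace_im_ge _
  have h4 : Convex ℝ {z : ℂ | z.im ≤ s * (q.2 + 1)} := convex_halfSpace_im_le _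
  exact h1.inter (h2.inter (h3.inter h4))

theorem qp_sq (j : Fin 3) : qp u j ∈ sq u.s (lc (u.v (u.k j)) (u.v (u.k j + 1))) := by
  obtain ⟨h1, h2, -, -⟩ := Crest.Agent.R158.Sp896.pt_mem u.s_pos (u.cyc.step (u.k j))
  exact (sq_conv _ _).segment_subset h1 h2 (qp_ed j)

/-- **the free set of the polygon sees the three classes** -/
theorem vis_poly (u : Poly) (hS : GP (S : Set ℂ)) (h3 : 3 ≤ S.card) (he : 0 < e)
    (hH : ∀ z ∈ u.P, ∃ s ∈ S, ‖s - z‖ < e) (hes : 100 * e ≤ u.s) (hρs : 8 * ρ ≤ u.s)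
    (hV : ff S A = Vin S u.P e)
    (lab : ∀ x, Stabx930.Nxt S (Vin S u.P e) x → (∀ l : Fin 3, ρ < ‖x - u.mid (u.k l)‖) →
      ∀ j, x ∈ A j → u.Lab x = j) : ∃ X, CtrX S A X := by
  have hs := u.s_pos
  have hSn : S.Nonempty := Finset.card_pos.1 (by omega)
  set I0 : Set ℂ := Far u.s (3 * e) (F u)ᶜ with hI0
  have hI : IsPreconnected I0 := by
    refine far_preconn (fun q hq q' hq' => ?_) (by linarith) (by linarith)
    rw [Set.mem_compl_iff, not_not] at hq hq'
    rw [compl_compl]
    exact F_con u q hq q' hq'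
  -- sites of the cells which meet `I0`
  have near : ∀ {x z : ℂ}, z ∈ u.P → z ∈ voronoiCell (S : Set ℂ) x → ‖z - x‖ < e := by
    intro x z hz hx
    obtain ⟨s, h1, h2⟩ := hH z hz
    refine lt_of_le_of_lt (hx s (Finset.mem_coe.2 h1)) ?_
    rw [norm_sub_rev]
    exact h2
  have inV : ∀ {x z : ℂ}, x ∈ S → z ∈ I0 → z ∈ voronoiCell (S : Set ℂ) x → x ∈ Vin S u.P e := by
    intro x z hx hz hxz
    have hb := ball_far hz
    have h1 := near (hb (Metric.mem_closedBall_self (by linarith))) hxz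
    refine Finset.mem_filter.2 ⟨hx, fun w hw => hb ?_⟩
    rw [Metric.mem_closedBall, dist_eq_norm] at hw ⊢
    have := norm_add_le (w - x) (x - z)
    rw [sub_add_sub_cancel, norm_sub_rev x z] at this
    linarith
  set q : Fin 3 → V := fun j => lc (u.v (u.k j)) (u.v (u.k j + 1)) with hq
  have hqF : ∀ j, q j ∈ F u := fun j => u.cyc.left (u.k j)
  have hc0 : ∀ j, ctr u.s (q j) ∈ I0 := fun j =>
    ctr_far (by linarith) hs (by rw [Set.mem_compl_iff, not_not]; exact hqF j)
  obtain ⟨s0, hs0, hz0⟩ := G6Wx723.exists_cell hSn (ctr u.s (q 0))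
  have hs0V : s0 ∈ Vin S u.P e := inV hs0 (hc0 0) hz0
  set W : Set ℂ := {x | x ∈ Vin S u.P e} with hW
  set X : Set ℂ := {x | x ∈ W ∧ Pth S W x s0} with hX
  refine ⟨X, fun i => ?_, fun x hx y hy => ?_, ?_⟩
  · rw [Set.disjoint_left]
    intro x hx hxA
    have h1 : x ∈ ff S A := by rw [hV]; exact hx.1
    exact (mem_ff.1 h1).2 i hxA
  · exact hx.2.self.trans hy.2.self.symm
  · have key : ∀ j : Fin 3, ∃ x ∈ X, ∃ y ∈ A ((j : ℕ) : ZMod 3), Adj S x y := by
      intro j
      set M : ℂ := qp u j with hM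
      have hMP := arc_P (qp_arc (u := u) j)
      have hsq : M ∈ sq u.s (q j) := qp_sq j
      set C : Set ℂ := segment ℝ M (ctr u.s (q j)) with hC
      have hK : IsPreconnected (I0 ∪ C) := hI.union (ctr u.s (q j)) (hc0 j)
        (right_mem_segment ℝ _ _) (convex_segment _ _).isPreconnected
      obtain ⟨sj, hsj, hzj⟩ := G6Wx723.exists_cell hSn M
      have hsjV : sj ∉ Vin S u.P e := by
        intro h
        apply hMP.2
        rw [mem_interior]
        refine ⟨Metric.ball sj (2 * e), Metric.ball_subset_closedBall.trans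
          (Finset.mem_filter.1 h).2, Metric.isOpen_ball, ?_⟩
        rw [Metric.mem_ball, dist_eq_norm]
        have := near hMP.1 hzj
        linarith
      have hp := cl_con hS h3 hK (a := s0) (b := sj) ⟨hs0, _, Or.inl (hc0 0), hz0⟩
        ⟨hsj, M, Or.inr (left_mem_segment ℝ _ _), hzj⟩
      obtain ⟨a, x, h4, h5, h6, h7⟩ := hp.exit (Q := fun w => w ∈ Vin S u.P e) hs0V hsjV
      have haW : Pth S W s0 a := h4.mono fun w hw => hw.2
      obtain ⟨hxS, z, hz, hxz⟩ := h6
      -- the cell of `x` meets the segment near `M`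
      have hzC : z ∈ C := by
        rcases hz with hz | hz
        · exact absurd (inV hxS hz hxz) h7
        · exact hz
      have hzsq : z ∈ sq u.s (q j) :=
        (sq_conv _ _).segment_subset hsq (ctr_mem hs.le _) hzC
      have hzP : z ∈ u.P := mem_pg.2 ⟨q j, hqF j, hzsq⟩
      have hzM : ‖z - M‖ ≤ 6 * e := by
        rw [hC, segment_eq_image'] at hzC
        obtain ⟨τ, hτ, hz'⟩ := hzC
        simp only at hz'
        rw [Complex.real_smul] at hz'
        by_cases h8 : 3 * e < τ * u.s / 2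
        · exfalso
          have := inner_far hs (hqF j) hsq hτ.1 hτ.2 h8
          rw [hz'] at this
          exact h7 (inV hxS this hxz)
        · push Not at h8
          have h9 := ctr_dist hs hsq
          rw [← hz', add_sub_cancel_left, norm_mul, Complex.norm_real, Real.norm_eq_abs,
            abs_of_nonneg hτ.1]
          have h10 := mul_le_mul_of_nonneg_left h9 hτ.1
          linarith
      have hxM : dist M x ≤ 7 * e := by
        rw [dist_eq_norm]
        have h8 := near hzP hxz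
        have h9 := norm_add_le (M - z) (z - x)
        rw [sub_add_sub_cancel, norm_sub_rev M z] at h9
        linarith
      have hL := (lab_of_foot (qp_arc j) hxM (ρ := u.s / 4) (fun l => qp_far j l) (by linarith)
        (by linarith)).1
      have hxi : ∃ i, x ∈ A i := by
        by_contra hcon
        push Not at hcon
        apply h7
        rw [← hV]
        exact mem_ff.2 ⟨hxS, hcon⟩
      obtain ⟨i, hi⟩ := hxi
      have hLi := lab x ⟨a, haW.snd, h5⟩ (fun l => by
        have h8 := qp_far (u := u) j l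
        have h9 := dist_triangle (qp u j) x (u.mid (u.k l))
        rw [dist_eq_norm x] at h9
        linarith) i hi
      refine ⟨a, ⟨haW.snd, haW.symm⟩, x, ?_, h5⟩
      rw [← hL, hLi]
      exact hi
    intro i
    have hi : ∃ j : Fin 3, ((j : ℕ) : ZMod 3) = i := by
      clear * -
      revert i
      decide
    obtain ⟨j, rfl⟩ := hi
    exact key j

end Crest.Agent.R143.VisPx930
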