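import Crest.Agent.R143.UKC_969
import Crest.Agent.R143.HEP_571
import Crest.Agent.R143.OutP_571
import Crest.Agent.R143.GateK_421
import Crest.Agent.R143.VisP_930
import Crest.Agent.R143.R10G_930
import Crest.Agent.R143.Cd5_806
import Crest.Agent.R143.DelS2_806

/-!
# Row 143 (S0194), box R10g for 346's `Poly`: classes `A'` of the polygon from the giants of `U_K`
(helper969)

* **`uku`** : giants `A` (root version), at distance `≥ h / 2` from `u.P`, stems near every point of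
  the boundary ⟹ classes `A'` with `ff S A' = Vin S u.P √ε`, labels `u.Lab` off the marks, thin `15 h`
  (all fields of 930's `UO` / 923's `Out` except the visibility of `A'`)
* **`uo_poly`** : the same with 930's structure `UO`
-/

set_option autoImplicit false

noncomputable section

open scoped Classical

namespace Crest.Agent.R143.UKUx969

open Set
open Crest.ProbabilityR.Voronoi
open Crest.Agent.R143.B0x346 Crest.Agent.R143.DelGx806 Crest.Agent.R143.DelRx806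
  Crest.Agent.R143.JColx54 Crest.Agent.R143.RE0x723
open Crest.Agent.R143.K33x877
open Crest.Agent.R143.Locx922 (Hol)
open Crest.Agent.R143.UKx969 (Deep Con)
open Crest.Agent.R143.UKCx969
open Crest.Agent.R143.PolyUx346 Crest.Agent.R143.NetUx346 Crest.Agent.R143.NetVx346
open Crest.Agent.R143.HEx571 (J hM hw hnu hl)
open Crest.Agent.R143.HEPx571 (lz he_poly near_arc lab_occ mk_mark exists_mk)
open Crest.Agent.R143.GateKx421 (Thin)

variable {u : Poly}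

theorem P_closed (u : Poly) : IsClosed u.P := Cdx806.Pg_closed u.s_pos _

variable {S : Finset ℂ} {A : ZMod 3 → Set ℂ} {o : ℂ × ℂ × ℂ} {l0 : ZMod 3} {h ε : ℝ}

/-- three sites -/
theorem card3 (hR : TrR S o l0 A) : 3 ≤ S.card := by
  obtain ⟨⟨a, b, c⟩, hc⟩ : ∃ x, x = o := ⟨o, rfl⟩
  have h := hR.root.1
  rw [← hc, mem_delT_iff] at h
  obtain ⟨c', h'⟩ := h
  exact DelSx806.three_le h'

/-- **GEOMETRIC HALF OF CONT FOR `U_K`, `u : Poly`** -/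
theorem uku (u : Poly) (hR : TrR S o l0 A)
    (hgap : ∀ l, ∀ s ∈ A l, ∀ z ∈ u.P, h / 2 ≤ ‖s - z‖) (hε : 0 < √ε) (hεh : 5000 * √ε ≤ h)
    (hhs : 40 * h ≤ u.s) (hH : Hol (S : Set ℂ) u.P √ε)
    (hcov : ∀ p ∈ frontier u.P, ∀ z, ‖z - p‖ ≤ 20 * h → ∃ s' ∈ S, ‖s' - z‖ < √ε)
    (hst : ∀ (a : J u) (t : ℝ), 0 ≤ t → t ≤ u.s / 2 → ∃ (t' : ℝ) (b : ℂ) (E : Set ℂ),
      |t' - t| ≤ 10 * h ∧ h ≤ t' ∧ t' ≤ u.s / 2 - h ∧ (Mk (hM u) (lz u) a → 3 * h ≤ t') ∧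
      Stem S A h √ε (lz u a) (hM u a + t' * hw u a) (hnu u a) b E) :
    ∃ A' : ZMod 3 → Set ℂ, Cls S A' ∧ (∀ i, A i ⊆ A' i) ∧ ff S A' = Vin S u.P √ε ∧
      (∀ l, Thin S A A' l (15 * h)) ∧
      (∀ x, Stabx930.Nxt S (Vin S u.P √ε) x → (∀ k : Fin 3, 8 * √ε < ‖x - u.mid (u.k k)‖) →
        ∀ j, (x ∈ A' j ↔ x ∈ Bl S (Vin S u.P √ε) u.Lab j)) ∧
      (∀ k : Fin 3, ∃ f, ∀ x, Stabx930.Nxt S (Vin S u.P √ε) x → x ∉ Vin S u.P √ε →
        (x ∈ A' f ∨ u.Lab x = f) → u.s / 4 < ‖x - u.mid (u.k k)‖) := by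
  have hh : 0 < h := by linarith
  have hcl := P_closed u
  have hfr : frontier u.P ⊆ u.P := hcl.frontier_subset
  have hD : Deep S (Vin S u.P √ε) u.P √ε := fun s => by
    unfold Vin
    rw [Finset.mem_filter]
  have hAV : ∀ i, ∀ x ∈ A i, x ∉ Vin S u.P √ε := by
    intro i x hx hV
    have h1 : x ∈ u.P := ((hD x).1 hV).2 (Metric.mem_closedBall_self (by linarith))
    have h2 := hgap i x hx x h1
    rw [sub_self, norm_zero] at h2
    linarith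
  obtain ⟨A', c1, c2, c3, c4, c5, c6⟩ := ukP (he_poly u) hR.gp (card3 hR) hR.toCls hAV
    (by obtain ⟨v, -, hv⟩ := hR.root.2 0; exact ⟨0, v, hv⟩) hD hε hεh hhs hH hcov
    (OutPx571.compl_P u) (fun j z hz p hp => hgap j z hz p (hfr hp))
    (fun a t h0 h1 _ => hst a t h0 h1) (lab_occ (u := u)) (near_arc (u := u))
  refine ⟨A', c1, c2, c3, ?_, ?_, ?_⟩
  · intro l x hx hn
    have hxV : x ∉ Vin S u.P √ε := fun hV => by
      rw [← c3, mem_ff] at hV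
      exact hV.2 l hx
    obtain ⟨v, hv, ha⟩ := hn
    have hv' : v ∈ Vin S u.P √ε := by
      rw [← c3, mem_ff]
      exact hv
    exact c6 l x hx ⟨Finset.mem_coe.1 (c1.sub l hx), hxV, v, hv', ha⟩
  · intro x hx hk
    refine c4 x hx fun a ha => ?_
    obtain ⟨k, e⟩ := mk_mark ha
    rw [e]
    exact hk k
  · intro k
    obtain ⟨a, ha, -, e⟩ := exists_mk (u := u) k
    obtain ⟨f, hf⟩ := c5 a ha
    refine ⟨f, fun x hx hxV hxf => ?_⟩
    rw [← e]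
    refine hf x hx (hxf.imp id fun h => ?_)
    obtain ⟨v, hv, hva⟩ := hx
    exact ⟨hva.mem.2, hxV, ⟨v, hv, hva.symm⟩, h⟩

/-- the three marks -/
def mkz (u : Poly) (k : ZMod 3) : ℂ := u.mid (u.k k)

/-- **930's structure `UO`** -/
theorem uo_poly (u : Poly) (hR : TrR S o l0 A) (hneg : Hexx877.NegO A o)
    (hgap : ∀ l, ∀ s ∈ A l, ∀ z ∈ u.P, h / 2 ≤ ‖s - z‖) (hε : 0 < √ε) (hεh : 5000 * √ε ≤ h)
    (hhs : 40 * h ≤ u.s) (hH : Hol (S : Set ℂ) u.P √ε)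
    (hcov : ∀ p ∈ frontier u.P, ∀ z, ‖z - p‖ ≤ 20 * h → ∃ s' ∈ S, ‖s' - z‖ < √ε)
    (hst : ∀ (a : J u) (t : ℝ), 0 ≤ t → t ≤ u.s / 2 → ∃ (t' : ℝ) (b : ℂ) (E : Set ℂ),
      |t' - t| ≤ 10 * h ∧ h ≤ t' ∧ t' ≤ u.s / 2 - h ∧ (Mk (hM u) (lz u) a → 3 * h ≤ t') ∧
      Stem S A h √ε (lz u a) (hM u a + t' * hw u a) (hnu u a) b E)
    {R1 d ρ D : ℝ} (hreg : ∀ w ∈ fr S A, ‖w‖ + 2 * √ε ≤ R1) (hd : 16 * h ≤ d) (hρ : h ≤ ρ)
    (hρD : 100 * ρ ≤ D) (hD : D ≤ u.s / 4) (hmk : ∀ k, ‖mkz u k‖ ≤ R1) :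
    ∃ A' : ZMod 3 → Set ℂ,
      R10Gx930.UO S A A' o l0 u.P u.Lab (mkz u) R1 h D ε (15 * h) d ρ := by
  have hh : 0 < h := by linarith
  obtain ⟨A', c1, c2, c3, c4, c5, c6⟩ := uku u hR hgap hε hεh hhs hH hcov hst
  have hlab : ∀ x, Stabx930.Nxt S (Vin S u.P √ε) x → (∀ l : Fin 3, 8 * √ε < ‖x - u.mid (u.k l)‖) →
      ∀ j, x ∈ A' j → u.Lab x = j := fun x hx hk j hj => ((c5 x hx hk j).1 hj).2.2.2
  refine ⟨A', ⟨hR, hneg, c1, c2, c3, ?_, hreg, by linarith, c4, by linarith, by linarith, hρ, hρD,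
    hmk, ?_, ?_⟩⟩
  · exact VisPx930.vis_poly u hR.gp (card3 hR) hε (fun z hz => by
      obtain ⟨s, hs, h1⟩ := hH z hz z (by rw [sub_self, norm_zero]; linarith)
      exact ⟨s, hs, h1⟩) (by linarith) (by linarith) c3 hlab
  · intro x hx hk j hj
    exact hlab x hx (fun l => by have := hk l; show 8 * √ε < ‖x - mkz u l‖; linarith) j hj
  · intro k
    obtain ⟨f, hf⟩ := c6 k
    exact ⟨f, fun x hx hxV hxf => lt_of_le_of_lt hD (hf x hx hxV hxf)⟩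

end Crest.Agent.R143.UKUx969
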