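import Crest.Agent.R143.HlFar_395
import Crest.Agent.R143.StS_277
import Crest.Agent.R143.R10P_923
import Crest.Agent.R143.LnkG_372
import Crest.Agent.R143.RegS_523
import Crest.Agent.R143.SepH_697
import Crest.Agent.R143.CorE_133

/-!
# Row 143 (S0194), RIG, R10: the fields `rt`, `ng`, `outs`, `far` of `UKin` for the giants of a strand
(helper359)

White label `k + 2`; giants `AA (rc0 hS) σ q n r (Ww ..) k` of the arc `0 .. n` from `q`, root gap `r`;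
`zc` = blocking set of the arc. The same for 358's adapted giants `gA` of a system `Sys`.

* `tri_rt` : giants `A` of the cells with a root gap, hull cells in `A (k + 2)`: a rotation `o` of the
  root triangle with `TrR S o (k + 2) (st A)`, `NegO (st A) o`
* **`rt_ex`**, **`rt_sys`** : fields `rt`, `ng`
* `aa_sub` : a cell of a giant is in `Ext` or in `zc`
* `ext_of_pth` : a chain of sites off `Z` from a hull site is in `Ext`; `ext_out` : the sites outside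
* **`outs_aa`**, **`outs_sys`** : field `outs` for a layout `LayU`, `zc` in the tile regions, from
  `Dns`; `hin_cor` : the far points for 133's environment
* **`far_aa`**, **`far_sys`** : field `far`, from 697's `sepH` and 523's `K0`
-/

set_option autoImplicit false
set_option linter.unusedSectionVars false

noncomputable section

open scoped Classical

namespace Crest.Agent.R143.UKinAx359

open Crest.Agent.R143.B0x346 Crest.Agent.R143.DelGx806 Crest.Agent.R143.DelRx806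
open Crest.Agent.R143.JColx54 (Adj adj_tri adj_tri' adj_tri'' delT_rot)
open Crest.Agent.R143.RE0x723 (Pth Pth.snd Pth.symm)
open Crest.Agent.R143.K33x877 (TrR)
open Crest.Agent.R143.Hexx877 (NegO)
open Crest.Agent.R143.K33x877 (CtrT Cls)
open Crest.Agent.R143.Frame1x395 Crest.Agent.R143.Frame8x395 Crest.Agent.R143.Frame9x395 Crest.Agent.R143.Frame10x395
  Crest.Agent.R143.C2SBx395 Crest.Agent.R143.C2SCx395
open Crest.Agent.R143.FinCx811 (Cs rc0 cs)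
open Crest.Agent.R143.Frame5x395 (sd mem_sd th th_spec)
open Crest.Agent.R143.OutSx358 (Sys gA gR zc rr_spec)
open Crest.Agent.R143.Extx358 (Ext Ad mem_wl')
open Crest.Agent.R143.R5qx166 (AA AA_2 AA_cases Ex)
open Crest.Agent.R143.HlFarx395 (HF)
open Crest.Agent.R143.RcTx422 (Hc RC cs_Hc hull_mem rtg_rc)
open Crest.Agent.R143.OutCx571 (Far)
open Crest.Agent.R143.TileRx228 (RR)
open Crest.Agent.R143.DomAx722 (Dns)
open Crest.Agent.R143.PolyUx346 Crest.Agent.R143.LayUx416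
open Crest.Agent.R143.Brkx478 (Bk cells)

variable {S : Finset ℂ} {hS : GP (S : Set ℂ)} {A : ZMod 3 → Set (Cs hS)} {k : ZMod 3} {g : D0 S}

theorem z3k : ∀ k : ZMod 3, k = 0 ∨ k = 1 ∨ k = 2 := by decide

/-- a triangle with one site in every class -/
theorem ctrT_of {t : ℂ × ℂ × ℂ} {B : ZMod 3 → Set ℂ} (h : t ∈ delT S) {a b c : ZMod 3}
    (ha : t.1 ∈ B a) (hb : t.2.1 ∈ B b) (hc : t.2.2 ∈ B c)
    (hd : ∀ i : ZMod 3, i = a ∨ i = b ∨ i = c) : CtrT S B t := by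
  refine ⟨h, fun i => ?_⟩
  rcases hd i with rfl | rfl | rfl
  · exact ⟨_, Or.inl rfl, ha⟩
  · exact ⟨_, Or.inr (Or.inl rfl), hb⟩
  · exact ⟨_, Or.inr (Or.inr rfl), hc⟩

/-- the root triangle, rotated so that it is `NegO` -/
theorem ex_neg (R : Root (rc0 hS) A k g) : ∃ o, CtrT S (st A) o ∧ NegO (st A) o := by
  have ht : (g.1.1, g.1.2, th S g.1) ∈ delT S := th_spec g.2
  obtain ⟨m1, m2, m3⟩ := mem3 hS ht
  have h1 : g.1.1 ∈ st A (k + 1) := (st_mem m1 rfl).2 R.r0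
  have h2 : g.1.2 ∈ st A k := (st_mem m2 rfl).2 R.r1
  have h3 : th S g.1 ∈ st A (k + 2) := (st_mem m3 rfl).2 R.r2
  rcases z3k k with rfl | rfl | rfl
  · exact ⟨(g.1.2, th S g.1, g.1.1), ctrT_of (delT_rot hS ht) h2 h3 h1 (by decide), h2, h3, h1⟩
  · exact ⟨(th S g.1, g.1.1, g.1.2), ctrT_of (delT_rot hS (delT_rot hS ht)) h3 h1 h2 (by decide),
      h3, h1, h2⟩
  · exact ⟨(g.1.1, g.1.2, th S g.1), ctrT_of ht h1 h2 h3 (by decide), h1, h2, h3⟩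

/-- **`rt` and `ng`** : giants with a root gap and the hull cells in the white giant -/
theorem tri_rt (G : Gi (rc0 hS) A) (R : Root (rc0 hS) A k g) (H : Hl A (k + 2)) :
    ∃ o, TrR S o (k + 2) (st A) ∧ NegO (st A) o := by
  obtain ⟨o, h1, h2⟩ := ex_neg R
  refine ⟨o, ⟨StSx277.cls_of G, h1, fun i _ x _ h h' hh hp => ?_⟩, h2⟩
  have ha : Adj S h h' := by
    rcases hh with hh | hh
    · exact Or.inl hh.1
    · exact Or.inr hh.1
  have ho : OnHull S h := by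
    rcases hh with hh | hh
    · exact onHull_left hS hh
    · exact ⟨_, hh⟩
  obtain ⟨c, hc⟩ := cell_ex (hS := hS) ha
  exact Pth.snd hp ((st_mem ha.mem.1 hc).2 (H c h ho hc))

/-- **`rt` and `ng`** for the giants of a strand -/
theorem rt_ex {σ : Cs hS → ZMod 2} {q : D0 S} {N n r : ℕ} {W : Set (Cs hS)}
    (X : Ex (rc0 hS) σ q N n r W) (H : Hl (AA (rc0 hS) σ q n r W k) (k + 2)) :
    ∃ o, TrR S o (k + 2) (st (AA (rc0 hS) σ q n r W k)) ∧
      NegO (st (AA (rc0 hS) σ q n r W k)) o := tri_rt X.gi X.root H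

/-- **a cell of a giant is in the exterior or in the blocking set** -/
theorem aa_sub {σ : Cs hS → ZMod 2} {q : D0 S} {n r : ℕ} {R : Set (Cs hS)} (hr : r ≤ n)
    {l : ZMod 3} {c : Cs hS}
    (hc : c ∈ AA (rc0 hS) σ q n r (Extx358.Ww (rc0 hS) (Hc hS) R q n σ) k l) :
    Ext (rc0 hS) (Hc hS) (zc (rc0 hS) R q n σ) c ∨ c ∈ zc (rc0 hS) R q n σ := by
  have hL : ∀ u, u ≤ n → Splx117.lc (rc0 hS) (cfg (rc0 hS) σ) q u = c →
      c ∈ zc (rc0 hS) R q n σ := by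
    intro u hu e
    exact Or.inl (Or.inl (mem_wl'.2 ⟨u, hu, e⟩))
  rcases AA_cases hc with ⟨-, hc⟩ | ⟨-, hc⟩ | ⟨-, hc⟩
  · obtain ⟨u, -, h2, h3⟩ := hc
    exact Or.inr (hL u h2 h3)
  · obtain ⟨u, h2, h3⟩ := hc
    exact Or.inr (hL u (h2.trans hr) h3)
  · rcases hc with (hc | hc) | hc
    · exact Or.inl hc
    · exact Or.inr hc.1
    · exact Or.inr (Or.inl (Or.inr hc))

/-! ### chains of sites -/

/-- **a chain of sites off `Z` to a hull site** -/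
theorem ext_of_pth (h3 : 3 ≤ S.card) {V : Set ℂ} {Z : Set (Cs hS)} {x u : ℂ} (hu : u ∈ S)
    (hx : OnHull S x) (h : Pth S V u x)
    (hV : ∀ v ∈ V, ∀ c : Cs hS, c.1 = Quot.mk _ v → c ∉ Z) {c : Cs hS}
    (e : c.1 = Quot.mk _ u) : Ext (rc0 hS) (Hc hS) Z c := by
  have hp := Pth.symm h
  have hxS := hull_mem hx
  have h1 := rtg_rc (hS := hS) h3 (u := ⟨x, hxS⟩) (w := ⟨u, hu⟩) (Q := fun v => v ∈ V)
    (Q' := fun b => b ∉ Z) (fun v hv => hV v.1 hv _ rfl) hp.2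
  have e0 : cs hS h3 ⟨u, hu⟩ = c := Subtype.ext e.symm
  rw [e0] at h1
  have h0 : Ext (rc0 hS) (Hc hS) Z (cs hS h3 ⟨x, hxS⟩) :=
    Ext.hull (cs_Hc h3 hx) (hV x hp.1 _ rfl)
  have key : ∀ b, Relation.ReflTransGen (fun a b => Ad (rc0 hS) a b ∧ b ∉ Z)
      (cs hS h3 ⟨x, hxS⟩) b → Ext (rc0 hS) (Hc hS) Z b := by
    intro b hb
    induction hb with
    | refl => exact h0
    | tail _ h2 ih => exact Ext.step ih h2.1 h2.2
  exact key c h1

/-- a site off the region of the blocking set -/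
theorem notMem_of_RC {B : Set ℂ} {Z : Set (Cs hS)} (hZ : Z ⊆ RC hS B) {v : ℂ} (hv : v ∉ B)
    {c : Cs hS} (e : c.1 = Quot.mk _ v) : c ∉ Z := by
  intro hc
  obtain ⟨s, -, hs, hn, e'⟩ := hZ hc
  have : v = s := quot_inner hS hn (e'.symm.trans e)
  exact hv (this ▸ hs)

/-- all tile regions -/
def Tl (A' B' h : ℝ) (W : ℤ → ℤ × ℤ) : Set ℂ := {s | ∃ a : ℤ, s ∈ RR A' B' h W a}

section lay

variable {u : Poly} {m M : ℕ} {p W : ℤ → ℤ × ℤ} {aa e : ℤ → ℤ}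
  {R : Set (Cs hS)} {σ : Cs hS → ZMod 2} {q : D0 S} {n r : ℕ}

/-- **the sites outside are in `Ext`** -/
theorem ext_out (L : LayU u m M p W aa e) {h : ℝ} (hh : (m : ℝ) * h = u.s) {cc : ℂ}
    {Lr d A' B' : ℝ} (hD : Dns S cc Lr d)
    (hin : ∀ z, Lr - 2 * d ≤ ‖z - cc‖ → z ∈ Far u.s (3 / 2 * h) (cells (u.U : Set Bk)))
    (hB : 0 ≤ B') (hBh : B' ≤ h) (hA : h + A' ≤ 3 / 2 * h - 2 * d) {Z : Set (Cs hS)}
    (hz : Z ⊆ RC hS (Tl A' B' h W)) {s : ℂ} (hs : s ∈ S)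
    (ho : s ∈ Far u.s (3 / 2 * h) (cells (u.U : Set Bk))) {c : Cs hS} (e : c.1 = Quot.mk _ s) :
    Ext (rc0 hS) (Hc hS) Z c := by
  have h0 := L.h_pos hh
  have hm := L.m_pos
  have hh' : (((m : ℕ) : ℤ) : ℝ) * h = u.s := by rw [Int.cast_natCast]; exact hh
  obtain ⟨x, y, hxy⟩ := exists_hull hD.gp hD.card
  obtain ⟨hp, -⟩ := LnkGx372.out_path (m := (m : ℤ)) (F := cells (u.U : Set Bk)) h0 (by omega)
    (fun q hq q' hq' => OutPx571.con_compl u.con' q hq q' hq') hD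
    (fun z hz => by rw [hh']; exact hin z hz) hs
    (by rw [hh']; exact ⟨s, ho, REwx838.self_cell s⟩) hxy
  refine ext_of_pth hD.card hs (onHull_left hS hxy) hp ?_ e
  rintro v ⟨-, hv⟩ c' e'
  refine notMem_of_RC hz ?_ e'
  rintro ⟨a, ha⟩
  exact LnkGx372.far_off L.fine h0 (by omega) hB hBh hA hv a ha

/-- **field `outs`** -/
theorem outs_aa (L : LayU u m M p W aa e) {h : ℝ} (hh : (m : ℝ) * h = u.s) {cc : ℂ}
    {Lr d A' B' : ℝ} (hD : Dns S cc Lr d)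
    (hin : ∀ z, Lr - 2 * d ≤ ‖z - cc‖ → z ∈ Far u.s (3 / 2 * h) (cells (u.U : Set Bk)))
    (hB : 0 ≤ B') (hBh : B' ≤ h) (hA : h + A' ≤ 3 / 2 * h - 2 * d)
    (hz : zc (rc0 hS) R q n σ ⊆ RC hS (Tl A' B' h W)) :
    ∀ s ∈ S, (∀ z ∈ u.P, 2 * h < |(s - z).re| ∨ 2 * h < |(s - z).im|) →
      s ∈ st (AA (rc0 hS) σ q n r (Extx358.Ww (rc0 hS) (Hc hS) R q n σ) k) (k + 2) := by
  intro s hs ho
  have h0 := L.h_pos hh
  have hf : s ∈ Far u.s (3 / 2 * h) (cells (u.U : Set Bk)) := by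
    intro w hw
    have h1 := ho w hw
    rw [Complex.sub_re, Complex.sub_im] at h1
    rcases h1 with h1 | h1
    · exact lt_of_lt_of_le (by linarith) (le_max_left _ _)
    · exact lt_of_lt_of_le (by linarith) (le_max_right _ _)
  have h3 : 3 ≤ S.card := hD.card
  refine ⟨hs, cs hS h3 ⟨s, hs⟩, ?_, rfl⟩
  have h4 := ext_out L hh hD hin hB hBh hA hz hs hf (c := cs hS h3 ⟨s, hs⟩) rfl
  rw [AA_2]
  exact Or.inl (Or.inl h4)

/-- **field `far`** : `K0` of 523, `hE` = 697's `sepH` -/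
theorem far_aa (L : LayU u m M p W aa e) {h : ℝ} (hh : (m : ℝ) * h = u.s) {A0 A' B' B0 : ℝ}
    (hA : A' ≤ A0) (hB' : B' ≤ B0) (hB : 0 ≤ B0) (hBh : B0 ≤ h) (hA0 : A0 ≤ h / 2)
    (hr : r ≤ n) (hz : zc (rc0 hS) R q n σ ⊆ RC hS (Tl A' B' h W))
    (hE : ∀ w ∈ RegSx523.K0 h A0 u, ∀ c : Cs hS, c.1 = Quot.mk _ w →
      ¬ Ext (rc0 hS) (Hc hS) (zc (rc0 hS) R q n σ) c) :
    ∀ l, ∀ s ∈ st (AA (rc0 hS) σ q n r (Extx358.Ww (rc0 hS) (Hc hS) R q n σ) k) l,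
      ∀ z ∈ u.P, h / 2 ≤ ‖s - z‖ := by
  intro l s hs z hz'
  by_contra hc
  push Not at hc
  obtain ⟨hsS, c, hc1, e⟩ := hs
  have hK : s ∈ RegSx523.K0 h A0 u := by
    have g1 := Complex.abs_re_le_norm (s - z)
    have g2 := Complex.abs_im_le_norm (s - z)
    rw [Complex.sub_re] at g1
    rw [Complex.sub_im] at g2
    exact ⟨z, hz', by linarith, by linarith⟩
  have hoff := RegSx523.K0_off (A := A0) (B := B0) L hh hB hBh s hK
  rcases aa_sub hr hc1 with h1 | h1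
  · exact hE s hK c e h1
  · refine notMem_of_RC hz ?_ e h1
    rintro ⟨a, ha⟩
    exact hoff a (TileRx228.RR_mono hA hB' h W a ha)

/-- the far points for 133's environment -/
theorem hin_cor (L : LayU u m M p W aa e) {h d : ℝ} (hh : (m : ℝ) * h = u.s) (hd : d ≤ 1 / 100)
    {z : ℂ} (hz : CorEx133.RU u - 2 * d ≤ ‖z - 0‖) :
    z ∈ Far u.s (3 / 2 * h) (cells (u.U : Set Bk)) := by
  refine OutCx571.far_of_dist fun w hw => ?_
  have h1 := CorEx133.P_norm u (z := w) hw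
  have h2 := CorEx133.one_le_Rp u
  have h3 := CorEx133.h_le L hh
  have h4 := norm_sub_norm_le z w
  rw [sub_zero] at hz
  unfold CorEx133.RU at hz
  linarith

end lay

section sys

variable {ι : Type} {R : Set (Cs hS)} {Q : Set (D0 S)} {pa : ι → (Cs hS → ZMod 2) → D0 S}
  {na : ι → (Cs hS → ZMod 2) → ℕ} {Ev : ι → (Cs hS → ZMod 2) → Prop} {σ : Cs hS → ZMod 2}
  {j : ι}

/-- **`rt` and `ng` for the adapted giants of a system** -/
theorem rt_sys (Y : Sys (rc0 hS) (Hc hS) R Q pa na Ev) (hj : Ev j σ)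
    (F : HF (gA (rc0 hS) (Hc hS) R Q pa na Ev k σ) k) :
    ∃ o, TrR S o (k + 2) (st (gA (rc0 hS) (Hc hS) R Q pa na Ev k σ)) ∧
      NegO (st (gA (rc0 hS) (Hc hS) R Q pa na Ev k σ)) o := by
  have h1 := F.hl
  rw [Y.gA_eq k hj] at h1 ⊢
  exact rt_ex (Y.ex hj) h1

variable {u : Poly} {m M : ℕ} {p W : ℤ → ℤ × ℤ} {aa e : ℤ → ℤ}

/-- **field `outs`** for a system -/
theorem outs_sys (L : LayU u m M p W aa e) {h : ℝ} (hh : (m : ℝ) * h = u.s) {cc : ℂ}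
    {Lr d A' B' : ℝ} (hD : Dns S cc Lr d)
    (hin : ∀ z, Lr - 2 * d ≤ ‖z - cc‖ → z ∈ Far u.s (3 / 2 * h) (cells (u.U : Set Bk)))
    (hB : 0 ≤ B') (hBh : B' ≤ h) (hA : h + A' ≤ 3 / 2 * h - 2 * d)
    (Y : Sys (rc0 hS) (Hc hS) R Q pa na Ev) (hj : Ev j σ)
    (hz : zc (rc0 hS) R (pa j σ) (na j σ) σ ⊆ RC hS (Tl A' B' h W)) :
    ∀ s ∈ S, (∀ z ∈ u.P, 2 * h < |(s - z).re| ∨ 2 * h < |(s - z).im|) →
      s ∈ st (gA (rc0 hS) (Hc hS) R Q pa na Ev k σ) (k + 2) := by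
  rw [Y.gA_eq k hj]
  exact outs_aa L hh hD hin hB hBh hA hz

/-- **field `far`** for a system -/
theorem far_sys (L : LayU u m M p W aa e) {h : ℝ} (hh : (m : ℝ) * h = u.s) {A0 A' B' B0 : ℝ}
    (hA : A' ≤ A0) (hB' : B' ≤ B0) (hB : 0 ≤ B0) (hBh : B0 ≤ h) (hA0 : A0 ≤ h / 2)
    (Y : Sys (rc0 hS) (Hc hS) R Q pa na Ev) (hj : Ev j σ)
    (hz : zc (rc0 hS) R (pa j σ) (na j σ) σ ⊆ RC hS (Tl A' B' h W))
    (hE : ∀ w ∈ RegSx523.K0 h A0 u, ∀ c : Cs hS, c.1 = Quot.mk _ w →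
      ¬ Ext (rc0 hS) (Hc hS) (zc (rc0 hS) R (pa j σ) (na j σ) σ) c) :
    ∀ l, ∀ s ∈ st (gA (rc0 hS) (Hc hS) R Q pa na Ev k σ) l, ∀ z ∈ u.P, h / 2 ≤ ‖s - z‖ := by
  rw [Y.gA_eq k hj]
  exact far_aa L hh hA hB' hB hBh hA0 (rr_spec (Y.ink j σ hj)).2.hi.le hz hE

end sys

end Crest.Agent.R143.UKinAx359
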