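import Crest.Agent.R143.EvG_168
import Crest.Agent.R143.TlR_709
import Crest.Agent.R143.CorH_713
import Crest.Agent.R143.R10P_923
import Crest.Agent.R143.C2SC_395

/-!
# Row 143 (S0194), RIG, box (7): the field `reg` of 923's `UKin` and `y_a ∈ A (-j)` (helper571)

The giants `A = AA (LA, LB, W)` of the strand `(q, T n)` of the corridor (times `T k` of the gates
`n - k`, arc `k` in the tile `n - 1 - k`), root gap time `r` with its state in the tile `k₀`.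

* `la_tile`, `lb_tile` : the sites of `LA` are in the tiles `≤ k₀ + 1`, the sites of `LB` in the tiles
  `≥ k₀ - 1`
* `y_la`, `y_lb` : the gates `k ≤ k₀ - 2` are in `LA`, the gates `k ≥ k₀ + 3` in `LB`
* `reg` , `ymem` : the same in the layout `Lay` of 416, label `i` white, `k₀ + 1 = rr A e i`
* **`reg_gA`**, **`ymem_gA`** : for 358's giants `gA (i + 1)` of the system of all strands under
  713's `CorH`
-/

set_option autoImplicit false
set_option linter.unusedSectionVars false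

noncomputable section

open scoped Classical

namespace Crest.Agent.R143.UKinBx571

open Crest.Agent.R143.B0x346 Crest.Agent.R143.DelGx806 Crest.Agent.R143.DelRx806
  Crest.Agent.R143.JColx54
open Crest.Agent.R143.Frame1x395 Crest.Agent.R143.Frame2x395 Crest.Agent.R143.Frame3x395
  Crest.Agent.R143.Frame4x395 Crest.Agent.R143.Frame8x395 Crest.Agent.R143.Frame9x395
  Crest.Agent.R143.Frame10x395 Crest.Agent.R143.Frame11x395
open Crest.Agent.R143.Frame5x395 (sd mem_sd th th_spec)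
open Crest.Agent.R143.FinCx811 (Cs rc0 cs rcol)
open Crest.Agent.R143.NonXx592 (P Rc)
open Crest.Agent.R143.R5bx166 (LA LB)
open Crest.Agent.R143.R5qx166 (AA AA_0 AA_1 AA_2)
open Crest.Agent.R143.C2SCx395 (st)
open Crest.Agent.R143.Splx117 (Lp InK lc mono_of)
open Crest.Agent.R143.RingDx117 (RD)
open Crest.Agent.R143.StrBx117 (Str)
open Crest.Agent.R143.Layx416 (Lay g al mi be jj nn rr)
open Crest.Agent.R143.TileRx228 (RR gz ge)
open Crest.Agent.R143.R10Px923 (Use)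

section strand

variable {S : Finset ℂ} {hS : GP (S : Set ℂ)} {σ : Cs hS → ZMod 2} {n N : ℕ} {B : ℕ → Set ℂ}
  {p : ℕ → D0 S} {Rs : Set (D0 S)} {q : D0 S} {T : ℕ → ℕ} {k₀ r : ℕ}

/-- the strand of the corridor, times backward -/
abbrev Sb (hS : GP (S : Set ℂ)) (σ : Cs hS → ZMod 2) (n : ℕ) (Rs : Set (D0 S)) (p : ℕ → D0 S)
    (B : ℕ → Set ℂ) (q : D0 S) (N : ℕ) (T : ℕ → ℕ) : Prop :=
  Str (rc0 hS) (cfg (rc0 hS) σ) n Rs (fun k => p (n - k)) (fun k => RD S (B (n - 1 - k))) q N T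

/-- the arc of the root gap -/
theorem root_arc (H : Sb hS σ n Rs p B q N T)
    (dis : ∀ a b, a + 2 ≤ b → b < n → ∀ v ∈ S, v ∈ B a → v ∉ B b) (hk : k₀ < n) (hr : r ≤ T n)
    (hQ : P (rc0 hS) (cfg (rc0 hS) σ) q r ∈ RD S (B k₀)) :
    ∃ m < n, T m ≤ r ∧ r ≤ T (m + 1) ∧ n - 1 - m ≤ k₀ + 1 ∧ k₀ ≤ n - 1 - m + 1 := by
  have n3 := H.n3
  obtain ⟨m, -, m1, m2, m3⟩ := Splx117.arc_of (T := T) (a := 0) (b := n) (u := r) (by omega)
    (by rw [H.T0]; exact Nat.zero_le _) hr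
  have h1 := H.arc m m1 r m2 m3
  have hv : (P (rc0 hS) (cfg (rc0 hS) σ) q r).1.1 ∈ S :=
    (mem_delT.1 (th_spec (P (rc0 hS) (cfg (rc0 hS) σ) q r).2)).1
  refine ⟨m, m1, m2, m3, ?_, ?_⟩
  · by_contra hc
    exact dis k₀ (n - 1 - m) (by omega) (by omega) _ hv hQ.1 h1.1
  · by_contra hc
    exact dis (n - 1 - m) k₀ (by omega) hk _ hv h1.1 hQ.1

/-- the site of a left cell of the strand -/
theorem site_of (inn : ∀ k, k < n → ∀ v ∈ S, v ∈ B k → ¬ OnHull S v) {k u : ℕ} (hk : k < n)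
    (hu : P (rc0 hS) (cfg (rc0 hS) σ) q u ∈ RD S (B k)) {v : ℂ}
    (hv : (lc (rc0 hS) (cfg (rc0 hS) σ) q u).1 = Quot.mk (hullE S) v) : v ∈ B k := by
  have h1 : (P (rc0 hS) (cfg (rc0 hS) σ) q u).1.1 ∈ S :=
    (mem_delT.1 (th_spec (P (rc0 hS) (cfg (rc0 hS) σ) q u).2)).1
  have h2 := inn k hk _ h1 hu.1
  have h3 : v = (P (rc0 hS) (cfg (rc0 hS) σ) q u).1.1 := quot_inner hS h2 hv
  rw [h3]
  exact hu.1

theorem Tmono (H : Sb hS σ n Rs p B q N T) {a b : ℕ} (h1 : a ≤ b) (h2 : b ≤ n) : T a ≤ T b :=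
  mono_of (a := 0) (b := n) (fun k _ h => H.mono k h) (Nat.zero_le _) h1 h2

/-- **sites of `LA`** -/
theorem la_tile (H : Sb hS σ n Rs p B q N T)
    (inn : ∀ k, k < n → ∀ v ∈ S, v ∈ B k → ¬ OnHull S v)
    (dis : ∀ a b, a + 2 ≤ b → b < n → ∀ v ∈ S, v ∈ B a → v ∉ B b) (hk : k₀ < n) (hr : r ≤ T n)
    (hQ : P (rc0 hS) (cfg (rc0 hS) σ) q r ∈ RD S (B k₀)) {c : Cs hS}
    (hc : c ∈ LA (rc0 hS) (cfg (rc0 hS) σ) q r (T n)) {v : ℂ}
    (hv : c.1 = Quot.mk (hullE S) v) : ∃ k, k < n ∧ k ≤ k₀ + 1 ∧ v ∈ B k := by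
  have n3 := H.n3
  obtain ⟨m, m1, m2, m3, m4, m5⟩ := root_arc H dis hk hr hQ
  obtain ⟨u, u1, u2, rfl⟩ := hc
  obtain ⟨l, -, l1, l2, l3⟩ := Splx117.arc_of (T := T) (a := 0) (b := n) (u := u) (by omega)
    (by rw [H.T0]; exact Nat.zero_le _) u2
  have hml : m ≤ l := by
    by_contra hc
    have := Tmono H (show l + 1 ≤ m by omega) (by omega)
    omega
  exact ⟨n - 1 - l, by omega, by omega, site_of inn (by omega) (H.arc l l1 u l2 l3) hv⟩

/-- **sites of `LB`** -/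
theorem lb_tile (H : Sb hS σ n Rs p B q N T)
    (inn : ∀ k, k < n → ∀ v ∈ S, v ∈ B k → ¬ OnHull S v)
    (dis : ∀ a b, a + 2 ≤ b → b < n → ∀ v ∈ S, v ∈ B a → v ∉ B b) (hk : k₀ < n) (hr : r ≤ T n)
    (hQ : P (rc0 hS) (cfg (rc0 hS) σ) q r ∈ RD S (B k₀)) {c : Cs hS}
    (hc : c ∈ LB (rc0 hS) (cfg (rc0 hS) σ) q r) {v : ℂ}
    (hv : c.1 = Quot.mk (hullE S) v) : ∃ k, k < n ∧ k₀ ≤ k + 1 ∧ v ∈ B k := by
  have n3 := H.n3
  obtain ⟨m, m1, m2, m3, m4, m5⟩ := root_arc H dis hk hr hQ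
  obtain ⟨u, u1, rfl⟩ := hc
  obtain ⟨l, -, l1, l2, l3⟩ := Splx117.arc_of (T := T) (a := 0) (b := n) (u := u) (by omega)
    (by rw [H.T0]; exact Nat.zero_le _) (u1.trans hr)
  rcases Nat.lt_or_ge m l with hml | hml
  · -- then `u = r` is in the arc `m` too
    have h1 := Tmono H (show m + 1 ≤ l by omega) (by omega)
    exact ⟨n - 1 - m, by omega, by omega, site_of inn (by omega) (H.arc m m1 u (by omega)
      (by omega)) hv⟩
  · exact ⟨n - 1 - l, by omega, by omega, site_of inn (by omega) (H.arc l l1 u l2 l3) hv⟩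

theorem Tlt (H : Sb hS σ n Rs p B q N T) {a b : ℕ} (h0 : 0 < a) (h1 : a < b) (h2 : b < n) :
    T a < T b := by
  have h3 := H.lt a h0 (by omega)
  have h4 := Tmono H (show a + 1 ≤ b by omega) (by omega)
  omega

/-- the left cell at the time of a gate -/
theorem lc_gate (H : Sb hS σ n Rs p B q N T) {k : ℕ} (k0 : 0 < k) (kn : k < n) :
    (lc (rc0 hS) (cfg (rc0 hS) σ) q (T (n - k))).1 = Quot.mk (hullE S) (p k).1.1 := by
  have h1 := H.at_ (n - k) (by omega) (by omega)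
  rw [show n - (n - k) = k by omega] at h1
  show ((rc0 hS).cell ((stp (rc0 hS) (cfg (rc0 hS) σ))^[T (n - k)] q)).1 = _
  rw [h1]
  rfl

/-- **the gates below the root gap are in `LA`** -/
theorem y_la (H : Sb hS σ n Rs p B q N T)
    (dis : ∀ a b, a + 2 ≤ b → b < n → ∀ v ∈ S, v ∈ B a → v ∉ B b) (hk : k₀ < n) (hr : r ≤ T n)
    (hQ : P (rc0 hS) (cfg (rc0 hS) σ) q r ∈ RD S (B k₀)) {k : ℕ} (k0 : 0 < k) (k1 : k + 2 ≤ k₀) :
    ∃ c ∈ LA (rc0 hS) (cfg (rc0 hS) σ) q r (T n), c.1 = Quot.mk (hullE S) (p k).1.1 := by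
  obtain ⟨m, m1, m2, m3, m4, m5⟩ := root_arc H dis hk hr hQ
  refine ⟨_, ⟨T (n - k), ?_, Tmono H (by omega) le_rfl, rfl⟩, lc_gate H k0 (by omega)⟩
  have h1 := Tlt H (a := m + 1) (b := n - k) (by omega) (by omega) (by omega)
  omega

/-- **the gates above the root gap are in `LB`** -/
theorem y_lb (H : Sb hS σ n Rs p B q N T)
    (dis : ∀ a b, a + 2 ≤ b → b < n → ∀ v ∈ S, v ∈ B a → v ∉ B b) (hk : k₀ < n) (hr : r ≤ T n)
    (hQ : P (rc0 hS) (cfg (rc0 hS) σ) q r ∈ RD S (B k₀)) {k : ℕ} (k1 : k₀ + 2 ≤ k) (kn : k < n) :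
    ∃ c ∈ LB (rc0 hS) (cfg (rc0 hS) σ) q r, c.1 = Quot.mk (hullE S) (p k).1.1 := by
  obtain ⟨m, m1, m2, m3, m4, m5⟩ := root_arc H dis hk hr hQ
  refine ⟨_, ⟨T (n - k), ?_, rfl⟩, lc_gate H (by omega) kn⟩
  have h1 := Tmono H (a := n - k) (b := m) (by omega) (by omega)
  omega

end strand

/-! ### the layout -/

theorem z3n {i l : ZMod 3} (h : l ≠ i) : l = i + 1 ∨ l = i + 1 + 1 := by
  revert i l; decide

theorem z3e (i : ZMod 3) : i + 1 + 2 = i := by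
  revert i; decide

section layout

variable {S : Finset ℂ} {hS : GP (S : Set ℂ)} {σ : Cs hS → ZMod 2} {N : ℕ} {h A1 B1 : ℝ}
  {p : ℕ → D0 S} {Rs : Set (D0 S)} {q : D0 S} {T : ℕ → ℕ} {r : ℕ} {Wg : Set (Cs hS)}
  {n' M : ℕ} {m' : ℤ} {p' W : ℤ → ℤ × ℤ} {A e : ℤ → ℤ} {i : ZMod 3}

/-- **the field `reg` of `UKin`** -/
theorem reg (L : Lay n' M m' p' W A e)
    (H : Sb hS σ (nn A e i) Rs p (fun k => RR A1 B1 h W (al A e i + k)) q N T)
    (inn : ∀ k, k < nn A e i → ∀ v ∈ S, v ∈ RR A1 B1 h W (al A e i + k) → ¬ OnHull S v)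
    (dis : ∀ a b : ℕ, a + 2 ≤ b → b < nn A e i → ∀ v ∈ S, v ∈ RR A1 B1 h W (al A e i + a) →
      v ∉ RR A1 B1 h W (al A e i + b)) (hr : r ≤ T (nn A e i))
    (hQ : P (rc0 hS) (cfg (rc0 hS) σ) q r ∈
      RD S (RR A1 B1 h W (al A e i + (rr A e i - 1 : ℕ)))) :
    ∀ l, l ≠ i → ∀ s ∈ st (AA (rc0 hS) σ q (T (nn A e i)) r Wg (i + 1)) l, ∃ a j : ℤ,
      s ∈ RR A1 B1 h W a ∧ g A e j ≤ a + 2 ∧ a ≤ g A e (j + 1) + 1 ∧ (-(j : ZMod 3)) = l := by
  intro l hl s hs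
  have h1 := L.rr_eq i
  have h2 := L.rr_pos i
  have h3 := L.rr_lt i
  have h4 := L.nn_eq i
  have hj := Layx416.jj_lab i
  obtain ⟨-, c, hc, hs⟩ := hs
  rcases z3n hl with rfl | rfl
  · -- `LB`
    rw [AA_0] at hc
    obtain ⟨k, k1, k2, k3⟩ := lb_tile (k₀ := rr A e i - 1) H inn dis (by omega) hr hQ hc hs
    refine ⟨al A e i + k, jj i + 2, k3, ?_, ?_, ?_⟩
    · show mi A e i ≤ _
      omega
    · have : g A e (jj i + 2 + 1) = be A e i := by
        rw [add_assoc]; rfl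
      rw [this]
      omega
    · rw [Int.cast_add, neg_add, hj]
      rfl
  · rw [AA_1] at hc
    obtain ⟨k, k1, k2, k3⟩ := la_tile (k₀ := rr A e i - 1) H inn dis (by omega) hr hQ hc hs
    refine ⟨al A e i + k, jj i + 1, k3, ?_, ?_, ?_⟩
    · show al A e i ≤ _
      omega
    · have : g A e (jj i + 1 + 1) = mi A e i := by
        rw [add_assoc]; rfl
      rw [this]
      omega
    · rw [Int.cast_add, neg_add, hj]
      have : ∀ x : ZMod 3, x + -((1 : ℤ) : ZMod 3) = x + 1 + 1 := by decide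
      exact this i

/-- integer form of a label -/
theorem lab_int {j j0 : ℤ} (h : (-(j : ZMod 3)) = -(j0 : ZMod 3)) : ∃ t : ℤ, j = j0 + 3 * t := by
  have h1 : ((j - j0 : ℤ) : ZMod 3) = 0 := by
    push_cast
    rw [neg_inj.1 h, sub_self]
  obtain ⟨t, ht⟩ := (ZMod.intCast_zmod_eq_zero_iff_dvd _ 3).1 h1
  exact ⟨t, by push_cast at ht; linarith⟩

theorem per_int {y : ℤ → ℂ} (hper : ∀ a, y (a + M) = y a) (a t : ℤ) : y (a + t * M) = y a := by
  induction t using Int.induction_on with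
  | zero => rw [zero_mul, add_zero]
  | succ t ih => rw [add_mul, one_mul, ← add_assoc, hper, ih]
  | pred t ih =>
    rw [← hper (a + (-(t : ℤ) - 1) * M)]
    rw [show a + (-(t : ℤ) - 1) * M + M = a + -(t : ℤ) * M by ring]
    exact ih

/-- **the black sites of the gates of the out tiles are in their class** -/
theorem ymem (L : Lay n' M m' p' W A e)
    (H : Sb hS σ (nn A e i) Rs p (fun k => RR A1 B1 h W (al A e i + k)) q N T)
    (dis : ∀ a b : ℕ, a + 2 ≤ b → b < nn A e i → ∀ v ∈ S, v ∈ RR A1 B1 h W (al A e i + a) →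
      v ∉ RR A1 B1 h W (al A e i + b)) (hr : r ≤ T (nn A e i))
    (hQ : P (rc0 hS) (cfg (rc0 hS) σ) q r ∈
      RD S (RR A1 B1 h W (al A e i + (rr A e i - 1 : ℕ)))) {y : ℤ → ℂ}
    (hper : ∀ a, y (a + M) = y a)
    (hy : ∀ k : ℕ, k ≤ nn A e i → (p k).1.1 = y (al A e i + k)) {a j : ℤ}
    (u1 : g A e j + 3 ≤ a) (u2 : a + 3 ≤ g A e (j + 1)) (hj : (-(j : ZMod 3)) ≠ i) :
    y a ∈ st (AA (rc0 hS) σ q (T (nn A e i)) r Wg (i + 1)) (-(j : ZMod 3)) := by
  have h1 := L.rr_eq i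
  have h2 := L.rr_pos i
  have h3 := L.rr_lt i
  have h4 := L.nn_eq i
  have hjj := Layx416.jj_lab i
  have hS1 : ∀ k, (p k).1.1 ∈ S := fun k => (mem_delT.1 (th_spec (p k).2)).1
  rcases z3n hj with hl | hl
  · -- `LB`
    have e1 : (-(j : ZMod 3)) = -((jj i + 2 : ℤ) : ZMod 3) := by
      rw [hl, Int.cast_add, neg_add, hjj]
      rfl
    obtain ⟨t, rfl⟩ := lab_int e1
    rw [L.g_per'] at u1
    rw [show jj i + 2 + 3 * t + 1 = jj i + 3 + 3 * t by ring, L.g_per'] at u2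
    change mi A e i + t * M + 3 ≤ a at u1
    change a + 3 ≤ be A e i + t * M at u2
    have e2 : y a = y (al A e i + ((a - t * M - al A e i).toNat : ℕ)) := by
      rw [← per_int hper (al A e i + ((a - t * M - al A e i).toNat : ℕ)) t]
      congr 1
      omega
    obtain ⟨c, hc, hc'⟩ := y_lb (k₀ := rr A e i - 1) H dis (by omega) hr hQ
      (k := (a - t * M - al A e i).toNat) (by omega) (by omega)
    have e3 := hy (a - t * M - al A e i).toNat (by omega)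
    rw [e2, hl]
    rw [e3] at hc'
    refine ⟨?_, c, ?_, hc'⟩
    · rw [← e3]
      exact hS1 _
    · rw [AA_0]
      exact hc
  · have e1 : (-(j : ZMod 3)) = -((jj i + 1 : ℤ) : ZMod 3) := by
      rw [hl, Int.cast_add, neg_add, hjj]
      have : ∀ x : ZMod 3, x + 1 + 1 = x + -((1 : ℤ) : ZMod 3) := by decide
      exact this i
    obtain ⟨t, rfl⟩ := lab_int e1
    rw [L.g_per'] at u1
    rw [show jj i + 1 + 3 * t + 1 = jj i + 2 + 3 * t by ring, L.g_per'] at u2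
    change al A e i + t * M + 3 ≤ a at u1
    change a + 3 ≤ mi A e i + t * M at u2
    have e2 : y a = y (al A e i + ((a - t * M - al A e i).toNat : ℕ)) := by
      rw [← per_int hper (al A e i + ((a - t * M - al A e i).toNat : ℕ)) t]
      congr 1
      omega
    obtain ⟨c, hc, hc'⟩ := y_la (k₀ := rr A e i - 1) H dis (by omega) hr hQ
      (k := (a - t * M - al A e i).toNat) (by omega) (by omega)
    have e3 := hy (a - t * M - al A e i).toNat (by omega)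
    rw [e2, hl]
    rw [e3] at hc'
    refine ⟨?_, c, ?_, hc'⟩
    · rw [← e3]
      exact hS1 _
    · rw [AA_1]
      exact hc

end layout

end Crest.Agent.R143.UKinBx571
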