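import Crest.Agent.R143.UKinC_571

/-!
# Row 143 (S0194), RIG, box (7): the tile of the root time of 358's `gA` (helper571)

* `arc_strict` : `r < T n` is in exactly one `[T m, T (m + 1))`
* `root_tile` : a time `r < T n` with state in the tile `k₁` is in `[T (n - 1 - k₀), T (n - k₀))` with
  `k₁ - 1 ≤ k₀ ≤ k₁ + 1`
* **`root_k0`** : the hypotheses `c1 c2 r1 r2` of 568's `low_UK`, `nk_UK` for the root time of `gA`
  (first block gap with its state in `Q = RD S (Bk η W (al A e i) (rr A e i - 1))`)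
-/

set_option autoImplicit false
set_option linter.unusedSectionVars false

noncomputable section

open scoped Classical

namespace Crest.Agent.R143.UKinDx571

open Crest.Agent.R143.B0x346 Crest.Agent.R143.DelGx806 Crest.Agent.R143.DelRx806
  Crest.Agent.R143.JColx54
open Crest.Agent.R143.Frame1x395 Crest.Agent.R143.Frame2x395 Crest.Agent.R143.Frame3x395
  Crest.Agent.R143.Frame4x395 Crest.Agent.R143.Frame8x395 Crest.Agent.R143.Frame9x395
  Crest.Agent.R143.Frame10x395 Crest.Agent.R143.Frame11x395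
open Crest.Agent.R143.Frame5x395 (th_spec)
open Crest.Agent.R143.FinCx811 (Cs rc0)
open Crest.Agent.R143.NonXx592 (P)
open Crest.Agent.R143.SysAx168 (EvA)
open Crest.Agent.R143.RingDx117 (RD)
open Crest.Agent.R143.Uniqx323 (Zn)
open Crest.Agent.R143.CorHx713
open Crest.Agent.R143.CorrIx831
open Crest.Agent.R143.Layx416 (Lay al nn)
open Crest.Agent.R143.UKinBx571 Crest.Agent.R143.UKinCx571
open Crest.Agent.R143.WLocx713 (sX)

theorem arc_strict {T : ℕ → ℕ} {n r : ℕ} (h0 : T 0 ≤ r) (h1 : r < T n) :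
    ∃ m < n, T m ≤ r ∧ r < T (m + 1) := by
  induction n with
  | zero => omega
  | succ n ih =>
    rcases Nat.lt_or_ge r (T n) with h | h
    · obtain ⟨m, m1, m2, m3⟩ := ih h
      exact ⟨m, by omega, m2, m3⟩
    · exact ⟨n, by omega, h, h1⟩

/-- the tile of a time -/
theorem root_tile {S : Finset ℂ} {hS : GP (S : Set ℂ)} {σ : Cs hS → ZMod 2} {n N : ℕ}
    {B : ℕ → Set ℂ} {p : ℕ → D0 S} {Rs : Set (D0 S)} {q : D0 S} {T : ℕ → ℕ} {k₁ r : ℕ}
    (H : Sb hS σ n Rs p B q N T) (dis : ∀ a b, a + 2 ≤ b → b < n → ∀ v ∈ S, v ∈ B a → v ∉ B b)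
    (hk : k₁ < n) (hr : r < T n) (hQ : P (rc0 hS) (cfg (rc0 hS) σ) q r ∈ RD S (B k₁)) :
    ∃ k₀ < n, k₁ ≤ k₀ + 1 ∧ k₀ ≤ k₁ + 1 ∧ T (n - 1 - k₀) ≤ r ∧ r < T (n - k₀) := by
  obtain ⟨m, m1, m2, m3⟩ := arc_strict (T := T) (by rw [H.T0]; exact Nat.zero_le _) hr
  have h1 := H.arc m m1 r m2 m3.le
  have hv : (P (rc0 hS) (cfg (rc0 hS) σ) q r).1.1 ∈ S :=
    (mem_delT.1 (th_spec (P (rc0 hS) (cfg (rc0 hS) σ) q r).2)).1
  refine ⟨n - 1 - m, by omega, ?_, ?_, ?_, ?_⟩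
  · by_contra hc
    exact dis (n - 1 - m) k₁ (by omega) hk _ hv h1.1 hQ.1
  · by_contra hc
    exact dis k₁ (n - 1 - m) (by omega) (by omega) _ hv hQ.1 h1.1
  · rw [show n - 1 - (n - 1 - m) = m by omega]
    exact m2
  · rw [show n - (n - 1 - m) = m + 1 by omega]
    exact m3

/-- **the tile of the root time of `gA`** (hypotheses `c1 c2 r1 r2` of 568) -/
theorem root_k0 {S : Finset ℂ} {hS : GP (S : Set ℂ)} {Rw : Set (Cs hS)} {h₀ : Cs hS}
    {Z : Zn (rc0 hS)} {s : Cs hS → ZMod 2} {q : D0 S} {T : ℕ → ℕ} {N : ℕ} {p : ℕ → D0 S}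
    {X : Set (ℂ × Bool)} {U : Set ℂ} {M n' : ℕ} {m' : ℤ} {p' W : ℤ → ℤ × ℤ} {A e : ℤ → ℤ}
    {η d : ℝ} {i : ZMod 3} (L : Lay n' M m' p' W A e)
    (H : CorH X U M W η d (al A e i) (nn A e i)) (hX : sX X = S)
    (hT : SDS hS s η W (al A e i) (nn A e i) p q N T)
    (hE : EvA (rc0 hS) {h₀} Rw (RD S (Bk η W (al A e i) (Layx416.rr A e i - 1))) Z
      (q, T (nn A e i)) s) :
    ∃ k₀ : ℕ, Layx416.rr A e i ≤ k₀ + 3 ∧ k₀ < Layx416.rr A e i + 3 ∧
      T (nn A e i - 1 - k₀) ≤ OutSx358.rr (rc0 hS) (cfg (rc0 hS) s) q (T (nn A e i))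
        (RD S (Bk η W (al A e i) (Layx416.rr A e i - 1))) ∧
      OutSx358.rr (rc0 hS) (cfg (rc0 hS) s) q (T (nn A e i))
        (RD S (Bk η W (al A e i) (Layx416.rr A e i - 1))) < T (nn A e i - k₀) := by
  subst hX
  have h2 := L.rr_pos i
  have h3 := L.rr_lt i
  obtain ⟨k₀, -, k2, k3, k4, k5⟩ := root_tile (k₁ := Layx416.rr A e i - 1) hT
    (fun a b h1 h2 => dis_Bk H a b h1 h2) (by omega) (root hE).1 (root hE).2
  exact ⟨k₀, by omega, by omega, k4, k5⟩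

end Crest.Agent.R143.UKinDx571
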