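import Crest.Agent.R143.UKinZ_923
import Crest.Agent.R143.LnkM_927
import Crest.Agent.R143.QuenI_597
import Crest.Agent.R143.PlR_930

/-!
# Row 143 (S0194), RIG: `UKin` and `hC` for the giants of `QuenI_597` (helper923)

597's system `Sx`, 133's environment, `R = RC hS (Clo2 ..)` (831's `RwD`).

* **`ukin_sx`** : `UKin` for the colours `s` with `0 < gW .. (Xc hS h3 s)`
* **`ukr_gI`** : 930's `UKR` for 597's giants `GI .. σ` with `0 < gW .. (clr (SU u ε ω) σ)`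
* **`hC_gI`** : the hypothesis `hC` of `quen_u`, `η = √(hN N)`, `θ0 = thC u N`; `con_gI` : 840's `con`
-/

set_option autoImplicit false
set_option linter.unusedSectionVars false

noncomputable section

open scoped Classical

namespace Crest.Agent.R143.UKinYx923

open Crest.ProbabilityR.Voronoi
open Crest.Agent.R143.PP0x831
open Crest.Agent.R143.B0x346 Crest.Agent.R143.DelGx806 Crest.Agent.R143.DelRx806
  Crest.Agent.R143.FinCx811 Crest.Agent.R143.Resax778 Crest.Agent.R143.SmallAx304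
open Crest.Agent.R143.Frame1x395 Crest.Agent.R143.Frame2x395 Crest.Agent.R143.Frame3x395
  Crest.Agent.R143.Frame4x395
open Crest.Agent.R143.Frame8x395 hiding cfg
open Crest.Agent.R143.Frame9x395 Crest.Agent.R143.Frame10x395
open Crest.Agent.R143.C2SCx395
open Crest.Agent.R143.NetUx346 Crest.Agent.R143.NetVx346
open Crest.Agent.R143.IndLoc3x279 (clr)
open Crest.Agent.R143.OutSx358 (gA)
open Crest.Agent.R143.Uniqx323 (Zn)
open Crest.Agent.R143.ColXx829 (Xc)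
open Crest.Agent.R143.RcTx422 (RC)
open Crest.Agent.R143.PolyUx346 (Poly)
open Crest.Agent.R143.CorEx133
open Crest.Agent.R143.RigPx854 (ly ly_spec mN mN_hN hN hN_pos nT)
open Crest.Agent.R143.RigZdx609
open Crest.Agent.R143.QuenIx597
open Crest.Agent.R143.CorHx713 (CorH xx yy)
open Crest.Agent.R143.CorrIx831 (SDS inn_bst col_Xc)
open Crest.Agent.R143.R10Px923 (UKin Cpl)
open Crest.Agent.R143.R10Nx930 (Con)
open Crest.Agent.R143.SepHx697 (BR)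
open Crest.Agent.R143.LnkLx927 (Clo2)
open Crest.Agent.R143.PlRx930

variable {N : ℕ} {ε : ℝ} {u : Poly} {w : ZMod 3} {Z : TData} {hN : u.n + 4 ≤ N} {hε : 0 < ε}
  {ω : Sample} {hS : GP (SU u ε ω : Set ℂ)} {h3 : 3 ≤ (SU u ε ω).card} {h₀ : Cs hS}
  {R : Set (Cs hS)} {Zz : Zn (rc0 hS)} {K1 c2 ρ0 : ℝ}

/-- **`UKin` for one colouring with positive weight** -/
theorem ukin_sx (X : Sx w Z hN hε hS h3 h₀ R Zz) (C : CorEnv u ε √ε K1 c2 ρ0 ω)
    (hd : 100 * √ε ≤ et N)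
    (hR : R = RC hS (Clo2 (et N) (ly u N).W (ly u N).M (oT u w N) (nT u w N)))
    {s : Cs hS → ZMod 2} (h : 0 < gW Z u w hN hε (Xc hS h3 s)) :
    ∃ o, UKin (SU u ε ω) (st (gA (rc0 hS) {h₀} R (Qs w N) (paI hS) (naI hS)
      (EvI hS w N h₀ R Zz) (w + 1) s)) o w u.P (100 * et N) (19 / 2 * et N) (103 / 2 * et N)
      (4 * et N) (-et N) (et N) (-(9 * et N)) (10 * et N) (et N) (ly u N).W (ly u N).A
      (ly u N).e := by
  have H := X.cor s h
  obtain ⟨p, q, k, T, hp, hT, hH⟩ := X.out s h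
  have h1 := et_pos N
  have hE := hH.1
  have hR1 : ∀ c ∈ R, ∃ v ∈ SU u ε ω,
      v ∈ BR (et N) (ly u N).W (ly u N).M (oT u w N) (nT u w N) ∧
        c.1 = Quot.mk (hullE (SU u ε ω)) v := by
    intro c hc
    rw [hR] at hc
    obtain ⟨v, g1, ⟨a, ⟨g2, g3⟩, g4⟩, -, g5⟩ := hc
    exact ⟨v, g1, ⟨a, g2, g3, g4⟩, g5⟩
  have hR2 : ∀ v ∈ SU u ε ω, v ∈ BR (et N) (ly u N).W (ly u N).M (oT u w N) (nT u w N) →
      ∃ c ∈ R, c.1 = Quot.mk (hullE (SU u ε ω)) v := by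
    rintro v g1 ⟨a, g2, g3, g4⟩
    have g5 : ¬ OnHull (SU u ε ω) v := by
      have := inn_bst H g4
      rwa [ColXx829.sX_Xc] at this
    rw [hR]
    exact ⟨cs hS h3 ⟨v, g1⟩, ⟨v, g1, ⟨a, ⟨g2, g3⟩, g4⟩, g5, rfl⟩, rfl⟩
  have hin := fun z hz => UKinAx359.hin_cor (z := z) (ly_spec hN) (mh hN) C.d1 hz
  have hac := X.nac _ _ hE
  exact UKinZx923.ukin_gA (ly_spec hN) (mh hN) H (col_Xc hS h3 s) X.h0 hp hT X.Y hE hac hR1 hR2
    C.dns (by linarith) hin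

/-- **930's `UKR` for 597's giants** -/
theorem ukr_gI (X : Sx w Z hN hε hS h3 h₀ R Zz) (C : CorEnv u ε √ε K1 c2 ρ0 ω)
    (hd : 100 * √ε ≤ et N)
    (hR : R = RC hS (Clo2 (et N) (ly u N).W (ly u N).M (oT u w N) (nT u w N))) :
    ∀ σ ∈ (SU u ε ω).powerset, 0 < gW Z u w hN hε (clr (SU u ε ω) σ) →
      UKR u w N ε ω (GI hS h3 w N h₀ R Zz σ) := by
  intro σ _ h
  rw [← gW_xc (hS := hS) (h3 := h3) Z hN hε C] at h
  obtain ⟨o, ho⟩ := ukin_sx X C hd hR h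
  have h1 := et_pos N
  have h2 := et_h N
  exact ukr_of' hε (by linarith) (w0 := 4 * et N) (by linarith) (by linarith) ho

/-- **the hypothesis `hC` of 597's `quen_u`** -/
theorem hC_gI (X : Sx w Z hN hε hS h3 h₀ R Zz) (C : CorEnv u ε √ε K1 c2 ρ0 ω)
    (hd : 100 * √ε ≤ et N)
    (hR : R = RC hS (Clo2 (et N) (ly u N).W (ly u N).M (oT u w N) (nT u w N)))
    (hE : EnvR u N ε ω) (hM : NumR u N ε) :
    ∀ σ ∈ (SU u ε ω).powerset, 0 < gW Z u w hN hε (clr (SU u ε ω) σ) →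
      Vin (SU u ε ω) u.P √ε ⊆ ff (SU u ε ω) (GI hS h3 w N h₀ R Zz σ) ∧
      Cpl (SU u ε ω) (GI hS h3 w N h₀ R Zz σ) (Vin (SU u ε ω) u.P √ε)
        (Bl (SU u ε ω) (Vin (SU u ε ω) u.P √ε) u.Lab) √(Crest.Agent.R143.RigPx854.hN N)
        (thC u N) :=
  plr_C hN hE hM (ukr_gI X C hd hR)

/-- **`con` of 840's `dispZ`** -/
theorem con_gI (X : Sx w Z hN hε hS h3 h₀ R Zz) (C : CorEnv u ε √ε K1 c2 ρ0 ω)
    (hd : 100 * √ε ≤ et N)
    (hR : R = RC hS (Clo2 (et N) (ly u N).W (ly u N).M (oT u w N) (nT u w N)))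
    (hE : EnvR u N ε ω) (hM : NumR u N ε) :
    ∀ β ⊆ SU u ε ω, 0 < gW Z u w hN hε (clr (SU u ε ω) β) → ∃ A : ZMod 3 → Set ℂ,
      Con ks.C ks.c ks.K u ε (Crest.Agent.R143.RigPx854.hN N) ω A u.P :=
  plr_con hN hE hM (ukr_gI X C hd hR)

end Crest.Agent.R143.UKinYx923
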