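import Crest.Agent.R143.SxZ_832
import Crest.Agent.R143.UKinA_359
import Crest.Agent.R143.UKLowG_568
import Crest.Agent.R143.CorrZ_831
import Crest.Agent.R143.SepU_697

/-!
# Row 143 (S0194), RIG, box (7): the giants of one environment satisfy `UKin` (helper969)

`Sx.uk` on 597's `Sx` with 832's white strips: field `uk` of 894's `EnvD`.
-/

set_option autoImplicit false
set_option linter.unusedSectionVars false

noncomputable section

open scoped Classical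

namespace Crest.Agent.R143.UKinYx969

open Crest.ProbabilityR.Voronoi
open Crest.Agent.R143.PP0x831 Crest.Agent.R143.B0x346 Crest.Agent.R143.DelGx806
  Crest.Agent.R143.DelRx806 Crest.Agent.R143.FinCx811
open Crest.Agent.R143.Frame1x395 Crest.Agent.R143.Frame2x395 Crest.Agent.R143.Frame3x395
  Crest.Agent.R143.Frame4x395
open Crest.Agent.R143.Frame8x395 hiding cfg
open Crest.Agent.R143.Frame9x395 Crest.Agent.R143.Frame10x395
open Crest.Agent.R143.C2SCx395 (st)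
open Crest.Agent.R143.IndLoc3x279 (clr)
open Crest.Agent.R143.OutSx358 (Sys gA ac zc)
open Crest.Agent.R143.Extx358 (Ext)
open Crest.Agent.R143.SysAx168 (EvA)
open Crest.Agent.R143.Uniqx323 (Zn Strd)
open Crest.Agent.R143.ColXx829 (Xc)
open Crest.Agent.R143.RcTx422 (Hc RC Hc_eq)
open Crest.Agent.R143.LnkLx927 (All)
open Crest.Agent.R143.RingDx117 (RD)
open Crest.Agent.R143.PolyUx346 (Poly)
open Crest.Agent.R143.CorEx133
open Crest.Agent.R143.RigPx854 (ly ly_spec mN mN_hN hN hN_pos nT)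
open Crest.Agent.R143.RigZdx609 Crest.Agent.R143.LayUx416 Crest.Agent.R143.Layx416
open Crest.Agent.R143.TileRx228
open Crest.Agent.R143.CorHx713 (CorH xx yy)
open Crest.Agent.R143.CorrIx831 (Ft tlt Bk Stk SDS Col col_Xc col_eq)
open Crest.Agent.R143.CorrZx831 (str_cm0)
open Crest.Agent.R143.SmallAx304 (chiS)
open Crest.Agent.R143.R10Px923 (UKin Nw)
open Crest.Agent.R143.WLocx713 (sX cX)
open Crest.Agent.R143.SepHx697 (BR)
open Crest.Agent.R143.UKinAx359 Crest.Agent.R143.UKinCx571 Crest.Agent.R143.UKLowx568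
open Crest.Agent.R143.QuenIx597 Crest.Agent.R143.SxZx832

/-- the sites of the disc of `K0` are off the exterior -/
theorem k0_S {S : Finset ℂ} {hS : GP (S : Set ℂ)} {s : Cs hS → ZMod 2} {X : Set (ℂ × Bool)}
    {U : Set ℂ} {M : ℕ} {W : ℤ → ℤ × ℤ} {η d : ℝ}
    (h3 : 3 ≤ S.card) (Cc : Col hS X s) {u : Poly} {m : ℕ} {v : ℤ → ℤ × ℤ} {A e : ℤ → ℤ}
    {i : ZMod 3} (H : CorH X U M W η d (al A e i) (nn A e i)) (L : LayU u m M v W A e)
    (hh : (m : ℝ) * (100 * η) = u.s) {p : ℕ → D0 S}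
    (hp : ∀ k : ℕ, (p k).1 = (yy η W X (al A e i + k), xx η W X (al A e i + k)))
    {Rw : Set (Cs hS)}
    (hRw : ∀ t ∈ S, t ∈ BR η W M (al A e i) (nn A e i) → ∃ c ∈ Rw, c.1 = Quot.mk (hullE S) t)
    (q : D0 S) (N : ℕ) (T : ℕ → ℕ) (St : SDS hS s η W (al A e i) (nn A e i) p q N T) :
    ∀ v ∈ RegSx523.K0 (100 * η) (10 * η) u, ∀ c : Cs hS, c.1 = Quot.mk (hullE S) v →
      ¬ Ext (rc0 hS) (Hc hS) (zc (rc0 hS) Rw q (T (nn A e i)) s) c := by
  obtain rfl : sX X = S := Cc.e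
  obtain rfl := col_eq H.hull h3 Cc
  have hpe : p = H.p := by
    funext k
    exact Subtype.ext (hp k)
  subst hpe
  exact (SepUx697.sepU L hh (H := H) (R := Rw) (str_cm0 (hχ := H.hull) St) hRw).2.1

variable {N : ℕ} {ε : ℝ} {u : Poly} {w : ZMod 3} {Z : TData} {hN : u.n + 4 ≤ N} {hε : 0 < ε}
  {ω : Sample} {hS : GP (SU u ε ω : Set ℂ)} {h3 : 3 ≤ (SU u ε ω).card} {h₀ : Cs hS}
  {Zz : Zn (rc0 hS)} {K1 c2 ρ0 : ℝ}

theorem rc1 : ∀ c ∈ Rc hS w N, ∃ v ∈ SU u ε ω,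
    v ∈ BR (et N) (ly u N).W (ly u N).M (oT u w N) (nT u w N) ∧ c.1 = Quot.mk _ v :=
  fun _ hc => hc

theorem rc2 (h3 : 3 ≤ (SU u ε ω).card) : ∀ v ∈ SU u ε ω,
    v ∈ BR (et N) (ly u N).W (ly u N).M (oT u w N) (nT u w N) →
      ∃ c ∈ Rc hS w N, c.1 = Quot.mk _ v :=
  fun v hv hb => ⟨cs hS h3 ⟨v, hv⟩, ⟨v, hv, hb, rfl⟩, rfl⟩

/-- **the blocking set is in the strips** -/
theorem zc_tl (X : Sx w Z hN hε hS h3 h₀ (Rc hS w N) Zz) {j : D0 (SU u ε ω) × ℕ}
    {s : Cs hS → ZMod 2} (hE : EvI hS w N h₀ (Rc hS w N) Zz j s) :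
    zc (rc0 hS) (Rc hS w N) j.1 j.2 s ⊆
      RC hS (Tl (19 / 2 * et N) (103 / 2 * et N) (100 * et N) (ly u N).W) := by
  rintro c ((hc | hc) | hc)
  · exact X.zR (hE.1.lR hc)
  · exact X.zR (hE.1.rR hc)
  · exact X.rR hc.1

/-- **field `uk` of 894's `EnvD`** -/
theorem Sx_uk (X : Sx w Z hN hε hS h3 h₀ (Rc hS w N) Zz) (C : CorEnv u ε √ε K1 c2 ρ0 ω)
    (hd : 100 * √ε ≤ et N) :
    ∀ σ ∈ (SU u ε ω).powerset, 0 < gW Z u w hN hε (clr (SU u ε ω) σ) →
      ∃ (o : ℂ × ℂ × ℂ) (i : ZMod 3) (A1 B1 w' a0 a1 b0 b1 m' : ℝ), A1 ≤ B1 ∧ B1 < RigPx854.hN N ∧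
        Nw (RigPx854.hN N) √ε w' a0 a1 b0 b1 m' ∧
        UKin (SU u ε ω) (GI hS h3 w N h₀ (Rc hS w N) Zz σ) o i u.P (RigPx854.hN N) A1 B1 w' a0 a1
          b0 b1 m' (ly u N).W (ly u N).A (ly u N).e := by
  intro σ _ hg
  have L := ly_spec hN
  have hh : (mN u N : ℝ) * (100 * et N) = u.s := mh hN
  have he := et_pos N
  have hd0 := C.d0
  rw [← gW_xc (hS := hS) (h3 := h3) Z hN hε C] at hg
  obtain ⟨p, q, k, T, hp, St, hv⟩ := X.out _ hg
  have H := X.cor _ hg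
  have hE : EvI hS w N h₀ (Rc hS w N) Zz (q, T (nT u w N)) (chiS hS h3 σ) := hv.1
  have Cc := col_Xc hS h3 (chiS hS h3 σ)
  have h0 := X.h0
  have hz := zc_tl X hE
  have Y : Sys (rc0 hS) (Hc hS) (Rc hS w N) (Qs w N) (paI hS) (naI hS)
      (EvI hS w N h₀ (Rc hS w N) Zz) := by
    rw [Hc_eq h0]; exact X.Y
  have eh : RigPx854.hN N = 100 * et N := (et_h (N := N)).symm
  rw [eh]
  have hw2 : w + 1 + 2 = w := UKinBx571.z3e w
  have hR1 := rc1 (hS := hS) (w := w) (N := N)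
  have hR2 := rc2 (hS := hS) (w := w) (N := N) h3
  have hk0 := k0_S h3 Cc H L hh hp hR2 q k T St
  have hrad : ∀ z ∈ Tl (19 / 2 * et N) (103 / 2 * et N) (100 * et N) (ly u N).W,
      ‖z - 0‖ < RU u - 4 * √ε := by
    rintro z ⟨a, ha⟩
    have h1 := RR_UU (A := 19 / 2 * et N) (B := 103 / 2 * et N) hN (by linarith) (by linarith)
      (by linarith) (by linarith) a ha
    have h2 := mem_UU.1 h1
    have h3 := C.d1
    have h4 := one_le_Rp u
    rw [sub_zero]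
    unfold RU
    linarith
  have HFz : HlFarx395.HF (gA (rc0 hS) (Hc hS) (Rc hS w N) (Qs w N) (paI hS) (naI hS)
      (EvI hS w N h₀ (Rc hS w N) Zz) (w + 1) (chiS hS h3 σ)) (w + 1) :=
    HlFarx395.hf_sys Y hE hz (HlFarx395.offH_dns C.dns hrad)
  obtain ⟨o, hrt, hng⟩ := rt_sys Y hE HFz
  have houts := outs_sys (k := w + 1) L hh C.dns (fun z hz => hin_cor L hh C.d1 hz)
    (by linarith) (by linarith) (by linarith) Y hE hz
  have hfar := far_sys (k := w + 1) L hh (A0 := 10 * et N) (B0 := 52 * et N) (by linarith)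
    (by linarith) (by linarith) (by linarith) (by linarith) Y hE hz hk0
  rw [Hc_eq h0] at hrt hng houts hfar
  rw [hw2] at hrt houts
  have hle : 9 * et N = 9 * et N := rfl
  refine ⟨o, w, 19 / 2 * et N, 103 / 2 * et N, 4 * et N, -et N, et N, -(9 * et N), 10 * et N, et N,
    by linarith, by linarith, ⟨hd0, by linarith, by linarith, by linarith, by linarith,
      by linarith, by linarith, he.le⟩, ?_⟩
  exact {
    rt := hrt
    ng := hng
    far := hfar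
    outs := houts
    reg := reg_gA L.lay H Cc.e St hE
    low := low_gA L hh H h3 Cc h0 hp St hE hR1 hR2 le_rfl le_rfl
    nk := nk_gA L hh H h3 Cc h0 hp St hE hR1 hR2 }

end Crest.Agent.R143.UKinYx969
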