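import Crest.Agent.R143.UKinA_359
import Crest.Agent.R143.UKinC_571
import Crest.Agent.R143.UKLowG_568
import Crest.Agent.R143.GoodA_654

/-!
# Row 143 (S0194), RIG, box (7), item (U): the instance of `UKin` for 358's giants (helper923)

`H : CorH X U M W η d (al A e i) (nn A e i)` (713), layout `LayU` (416), `i` white label, strand `SDS`
and event `EvA` of 831 / 168 on the sites `S = sX X`, colours `s` (`Col` of 831), root window
`Q = RD S (Bk η W (al A e i) (rr A e i - 1))`, `Rw` = cells of the white tiles `BR` (697).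
`Ag .. l = st (gA .. (i + 1) s) l` (571).

* `zc_tl` : the blocking set is in the tile regions
* **`rt_gA`** (fields `rt`, `ng`), **`outs_gA`**, **`far_gA`** : from 359
* **`ukin_gA`** : `UKin` with `h = 100 η`, strips `19/2 η`, `103/2 η`, window `w = 4 η`, `a0 = -η`,
  `a1 = η`, `b0 = -9 η`, `b1 = 10 η`, `m' = η`
-/

set_option autoImplicit false
set_option linter.unusedSectionVars false

noncomputable section

open scoped Classical

namespace Crest.Agent.R143.UKinZx923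

open Crest.Agent.R143.B0x346 Crest.Agent.R143.DelGx806 Crest.Agent.R143.DelRx806
open Crest.Agent.R143.K33x877 (TrR)
open Crest.Agent.R143.Hexx877 (NegO)
open Crest.Agent.R143.Frame1x395 Crest.Agent.R143.Frame2x395 Crest.Agent.R143.Frame3x395
  Crest.Agent.R143.Frame4x395 Crest.Agent.R143.Frame8x395 Crest.Agent.R143.Frame9x395
  Crest.Agent.R143.Frame10x395 Crest.Agent.R143.Frame11x395
open Crest.Agent.R143.Frame5x395 (sd mem_sd th th_spec)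
open Crest.Agent.R143.FinCx811 (Cs rc0 rcol)
open Crest.Agent.R143.NonXx592 (P)
open Crest.Agent.R143.R5qx166 (AA)
open Crest.Agent.R143.C2SCx395 (st Hl)
open Crest.Agent.R143.OutSx358 (gA ga rr_spec Sys zc ac)
open Crest.Agent.R143.Extx358 (Ext mem_wl' mem_wr')
open Crest.Agent.R143.SysAx168 (EvA evA_uniq)
open Crest.Agent.R143.RingDx117 (RD)
open Crest.Agent.R143.Uniqx323 (Zn)
open Crest.Agent.R143.CorHx713
open Crest.Agent.R143.CorrIx831
open Crest.Agent.R143.Layx416 (Lay g al mi be jj nn)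
open Crest.Agent.R143.LayUx416 (LayU)
open Crest.Agent.R143.PolyUx346 (Poly)
open Crest.Agent.R143.TileRx228 (RR RR_per gz ge)
open Crest.Agent.R143.R10Px923 (Use UKin)
open Crest.Agent.R143.UKinBx571 Crest.Agent.R143.UKinCx571
open Crest.Agent.R143.WLocx713 (sX cX)
open Crest.Agent.R143.RcTx422 (Hc Hc_eq RC)
open Crest.Agent.R143.SepHx697 (BR)
open Crest.Agent.R143.UKinAx359 (Tl)
open Crest.Agent.R143.OutCx571 (Far)
open Crest.Agent.R143.DomAx722 (Dns)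
open Crest.Agent.R143.Brkx478 (cells)

variable {S : Finset ℂ} {hS : GP (S : Set ℂ)} {Rw : Set (Cs hS)} {h₀ : Cs hS}
  {Z : Zn (rc0 hS)} {s : Cs hS → ZMod 2} {q : D0 S} {T : ℕ → ℕ} {N : ℕ} {p : ℕ → D0 S}
  {X : Set (ℂ × Bool)} {U : Set ℂ} {u : Poly} {M mm : ℕ} {p' W : ℤ → ℤ × ℤ} {A e : ℤ → ℤ}
  {η d : ℝ} {i : ZMod 3}

/-! ### the blocking set -/

/-- **the blocking set of the strand is in the tile regions** -/
theorem zc_tl {o : ℤ} {n : ℕ} (H : CorH X U M W η d o n) (hX : sX X = S)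
    (hT : SDS hS s η W o n p q N T)
    (hR1 : ∀ c ∈ Rw, ∃ v ∈ S, v ∈ BR η W M o n ∧ c.1 = Quot.mk _ v) :
    zc (rc0 hS) Rw q (T n) s ⊆ RC hS (Tl (19 / 2 * η) (103 / 2 * η) (100 * η) W) := by
  subst hX
  have n3 : 3 ≤ n := StrBx117.Str.n3 hT
  have key : ∀ t ≤ T n, ∃ a : ℤ, (P (rc0 hS) (cfg (rc0 hS) s) q t).1.1 ∈ bst η W a ∧
      (P (rc0 hS) (cfg (rc0 hS) s) q t).1.2 ∈ bst η W a := by
    intro t ht
    obtain ⟨k, -, h1, h2, h3⟩ := Splx117.arc_of (T := T) (a := 0) (b := n) (u := t) (by omega)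
      (by rw [StrBx117.Str.T0 hT]; exact Nat.zero_le _) ht
    have h4 := StrBx117.Str.arc hT k h1 t h2 h3
    exact ⟨_, h4.1, h4.2⟩
  have mem : ∀ t : ℕ, (P (rc0 hS) (cfg (rc0 hS) s) q t).1.1 ∈ sX X ∧
      (P (rc0 hS) (cfg (rc0 hS) s) q t).1.2 ∈ sX X := fun t => by
    obtain ⟨h1, h2, -⟩ := mem_delT.1 (th_spec (P (rc0 hS) (cfg (rc0 hS) s) q t).2)
    exact ⟨h1, h2⟩
  rintro c ((hc | hc) | ⟨hc, -⟩)
  · obtain ⟨t, ht, rfl⟩ := mem_wl'.1 hc
    obtain ⟨a, h1, -⟩ := key t ht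
    exact ⟨_, (mem t).1, ⟨a, h1⟩, inn_bst H h1, rfl⟩
  · obtain ⟨t, ht, rfl⟩ := mem_wr'.1 hc
    obtain ⟨a, -, h1⟩ := key t ht
    exact ⟨_, (mem t).2, ⟨a, h1⟩, inn_bst H h1, rfl⟩
  · obtain ⟨v, h1, ⟨a, -, -, h2⟩, h3⟩ := hR1 c hc
    exact ⟨v, h1, ⟨a, h2⟩, inn_bst H h2, h3⟩

/-! ### the fields -/

/-- **the fields `rt` and `ng`** -/
theorem rt_gA (h0 : h₀ ∈ Hc hS)
    (Y : Sys (rc0 hS) {h₀} Rw (RD S (Bk η W (al A e i) (Layx416.rr A e i - 1)))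
      (fun (i : D0 S × ℕ) _ => i.1) (fun i _ => i.2)
      (EvA (rc0 hS) {h₀} Rw (RD S (Bk η W (al A e i) (Layx416.rr A e i - 1))) Z))
    (hE : EvA (rc0 hS) {h₀} Rw (RD S (Bk η W (al A e i) (Layx416.rr A e i - 1))) Z
      (q, T (nn A e i)) s) (hac : h₀ ∉ ac (rc0 hS) q (T (nn A e i)) s) :
    ∃ o, TrR S o i (Ag hS h₀ Rw Z η W A e i s) ∧ NegO (Ag hS h₀ Rw Z η W A e i s) o := by
  obtain ⟨G, Rt, -, -, -, -⟩ := Y.main (d₀ := OutSx358.gr (rc0 hS)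
    (RD S (Bk η W (al A e i) (Layx416.rr A e i - 1))) (fun (i : D0 S × ℕ) _ => i.1)
    (fun i _ => i.2) (q, T (nn A e i)) s) (i + 1) ⟨_, hE⟩
  have hl := GoodAx654.hl_gA (k := i + 1) Y (fun c v hv e => by
    rw [← Hc_eq h0]
    exact ⟨v, hv, e⟩) hE (fun c hc => by
    rw [show c = h₀ from hc]
    exact hac)
  obtain ⟨o, h1, h2⟩ := UKinAx359.tri_rt G Rt hl
  rw [z3e] at h1
  exact ⟨o, h1, h2⟩

/-- **the field `outs`** -/
theorem outs_gA (L : LayU u mm M p' W A e) (hh : (mm : ℝ) * (100 * η) = u.s)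
    (H : CorH X U M W η d (al A e i) (nn A e i)) (hX : sX X = S) (h0 : h₀ ∈ Hc hS)
    (hT : SDS hS s η W (al A e i) (nn A e i) p q N T)
    (hE : EvA (rc0 hS) {h₀} Rw (RD S (Bk η W (al A e i) (Layx416.rr A e i - 1))) Z
      (q, T (nn A e i)) s)
    (hR1 : ∀ c ∈ Rw, ∃ v ∈ S, v ∈ BR η W M (al A e i) (nn A e i) ∧ c.1 = Quot.mk _ v)
    {cc : ℂ} {Lr δ : ℝ} (hD : Dns S cc Lr δ) (hδ : δ ≤ 20 * η)
    (hin : ∀ z, Lr - 2 * δ ≤ ‖z - cc‖ → z ∈ Far u.s (3 / 2 * (100 * η)) (cells (u.U : Set _))) :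
    ∀ v ∈ S, (∀ z ∈ u.P, 2 * (100 * η) < |(v - z).re| ∨ 2 * (100 * η) < |(v - z).im|) →
      v ∈ Ag hS h₀ Rw Z η W A e i s i := by
  have h1 := H.e0
  intro v hv hz
  unfold Ag
  rw [gA_AA hE, ← Hc_eq h0]
  have h2 := UKinAx359.outs_aa (k := i + 1) (σ := s) (q := q) (n := T (nn A e i))
    (r := OutSx358.rr (rc0 hS) (cfg (rc0 hS) s) q (T (nn A e i))
      (RD S (Bk η W (al A e i) (Layx416.rr A e i - 1)))) (R := Rw) L hh hD hin
    (A' := 19 / 2 * η) (B' := 103 / 2 * η) (by linarith) (by linarith) (by linarith)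
    (zc_tl H hX hT hR1) v hv hz
  rw [z3e] at h2
  exact h2

/-- **the field `far`** -/
theorem far_gA (L : LayU u mm M p' W A e) (hh : (mm : ℝ) * (100 * η) = u.s)
    (H : CorH X U M W η d (al A e i) (nn A e i)) (h3 : 3 ≤ S.card) (C : Col hS X s)
    (h0 : h₀ ∈ Hc hS)
    (hp : ∀ k : ℕ, (p k).1 = (yy η W X (al A e i + k), xx η W X (al A e i + k)))
    (hT : SDS hS s η W (al A e i) (nn A e i) p q N T)
    (hE : EvA (rc0 hS) {h₀} Rw (RD S (Bk η W (al A e i) (Layx416.rr A e i - 1))) Z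
      (q, T (nn A e i)) s)
    (hR1 : ∀ c ∈ Rw, ∃ v ∈ S, v ∈ BR η W M (al A e i) (nn A e i) ∧ c.1 = Quot.mk _ v)
    (hR2 : ∀ v ∈ S, v ∈ BR η W M (al A e i) (nn A e i) → ∃ c ∈ Rw, c.1 = Quot.mk _ v) :
    ∀ l, ∀ v ∈ Ag hS h₀ Rw Z η W A e i s l, ∀ z ∈ u.P, 100 * η / 2 ≤ ‖v - z‖ := by
  have e0 := H.e0
  obtain rfl : sX X = S := C.e
  have hzc := zc_tl H rfl hT hR1
  obtain rfl := col_eq H.hull h3 C
  have hpe : p = H.p := by
    funext k
    exact Subtype.ext (hp k)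
  subst hpe
  have q1 := L.lay.rr_pos i
  have q2 := L.lay.rr_lt i
  have q4 := L.lay.rr_eq i
  obtain ⟨hf, -⟩ := CorrIx831.back H (r := Layx416.rr A e i) (by omega) (by omega)
    (fun b h1 h2 => (L.lay.run_mi i (by omega) (by omega)).1)
  obtain ⟨k1, G⟩ := RegSx523.sgeo L hh (S := sX X) (A := 9 * η) (B := 51 * η) (b1 := 10 * η)
    (m := η) (ρ := η / 2) (τ := η) (κ := 3 * η) (by linarith) (by linarith) (by linarith)
    (by linarith) e0.le (by linarith) (by linarith) (by linarith) (by linarith) (by linarith)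
    (fun a u v h hu hv => SepHx697.edge_of H a u v h hu hv)
    (fun a s hs hu => SepHx697.inn_of H a s hs hu) i
  have hSt : SepHx697.StH H (RD (sX X) (Rts η W (al A e i) (nn A e i))) q N T :=
    Rstx832.str_restr.1 hT
  have hSp := SepHx697.sepH hSt G hf (R := Rw) hR2
  intro l v hv z hz
  unfold Ag at hv
  rw [gA_AA hE, ← Hc_eq h0] at hv
  exact UKinAx359.far_aa L hh (A0 := 9 * η + η) (A' := 19 / 2 * η) (B' := 103 / 2 * η)
    (B0 := 103 / 2 * η) (by linarith) le_rfl (by linarith) (by linarith) (by linarith)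
    (root hE).1.le hzc hSp.2.1 l v hv z hz

/-- **item (U): `UKin` for 358's giants** -/
theorem ukin_gA (L : LayU u mm M p' W A e) (hh : (mm : ℝ) * (100 * η) = u.s)
    (H : CorH X U M W η d (al A e i) (nn A e i)) (C : Col hS X s) (h0 : h₀ ∈ Hc hS)
    (hp : ∀ k : ℕ, (p k).1 = (yy η W X (al A e i + k), xx η W X (al A e i + k)))
    (hT : SDS hS s η W (al A e i) (nn A e i) p q N T)
    (Y : Sys (rc0 hS) {h₀} Rw (RD S (Bk η W (al A e i) (Layx416.rr A e i - 1)))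
      (fun (i : D0 S × ℕ) _ => i.1) (fun i _ => i.2)
      (EvA (rc0 hS) {h₀} Rw (RD S (Bk η W (al A e i) (Layx416.rr A e i - 1))) Z))
    (hE : EvA (rc0 hS) {h₀} Rw (RD S (Bk η W (al A e i) (Layx416.rr A e i - 1))) Z
      (q, T (nn A e i)) s) (hac : h₀ ∉ ac (rc0 hS) q (T (nn A e i)) s)
    (hR1 : ∀ c ∈ Rw, ∃ v ∈ S, v ∈ BR η W M (al A e i) (nn A e i) ∧ c.1 = Quot.mk _ v)
    (hR2 : ∀ v ∈ S, v ∈ BR η W M (al A e i) (nn A e i) → ∃ c ∈ Rw, c.1 = Quot.mk _ v)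
    {cc : ℂ} {Lr δ : ℝ} (hD : Dns S cc Lr δ) (hδ : δ ≤ 20 * η)
    (hin : ∀ z, Lr - 2 * δ ≤ ‖z - cc‖ → z ∈ Far u.s (3 / 2 * (100 * η)) (cells (u.U : Set _))) :
    ∃ o, UKin S (Ag hS h₀ Rw Z η W A e i s) o i u.P (100 * η) (19 / 2 * η) (103 / 2 * η) (4 * η)
      (-η) η (-(9 * η)) (10 * η) η W A e := by
  have h3 : 3 ≤ S.card := hD.card
  obtain ⟨o, h1, h2⟩ := rt_gA h0 Y hE hac
  exact ⟨o, {
    rt := h1
    ng := h2
    far := far_gA L hh H h3 C h0 hp hT hE hR1 hR2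
    outs := outs_gA L hh H C.e h0 hT hE hR1 hD hδ hin
    reg := reg_gA L.lay H C.e hT hE
    low := UKLowx568.low_gA L hh H h3 C h0 hp hT hE hR1 hR2 le_rfl le_rfl
    nk := UKLowx568.nk_gA L hh H h3 C h0 hp hT hE hR1 hR2 }⟩

end Crest.Agent.R143.UKinZx923
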