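import Crest.Agent.R143.RevQ_352
import Crest.Agent.R143.RWr_355

/-!
# Row 143 (S0194), block H, P2 (helper357): the strand and its pieces in the ring

* `run Reg a b` : the cells of the tiles `a, .., b - 1`; `run_dis` : disjoint runs
* **`arc_run`** : the ring loop (355's `RLW`) is an arc of 535 (`IsArc`) in every run of tiles
* `arc_le`, `start_eq`, `end_eq` : arcs of different runs
* `strand` : the strand of a state of a run is this arc; `mem_full` : its cells
* **`cov`** : a cell of the strand is a cell of a piece or in a tile of no piece (352's `RgP.cov`)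
-/

set_option autoImplicit false
set_option linter.unusedSectionVars false

noncomputable section

open scoped Classical

namespace Crest.Agent.R143.UniQx357

open Crest.Agent.R143.Frame1x395 Crest.Agent.R143.Frame2x395 Crest.Agent.R143.Frame3x395
  Crest.Agent.R143.Frame4x395 Crest.Agent.R143.Frame8x395 Crest.Agent.R143.NonXx592
  Crest.Agent.R143.Coarsex166 Crest.Agent.R143.CFramex358 Crest.Agent.R143.Runx535
  Crest.Agent.R143.Gntx535 Crest.Agent.R143.StrUx535
  Crest.Agent.R143.Winx355 Crest.Agent.R143.RWrx355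

open Crest.Agent.R143.Strandx535 (Sd mem_Sd str_refl str_symm str_trans Str)
open Crest.Agent.R143.RevPx352 (Arc Ss)

variable {D C : Type} [Fintype D] {M : CMap D C} {ψ : C → ZMod 2} {P₀ : D} {N n : ℕ} {T : ℕ → ℕ}
  {Reg : ℕ → Set C}

/-! ### runs of tiles -/

/-- the cells of the tiles `a, .., b - 1` -/
def run (Reg : ℕ → Set C) (a b : ℕ) : Set C := {c | ∃ k, a ≤ k ∧ k < b ∧ c ∈ Reg k}

theorem run_mono {a b a' b' : ℕ} (ha : a' ≤ a) (hb : b ≤ b') : run Reg a b ⊆ run Reg a' b' := by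
  rintro c ⟨k, h1, h2, h3⟩
  exact ⟨k, by omega, by omega, h3⟩

/-- disjoint runs -/
theorem run_dis (R : RL M (cfg M ψ) P₀ N n T Reg) {a b a' b' : ℕ} (h : b < a') (h' : b' < a + n)
    {c : C} (h1 : c ∈ run Reg a b) : c ∉ run Reg a' b' := by
  obtain ⟨k, k1, k2, k3⟩ := h1
  rintro ⟨k', j1, j2, j3⟩
  have h2 := R.dis k (k' - k) (by omega) (by omega)
  rw [Nat.add_sub_cancel' (show k ≤ k' by omega)] at h2
  exact Set.disjoint_left.1 h2 k3 j3

variable (R : RLW M ψ P₀ N n T Reg)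
include R

theorem rd_mem {a b t : ℕ} (hab : a < b) (h1 : T a ≤ t) (h2 : t ≤ T b) :
    P M (cfg M ψ) P₀ t ∈ Rd M (run Reg a b) := by
  obtain ⟨k, k1, k2⟩ := R.toRL.tile t
  have hk : a ≤ k := by
    by_contra hc
    have := R.mono.monotone (show k + 1 ≤ a by omega)
    omega
  rcases Nat.lt_or_ge k b with h3 | h3
  · have h4 := R.tile2 k t k1 k2.le
    exact ⟨⟨k, hk, h3, h4.1⟩, ⟨k, hk, h3, h4.2⟩⟩
  · have h4 := R.mono.monotone h3
    have h5 : t = T b := by omega
    have h6 := R.mono.monotone (show b - 1 ≤ b by omega)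
    have h7 := R.tile2 (b - 1) t (by omega) (by rw [show b - 1 + 1 = b by omega]; omega)
    exact ⟨⟨b - 1, by omega, by omega, h7.1⟩, ⟨b - 1, by omega, by omega, h7.2⟩⟩

theorem rd_not_l {a b : ℕ} (ha : 1 ≤ a) (hn : b + 3 ≤ a + n) (hab : a < b) :
    P M (cfg M ψ) P₀ (T (a - 1)) ∉ Rd M (run Reg a b) := by
  rintro ⟨⟨k, k1, k2, k3⟩, -⟩
  have e1 : P M (cfg M ψ) P₀ (T (a - 1 + n)) = P M (cfg M ψ) P₀ (T (a - 1)) := by
    rw [R.per, P_add]
    have : P M (cfg M ψ) P₀ N = P₀ := R.L.per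
    rw [this]
  have h1 := (R.tile2 (a + n - 2) (T (a - 1 + n)) (R.mono.monotone (by omega))
    (by rw [show a + n - 2 + 1 = a - 1 + n by omega])).1
  rw [e1] at h1
  have h2 := R.dis k (a + n - 2 - k) (by omega) (by omega)
  rw [Nat.add_sub_cancel' (show k ≤ a + n - 2 by omega)] at h2
  exact Set.disjoint_left.1 h2 k3 h1

theorem rd_not_r {a b : ℕ} (hn : b + 3 ≤ a + n) :
    P M (cfg M ψ) P₀ (T (b + 1)) ∉ Rd M (run Reg a b) := by
  rintro ⟨⟨k, k1, k2, k3⟩, -⟩
  have h1 := (R.tile2 (b + 1) (T (b + 1)) le_rfl (R.mono.monotone (by omega))).1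
  have h2 := R.dis k (b + 1 - k) (by omega) (by omega)
  rw [Nat.add_sub_cancel' (show k ≤ b + 1 by omega)] at h2
  exact Set.disjoint_left.1 h2 k3 h1

/-- **the ring loop is an arc in every run of tiles** -/
theorem arc_run {a b : ℕ} (ha : 1 ≤ a) (hab : a < b) (hn : b + 3 ≤ a + n) :
    ∃ s t, T (a - 1) < s ∧ s ≤ T a ∧ T b ≤ t ∧ t < T (b + 1) ∧
      IsArc M (cfg M ψ) (run Reg a b) (P M (cfg M ψ) P₀ s) (t - s) := by
  have hx : IsC M ∅ (cfg M ψ) := cfg_isC ψ
  have hTab : T a < T b := R.mono hab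
  -- the start
  have hs : ∃ s, ∀ u, s ≤ u → u ≤ T a → P M (cfg M ψ) P₀ u ∈ Rd M (run Reg a b) :=
    ⟨T a, fun u h1 h2 => rd_mem R hab h1 (by omega)⟩
  set s := Nat.find hs with hsd
  have s1 := Nat.find_spec hs
  have s2 : s ≤ T a := Nat.find_min' hs fun u h1 h2 => rd_mem R hab h1 (by omega)
  have s3 : T (a - 1) < s := by
    by_contra hc
    exact rd_not_l R ha hn hab (s1 _ (by omega) (R.mono.monotone (by omega)))
  -- the end
  have ht : ∃ u, T b ≤ u ∧ P M (cfg M ψ) P₀ u ∉ Rd M (run Reg a b) :=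
    ⟨T (b + 1), R.mono.monotone (by omega), rd_not_r R hn⟩
  set t' := Nat.find ht with htd
  obtain ⟨t1, t2⟩ := Nat.find_spec ht
  have t3 : t' ≤ T (b + 1) := Nat.find_min' ht ⟨R.mono.monotone (by omega), rd_not_r R hn⟩
  have t4 : T b < t' := by
    rcases Nat.lt_or_ge (T b) t' with h | h
    · exact h
    · exfalso
      have : t' = T b := by omega
      apply t2
      rw [← htd, this]
      exact rd_mem R hab hTab.le le_rfl
  have all : ∀ u, s ≤ u → u < t' → P M (cfg M ψ) P₀ u ∈ Rd M (run Reg a b) := by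
    intro u h1 h2
    rcases le_or_gt u (T a) with h3 | h3
    · exact s1 u h1 h3
    · rcases le_or_gt u (T b) with h4 | h4
      · exact rd_mem R hab h3.le h4
      · by_contra hc
        exact Nat.find_min ht h2 ⟨h4.le, hc⟩
  refine ⟨s, t' - 1, s3, s2, by omega, by omega, ⟨hx, P_occ hx R.L.occ s, fun j hj => ?_, ?_, ?_⟩⟩
  · rw [← P_add]
    exact all _ (by omega) (by omega)
  · rw [show s = (s - 1) + 1 by omega, pv_succ hx R.L.occ]
    intro hc
    refine Nat.find_min hs (m := s - 1) (by omega) fun u h1 h2 => ?_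
    rcases Nat.lt_or_ge u s with h3 | h3
    · have : u = s - 1 := by omega
      rw [this]
      exact hc
    · exact s1 u h3 h2
  · rw [← P_add, show t' - 1 - s + 1 + s = t' by omega]
    exact t2

/-- the arc of a larger run is longer -/
theorem arc_le {a b a' b' s t s' t' : ℕ} (ha : a' ≤ a) (hab : a < b) (hb : b ≤ b')
    (h1 : s ≤ T a) (h2 : T b ≤ t)
    (A : IsArc M (cfg M ψ) (run Reg a b) (P M (cfg M ψ) P₀ s) (t - s))
    (g0 : 0 < s') (g1 : s' ≤ T a') (g2 : T b' ≤ t')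
    (A' : IsArc M (cfg M ψ) (run Reg a' b') (P M (cfg M ψ) P₀ s') (t' - s')) :
    s' ≤ s ∧ t ≤ t' := by
  have hx : IsC M ∅ (cfg M ψ) := cfg_isC ψ
  have m1 := R.mono.monotone ha
  have m2 := R.mono.monotone hb
  have m3 := R.mono hab
  have sub : Rd M (run Reg a b) ⊆ Rd M (run Reg a' b') := fun q hq =>
    ⟨run_mono ha hb hq.1, run_mono ha hb hq.2⟩
  constructor
  · by_contra hc
    apply A'.bef
    rw [show s' = (s' - 1) + 1 by omega, pv_succ hx R.L.occ]
    have h3 := A.mem (s' - 1 - s) (by omega)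
    rw [← P_add, show s' - 1 - s + s = s' - 1 by omega] at h3
    exact sub h3
  · by_contra hc
    apply A'.aft
    have h3 := A.mem (t' + 1 - s) (by omega)
    rw [← P_add, show t' + 1 - s + s = t' + 1 by omega] at h3
    rw [← P_add, show t' - s' + 1 + s' = t' + 1 by omega]
    exact sub h3

/-- the states of the arc before the first tile are in the first tile -/
theorem reg_l {a b s t u : ℕ} (hn : b + 3 ≤ a + n) (ha : 1 ≤ a) (hs : T (a - 1) < s)
    (A : IsArc M (cfg M ψ) (run Reg a b) (P M (cfg M ψ) P₀ s) (t - s)) (h1 : s ≤ u) (h2 : u ≤ t)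
    (h3 : u ≤ T a) : M.cell (P M (cfg M ψ) P₀ u) ∈ Reg a ∧ Rc M (P M (cfg M ψ) P₀ u) ∈ Reg a := by
  have h4 := A.mem (u - s) (by omega)
  rw [← P_add, Nat.sub_add_cancel h1] at h4
  have h5 := R.tile2 (a - 1) u (by omega) (by rw [Nat.sub_add_cancel ha]; exact h3)
  have key : ∀ c, c ∈ run Reg a b → c ∈ Reg (a - 1) → c ∈ Reg a := by
    rintro c ⟨k, k1, k2, k3⟩ hc
    rcases Nat.eq_or_lt_of_le k1 with e | h6
    · rw [e]; exact k3
    · exfalso
      have h7 := R.dis (a - 1) (k - (a - 1)) (by omega) (by omega)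
      rw [Nat.add_sub_cancel' (show a - 1 ≤ k by omega)] at h7
      exact Set.disjoint_left.1 h7 hc k3
  exact ⟨key _ h4.1 h5.1, key _ h4.2 h5.2⟩

/-- the states of the arc after the last tile are in the last tile -/
theorem reg_r {a b s t u : ℕ} (hn : b + 3 ≤ a + n) (ht : t < T (b + 1))
    (A : IsArc M (cfg M ψ) (run Reg a b) (P M (cfg M ψ) P₀ s) (t - s)) (h1 : s ≤ u) (h2 : u ≤ t)
    (h3 : T b ≤ u) :
    M.cell (P M (cfg M ψ) P₀ u) ∈ Reg (b - 1) ∧ Rc M (P M (cfg M ψ) P₀ u) ∈ Reg (b - 1) := by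
  have h4 := A.mem (u - s) (by omega)
  rw [← P_add, Nat.sub_add_cancel h1] at h4
  have h5 := R.tile2 b u h3 (by omega)
  have key : ∀ c, c ∈ run Reg a b → c ∈ Reg b → c ∈ Reg (b - 1) := by
    rintro c ⟨k, k1, k2, k3⟩ hc
    rcases Nat.eq_or_lt_of_le (show k ≤ b - 1 by omega) with e | h6
    · rw [← e]; exact k3
    · exfalso
      have h7 := R.dis k (b - k) (by omega) (by omega)
      rw [Nat.add_sub_cancel' (show k ≤ b by omega)] at h7
      exact Set.disjoint_left.1 h7 k3 hc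
  exact ⟨key _ h4.1 h5.1, key _ h4.2 h5.2⟩

/-- same start if the first tiles are the same -/
theorem start_eq {a b b' s t s' t' : ℕ} (ha : 1 ≤ a) (hab : a < b) (hb : b ≤ b')
    (hn : b' + 3 ≤ a + n) (h0 : T (a - 1) < s) (h1 : s ≤ T a) (h2 : T b ≤ t)
    (A : IsArc M (cfg M ψ) (run Reg a b) (P M (cfg M ψ) P₀ s) (t - s))
    (g0 : T (a - 1) < s') (g1 : s' ≤ T a) (g2 : T b' ≤ t')
    (A' : IsArc M (cfg M ψ) (run Reg a b') (P M (cfg M ψ) P₀ s') (t' - s')) : s = s' := by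
  have hx : IsC M ∅ (cfg M ψ) := cfg_isC ψ
  have m2 := R.mono.monotone hb
  have m3 := R.mono hab
  have h5 := (arc_le R le_rfl hab hb h1 h2 A (by omega) g1 g2 A').1
  by_contra hc
  apply A.bef
  rw [show s = (s - 1) + 1 by omega, pv_succ hx R.L.occ]
  have h6 := reg_l R hn ha g0 A' (u := s - 1) (by omega) (by omega) (by omega)
  exact ⟨⟨a, le_rfl, hab, h6.1⟩, ⟨a, le_rfl, hab, h6.2⟩⟩

/-- same end if the last tiles are the same -/
theorem end_eq {a a' b s t s' t' : ℕ} (ha : a' ≤ a) (hab : a < b)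
    (hn : b + 3 ≤ a' + n) (h1 : s ≤ T a) (h2 : T b ≤ t)
    (A : IsArc M (cfg M ψ) (run Reg a b) (P M (cfg M ψ) P₀ s) (t - s))
    (g0 : 0 < s') (g1 : s' ≤ T a') (g2 : T b ≤ t') (g3 : t' < T (b + 1))
    (A' : IsArc M (cfg M ψ) (run Reg a' b) (P M (cfg M ψ) P₀ s') (t' - s')) : t = t' := by
  have m2 := R.mono.monotone ha
  have m3 := R.mono hab
  have h5 := (arc_le R ha hab le_rfl h1 h2 A g0 g1 g2 A').2
  by_contra hc
  apply A.aft
  rw [← P_add, show t - s + 1 + s = t + 1 by omega]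
  have h6 := reg_r R hn g3 A' (u := t + 1) (by omega) (by omega) (by omega)
  exact ⟨⟨b - 1, by omega, by omega, h6.1⟩, ⟨b - 1, by omega, by omega, h6.2⟩⟩

/-- the strand of a state of the arc is the arc -/
theorem strand {a b s t : ℕ}
    (A : IsArc M (cfg M ψ) (run Reg a b) (P M (cfg M ψ) P₀ s) (t - s)) {u : ℕ} (h1 : s ≤ u)
    (h2 : u ≤ t) : Arc M (run Reg a b) (P M (cfg M ψ) P₀ u) ψ (P M (cfg M ψ) P₀ s) (t - s) := by
  have hx : IsC M ∅ (cfg M ψ) := cfg_isC ψ
  have e : P M (cfg M ψ) (P M (cfg M ψ) P₀ s) (u - s) = P M (cfg M ψ) P₀ u := by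
    rw [← P_add, Nat.sub_add_cancel h1]
  refine ⟨P_occ hx R.L.occ u, A, ?_⟩
  rw [← e]
  exact (A.iff (by omega)).2 ⟨0, Nat.zero_le _, rfl⟩

omit R in
/-- the states of the strand -/
theorem mem_ss {a b s t : ℕ} {d : D}
    (A : Arc M (run Reg a b) d ψ (P M (cfg M ψ) P₀ s) (t - s)) (hst : s ≤ t) {q : D} :
    q ∈ Ss M (run Reg a b) d ψ ↔ ∃ v, s ≤ v ∧ v ≤ t ∧ P M (cfg M ψ) P₀ v = q := by
  have h1 : q ∈ Ss M (run Reg a b) d ψ ↔
      ∃ i ≤ t - s, P M (cfg M ψ) (P M (cfg M ψ) P₀ s) i = q := A.arc.iff' A.occ A.str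
  rw [h1]
  constructor
  · rintro ⟨i, hi, e⟩
    exact ⟨i + s, by omega, by omega, by rw [P_add]; exact e⟩
  · rintro ⟨v, h3, h4, e⟩
    exact ⟨v - s, by omega, by rw [← P_add, Nat.sub_add_cancel h3]; exact e⟩

omit R in
/-- the cells of the strand -/
theorem mem_sd {a b s t : ℕ} {d : D}
    (A : Arc M (run Reg a b) d ψ (P M (cfg M ψ) P₀ s) (t - s)) (hst : s ≤ t) {c : C} :
    c ∈ Sd M d (run Reg a b) ψ ↔ ∃ v, s ≤ v ∧ v ≤ t ∧
      (M.cell (P M (cfg M ψ) P₀ v) = c ∨ Rc M (P M (cfg M ψ) P₀ v) = c) := by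
  rw [A.arc.sd A.occ A.str, Finset.mem_union, mem_wl, mem_wr]
  constructor
  · rintro (⟨j, hj, e⟩ | ⟨j, hj, e⟩)
    · exact ⟨j + s, by omega, by omega, Or.inl (by rw [P_add]; exact e)⟩
    · exact ⟨j + s, by omega, by omega, Or.inr (by rw [P_add]; exact e)⟩
  · rintro ⟨v, h3, h4, e | e⟩
    · refine Or.inl ⟨v - s, by omega, ?_⟩
      rw [← P_add, Nat.sub_add_cancel h3]; exact e
    · refine Or.inr ⟨v - s, by omega, ?_⟩
      rw [← P_add, Nat.sub_add_cancel h3]; exact e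

/-- **the arc of a run and its strands** -/
theorem arc_st {a b u : ℕ} (ha : 1 ≤ a) (hab : a < b) (hn : b + 3 ≤ a + n) (h1 : T a ≤ u)
    (h2 : u ≤ T b) : ∃ s t, T (a - 1) < s ∧ s ≤ T a ∧ T b ≤ t ∧ t < T (b + 1) ∧ s ≤ t ∧
      Arc M (run Reg a b) (P M (cfg M ψ) P₀ u) ψ (P M (cfg M ψ) P₀ s) (t - s) := by
  obtain ⟨s, t, s1, s2, s3, s4, A⟩ := arc_run R ha hab hn
  exact ⟨s, t, s1, s2, s3, s4, by omega, strand R A (by omega) (by omega)⟩

/-! ### the pieces of the ring -/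

variable {ι : Type} {a b u : ι → ℕ} {a' b' u' : ℕ}

/-- **the cells of the strand are cells of a piece or in a tile of no piece** -/
theorem cov (hab : ∀ i, a i < b i) (h1 : ∀ i, T (a i) ≤ u i)
    (h2 : ∀ i, u i ≤ T (b i)) (ha' : 1 ≤ a') (hab' : a' < b') (hn' : b' + 3 ≤ a' + n)
    (h1' : T a' ≤ u') (h2' : u' ≤ T b') (ia : ∀ i, a' ≤ a i) (ib : ∀ i, b i ≤ b') {c : C}
    (hc : c ∈ Sd M (P M (cfg M ψ) P₀ u') (run Reg a' b') ψ) :
    (∃ i, c ∈ Sd M (P M (cfg M ψ) P₀ (u i)) (run Reg (a i) (b i)) ψ) ∨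
      ∃ k, a' ≤ k ∧ k < b' ∧ (∀ i, ¬ (a i ≤ k ∧ k < b i)) ∧ c ∈ Reg k := by
  obtain ⟨s', t', s1', s2', s3', s4', st', A'⟩ := arc_st R ha' hab' hn' h1' h2'
  obtain ⟨v, v1, v2, hv⟩ := (mem_sd A' st').1 hc
  have m' := R.mono hab'
  -- the tile of the time
  obtain ⟨k, k1, k2, k3, k4⟩ : ∃ k, a' ≤ k ∧ k < b' ∧ (T k ≤ v ∨ k = a') ∧
      (v ≤ T (k + 1) ∨ k + 1 = b') := by
    obtain ⟨k, h3, h4⟩ := R.toRL.tile v
    rcases Nat.lt_or_ge k a' with h5 | h5
    · refine ⟨a', le_rfl, hab', Or.inr rfl, Or.inl ?_⟩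
      have := R.mono.monotone (show k + 1 ≤ a' + 1 by omega)
      omega
    · rcases Nat.lt_or_ge k b' with h6 | h6
      · exact ⟨k, h5, h6, Or.inl h3, Or.inl h4.le⟩
      · refine ⟨b' - 1, by omega, by omega, Or.inl ?_, Or.inr (by omega)⟩
        have := R.mono.monotone (show b' - 1 ≤ k by omega)
        omega
  -- the cells are in this tile
  have hreg : M.cell (P M (cfg M ψ) P₀ v) ∈ Reg k ∧ Rc M (P M (cfg M ψ) P₀ v) ∈ Reg k := by
    rcases Nat.lt_or_ge v (T k) with h3 | h3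
    · have e : k = a' := by
        rcases k3 with h4 | h4
        · omega
        · exact h4
      subst e
      exact reg_l R hn' ha' s1' A'.arc v1 v2 h3.le
    · rcases Nat.lt_or_ge (T (k + 1)) v with h4 | h4
      · have e : k + 1 = b' := by
          rcases k4 with h5 | h5
          · omega
          · exact h5
        subst e
        have := reg_r R hn' s4' A'.arc v1 v2 h4.le
        rwa [Nat.add_sub_cancel] at this
      · exact R.tile2 k v h3 h4
  have hck : c ∈ Reg k := by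
    rcases hv with e | e
    · rw [← e]; exact hreg.1
    · rw [← e]; exact hreg.2
  by_cases hex : ∃ i, a i ≤ k ∧ k < b i
  · left
    obtain ⟨i, i1, i2⟩ := hex
    have iai := ia i
    have ibi := ib i
    obtain ⟨s, t, s1, s2, s3, s4, st, A⟩ := arc_st R (show 1 ≤ a i by omega) (hab i)
      (show b i + 3 ≤ a i + n by omega) (h1 i) (h2 i)
    have m := R.mono (hab i)
    have g1 : s ≤ v := by
      rcases k3 with h3 | h3
      · have := R.mono.monotone i1
        omega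
      · have e : a i = a' := by omega
        have h4 := A'.arc
        rw [← e] at h4
        have h5 := start_eq R (by omega) (hab i) (ib i) (by rw [e]; exact hn') s1 s2 s3 A.arc
          (by rw [e]; exact s1') (by rw [e]; exact s2') s3' h4
        omega
    have g2 : v ≤ t := by
      rcases k4 with h3 | h3
      · have := R.mono.monotone (show k + 1 ≤ b i by omega)
        omega
      · have e : b i = b' := by omega
        have h4 := A'.arc
        rw [← e] at h4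
        have h5 := end_eq R (ia i) (hab i) (by rw [e]; exact hn') s2 s3 A.arc (by omega)
          s2' (by rw [e]; exact s3') (by rw [e]; exact s4') h4
        omega
    exact ⟨i, (mem_sd A st).2 ⟨v, g1, g2, hv⟩⟩
  · right
    push Not at hex
    exact ⟨k, k1, k2, fun i hi => absurd hi.2 (by have := hex i hi.1; omega), hck⟩

end Crest.Agent.R143.UniQx357
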