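import Crest.Agent.R143.Uniq_323
import Crest.Agent.R143.Strand_535
import Crest.Agent.R143.Ext_358

/-!
# Row 143 (S0194), RIG: uniqueness of the out strand on the names of Strand_535 / Ev_903 (helper323)

* `Ev M Rt Ez Wz Tz Kc d s` : `d` is a state of a strand inside the fixed set `Rt` which leaves `Rt`
  forward into `Wz`, backward into `Ez`, with a white column in `Kc ⊆ Rt` from a right cell to `Tz`
* `Fx` : the fixed data: `Ez`, `Wz`, `Tz` connected, `Rt`, `Ez`, `Wz`, `Tz` disjoint, `Kc ⊆ Rt`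
* `Ev.list` : the strand is the arc `P e 0 .. P e n` and `Strd .. e n` holds
* **`uniq_str`** : `Ev d s → Ev d' s → Str d d'`; `uniq_Sd` : same revealed cells;
  `uniq_list` : same first state and same length
-/

set_option autoImplicit false

noncomputable section

open scoped Classical

namespace Crest.Agent.R143.UniqSx323

open Crest.Agent.R143.Frame1x395 Crest.Agent.R143.Frame2x395 Crest.Agent.R143.Frame3x395
  Crest.Agent.R143.Frame8x395 Crest.Agent.R143.NonXx592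
  Crest.Agent.R143.Coarsex166 Crest.Agent.R143.Runx535 Crest.Agent.R143.Gntx535
  Crest.Agent.R143.K33x137 Crest.Agent.R143.Strandx535 Crest.Agent.R143.Uniqx323
  Crest.Agent.R143.Extx358

variable {D C : Type} {M : CMap D C} {Rt Ez Wz Tz Kc : Set C} {s : C → ZMod 2} {d d' : D}

/-- the fixed data -/
structure Fx (M : CMap D C) (Rt Ez Wz Tz Kc : Set C) : Prop where
  cE : Cn M Ez
  cW : Cn M Wz
  cT : Cn M Tz
  RE : Disjoint Rt Ez
  RW : Disjoint Rt Wz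
  RT : Disjoint Rt Tz
  EW : Disjoint Ez Wz
  ET : Disjoint Ez Tz
  WT : Disjoint Wz Tz
  KR : Kc ⊆ Rt

/-- the event that the strand of `d` is the good one -/
structure Ev (M : CMap D C) (Rt Ez Wz Tz Kc : Set C) (d : D) (s : C → ZMod 2) : Prop where
  occ : cfg M s d = 1
  blk : s (M.cell d) = 1
  l : M.cell d ∈ Rt
  r : Rc M d ∈ Rt
  fwd : ∃ q, Str M (cfg M s) Rt d q ∧ M.cell (M.rho (M.rho q)) ∈ Wz
  bwd : ∃ q, Str M (cfg M s) Rt d q ∧ M.cell (M.rho (M.rho (M.iota q))) ∈ Ez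
  col : ∃ q, Str M (cfg M s) Rt d q ∧ ∃ a, ∃ t ∈ Tz,
    Relation.ReflTransGen (fun a b => Ad M a b ∧ b ∈ Kc ∧ s b = 0) (Rc M q) a ∧ Ad M a t

/-- the zones of `Uniq_323`; the column may use the whole set `Rt` -/
def Fx.zn (F : Fx M Rt Ez Wz Tz Kc) : Zn M where
  R := Rt
  K := Rt
  E := Ez
  W := Wz
  T := Tz
  KR := subset_rfl
  cE := F.cE
  cW := F.cW
  cT := F.cT
  RE := F.RE
  RW := F.RW
  RT := F.RT
  EW := F.EW
  ET := F.ET
  WT := F.WT

theorem ed_of_ad {a b : C} (h : Ad M a b) : Ed M a b := by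
  obtain ⟨d, -, h1, h2⟩ := h
  exact ⟨d, h1, h2⟩

variable [Fintype D]

/-- **the strand of the event is an arc which satisfies `Strd`** -/
theorem Ev.list (F : Fx M Rt Ez Wz Tz Kc) (h : Ev M Rt Ez Wz Tz Kc d s) :
    ∃ (e : D) (n : ℕ), (∀ q, Str M (cfg M s) Rt d q ↔ ∃ j ≤ n, P M (cfg M s) e j = q) ∧
      Strd M F.zn 1 s e n := by
  have hC : IsC M ∅ (cfg M s) := cfg_isC s
  obtain ⟨qf, hqf, hqf'⟩ := h.fwd
  have ho : ∃ q, Str M (cfg M s) Rt d q ∧ ¬ fc M Rt q :=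
    ⟨qf, hqf, fun hf => Set.disjoint_left.1 F.RW hf.2.2 hqf'⟩
  obtain ⟨e, n, he, hl, hfc, -, -, -⟩ := str_list hC h.occ ho
  -- all the states have both cells in `Rt`
  have hcell : ∀ j ≤ n, M.cell (P M (cfg M s) e j) ∈ Rt ∧ Rc M (P M (cfg M s) e j) ∈ Rt := by
    intro j hj
    have hs := (hl _).2 ⟨j, hj, rfl⟩
    exact ⟨Sd_sub h.occ h.l h.r ((mem_Sd h.occ).2 ⟨_, hs, Or.inl rfl⟩),
      Sd_sub h.occ h.l h.r ((mem_Sd h.occ).2 ⟨_, hs, Or.inr rfl⟩)⟩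
  -- the left cells are black
  obtain ⟨j₀, hj₀, ed⟩ := (hl d).1 (str_refl d)
  have hbl : s (M.cell e) = 1 := by
    have h1 : s (M.cell (P M (cfg M s) e j₀)) = s (M.cell e) :=
      wl_col he (mem_wl.2 ⟨j₀, le_rfl, rfl⟩)
    rw [ed, h.blk] at h1
    exact h1.symm
  have hex : M.cell (M.rho (M.rho (P M (cfg M s) e n))) ∈ Wz := by
    obtain ⟨j, hj, ej⟩ := (hl qf).1 hqf
    rcases Nat.lt_or_ge j n with hlt | hge
    · exfalso
      have := (hfc j hlt).2.2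
      rw [ej] at this
      exact Set.disjoint_left.1 F.RW this hqf'
    · obtain rfl : j = n := le_antisymm hj hge
      rw [ej]; exact hqf'
  have hent : M.cell (M.rho (M.rho (M.iota e))) ∈ Ez := by
    obtain ⟨qb, hqb, hqb'⟩ := h.bwd
    obtain ⟨j, hj, ej⟩ := (hl qb).1 hqb
    rcases Nat.eq_zero_or_pos j with rfl | hpos
    · have : e = qb := ej
      rw [this]; exact hqb'
    · exfalso
      have hf := hfc (j - 1) (by omega)
      rw [← fc_rev hC (P_occ hC he _), ← P_succ, show j - 1 + 1 = j by omega, ej] at hf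
      exact Set.disjoint_left.1 F.RE hf.2.2 hqb'
  refine ⟨e, n, hl, ⟨hbl, he, hent, fun j hj => (hcell j hj).1, fun j hj => (hcell j hj).2,
    hex, ?_⟩⟩
  -- the column
  obtain ⟨q, hq, a, t, ht, hpath, hat⟩ := h.col
  obtain ⟨j, hj, ej⟩ := (hl q).1 hq
  refine ⟨j, hj, t, ht, ?_⟩
  rw [ej]
  have hs0 : s (Rc M q) = 0 := by
    have h1 : s (Rc M (P M (cfg M s) e j)) = s (M.cell e) + 1 :=
      wr_col he (mem_wr.2 ⟨j, le_rfl, rfl⟩)
    rw [ej, hbl] at h1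
    rw [h1]; decide
  have hqR : Rc M q ∈ Rt := by
    rw [← ej]; exact (hcell j hj).2
  have h11 : (1 : ZMod 2) + 1 = 0 := by decide
  have key : ∀ c, Relation.ReflTransGen (fun a b => Ad M a b ∧ b ∈ Kc ∧ s b = 0) (Rc M q) c →
      c ∈ ({c | c ∈ F.zn.K ∧ s c = 1 + 1} ∪ F.zn.T : Set C) ∧
      Lk M ({c | c ∈ F.zn.K ∧ s c = 1 + 1} ∪ F.zn.T) (Rc M q) c := by
    intro c hc
    induction hc with
    | refl =>
      refine ⟨Or.inl ⟨hqR, ?_⟩, Relation.EqvGen.refl _⟩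
      rw [h11]; exact hs0
    | tail _ hbc ih =>
      obtain ⟨g1, g2, g3⟩ := hbc
      have hm : _ ∈ ({c | c ∈ F.zn.K ∧ s c = 1 + 1} ∪ F.zn.T : Set C) :=
        Or.inl ⟨F.KR g2, by rw [h11]; exact g3⟩
      have hE := Lk.edge ih.1 hm (ed_of_ad g1)
      exact ⟨hm, ih.2.trans' hE⟩
  obtain ⟨ha, hla⟩ := key a hpath
  have hE : Lk M ({c | c ∈ F.zn.K ∧ s c = 1 + 1} ∪ F.zn.T) a t :=
    Lk.edge ha (Or.inr ht) (ed_of_ad hat)
  exact hla.trans' hE

/-- **uniqueness, list form** : same first state, same length -/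
theorem uniq_list (F : Fx M Rt Ez Wz Tz Kc) (h : Ev M Rt Ez Wz Tz Kc d s)
    (h' : Ev M Rt Ez Wz Tz Kc d' s) :
    ∃ (e : D) (n : ℕ), (∀ q, Str M (cfg M s) Rt d q ↔ ∃ j ≤ n, P M (cfg M s) e j = q) ∧
      (∀ q, Str M (cfg M s) Rt d' q ↔ ∃ j ≤ n, P M (cfg M s) e j = q) ∧
      Strd M F.zn 1 s e n := by
  obtain ⟨e, n, h1, h2⟩ := h.list F
  obtain ⟨e', n', h3, h4⟩ := h'.list F
  obtain ⟨rfl, rfl⟩ := uniq h2 h4
  exact ⟨e, n, h1, h3, h2⟩

/-- **uniqueness of the out strand** -/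
theorem uniq_str (F : Fx M Rt Ez Wz Tz Kc) (h : Ev M Rt Ez Wz Tz Kc d s)
    (h' : Ev M Rt Ez Wz Tz Kc d' s) : Str M (cfg M s) Rt d d' := by
  obtain ⟨e, n, h1, h2, -⟩ := uniq_list F h h'
  exact (h1 d').2 ((h2 d').1 (str_refl d'))

/-- same revealed cells -/
theorem uniq_Sd (F : Fx M Rt Ez Wz Tz Kc) (h : Ev M Rt Ez Wz Tz Kc d s)
    (h' : Ev M Rt Ez Wz Tz Kc d' s) : Sd M d Rt s = Sd M d' Rt s :=
  (Sd_eq h.occ (uniq_str F h h')).symm

end Crest.Agent.R143.UniqSx323
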