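import Crest.Agent.R143.ZnQ3_323

/-!
# Row 143 (S0194), RIG box Q2: 323's `Up` at a good environment (helper117)

* **`up_env`** : `Up η d W X G h₀` for every configuration `X` with the sites `SU u ε ω` and `CorH`, every
  gate `G` with `A k + 4 ≤ G`, `G + 3 ≤ A (k + 1)`, every hull site `h₀`
* `up_o4`, `up_on4` : the columns at the gates `o + 4`, `o + n - 4` of 416's layout
-/

set_option autoImplicit false
set_option linter.unusedSectionVars false

noncomputable section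

open scoped Classical

namespace Crest.Agent.R143.UpEx117

open Crest.ProbabilityR.Voronoi
open Crest.Agent.R143.B0x346 Crest.Agent.R143.DelGx806 Crest.Agent.R143.DelRx806
open Crest.Agent.R143.Frame1x395 Crest.Agent.R143.Frame2x395 Crest.Agent.R143.Frame3x395
  Crest.Agent.R143.Frame4x395 Crest.Agent.R143.Frame8x395 Crest.Agent.R143.Frame9x395
  Crest.Agent.R143.Frame10x395 Crest.Agent.R143.Frame11x395
open Crest.Agent.R143.TileRx228
open Crest.Agent.R143.Gatex838 (X Y)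
open Crest.Agent.R143.FinCx811 (Cs rc0 cs rcol)
open Crest.Agent.R143.WLocx713 (HullC xc sX cX bX)
open Crest.Agent.R143.RcTx422
open Crest.Agent.R143.CorHx713
open Crest.Agent.R143.ZnQx323
open Crest.Agent.R143.PolyUx346 Crest.Agent.R143.Layx416 Crest.Agent.R143.LayUx416
open Crest.Agent.R143.CorEx133
open Crest.Agent.R143.Brkx478 (cells)

variable {u : Poly} {m M : ℕ} {p W : ℤ → ℤ × ℤ} {A e : ℤ → ℤ} {η ε d K1 c2 ρ0 : ℝ} {ω : Sample}
  {U : Set ℂ} {o : ℤ} {n : ℕ} {X₀ : Set (ℂ × Bool)} {h₀ : ℂ}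

/-- **323's `Up`** -/
theorem up_env (C : CorEnv u ε d K1 c2 ρ0 ω) (L : LayU u m M p W A e)
    (hh : (m : ℝ) * (100 * η) = u.s) (H : CorH X₀ U M W η d o n) (hX : sX X₀ = SU u ε ω)
    (h0 : OnHull (SU u ε ω) h₀) {G k : ℤ} (g1 : A k + 4 ≤ G) (g2 : G + 3 ≤ A (k + 1)) :
    Up η d W X₀ G h₀ := by
  have e0 := H.e0
  have d0 := H.d0
  have de := H.de
  have hle := h_le L hh
  have hm := L.m_pos
  have hS : h₀ ∈ SU u ε ω := hull_mem h0
  refine up_of_fine H (F := cells (u.U : Set Brkx478.Bk)) (nn := u.L) (m := m) (p := p) (A := A)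
    (k := k) L.fine (OutPx571.F_con' u) (by omega) g1 g2 (by rw [hX]; exact hS) ?_
  rw [hh]
  refine HTopx903.far_of (by linarith) ?_
  have r1 := one_le_Rp u
  have r2 := C.d1
  have r3 := C.hull_far h0
  unfold RU at r3
  linarith


/-- **the column at the gate `o + 4`** (`o = al A e i`) -/
theorem up_o4 (C : CorEnv u ε d K1 c2 ρ0 ω) (L : LayU u m M p W A e)
    (hh : (m : ℝ) * (100 * η) = u.s) (hm : 40 ≤ (m : ℤ)) (i : ZMod 3)
    (H : CorH X₀ U M W η d o n) (hX : sX X₀ = SU u ε ω)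
    (h0 : OnHull (SU u ε ω) h₀) : Up η d W X₀ (al A e i + 4) h₀ := by
  obtain ⟨k, h1, h2⟩ := WndGx416.col4 L.lay hm i
  exact up_env C L hh H hX h0 h1 (by omega)

/-- **the column at the gate `o + n - 4`** -/
theorem up_on4 (C : CorEnv u ε d K1 c2 ρ0 ω) (L : LayU u m M p W A e)
    (hh : (m : ℝ) * (100 * η) = u.s) (hm : 40 ≤ (m : ℤ)) (i : ZMod 3)
    (H : CorH X₀ U M W η d o n) (hX : sX X₀ = SU u ε ω)
    (h0 : OnHull (SU u ε ω) h₀) : Up η d W X₀ (al A e i + nn A e i - 4) h₀ := by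
  obtain ⟨k, h1, h2⟩ := WndGx416.coln4 L.lay hm i
  exact up_env C L hh H hX h0 h1 (by omega)

/-- **both columns, in the form of `PLK_228.hP_of`** -/
theorem up_both (C : CorEnv u ε d K1 c2 ρ0 ω) (L : LayU u m M p W A e)
    (hh : (m : ℝ) * (100 * η) = u.s) (hm : 40 ≤ (m : ℤ)) (i : ZMod 3)
    {hS : GP (SU u ε ω : Set ℂ)} {h3 : 3 ≤ (SU u ε ω).card} {s : Cs hS → ZMod 2}
    (H : CorH (ColXx829.Xc hS h3 s) U M W η d (al A e i) (nn A e i))
    (h0 : OnHull (SU u ε ω) h₀) :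
    Up η d W (ColXx829.Xc hS h3 s) (al A e i + 4) h₀ ∧
      Up η d W (ColXx829.Xc hS h3 s) (al A e i + (nn A e i - 4 : ℕ)) h₀ := by
  have hX : sX (ColXx829.Xc hS h3 s) = SU u ε ω := (CorrIx831.col_Xc hS h3 s).e
  obtain ⟨h1, -⟩ := WndGx416.nn_big L.lay i
  refine ⟨up_o4 C L hh hm i H hX h0, ?_⟩
  rw [show al A e i + (nn A e i - 4 : ℕ) = al A e i + nn A e i - 4 by omega]
  exact up_on4 C L hh hm i H hX h0

end Crest.Agent.R143.UpEx117
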