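import Crest.Agent.R143.VTc_169
import Crest.Agent.R143.TileG_176

/-!
# Row 143 (S0194), CORE-C, RIG, box R6 (holes): the crude bound of `VT` in 176's form (helper169)

* **`VT_nc`** : `ofReal (‖VT X‖²) ≤ ofReal (9 K²) (Nc U X)⁴` for every finite configuration, `reg3 ⊆ U`
* **`VT_ncP`** : the field of the positions, `K = cR D`; `VL_ncP` : the same for `VL`
-/

set_option autoImplicit false
set_option linter.all false

noncomputable section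

open scoped Classical

namespace Crest.Agent.R143.VTnx169

open Set MeasureTheory
open Crest.ProbabilityR.Voronoi
open Crest.Agent.R143.PP0x831
open Crest.Agent.R143.Janx304 (ovr)
open Crest.Agent.R143.FinMx609
open Crest.Agent.R143.WLocx713 Crest.Agent.R143.PWx978
open Crest.Agent.R143.TileRx228 Crest.Agent.R143.PthFx765 Crest.Agent.R143.TplIx204
open Crest.Agent.R143.SpVx169 Crest.Agent.R143.SpMx169 Crest.Agent.R143.VTcx169
open Crest.Agent.R143.TileGx176 (Nc Nc_mono)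
open scoped ENNReal

variable {M : ℕ} {W : ℤ → ℤ × ℤ} (D : DT) (P : FPath M W) (r : ℝ)

theorem card_nc {R : Set ℂ} {X : Cf} (hX : X.Finite) : (sX (X ∩ ovr R)).card = Nc R X := by
  have h := coe_sX (X := X ∩ ovr R) (hX.subset inter_subset_left)
  unfold Nc
  rw [← h, Set.ncard_coe_finset]

/-- **the crude bound in 176's form** -/
theorem VT_nc {f : ℂ × ℂ × ℂ → ℂ} {a : ℤ} {K : ℝ} (hK : 0 ≤ K)
    (hf : ∀ t : ℂ × ℂ × ℂ, t.1 ∈ reg3 D W a → t.2.1 ∈ reg3 D W a → t.2.2 ∈ reg3 D W a →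
      ‖f t‖ ≤ K) {U : Set ℂ} (hU : reg3 D W a ⊆ U) (X : Cf) (hX : X.Finite) :
    ENNReal.ofReal (‖VT D P r f a X‖ ^ 2) ≤ ENNReal.ofReal (9 * K ^ 2) * (Nc U X : ℝ≥0∞) ^ 4 := by
  have h1 := VT_sq D P r hK hf X
  have h2 : Nc (reg3 D W a) X ≤ Nc U X :=
    Nc_mono hU ((hX.image Prod.fst).subset inter_subset_left)
  rw [card_nc hX] at h1
  have h3 : ((Nc (reg3 D W a) X : ℕ) : ℝ) ≤ (Nc U X : ℕ) := by exact_mod_cast h2
  have h4 : ‖VT D P r f a X‖ ^ 2 ≤ 9 * K ^ 2 * ((Nc U X : ℕ) : ℝ) ^ 4 := by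
    have h5 : ‖VT D P r f a X‖ ≤ 3 * K * ((Nc U X : ℕ) : ℝ) ^ 2 :=
      h1.trans (mul_le_mul_of_nonneg_left (pow_le_pow_left₀ (Nat.cast_nonneg _) h3 2)
        (by positivity))
    calc ‖VT D P r f a X‖ ^ 2 ≤ (3 * K * ((Nc U X : ℕ) : ℝ) ^ 2) ^ 2 :=
          pow_le_pow_left₀ (norm_nonneg _) h5 2
      _ = 9 * K ^ 2 * ((Nc U X : ℕ) : ℝ) ^ 4 := by ring
  refine (ENNReal.ofReal_le_ofReal h4).trans (le_of_eq ?_)
  rw [ENNReal.ofReal_mul (by positivity), ENNReal.ofReal_pow (Nat.cast_nonneg _),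
    ENNReal.ofReal_natCast]

/-- **the field of the positions** -/
theorem VT_ncP (hh : 0 ≤ D.h) (hA : 0 ≤ D.A') {a : ℤ} {U : Set ℂ} (hU : reg3 D W a ⊆ U) (X : Cf)
    (hX : X.Finite) : ENNReal.ofReal (‖VT D P r fP a X‖ ^ 2) ≤
      ENNReal.ofReal (9 * cR D ^ 2) * (Nc U X : ℝ≥0∞) ^ 4 :=
  VT_nc D P r (cR_nn D hh hA) (fun t => fP_reg3 D P hh t) hU X hX

/-- the charges of a corridor -/
theorem VL_ncP (hh : 0 ≤ D.h) (hA : 0 ≤ D.A') {α : ℤ} {N l : ℕ} {U : Set ℂ}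
    (hU : 2 ≤ l → l + 2 < N → reg3 D W (α + l - 1) ⊆ U) (X : Cf)
    (hX : X.Finite) : ENNReal.ofReal (‖VL D P r fP α N l X‖ ^ 2) ≤
      ENNReal.ofReal (9 * cR D ^ 2) * (Nc U X : ℝ≥0∞) ^ 4 := by
  by_cases h : 2 ≤ l ∧ l + 2 < N
  · rw [VL_of D P r h.1 h.2]
    exact VT_ncP D P r hh hA (hU h.1 h.2) X hX
  · rw [VL_not D P r h, norm_zero, zero_pow two_ne_zero, ENNReal.ofReal_zero]
    exact zero_le

end Crest.Agent.R143.VTnx169
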