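import Crest.Agent.R143.D3G_802
import Crest.Agent.R143.VAL_422

/-!
# Row 143 (S0194), block D3 without (E3): assembly of VAL (helper422)

* `HL` : net, boundary data and closedness of the local component
* `chain_in`, `chain_exit`, `dir_symm`, `exit_arc` : chains of sites in the component, without (E3)
* `quenchedVE` : the quenched observable near `b`, from heights and oscillation in the component
-/

set_option autoImplicit false

noncomputable section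

open scoped Classical ENNReal

namespace Crest.Agent.R143.ValEx422

open Set MeasureTheory Filter Topology
open Crest.ProbabilityR.Voronoi
open Crest.Agent.R143.B0x346 Crest.Agent.R143.B0Dx346 Crest.Agent.R143.Oscx63
open Crest.Agent.R143.DelGx806 Crest.Agent.R143.Circx63 Crest.Agent.R143.Scalx63
open Crest.Agent.R143.EQ2x63 Crest.Agent.R143.Locx922 Crest.Agent.R143.Cfgx416
open Crest.Agent.R143.Ex0x922 Crest.Agent.R143.Wlkx802 Crest.Agent.R143.D3Ax802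
open Crest.Agent.R143.Sidesx697 Crest.Agent.R143.G6Wx723 Crest.Agent.R143.PP1x831
open Crest.Agent.R143.D3Bx802 Crest.Agent.R143.EQ5x63
open Crest.Agent.R143.Spinex422 Crest.Agent.R143.D3Vx802
open Crest.Agent.R143.VALx422 (apt arc_margin xc near_val near_site chain_conn between dom0)
open Crest.Agent.R143.D3Cx802

/-! ### the local component -/

/-- net, boundary data, closedness of the component -/
structure HL (S : Finset ℂ) (N : Net ℂ) (i : ZMod 3) (p : ℂ) (r0 : ℝ)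
    (Y : Set ℂ) (T1 : Set (ℂ × ℂ × ℂ)) (inn : Set ℂ) : Prop where
  net : HNet S N
  bd : BD S N i (Metric.closedBall p r0 ∪ Y) T1 inn
  ex : ∀ v ∈ Y, v ∈ inn → ∀ x y, (v, x, y) ∈ delT S → x ∈ inn → ‖x - p‖ < r0 ∨ x ∈ Y

section chains

variable {S : Finset ℂ} {N : Net ℂ} {i : ZMod 3} {p : ℂ} {r0 : ℝ}
  {Y : Set ℂ} {T1 : Set (ℂ × ℂ × ℂ)} {inn : Set ℂ}

theorem WW_X {v : ℂ} (hv : v ∈ WW S p r0 Y T1 inn) : v ∈ Metric.closedBall p r0 ∪ Y := by
  obtain ⟨-, -, h3, -⟩ := mem_WW.1 hv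
  rcases h3 with h3 | h3
  · left; rw [mem_closedBall_iff_norm]; linarith
  · exact Or.inr h3

theorem WW_star (H : HL S N i p r0 Y T1 inn) {v a b : ℂ} (hv : v ∈ WW S p r0 Y T1 inn)
    (h : (v, a, b) ∈ delT S) : (v, a, b) ∈ T1 := by
  obtain ⟨-, h2, -, b', c', h4⟩ := mem_WW.1 hv
  exact star H.net H.bd h2 (WW_X hv) h4 h

/-- an edge at a site of the component -/
theorem step_W (H : HL S N i p r0 Y T1 inn) {v v' : ℂ}
    (hv : v ∈ WW S p r0 Y T1 inn) (ha : Adj S v v') : ∃ c, (v, v', c) ∈ delT S ∧ (v, v', c) ∈ T1 := by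
  have ha' : JColx54.Adj S v v' := by
    obtain ⟨c, hc | hc⟩ := ha
    · exact Or.inl ⟨c, hc⟩
    · exact Or.inr ⟨c, hc⟩
  obtain ⟨c, hc⟩ := D3Gx802.adj_fst H.net (H.bd.full v (mem_WW.1 hv).2.1 (WW_X hv)) ha'
  exact ⟨c, hc, WW_star H hv hc⟩

theorem dir_symm (H : HL S N i p r0 Y T1 inn) {v v' : ℂ} (hv : v ∈ WW S p r0 Y T1 inn)
    (h : Relation.ReflTransGen (fun v v' => v' ∈ WW S p r0 Y T1 inn ∧ ∃ b, (v, v', b) ∈ delT S)
      v v') : v' ∈ WW S p r0 Y T1 inn ∧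
    Relation.ReflTransGen (fun v v' => v' ∈ WW S p r0 Y T1 inn ∧ ∃ b, (v, v', b) ∈ delT S)
      v' v := by
  induction h with
  | refl => exact ⟨hv, Relation.ReflTransGen.refl⟩
  | @tail w w' _ hs ih =>
    obtain ⟨hw', b, hb⟩ := hs
    refine ⟨hw', Relation.ReflTransGen.head ⟨ih.1, ?_⟩ ih.2⟩
    obtain ⟨c, hc, -⟩ := step_W H hw' (v' := w) ⟨b, Or.inr hb⟩
    exact ⟨c, hc⟩

/-- the component is closed under steps to inner sites -/
theorem in_W (H : HL S N i p r0 Y T1 inn) {v v' : ℂ}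
    (hv : v ∈ WW S p r0 Y T1 inn) (ha : Adj S v v') (hi : v' ∈ inn)
    (hY : ‖v' - p‖ < r0 ∨ v' ∈ Y) :
    v' ∈ WW S p r0 Y T1 inn ∧ ∃ b, (v, v', b) ∈ delT S := by
  obtain ⟨c, hc, hc1⟩ := step_W H hv ha
  exact ⟨mem_WW.2 ⟨(mem_delT.1 hc).2.1, hi, hY, c, v, H.bd.rot _ _ _ hc1⟩, c, hc⟩

/-- a chain of cells which stays in the component -/
theorem chain_in (H : HL S N i p r0 Y T1 inn) {Z : Set ℂ}
    (hZ : ∀ u ∈ S, (voronoiCell (S : Set ℂ) u ∩ Z).Nonempty → u ∈ inn ∧ (‖u - p‖ < r0 ∨ u ∈ Y))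
    {a e : ℂ} (ha : a ∈ WW S p r0 Y T1 inn)
    (h : Relation.ReflTransGen (fun u v => Adj S u v ∧ (vedge (S : Set ℂ) u v ∩ Z).Nonempty) a e) :
    Relation.ReflTransGen (fun v v' => v' ∈ WW S p r0 Y T1 inn ∧ ∃ b, (v, v', b) ∈ delT S) a e ∧
      e ∈ WW S p r0 Y T1 inn := by
  induction h with
  | refl => exact ⟨.refl, ha⟩
  | @tail u v _ hs ih =>
    obtain ⟨hadj, x, hx, hxZ⟩ := hs
    obtain ⟨c, hc, -⟩ := step_W H ih.2 hadj
    obtain ⟨h1, h2⟩ := hZ v (mem_delT.1 hc).2.1 ⟨x, vedge_sub_cell' hx, hxZ⟩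
    have h3 := in_W H ih.2 hadj h1 h2
    exact ⟨ih.1.tail h3, h3.1⟩

/-- a chain of cells which leaves the component -/
theorem chain_exit (H : HL S N i p r0 Y T1 inn) {Z : Set ℂ}
    (hZ : ∀ u ∈ S, (voronoiCell (S : Set ℂ) u ∩ Z).Nonempty → u ∈ inn → (‖u - p‖ < r0 ∨ u ∈ Y))
    {a e : ℂ} (ha : a ∈ WW S p r0 Y T1 inn) (he : e ∉ inn)
    (h : Relation.ReflTransGen (fun u v => Adj S u v ∧ (vedge (S : Set ℂ) u v ∩ Z).Nonempty) a e) :
    ∃ v u, Relation.ReflTransGen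
      (fun v v' => v' ∈ WW S p r0 Y T1 inn ∧ ∃ b, (v, v', b) ∈ delT S) a v ∧
      v ∈ WW S p r0 Y T1 inn ∧ Adj S v u ∧ u ∈ S ∧ u ∉ inn ∧
      (voronoiCell (S : Set ℂ) u ∩ Z).Nonempty := by
  have key : (∃ v u, Relation.ReflTransGen
      (fun v v' => v' ∈ WW S p r0 Y T1 inn ∧ ∃ b, (v, v', b) ∈ delT S) a v ∧
      v ∈ WW S p r0 Y T1 inn ∧ Adj S v u ∧ u ∈ S ∧ u ∉ inn ∧
      (voronoiCell (S : Set ℂ) u ∩ Z).Nonempty) ∨
      (Relation.ReflTransGen
      (fun v v' => v' ∈ WW S p r0 Y T1 inn ∧ ∃ b, (v, v', b) ∈ delT S) a e ∧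
      e ∈ WW S p r0 Y T1 inn) := by
    clear he
    induction h with
    | refl => exact Or.inr ⟨.refl, ha⟩
    | @tail u v _ hs ih =>
      rcases ih with ih | ih
      · exact Or.inl ih
      obtain ⟨hadj, x, hx, hxZ⟩ := hs
      obtain ⟨c, hc, -⟩ := step_W H ih.2 hadj
      have hvS := (mem_delT.1 hc).2.1
      by_cases hvi : v ∈ inn
      · have h3 := in_W H ih.2 hadj hvi (hZ v hvS ⟨x, vedge_sub_cell' hx, hxZ⟩ hvi)
        exact Or.inr ⟨ih.1.tail h3, h3.1⟩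
      · exact Or.inl ⟨u, v, ih.1, ih.2, hadj, hvS, hvi, x, vedge_sub_cell' hx, hxZ⟩
  rcases key with h1 | h1
  · exact h1
  · exact absurd (mem_WW.1 h1.2).2.1 he

end chains

section bdry

variable {C : Cfg 4} {S : Finset ℂ} {δ d : ℝ} {p : ℂ} {R0 s K r0 : ℝ} {G T : Set ℂ}

/-- **the component reaches the class `j0` in the tentacle** -/
theorem exit_arc (H : Geo C S δ d 0 p R0 s K G T)
    (HH : HL S (C.dom.netS S) 0 p r0 (Yt C S T) (TT C S G) (C.inn S : Set ℂ))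
    (h3 : 3 ≤ S.card) {A : Set ℂ} {j0 : ZMod 4} (hA : IsPreconnected A)
    (hAn : ∀ y ∈ A, ‖y - C.c‖ = 3 / 4 * C.L) (hAs : A ⊆ T ∪ C.R j0)
    (hAR : (A ∩ C.R j0).Nonempty) {K' : ℝ} (hK' : 2 * d ≤ K')
    (hAm : ∀ y ∈ A, ∀ y', dist y y' < K' → ∀ j, y' ∈ C.R j → j = j0) {uq q : ℂ}
    (huq : uq ∈ WW S p r0 (Yt C S T) (TT C S G) (C.inn S : Set ℂ)) (hq : q ∈ A)
    (hqu : q ∈ voronoiCell (S : Set ℂ) uq) :
    ∃ v u, Relation.ReflTransGen (fun v v' => v' ∈ WW S p r0 (Yt C S T) (TT C S G)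
      (C.inn S : Set ℂ) ∧ ∃ b, (v, v', b) ∈ delT S) uq v ∧
      v ∈ WW S p r0 (Yt C S T) (TT C S G) (C.inn S : Set ℂ) ∧ Adj S v u ∧ u ∈ C.cls S j0 := by
  have hd := H.dpos
  have hL := H.dL
  obtain ⟨x, hxA, hxR⟩ := hAR
  have huS : uq ∈ S := (mem_WW.1 huq).1
  obtain ⟨e, heS, hxe⟩ := exists_cell (S := S) ⟨uq, huS⟩ x
  have hei : e ∉ (C.inn S : Set ℂ) := fun h =>
    (DomEx722.mem_inn.1 (Finset.mem_coe.1 h)).2 j0 (Or.inl ⟨heS, x, hxe, hxR⟩)
  have hch := chain_conn H.out.gp h3 hA huS heS ⟨q, hq, hqu⟩ ⟨x, hxA, hxe⟩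
  obtain ⟨v, u, g1, g2, g3, g4, g5, y, hyu, hyA⟩ := chain_exit HH (Z := A)
    (by
      rintro u hu ⟨y, hyu, hyA⟩ hui
      rcases hAs hyA with h1 | h1
      · exact Or.inr ⟨hui, y, hyu, h1⟩
      · exact absurd (Or.inl ⟨hu, y, hyu, h1⟩)
          ((DomEx722.mem_inn.1 (Finset.mem_coe.1 hui)).2 j0)) huq hei hch
  refine ⟨v, u, g1, g2, g3, ?_⟩
  have hyn := hAn y hyA
  obtain ⟨q1, q2, q3⟩ := near_site H (y := y) (u := u) (by rw [hyn]; linarith) hyu
  have g5' : u ∉ C.inn S := fun h => g5 (Finset.mem_coe.2 h)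
  rw [DomEx722.mem_inn] at g5'
  push Not at g5'
  obtain ⟨j, hj⟩ := g5' g4
  rcases hj with ⟨-, w, hw, hwR⟩ | hj'
  · have h5 : dist y w < 2 * d := by
      rw [dist_eq_norm]
      have h6 := q3 w hw
      have h7 := norm_tri y u w
      rw [norm_sub_rev u w] at h7
      linarith
    have h6 := hAm y hyA w (by linarith) j hwR
    rw [← h6]
    exact Or.inl ⟨g4, w, hw, hwR⟩
  · exact absurd hj' (not_harc H q2 j)

end bdry

/-! ### the quenched value -/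

/-- **the quenched value near `b`** : the geometry, and the value from the heights and the oscillation
in the component -/
theorem quenchedVE (hI : INTF) (hMo : MONO) {C : Cfg 4} {δ : ℝ} (hC : C.OK δ)
    {b : ℂ} {R0 s κ : ℝ} {Q TB : Set ℂ} (hs : 0 < s) (hκ : 0 < κ)
    (hball : Metric.closedBall b R0 ⊆ Metric.closedBall C.c (C.L / 2))
    (hdis : Disjoint (Q ∪ TB) C.out)
    (hQ : ∀ y ∈ Q, ∀ y', dist y y' < κ → dist y' b < R0 →
      y' ∈ Q ∨ y' ∈ TB ∨ y' ∈ C.R 0 ∨ y' ∈ C.R 1)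
    (hTB : ∀ y ∈ TB, ∀ y', dist y y' < κ →
      y' ∈ TB ∨ y' ∈ C.R 0 ∨ y' ∈ C.R 1 ∨ (y' ∈ Q ∧ dist y' b < s))
    (hcone : C.cone δ 1 ⊆ TB)
    {z : ℂ} {P : Set ℂ} (hz : dist z b < s) (hP : IsPreconnected P) (hzP : z ∈ P)
    (hPs : P ⊆ (Q ∩ Metric.ball b s) ∪ TB) (hPb : P ⊆ Metric.closedBall C.c (3 / 4 * C.L))
    (hPq : C.c + ((3 / 4 * C.L : ℝ) : ℂ) * C.q 1 ∈ P)
    (hPk : ∀ y ∈ P, Disjoint (Metric.ball y κ) C.out) (hL : Linked C.dom κ z)
    {r0 : ℝ} (hr1 : s < r0) (hr2 : r0 < R0) :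
    ∃ c2 > 0, ∀ (ε d M : ℝ) (ω : Sample), Env ε d M C.dom.c C.dom.L ω → 0 < d → d ≤ c2 →
      Geo C (C.dom.sites ε ω) δ d 0 b R0 s κ (Q ∪ TB) TB ∧ ∀ θ : ℝ,
      (∀ v ∈ WW (C.dom.sites ε ω) b r0 (Yt C (C.dom.sites ε ω) TB)
          (TT C (C.dom.sites ε ω) (Q ∪ TB)) (C.inn (C.dom.sites ε ω) : Set ℂ), ∀ a b',
        (v, a, b') ∈ delT (C.dom.sites ε ω) →
        0 ≤ hgt 0 ((C.dom.netS (C.dom.sites ε ω)).F v a) ∧
          hgt 0 ((C.dom.netS (C.dom.sites ε ω)).F v a) ≤ θ) →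
      (∀ v ∈ WW (C.dom.sites ε ω) b r0 (Yt C (C.dom.sites ε ω) TB)
          (TT C (C.dom.sites ε ω) (Q ∪ TB)) (C.inn (C.dom.sites ε ω) : Set ℂ), ∀ v',
        Relation.ReflTransGen (fun v v' => v' ∈ WW (C.dom.sites ε ω) b r0
          (Yt C (C.dom.sites ε ω) TB) (TT C (C.dom.sites ε ω) (Q ∪ TB))
          (C.inn (C.dom.sites ε ω) : Set ℂ) ∧ ∃ b', (v, v', b') ∈ delT (C.dom.sites ε ω)) v v' →
        ∀ a b1 a' b2, (v, a, b1) ∈ delT (C.dom.sites ε ω) → (v', a', b2) ∈ delT (C.dom.sites ε ω) →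
        ‖(C.dom.netS (C.dom.sites ε ω)).F v' a' - (C.dom.netS (C.dom.sites ε ω)).F v a‖ ≤ 4 * θ) →
      (∀ a ∈ points ε ω, ∀ b ∈ points ε ω, a ≠ b → cr (b - a) (z - a) ≠ 0) →
      dist (C.dom.h ε ω z) (1 + (C.pr (C.dom.sites ε ω) 0 : ℂ) * (om - 1)) ≤ 6 * θ := by
  have hn : 3 ≤ 4 := by norm_num
  have hLp := hC.Lpos
  have hδ := hC.dpos
  -- the two arcs
  obtain ⟨es, hes, hsec⟩ := hC.sect 1 (3 / 4 * C.L) (by linarith)
  obtain ⟨A1, hA1c, hA1q, hA1R, hA1s, hA1n, K1, hK1, hA1m⟩ := arc_margin hC 1 1 1 (by simp)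
    (r := 3 / 4 * C.L) (by linarith) hes (fun ψ h1 h2 => by
      rw [one_mul]
      exact (hsec ψ h1 h2).1)
  obtain ⟨A0, hA0c, hA0q, hA0R, hA0s, hA0n, K0, hK0, hA0m⟩ := arc_margin hC 1 0 (-1) (by simp)
    (r := 3 / 4 * C.L) (by linarith) hes (fun ψ h1 h2 => by
      have := (hsec ψ h1 h2).2
      rw [show (1 : ZMod 4) - 1 = 0 by decide] at this
      unfold apt
      rw [neg_one_mul, Complex.ofReal_neg, neg_mul]
      exact this)
  set c2 := min (min 1 (κ / 3)) (min (min (C.L / 16) (min (K0 / 2) (K1 / 2)))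
    (min (min ((R0 - r0) / 4) ((r0 - s) / 5))
      (δ ^ 6 / (40000 * C.L ^ 5)))) with hc2
  have p1 : 0 < (R0 - r0) / 4 := by linarith
  have p2 : 0 < (r0 - s) / 5 := by linarith
  have p3 : 0 < δ ^ 6 / (40000 * C.L ^ 5) := by positivity
  refine ⟨c2, by
    rw [hc2]
    exact lt_min (lt_min one_pos (by positivity)) (lt_min (lt_min (by positivity)
      (lt_min (by positivity) (by positivity))) (lt_min (lt_min p1 p2) p3)), ?_⟩
  intro ε d M ω h hd hdc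
  have d2 : d ≤ κ / 3 := hdc.trans ((min_le_left _ _).trans (min_le_right _ _))
  have d3 : d ≤ C.L / 16 :=
    hdc.trans ((min_le_right _ _).trans ((min_le_left _ _).trans (min_le_left _ _)))
  have d4 : d ≤ min (K0 / 2) (K1 / 2) :=
    hdc.trans ((min_le_right _ _).trans ((min_le_left _ _).trans (min_le_right _ _)))
  have d40 : d ≤ K0 / 2 := d4.trans (min_le_left _ _)
  have d41 : d ≤ K1 / 2 := d4.trans (min_le_right _ _)
  have d5 : d ≤ (R0 - r0) / 4 := hdc.trans ((min_le_right _ _).trans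
    ((min_le_right _ _).trans ((min_le_left _ _).trans (min_le_left _ _))))
  have d6 : d ≤ (r0 - s) / 5 := hdc.trans ((min_le_right _ _).trans
    ((min_le_right _ _).trans ((min_le_left _ _).trans (min_le_right _ _))))
  have d7 : d ≤ δ ^ 6 / (40000 * C.L ^ 5) := hdc.trans ((min_le_right _ _).trans
    ((min_le_right _ _).trans (min_le_right _ _)))
  have d8 : 40000 * C.L ^ 5 * d ≤ δ ^ 6 := by
    rw [le_div_iff₀ (by positivity)] at d7
    linarith
  have hS : DomAx722.Dns (C.dom.sites ε ω) C.c C.L d :=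
    DomAx722.dns_of_env (D := C.dom) hLp (by show 8 * d ≤ C.L; linarith) h
  have hO : C.Out (C.dom.sites ε ω) := DomEx722.out_S hn hC hS d8
  have H : Geo C (C.dom.sites ε ω) δ d 0 b R0 s κ (Q ∪ TB) TB :=
    { hn := hn
      ok := hC
      out := hO
      hol := Env.hol_sites h
      dpos := hd
      dL := by linarith
      dK := by linarith
      s0 := hs
      ball := hball
      g0 := hdis
      TG := subset_union_right
      g1 := fun y hy y' h1 h2 => by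
        rcases hy with hy | hy
        · rcases hQ y hy y' h1 h2 with h3 | h3 | h3
          · exact Or.inl (Or.inl h3)
          · exact Or.inl (Or.inr h3)
          · exact Or.inr (dom0 h3)
        · rcases hTB y hy y' h1 with h3 | h3 | h3 | h3
          · exact Or.inl (Or.inr h3)
          · exact Or.inr (dom0 (Or.inl h3))
          · exact Or.inr (dom0 (Or.inr h3))
          · exact Or.inl (Or.inl h3.1)
      g2 := fun y hy y' h1 => by
        rcases hTB y hy y' h1 with h3 | h3 | h3 | h3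
        · exact Or.inl h3
        · exact Or.inr (Or.inl (dom0 (Or.inl h3)))
        · exact Or.inr (Or.inl (dom0 (Or.inr h3)))
        · exact Or.inr (Or.inr ⟨Or.inl h3.1, h3.2⟩) }
  refine ⟨H, fun θ hht hosc hzl => ?_⟩
  have hHL : HL (C.dom.sites ε ω) (C.dom.netS (C.dom.sites ε ω)) 0 b r0
      (Yt C (C.dom.sites ε ω) TB) (TT C (C.dom.sites ε ω) (Q ∪ TB))
      (C.inn (C.dom.sites ε ω) : Set ℂ) :=
    ⟨hO.hnet, bd_of H (by linarith) (by linarith), ex_of H (by linarith) (by linarith)⟩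
  set S := C.dom.sites ε ω with hSdef
  set W := WW S b r0 (Yt C S TB) (TT C S (Q ∪ TB)) (C.inn S : Set ℂ) with hW
  -- the triangle of `z`
  have hsites : ∀ s ∈ S, s ∈ points ε ω := fun s hs => ((mem_sites h.fin).1 hs).1
  have hzG : z ∈ Q ∪ TB := by
    rcases hPs hzP with h1 | h1
    · exact Or.inl h1.1
    · exact Or.inr h1
  have hzb : z ∈ WD C d := by
    apply Metric.mem_closedBall.2
    have := near_W H (o := z) (by linarith)
    linarith
  have hex : ∃ t : ℂ × ℂ × ℂ, t ∈ (C.dom.netS S).T ∧ InTri z t.1 t.2.1 t.2.2 := by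
    obtain ⟨a, b, c, ht, hy'⟩ := exists_tri_W hO.gp hd H.hol hzb
    obtain ⟨t, ht', hz'⟩ := EQ4x63.inTri_of ht hy'
      (fun a ha b hb => hzl a (hsites a ha) b (hsites b hb))
    exact ⟨t, by rw [hO.hnet.tri]; exact ht', hz'⟩
  obtain ⟨a, a', a'', ht, hzt, hval⟩ := hval_spec hex
  rw [hO.hnet.tri] at ht
  have hzT := inT_of_inTri hzt
  have hrot := (g1 S hO.gp).1
  have key : ∀ a b' c : ℂ, (a, b', c) ∈ delT S → InT z a b' c → a ∈ W := by
    intro a b' c ht hzT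
    obtain ⟨h1, h2, h3⟩ := tri_hyp H h d8 (by linarith) (by linarith) hzG hL ht hzT
    refine mem_WW.2 ⟨(DomEx722.mem_inn.1 h2).1, h2, Or.inl ?_, b', c, h1⟩
    have h4 := norm_tri a z b
    rw [dist_eq_norm] at hz
    linarith
  have ht2 := hrot _ _ _ ht
  have ht3 := hrot _ _ _ ht2
  have ha := key _ _ _ ht hzT
  have ha' := key _ _ _ ht2 (InT.rot hzT)
  have ha'' := key _ _ _ ht3 (InT.rot (InT.rot hzT))
  obtain ⟨o, hT⟩ := mem_delT_iff.1 ht
  have hoz := (centre_near H (by linarith) hzT hT).1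
  -- the chain to the tentacle
  have h3S : 3 ≤ S.card := card_sites hd (by show 2 * d ≤ C.L; linarith) h
  have hZc : IsPreconnected (segment ℝ o z ∪ P) :=
    IsPreconnected.union z (right_mem_segment ℝ o z) hzP (convex_segment o z).isPreconnected hP
  have hZin : ∀ u ∈ S, (voronoiCell (S : Set ℂ) u ∩ (segment ℝ o z ∪ P)).Nonempty →
      u ∈ (C.inn S : Set ℂ) ∧ (‖u - b‖ < r0 ∨ u ∈ Yt C S TB) := by
    rintro u hu ⟨y, hyu, hy | hy⟩
    · -- near `z`
      have h1 : ‖y - z‖ < d := by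
        have h2 := (convex_ball z d).segment_subset (x := o) (y := z)
          (by rw [mem_ball_iff_norm, norm_sub_rev]; exact hoz) (Metric.mem_ball_self hd) hy
        rwa [mem_ball_iff_norm] at h2
      have h2 := norm_tri y z b
      rw [dist_eq_norm] at hz
      obtain ⟨g1, -, -⟩ := near_cell H (o := y) (u := u) (by rw [dist_eq_norm]; linarith) hyu
      have g2 : ‖u - z‖ < 2 * d := by
        have := norm_tri u y z
        rw [norm_sub_rev u y] at this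
        linarith
      refine ⟨Finset.mem_coe.2 (inn_of_room H (m := κ) (by linarith) (hPb hzP) (hPk z hzP) hu g2),
        Or.inl ?_⟩
      have := norm_tri u z b
      linarith
    · have h1 := hPb hy
      rw [mem_closedBall_iff_norm] at h1
      obtain ⟨g1, -, -⟩ := near_site H (y := y) (u := u) (by linarith) hyu
      have hui : u ∈ C.inn S := inn_of_room H (m := κ) (by linarith) (hPb hy) (hPk y hy) hu
        (by rw [norm_sub_rev]; linarith)
      refine ⟨Finset.mem_coe.2 hui, ?_⟩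
      rcases hPs hy with h2 | h2
      · left
        have h3 := mem_ball_iff_norm.1 h2.2
        have h4 := norm_tri u y b
        rw [norm_sub_rev u y] at h4
        linarith
      · exact Or.inr ⟨hui, y, hyu, h2⟩
  set q := C.c + ((3 / 4 * C.L : ℝ) : ℂ) * C.q 1 with hq
  obtain ⟨uq, huqS, hquq⟩ := exists_cell (S := S) ⟨a, hT.ma⟩ q
  have hch := chain_conn hO.gp h3S hZc hT.ma huqS ⟨o, Or.inl (left_mem_segment ℝ o z),
    (centre_mem hT).1⟩ ⟨q, Or.inr hPq, hquq⟩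
  obtain ⟨hauq, huq⟩ := chain_in hHL hZin ha hch
  -- the exits
  obtain ⟨v1, u1, r1, hv1, had1, hu1⟩ := exit_arc H hHL h3S hA1c hA1n
    (hA1s.trans (union_subset_union_left _ hcone)) hA1R (by linarith) hA1m huq hA1q hquq
  obtain ⟨v0, u0, r0, hv0, had0, hu0⟩ := exit_arc H hHL h3S hA0c hA0n
    (hA0s.trans (union_subset_union_left _ hcone)) hA0R (by linarith) hA0m huq hA0q hquq
  obtain ⟨c1, hc1, hc1T⟩ := step_W hHL hv1 had1
  obtain ⟨c0, hc0, hc0T⟩ := step_W hHL hv0 had0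
  have s1 := dir_symm hHL huq r1
  have s0 := dir_symm hHL huq r0
  obtain ⟨b0, b1⟩ := between hI hMo hO (W := (W : Set ℂ))
    (fun x hx => (mem_WW.1 (Finset.mem_coe.1 hx)).2.1) hv0 hv1 (s0.2.trans r1) (s1.2.trans r0)
    hu0 hu1 hc0 hc1 hc0T.2.1 hc1T.2.1
  -- the three values
  have hthree : ∀ w x y : ℂ, w ∈ W → (w, x, y) ∈ delT S →
      Relation.ReflTransGen (fun v v' => v' ∈ W ∧ ∃ b, (v, v', b) ∈ delT S) w a →
      ‖(C.dom.netS S).F w x - (1 + (C.pr S 0 : ℂ) * (om - 1))‖ ≤ 6 * θ := by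
    intro w x y hw hwx hwa
    have g1 := hht w hw x y hwx
    exact near_val (hosc w hw v1 ((hwa.trans hauq).trans r1) x y u1 c1 hwx hc1)
      (hosc w hw v0 ((hwa.trans hauq).trans r0) x y u0 c0 hwx hc0) g1.1 g1.2 b0 b1
  have w1 := hthree a a' a'' ha ht .refl
  have q2 : Relation.ReflTransGen (fun v v' => v' ∈ W ∧ ∃ b, (v, v', b) ∈ delT S) a a' :=
    .single ⟨ha', a'', ht⟩
  have w2 := hthree a' a'' a ha' ht2 (dir_symm hHL ha q2).2
  have w3 := hthree a'' a a' ha'' ht3 (.single ⟨ha, a', ht3⟩)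
  rw [dist_eq_norm]
  have e0 : C.dom.h ε ω z - (1 + (C.pr S 0 : ℂ) * (om - 1)) =
      (((C.dom.netS S).F a a' - (1 + (C.pr S 0 : ℂ) * (om - 1))) +
      ((C.dom.netS S).F a' a'' - (1 + (C.pr S 0 : ℂ) * (om - 1))) +
      ((C.dom.netS S).F a'' a - (1 + (C.pr S 0 : ℂ) * (om - 1)))) / 3 := by
    unfold Dom.h
    rw [← hSdef, hval]
    ring
  rw [e0, norm_div]
  have n1 := norm_add_le (((C.dom.netS S).F a a' - (1 + (C.pr S 0 : ℂ) * (om - 1))) +
      ((C.dom.netS S).F a' a'' - (1 + (C.pr S 0 : ℂ) * (om - 1))))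
      ((C.dom.netS S).F a'' a - (1 + (C.pr S 0 : ℂ) * (om - 1)))
  have n2 := norm_add_le ((C.dom.netS S).F a a' - (1 + (C.pr S 0 : ℂ) * (om - 1)))
      ((C.dom.netS S).F a' a'' - (1 + (C.pr S 0 : ℂ) * (om - 1)))
  have n3 : ‖(3 : ℂ)‖ = 3 := by simp
  rw [n3, div_le_iff₀ (by norm_num)]
  linarith

end Crest.Agent.R143.ValEx422
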