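import Crest.Agent.R143.Var_831

/-!
# R143 (helper831, M1c): quenched variance of a monotone functional of the black region

`Quen F` : `F : Sample → ℝ` measurable, values in `[0,1]`, sees only the colours (not the marks),
is monotone in every colour, and deletion of a block is sandwiched between all white / all black.
`q F p` : quenched expectation given the positions `p`.
Main result `dvar_q_le`.
-/

set_option autoImplicit false
set_option linter.unusedSectionVars false

noncomputable section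

namespace Crest.Agent.R143.Var2x831

open MeasureTheory Set Function
open Crest.ProbabilityR.Voronoi
open Crest.Agent.R151.V
open Crest.Agent.R143.ESx831 Crest.Agent.R143.Revx831 Crest.Agent.R143.Lawx831
open Crest.Agent.R143.Varx831
open scoped ENNReal

local notation "smk" => Crest.Agent.R143.Lawx831.mk

/-- the present indices of block `k` -/
def Tk (p : Pos) (k : ℤ × ℤ) : Finset ((ℤ × ℤ) × ℕ) :=
  (Finset.range (p k).1).map ⟨fun j => (k, j), fun _ _ h => (Prod.ext_iff.1 h).2⟩

lemma card_Tk (p : Pos) (k : ℤ × ℤ) : (Tk p k).card = (p k).1 := by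
  unfold Tk; simp

lemma mem_Tk {p : Pos} {k : ℤ × ℤ} {i : (ℤ × ℤ) × ℕ} :
    i ∈ Tk p k ↔ i.1 = k ∧ i.2 < (p k).1 := by
  unfold Tk
  simp only [Finset.mem_map, Finset.mem_range, Embedding.coeFn_mk]
  constructor
  · rintro ⟨j, hj, rfl⟩; exact ⟨rfl, hj⟩
  · rintro ⟨h1, h2⟩; exact ⟨i.2, h2, Prod.ext h1.symm rfl⟩

/-- delete the points of block `k` -/
def del (k : ℤ × ℤ) (p : Pos) : Pos := update p k (0, fun _ => 0)

lemma del_update (k : ℤ × ℤ) (p : Pos) (t : PB) : del k (update p k t) = del k p := by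
  unfold del; rw [update_idem]

lemma measurable_del (k : ℤ × ℤ) : Measurable (del k) :=
  measurable_update'.comp (measurable_id.prodMk measurable_const)

/-- monotone functionals of the black region -/
structure Quen (F : Sample → ℝ) : Prop where
  meas : Measurable F
  nonneg : ∀ ω, 0 ≤ F ω
  le_one : ∀ ω, F ω ≤ 1
  col : ∀ p i, ColDep (fun c => F (smk p c)) i
  mono : ∀ p i c, F (smk p (update c i 1)) ≤ F (smk p (update c i 0))
  lo : ∀ p k c, F (smk p (setc (Tk p k) 1 c)) ≤ F (smk (del k p) c)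
  hi : ∀ p k c, F (smk (del k p) c) ≤ F (smk p (setc (Tk p k) 0 c))

variable {F : Sample → ℝ}

/-- quenched expectation -/
def q (F : Sample → ℝ) (p : Pos) : ℝ := ∫ c, F (smk p c) ∂colLaw

lemma Quen.abs_le (h : Quen F) (ω : Sample) : |F ω| ≤ 1 := by
  rw [abs_of_nonneg (h.nonneg ω)]; exact h.le_one ω

lemma Quen.measc (h : Quen F) (p : Pos) : Measurable (fun c => F (smk p c)) :=
  h.meas.comp (measurable_mk.comp (measurable_const.prodMk measurable_id))

lemma Quen.int (h : Quen F) (p : Pos) {g : Col → Col} (hg : Measurable g) :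
    Integrable (fun c => F (smk p (g c))) colLaw :=
  integrable_of_bound _ ((h.measc p).comp hg) (fun _ => h.abs_le _)

lemma measurable_q (h : Quen F) : Measurable (q F) := by
  have h1 : StronglyMeasurable (fun z : Pos × Col => F (smk z.1 z.2)) :=
    (h.meas.comp measurable_mk).stronglyMeasurable
  exact (StronglyMeasurable.integral_prod_right' (ν := colLaw) h1).measurable

lemma q_nonneg (h : Quen F) (p : Pos) : 0 ≤ q F p := integral_nonneg fun _ => h.nonneg _

lemma q_le_one (h : Quen F) (p : Pos) : q F p ≤ 1 := by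
  have h1 : q F p ≤ ∫ _c : Col, (1 : ℝ) ∂colLaw :=
    integral_mono (h.int p measurable_id) (integrable_const 1) (fun _ => h.le_one _)
  simpa using h1

lemma abs_q_le (h : Quen F) (p : Pos) : |q F p| ≤ 1 := by
  rw [abs_of_nonneg (q_nonneg h p)]; exact q_le_one h p

/-- `setc T 1 c ≤ c ≤ setc T 0 c` -/
lemma Quen.lo_hi (h : Quen F) (p : Pos) (T : Finset ((ℤ × ℤ) × ℕ)) (c : Col) :
    F (smk p (setc T 1 c)) ≤ F (smk p c) ∧ F (smk p c) ≤ F (smk p (setc T 0 c)) := by
  induction T using Finset.induction_on with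
  | empty => simp [setc_empty]
  | insert i T hi ih =>
      rw [setc_insert, setc_insert]
      have h1 : ∀ c : Col, F (smk p (update c i 1)) ≤ F (smk p c) ∧
          F (smk p c) ≤ F (smk p (update c i 0)) := by
        intro c
        have e0 : c = update c i (c i) := (update_eq_self i c).symm
        by_cases hc : ((c i : unitInterval) : ℝ) < 1 / 2
        · have e1 : F (smk p c) = F (smk p (update c i 0)) := by
            conv_lhs => rw [e0]
            exact h.col p i c (c i) 0 ⟨fun _ => by norm_num, fun _ => hc⟩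
          exact ⟨e1 ▸ h.mono p i c, e1.le⟩
        · have e1 : F (smk p c) = F (smk p (update c i 1)) := by
            conv_lhs => rw [e0]
            exact h.col p i c (c i) 1 ⟨fun h' => absurd h' hc, fun h' => by norm_num at h'⟩
          exact ⟨e1.ge, e1 ▸ h.mono p i c⟩
      exact ⟨((h1 (setc T 1 c)).1).trans ih.1, ih.2.trans (h1 (setc T 0 c)).2⟩

/-- level-one coefficient of the colour `i` -/
def lev (F : Sample → ℝ) (p : Pos) (i : (ℤ × ℤ) × ℕ) : ℝ :=
  ∫ c, F (smk p c) * half (c i) ∂colLaw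

lemma lev_nonneg (h : Quen F) (p : Pos) (i : (ℤ × ℤ) × ℕ) : 0 ≤ lev F p i := by
  have h1 := int_half (φ := fun c => F (smk p c)) (h.measc p) (fun c => h.abs_le _) (h.col p i)
  have h2 : 0 ≤ ∫ c, (F (smk p (update c i 0)) - F (smk p (update c i 1))) ∂(cl ((ℤ × ℤ) × ℕ)) :=
    integral_nonneg fun c => sub_nonneg.2 (h.mono p i c)
  unfold lev
  change 0 ≤ ∫ c, F (smk p c) * half (c i) ∂(cl ((ℤ × ℤ) × ℕ))
  rw [h1]
  exact div_nonneg h2 (by norm_num)

/-- deletion of block `k` -/
theorem abs_q_del_le (h : Quen F) (p : Pos) (k : ℤ × ℤ) :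
    |q F p - q F (del k p)| ≤ 2 ^ (p k).1 * ∑ i ∈ Tk p k, lev F p i := by
  have h1 := telescope (C := 1) (Tk p k) (φ := fun c => F (smk p c)) (h.measc p)
    (fun c => h.abs_le _) (fun i _ => h.col p i) (fun i _ c => h.mono p i c)
  rw [card_Tk] at h1
  refine le_trans ?_ h1
  have m0 := measurable_setc (I := (ℤ × ℤ) × ℕ) (Tk p k) 0
  have m1 := measurable_setc (I := (ℤ × ℤ) × ℕ) (Tk p k) 1
  have i0 : Integrable (fun c => F (smk p (setc (Tk p k) 0 c))) colLaw := h.int p m0
  have i1 : Integrable (fun c => F (smk p (setc (Tk p k) 1 c))) colLaw := h.int p m1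
  change |q F p - q F (del k p)| ≤
    ∫ c, (F (smk p (setc (Tk p k) 0 c)) - F (smk p (setc (Tk p k) 1 c))) ∂colLaw
  rw [integral_sub i0 i1, abs_le]
  have a1 : ∫ c, F (smk p (setc (Tk p k) 1 c)) ∂colLaw ≤ q F p :=
    integral_mono i1 (h.int p measurable_id) (fun c => (h.lo_hi p _ c).1)
  have a2 : q F p ≤ ∫ c, F (smk p (setc (Tk p k) 0 c)) ∂colLaw :=
    integral_mono (h.int p measurable_id) i0 (fun c => (h.lo_hi p _ c).2)
  have a3 : ∫ c, F (smk p (setc (Tk p k) 1 c)) ∂colLaw ≤ q F (del k p) :=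
    integral_mono i1 (h.int (del k p) measurable_id) (fun c => h.lo p k c)
  have a4 : q F (del k p) ≤ ∫ c, F (smk p (setc (Tk p k) 0 c)) ∂colLaw :=
    integral_mono (h.int (del k p) measurable_id) i0 (fun c => h.hi p k c)
  constructor <;> linarith

/-- squared form -/
theorem sq_q_del_le (h : Quen F) (p : Pos) (k : ℤ × ℤ) :
    (q F p - q F (del k p)) ^ 2 ≤ 4 ^ (p k).1 * (p k).1 * ∑ i ∈ Tk p k, lev F p i ^ 2 := by
  have h1 := abs_q_del_le h p k
  have h2 : (∑ i ∈ Tk p k, lev F p i) ^ 2 ≤ (p k).1 * ∑ i ∈ Tk p k, lev F p i ^ 2 := by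
    have := sq_sum_le_card_mul_sum_sq (s := Tk p k) (f := fun i => lev F p i)
    rwa [card_Tk] at this
  calc (q F p - q F (del k p)) ^ 2 = |q F p - q F (del k p)| ^ 2 := (sq_abs _).symm
    _ ≤ (2 ^ (p k).1 * ∑ i ∈ Tk p k, lev F p i) ^ 2 :=
        pow_le_pow_left₀ (abs_nonneg _) h1 2
    _ = 4 ^ (p k).1 * (∑ i ∈ Tk p k, lev F p i) ^ 2 := by
        rw [mul_pow, ← pow_mul, mul_comm (p k).1 2, pow_mul]; norm_num
    _ ≤ 4 ^ (p k).1 * ((p k).1 * ∑ i ∈ Tk p k, lev F p i ^ 2) :=
        mul_le_mul_of_nonneg_left h2 (by positivity)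
    _ = _ := by ring

/-- a finite family of stopping sets for the colours at the positions `p`, with revealment at most
`δ` for one of them at every index of `T` -/
structure Algs (F : Sample → ℝ) (p : Pos) (nA : ℕ) (δ : ℝ) (T : Set ((ℤ × ℤ) × ℕ))
    (J : Fin nA → Col → Set ((ℤ × ℤ) × ℕ)) : Prop where
  meas : ∀ a i, MeasurableSet {c | i ∈ J a c}
  stop : ∀ a, ∀ x y : Col, (∀ i ∈ J a x, x i = y i) → J a y = J a x
  det : ∀ a, ∀ x y : Col, (∀ i ∈ J a x, x i = y i) → F (smk p y) = F (smk p x)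
  rev : ∀ i ∈ T, ∃ a, colLaw.real {c | i ∈ J a c} ≤ δ

lemma integral_half : ∫ t : unitInterval, half t = 0 := by
  rw [integral_two (g := half)]
  · rw [half_zero, half_one]; norm_num
  · intro t t' h
    unfold half
    simp only [h]

/-- the sum of the squared level-one coefficients is small -/
theorem sum_lev_le (h : Quen F) {p : Pos} {nA : ℕ} {δ : ℝ} (hδ : 0 ≤ δ)
    {T : Set ((ℤ × ℤ) × ℕ)} {J : Fin nA → Col → Set ((ℤ × ℤ) × ℕ)} (hJ : Algs F p nA δ T J)
    (W : Finset ((ℤ × ℤ) × ℕ)) (hW : ∀ i ∈ W, i ∈ T) :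
    ∑ i ∈ W, lev F p i ^ 2 ≤ nA * δ := by
  classical
  have h1 : ∀ a : Fin nA, ∑ i ∈ W.filter (fun i => colLaw.real {c | i ∈ J a c} ≤ δ),
      lev F p i ^ 2 ≤ δ := by
    intro a
    have h2 := level_one (X := fun _ : (ℤ × ℤ) × ℕ => unitInterval)
      (fun _ : (ℤ × ℤ) × ℕ => (volume : Measure unitInterval)) (J := J a)
      (fun _ => half) (fun _ => measurable_half) (fun _ => abs_half_le) (fun _ => integral_half)
      (f := fun c => F (smk p c)) (h.measc p) (C := 1) (fun c => h.abs_le _) (hJ.meas a)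
      (hJ.stop a) (hJ.det a) (W.filter (fun i => colLaw.real {c | i ∈ J a c} ≤ δ)) hδ
      (fun i hi => (Finset.mem_filter.1 hi).2)
    refine h2.trans ?_
    have h3 : ∫ c, F (smk p c) ^ 2 ∂colLaw ≤ 1 := by
      have h4 : ∫ c, F (smk p c) ^ 2 ∂colLaw ≤ ∫ _c : Col, (1 : ℝ) ∂colLaw := by
        apply integral_mono _ (integrable_const 1)
        · intro c
          exact pow_le_one₀ (h.nonneg _) (h.le_one _)
        · refine integrable_of_bound (C := 1) _ ((h.measc p).pow_const 2) (fun c => ?_)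
          rw [abs_pow]
          exact pow_le_one₀ (abs_nonneg _) (h.abs_le _)
      simpa using h4
    calc δ * ∫ c, F (smk p c) ^ 2 ∂(Measure.infinitePi fun _ : (ℤ × ℤ) × ℕ =>
          (volume : Measure unitInterval)) ≤ δ * 1 := mul_le_mul_of_nonneg_left h3 hδ
      _ = δ := mul_one δ
  have h5 : ∑ i ∈ W, lev F p i ^ 2 ≤
      ∑ a : Fin nA, ∑ i ∈ W.filter (fun i => colLaw.real {c | i ∈ J a c} ≤ δ), lev F p i ^ 2 := by
    have h6 : ∀ i ∈ W, lev F p i ^ 2 ≤ ∑ a : Fin nA,
        if colLaw.real {c | i ∈ J a c} ≤ δ then lev F p i ^ 2 else 0 := by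
      intro i hi
      obtain ⟨a, ha⟩ := hJ.rev i (hW i hi)
      have h7 := Finset.single_le_sum (f := fun a : Fin nA =>
        if colLaw.real {c | i ∈ J a c} ≤ δ then lev F p i ^ 2 else 0) (fun a _ => by
          split_ifs
          · positivity
          · exact le_rfl) (Finset.mem_univ a)
      simp only [ha, if_true] at h7
      exact h7
    refine (Finset.sum_le_sum h6).trans ?_
    rw [Finset.sum_comm]
    refine Finset.sum_le_sum fun a _ => ?_
    rw [Finset.sum_filter]
  refine h5.trans ((Finset.sum_le_sum fun a _ => h1 a).trans ?_)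
  simp

/-- the influence of block `k` -/
lemma infl_le (h : Quen F) (k : ℤ × ℤ) :
    infl posLaw pbLaw (q F) k ≤
      4 * ∫⁻ p, ENNReal.ofReal ((q F p - q F (del k p)) ^ 2) ∂posLaw := by
  have hq := measurable_q h
  set g : Pos → ℝ≥0∞ := fun p => ENNReal.ofReal ((q F p - q F (del k p)) ^ 2) with hg
  have hgm : Measurable g := ((hq.sub (hq.comp (measurable_del k))).pow_const 2).ennreal_ofReal
  have h1 : ∀ p : Pos, ∀ t : PB, ENNReal.ofReal ((q F p - q F (update p k t)) ^ 2) ≤
      2 * g p + 2 * g (update p k t) := by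
    intro p t
    simp only [hg, del_update]
    have h2 : (q F p - q F (update p k t)) ^ 2 ≤
        2 * (q F p - q F (del k p)) ^ 2 + 2 * (q F (update p k t) - q F (del k p)) ^ 2 := by
      nlinarith [sq_nonneg ((q F p - q F (del k p)) + (q F (update p k t) - q F (del k p)))]
    refine (ENNReal.ofReal_le_ofReal h2).trans ?_
    rw [ENNReal.ofReal_add (by positivity) (by positivity), ENNReal.ofReal_mul (by norm_num),
      ENNReal.ofReal_mul (by norm_num)]
    simp
  have hmp := mp_update (fun _ : ℤ × ℤ => pbLaw) k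
  have e1 : ∫⁻ p, ∫⁻ t, g (update p k t) ∂pbLaw ∂posLaw = ∫⁻ p, g p ∂posLaw := by
    have e2 := hmp.lintegral_comp hgm
    have e3 := lintegral_prod (μ := posLaw) (ν := pbLaw)
      (fun z : Pos × PB => g (update z.1 k z.2)) (hgm.comp measurable_update').aemeasurable
    exact e3.symm.trans e2
  have mg : ∀ p : Pos, Measurable (fun t : PB => g (update p k t)) := fun p =>
    hgm.comp (measurable_update'.comp (measurable_const.prodMk measurable_id))
  have mG : Measurable (fun p : Pos => ∫⁻ t, g (update p k t) ∂pbLaw) :=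
    Measurable.lintegral_prod_right' (f := fun z : Pos × PB => g (update z.1 k z.2))
      (hgm.comp measurable_update')
  calc infl posLaw pbLaw (q F) k
      ≤ ∫⁻ p, ∫⁻ t, (2 * g p + 2 * g (update p k t)) ∂pbLaw ∂posLaw :=
        lintegral_mono fun p => lintegral_mono fun t => h1 p t
    _ = ∫⁻ p, (2 * g p + 2 * ∫⁻ t, g (update p k t) ∂pbLaw) ∂posLaw := by
        apply lintegral_congr
        intro p
        rw [lintegral_add_left measurable_const, lintegral_const, measure_univ, mul_one,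
          lintegral_const_mul _ (mg p)]
    _ = 2 * ∫⁻ p, g p ∂posLaw + 2 * ∫⁻ p, g p ∂posLaw := by
        rw [lintegral_add_left (hgm.const_mul 2), lintegral_const_mul _ hgm,
          lintegral_const_mul _ mG, e1]
    _ = 4 * ∫⁻ p, g p ∂posLaw := by
        rw [← add_mul]; norm_num

/-- the present indices in the blocks `K` -/
def TK (p : Pos) (K : Finset (ℤ × ℤ)) : Finset ((ℤ × ℤ) × ℕ) := K.biUnion (Tk p)

lemma mem_TK {p : Pos} {K : Finset (ℤ × ℤ)} {i : (ℤ × ℤ) × ℕ} :
    i ∈ TK p K ↔ i.1 ∈ K ∧ i.2 < (p i.1).1 := by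
  unfold TK
  simp only [Finset.mem_biUnion, mem_Tk]
  constructor
  · rintro ⟨k, hk, h1, h2⟩; subst h1; exact ⟨hk, h2⟩
  · rintro ⟨h1, h2⟩; exact ⟨i.1, h1, rfl, h2⟩

/-- **quenched variance bound** -/
theorem dvar_q_le (h : Quen F) (K : Finset (ℤ × ℤ)) (M nA : ℕ) {δ : ℝ} (hδ : 0 ≤ δ)
    (bad : Set Pos) (hgood : ∀ p ∉ bad, (∀ k ∈ K, (p k).1 ≤ M) ∧
      ∃ J, Algs F p nA δ (TK p K : Set ((ℤ × ℤ) × ℕ)) J) (r : ℤ × ℤ → ℝ≥0∞)
    (hr : ∀ k ∉ K, posLaw {p | q F p ≠ q F (del k p)} ≤ r k) :
    dvar posLaw (q F) ≤ 4 * (ENNReal.ofReal (4 ^ M * M * (nA * δ)) + K.card * posLaw bad +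
      ∑' k, r k) := by
  have hq := measurable_q h
  set g : ℤ × ℤ → Pos → ℝ≥0∞ := fun k p => ENNReal.ofReal ((q F p - q F (del k p)) ^ 2) with hg
  have hgm : ∀ k, Measurable (g k) := fun k =>
    ((hq.sub (hq.comp (measurable_del k))).pow_const 2).ennreal_ofReal
  have hg1 : ∀ k p, g k p ≤ 1 := by
    intro k p
    simp only [hg]
    rw [← ENNReal.ofReal_one]
    apply ENNReal.ofReal_le_ofReal
    have a1 := q_nonneg h p
    have a2 := q_le_one h p
    have a3 := q_nonneg h (del k p)
    have a4 := q_le_one h (del k p)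
    nlinarith
  have h0 : dvar posLaw (q F) ≤ ∑' k, infl posLaw pbLaw (q F) k :=
    dvar_le_tsum (C := 1) pbLaw hq (abs_q_le h)
  have h1 : ∑' k, infl posLaw pbLaw (q F) k ≤ ∑' k, 4 * ∫⁻ p, g k p ∂posLaw :=
    ENNReal.tsum_le_tsum fun k => infl_le h k
  rw [ENNReal.tsum_mul_left] at h1
  refine h0.trans (h1.trans ?_)
  refine mul_le_mul_right ?_ 4
  -- near and far blocks
  have h2 : ∑' k, ∫⁻ p, g k p ∂posLaw ≤
      (∑ k ∈ K, ∫⁻ p, g k p ∂posLaw) + ∑' k, r k := by
    classical
    have h3 : ∀ k, ∫⁻ p, g k p ∂posLaw ≤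
        (if k ∈ K then ∫⁻ p, g k p ∂posLaw else 0) + r k := by
      intro k
      by_cases hk : k ∈ K
      · simp [hk]
      · simp only [hk, if_false, zero_add]
        refine le_trans ?_ (hr k hk)
        calc ∫⁻ p, g k p ∂posLaw
            ≤ ∫⁻ p, ({p | q F p ≠ q F (del k p)} : Set Pos).indicator (fun _ => (1 : ℝ≥0∞)) p
                ∂posLaw := by
              apply lintegral_mono
              intro p
              by_cases hp : p ∈ ({p | q F p ≠ q F (del k p)} : Set Pos)
              · rw [Set.indicator_of_mem hp]; exact hg1 k p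
              · rw [Set.indicator_of_notMem hp]
                have : q F p = q F (del k p) := not_not.1 hp
                simp [hg, this]
          _ ≤ posLaw {p | q F p ≠ q F (del k p)} := by
              have := lintegral_indicator_const_le (μ := posLaw)
                ({p | q F p ≠ q F (del k p)} : Set Pos) 1
              simpa using this
    refine (ENNReal.tsum_le_tsum h3).trans ?_
    rw [ENNReal.tsum_add]
    refine add_le_add ?_ le_rfl
    rw [tsum_eq_sum (s := K) (fun k hk => by simp [hk])]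
    exact Finset.sum_le_sum fun k hk => by simp [hk]
  refine h2.trans (add_le_add ?_ le_rfl)
  rw [← lintegral_finsetSum _ (fun k _ => hgm k)]
  have h4 : ∀ p, ∑ k ∈ K, g k p ≤ ENNReal.ofReal (4 ^ M * M * (nA * δ)) +
      bad.indicator (fun _ => (K.card : ℝ≥0∞)) p := by
    intro p
    by_cases hp : p ∈ bad
    · rw [Set.indicator_of_mem hp]
      refine le_add_left ?_
      calc ∑ k ∈ K, g k p ≤ ∑ k ∈ K, 1 := Finset.sum_le_sum fun k _ => hg1 k p
        _ = (K.card : ℝ≥0∞) := by simp
    · rw [Set.indicator_of_notMem hp, add_zero]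
      obtain ⟨hM, J, hJ⟩ := hgood p hp
      simp only [hg]
      rw [← ENNReal.ofReal_sum_of_nonneg (fun k _ => sq_nonneg _)]
      apply ENNReal.ofReal_le_ofReal
      have h5 : ∀ k ∈ K, (q F p - q F (del k p)) ^ 2 ≤
          4 ^ M * M * ∑ i ∈ Tk p k, lev F p i ^ 2 := by
        intro k hk
        refine (sq_q_del_le h p k).trans ?_
        refine mul_le_mul_of_nonneg_right ?_ (Finset.sum_nonneg fun i _ => sq_nonneg _)
        have hMk := hM k hk
        have b1 : (4 : ℝ) ^ (p k).1 ≤ 4 ^ M := pow_le_pow_right₀ (by norm_num) hMk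
        have b2 : ((p k).1 : ℝ) ≤ M := by exact_mod_cast hMk
        exact mul_le_mul b1 b2 (by positivity) (by positivity)
      refine (Finset.sum_le_sum h5).trans ?_
      rw [← Finset.mul_sum]
      refine mul_le_mul_of_nonneg_left ?_ (by positivity)
      have h6 : ∑ k ∈ K, ∑ i ∈ Tk p k, lev F p i ^ 2 = ∑ i ∈ TK p K, lev F p i ^ 2 := by
        unfold TK
        rw [Finset.sum_biUnion]
        intro k _ k' _ hkk'
        rw [Function.onFun, Finset.disjoint_left]
        intro i hi hi'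
        exact hkk' ((mem_Tk.1 hi).1.symm.trans (mem_Tk.1 hi').1)
      rw [h6]
      exact sum_lev_le h hδ hJ (TK p K) (fun i hi => hi)
  refine (lintegral_mono h4).trans ?_
  rw [lintegral_add_left measurable_const, lintegral_const, measure_univ, mul_one]
  refine add_le_add le_rfl ?_
  exact lintegral_indicator_const_le _ _

/-- first moment form: `(E |q - E q|)^2 ≤ dvar / 2` -/
theorem sq_int_abs_le (h : Quen F) :
    ENNReal.ofReal (2 * (∫ p, |q F p - ∫ p', q F p' ∂posLaw| ∂posLaw) ^ 2) ≤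
      dvar posLaw (q F) := by
  have hq := measurable_q h
  have hm : MemLp (q F) 2 posLaw := MemLp.of_bound hq.aestronglyMeasurable 1
    (Filter.Eventually.of_forall fun x => by rw [Real.norm_eq_abs]; exact abs_q_le h x)
  rw [dvar_eq hm]
  apply ENNReal.ofReal_le_ofReal
  refine mul_le_mul_of_nonneg_left ?_ (by norm_num)
  rw [ProbabilityTheory.variance_eq_integral hq.aemeasurable]
  set m := ∫ p', q F p' ∂posLaw with hmdef
  have hma : MemLp (fun p => |q F p - m|) 2 posLaw := by
    refine MemLp.of_bound (hq.sub_const m).abs.aestronglyMeasurable (1 + |m|)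
      (Filter.Eventually.of_forall fun x => ?_)
    rw [Real.norm_eq_abs, abs_abs]
    exact (abs_sub _ _).trans (add_le_add (abs_q_le h x) le_rfl)
  have hv := ProbabilityTheory.variance_nonneg (fun p => |q F p - m|) posLaw
  rw [ProbabilityTheory.variance_eq_sub hma] at hv
  have h3 : (∫ y, ((fun p => |q F p - m|) ^ 2) y ∂posLaw) = ∫ y, (q F y - m) ^ 2 ∂posLaw := by
    apply integral_congr_ae
    refine Filter.Eventually.of_forall fun y => ?_
    simp only [Pi.pow_apply, sq_abs]
  rw [h3] at hv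
  have h4 : (∫ y, (q F y - m) ^ 2 ∂posLaw) = ∫ ω, (q F ω - ∫ (x : Pos), q F x ∂posLaw) ^ 2 ∂posLaw :=
    rfl
  linarith [hv, h4]

end Crest.Agent.R143.Var2x831
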