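import Crest.Agent.R143.Law_831
import Crest.Agent.R143.Rev_831

/-!
# R143 (helper831, BC8): quenched variance

Colours: `c : I → [0,1]`, black = mark `< 1/2`. `half` is the centred colour.
* `int_split` : average over one colour
* `telescope` : all black minus all white on a finite set `T` is at most
  `2^|T| ∑_{i ∈ T} E φ half_i`
-/

set_option autoImplicit false
set_option linter.unusedSectionVars false

noncomputable section

namespace Crest.Agent.R143.Varx831

open MeasureTheory Set Function
open Crest.ProbabilityR.Voronoi
open Crest.Agent.R143.ESx831 Crest.Agent.R143.Revx831 Crest.Agent.R143.Lawx831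
open scoped ENNReal

open Classical in
/-- centred colour: `1` = black -/
def half (t : unitInterval) : ℝ := if (t : ℝ) < 1 / 2 then 1 else -1

lemma half_zero : half 0 = 1 := by unfold half; norm_num
lemma half_one : half 1 = -1 := by unfold half; norm_num

lemma measurableSet_black : MeasurableSet {t : unitInterval | (t : ℝ) < 1 / 2} :=
  measurableSet_lt measurable_subtype_coe measurable_const

lemma measurable_half : Measurable half :=
  Measurable.ite measurableSet_black measurable_const measurable_const

lemma abs_half_le (t : unitInterval) : |half t| ≤ 1 := by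
  unfold half; split_ifs <;> simp

lemma volume_black : (volume : Measure unitInterval).real {t : unitInterval | (t : ℝ) < 1 / 2} =
    1 / 2 := by
  have h : {t : unitInterval | (t : ℝ) < 1 / 2} =
      Set.Iio (⟨1 / 2, by norm_num, by norm_num⟩ : unitInterval) := by
    ext t
    simp only [Set.mem_ofPred_eq, Set.mem_Iio, ← Subtype.coe_lt_coe]
  rw [h, Measure.real, unitInterval.volume_Iio]
  simp

/-- a function of the colour only -/
lemma integral_two {g : unitInterval → ℝ}
    (hg : ∀ t t' : unitInterval, ((t : ℝ) < 1 / 2 ↔ (t' : ℝ) < 1 / 2) → g t = g t') :
    ∫ t, g t = (g 0 + g 1) / 2 := by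
  set S : Set unitInterval := {t : unitInterval | (t : ℝ) < 1 / 2} with hS
  have h1 : ∀ t, g t = S.indicator (fun _ => g 0 - g 1) t + g 1 := by
    intro t
    by_cases ht : t ∈ S
    · rw [Set.indicator_of_mem ht]
      have : g t = g 0 := hg t 0 (by
        have : (t : ℝ) < 1 / 2 := ht
        exact ⟨fun _ => by norm_num, fun _ => this⟩)
      rw [this]; ring
    · rw [Set.indicator_of_notMem ht]
      have : g t = g 1 := hg t 1 (by
        have h2 : ¬ (t : ℝ) < 1 / 2 := ht
        constructor
        · intro h; exact absurd h h2
        · intro h; norm_num at h)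
      rw [this]; ring
  rw [integral_congr_ae (Filter.Eventually.of_forall h1), integral_add, integral_indicator_const,
    volume_black]
  · simp; ring
  · exact measurableSet_black
  · exact (integrable_const _).indicator measurableSet_black
  · exact integrable_const _

variable {I : Type*} [DecidableEq I]

/-- the law of the colours -/
def cl (I : Type*) : Measure (I → unitInterval) :=
  Measure.infinitePi fun _ : I => (volume : Measure unitInterval)

instance : IsProbabilityMeasure (cl I) := by unfold cl; infer_instance

/-- `φ` sees the mark `i` only through its colour -/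
def ColDep (φ : (I → unitInterval) → ℝ) (i : I) : Prop :=
  ∀ (c : I → unitInterval) (t t' : unitInterval), ((t : ℝ) < 1 / 2 ↔ (t' : ℝ) < 1 / 2) →
    φ (update c i t) = φ (update c i t')

lemma measurable_upd (i : I) (v : unitInterval) :
    Measurable (fun c : I → unitInterval => update c i v) :=
  measurable_update'.comp (measurable_id.prodMk measurable_const)

variable {φ : (I → unitInterval) → ℝ} {C : ℝ}

/-- average over one colour -/
lemma int_split (hφ : Measurable φ) (hb : ∀ c, |φ c| ≤ C) {i : I} (hi : ColDep φ i) :
    ∫ c, φ c ∂(cl I) =
      (∫ c, φ (update c i 0) ∂(cl I) + ∫ c, φ (update c i 1) ∂(cl I)) / 2 := by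
  have hmp := mp_update (fun _ : I => (volume : Measure unitInterval)) i
  have e1 := integral_map (μ := (cl I).prod (volume : Measure unitInterval))
    (φ := fun p : (I → unitInterval) × unitInterval => update p.1 i p.2)
    hmp.measurable.aemeasurable (f := φ) (by
      unfold cl; rw [hmp.map_eq]; exact hφ.aestronglyMeasurable)
  have e2 : ((cl I).prod (volume : Measure unitInterval)).map
      (fun p : (I → unitInterval) × unitInterval => update p.1 i p.2) = cl I := hmp.map_eq
  rw [e2] at e1
  have hint : Integrable (fun p : (I → unitInterval) × unitInterval => φ (update p.1 i p.2))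
      ((cl I).prod (volume : Measure unitInterval)) :=
    integrable_of_bound _ (hφ.comp measurable_update') (fun p => hb _)
  rw [e1, integral_prod _ hint]
  have e3 : ∀ c : I → unitInterval, ∫ t, φ (update c i t) ∂(volume : Measure unitInterval) =
      (φ (update c i 0) + φ (update c i 1)) / 2 := fun c =>
    integral_two (g := fun t => φ (update c i t)) (fun t t' h => hi c t t' h)
  simp only [e3]
  rw [integral_div, integral_add]
  · exact integrable_of_bound _ (hφ.comp (measurable_upd i 0)) (fun c => hb _)
  · exact integrable_of_bound _ (hφ.comp (measurable_upd i 1)) (fun c => hb _)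

/-- the level-one coefficient is half of the influence -/
lemma int_half (hφ : Measurable φ) (hb : ∀ c, |φ c| ≤ C) {i : I} (hi : ColDep φ i) :
    ∫ c, φ c * half (c i) ∂(cl I) =
      (∫ c, (φ (update c i 0) - φ (update c i 1)) ∂(cl I)) / 2 := by
  have hC : 0 ≤ C := (abs_nonneg _).trans (hb (fun _ => 0))
  have hd : ColDep (fun c => φ c * half (c i)) i := by
    intro c t t' h
    simp only [update_self]
    rw [hi c t t' h]
    congr 1
    unfold half
    simp only [h]
  have h1 := int_split (φ := fun c => φ c * half (c i))
    (hφ.mul (measurable_half.comp (measurable_pi_apply i))) (C := C * 1) (fun c => by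
      rw [abs_mul]
      exact mul_le_mul (hb c) (abs_half_le _) (abs_nonneg _) hC) hd
  rw [h1]
  simp only [update_self, half_zero, half_one, mul_one, mul_neg]
  rw [integral_neg, integral_sub]
  · ring
  · exact integrable_of_bound _ (hφ.comp (measurable_upd i 0)) (fun c => hb _)
  · exact integrable_of_bound _ (hφ.comp (measurable_upd i 1)) (fun c => hb _)

/-- set the colours in `T` to `v` -/
def setc (T : Finset I) (v : unitInterval) (c : I → unitInterval) : I → unitInterval :=
  T.piecewise (fun _ => v) c

lemma setc_empty (v : unitInterval) (c : I → unitInterval) : setc ∅ v c = c := by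
  unfold setc; simp

lemma setc_insert (T : Finset I) (i : I) (v : unitInterval) (c : I → unitInterval) :
    setc (insert i T) v c = update (setc T v c) i v := by
  unfold setc
  rw [Finset.piecewise_insert]

lemma measurable_setc (T : Finset I) (v : unitInterval) :
    Measurable (setc T v : (I → unitInterval) → (I → unitInterval)) := by
  rw [measurable_pi_iff]
  intro i
  unfold setc
  by_cases hi : i ∈ T
  · simp only [Finset.piecewise, hi, if_true]; exact measurable_const
  · simp only [Finset.piecewise, hi, if_false]; exact measurable_pi_apply i

lemma ColDep.upd (i j : I) (hij : i ≠ j) (h : ColDep φ j) (v : unitInterval) :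
    ColDep (fun c => φ (update c i v)) j := by
  intro c t t' ht
  simp only
  rw [update_comm hij.symm, update_comm hij.symm]
  exact h _ t t' ht

/-- fixing the colours in `T` costs `2^|T|` for nonnegative functions -/
lemma int_setc_le (T : Finset I) (v : unitInterval) (hv : v = 0 ∨ v = 1) :
    ∀ {ψ : (I → unitInterval) → ℝ}, Measurable ψ → (∀ c, 0 ≤ ψ c) → (∀ c, |ψ c| ≤ C) →
      (∀ i ∈ T, ColDep ψ i) →
      ∫ c, ψ (setc T v c) ∂(cl I) ≤ 2 ^ T.card * ∫ c, ψ c ∂(cl I) := by
  induction T using Finset.induction_on with
  | empty =>
      intro ψ _ _ _ _
      simp [setc_empty]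
  | insert i T hi ih =>
      intro ψ hψ h0 hb hd
      have h1 : ∀ c, ψ (setc (insert i T) v c) = (fun c => ψ (update c i v)) (setc T v c) := by
        intro c
        rw [setc_insert]
      simp only [h1]
      have h2 := ih (ψ := fun c => ψ (update c i v)) (hψ.comp (measurable_upd i v))
        (fun c => h0 _) (fun c => hb _) (fun j hj => ColDep.upd i j
          (fun h => hi (h ▸ hj)) (hd j (Finset.mem_insert_of_mem hj)) v)
      refine h2.trans ?_
      rw [Finset.card_insert_of_notMem hi, pow_succ, mul_assoc]
      refine mul_le_mul_of_nonneg_left ?_ (by positivity)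
      have h3 := int_split hψ hb (hd i (Finset.mem_insert_self i T))
      have h4 : 0 ≤ ∫ c, ψ (update c i 0) ∂(cl I) := integral_nonneg fun c => h0 _
      have h5 : 0 ≤ ∫ c, ψ (update c i 1) ∂(cl I) := integral_nonneg fun c => h0 _
      rcases hv with rfl | rfl <;> linarith

/-- **telescoping**: all black minus all white -/
theorem telescope (T : Finset I) :
    ∀ {φ : (I → unitInterval) → ℝ}, Measurable φ → (∀ c, |φ c| ≤ C) →
      (∀ i ∈ T, ColDep φ i) → (∀ i ∈ T, ∀ c, φ (update c i 1) ≤ φ (update c i 0)) →
      ∫ c, (φ (setc T 0 c) - φ (setc T 1 c)) ∂(cl I) ≤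
        2 ^ T.card * ∑ i ∈ T, ∫ c, φ c * half (c i) ∂(cl I) := by
  induction T using Finset.induction_on with
  | empty =>
      intro φ _ _ _ _
      simp [setc_empty]
  | insert i T hi ih =>
      intro φ hφ hb hd hm
      have hne : ∀ j ∈ T, i ≠ j := fun j hj h => hi (h ▸ hj)
      have hint : ∀ (T' : Finset I) (v w : unitInterval),
          Integrable (fun c => φ (update (setc T' v c) i w)) (cl I) := fun T' v w =>
        integrable_of_bound _ (hφ.comp ((measurable_upd i w).comp (measurable_setc T' v)))
          (fun c => hb _)
      have e1 : ∀ c, φ (setc (insert i T) 0 c) - φ (setc (insert i T) 1 c) =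
          (φ (update (setc T 0 c) i 0) - φ (update (setc T 0 c) i 1)) +
            (φ (update (setc T 0 c) i 1) - φ (update (setc T 1 c) i 1)) := by
        intro c
        rw [setc_insert, setc_insert]; ring
      have i1 : Integrable (fun c => φ (update (setc T 0 c) i 0) - φ (update (setc T 0 c) i 1))
          (cl I) := (hint T 0 0).sub (hint T 0 1)
      have i2 : Integrable (fun c => φ (update (setc T 0 c) i 1) - φ (update (setc T 1 c) i 1))
          (cl I) := (hint T 0 1).sub (hint T 1 1)
      rw [integral_congr_ae (Filter.Eventually.of_forall e1), integral_add i1 i2,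
        Finset.sum_insert hi, Finset.card_insert_of_notMem hi, mul_add]
      refine add_le_add ?_ ?_
      · -- first term
        have h1 := int_setc_le (C := C + C) T 0 (Or.inl rfl)
          (ψ := fun c => φ (update c i 0) - φ (update c i 1))
          ((hφ.comp (measurable_upd i 0)).sub (hφ.comp (measurable_upd i 1)))
          (fun c => sub_nonneg.2 (hm i (Finset.mem_insert_self i T) c))
          (fun c => (abs_sub _ _).trans (add_le_add (hb _) (hb _))) (fun j hj => by
            intro c t t' ht
            have a1 := ColDep.upd i j (hne j hj) (hd j (Finset.mem_insert_of_mem hj)) 0 c t t' ht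
            have a2 := ColDep.upd i j (hne j hj) (hd j (Finset.mem_insert_of_mem hj)) 1 c t t' ht
            simp only at a1 a2 ⊢
            rw [a1, a2])
        refine h1.trans ?_
        rw [int_half hφ hb (hd i (Finset.mem_insert_self i T)), pow_succ]
        apply le_of_eq
        ring
      · -- second term
        have h1 := ih (φ := fun c => φ (update c i 1)) (hφ.comp (measurable_upd i 1))
          (fun c => hb _) (fun j hj => ColDep.upd i j (hne j hj)
            (hd j (Finset.mem_insert_of_mem hj)) 1) (fun j hj c => by
              rw [update_comm (hne j hj).symm, update_comm (hne j hj).symm]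
              exact hm j (Finset.mem_insert_of_mem hj) _)
        refine h1.trans ?_
        rw [pow_succ, mul_assoc]
        refine mul_le_mul_of_nonneg_left ?_ (by positivity)
        rw [Finset.mul_sum]
        refine Finset.sum_le_sum fun j hj => ?_
        have hdj := hd j (Finset.mem_insert_of_mem hj)
        rw [int_half (φ := fun c => φ (update c i 1)) (hφ.comp (measurable_upd i 1))
          (fun c => hb _) (ColDep.upd i j (hne j hj) hdj 1), int_half hφ hb hdj]
        have h2 := int_setc_le (C := C + C) {i} 1 (Or.inr rfl)
          (ψ := fun c => φ (update c j 0) - φ (update c j 1))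
          ((hφ.comp (measurable_upd j 0)).sub (hφ.comp (measurable_upd j 1)))
          (fun c => sub_nonneg.2 (hm j (Finset.mem_insert_of_mem hj) c))
          (fun c => (abs_sub _ _).trans (add_le_add (hb _) (hb _))) (fun j' hj' => by
            rw [Finset.mem_singleton] at hj'
            subst hj'
            intro c t t' ht
            have a1 := ColDep.upd j j' (hne j hj).symm (hd j' (Finset.mem_insert_self j' T)) 0 c t t' ht
            have a2 := ColDep.upd j j' (hne j hj).symm (hd j' (Finset.mem_insert_self j' T)) 1 c t t' ht
            simp only at a1 a2 ⊢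
            rw [a1, a2])
        have h3 : ∀ c : I → unitInterval, setc {i} 1 c = update c i 1 := by
          intro c
          have := setc_insert ∅ i 1 c
          rw [setc_empty] at this
          rw [← this]; rfl
        simp only [h3, Finset.card_singleton, pow_one] at h2
        have h4 : ∀ c : I → unitInterval, φ (update (update c j 0) i 1) -
            φ (update (update c j 1) i 1) =
              φ (update (update c i 1) j 0) - φ (update (update c i 1) j 1) := by
          intro c
          rw [update_comm (hne j hj).symm, update_comm (hne j hj).symm]
        simp only [h4]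
        linarith

end Crest.Agent.R143.Varx831
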