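import Mathlib

/-!
# Row 143 (S0194): product weights along a chain of gates and tubes (helper358, after helper970 3261)

`Measure.pi μ` = independent regions.  A weight is a product of gate factors `a v (w v)` and of tube
factors `b e w` whose conditional mean given all the other regions is a constant `c e` (normalisation
`c / π(q, q')` of helper47 and helper970).

* `resample` : resampling of one coordinate
* `peel`, `peel_prod` : factors with constant conditional mean are integrated out
* `chain` : `∫ (∏ a) (∏ b) F = (∏ c) (∏ α) * ∫ (∏ a over V0) (∏ b over E0) F` if `F` looks only at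
  the regions of `V0`, `E0`
* `chain_map` : the same for laws: under the weight the law of a function of the regions of `V0`, `E0`
  is a constant times the law under the small weight
* `chain_integral` : for integrals with values in a Banach space
* `norm_factor` : the factor `c / π` has the conditional mean `c`
-/

set_option autoImplicit false

noncomputable section

open MeasureTheory Function
open scoped ENNReal

namespace Crest.Agent.R143.WChainx358

variable {ι : Type*} [Fintype ι] [DecidableEq ι] {Ω : ι → Type*} [∀ i, MeasurableSpace (Ω i)]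
  {μ : ∀ i, Measure (Ω i)} [∀ i, IsProbabilityMeasure (μ i)]

omit [Fintype ι] in
theorem measurable_resample {F : (∀ i, Ω i) → ℝ≥0∞} (hF : Measurable F) (i : ι) :
    Measurable fun w : ∀ i, Ω i => ∫⁻ x, F (update w i x) ∂μ i := by
  have h1 : Measurable (lmarginal μ {i} F) := hF.lmarginal μ
  rw [lmarginal_singleton] at h1
  exact h1

/-- **resampling of one coordinate** -/
theorem resample {F : (∀ i, Ω i) → ℝ≥0∞} (hF : Measurable F) (i : ι) :
    ∫⁻ w, F w ∂Measure.pi μ = ∫⁻ w, ∫⁻ x, F (update w i x) ∂μ i ∂Measure.pi μ := by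
  refine lintegral_eq_of_lmarginal_eq {i} hF (measurable_resample hF i) ?_
  rw [lmarginal_singleton, lmarginal_singleton]
  funext w
  simp [update_idem]

/-- **a factor with constant conditional mean is integrated out** -/
theorem peel {H f : (∀ i, Ω i) → ℝ≥0∞} (hH : Measurable H) (hf : Measurable f) {i : ι} {c : ℝ≥0∞}
    (h1 : ∀ w x, H (update w i x) = H w)
    (h2 : ∀ w, H w ≠ 0 → ∫⁻ x, f (update w i x) ∂μ i = c) :
    ∫⁻ w, f w * H w ∂Measure.pi μ = c * ∫⁻ w, H w ∂Measure.pi μ := by
  have hfH : Measurable fun w : ∀ i, Ω i => f w * H w := hf.mul hH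
  rw [resample hfH i, ← lintegral_const_mul c hH]
  refine lintegral_congr fun w => ?_
  have e : ∀ x, f (update w i x) * H (update w i x) = f (update w i x) * H w := fun x => by
    rw [h1]
  simp only [e]
  rw [lintegral_mul_const]
  · by_cases h : H w = 0
    · rw [h, mul_zero, mul_zero]
    · rw [h2 w h]
  · exact hf.comp (measurable_update w)

/-- **product form** -/
theorem peel_prod {H : (∀ i, Ω i) → ℝ≥0∞} (hH : Measurable H) (S : Finset ι)
    {b : ι → (∀ i, Ω i) → ℝ≥0∞} {c : ι → ℝ≥0∞} (hb : ∀ e ∈ S, Measurable (b e))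
    (hi : ∀ e ∈ S, ∀ e' ∈ S, e' ≠ e → ∀ w x, b e (update w e' x) = b e w)
    (hHi : ∀ e ∈ S, ∀ w x, H (update w e x) = H w)
    (hc : ∀ e ∈ S, ∀ w, H w ≠ 0 → ∫⁻ x, b e (update w e x) ∂μ e = c e) :
    ∫⁻ w, (∏ e ∈ S, b e w) * H w ∂Measure.pi μ = (∏ e ∈ S, c e) * ∫⁻ w, H w ∂Measure.pi μ := by
  induction S using Finset.induction_on with
  | empty => simp
  | insert e S he ih =>
    have h1 := ih (fun e' h' => hb e' (Finset.mem_insert_of_mem h'))
      (fun e1 k1 e2 k2 => hi e1 (Finset.mem_insert_of_mem k1) e2 (Finset.mem_insert_of_mem k2))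
      (fun e' h' => hHi e' (Finset.mem_insert_of_mem h'))
      (fun e' h' => hc e' (Finset.mem_insert_of_mem h'))
    rw [Finset.prod_insert he, mul_assoc, ← h1]
    have hm : Measurable fun w : ∀ i, Ω i => (∏ e ∈ S, b e w) * H w := by
      refine Measurable.mul ?_ hH
      exact Finset.measurable_prod S fun e' h' => hb e' (Finset.mem_insert_of_mem h')
    rw [← peel (μ := μ) (i := e) (c := c e) hm (hb e (Finset.mem_insert_self e S))]
    · refine lintegral_congr fun w => ?_
      rw [Finset.prod_insert he, mul_assoc]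
    · intro w x
      rw [hHi e (Finset.mem_insert_self e S)]
      congr 1
      refine Finset.prod_congr rfl fun e' h' => ?_
      exact hi e' (Finset.mem_insert_of_mem h') e (Finset.mem_insert_self e S)
        (fun h => he (h ▸ h')) w x
    · intro w hw
      exact hc e (Finset.mem_insert_self e S) w (right_ne_zero_of_mul hw)

/-! ### chains -/

/-- gates `V`, tubes `E`; the gate factor `a v` looks at the region `v`, the tube factor `b e` at the
region `e` and at the gates -/
structure Wt (μ : ∀ i, Measure (Ω i)) (V E : Finset ι) (a b : ι → (∀ i, Ω i) → ℝ≥0∞)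
    (c : ι → ℝ≥0∞) : Prop where
  dis : Disjoint V E
  ma : ∀ v ∈ V, Measurable (a v)
  mb : ∀ e ∈ E, Measurable (b e)
  ai : ∀ v ∈ V, ∀ i, i ≠ v → ∀ w x, a v (update w i x) = a v w
  bi : ∀ e ∈ E, ∀ e' ∈ E, e' ≠ e → ∀ w x, b e (update w e' x) = b e w
  mean : ∀ e ∈ E, ∀ w, (∀ v ∈ V, a v w ≠ 0) → ∫⁻ x, b e (update w e x) ∂μ e = c e

variable {V E V0 E0 : Finset ι} {a b : ι → (∀ i, Ω i) → ℝ≥0∞} {c : ι → ℝ≥0∞}

/-- **the chain lemma** -/
theorem Wt.chain (W : Wt μ V E a b c) (hV : V0 ⊆ V) (hE : E0 ⊆ E)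
    (hb0 : ∀ e ∈ E0, ∀ v ∈ V \ V0, ∀ w x, b e (update w v x) = b e w)
    {F : (∀ i, Ω i) → ℝ≥0∞} (hF : Measurable F)
    (hFi : ∀ i, i ∈ V \ V0 ∨ i ∈ E \ E0 → ∀ w x, F (update w i x) = F w) :
    ∫⁻ w, (∏ v ∈ V, a v w) * (∏ e ∈ E, b e w) * F w ∂Measure.pi μ =
      ((∏ e ∈ E \ E0, c e) * ∏ v ∈ V \ V0, ∫⁻ w, a v w ∂Measure.pi μ) *
        ∫⁻ w, (∏ v ∈ V0, a v w) * (∏ e ∈ E0, b e w) * F w ∂Measure.pi μ := by
  have hVE : ∀ {v e : ι}, v ∈ V → e ∈ E → e ≠ v := by
    intro v e h1 h2 h3
    exact Finset.disjoint_left.1 W.dis h1 (h3 ▸ h2)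
  have mV : ∀ {S : Finset ι}, S ⊆ V → Measurable fun w : ∀ i, Ω i => ∏ v ∈ S, a v w :=
    fun hS => Finset.measurable_prod _ fun v hv => W.ma v (hS hv)
  have mE : ∀ {S : Finset ι}, S ⊆ E → Measurable fun w : ∀ i, Ω i => ∏ e ∈ S, b e w :=
    fun hS => Finset.measurable_prod _ fun e he => W.mb e (hS he)
  -- the mean of a gate factor
  have mean_a : ∀ v ∈ V, ∀ w : ∀ i, Ω i, ∫⁻ x, a v (update w v x) ∂μ v =
      ∫⁻ w, a v w ∂Measure.pi μ := by
    intro v hv w
    have h1 : ∀ w w' : ∀ i, Ω i, w v = w' v → a v w = a v w' := by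
      -- change the coordinates one by one
      intro w w' h
      have key : ∀ S : Finset ι, v ∉ S →
          a v (fun i => if i ∈ S then w' i else w i) = a v w := by
        intro S
        induction S using Finset.induction_on with
        | empty => intro _; simp
        | insert j S hj ih =>
          intro hS
          rw [← ih fun h' => hS (Finset.mem_insert_of_mem h')]
          have hjv : j ≠ v := fun h' => hS (h' ▸ Finset.mem_insert_self j S)
          rw [← W.ai v hv j hjv (fun i => if i ∈ S then w' i else w i) (w' j)]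
          congr 1
          funext i
          by_cases hij : i = j
          · subst hij; simp
          · rw [update_of_ne hij]
            simp [Finset.mem_insert, hij]
      have h2 := key (Finset.univ.erase v) (Finset.notMem_erase v _)
      rw [← h2]
      congr 1
      funext i
      by_cases hiv : i = v
      · subst hiv; simp [h]
      · simp [hiv]
    rw [resample (W.ma v hv) v]
    have h3 : ∀ w' : ∀ i, Ω i, ∫⁻ x, a v (update w' v x) ∂μ v =
        ∫⁻ x, a v (update w v x) ∂μ v := by
      intro w'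
      refine lintegral_congr fun x => ?_
      exact h1 _ _ (by rw [update_self, update_self])
    rw [lintegral_congr h3, lintegral_const, measure_univ, mul_one]
  -- step 1: the tubes outside of `E0`
  have s1 : ∫⁻ w, (∏ v ∈ V, a v w) * (∏ e ∈ E, b e w) * F w ∂Measure.pi μ =
      (∏ e ∈ E \ E0, c e) *
        ∫⁻ w, (∏ v ∈ V, a v w) * (∏ e ∈ E0, b e w) * F w ∂Measure.pi μ := by
    rw [← peel_prod (μ := μ) (H := fun w => (∏ v ∈ V, a v w) * (∏ e ∈ E0, b e w) * F w)
      (((mV subset_rfl).mul (mE hE)).mul hF) (E \ E0) (b := b) (c := c)]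
    · refine lintegral_congr fun w => ?_
      rw [← Finset.prod_sdiff hE]
      ring
    · exact fun e he => W.mb e (Finset.sdiff_subset he)
    · exact fun e he e' he' => W.bi e (Finset.sdiff_subset he) e' (Finset.sdiff_subset he')
    · intro e he w x
      have he' := Finset.mem_sdiff.1 he
      rw [hFi e (Or.inr he)]
      congr 2
      · refine Finset.prod_congr rfl fun v hv => ?_
        exact W.ai v hv e (hVE hv he'.1) w x
      · refine Finset.prod_congr rfl fun e1 h1 => ?_
        exact W.bi e1 (hE h1) e he'.1 (fun h => he'.2 (h ▸ h1)) w x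
    · intro e he w hw
      refine W.mean e (Finset.sdiff_subset he) w fun v hv h0 => hw ?_
      rw [Finset.prod_eq_zero hv h0, zero_mul, zero_mul]
  rw [s1, mul_assoc]
  congr 1
  -- step 2: the gates outside of `V0`
  rw [← peel_prod (μ := μ) (H := fun w => (∏ v ∈ V0, a v w) * (∏ e ∈ E0, b e w) * F w)
    (((mV hV).mul (mE hE)).mul hF) (V \ V0) (b := a)
    (c := fun v => ∫⁻ w, a v w ∂Measure.pi μ)]
  · refine lintegral_congr fun w => ?_
    rw [← Finset.prod_sdiff hV]
    ring
  · exact fun v hv => W.ma v (Finset.sdiff_subset hv)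
  · exact fun v hv v' _ hne => W.ai v (Finset.sdiff_subset hv) v' hne
  · intro v hv w x
    have hv' := Finset.mem_sdiff.1 hv
    rw [hFi v (Or.inl hv)]
    congr 2
    · refine Finset.prod_congr rfl fun v1 h1 => ?_
      exact W.ai v1 (hV h1) v (fun h => hv'.2 (h ▸ h1)) w x
    · refine Finset.prod_congr rfl fun e1 h1 => ?_
      exact hb0 e1 h1 v hv w x
  · intro v hv w _
    exact mean_a v (Finset.sdiff_subset hv) w

/-- the total weight -/
theorem Wt.total (W : Wt μ V E a b c) :
    ∫⁻ w, (∏ v ∈ V, a v w) * (∏ e ∈ E, b e w) ∂Measure.pi μ =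
      (∏ e ∈ E, c e) * ∏ v ∈ V, ∫⁻ w, a v w ∂Measure.pi μ := by
  have h := W.chain (V0 := ∅) (E0 := ∅) (Finset.empty_subset _) (Finset.empty_subset _)
    (by simp) (F := fun _ => 1) measurable_const (fun _ _ _ _ => rfl)
  simpa using h

/-- the weight -/
def dens (V E : Finset ι) (a b : ι → (∀ i, Ω i) → ℝ≥0∞) (w : ∀ i, Ω i) : ℝ≥0∞ :=
  (∏ v ∈ V, a v w) * ∏ e ∈ E, b e w

omit [Fintype ι] [∀ i, IsProbabilityMeasure (μ i)] in
theorem Wt.meas_dens (W : Wt μ V E a b c) (hV : V0 ⊆ V) (hE : E0 ⊆ E) :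
    Measurable (dens V0 E0 a b) :=
  (Finset.measurable_prod _ fun v hv => W.ma v (hV hv)).mul
    (Finset.measurable_prod _ fun e he => W.mb e (hE he))

/-- **law form** : `r` looks only at the regions of `V0`, `E0` -/
theorem Wt.chain_map (W : Wt μ V E a b c) (hV : V0 ⊆ V) (hE : E0 ⊆ E)
    (hb0 : ∀ e ∈ E0, ∀ v ∈ V \ V0, ∀ w x, b e (update w v x) = b e w)
    {Z : Type*} [MeasurableSpace Z] {r : (∀ i, Ω i) → Z} (hr : Measurable r)
    (hri : ∀ i, i ∈ V \ V0 ∨ i ∈ E \ E0 → ∀ w x, r (update w i x) = r w) :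
    ((Measure.pi μ).withDensity (dens V E a b)).map r =
      ((∏ e ∈ E \ E0, c e) * ∏ v ∈ V \ V0, ∫⁻ w, a v w ∂Measure.pi μ) •
        ((Measure.pi μ).withDensity (dens V0 E0 a b)).map r := by
  ext s hs
  rw [Measure.smul_apply, Measure.map_apply hr hs, Measure.map_apply hr hs,
    withDensity_apply _ (hr hs), withDensity_apply _ (hr hs), smul_eq_mul,
    ← lintegral_indicator (hr hs), ← lintegral_indicator (hr hs)]
  have h := W.chain hV hE hb0 (F := fun w => (r ⁻¹' s).indicator 1 w)
    (measurable_one.indicator (hr hs)) (fun i hi w x => by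
      show (r ⁻¹' s).indicator 1 (update w i x) = (r ⁻¹' s).indicator 1 w
      have hm : update w i x ∈ r ⁻¹' s ↔ w ∈ r ⁻¹' s := by
        rw [Set.mem_preimage, Set.mem_preimage, hri i hi w x]
      by_cases hw : w ∈ r ⁻¹' s
      · rw [Set.indicator_of_mem (hm.2 hw), Set.indicator_of_mem hw]; rfl
      · rw [Set.indicator_of_notMem (fun h => hw (hm.1 h)), Set.indicator_of_notMem hw])
  have e : ∀ (V' E' : Finset ι) (w : ∀ i, Ω i),
      (r ⁻¹' s).indicator (fun w => dens V' E' a b w) w =
        (∏ v ∈ V', a v w) * (∏ e ∈ E', b e w) * (r ⁻¹' s).indicator 1 w := by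
    intro V' E' w
    unfold Set.indicator dens
    split_ifs <;> simp
  simp only [e]
  exact h

/-- **integral form** -/
theorem Wt.chain_integral (W : Wt μ V E a b c) (hV : V0 ⊆ V) (hE : E0 ⊆ E)
    (hb0 : ∀ e ∈ E0, ∀ v ∈ V \ V0, ∀ w x, b e (update w v x) = b e w)
    {B : Type*} [NormedAddCommGroup B] [NormedSpace ℝ B] [MeasurableSpace B] [BorelSpace B]
    [SecondCountableTopology B] {F : (∀ i, Ω i) → B} (hF : Measurable F)
    (hFi : ∀ i, i ∈ V \ V0 ∨ i ∈ E \ E0 → ∀ w x, F (update w i x) = F w) :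
    ∫ w, F w ∂((Measure.pi μ).withDensity (dens V E a b)) =
      ((∏ e ∈ E \ E0, c e) * ∏ v ∈ V \ V0, ∫⁻ w, a v w ∂Measure.pi μ).toReal •
        ∫ w, F w ∂((Measure.pi μ).withDensity (dens V0 E0 a b)) := by
  have h := W.chain_map hV hE hb0 hF hFi
  have h1 : ∫ z, z ∂(((Measure.pi μ).withDensity (dens V E a b)).map F) =
      ∫ w, F w ∂((Measure.pi μ).withDensity (dens V E a b)) :=
    integral_map hF.aemeasurable aestronglyMeasurable_id
  have h2 : ∫ z, z ∂(((Measure.pi μ).withDensity (dens V0 E0 a b)).map F) =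
      ∫ w, F w ∂((Measure.pi μ).withDensity (dens V0 E0 a b)) :=
    integral_map hF.aemeasurable aestronglyMeasurable_id
  rw [← h1, ← h2, h, integral_smul_measure]

/-- **the normalised tube factor** : `1_E * (c / π)` has the conditional mean `c` -/
theorem norm_factor {Y : Type*} [MeasurableSpace Y] {ν : Measure Y} {e : Set Y}
    (he : MeasurableSet e) {c : ℝ≥0∞} (h0 : ν e ≠ 0) (h1 : ν e ≠ ∞) :
    ∫⁻ y, e.indicator (fun _ => c / ν e) y ∂ν = c := by
  rw [lintegral_indicator he, lintegral_const, Measure.restrict_apply_univ,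
    ENNReal.div_mul_cancel h0 h1]

end Crest.Agent.R143.WChainx358
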