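import Crest.Agent.R143.Mab2_377
import Crest.Agent.R143.Hit_848

/-!
# Row 143: walls of the explored net, end point formula for `Y S N (rr z) x`

* `insert_mark`, `pairs_of_q`, `relAt_all` : the hypotheses of 848's `TT_hit` hold in every net which
  carries an amplitude;
* `side_left`, `side_right`, `walls` : the left sites of the explored path are on the side `2`, the
  right sites on the side `0` of the explored net, every killed edge has its ends on a side;
* `Y_hit` : `Y S N (rr z) x = 3 * ∑ i, omz i * avt (knet N x.1) i z` for an alive state `x`;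
* `Y_le` : `‖Y S N (rr z) x‖ ≤ 9 B` if `‖z v - z0‖ ≤ B` at all vertices.
-/

set_option autoImplicit false

noncomputable section

open scoped Classical

namespace Crest.Agent.R143.Mabx377

open Crest.Agent.R143.B0x346 Crest.Agent.R143.JCardx872 Crest.Agent.R143.JWalkx872
  Crest.Agent.R143.J1x872 Crest.Agent.R143.J4x872 Crest.Agent.R143.Oscx63
open Crest.Agent.R143.Sidesx697 (Wall Side Marks3 HasCol)
open Crest.Agent.R143.Bsumx848 (rr TT TT_eq)
open Crest.Agent.R143.Massx848 (Pairs)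
open Crest.Agent.R143.Hitx848 (EE Di avt tch tch_mem TT_hit)

variable {V : Type}

/-! ### existence of joins -/

section ins

variable {G : Trg V} {kl : Set (V × V)} {D : Set (V × V)} {a b c : V} {J : Finset (V × V)}

/-- inserting a mark: the triangle of the mark becomes odd -/
theorem insert_mark (ht : (a, b, c) ∈ G.T) (hm : (a, b) ∈ D) (hm' : (b, a) ∉ D)
    (hbd : ∀ x, (b, a, x) ∉ G.T)
    (hJ : IsJoin G kl ∅ (D \ {(a, b)}) J) : IsJoin G kl (rots (a, b, c)) D (insert (a, b) J) := by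
  have hab : a ≠ b := G.ne ht
  have hnot : (a, b) ∉ J ∧ (b, a) ∉ J := hJ.bdr a b hbd (fun h => h.2 rfl)
  have hne : (b, a) ≠ (a, b) := by
    intro e
    rw [Prod.mk.injEq] at e
    exact hab e.2
  refine ⟨?_, ?_, ?_, ?_, ?_, ?_⟩
  · intro x hx
    rcases Finset.mem_insert.1 hx with rfl | h
    · exact (mem_E_of_tri ht).1
    · exact hJ.sub h
  · intro x y h1 h2
    have e1 : (x, y) ≠ (a, b) := fun e => h1 (e ▸ hm)
    have e2 : (y, x) ≠ (a, b) := fun e => h2 (e ▸ hm)
    have := hJ.sym x y (fun h => h1 h.1) (fun h => h2 h.1)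
    rw [Finset.mem_insert, Finset.mem_insert]
    tauto
  · intro x y h
    by_cases e : (x, y) = (a, b)
    · rw [Prod.mk.injEq] at e
      obtain ⟨rfl, rfl⟩ := e
      refine ⟨Finset.mem_insert_self _ _, ?_⟩
      rw [Finset.mem_insert]
      tauto
    · have h1 := hJ.mark x y ⟨h, e⟩
      refine ⟨Finset.mem_insert_of_mem h1.1, ?_⟩
      rw [Finset.mem_insert]
      rintro (h2 | h2)
      · rw [Prod.mk.injEq] at h2
        obtain ⟨rfl, rfl⟩ := h2
        exact hm' h
      · exact h1.2 h2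
  · intro x y h1 h2
    have e1 : (x, y) ≠ (a, b) := fun e => h2 (e ▸ hm)
    have e2 : (y, x) ≠ (a, b) := by
      intro e
      rw [Prod.mk.injEq] at e
      obtain ⟨rfl, rfl⟩ := e
      exact h1 c ht
    have h3 := hJ.bdr x y h1 (fun h => h2 h.1)
    rw [Finset.mem_insert, Finset.mem_insert]
    tauto
  · intro x y h1 h2 h3
    have e1 : (x, y) ≠ (a, b) := fun e => h2 (e ▸ hm)
    have e2 : (y, x) ≠ (a, b) := fun e => h3 (e ▸ hm)
    have h4 := hJ.kill x y h1 (fun h => h2 h.1) (fun h => h3 h.1)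
    rw [Finset.mem_insert, Finset.mem_insert]
    tauto
  · intro x y z h
    have hp := hJ.par x y z h
    rw [if_neg (Set.notMem_empty _)] at hp
    obtain ⟨n1, n2, n3⟩ := sides_ne h
    by_cases hs : (x, y, z) ∈ rots (a, b, c)
    · rw [if_pos hs]
      rcases side_of_mem_rots hs with e | e | e
      · have e2 : (y, z) ≠ (a, b) := by rw [← e]; exact n1.symm
        have e3 : (z, x) ≠ (a, b) := by rw [← e]; exact n3.symm
        have h1 : (x, y) ∉ J := by rw [e]; exact hnot.1
        simp only [Finset.mem_insert, e2, e3, e, true_or, false_or, if_true]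
        simp only [h1, if_false] at hp
        omega
      · have e2 : (x, y) ≠ (a, b) := by rw [← e]; exact n1
        have e3 : (z, x) ≠ (a, b) := by rw [← e]; exact n2.symm
        have h1 : (y, z) ∉ J := by rw [e]; exact hnot.1
        simp only [Finset.mem_insert, e2, e3, e, true_or, false_or, if_true]
        simp only [h1, if_false] at hp
        omega
      · have e2 : (x, y) ≠ (a, b) := by rw [← e]; exact n3
        have e3 : (y, z) ≠ (a, b) := by rw [← e]; exact n2
        have h1 : (z, x) ∉ J := by rw [e]; exact hnot.1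
        simp only [Finset.mem_insert, e2, e3, e, true_or, false_or, if_true]
        simp only [h1, if_false] at hp
        omega
    · rw [if_neg hs]
      have e1 : (x, y) ≠ (a, b) := fun e => hs (mem_rots_of_side ht h (Or.inl e))
      have e2 : (y, z) ≠ (a, b) := fun e => hs (mem_rots_of_side ht h (Or.inr (Or.inl e)))
      have e3 : (z, x) ≠ (a, b) := fun e => hs (mem_rots_of_side ht h (Or.inr (Or.inr e)))
      simp only [Finset.mem_insert, e1, e2, e3, false_or]
      exact hp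

end ins

variable {S : Finset ℂ} {N : Net ℂ}

/-- a net with an amplitude: every pair of marks can be joined -/
theorem pairs_of_q (_hg : Good N) {t : ℂ × ℂ × ℂ} (ht : t ∈ N.T) (hQ : N.Q t ≠ 0) : Pairs N := by
  intro m
  obtain ⟨J, hJ, k, hk⟩ := exists_tri hQ
  have hJ' := mem_joins.1 hJ
  obtain ⟨h1, h2⟩ := (tri3_iff k).1 hk
  have hi : En N t J (m - k) m := by
    have := h2 (m - k)
    rwa [sub_add_cancel] at this
  obtain ⟨z, hz, hz'⟩ := sd_tri ht (m - k)
  exact ⟨_, (Monox697.leg_odd hJ' ht hz' hz (h1 _) (mem_exS m) hi).1⟩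

theorem tj_of_mark (hg : Good N) (hpr : Pairs N) {a b c : ℂ} (ht : (a, b, c) ∈ N.T)
    (hm : (a, b) ∈ N.exS) : (N.tj (a, b, c)).Nonempty := by
  obtain ⟨k, hk⟩ := hm
  obtain ⟨J, hJ⟩ := hpr k
  rw [hk] at hJ
  refine ⟨insert (a, b) J, mem_joins.2 (insert_mark ht ⟨k, hk⟩ ?_ ?_ hJ)⟩
  · exact sw_sd_notMark hg ht 0
  · intro x
    have := hg.bd k x
    rw [hk] at this
    exact this

/-- all relations hold if every pair of marks can be joined -/
theorem relAt_all (h : HNet S N) (hpr : Pairs N) : ∀ t ∈ N.T, RelAt N t := by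
  have hg := good_of_hnet h
  rintro ⟨a, b, c⟩ ht
  refine Rel2x63.relAt h (by rw [← h.tri]; exact ht) ?_
  by_cases h1 : (a, b) ∈ N.exS
  · exact Or.inl (tj_of_mark hg hpr ht h1)
  by_cases h2 : (b, c) ∈ N.exS
  · left
    have := tj_of_mark hg hpr (N.rot ht) h2
    rwa [J1x872.tj_rot] at this
  by_cases h3 : (c, a) ∈ N.exS
  · left
    have := tj_of_mark hg hpr (N.rot (N.rot ht)) h3
    rwa [J1x872.tj_rot, J1x872.tj_rot] at this
  · exact Or.inr ⟨h1, h2, h3⟩

/-! ### walls -/

theorem wall_mono {N : Net V} (L : Pt V) {u v : V} (h : Wall N u v) : Wall (knet N L) u v := by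
  obtain ⟨h1, h2, h3, h4⟩ := h
  refine ⟨h1, h2, h3, ?_⟩
  rcases h4 with h4 | h4
  · exact Or.inl (Or.inl h4)
  · exact Or.inr h4

theorem side_mono {N : Net V} (L : Pt V) {i : ZMod 3} {v : V} (h : Side N i v) :
    Side (knet N L) i v := by
  induction h with
  | refl => exact Relation.ReflTransGen.refl
  | tail _ hs ih => exact Relation.ReflTransGen.tail ih (wall_mono L hs)

/-- walls along a path whose uncrossed sides are killed and no marks -/
theorem walls_pth {K : Net V} {i j : ZMod 3} : ∀ (L : Pt V) (p q : V × V), Pth K.toTrg p L q →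
    (∀ a ∈ L, a.2 ∈ K.kl ∧ a.2 ∉ K.exS ∧ sw a.2 ∉ K.exS) → Side K i p.1 → Side K j p.2 →
    Side K i q.1 ∧ Side K j q.2 ∧ ∀ a ∈ L, Side K i a.1.1 ∧ Side K j a.1.2 ∧
      ((Side K i a.2.1 ∧ Side K i a.2.2) ∨ (Side K j a.2.1 ∧ Side K j a.2.2)) := by
  intro L
  induction L with
  | nil =>
    intro p q h _ h1 h2
    change p = q at h
    subst h
    exact ⟨h1, h2, by simp⟩
  | cons a L ih =>
    rintro p q ⟨ha, m, ⟨c, hc, hm⟩, hL⟩ hk h1 h2
    obtain ⟨k1, k2, k3⟩ := hk a (List.mem_cons_self ..)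
    have hk' : ∀ a' ∈ L, a'.2 ∈ K.kl ∧ a'.2 ∉ K.exS ∧ sw a'.2 ∉ K.exS :=
      fun a' ha' => hk a' (List.mem_cons_of_mem _ ha')
    have hE0 := mem_E_of_tri hc
    have hE1 := mem_E_of_tri (K.rot hc)
    have hE2 := mem_E_of_tri (K.rot (K.rot hc))
    rcases hm with ⟨rfl, hu⟩ | ⟨rfl, hu⟩
    · -- left turn: the left site becomes `c`
      rw [hu] at k1 k2 k3
      have hw : Wall K p.1 c := ⟨hE2.2, k3, k2, Or.inl (K.klsym _ _ k1)⟩
      have hc' : Side K i c := Relation.ReflTransGen.tail h1 hw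
      obtain ⟨e1, e2, e3⟩ := ih (c, p.2) q hL hk' hc' h2
      refine ⟨e1, e2, ?_⟩
      intro a' ha'
      rcases List.mem_cons.1 ha' with rfl | ha'
      · rw [ha, hu]
        exact ⟨h1, h2, Or.inl ⟨hc', h1⟩⟩
      · exact e3 a' ha'
    · rw [hu] at k1 k2 k3
      have hw : Wall K p.2 c := ⟨hE1.1, k2, k3, Or.inl k1⟩
      have hc' : Side K j c := Relation.ReflTransGen.tail h2 hw
      obtain ⟨e1, e2, e3⟩ := ih (p.1, c) q hL hk' h1 hc'
      refine ⟨e1, e2, ?_⟩
      intro a' ha'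
      rcases List.mem_cons.1 ha' with rfl | ha'
      · rw [ha, hu]
        exact ⟨h1, h2, Or.inr ⟨h2, hc'⟩⟩
      · exact e3 a' ha'

/-- **walls of the explored net** -/
theorem walls (h : HNet S N) {L : Pt ℂ} {q : ℂ × ℂ} (hok : Ok N L q) (h2 : N.ex 2 ∉ unc L) :
    Side (knet N L) 2 q.1 ∧ Side (knet N L) 0 q.2 ∧
      ∀ a ∈ L, Side (knet N L) 2 a.1.1 ∧ Side (knet N L) 0 a.1.2 ∧
        ((Side (knet N L) 2 a.2.1 ∧ Side (knet N L) 2 a.2.2) ∨
          (Side (knet N L) 0 a.2.1 ∧ Side (knet N L) 0 a.2.2)) := by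
  have hg := good_of_hnet h
  have hK := good_knet hg hok h2
  have hM := Sidesx697.marks3_of h
  have e0 : Side N 2 (N.ex 0).1 := by
    have := hM.next 2
    have e : (2 : ZMod 3) + 1 = 0 := by decide
    rwa [e] at this
  have hpth : Pth (knet N L).toTrg (N.ex 0) L q := ok_pth (N := N) hok
  refine walls_pth (K := knet N L) L (N.ex 0) q hpth ?_ (side_mono L e0)
    (side_mono L Relation.ReflTransGen.refl)
  intro a ha
  refine ⟨Or.inr ⟨a, ha, Or.inl rfl⟩, ?_, ?_⟩
  · rintro ⟨k, hk⟩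
    exact hK.live k (Or.inr ⟨a, ha, Or.inl hk⟩)
  · rintro ⟨k, hk⟩
    exact hK.live k (Or.inr ⟨a, ha, Or.inr hk⟩)

/-- every killed edge of the explored net has its ends on a side if this holds in `N` -/
theorem kl_side (h : HNet S N)
    (hkl : ∀ a b : ℂ, (a, b) ∈ N.kl → (a, b) ∈ N.E → ∃ i, Side N i a) {L : Pt ℂ} {q : ℂ × ℂ}
    (hok : Ok N L q) (h2 : N.ex 2 ∉ unc L) :
    ∀ a b : ℂ, (a, b) ∈ (knet N L).kl → (a, b) ∈ (knet N L).E → ∃ i, Side (knet N L) i a := by
  obtain ⟨_, _, h3⟩ := walls h hok h2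
  rintro a b (hk | ⟨e, he, hk⟩) hE
  · obtain ⟨i, hi⟩ := hkl a b hk hE
    exact ⟨i, side_mono L hi⟩
  · obtain ⟨_, _, h4⟩ := h3 e he
    have e1 : a = e.2.1 ∨ a = e.2.2 := by
      rcases hk with hk | hk
      · left
        rw [← hk]
      · right
        have := congrArg Prod.fst hk
        exact this
    rcases h4 with ⟨h4, h5⟩ | ⟨h4, h5⟩ <;> rcases e1 with rfl | rfl
    · exact ⟨2, h4⟩
    · exact ⟨2, h5⟩
    · exact ⟨0, h4⟩
    · exact ⟨0, h5⟩

/-! ### the end point formula for the explored nets -/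

theorem alive_ex2 {x : St ℂ} (hA : Alive S N x) : N.ex 2 ∉ unc x.1 := by
  intro h'
  obtain ⟨t, _, ht⟩ := hA
  apply ht
  unfold Qx
  rw [if_pos h']

theorem Y_eq_TT (h : HNet S N) {x : St ℂ} (hA : Alive S N x) (z : ℂ → ℂ) :
    Y S N (rr z) x = TT (knet N x.1) z := by
  unfold Y TT Qx
  simp only [if_neg (alive_ex2 hA)]
  change _ = ∑ t ∈ N.T, _
  rw [h.tri]

theorem alive_pairs (h : HNet S N) {x : St ℂ} (hok : Ok N x.1 x.2) (hA : Alive S N x) :
    Pairs (knet N x.1) := by
  have h2 := alive_ex2 hA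
  obtain ⟨t, ht, hQ⟩ := hA
  have hg := good_knet (good_of_hnet h) hok h2
  refine pairs_of_q hg (t := t) (by rw [← h.tri] at ht; exact ht) ?_
  unfold Qx at hQ
  rw [if_neg h2] at hQ
  exact hQ

/-- **END POINT FORMULA in the explored net** -/
theorem Y_hit (h : HNet S N)
    (hkl : ∀ a b : ℂ, (a, b) ∈ N.kl → (a, b) ∈ N.E → ∃ i, Side N i a)
    {x : St ℂ} (hok : Ok N x.1 x.2) (hA : Alive S N x) (z : ℂ → ℂ) :
    Y S N (rr z) x = 3 * ∑ i : ZMod 3, omz i * avt (knet N x.1) i z := by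
  have h2 := alive_ex2 hA
  have hN := hnet_ok h hok h2
  have hpr := alive_pairs h hok hA
  rw [Y_eq_TT h hA z]
  exact TT_hit hN (relAt_all hN hpr) (kl_side h hkl hok h2) hpr z

theorem avt_sub {N : Net ℂ} (hpr : Pairs N) (i : ZMod 3) (z : ℂ → ℂ) (z0 : ℂ) :
    avt N i z = avt N i (fun v => z v - z0) + z0 := by
  unfold avt
  have h0 : ((EE N i).card : ℂ) ≠ 0 := by
    have := Hitx848.EE_pos hpr i
    exact_mod_cast this.ne'
  rw [Finset.sum_sub_distrib, Finset.sum_const, nsmul_eq_mul]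
  field_simp
  ring

theorem avt_le (h : HNet S N) (hpr : Pairs N) (i : ZMod 3) {z : ℂ → ℂ} {B : ℝ}
    (hB : ∀ t ∈ N.T, ‖z t.1‖ ≤ B) : ‖avt N i z‖ ≤ B := by
  unfold avt
  have h0 : (0 : ℝ) < ((EE N i).card : ℝ) := by exact_mod_cast Hitx848.EE_pos hpr i
  rw [norm_div, Complex.norm_natCast, div_le_iff₀ h0]
  refine (norm_sum_le _ _).trans ?_
  have : ∀ J ∈ EE N i, ‖z (tch N i J)‖ ≤ B := by
    intro J hJ
    have h1 := (Finset.mem_filter.1 (tch_mem h hpr hJ)).1
    obtain ⟨t, ht, e⟩ := Finset.mem_image.1 h1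
    rw [← e]
    exact hB t ht
  refine (Finset.sum_le_sum this).trans ?_
  rw [Finset.sum_const, nsmul_eq_mul, mul_comm]

theorem norm_omz (i : ZMod 3) : ‖omz i‖ = 1 := by
  unfold omz om
  rw [norm_pow, Complex.norm_exp_ofReal_mul_I, one_pow]

theorem sum_omz : ∑ i : ZMod 3, omz i = 0 := by
  have := Bsumx848.om_sum
  have h0 : (0 : ZMod 3).val = 0 := rfl
  have h1 : (1 : ZMod 3).val = 1 := rfl
  have h2 : (2 : ZMod 3).val = 2 := rfl
  have e : ∑ i : ZMod 3, omz i = omz 0 + omz 1 + omz 2 := by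
    exact Fin.sum_univ_three (fun i : Fin 3 => omz i)
  rw [e]
  unfold omz
  rw [h0, h1, h2, pow_zero, pow_one]
  exact this

/-- the weighted sum of an explored net is bounded by the oscillation of `z` -/
theorem Y_le (h : HNet S N)
    (hkl : ∀ a b : ℂ, (a, b) ∈ N.kl → (a, b) ∈ N.E → ∃ i, Side N i a)
    {x : St ℂ} (hok : Ok N x.1 x.2) {z : ℂ → ℂ} {z0 : ℂ} {B : ℝ} (hB0 : 0 ≤ B)
    (hB : ∀ t ∈ N.T, ‖z t.1 - z0‖ ≤ B) : ‖Y S N (rr z) x‖ ≤ 9 * B := by
  by_cases hA : Alive S N x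
  · have hpr := alive_pairs h hok hA
    have hN := hnet_ok h hok (alive_ex2 hA)
    rw [Y_hit h hkl hok hA z]
    have e1 : ∑ i : ZMod 3, omz i * avt (knet N x.1) i z =
        ∑ i : ZMod 3, omz i * avt (knet N x.1) i (fun v => z v - z0) := by
      have : ∀ i : ZMod 3, omz i * avt (knet N x.1) i z =
          omz i * avt (knet N x.1) i (fun v => z v - z0) + omz i * z0 := by
        intro i
        rw [avt_sub hpr i z z0]
        ring
      rw [Finset.sum_congr rfl (fun i _ => this i), Finset.sum_add_distrib, ← Finset.sum_mul,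
        sum_omz, zero_mul, add_zero]
    rw [e1, norm_mul]
    have e2 : ‖∑ i : ZMod 3, omz i * avt (knet N x.1) i (fun v => z v - z0)‖ ≤ 3 * B := by
      refine (norm_sum_le _ _).trans ?_
      have : ∀ i : ZMod 3, ‖omz i * avt (knet N x.1) i (fun v => z v - z0)‖ ≤ B := by
        intro i
        rw [norm_mul, norm_omz, one_mul]
        exact avt_le hN hpr i hB
      refine (Finset.sum_le_sum fun i _ => this i).trans ?_
      rw [Finset.sum_const, nsmul_eq_mul]
      have : (Finset.univ : Finset (ZMod 3)).card = 3 := rfl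
      rw [this]
      push_cast
      exact le_refl _
    have e3 : ‖(3 : ℂ)‖ = 3 := by norm_num
    rw [e3]
    linarith
  · have : Y S N (rr z) x = 0 := by
      unfold Y
      refine Finset.sum_eq_zero fun t ht => ?_
      have : Qx N x.1 t = 0 := by
        by_contra h'
        exact hA ⟨t, ht, h'⟩
      rw [this, mul_zero]
    rw [this, norm_zero]
    linarith

end Crest.Agent.R143.Mabx377
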