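import Crest.Agent.R143.WLoc_713

/-!
# Row 143 (S0194), CORE-C block V, leaf V3 (helper713): stopped walks and stopped segment sums are local

* `Arr S χ W T e n` : the walk from `e` is in `T` at the time `n`, not earlier, and its left sites at
  the times `< n` are in `W`
* `arr_loc` : locality; `arr_uniq` : at most one such time
* `Fst S χ W T F e` : stopped functional of the trace (`0` if the walk leaves `W` before it hits `T`)
* `fst_loc` : locality of every such functional whose values `F S χ e n` are local;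
  `Zst`, `zst_loc` : the segment sum
* `cutS`, `cutC` : sites and colours in `R`; `zst_cut` : `Zst` is a function of `(cutS S R, cutC χ R)`
-/

set_option autoImplicit false
set_option linter.all false

noncomputable section

open scoped Classical

namespace Crest.Agent.R143.WLocx713

open Crest.Agent.R143.B0x346 Crest.Agent.R143.DelGx806 Crest.Agent.R143.DelRx806
  Crest.Agent.R143.JColx54
open Crest.Agent.R143.Frame1x395 Crest.Agent.R143.Frame3x395 Crest.Agent.R143.Frame8x395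
  Crest.Agent.R143.Frame10x395 Crest.Agent.R143.Locx922
open Crest.Agent.R143.Frame5x395 (sd mem_sd th th_spec)

variable {S S' : Finset ℂ} {W : Set ℂ} {d : ℝ} {χ χ' : ℂ → ZMod 2}

/-- first arrival in `T` at the time `n`, left sites in `W` before -/
def Arr (S : Finset ℂ) (χ : ℂ → ZMod 2) (W : Set ℂ) (T : Set (ℂ × ℂ)) (e : ℂ × ℂ) (n : ℕ) : Prop :=
  (nx S χ)^[n] e ∈ T ∧ ∀ i < n, (nx S χ)^[i] e ∉ T ∧ ((nx S χ)^[i] e).1 ∈ W

theorem arr_uniq {T : Set (ℂ × ℂ)} {e : ℂ × ℂ} {n m : ℕ} (h : Arr S χ W T e n)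
    (h' : Arr S χ W T e m) : n = m := by
  rcases lt_trichotomy n m with h1 | h1 | h1
  · exact absurd h.1 (h'.2 n h1).1
  · exact h1
  · exact absurd h'.1 (h.2 m h1).1

/-- **locality of the first arrival** -/
theorem arr_loc (hS : GP (S : Set ℂ)) (hS' : GP (S' : Set ℂ)) (hχ : HullC S χ) (hd : 0 < d)
    (hH : Hol (S : Set ℂ) W d) (hA : Agr (S : Set ℂ) (S' : Set ℂ) W (2 * d))
    (hc : CAgr S χ χ' W (2 * d)) {T : Set (ℂ × ℂ)} {e : ℂ × ℂ} (he : Occ S χ e) (n : ℕ) :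
    Arr S' χ' W T e n ↔ Arr S χ W T e n := by
  induction n using Nat.strong_induction_on with
  | _ n ih =>
    constructor
    · intro h
      -- the walks agree up to every time at which the left sites of the first are in `W`
      have key : ∀ m ≤ n, ∀ i < m, ((nx S χ)^[i] e).1 ∈ W := by
        intro m
        induction m with
        | zero => intro _ i hi; omega
        | succ m ihm =>
          intro hm i hi
          have h1 := ihm (by omega)
          rcases Nat.lt_succ_iff_lt_or_eq.1 hi with h2 | h2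
          · exact h1 i h2
          · subst h2
            have h3 := it_loc hS hS' hχ hd hH hA hc he h1 i le_rfl
            rw [← h3]
            exact (h.2 i (by omega)).2
      have h4 := it_loc hS hS' hχ hd hH hA hc he (key n le_rfl)
      refine ⟨by rw [← h4 n le_rfl]; exact h.1, fun i hi => ⟨?_, key n le_rfl i hi⟩⟩
      rw [← h4 i hi.le]
      exact (h.2 i hi).1
    · intro h
      have h4 := it_loc hS hS' hχ hd hH hA hc he (fun i hi => (h.2 i hi).2)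
      refine ⟨by rw [h4 n le_rfl]; exact h.1, fun i hi => ?_⟩
      rw [h4 i hi.le]
      exact h.2 i hi

/-- stopped functional of the trace -/
def Fst {α : Type*} [Zero α] (S : Finset ℂ) (χ : ℂ → ZMod 2) (W : Set ℂ) (T : Set (ℂ × ℂ))
    (F : ℂ × ℂ → ℕ → α) (e : ℂ × ℂ) : α :=
  if h : ∃ n, Arr S χ W T e n then F e h.choose else 0

theorem fst_eq {α : Type*} [Zero α] {T : Set (ℂ × ℂ)} (F : ℂ × ℂ → ℕ → α) {e : ℂ × ℂ} {n : ℕ}
    (h : Arr S χ W T e n) : Fst S χ W T F e = F e n := by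
  unfold Fst
  have h1 : ∃ n, Arr S χ W T e n := ⟨n, h⟩
  rw [dif_pos h1, arr_uniq h1.choose_spec h]

theorem fst_zero {α : Type*} [Zero α] {T : Set (ℂ × ℂ)} (F : ℂ × ℂ → ℕ → α) {e : ℂ × ℂ}
    (h : ∀ n, ¬ Arr S χ W T e n) : Fst S χ W T F e = 0 :=
  dif_neg fun ⟨n, hn⟩ => h n hn

/-- **locality of the stopped functionals** -/
theorem fst_loc {α : Type*} [Zero α] (hS : GP (S : Set ℂ)) (hS' : GP (S' : Set ℂ))
    (hχ : HullC S χ) (hd : 0 < d)
    (hH : Hol (S : Set ℂ) W d) (hA : Agr (S : Set ℂ) (S' : Set ℂ) W (2 * d))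
    (hc : CAgr S χ χ' W (2 * d)) {T : Set (ℂ × ℂ)} {F F' : ℂ × ℂ → ℕ → α} {e : ℂ × ℂ}
    (he : Occ S χ e) (hF : ∀ n, (∀ i < n, ((nx S χ)^[i] e).1 ∈ W) → F' e n = F e n) :
    Fst S' χ' W T F' e = Fst S χ W T F e := by
  have key := fun n => arr_loc hS hS' hχ hd hH hA hc (T := T) he n
  by_cases h : ∃ n, Arr S χ W T e n
  · obtain ⟨n, hn⟩ := h
    rw [fst_eq F hn, fst_eq F' ((key n).2 hn)]
    exact hF n fun i hi => (hn.2 i hi).2
  · rw [fst_zero F fun n hn => h ⟨n, hn⟩, fst_zero F' fun n hn => h ⟨n, (key n).1 hn⟩]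

/-- stopped segment sum -/
def Zst (S : Finset ℂ) (χ : ℂ → ZMod 2) (f : ℂ → ℂ → ℂ → ℂ) (W : Set ℂ) (T : Set (ℂ × ℂ))
    (e : ℂ × ℂ) : ℂ := Fst S χ W T (Zw S χ f) e

theorem zst_loc (hS : GP (S : Set ℂ)) (hS' : GP (S' : Set ℂ)) (hχ : HullC S χ) (hd : 0 < d)
    (hH : Hol (S : Set ℂ) W d) (hA : Agr (S : Set ℂ) (S' : Set ℂ) W (2 * d))
    (hc : CAgr S χ χ' W (2 * d)) (f : ℂ → ℂ → ℂ → ℂ) {T : Set (ℂ × ℂ)} {e : ℂ × ℂ}
    (he : Occ S χ e) : Zst S' χ' f W T e = Zst S χ f W T e :=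
  fst_loc hS hS' hχ hd hH hA hc he fun _ hn => Zw_loc hS hS' hχ hd hH hA hc f he hn

/-! ### restriction of the data to a region -/

/-- sites in `R` -/
def cutS (S : Finset ℂ) (R : Set ℂ) : Finset ℂ := S.filter (· ∈ R)

/-- colours in `R` -/
def cutC (χ : ℂ → ZMod 2) (R : Set ℂ) : ℂ → ZMod 2 := fun v => if v ∈ R then χ v else 0

theorem mem_cutS {R : Set ℂ} {v : ℂ} : v ∈ cutS S R ↔ v ∈ S ∧ v ∈ R := by simp [cutS]

theorem cutS_gp {R : Set ℂ} (hS : GP (S : Set ℂ)) : GP (cutS S R : Set ℂ) := by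
  refine Locx922.GP.mono hS ?_
  intro v hv
  exact (mem_cutS.1 (Finset.mem_coe.1 hv)).1

theorem agr_cut {R : Set ℂ} {r : ℝ} (hR : ∀ w ∈ W, ∀ s, ‖s - w‖ < r → s ∈ R) :
    Agr (S : Set ℂ) (cutS S R : Set ℂ) W r := by
  intro w hw s hs
  have := hR w hw s hs
  simp only [Finset.mem_coe, mem_cutS]
  tauto

theorem cagr_cut {R : Set ℂ} {r : ℝ} (hR : ∀ w ∈ W, ∀ s, ‖s - w‖ < r → s ∈ R) :
    CAgr S χ (cutC χ R) W r := by
  intro w hw v _ hvw
  simp only [cutC, if_pos (hR w hw v hvw)]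

/-- **the stopped segment sum is a function of the sites and the colours in `R`** -/
theorem zst_cut (hS : GP (S : Set ℂ)) (hχ : HullC S χ) (hd : 0 < d)
    (hH : Hol (S : Set ℂ) W d) {R : Set ℂ} (hR : ∀ w ∈ W, ∀ s, ‖s - w‖ < 2 * d → s ∈ R)
    (f : ℂ → ℂ → ℂ → ℂ) {T : Set (ℂ × ℂ)} {e : ℂ × ℂ} (he : Occ S χ e) :
    Zst S χ f W T e = Zst (cutS S R) (cutC χ R) f W T e :=
  (zst_loc hS (cutS_gp hS) hχ hd hH (agr_cut hR) (cagr_cut hR) f he).symm

/-- the same for an arrival -/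
theorem arr_cut (hS : GP (S : Set ℂ)) (hχ : HullC S χ) (hd : 0 < d)
    (hH : Hol (S : Set ℂ) W d) {R : Set ℂ} (hR : ∀ w ∈ W, ∀ s, ‖s - w‖ < 2 * d → s ∈ R)
    {T : Set (ℂ × ℂ)} {e : ℂ × ℂ} (he : Occ S χ e) (n : ℕ) :
    Arr S χ W T e n ↔ Arr (cutS S R) (cutC χ R) W T e n :=
  (arr_loc hS (cutS_gp hS) hχ hd hH (agr_cut hR) (cagr_cut hR) he n).symm

/-- two configurations with the same data in `R` have the same stopped segment sum -/
theorem zst_congr {S₂ : Finset ℂ} {χ₂ : ℂ → ZMod 2} (hS : GP (S : Set ℂ)) (hχ : HullC S χ)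
    (hS₂ : GP (S₂ : Set ℂ)) (hχ₂ : HullC S₂ χ₂) (hd : 0 < d)
    (hH : Hol (S : Set ℂ) W d) (hH₂ : Hol (S₂ : Set ℂ) W d) {R : Set ℂ}
    (hR : ∀ w ∈ W, ∀ s, ‖s - w‖ < 2 * d → s ∈ R) (hSR : cutS S R = cutS S₂ R)
    (hcR : cutC χ R = cutC χ₂ R)
    (f : ℂ → ℂ → ℂ → ℂ) {T : Set (ℂ × ℂ)} {e : ℂ × ℂ} (he : Occ S χ e) (he₂ : Occ S₂ χ₂ e) :
    Zst S χ f W T e = Zst S₂ χ₂ f W T e := by
  rw [zst_cut hS hχ hd hH hR f he, zst_cut hS₂ hχ₂ hd hH₂ hR f he₂, hSR, hcR]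

end Crest.Agent.R143.WLocx713
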