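import Crest.Agent.R143.WLoc2_713

/-!
# Row 143 (S0194), CORE-C block V, leaf V3 (helper713): the stopped segment sum as a sum over triangles

* `arr_inj` : before the first arrival the states are pairwise different
* `Cnt S χ W T e t` : the triangle `t = (left, right, third)` is a counted gap of the stopped walk
* `zst_sum` : `Zst = Σ_{t ∈ delT S, Cnt t} f t`
* `cnt_loc`, `cnt_cut` : locality of `Cnt`
* `sP`, `cP` : sites and colours of a configuration `P : Set (ℂ × Bool)`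
* `zw_dart` : `Zw` in terms of the walker of `Frame1_395` on `cm0`
-/

set_option autoImplicit false
set_option linter.all false

noncomputable section

open scoped Classical

namespace Crest.Agent.R143.WLocx713

open Crest.Agent.R143.B0x346 Crest.Agent.R143.DelGx806 Crest.Agent.R143.DelRx806
  Crest.Agent.R143.JColx54
open Crest.Agent.R143.Frame1x395 Crest.Agent.R143.Frame3x395 Crest.Agent.R143.Frame8x395
  Crest.Agent.R143.Frame10x395 Crest.Agent.R143.Locx922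
open Crest.Agent.R143.Frame5x395 (sd mem_sd th th_spec)

variable {S S' : Finset ℂ} {W : Set ℂ} {d : ℝ} {χ χ' : ℂ → ZMod 2}

theorem arr_inj {T : Set (ℂ × ℂ)} {e : ℂ × ℂ} {n : ℕ} (h : Arr S χ W T e n) {i j : ℕ}
    (hij : i < j) (hj : j ≤ n) : (nx S χ)^[i] e ≠ (nx S χ)^[j] e := by
  intro hc
  have h1 : (nx S χ)^[n] e = (nx S χ)^[n - j + i] e := by
    have e1 : n = (n - j) + j := by omega
    conv_lhs => rw [e1, Function.iterate_add_apply, ← hc]
    rw [Function.iterate_add_apply]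
  exact (h.2 (n - j + i) (by omega)).1 (h1 ▸ h.1)

/-- the triangle `t` is a counted gap of the stopped walk -/
def Cnt (S : Finset ℂ) (χ : ℂ → ZMod 2) (W : Set ℂ) (T : Set (ℂ × ℂ)) (e : ℂ × ℂ)
    (t : ℂ × ℂ × ℂ) : Prop :=
  ∃ n, Arr S χ W T e n ∧ ∃ i < n, (nx S χ)^[i] e = (t.1, t.2.1) ∧ t.2.2 = th S (t.1, t.2.1) ∧
    lg S χ (t.1, t.2.1) ∧ Np S χ e n i

theorem cnt_mem (hS : GP (S : Set ℂ)) (hχ : HullC S χ) {T : Set (ℂ × ℂ)} {e : ℂ × ℂ}
    (he : Occ S χ e) {t : ℂ × ℂ × ℂ} (h : Cnt S χ W T e t) : t ∈ delT S := by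
  obtain ⟨n, -, i, -, h1, h2, -⟩ := h
  have h3 := (he.it hS hχ i).1
  rw [h1] at h3
  have h4 := th_spec h3
  rw [← h2] at h4
  exact h4

/-- **the stopped segment sum is a sum over the Delaunay triangles** -/
theorem zst_sum (hS : GP (S : Set ℂ)) (hχ : HullC S χ) (f : ℂ → ℂ → ℂ → ℂ) {T : Set (ℂ × ℂ)}
    {e : ℂ × ℂ} (he : Occ S χ e) :
    Zst S χ f W T e = ∑ t ∈ delT S, if Cnt S χ W T e t then f t.1 t.2.1 t.2.2 else 0 := by
  by_cases hn : ∃ n, Arr S χ W T e n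
  · obtain ⟨n, hn⟩ := hn
    unfold Zst
    rw [fst_eq _ hn]
    unfold Zw
    rw [← Finset.sum_filter, ← Finset.sum_filter]
    refine Finset.sum_bij (fun i _ => (((nx S χ)^[i] e).1, ((nx S χ)^[i] e).2,
      th S ((nx S χ)^[i] e))) ?_ ?_ ?_ ?_
    · intro i hi
      rw [Finset.mem_filter, Finset.mem_range] at hi
      obtain ⟨h1, h2, h3⟩ := hi
      rw [Finset.mem_filter]
      have h4 : Cnt S χ W T e (((nx S χ)^[i] e).1, ((nx S χ)^[i] e).2,
          th S ((nx S χ)^[i] e)) := ⟨n, hn, i, h1, rfl, rfl, h2, h3⟩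
      exact ⟨cnt_mem hS hχ he h4, h4⟩
    · intro i hi j hj hij
      rw [Finset.mem_filter, Finset.mem_range] at hi hj
      have h1 : (nx S χ)^[i] e = (nx S χ)^[j] e :=
        Prod.ext (congrArg (fun t : ℂ × ℂ × ℂ => t.1) hij)
          (congrArg (fun t : ℂ × ℂ × ℂ => t.2.1) hij)
      rcases lt_trichotomy i j with h2 | h2 | h2
      · exact absurd h1 (arr_inj hn h2 hj.1.le)
      · exact h2
      · exact absurd h1.symm (arr_inj hn h2 hi.1.le)
    · rintro ⟨a, b, c⟩ ht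
      rw [Finset.mem_filter] at ht
      obtain ⟨-, m, hm, i, hi, h1, h2, h3, h4⟩ := ht
      have hmn := arr_uniq hm hn
      subst hmn
      refine ⟨i, ?_, ?_⟩
      · rw [Finset.mem_filter, Finset.mem_range]
        refine ⟨hi, ?_, h4⟩
        rw [h1]
        exact h3
      · rw [h1]
        simp only at h2
        rw [h2]
    · intro i hi
      rfl
  · have hn' : ∀ n, ¬ Arr S χ W T e n := fun n h => hn ⟨n, h⟩
    unfold Zst
    rw [fst_zero _ hn', Finset.sum_eq_zero]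
    intro t _
    rw [if_neg]
    rintro ⟨n, h, -⟩
    exact hn' n h

/-- **locality of the counted gaps** -/
theorem cnt_loc (hS : GP (S : Set ℂ)) (hS' : GP (S' : Set ℂ)) (hχ : HullC S χ) (hd : 0 < d)
    (hH : Hol (S : Set ℂ) W d) (hA : Agr (S : Set ℂ) (S' : Set ℂ) W (2 * d))
    (hc : CAgr S χ χ' W (2 * d)) {T : Set (ℂ × ℂ)} {e : ℂ × ℂ} (he : Occ S χ e)
    (t : ℂ × ℂ × ℂ) : Cnt S' χ' W T e t ↔ Cnt S χ W T e t := by
  unfold Cnt
  refine exists_congr fun n => ?_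
  rw [arr_loc hS hS' hχ hd hH hA hc he n]
  refine and_congr_right fun hn => exists_congr fun i => and_congr_right fun hi => ?_
  have hW : ∀ i < n, ((nx S χ)^[i] e).1 ∈ W := fun i hi => (hn.2 i hi).2
  have h1 := it_loc hS hS' hχ hd hH hA hc he hW i hi.le
  obtain ⟨-, h2, h3⟩ := nx_loc hS' hd hH hA hc (he.it hS hχ i).1 (hW i hi)
  rw [h1, np_loc hS hS' hχ hd hH hA hc he hW hi]
  constructor
  · rintro ⟨e1, e2, e3, e4⟩
    rw [e1] at h2 h3
    exact ⟨e1, by rw [e2, h3], h2.1 e3, e4⟩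
  · rintro ⟨e1, e2, e3, e4⟩
    rw [e1] at h2 h3
    exact ⟨e1, by rw [e2, h3], h2.2 e3, e4⟩

theorem cnt_cut (hS : GP (S : Set ℂ)) (hχ : HullC S χ) (hd : 0 < d)
    (hH : Hol (S : Set ℂ) W d) {R : Set ℂ} (hR : ∀ w ∈ W, ∀ s, ‖s - w‖ < 2 * d → s ∈ R)
    {T : Set (ℂ × ℂ)} {e : ℂ × ℂ} (he : Occ S χ e) (t : ℂ × ℂ × ℂ) :
    Cnt S χ W T e t ↔ Cnt (cutS S R) (cutC χ R) W T e t :=
  (cnt_loc hS (cutS_gp hS) hχ hd hH (agr_cut hR) (cagr_cut hR) he t).symm

/-- the stopped segment sum is additive in the field -/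
theorem zw_add (f g : ℂ → ℂ → ℂ → ℂ) (e : ℂ × ℂ) (n : ℕ) :
    Zw S χ (fun a b c => f a b c + g a b c) e n = Zw S χ f e n + Zw S χ g e n := by
  unfold Zw
  rw [← Finset.sum_add_distrib]
  refine Finset.sum_congr rfl fun i _ => ?_
  split_ifs <;> simp

theorem zw_mul (k : ℂ) (f : ℂ → ℂ → ℂ → ℂ) (e : ℂ × ℂ) (n : ℕ) :
    Zw S χ (fun a b c => k * f a b c) e n = k * Zw S χ f e n := by
  unfold Zw
  rw [Finset.mul_sum]
  refine Finset.sum_congr rfl fun i _ => ?_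
  split_ifs <;> simp

/-! ### the gap darts of `cm0` -/

/-- the dart of the gap at the time `i` : `rho (rho P_i)` -/
theorem gap_dart (hS : GP (S : Set ℂ)) (hχ : HullC S χ) {p : D0 S} :
    cfg (cm0 hS) (lift S hχ) ((cm0 hS).rho p) = χ p.1.2 + χ (th S p.1) := rfl

/-- `lg` in terms of `cm0` : the face of `p` has a left gap, i.e. `rho (rho p)` is empty -/
theorem lg_iff (hS : GP (S : Set ℂ)) (hχ : HullC S χ) {p : D0 S} :
    lg S χ p.1 ↔ cfg (cm0 hS) (lift S hχ) ((cm0 hS).rho p) = 1 := Iff.rfl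

end Crest.Agent.R143.WLocx713
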