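import Crest.Agent.R143.Frame10_395
import Crest.Agent.R143.Loc_922

/-!
# Row 143 (S0194), CORE-C block V, leaf V3 (helper713): locality of the walks and of the segment sums

* `nx S χ e` : next state of the walker at the directed edge `e` (left site `e.1`, right site `e.2`,
  entering the triangle on the left of `e`), colours `χ : ℂ → ZMod 2` on the sites
* `stp_eq`  : it is `stp (cm0 hS) (cfg _ χ')` on the occupied darts, if `χ' (mk v) = χ v`
* `nx_loc`, `it_loc` : two configurations which agree near `W` have the same walk as long as the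
  left sites stay in `W`
* `Zw S χ f e n` : segment sum: sum of `f` over the left gaps at the times `< n` which are not
  pinched inside the segment (no left site visited both at a time `≤ i` and at a time in `(i, n]`)
* `Zw_loc` : locality of the segment sum
-/

set_option autoImplicit false
set_option linter.all false

noncomputable section

open scoped Classical

namespace Crest.Agent.R143.WLocx713

open Crest.Agent.R143.B0x346 Crest.Agent.R143.DelGx806 Crest.Agent.R143.DelRx806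
  Crest.Agent.R143.JColx54
open Crest.Agent.R143.Frame1x395 Crest.Agent.R143.Frame3x395 Crest.Agent.R143.Frame8x395
  Crest.Agent.R143.Frame10x395 Crest.Agent.R143.Locx922
open Crest.Agent.R143.Frame5x395 (sd mem_sd th th_spec)

/-- next state of the walker -/
def nx (S : Finset ℂ) (χ : ℂ → ZMod 2) (e : ℂ × ℂ) : ℂ × ℂ :=
  if χ e.2 + χ (th S e) = 1 then (th S e, e.2) else (e.1, th S e)

/-- the walker makes a left gap at `e` (the left site changes) -/
def lg (S : Finset ℂ) (χ : ℂ → ZMod 2) (e : ℂ × ℂ) : Prop := χ e.2 + χ (th S e) = 1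

/-- the gap at the time `i` of the walk from `e` is not pinched by left sites up to the time `n` -/
def Np (S : Finset ℂ) (χ : ℂ → ZMod 2) (e : ℂ × ℂ) (n i : ℕ) : Prop :=
  ∀ u ≤ i, ∀ v, i < v → v ≤ n → ((nx S χ)^[u] e).1 ≠ ((nx S χ)^[v] e).1

/-- segment sum of the field `f` (a function of the left, right and third site of the gap face; the
gap is the side `(third, left)`) -/
def Zw (S : Finset ℂ) (χ : ℂ → ZMod 2) (f : ℂ → ℂ → ℂ → ℂ) (e : ℂ × ℂ) (n : ℕ) : ℂ :=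
  ∑ i ∈ Finset.range n,
    if lg S χ ((nx S χ)^[i] e) ∧ Np S χ e n i then
      f ((nx S χ)^[i] e).1 ((nx S χ)^[i] e).2 (th S ((nx S χ)^[i] e))
    else 0

variable {S S' : Finset ℂ} {W : Set ℂ} {d : ℝ} {χ χ' : ℂ → ZMod 2}

/-- the colours agree near `W` -/
def CAgr (S : Finset ℂ) (χ χ' : ℂ → ZMod 2) (W : Set ℂ) (r : ℝ) : Prop :=
  ∀ w ∈ W, ∀ v ∈ S, ‖v - w‖ < r → χ v = χ' v

theorem th_loc (hS' : GP (S' : Set ℂ)) (hd : 0 < d)
    (hH : Hol (S : Set ℂ) W d) (hA : Agr (S : Set ℂ) (S' : Set ℂ) W (2 * d)) {e : ℂ × ℂ}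
    (he : e ∈ sd S) (hW : e.1 ∈ W ∨ e.2 ∈ W) : e ∈ sd S' ∧ th S' e = th S e := by
  have h1 := th_spec he
  have h2 : (e.1, e.2, th S e) ∈ delT S' := by
    rcases hW with hW | hW
    · exact (delT_vertex hd hH hA hW).1 h1
    · exact (delT_vertex2 hd hH hA hW).1 h1
  exact ⟨mem_sd.2 ⟨_, h2⟩, th0 hS' h2⟩

/-- a state near `W` : the sites and the third site are at distance `< 2 d` of the left site -/
theorem near (hd : 0 < d) (hH : Hol (S : Set ℂ) W d) {e : ℂ × ℂ}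
    (he : e ∈ sd S) (hW : e.1 ∈ W) :
    e.1 ∈ S ∧ e.2 ∈ S ∧ th S e ∈ S ∧ ‖e.2 - e.1‖ < 2 * d ∧ ‖th S e - e.1‖ < 2 * d := by
  have h1 := mem_delT.1 (th_spec he)
  have h2 := del_side hd hH hW (inD_self _ _ _) h1
  obtain ⟨m1, m2, m3, -⟩ := h1
  refine ⟨m1, m2, m3, ?_, h2.2.2⟩
  rw [norm_sub_rev]
  exact h2.1

/-- **locality of one step** -/
theorem nx_loc (hS' : GP (S' : Set ℂ)) (hd : 0 < d)
    (hH : Hol (S : Set ℂ) W d) (hA : Agr (S : Set ℂ) (S' : Set ℂ) W (2 * d))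
    (hc : CAgr S χ χ' W (2 * d)) {e : ℂ × ℂ} (he : e ∈ sd S) (hW : e.1 ∈ W) :
    nx S' χ' e = nx S χ e ∧ (lg S' χ' e ↔ lg S χ e) ∧ th S' e = th S e := by
  obtain ⟨h1, h2⟩ := th_loc hS' hd hH hA he (Or.inl hW)
  obtain ⟨m1, m2, m3, h3, h4⟩ := near hd hH he hW
  have c2 := hc _ hW _ m2 h3
  have c3 := hc _ hW _ m3 h4
  refine ⟨?_, ?_, h2⟩
  · unfold nx
    rw [h2, ← c2, ← c3]
  · unfold lg
    rw [h2, ← c2, ← c3]

/-- two sites of a side have different colours -/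
def Occ (S : Finset ℂ) (χ : ℂ → ZMod 2) (e : ℂ × ℂ) : Prop := e ∈ sd S ∧ χ e.1 + χ e.2 = 1

/-- the colouring is constant on the hull -/
def HullC (S : Finset ℂ) (χ : ℂ → ZMod 2) : Prop := ∀ a b, hullE S a b → χ a = χ b

theorem z_cases : ∀ a b c : ZMod 2, a + b = 1 → b + c ≠ 1 → a + c = 1 := by decide

theorem z_ne1 : ∀ a : ZMod 2, a + a ≠ 1 := by decide

theorem twin (hχ : HullC S χ) {a b : ℂ} (h : (a, b) ∈ sd S) (hab : χ a + χ b = 1) :
    (b, a) ∈ sd S := by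
  by_contra hn
  have h1 : hullE S a b := ⟨mem_sd.1 h, fun c hc => hn (mem_sd.2 ⟨c, hc⟩)⟩
  rw [hχ a b h1] at hab
  exact z_ne1 _ hab

/-- the walk stays on occupied live sides -/
theorem Occ.nx (hS : GP (S : Set ℂ)) (hχ : HullC S χ) {e : ℂ × ℂ} (h : Occ S χ e) :
    Occ S χ (nx S χ e) := by
  obtain ⟨a, b⟩ := e
  obtain ⟨h1, h2⟩ := h
  have t1 := th_spec h1
  have t2 := delT_rot hS t1
  have t3 := delT_rot hS t2
  unfold WLocx713.nx
  split_ifs with hc
  · refine ⟨?_, ?_⟩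
    · exact twin hχ (mem_sd.2 ⟨_, t2⟩) hc
    · show χ (th S (a, b)) + χ b = 1
      rw [add_comm]; exact hc
  · have h3 := z_cases _ _ _ h2 hc
    refine ⟨?_, h3⟩
    refine twin hχ (mem_sd.2 ⟨_, t3⟩) ?_
    show χ (th S (a, b)) + χ a = 1
    rw [add_comm]; exact h3

theorem Occ.it (hS : GP (S : Set ℂ)) (hχ : HullC S χ) {e : ℂ × ℂ} (h : Occ S χ e) (n : ℕ) :
    Occ S χ ((WLocx713.nx S χ)^[n] e) := by
  induction n with
  | zero => exact h
  | succ n ih => rw [Function.iterate_succ_apply']; exact ih.nx hS hχ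

/-- **locality of the walk**: same walk as long as the left sites stay in `W` -/
theorem it_loc (hS : GP (S : Set ℂ)) (hS' : GP (S' : Set ℂ)) (hχ : HullC S χ) (hd : 0 < d)
    (hH : Hol (S : Set ℂ) W d) (hA : Agr (S : Set ℂ) (S' : Set ℂ) W (2 * d))
    (hc : CAgr S χ χ' W (2 * d)) {e : ℂ × ℂ} (he : Occ S χ e) {n : ℕ}
    (hn : ∀ i < n, ((nx S χ)^[i] e).1 ∈ W) :
    ∀ i ≤ n, (nx S' χ')^[i] e = (nx S χ)^[i] e := by
  intro i
  induction i with
  | zero => intro _; rfl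
  | succ i ih =>
    intro hi
    rw [Function.iterate_succ_apply', Function.iterate_succ_apply', ih (by omega)]
    exact (nx_loc hS' hd hH hA hc (he.it hS hχ i).1 (hn i (by omega))).1

theorem np_loc (hS : GP (S : Set ℂ)) (hS' : GP (S' : Set ℂ)) (hχ : HullC S χ) (hd : 0 < d)
    (hH : Hol (S : Set ℂ) W d) (hA : Agr (S : Set ℂ) (S' : Set ℂ) W (2 * d))
    (hc : CAgr S χ χ' W (2 * d)) {e : ℂ × ℂ} (he : Occ S χ e) {n : ℕ}
    (hn : ∀ i < n, ((nx S χ)^[i] e).1 ∈ W) {i : ℕ} (hi : i < n) :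
    Np S' χ' e n i ↔ Np S χ e n i := by
  have h1 := it_loc hS hS' hχ hd hH hA hc he hn
  unfold Np
  constructor
  · intro h u hu v hv hvn
    have := h u hu v hv hvn
    rwa [h1 u (by omega), h1 v hvn] at this
  · intro h u hu v hv hvn
    rw [h1 u (by omega), h1 v hvn]
    exact h u hu v hv hvn

/-- **locality of the segment sum** -/
theorem Zw_loc (hS : GP (S : Set ℂ)) (hS' : GP (S' : Set ℂ)) (hχ : HullC S χ) (hd : 0 < d)
    (hH : Hol (S : Set ℂ) W d) (hA : Agr (S : Set ℂ) (S' : Set ℂ) W (2 * d))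
    (hc : CAgr S χ χ' W (2 * d)) (f : ℂ → ℂ → ℂ → ℂ) {e : ℂ × ℂ} (he : Occ S χ e) {n : ℕ}
    (hn : ∀ i < n, ((nx S χ)^[i] e).1 ∈ W) :
    Zw S' χ' f e n = Zw S χ f e n := by
  have h1 := it_loc hS hS' hχ hd hH hA hc he hn
  unfold Zw
  refine Finset.sum_congr rfl fun i hi => ?_
  rw [Finset.mem_range] at hi
  obtain ⟨-, h2, h3⟩ := nx_loc hS' hd hH hA hc (he.it hS hχ i).1 (hn i hi)
  rw [h1 i hi.le, h3]
  have h4 := np_loc hS hS' hχ hd hH hA hc he hn hi
  simp only [h2, h4]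

/-! ### the walker of `Frame1_395` on `cm0` -/

/-- colouring of the cells of `cm0` -/
def lift (S : Finset ℂ) (hχ : HullC S χ) : Quot (hullE S) → ZMod 2 := Quot.lift χ hχ

theorem cfg_lift (hS : GP (S : Set ℂ)) (hχ : HullC S χ) (p : D0 S) :
    cfg (cm0 hS) (lift S hχ) p = χ p.1.1 + χ p.1.2 := rfl

/-- **the walker of `Frame1_395` is the planar walker** -/
theorem stp_eq (hS : GP (S : Set ℂ)) (hχ : HullC S χ) {p : D0 S}
    (hp : cfg (cm0 hS) (lift S hχ) p = 1) :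
    (stp (cm0 hS) (cfg (cm0 hS) (lift S hχ)) p).1 = nx S χ p.1 := by
  obtain ⟨⟨a, b⟩, he⟩ := p
  have t1 := th_spec he
  have t2 := delT_rot hS t1
  have t3 := delT_rot hS t2
  rw [cfg_lift] at hp
  unfold stp nx
  have e1 : cfg (cm0 hS) (lift S hχ) ((cm0 hS).rho ⟨(a, b), he⟩) = χ b + χ (th S (a, b)) := rfl
  rw [e1]
  split_ifs with hc
  · have h3 : ((b, th S (a, b)) : ℂ × ℂ) ∈ sd S := mem_sd.2 ⟨_, t2⟩
    have h4 := twin hχ h3 hc
    show (io0 (⟨(b, th S (a, b)), h3⟩ : D0 S)).1 = _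
    rw [io0_live (e := ⟨(b, th S (a, b)), h3⟩) h4]
  · have h3 : ((th S (a, b), a) : ℂ × ℂ) ∈ sd S := mem_sd.2 ⟨_, t3⟩
    have h5 := z_cases _ _ _ hp hc
    have h4 : (a, th S (a, b)) ∈ sd S := twin hχ h3 (by rw [add_comm]; exact h5)
    have e2 : (cm0 hS).rho ((cm0 hS).rho ⟨(a, b), he⟩) = (⟨(th S (a, b), a), h3⟩ : D0 S) := by
      apply Subtype.ext
      show (th S (a, b), th S (b, th S (a, b))) = (th S (a, b), a)
      rw [th0 hS t2]
    rw [e2]
    show (io0 (⟨(th S (a, b), a), h3⟩ : D0 S)).1 = _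
    rw [io0_live (e := ⟨(th S (a, b), a), h3⟩) h4]

theorem it_eq (hS : GP (S : Set ℂ)) (hχ : HullC S χ) {p : D0 S}
    (hp : cfg (cm0 hS) (lift S hχ) p = 1) (n : ℕ) :
    ((stp (cm0 hS) (cfg (cm0 hS) (lift S hχ)))^[n] p).1 = (nx S χ)^[n] p.1 := by
  induction n with
  | zero => rfl
  | succ n ih =>
    rw [Function.iterate_succ_apply', Function.iterate_succ_apply',
      stp_eq hS hχ (occ_it (cfg_isC _) hp n), ih]

/-- every even configuration is the configuration of a colouring of the sites -/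
theorem exists_col (hS : GP (S : Set ℂ)) {x : D0 S → ZMod 2} (hx : IsC (cm0 hS) ∅ x) :
    ∃ χ : ℂ → ZMod 2, ∃ hχ : HullC S χ, x = cfg (cm0 hS) (lift S hχ) := by
  obtain ⟨ψ, hψ⟩ := (cm0 hS).ex x hx.dead hx.iot
    (fun d => by rw [hx.par d, if_neg (Set.notMem_empty d)])
  refine ⟨fun v => ψ (Quot.mk _ v), fun a b hab => congrArg ψ (Quot.sound hab), ?_⟩
  funext d
  rw [hψ d]
  rfl

end Crest.Agent.R143.WLocx713
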