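import Crest.Agent.R143.K33_137

/-!
# Row 143 (S0194): the walker between a black and a white wall (helper137)

CMap language, root face, giants = connected sets of cells.

* `lf`, `rg`, `th` : left, right, third cell of the `n`-th state of the walker of the colouring `c`
* `sl`, `sr` : left (right) cells seen between two times
* `Rt` : root data (black wall `A`, white wall `B`, target `G`, root face `(B, A, G)`)
* `tau` : first time with third cell in `G`
* `conf` : after the time `m₀` at which the third cell is in `γ ⊇ G`, the walker cannot be attached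
  on both sides to the old walls
-/

set_option autoImplicit false

noncomputable section

open scoped Classical

namespace Crest.Agent.R143.Walkx137

open Crest.Agent.R143.Frame1x395 Crest.Agent.R143.Frame2x395 Crest.Agent.R143.Frame3x395
  Crest.Agent.R143.Frame8x395 Crest.Agent.R143.Frame11x395 Crest.Agent.R143.NonXx592
  Crest.Agent.R143.Coarsex166 Crest.Agent.R143.K33x137

variable {D C : Type}

/-- left cell -/
def lf (M : CMap D C) (c : C → ZMod 2) (r0 : D) (n : ℕ) : C := M.cell (P M (cfg M c) r0 n)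

/-- right cell -/
def rg (M : CMap D C) (c : C → ZMod 2) (r0 : D) (n : ℕ) : C :=
  M.cell (M.rho (P M (cfg M c) r0 n))

/-- third cell -/
def th (M : CMap D C) (c : C → ZMod 2) (r0 : D) (n : ℕ) : C :=
  M.cell (M.rho (M.rho (P M (cfg M c) r0 n)))

/-- left cells seen between the times `i` and `j` -/
def sl (M : CMap D C) (c : C → ZMod 2) (r0 : D) (i j : ℕ) : Set C :=
  {x | ∃ k, i ≤ k ∧ k ≤ j ∧ lf M c r0 k = x}

/-- right cells seen between the times `i` and `j` -/
def sr (M : CMap D C) (c : C → ZMod 2) (r0 : D) (i j : ℕ) : Set C :=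
  {x | ∃ k, i ≤ k ∧ k ≤ j ∧ rg M c r0 k = x}

variable {M : CMap D C} {c : C → ZMod 2} {r0 : D}

theorem isC_cfg [Finite D] (c : C → ZMod 2) : IsC M ∅ (cfg M c) := by
  have := Fintype.ofFinite D
  exact cfg_isC _

/-- state: black on the left, white on the right -/
structure St (M : CMap D C) (c : C → ZMod 2) (p : D) : Prop where
  l : c (M.cell p) = 1
  r : c (M.cell (M.rho p)) = 0

theorem St.occ {p : D} (h : St M c p) : cfg M c p = 1 := by
  show c (M.cell p) + c (M.cell (M.rho p)) = 1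
  rw [h.l, h.r]; decide

theorem step_cases {p : D} (h : St M c p) :
    (c (M.cell (M.rho (M.rho p))) = 1 ∧ stp M (cfg M c) p = M.iota (M.rho p) ∧
      M.cell (stp M (cfg M c) p) = M.cell (M.rho (M.rho p)) ∧
      M.cell (M.rho (stp M (cfg M c) p)) = M.cell (M.rho p)) ∨
    (c (M.cell (M.rho (M.rho p))) = 0 ∧ stp M (cfg M c) p = M.iota (M.rho (M.rho p)) ∧
      M.cell (stp M (cfg M c) p) = M.cell p ∧
      M.cell (M.rho (stp M (cfg M c) p)) = M.cell (M.rho (M.rho p))) := by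
  have e3 : M.rho (M.rho (M.rho p)) = p := M.rho3 p
  rcases z01 (c (M.cell (M.rho (M.rho p)))) with h1 | h1
  · right
    have x1 : cfg M c (M.rho p) = 0 := by
      show c (M.cell (M.rho p)) + c (M.cell (M.rho (M.rho p))) = 0
      rw [h.r, h1]; decide
    have hs : stp M (cfg M c) p = M.iota (M.rho (M.rho p)) := by
      unfold stp
      rw [if_neg (by rw [x1]; decide)]
    have hl : M.rho (M.rho p) ∈ M.live := by
      apply live_of_ne
      rw [e3]
      intro e
      rw [e, h.l] at h1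
      exact absurd h1 (by decide)
    refine ⟨h1, hs, ?_, ?_⟩
    · rw [hs, M.cell_iota _ hl, e3]
    · rw [hs, cell_rho_iota M hl]
  · left
    have x1 : cfg M c (M.rho p) = 1 := by
      show c (M.cell (M.rho p)) + c (M.cell (M.rho (M.rho p))) = 1
      rw [h.r, h1]; decide
    have hs : stp M (cfg M c) p = M.iota (M.rho p) := by
      unfold stp
      rw [if_pos x1]
    have hl : M.rho p ∈ M.live := by
      apply live_of_ne
      intro e
      rw [← e, h.r] at h1
      exact absurd h1 (by decide)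
    refine ⟨h1, hs, ?_, ?_⟩
    · rw [hs, M.cell_iota _ hl]
    · rw [hs, cell_rho_iota M hl]

theorem St.stp {p : D} (h : St M c p) : St M c (stp M (cfg M c) p) := by
  rcases step_cases h with ⟨h1, -, h2, h3⟩ | ⟨h1, -, h2, h3⟩
  · exact ⟨by rw [h2]; exact h1, by rw [h3]; exact h.r⟩
  · exact ⟨by rw [h2]; exact h.l, by rw [h3]; exact h1⟩

theorem St.P (h : St M c r0) (n : ℕ) : St M c (P M (cfg M c) r0 n) := by
  induction n with
  | zero => exact h
  | succ n ih => rw [P_succ]; exact ih.stp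

theorem c_lf (h : St M c r0) (n : ℕ) : c (lf M c r0 n) = 1 := (h.P n).l

theorem c_rg (h : St M c r0) (n : ℕ) : c (rg M c r0 n) = 0 := (h.P n).r

theorem succ_cases (h : St M c r0) (n : ℕ) :
    (c (th M c r0 n) = 1 ∧ lf M c r0 (n + 1) = th M c r0 n ∧ rg M c r0 (n + 1) = rg M c r0 n ∧
      P M (cfg M c) r0 (n + 1) = M.iota (M.rho (P M (cfg M c) r0 n))) ∨
    (c (th M c r0 n) = 0 ∧ lf M c r0 (n + 1) = lf M c r0 n ∧ rg M c r0 (n + 1) = th M c r0 n ∧
      P M (cfg M c) r0 (n + 1) = M.iota (M.rho (M.rho (P M (cfg M c) r0 n)))) := by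
  unfold lf rg th
  rw [P_succ]
  rcases step_cases (h.P n) with ⟨h1, h2, h3, h4⟩ | ⟨h1, h2, h3, h4⟩
  · exact Or.inl ⟨h1, h3, h4, h2⟩
  · exact Or.inr ⟨h1, h3, h4, h2⟩

theorem ed_lr (n : ℕ) : Ed M (lf M c r0 n) (rg M c r0 n) := ⟨_, rfl, rfl⟩

theorem ed_rt (n : ℕ) : Ed M (rg M c r0 n) (th M c r0 n) := ⟨_, rfl, rfl⟩

theorem ed_tl (n : ℕ) : Ed M (th M c r0 n) (lf M c r0 n) := by
  refine ⟨_, rfl, ?_⟩
  rw [M.rho3]
  rfl

theorem ed_lf (h : St M c r0) (n : ℕ) :
    lf M c r0 n = lf M c r0 (n + 1) ∨ Ed M (lf M c r0 n) (lf M c r0 (n + 1)) := by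
  rcases succ_cases h n with ⟨-, h1, -⟩ | ⟨-, h1, -⟩
  · right; rw [h1]; exact (ed_tl n).symm
  · left; exact h1.symm

theorem ed_rg (h : St M c r0) (n : ℕ) :
    rg M c r0 n = rg M c r0 (n + 1) ∨ Ed M (rg M c r0 n) (rg M c r0 (n + 1)) := by
  rcases succ_cases h n with ⟨-, -, h1, -⟩ | ⟨-, -, h1, -⟩
  · left; exact h1.symm
  · right; rw [h1]; exact ed_rt n

theorem chain_lf (h : St M c r0) {S : Set C} {i j : ℕ} (hij : i ≤ j)
    (hS : ∀ k, i ≤ k → k ≤ j → lf M c r0 k ∈ S) : Lk M S (lf M c r0 i) (lf M c r0 j) := by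
  induction j, hij using Nat.le_induction with
  | base => exact Relation.EqvGen.refl _
  | succ j hj ih =>
    refine (ih fun k h1 h2 => hS k h1 (by omega)).trans' ?_
    rcases ed_lf h j with h1 | h1
    · rw [← h1]; exact Relation.EqvGen.refl _
    · exact Lk.edge (hS j hj (by omega)) (hS (j + 1) (by omega) le_rfl) h1

theorem chain_rg (h : St M c r0) {S : Set C} {i j : ℕ} (hij : i ≤ j)
    (hS : ∀ k, i ≤ k → k ≤ j → rg M c r0 k ∈ S) : Lk M S (rg M c r0 i) (rg M c r0 j) := by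
  induction j, hij using Nat.le_induction with
  | base => exact Relation.EqvGen.refl _
  | succ j hj ih =>
    refine (ih fun k h1 h2 => hS k h1 (by omega)).trans' ?_
    rcases ed_rg h j with h1 | h1
    · rw [← h1]; exact Relation.EqvGen.refl _
    · exact Lk.edge (hS j hj (by omega)) (hS (j + 1) (by omega) le_rfl) h1

theorem cn_sl (h : St M c r0) (i j : ℕ) : Cn M (sl M c r0 i j) := by
  have key : ∀ k k', i ≤ k → k ≤ k' → k' ≤ j →
      Lk M (sl M c r0 i j) (lf M c r0 k) (lf M c r0 k') := fun k k' h1 h2 h3 =>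
    chain_lf h h2 fun l h4 h5 => ⟨l, by omega, by omega, rfl⟩
  rintro _ ⟨k, h1, h2, rfl⟩ _ ⟨k', h3, h4, rfl⟩
  rcases le_total k k' with h5 | h5
  · exact key k k' h1 h5 h4
  · exact Relation.EqvGen.symm _ _ (key k' k h3 h5 h2)

theorem cn_sr (h : St M c r0) (i j : ℕ) : Cn M (sr M c r0 i j) := by
  have key : ∀ k k', i ≤ k → k ≤ k' → k' ≤ j →
      Lk M (sr M c r0 i j) (rg M c r0 k) (rg M c r0 k') := fun k k' h1 h2 h3 =>
    chain_rg h h2 fun l h4 h5 => ⟨l, by omega, by omega, rfl⟩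
  rintro _ ⟨k, h1, h2, rfl⟩ _ ⟨k', h3, h4, rfl⟩
  rcases le_total k k' with h5 | h5
  · exact key k k' h1 h5 h4
  · exact Relation.EqvGen.symm _ _ (key k' k h3 h5 h2)

theorem lf_mem {i j k : ℕ} (h1 : i ≤ k) (h2 : k ≤ j) : lf M c r0 k ∈ sl M c r0 i j :=
  ⟨k, h1, h2, rfl⟩

theorem rg_mem {i j k : ℕ} (h1 : i ≤ k) (h2 : k ≤ j) : rg M c r0 k ∈ sr M c r0 i j :=
  ⟨k, h1, h2, rfl⟩

/-- a connected set and the left cells seen from a time at which the left cell is in it -/
theorem cn_add_sl (h : St M c r0) {S : Set C} (hS : Cn M S) {i j : ℕ} (hij : i ≤ j)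
    (hi : lf M c r0 i ∈ S) : Cn M (S ∪ sl M c r0 i j) :=
  hS.union (cn_sl h i j) hi (lf_mem le_rfl hij) (Or.inl rfl)

theorem cn_add_sr (h : St M c r0) {S : Set C} (hS : Cn M S) {i j : ℕ} (hij : i ≤ j)
    (hi : rg M c r0 i ∈ S) : Cn M (S ∪ sr M c r0 i j) :=
  hS.union (cn_sr h i j) hi (rg_mem le_rfl hij) (Or.inl rfl)

theorem c_sl (h : St M c r0) {i j : ℕ} {x : C} (hx : x ∈ sl M c r0 i j) : c x = 1 := by
  obtain ⟨k, -, -, rfl⟩ := hx
  exact c_lf h k

theorem c_sr (h : St M c r0) {i j : ℕ} {x : C} (hx : x ∈ sr M c r0 i j) : c x = 0 := by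
  obtain ⟨k, -, -, rfl⟩ := hx
  exact c_rg h k

/-- the walker is a run between two sets which contain the cells seen -/
theorem run_of (h : St M c r0) {α β : Set C} {m : ℕ}
    (h1 : ∀ k ≤ m, lf M c r0 k ∈ α) (h2 : ∀ k ≤ m, rg M c r0 k ∈ β) :
    Run M α β m (P M (cfg M c) r0) := by
  intro n hn
  rcases succ_cases h n with ⟨-, h3, -, h4⟩ | ⟨-, -, h3, h4⟩
  · left
    refine ⟨?_, h4⟩
    have := h1 (n + 1) hn
    rwa [h3] at this
  · right
    refine ⟨?_, h4⟩
    have := h2 (n + 1) hn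
    rwa [h3] at this

/-! ### root data -/

/-- root data: black wall `A`, white wall `B`, target `G` -/
structure Rt (M : CMap D C) (c : C → ZMod 2) (r0 : D) (A B G : Set C) : Prop where
  t : T3 M A B G
  lv : r0 ∈ M.live
  root : Tri M B A G (M.iota r0)
  cA : ∀ x ∈ A, c x = 1
  cB : ∀ x ∈ B, c x = 0

variable {A B G : Set C}

theorem Rt.l0 (h : Rt M c r0 A B G) : lf M c r0 0 ∈ A := by
  have h1 := h.root.2.1
  rw [cell_rho_iota M h.lv] at h1
  exact h1

theorem Rt.r0' (h : Rt M c r0 A B G) : rg M c r0 0 ∈ B := by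
  have h1 := h.root.1
  rw [M.cell_iota _ h.lv] at h1
  exact h1

theorem Rt.st (h : Rt M c r0 A B G) : St M c r0 := ⟨h.cA _ h.l0, h.cB _ h.r0'⟩

/-- first time with third cell in `G` -/
def tau (M : CMap D C) (c : C → ZMod 2) (r0 : D) (G : Set C) : ℕ := sInf {n | th M c r0 n ∈ G}

theorem tau_notMem {n : ℕ} (hn : n < tau M c r0 G) : th M c r0 n ∉ G :=
  Nat.notMem_of_lt_sInf hn

theorem Rt.notG (h : Rt M c r0 A B G) {n : ℕ} (hn : ∀ k < n, th M c r0 k ∉ G) :
    lf M c r0 n ∉ G ∧ rg M c r0 n ∉ G := by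
  induction n with
  | zero =>
    exact ⟨fun hc => Set.disjoint_left.1 h.t.ac h.l0 hc, fun hc => Set.disjoint_left.1 h.t.bc h.r0' hc⟩
  | succ n ih =>
    obtain ⟨i1, i2⟩ := ih fun k hk => hn k (by omega)
    rcases succ_cases h.st n with ⟨-, h1, h2, -⟩ | ⟨-, h1, h2, -⟩
    · rw [h1, h2]; exact ⟨hn n (by omega), i2⟩
    · rw [h1, h2]; exact ⟨i1, hn n (by omega)⟩

/-- the walker hits the target before it comes back -/
theorem Rt.hits [Finite D] (h : Rt M c r0 A B G) : ∃ N n, n + 1 < N ∧ th M c r0 n ∈ G ∧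
    ∀ a b, a < b → b < N → P M (cfg M c) r0 a ≠ P M (cfg M c) r0 b := by
  have hC : IsC M ∅ (cfg M c) := isC_cfg c
  obtain ⟨N, hN0, hN, hinj⟩ := period hC h.st.occ
  refine ⟨N, ?_⟩
  set q := P M (cfg M c) r0 (N - 1) with hq
  have hs : stp M (cfg M c) q = r0 := by
    rw [hq, ← P_succ, Nat.sub_add_cancel hN0, hN]
  -- the last state has a cell in `G`
  have hG : lf M c r0 (N - 1) ∈ G ∨ rg M c r0 (N - 1) ∈ G := by
    have h3 : M.rho (M.rho (M.rho q)) = q := M.rho3 q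
    rcases step_cases (h.st.P (N - 1)) with ⟨-, h1, -⟩ | ⟨-, h1, -⟩
    · -- `rho q = iota r0`
      rw [← hq, hs] at h1
      have e : M.rho q = M.iota r0 := by rw [h1, M.iota2]
      have hg := h.root.2.2
      rw [← e, h3] at hg
      exact Or.inl hg
    · rw [← hq, hs] at h1
      have e : M.rho (M.rho q) = M.iota r0 := by rw [h1, M.iota2]
      have hg := h.root.2.2
      rw [← e, h3] at hg
      exact Or.inr hg
  by_contra hcon
  push Not at hcon
  have h1 : ∀ k < N - 1, th M c r0 k ∉ G := fun k hk hm => by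
    obtain ⟨a, b, hab, hb, e⟩ := hcon k (by omega) hm
    exact hinj a b hab hb e
  obtain ⟨h2, h3⟩ := h.notG h1
  rcases hG with h4 | h4
  · exact h2 h4
  · exact h3 h4

theorem Rt.th_tau [Finite D] (h : Rt M c r0 A B G) : th M c r0 (tau M c r0 G) ∈ G := by
  obtain ⟨N, n, -, h1, -⟩ := h.hits
  exact Nat.sInf_mem (s := {n | th M c r0 n ∈ G}) ⟨n, h1⟩

theorem tau_le {n : ℕ} (h : th M c r0 n ∈ G) : tau M c r0 G ≤ n := Nat.sInf_le h

theorem Rt.inj [Finite D] (h : Rt M c r0 A B G) {a b : ℕ} (hab : a < b)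
    (hb : b ≤ tau M c r0 G) : P M (cfg M c) r0 a ≠ P M (cfg M c) r0 b := by
  obtain ⟨N, n, h1, h2, h3⟩ := h.hits
  exact h3 a b hab (by have := tau_le h2; omega)

theorem Rt.lfG (h : Rt M c r0 A B G) {n : ℕ} (hn : n ≤ tau M c r0 G) : lf M c r0 n ∉ G :=
  (h.notG fun k hk => tau_notMem (by omega)).1

theorem Rt.rgG (h : Rt M c r0 A B G) {n : ℕ} (hn : n ≤ tau M c r0 G) : rg M c r0 n ∉ G :=
  (h.notG fun k hk => tau_notMem (by omega)).2

/-- **confinement**: after the time `m₀` with third cell in `γ ⊇ G` the state cannot be attached on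
both sides to the old walls `α`, `β` -/
theorem conf [Finite D] (h : Rt M c r0 A B G) {α β γ : Set C} (hT : T3 M α β γ)
    {m₀ m j₁ j₂ : ℕ} (hm : m₀ < m) (hmT : m ≤ tau M c r0 G)
    (hα : ∀ k ≤ m₀, lf M c r0 k ∈ α) (hβ : ∀ k ≤ m₀, rg M c r0 k ∈ β)
    (hth : th M c r0 m₀ ∈ γ) (hG : G ⊆ γ) (hj₁ : j₁ ≤ m) (hj₂ : j₂ ≤ m)
    (h1 : lf M c r0 j₁ ∈ α) (h2 : rg M c r0 j₂ ∈ β)
    (h3 : ∀ k, j₁ < k → k ≤ m → lf M c r0 k ∉ β ∧ lf M c r0 k ∉ γ)
    (h4 : ∀ k, j₂ < k → k ≤ m → rg M c r0 k ∉ α ∧ rg M c r0 k ∉ γ) : False := by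
  have hab := Set.disjoint_left.1 hT.ab
  have hac := Set.disjoint_left.1 hT.ac
  have hbc := Set.disjoint_left.1 hT.bc
  have e1 : ∀ x ∈ sl M c r0 j₁ m, x ∈ α ∨ (x ∉ β ∧ x ∉ γ) := by
    rintro x ⟨k, k1, k2, rfl⟩
    rcases k1.lt_or_eq with k3 | rfl
    · exact Or.inr (h3 k k3 k2)
    · exact Or.inl h1
  have e2 : ∀ x ∈ sr M c r0 j₂ m, x ∈ β ∨ (x ∉ α ∧ x ∉ γ) := by
    rintro x ⟨k, k1, k2, rfl⟩
    rcases k1.lt_or_eq with k3 | rfl
    · exact Or.inr (h4 k k3 k2)
    · exact Or.inl h2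
  have hT' : T3 M (α ∪ sl M c r0 j₁ m) (β ∪ sr M c r0 j₂ m) γ := by
    refine ⟨cn_add_sl h.st hT.ca hj₁ h1, cn_add_sr h.st hT.cb hj₂ h2, hT.cc, ?_, ?_, ?_⟩
    · rw [Set.disjoint_left]
      rintro x (hx | hx) (hy | hy)
      · exact hab hx hy
      · rcases e2 x hy with h5 | h5
        · exact hab hx h5
        · exact h5.1 hx
      · rcases e1 x hx with h5 | h5
        · exact hab h5 hy
        · exact h5.1 hy
      · have a1 := c_sl h.st hx
        rw [c_sr h.st hy] at a1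
        exact absurd a1 (by decide)
    · rw [Set.disjoint_left]
      rintro x (hx | hx) hy
      · exact hac hx hy
      · rcases e1 x hx with h5 | h5
        · exact hac h5 hy
        · exact h5.2 hy
    · rw [Set.disjoint_left]
      rintro x (hx | hx) hy
      · exact hbc hx hy
      · rcases e2 x hx with h5 | h5
        · exact hbc h5 hy
        · exact h5.2 hy
  obtain ⟨n, hn, e⟩ := ab hT' (r := P M (cfg M c) r0) (T := m₀)
    (run_of h.st (fun k hk => Or.inl (hα k hk)) fun k hk => Or.inl (hβ k hk))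
    (Or.inl (hα 0 (Nat.zero_le _))) (Or.inl (hβ 0 (Nat.zero_le _))) (hG h.root.2.2) hth
    (e := P M (cfg M c) r0 m) (Or.inr (lf_mem hj₁ le_rfl)) (Or.inr (rg_mem hj₂ le_rfl))
  exact h.inj (a := n) (b := m) (by omega) hmT e

end Crest.Agent.R143.Walkx137
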