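import Crest.Agent.R143.Wgt_546

/-!
# Row 143 (S0194): WEIGHT LEMMA, two tubes without a common gate (helper546)

* `int_gFF` : `E [g F (pr e) F' (pr e')] = E g * loc e F * loc e' F'` for tubes `e`, `e'` without a
  common gate: under `g dP / E g` they are independent (input of `ChainV_323`)
-/

set_option autoImplicit false
set_option linter.unusedSectionVars false

noncomputable section

open scoped Classical

namespace Crest.Agent.R143.Wgtx546

open MeasureTheory ProbabilityTheory Set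

universe u1 u2 u3 u4

variable {V : Type u1} {E : Type u2} {Q : V → Type u3} {T : E → Type u4}
  [∀ v, MeasurableSpace (Q v)] [∀ e, MeasurableSpace (T e)]

namespace Cor

variable {K : Cor V E Q T} {𝕜 : Type*} [RCLike 𝕜] [Fintype V] [Fintype E]

/-- functions of disjoint sets of gates are independent -/
theorem gates_indep (h : K.Ok) {A B : Finset V} (hAB : Disjoint A B) :
    IndepFun (fun (q : ∀ v, Q v) (i : A) => q i) (fun (q : ∀ v, Q v) (i : B) => q i)
      (Measure.pi K.mu) := by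
  have := h.pmu
  exact (iIndepFun_pi (μ := K.mu) (X := fun v => (id : Q v → Q v))
    (fun v => aemeasurable_id)).indepFun_finset A B hAB (fun v => measurable_pi_apply v)

theorem int_prod_gd (h : K.Ok) (W : Finset V) :
    ∫ q, ∏ v ∈ W, K.gd v (q v) ∂(Measure.pi K.mu) = ∏ v ∈ W, (K.mu v).real (K.good v) := by
  have := h.pmu
  have e3 : ∀ q : ∀ v, Q v, ∏ v ∈ W, K.gd v (q v) =
      ∏ v, (if v ∈ W then K.gd v else (fun _ : Q v => (1 : ℝ))) (q v) := by
    intro q
    rw [← Finset.prod_sdiff (Finset.subset_univ W), Finset.prod_congr (s₁ := Finset.univ \ W)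
      (g := fun _ => (1 : ℝ)) rfl (fun v hv => by rw [if_neg (Finset.mem_sdiff.1 hv).2]),
      Finset.prod_const_one, one_mul]
    exact Finset.prod_congr rfl fun v hv => by rw [if_pos hv]
  rw [integral_congr_ae (Filter.Eventually.of_forall e3),
    integral_fintype_prod_eq_prod (fun v => if v ∈ W then K.gd v else (fun _ : Q v => (1 : ℝ))),
    ← Finset.prod_sdiff (Finset.subset_univ W), Finset.prod_congr (s₁ := Finset.univ \ W)
      (g := fun _ => (1 : ℝ)) rfl (fun v hv => by rw [if_neg (Finset.mem_sdiff.1 hv).2]; simp),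
    Finset.prod_const_one, one_mul]
  refine Finset.prod_congr rfl fun v hv => ?_
  rw [if_pos hv]
  unfold gd
  rw [integral_indicator_const _ (h.mgood v), smul_eq_mul, mul_one]

theorem int_en (h : K.Ok) (e : E) {L : Q (K.s e) × Q (K.t e) → 𝕜}
    (hL : AEStronglyMeasurable L ((K.mu (K.s e)).prod (K.mu (K.t e)))) :
    ∫ q, L (K.en e q) ∂(Measure.pi K.mu) =
      ∫ p, L p ∂((K.mu (K.s e)).prod (K.mu (K.t e))) := by
  have hL' : AEStronglyMeasurable L (Measure.map (K.en e) (Measure.pi K.mu)) := by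
    rw [map_en h e]; exact hL
  rw [← map_en h e, integral_map (meas_en e).aemeasurable hL']

theorem int_gates2 (h : K.Ok) {e e' : E}
    (hd : Disjoint ({K.s e, K.t e} : Finset V) {K.s e', K.t e'})
    {L : Q (K.s e) × Q (K.t e) → 𝕜} {L' : Q (K.s e') × Q (K.t e') → 𝕜}
    (hL : AEStronglyMeasurable L ((K.mu (K.s e)).prod (K.mu (K.t e))))
    (hL' : AEStronglyMeasurable L' ((K.mu (K.s e')).prod (K.mu (K.t e')))) {W : Finset V}
    (hW : Disjoint ({K.s e, K.t e} : Finset V) W) (hW' : Disjoint ({K.s e', K.t e'} : Finset V) W) :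
    ∫ q, L (K.en e q) * (L' (K.en e' q) * ((∏ v ∈ W, K.gd v (q v) : ℝ) : 𝕜))
        ∂(Measure.pi K.mu) =
      (∫ p, L p ∂((K.mu (K.s e)).prod (K.mu (K.t e)))) *
      ((∫ p, L' p ∂((K.mu (K.s e')).prod (K.mu (K.t e')))) *
        ((∏ v ∈ W, (K.mu v).real (K.good v) : ℝ) : 𝕜)) := by
  have := h.pmu
  have mW : Measurable fun q : ∀ v, Q v => ∏ v ∈ W, K.gd v (q v) :=
    Finset.measurable_prod _ fun v _ => (meas_gd h v).comp (measurable_pi_apply v)
  have hLm : AEStronglyMeasurable L (Measure.map (K.en e) (Measure.pi K.mu)) := by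
    rw [map_en h e]; exact hL
  have hLm' : AEStronglyMeasurable L' (Measure.map (K.en e') (Measure.pi K.mu)) := by
    rw [map_en h e']; exact hL'
  -- second factor
  let P2 := (∀ i : ({K.s e', K.t e'} : Finset V), Q i)
  have i2 : IndepFun (K.en e') (fun q : ∀ v, Q v => ∏ v ∈ W, K.gd v (q v)) (Measure.pi K.mu) := by
    have h1 := gates_indep h hW'
    let phi : (∀ i : ({K.s e', K.t e'} : Finset V), Q i) → Q (K.s e') × Q (K.t e') :=
      fun u => (u ⟨K.s e', by simp⟩, u ⟨K.t e', by simp⟩)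
    let psi : (∀ i : W, Q i) → ℝ := fun u => ∏ i : W, K.gd i (u i)
    have hphi : Measurable phi := by fun_prop
    have hpsi : Measurable psi := Finset.measurable_prod _ fun i _ =>
      (meas_gd h i).comp (measurable_pi_apply i)
    have h2 := h1.comp hphi hpsi
    have e2 : (psi ∘ fun (q : ∀ v, Q v) (i : W) => q i) =
        fun q : ∀ v, Q v => ∏ v ∈ W, K.gd v (q v) := by
      funext q
      exact Finset.prod_coe_sort W (fun v => K.gd v (q v))
    rw [e2] at h2
    exact h2
  have h3 := i2.integral_fun_comp_mul_comp (f := L') (g := fun r : ℝ => (r : 𝕜))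
    (meas_en e').aemeasurable mW.aemeasurable hLm'
    RCLike.continuous_ofReal.aestronglyMeasurable
  -- first factor
  have i1 : IndepFun (K.en e) (fun q : ∀ v, Q v => (K.en e' q, ∏ v ∈ W, K.gd v (q v)))
      (Measure.pi K.mu) := by
    have h1 := gates_indep h (A := {K.s e, K.t e}) (B := {K.s e', K.t e'} ∪ W)
      (Finset.disjoint_union_right.2 ⟨hd, hW⟩)
    let phi : (∀ i : ({K.s e, K.t e} : Finset V), Q i) → Q (K.s e) × Q (K.t e) :=
      fun u => (u ⟨K.s e, by simp⟩, u ⟨K.t e, by simp⟩)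
    let psi : (∀ i : ({K.s e', K.t e'} ∪ W : Finset V), Q i) → (Q (K.s e') × Q (K.t e')) × ℝ :=
      fun u => ((u ⟨K.s e', by simp⟩, u ⟨K.t e', by simp⟩),
        ∏ i : W, K.gd i (u ⟨i, Finset.mem_union_right _ i.2⟩))
    have hphi : Measurable phi := by fun_prop
    have hpsi : Measurable psi := by
      refine Measurable.prodMk (by fun_prop) ?_
      exact Finset.measurable_prod _ fun i _ => (meas_gd h i).comp (measurable_pi_apply _)
    have h2 := h1.comp hphi hpsi
    have e2 : (psi ∘ fun (q : ∀ v, Q v) (i : ({K.s e', K.t e'} ∪ W : Finset V)) => q i) =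
        fun q : ∀ v, Q v => (K.en e' q, ∏ v ∈ W, K.gd v (q v)) := by
      funext q
      show (((q (K.s e'), q (K.t e')) : Q (K.s e') × Q (K.t e')), ∏ i : W, K.gd i (q i)) = _
      rw [Finset.prod_coe_sort W (fun v => K.gd v (q v))]
      rfl
    rw [e2] at h2
    exact h2
  have m2 : Measurable fun q : ∀ v, Q v => (K.en e' q, ∏ v ∈ W, K.gd v (q v)) :=
    (meas_en e').prodMk mW
  have h4 : AEStronglyMeasurable (fun y : (Q (K.s e') × Q (K.t e')) × ℝ => L' y.1 * (y.2 : 𝕜))
      (Measure.map (fun q : ∀ v, Q v => (K.en e' q, ∏ v ∈ W, K.gd v (q v))) (Measure.pi K.mu)) := by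
    refine AEStronglyMeasurable.mul ?_
      (RCLike.continuous_ofReal.measurable.comp measurable_snd).aestronglyMeasurable
    have e5 : Measure.map Prod.fst (Measure.map (fun q : ∀ v, Q v =>
        (K.en e' q, ∏ v ∈ W, K.gd v (q v))) (Measure.pi K.mu)) =
        Measure.map (K.en e') (Measure.pi K.mu) := Measure.map_map measurable_fst m2
    rw [← e5] at hLm'
    exact hLm'.comp_measurable measurable_fst
  have h5 := i1.integral_fun_comp_mul_comp (f := L)
    (g := fun y : (Q (K.s e') × Q (K.t e')) × ℝ => L' y.1 * (y.2 : 𝕜))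
    (meas_en e).aemeasurable m2.aemeasurable hLm h4
  rw [h5]
  show (∫ q, L (K.en e q) ∂(Measure.pi K.mu)) *
    ∫ q, L' (K.en e' q) * ((∏ v ∈ W, K.gd v (q v) : ℝ) : 𝕜) ∂(Measure.pi K.mu) = _
  rw [h3, int_en h e hL, int_en h e' hL', integral_ofReal, int_prod_gd h W]

/-- integral over the tubes of a product of functions of two tubes -/
theorem int_tubesFF (h : K.Ok) {q : ∀ v, Q v} (hq : ∀ v, q v ∈ K.good v) {e0 e1 : E}
    (hne : e1 ≠ e0) (F : (Q (K.s e0) × Q (K.t e0)) × T e0 → 𝕜)
    (F' : (Q (K.s e1) × Q (K.t e1)) × T e1 → 𝕜) :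
    ∫ x, ((∏ e, K.fac e (K.en e q) (x e) : ℝ) : 𝕜) * (F (K.en e0 q, x e0) * F' (K.en e1 q, x e1))
        ∂(Measure.pi K.nu) =
      ((∏ e ∈ (Finset.univ.erase e0).erase e1, K.c e : ℝ) : 𝕜) *
        (K.lam e1 F' (K.en e1 q) * K.lam e0 F (K.en e0 q)) := by
  have := h.pnu
  let U : ∀ e, T e → 𝕜 := Function.update (Function.update (fun e (_ : T e) => (1 : 𝕜)) e0
    (fun x => F (K.en e0 q, x))) e1 (fun x => F' (K.en e1 q, x))
  have U1 : ∀ x, U e1 x = F' (K.en e1 q, x) := fun x => by simp [U]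
  have U0 : ∀ x, U e0 x = F (K.en e0 q, x) := fun x => by
    simp [U, Function.update_of_ne hne.symm]
  have U2 : ∀ e, e ≠ e0 → e ≠ e1 → ∀ x, U e x = 1 := fun e he he' x => by
    simp [U, Function.update_of_ne he', Function.update_of_ne he]
  have m1 : e1 ∈ Finset.univ.erase e0 := Finset.mem_erase.2 ⟨hne, Finset.mem_univ _⟩
  have e2 : ∀ x : ∀ e, T e, ((∏ e, K.fac e (K.en e q) (x e) : ℝ) : 𝕜) *
      (F (K.en e0 q, x e0) * F' (K.en e1 q, x e1)) =
      ∏ e, ((K.fac e (K.en e q) (x e) : 𝕜) * U e (x e)) := by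
    intro x
    have e3 : ∏ e, U e (x e) = F (K.en e0 q, x e0) * F' (K.en e1 q, x e1) := by
      rw [← Finset.prod_erase_mul _ _ (Finset.mem_univ e0), U0, mul_comm,
        Finset.prod_eq_single (f := fun e => U e (x e)) e1
          (fun e he he' => U2 e (Finset.ne_of_mem_erase he) he' _) (fun hh => absurd m1 hh), U1]
    rw [Finset.prod_mul_distrib, RCLike.ofReal_prod, e3]
  rw [integral_congr_ae (Filter.Eventually.of_forall e2),
    integral_fintype_prod_eq_prod (fun e x => (K.fac e (K.en e q) x : 𝕜) * U e x),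
    ← Finset.prod_erase_mul _ _ (Finset.mem_univ e0), ← Finset.prod_erase_mul _ _ m1,
    RCLike.ofReal_prod, mul_assoc]
  congr 1
  · refine Finset.prod_congr rfl fun e he => ?_
    have hne1 := Finset.ne_of_mem_erase he
    have hne0 := Finset.ne_of_mem_erase (Finset.mem_of_mem_erase he)
    rw [← int_fac' h (⟨hq _, hq _⟩ : K.en e q ∈ K.gg e)]
    refine integral_congr_ae (Filter.Eventually.of_forall fun x => ?_)
    show (K.fac e (K.en e q) x : 𝕜) * U e x = _
    rw [U2 e hne0 hne1, mul_one]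
  · congr 1
    · refine integral_congr_ae (Filter.Eventually.of_forall fun x => ?_)
      show (K.fac e1 (K.en e1 q) x : 𝕜) * U e1 x = _
      rw [U1]
    · refine integral_congr_ae (Filter.Eventually.of_forall fun x => ?_)
      show (K.fac e0 (K.en e0 q) x : 𝕜) * U e0 x = _
      rw [U0]

/-- the local integral as a measurable function on the good pairs -/
theorem lam_meas (h : K.Ok) {e : E} {F : (Q (K.s e) × Q (K.t e)) × T e → 𝕜}
    (hF : Integrable F (K.ll e)) :
    AEStronglyMeasurable (fun p => (K.gg e).indicator (K.lam e F) p)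
      ((K.mu (K.s e)).prod (K.mu (K.t e))) := by
  have := h.pnu
  have := h.pmu
  have hfacF : Integrable (fun y : (Q (K.s e) × Q (K.t e)) × T e =>
      (K.gg e ×ˢ (univ : Set (T e))).indicator (fun y => (K.fac e y.1 y.2 : 𝕜) * F y) y)
      (K.ll e) := by
    refine hF.norm.mono' ?_ (Filter.Eventually.of_forall fun y => ?_)
    · exact ((RCLike.continuous_ofReal.measurable.comp (meas_fac h e)).aestronglyMeasurable.mul
        hF.aestronglyMeasurable).indicator ((meas_gg h e).prod MeasurableSet.univ)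
    · by_cases hy : y ∈ K.gg e ×ˢ (univ : Set (T e))
      · rw [indicator_of_mem hy, norm_mul, RCLike.norm_ofReal, abs_of_nonneg (fac_nonneg h e _ _)]
        exact mul_le_of_le_one_left (norm_nonneg _) (fac_le h e hy.1 _)
      · rw [indicator_of_notMem hy, norm_zero]
        exact norm_nonneg _
  have h1 := hfacF.aestronglyMeasurable.integral_prod_right'
  refine h1.congr (Filter.Eventually.of_forall fun p => ?_)
  show ∫ x, (K.gg e ×ˢ (univ : Set (T e))).indicator (fun y => (K.fac e y.1 y.2 : 𝕜) * F y) (p, x)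
    ∂(K.nu e) = (K.gg e).indicator (K.lam e F) p
  by_cases hp : p ∈ K.gg e
  · rw [indicator_of_mem hp]
    refine integral_congr_ae (Filter.Eventually.of_forall fun x => ?_)
    show (K.gg e ×ˢ (univ : Set (T e))).indicator (fun y => (K.fac e y.1 y.2 : 𝕜) * F y) (p, x) = _
    rw [indicator_of_mem (show (p, x) ∈ K.gg e ×ˢ (univ : Set (T e)) from ⟨hp, mem_univ _⟩)]
  · rw [indicator_of_notMem hp]
    refine (integral_congr_ae (Filter.Eventually.of_forall fun x => ?_)).trans (integral_zero _ _)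
    show (K.gg e ×ˢ (univ : Set (T e))).indicator (fun y => (K.fac e y.1 y.2 : 𝕜) * F y) (p, x) = 0
    rw [indicator_of_notMem (fun hh => hp hh.1)]

/-- integral of the local integral in terms of the exact local mean -/
theorem int_lam (h : K.Ok) {e : E} (F : (Q (K.s e) × Q (K.t e)) × T e → 𝕜) :
    ∫ p, (K.gg e).indicator (K.lam e F) p ∂((K.mu (K.s e)).prod (K.mu (K.t e))) =
      (K.c e : 𝕜) * ((((K.mu (K.s e)).real (K.good (K.s e)) *
        (K.mu (K.t e)).real (K.good (K.t e)) : ℝ) : 𝕜) * K.loc e F) := by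
  have := h.pmu
  rw [integral_indicator (meas_gg h e)]
  have e1 : ∫ p in K.gg e, K.lam e F p ∂((K.mu (K.s e)).prod (K.mu (K.t e))) = (K.c e : 𝕜) *
      ∫ p in K.gg e, ((K.pi e p)⁻¹ : ℝ) * ∫ x in Prod.mk p ⁻¹' K.ev e, F (p, x) ∂(K.nu e)
        ∂((K.mu (K.s e)).prod (K.mu (K.t e))) := by
    rw [← integral_const_mul]
    exact integral_congr_ae (Filter.Eventually.of_forall fun p => lam_eq h e F p)
  rw [e1]
  unfold loc
  set I := ∫ p in K.gg e, ((K.pi e p)⁻¹ : ℝ) * ∫ x in Prod.mk p ⁻¹' K.ev e, F (p, x) ∂(K.nu e)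
        ∂((K.mu (K.s e)).prod (K.mu (K.t e))) with hI
  set m := (K.mu (K.s e)).real (K.good (K.s e)) * (K.mu (K.t e)).real (K.good (K.t e)) with hm
  by_cases h0 : m = 0
  · have hI0 : I = 0 := by
      have h2 : ((K.mu (K.s e)).prod (K.mu (K.t e))) (K.gg e) = 0 := by
        unfold gg
        rw [Measure.prod_prod]
        rcases mul_eq_zero.1 h0 with h3 | h3
        · rw [measureReal_eq_zero_iff] at h3
          rw [h3, zero_mul]
        · rw [measureReal_eq_zero_iff] at h3
          rw [h3, mul_zero]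
      rw [hI, Measure.restrict_eq_zero.2 h2, integral_zero_measure]
    rw [hI0, h0]
    simp
  · have h0' : (m : 𝕜) ≠ 0 := RCLike.ofReal_ne_zero.2 h0
    field_simp

/-- raw form, for global `L²` functions -/
theorem int_gFF_raw (h : K.Ok) {e e' : E}
    (hd : Disjoint ({K.s e, K.t e} : Finset V) {K.s e', K.t e'})
    {F : (Q (K.s e) × Q (K.t e)) × T e → 𝕜} {F' : (Q (K.s e') × Q (K.t e')) × T e' → 𝕜}
    (hF : Integrable F (K.ll e)) (hF' : Integrable F' (K.ll e'))
    (hF2 : Integrable (fun y => ‖F y‖ ^ 2) (K.ll e))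
    (hF2' : Integrable (fun y => ‖F' y‖ ^ 2) (K.ll e')) :
    ∫ z, (K.g z : 𝕜) * (F (K.pr e z) * F' (K.pr e' z))
        ∂((Measure.pi K.mu).prod (Measure.pi K.nu)) =
      ((∫ z, K.g z ∂((Measure.pi K.mu).prod (Measure.pi K.nu)) : ℝ) : 𝕜) *
        (K.loc e F * K.loc e' F') := by
  have := h.pnu
  have := h.pmu
  have hne : e' ≠ e := by
    rintro rfl
    exact absurd (Finset.disjoint_left.1 hd (show K.s e' ∈ ({K.s e', K.t e'} : Finset V) by simp))
      (by simp)
  have hi : Integrable (fun z => (K.g z : 𝕜) * (F (K.pr e z) * F' (K.pr e' z)))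
      ((Measure.pi K.mu).prod (Measure.pi K.nu)) := by
    have a1 := (mp_pr h e).integrable_comp_of_integrable hF2
    have a2 := (mp_pr h e').integrable_comp_of_integrable hF2'
    have b1 := (mp_pr h e).integrable_comp_of_integrable hF
    have b2 := (mp_pr h e').integrable_comp_of_integrable hF'
    refine (a1.add a2).mono' ?_ (Filter.Eventually.of_forall fun z => ?_)
    · exact ((RCLike.continuous_ofReal.measurable.comp (meas_g h)).aestronglyMeasurable).mul
        (b1.aestronglyMeasurable.mul b2.aestronglyMeasurable)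
    · rw [norm_mul, norm_mul, RCLike.norm_ofReal, abs_of_nonneg (g_nonneg h z)]
      have c1 := g_le_one h z
      have c2 := g_nonneg h z
      have c3 := norm_nonneg (F (K.pr e z))
      have c4 := norm_nonneg (F' (K.pr e' z))
      show K.g z * (‖F (K.pr e z)‖ * ‖F' (K.pr e' z)‖) ≤ ‖F (K.pr e z)‖ ^ 2 + ‖F' (K.pr e' z)‖ ^ 2
      have c5 : K.g z * (‖F (K.pr e z)‖ * ‖F' (K.pr e' z)‖) ≤
          ‖F (K.pr e z)‖ * ‖F' (K.pr e' z)‖ :=
        mul_le_of_le_one_left (mul_nonneg c3 c4) c1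
      nlinarith [sq_nonneg (‖F (K.pr e z)‖ - ‖F' (K.pr e' z)‖)]
  set W : Finset V := Finset.univ \ ({K.s e, K.t e} ∪ {K.s e', K.t e'}) with hWdef
  have hW : Disjoint ({K.s e, K.t e} : Finset V) W :=
    Finset.disjoint_sdiff.mono_left Finset.subset_union_left
  have hW' : Disjoint ({K.s e', K.t e'} : Finset V) W :=
    Finset.disjoint_sdiff.mono_left Finset.subset_union_right
  have ne1 : (K.s e : V) ≠ K.t e := h.st e
  have ne2 : (K.s e' : V) ≠ K.t e' := h.st e'
  have split : ∀ f : V → ℝ, ∏ v, f v = (f (K.s e) * f (K.t e)) *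
      ((f (K.s e') * f (K.t e')) * ∏ v ∈ W, f v) := by
    intro f
    rw [← Finset.prod_sdiff (Finset.subset_univ (({K.s e, K.t e} : Finset V) ∪ {K.s e', K.t e'})),
      Finset.prod_union hd, Finset.prod_pair ne1, Finset.prod_pair ne2]
    ring
  have key := int_gates2 h hd (lam_meas h hF) (lam_meas h hF') hW hW'
  rw [int_lam h F, int_lam h F'] at key
  have e5 : ∫ z, K.g z ∂((Measure.pi K.mu).prod (Measure.pi K.nu)) =
      (∏ e'' ∈ (Finset.univ.erase e).erase e', K.c e'') * (K.c e' * K.c e) *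
      (((K.mu (K.s e)).real (K.good (K.s e)) * (K.mu (K.t e)).real (K.good (K.t e))) *
      (((K.mu (K.s e')).real (K.good (K.s e')) * (K.mu (K.t e')).real (K.good (K.t e'))) *
        ∏ v ∈ W, (K.mu v).real (K.good v))) := by
    rw [int_g h, split, ← Finset.prod_erase_mul _ _ (Finset.mem_univ e),
      ← Finset.prod_erase_mul _ _ (Finset.mem_erase.2 ⟨hne, Finset.mem_univ _⟩)]
    ring
  have e6 : ∫ z, (K.g z : 𝕜) * (F (K.pr e z) * F' (K.pr e' z))
        ∂((Measure.pi K.mu).prod (Measure.pi K.nu)) =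
      ((∏ e'' ∈ (Finset.univ.erase e).erase e', K.c e'' : ℝ) : 𝕜) *
      ∫ q, (K.gg e).indicator (K.lam e F) (K.en e q) * ((K.gg e').indicator (K.lam e' F')
        (K.en e' q) * ((∏ v ∈ W, K.gd v (q v) : ℝ) : 𝕜)) ∂(Measure.pi K.mu) := by
    rw [integral_prod _ hi, ← integral_const_mul]
    refine integral_congr_ae (Filter.Eventually.of_forall fun q => ?_)
    show ∫ x, (K.g (q, x) : 𝕜) * (F (K.pr e (q, x)) * F' (K.pr e' (q, x))) ∂(Measure.pi K.nu) = _
    have e1 : ∫ x, (K.g (q, x) : 𝕜) * (F (K.pr e (q, x)) * F' (K.pr e' (q, x)))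
        ∂(Measure.pi K.nu) = ((∏ v, K.gd v (q v) : ℝ) : 𝕜) *
        ∫ x, ((∏ e, K.fac e (K.en e q) (x e) : ℝ) : 𝕜) *
          (F (K.en e q, x e) * F' (K.en e' q, x e')) ∂(Measure.pi K.nu) := by
      rw [← integral_const_mul]
      refine integral_congr_ae (Filter.Eventually.of_forall fun x => ?_)
      show (K.g (q, x) : 𝕜) * (F (K.pr e (q, x)) * F' (K.pr e' (q, x))) =
        ((∏ v, K.gd v (q v) : ℝ) : 𝕜) * (((∏ e, K.fac e (K.en e q) (x e) : ℝ) : 𝕜) *
          (F (K.en e q, x e) * F' (K.en e' q, x e')))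
      have gx : (K.g (q, x) : 𝕜) = ((∏ v, K.gd v (q v) : ℝ) : 𝕜) *
          ((∏ e, K.fac e (K.en e q) (x e) : ℝ) : 𝕜) := by
        rw [← RCLike.ofReal_mul]
        rfl
      rw [gx, mul_assoc]
      rfl
    rw [e1]
    show _ = ((∏ e'' ∈ (Finset.univ.erase e).erase e', K.c e'' : ℝ) : 𝕜) *
      ((K.gg e).indicator (K.lam e F) (K.en e q) * ((K.gg e').indicator (K.lam e' F')
        (K.en e' q) * ((∏ v ∈ W, K.gd v (q v) : ℝ) : 𝕜)))
    by_cases hq : ∀ v, q v ∈ K.good v
    · rw [int_tubesFF h hq hne F F', split (fun v => K.gd v (q v)),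
        indicator_of_mem (show K.en e q ∈ K.gg e from ⟨hq _, hq _⟩),
        indicator_of_mem (show K.en e' q ∈ K.gg e' from ⟨hq _, hq _⟩)]
      have g1 : ∀ v, K.gd v (q v) = 1 := fun v => indicator_of_mem (hq v) _
      simp only [g1]
      push_cast
      ring
    · have h0 : ∏ v, K.gd v (q v) = 0 := by
        push Not at hq
        obtain ⟨v, hv⟩ := hq
        exact Finset.prod_eq_zero (Finset.mem_univ v) (indicator_of_notMem hv _)
      rw [h0, RCLike.ofReal_zero, zero_mul]
      symm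
      by_cases hp : K.en e q ∈ K.gg e
      · by_cases hp' : K.en e' q ∈ K.gg e'
        · rw [split (fun v => K.gd v (q v))] at h0
          have h1 : K.gd _ (q (K.s e)) = 1 := indicator_of_mem hp.1 _
          have h2 : K.gd _ (q (K.t e)) = 1 := indicator_of_mem hp.2 _
          have h3 : K.gd _ (q (K.s e')) = 1 := indicator_of_mem hp'.1 _
          have h4 : K.gd _ (q (K.t e')) = 1 := indicator_of_mem hp'.2 _
          simp only [h1, h2, h3, h4, one_mul] at h0
          rw [h0, RCLike.ofReal_zero, mul_zero, mul_zero, mul_zero]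
        · rw [indicator_of_notMem hp', zero_mul, mul_zero, mul_zero]
      · rw [indicator_of_notMem hp, zero_mul, mul_zero]
  rw [e6, key, e5]
  push_cast
  ring

/-- **(W6)**: two tubes without a common gate -/
theorem int_gFF (h : K.Ok) {e e' : E}
    (hd : Disjoint ({K.s e, K.t e} : Finset V) {K.s e', K.t e'})
    {F : (Q (K.s e) × Q (K.t e)) × T e → 𝕜} {F' : (Q (K.s e') × Q (K.t e')) × T e' → 𝕜}
    (hF : IntegrableOn F (K.gs e) (K.ll e)) (hF' : IntegrableOn F' (K.gs e') (K.ll e'))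
    (hF2 : IntegrableOn (fun y => ‖F y‖ ^ 2) (K.gs e) (K.ll e))
    (hF2' : IntegrableOn (fun y => ‖F' y‖ ^ 2) (K.gs e') (K.ll e')) :
    ∫ z, (K.g z : 𝕜) * (F (K.pr e z) * F' (K.pr e' z))
        ∂((Measure.pi K.mu).prod (Measure.pi K.nu)) =
      ((∫ z, K.g z ∂((Measure.pi K.mu).prod (Measure.pi K.nu)) : ℝ) : 𝕜) *
        (K.loc e F * K.loc e' F') := by
  have a1 : Integrable ((K.gs e).indicator F) (K.ll e) :=
    (integrable_indicator_iff (meas_gs h e)).2 hF
  have a2 : Integrable ((K.gs e').indicator F') (K.ll e') :=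
    (integrable_indicator_iff (meas_gs h e')).2 hF'
  have sq : ∀ {α : Type _} (A : Set α) (f : α → 𝕜), (fun y => ‖A.indicator f y‖ ^ 2) =
      A.indicator (fun y => ‖f y‖ ^ 2) := by
    intro α A f
    funext y
    by_cases hy : y ∈ A
    · rw [indicator_of_mem hy, indicator_of_mem hy]
    · rw [indicator_of_notMem hy, indicator_of_notMem hy, norm_zero]
      norm_num
  have b1 : Integrable (fun y => ‖(K.gs e).indicator F y‖ ^ 2) (K.ll e) := by
    rw [sq]
    exact (integrable_indicator_iff (meas_gs h e)).2 hF2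
  have b2 : Integrable (fun y => ‖(K.gs e').indicator F' y‖ ^ 2) (K.ll e') := by
    rw [sq]
    exact (integrable_indicator_iff (meas_gs h e')).2 hF2'
  rw [← loc_ind h e F, ← loc_ind h e' F', ← int_gFF_raw h hd a1 a2 b1 b2]
  refine integral_congr_ae (Filter.Eventually.of_forall fun z => ?_)
  show (K.g z : 𝕜) * (F (K.pr e z) * F' (K.pr e' z)) =
    (K.g z : 𝕜) * ((K.gs e).indicator F (K.pr e z) * (K.gs e').indicator F' (K.pr e' z))
  by_cases h1 : K.pr e z ∈ K.gs e
  · by_cases h2 : K.pr e' z ∈ K.gs e'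
    · rw [indicator_of_mem h1, indicator_of_mem h2]
    · rw [g_pr_zero h2, RCLike.ofReal_zero, zero_mul, zero_mul]
  · rw [g_pr_zero h1, RCLike.ofReal_zero, zero_mul, zero_mul]

end Cor

end Crest.Agent.R143.Wgtx546
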