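import Crest.Agent.R143.Prod_609

/-!
# Row 143: annealed pieces, laws under isometries, two families of pieces (helper176)

On `Prod_609`.
* `im g X` : the image of a coloured set under a map of the plane; `fme_im`
* `law_iso`, `int_iso` : laws / Bochner integrals of functions of a piece, measure preserving maps
* `int_cov` : covariance: `F (im g X) = z * G X` gives `E F = z * E G`
* `law_prod`, `int_prod` : two families of pieces (gates and tubes) are two product spaces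
* `law_fam`, `int_fam` : one family
-/

set_option autoImplicit false
set_option linter.unusedSectionVars false

noncomputable section

namespace Crest.Agent.R143.WgtCx176

open MeasureTheory Set Filter Topology
open Crest.ProbabilityR.Voronoi
open Crest.Agent.R143.PP0x831 Crest.Agent.R143.Poisx304 Crest.Agent.R143.Janx304
open Crest.Agent.R143.Prodx609
open scoped ENNReal

/-- image of a coloured set under a map of the plane -/
def im (g : ℂ → ℂ) (X : Set (ℂ × Bool)) : Set (ℂ × Bool) :=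
  (fun p : ℂ × Bool => (g p.1, p.2)) '' X

theorem im_ovr (g : ℂ ≃ ℂ) (X : Set (ℂ × Bool)) (B : Set ℂ) :
    im g (X ∩ ovr (g ⁻¹' B)) = im g X ∩ ovr B := by
  ext e
  simp only [im, mem_image, mem_inter_iff, ovr, mem_ofPred_eq, mem_preimage]
  constructor
  · rintro ⟨p, ⟨h1, h2⟩, rfl⟩
    exact ⟨⟨p, h1, rfl⟩, h2⟩
  · rintro ⟨⟨p, h1, rfl⟩, h2⟩
    exact ⟨p, ⟨h1, h2⟩, rfl⟩

theorem im_union (g : ℂ → ℂ) (X Y : Set (ℂ × Bool)) : im g (X ∪ Y) = im g X ∪ im g Y :=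
  image_union _ _ _

theorem im_iUnion (g : ℂ → ℂ) {ι : Type*} (X : ι → Set (ℂ × Bool)) :
    im g (⋃ i, X i) = ⋃ i, im g (X i) := image_iUnion

theorem im_comp (g h : ℂ → ℂ) (X : Set (ℂ × Bool)) : im g (im h X) = im (g ∘ h) X := by
  unfold im
  rw [image_image]
  rfl

section law

variable {C : Type*} [MeasurableSpace C]

theorem fme_im {g : ℂ → ℂ} (hg : Measurable g) {F : Set (ℂ × Bool) → C} (hF : FMe F) :
    FMe fun X => F (im g X) := by
  intro n
  have h1 : ∀ z : Fin n → ℂ × Bool, im g (range z) = range fun i => (g (z i).1, (z i).2) := by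
    intro z
    unfold im
    rw [← range_comp]
    rfl
  simp only [h1]
  refine (hF n).comp (measurable_pi_lambda _ fun i => ?_)
  exact (hg.comp ((measurable_pi_apply i).fst)).prodMk ((measurable_pi_apply i).snd)

theorem piece_finite {ε : ℝ} (hε : 0 < ε) {B : Set ℂ} (hB : MeasurableSet B)
    (hb : Bornology.IsBounded B) (ω : Sample) : (cfg ε ω ∩ ovr B).Finite := by
  obtain ⟨n, y, hn, hy, h⟩ := frs_cfg hε hB hb
  have h1 : cfg ε ω ∩ ovr B = (fun j => y j ω) '' {j | j < n ω} := h ω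
  rw [h1]
  exact (Set.finite_lt_nat (n ω)).image _

/-- the law of a function of a piece under a measure preserving map of the plane -/
theorem law_iso {ε : ℝ} (hε : 0 < ε) {B : Set ℂ} (hB : MeasurableSet B)
    (hb : Bornology.IsBounded B) {g : ℂ ≃ᵐ ℂ} (hg : MeasurePreserving g volume volume)
    (hgb : Bornology.IsBounded (g ⁻¹' B)) {F : Set (ℂ × Bool) → C} (hF : FMe F) :
    Measure.map (fun ω : Sample => F (im g (cfg ε ω ∩ ovr (g ⁻¹' B)))) sampleLaw =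
      Measure.map (fun ω : Sample => F (cfg ε ω ∩ ovr B)) sampleLaw := by
  have m1 : Measurable fun ω : Sample => F (im g (cfg ε ω ∩ ovr (g ⁻¹' B))) :=
    meas_cfg hε (g.measurable hB) hgb (fme_im g.measurable hF)
  have m2 : Measurable fun ω : Sample => F (cfg ε ω ∩ ovr B) := meas_cfg hε hB hb hF
  ext T hT
  rw [Measure.map_apply m1 hT, Measure.map_apply m2 hT]
  have h := iso_piece hε hB hb hg hgb (fmInd hF hT)
  have e1 : ∀ ω : Sample, T.indicator (fun _ => (1 : ℝ≥0∞))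
      (F ((fun p : ℂ × Bool => (g p.1, p.2)) '' (cfg ε ω ∩ ovr (g ⁻¹' B)))) =
      ((fun ω : Sample => F (im g (cfg ε ω ∩ ovr (g ⁻¹' B)))) ⁻¹' T).indicator 1 ω :=
    fun ω => rfl
  have e2 : ∀ ω : Sample, T.indicator (fun _ => (1 : ℝ≥0∞)) (F (cfg ε ω ∩ ovr B)) =
      ((fun ω : Sample => F (cfg ε ω ∩ ovr B)) ⁻¹' T).indicator 1 ω := fun ω => rfl
  simp only [e1, e2] at h
  rwa [lintegral_indicator_one (m1 hT), lintegral_indicator_one (m2 hT)] at h

theorem int_iso {ε : ℝ} (hε : 0 < ε) {B : Set ℂ} (hB : MeasurableSet B)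
    (hb : Bornology.IsBounded B) {g : ℂ ≃ᵐ ℂ} (hg : MeasurePreserving g volume volume)
    (hgb : Bornology.IsBounded (g ⁻¹' B)) {F : Set (ℂ × Bool) → ℂ} (hF : FMe F) :
    ∫ ω, F (im g (cfg ε ω ∩ ovr (g ⁻¹' B))) ∂sampleLaw = ∫ ω, F (cfg ε ω ∩ ovr B) ∂sampleLaw := by
  have m1 : Measurable fun ω : Sample => F (im g (cfg ε ω ∩ ovr (g ⁻¹' B))) :=
    meas_cfg hε (g.measurable hB) hgb (fme_im g.measurable hF)
  have m2 : Measurable fun ω : Sample => F (cfg ε ω ∩ ovr B) := meas_cfg hε hB hb hF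
  have h1 := integral_map (f := fun z : ℂ => z) m1.aemeasurable
    aestronglyMeasurable_id (μ := sampleLaw)
  have h2 := integral_map (f := fun z : ℂ => z) m2.aemeasurable
    aestronglyMeasurable_id (μ := sampleLaw)
  rw [← h1, ← h2, law_iso hε hB hb hg hgb hF]

/-- **covariance** -/
theorem int_cov {ε : ℝ} (hε : 0 < ε) {B : Set ℂ} (hB : MeasurableSet B)
    (hb : Bornology.IsBounded B) {g : ℂ ≃ᵐ ℂ} (hg : MeasurePreserving g volume volume)
    (hgb : Bornology.IsBounded (g ⁻¹' B)) {F G : Set (ℂ × Bool) → ℂ} (hF : FMe F) {z : ℂ}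
    (h : ∀ X : Set (ℂ × Bool), X.Finite → F (im g X) = z * G X) :
    ∫ ω, F (cfg ε ω ∩ ovr B) ∂sampleLaw = z * ∫ ω, G (cfg ε ω ∩ ovr (g ⁻¹' B)) ∂sampleLaw := by
  rw [← int_iso hε hB hb hg hgb hF, ← integral_const_mul]
  refine integral_congr_ae (ae_of_all _ fun ω => ?_)
  exact h _ (piece_finite hε (g.measurable hB) hgb ω)

/-- the same with `lintegral` -/
theorem lint_cov {ε : ℝ} (hε : 0 < ε) {B : Set ℂ} (hB : MeasurableSet B)
    (hb : Bornology.IsBounded B) {g : ℂ ≃ᵐ ℂ} (hg : MeasurePreserving g volume volume)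
    (hgb : Bornology.IsBounded (g ⁻¹' B)) {F G : Set (ℂ × Bool) → ℝ≥0∞} (hF : FMe F)
    (h : ∀ X : Set (ℂ × Bool), X.Finite → F (im g X) = G X) :
    ∫⁻ ω, F (cfg ε ω ∩ ovr B) ∂sampleLaw = ∫⁻ ω, G (cfg ε ω ∩ ovr (g ⁻¹' B)) ∂sampleLaw := by
  rw [← iso_piece hε hB hb hg hgb hF]
  refine lintegral_congr fun ω => ?_
  exact h _ (piece_finite hε (g.measurable hB) hgb ω)

/-! ### families of pieces -/

section fam

variable {ι κ : Type*} [Fintype ι] [Fintype κ] {B : ι → Set ℂ} {D : κ → Set ℂ}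

theorem law_prod {ε : ℝ} (hε : 0 < ε) (hB : ∀ i, MeasurableSet (B i))
    (hb : ∀ i, Bornology.IsBounded (B i)) (hD : ∀ i, MeasurableSet (D i))
    (hbD : ∀ i, Bornology.IsBounded (D i)) (hd : Pairwise fun i j => Disjoint (B i) (B j))
    (hdD : Pairwise fun i j => Disjoint (D i) (D j)) (hBD : ∀ i j, Disjoint (B i) (D j))
    {F : Set (ℂ × Bool) → C} (hF : FMe F) :
    Measure.map (fun ω : Sample => F (cfg ε ω ∩ ovr ((⋃ i, B i) ∪ ⋃ j, D j))) sampleLaw =
      Measure.map (fun p : (ι → Sample) × (κ → Sample) =>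
        F ((⋃ i, cfg ε (p.1 i) ∩ ovr (B i)) ∪ ⋃ j, cfg ε (p.2 j) ∩ ovr (D j)))
        ((Measure.pi fun _ : ι => sampleLaw).prod (Measure.pi fun _ : κ => sampleLaw)) := by
  have hbU : Bornology.IsBounded ((⋃ i, B i) ∪ ⋃ j, D j) :=
    ((Bornology.isBounded_iUnion).2 hb).union ((Bornology.isBounded_iUnion).2 hbD)
  have m1 : Measurable fun ω : Sample => F (cfg ε ω ∩ ovr ((⋃ i, B i) ∪ ⋃ j, D j)) :=
    meas_cfg hε ((MeasurableSet.iUnion hB).union (MeasurableSet.iUnion hD)) hbU hF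
  have m2 : Measurable fun p : (ι → Sample) × (κ → Sample) =>
      F ((⋃ i, cfg ε (p.1 i) ∩ ovr (B i)) ∪ ⋃ j, cfg ε (p.2 j) ∩ ovr (D j)) :=
    FRS.measE (((copies_frs hε hB hb).comp measurable_fst).union
      ((copies_frs hε hD hbD).comp measurable_snd)) hF
  ext T hT
  rw [Measure.map_apply m1 hT, Measure.map_apply m2 hT]
  have h := copies_prod hε hB hb hD hbD hd hdD hBD (fmInd hF hT)
  have e1 : ∀ ω : Sample, T.indicator (fun _ => (1 : ℝ≥0∞))
      (F (cfg ε ω ∩ ovr ((⋃ i, B i) ∪ ⋃ j, D j))) =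
      ((fun ω : Sample => F (cfg ε ω ∩ ovr ((⋃ i, B i) ∪ ⋃ j, D j))) ⁻¹' T).indicator 1 ω :=
    fun ω => rfl
  have e2 : ∀ p : (ι → Sample) × (κ → Sample), T.indicator (fun _ => (1 : ℝ≥0∞))
      (F ((⋃ i, cfg ε (p.1 i) ∩ ovr (B i)) ∪ ⋃ j, cfg ε (p.2 j) ∩ ovr (D j))) =
      ((fun p : (ι → Sample) × (κ → Sample) =>
        F ((⋃ i, cfg ε (p.1 i) ∩ ovr (B i)) ∪ ⋃ j, cfg ε (p.2 j) ∩ ovr (D j))) ⁻¹' T).indicator
          1 p := fun p => rfl
  simp only [e1, e2] at h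
  rwa [lintegral_indicator_one (m1 hT), lintegral_indicator_one (m2 hT)] at h

theorem map_int {Ω Ω' : Type*} [MeasurableSpace Ω] [MeasurableSpace Ω'] {μ : Measure Ω}
    {ν : Measure Ω'} {f : Ω → ℂ} {g : Ω' → ℂ} (hf : Measurable f) (hg : Measurable g)
    (h : μ.map f = ν.map g) : ∫ x, f x ∂μ = ∫ y, g y ∂ν := by
  have h1 := integral_map (f := fun z : ℂ => z) hf.aemeasurable
    aestronglyMeasurable_id (μ := μ)
  have h2 := integral_map (f := fun z : ℂ => z) hg.aemeasurable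
    aestronglyMeasurable_id (μ := ν)
  rw [← h1, ← h2, h]

/-- functions of the two families of pieces -/
theorem fam_law {ε : ℝ} (hε : 0 < ε) (hB : ∀ i, MeasurableSet (B i))
    (hb : ∀ i, Bornology.IsBounded (B i)) (hD : ∀ i, MeasurableSet (D i))
    (hbD : ∀ i, Bornology.IsBounded (D i)) (hd : Pairwise fun i j => Disjoint (B i) (B j))
    (hdD : Pairwise fun i j => Disjoint (D i) (D j)) (hBD : ∀ i j, Disjoint (B i) (D j))
    {F : (ι → Set (ℂ × Bool)) → (κ → Set (ℂ × Bool)) → C}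
    (hF : FMe fun S => F (fun i => S ∩ ovr (B i)) (fun j => S ∩ ovr (D j))) :
    Measurable (fun ω : Sample => F (fun i => cfg ε ω ∩ ovr (B i)) (fun j => cfg ε ω ∩ ovr (D j))) ∧
    Measurable (fun p : (ι → Sample) × (κ → Sample) =>
      F (fun i => cfg ε (p.1 i) ∩ ovr (B i)) (fun j => cfg ε (p.2 j) ∩ ovr (D j))) ∧
    Measure.map (fun ω : Sample =>
      F (fun i => cfg ε ω ∩ ovr (B i)) (fun j => cfg ε ω ∩ ovr (D j))) sampleLaw =
      Measure.map (fun p : (ι → Sample) × (κ → Sample) =>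
        F (fun i => cfg ε (p.1 i) ∩ ovr (B i)) (fun j => cfg ε (p.2 j) ∩ ovr (D j)))
        ((Measure.pi fun _ : ι => sampleLaw).prod (Measure.pi fun _ : κ => sampleLaw)) := by
  have hbU : Bornology.IsBounded ((⋃ i, B i) ∪ ⋃ j, D j) :=
    ((Bornology.isBounded_iUnion).2 hb).union ((Bornology.isBounded_iUnion).2 hbD)
  have h := law_prod hε hB hb hD hbD hd hdD hBD hF
  have a1 : ∀ (ω : Sample) (i : ι), cfg ε ω ∩ ovr ((⋃ i, B i) ∪ ⋃ j, D j) ∩ ovr (B i) =
      cfg ε ω ∩ ovr (B i) := by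
    intro ω i
    ext e
    simp only [mem_inter_iff, ovr, mem_union, mem_iUnion, mem_ofPred_eq]
    constructor
    · rintro ⟨⟨h1, -⟩, h2⟩; exact ⟨h1, h2⟩
    · rintro ⟨h1, h2⟩; exact ⟨⟨h1, Or.inl ⟨i, h2⟩⟩, h2⟩
  have a2 : ∀ (ω : Sample) (j : κ), cfg ε ω ∩ ovr ((⋃ i, B i) ∪ ⋃ j, D j) ∩ ovr (D j) =
      cfg ε ω ∩ ovr (D j) := by
    intro ω j
    ext e
    simp only [mem_inter_iff, ovr, mem_union, mem_iUnion, mem_ofPred_eq]
    constructor
    · rintro ⟨⟨h1, -⟩, h2⟩; exact ⟨h1, h2⟩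
    · rintro ⟨h1, h2⟩; exact ⟨⟨h1, Or.inr ⟨j, h2⟩⟩, h2⟩
  have b1 : ∀ (p : (ι → Sample) × (κ → Sample)) (i : ι),
      ((⋃ i, cfg ε (p.1 i) ∩ ovr (B i)) ∪ ⋃ j, cfg ε (p.2 j) ∩ ovr (D j)) ∩ ovr (B i) =
        cfg ε (p.1 i) ∩ ovr (B i) := by
    intro p i
    rw [union_inter_distrib_right, piece hd (fun i => cfg ε (p.1 i)) i]
    refine union_eq_left.2 ?_
    rintro e ⟨h1, h2⟩
    obtain ⟨j, hj, hj'⟩ := mem_iUnion.1 h1
    exact absurd h2 (Set.disjoint_right.1 (hBD i j) hj')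
  have b2 : ∀ (p : (ι → Sample) × (κ → Sample)) (j : κ),
      ((⋃ i, cfg ε (p.1 i) ∩ ovr (B i)) ∪ ⋃ j, cfg ε (p.2 j) ∩ ovr (D j)) ∩ ovr (D j) =
        cfg ε (p.2 j) ∩ ovr (D j) := by
    intro p j
    rw [union_inter_distrib_right, piece hdD (fun j => cfg ε (p.2 j)) j]
    refine union_eq_right.2 ?_
    rintro e ⟨h1, h2⟩
    obtain ⟨i, hi, hi'⟩ := mem_iUnion.1 h1
    exact absurd h2 (Set.disjoint_left.1 (hBD i j) hi')
  have m1 : Measurable fun ω : Sample => (fun S => F (fun i => S ∩ ovr (B i))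
      (fun j => S ∩ ovr (D j))) (cfg ε ω ∩ ovr ((⋃ i, B i) ∪ ⋃ j, D j)) :=
    meas_cfg hε ((MeasurableSet.iUnion hB).union (MeasurableSet.iUnion hD)) hbU hF
  have m2 : Measurable fun p : (ι → Sample) × (κ → Sample) => (fun S => F (fun i => S ∩ ovr (B i))
      (fun j => S ∩ ovr (D j))) ((⋃ i, cfg ε (p.1 i) ∩ ovr (B i)) ∪ ⋃ j, cfg ε (p.2 j) ∩ ovr (D j)) :=
    FRS.measE (((copies_frs hε hB hb).comp measurable_fst).union
      ((copies_frs hε hD hbD).comp measurable_snd)) hF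
  simp only [a1, a2, b1, b2] at h m1 m2
  exact ⟨m1, m2, h⟩

/-- **gates and tubes**: Bochner integrals of functions of the two families of pieces -/
theorem fam_int {ε : ℝ} (hε : 0 < ε) (hB : ∀ i, MeasurableSet (B i))
    (hb : ∀ i, Bornology.IsBounded (B i)) (hD : ∀ i, MeasurableSet (D i))
    (hbD : ∀ i, Bornology.IsBounded (D i)) (hd : Pairwise fun i j => Disjoint (B i) (B j))
    (hdD : Pairwise fun i j => Disjoint (D i) (D j)) (hBD : ∀ i j, Disjoint (B i) (D j))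
    {F : (ι → Set (ℂ × Bool)) → (κ → Set (ℂ × Bool)) → ℂ}
    (hF : FMe fun S => F (fun i => S ∩ ovr (B i)) (fun j => S ∩ ovr (D j))) :
    ∫ ω, F (fun i => cfg ε ω ∩ ovr (B i)) (fun j => cfg ε ω ∩ ovr (D j)) ∂sampleLaw =
      ∫ p : (ι → Sample) × (κ → Sample),
        F (fun i => cfg ε (p.1 i) ∩ ovr (B i)) (fun j => cfg ε (p.2 j) ∩ ovr (D j))
        ∂((Measure.pi fun _ : ι => sampleLaw).prod (Measure.pi fun _ : κ => sampleLaw)) := by
  obtain ⟨m1, m2, h⟩ := fam_law hε hB hb hD hbD hd hdD hBD hF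
  exact map_int m1 m2 h

/-- the same with `lintegral` -/
theorem fam_lint {ε : ℝ} (hε : 0 < ε) (hB : ∀ i, MeasurableSet (B i))
    (hb : ∀ i, Bornology.IsBounded (B i)) (hD : ∀ i, MeasurableSet (D i))
    (hbD : ∀ i, Bornology.IsBounded (D i)) (hd : Pairwise fun i j => Disjoint (B i) (B j))
    (hdD : Pairwise fun i j => Disjoint (D i) (D j)) (hBD : ∀ i j, Disjoint (B i) (D j))
    {F : (ι → Set (ℂ × Bool)) → (κ → Set (ℂ × Bool)) → ℝ≥0∞}
    (hF : FMe fun S => F (fun i => S ∩ ovr (B i)) (fun j => S ∩ ovr (D j))) :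
    ∫⁻ ω, F (fun i => cfg ε ω ∩ ovr (B i)) (fun j => cfg ε ω ∩ ovr (D j)) ∂sampleLaw =
      ∫⁻ p : (ι → Sample) × (κ → Sample),
        F (fun i => cfg ε (p.1 i) ∩ ovr (B i)) (fun j => cfg ε (p.2 j) ∩ ovr (D j))
        ∂((Measure.pi fun _ : ι => sampleLaw).prod (Measure.pi fun _ : κ => sampleLaw)) := by
  obtain ⟨m1, m2, h⟩ := fam_law hε hB hb hD hbD hd hdD hBD hF
  have h1 := lintegral_map (f := fun z : ℝ≥0∞ => z) measurable_id m1 (μ := sampleLaw)
  have h2 := lintegral_map (f := fun z : ℝ≥0∞ => z) measurable_id m2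
    (μ := (Measure.pi fun _ : ι => sampleLaw).prod (Measure.pi fun _ : κ => sampleLaw))
  rw [← h1, ← h2, h]

end fam

end law

end Crest.Agent.R143.WgtCx176
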