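import Mathlib

/-!
# Row 143 (S0194), corridor of CORE-C: the WEIGHT LEMMA of note 3261 (b)-(c) (helper546)

Mathlib only. A corridor = finite graph of gates `v : V` and tubes `e : E` (ends `s e`, `t e`), with
independent states `q v` (law `mu v`), `x e` (law `nu e`), good gates `good v`, tube events
`ev e` (a set of `((q (s e), q (t e)), x e)`), `pi e p = nu e {x | (p, x) in ev e}` and
`c e <= pi e p` for good gates. Weight `g = Prod_v 1[good] * Prod_e 1[ev] * c e / pi e`.

* `int_g`    : `E g = Prod c * Prod mu (good)`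
* `int_gF`   : `E [g * F ((q_s, q_t), x_e)] = E g * loc e F` (exact local mean)
* `int_gFH`  : the same with an independent factor `H` (inside)
* `g_le_one`, `g_nonneg`
-/

set_option autoImplicit false
set_option linter.unusedSectionVars false

noncomputable section

open scoped Classical

namespace Crest.Agent.R143.Wgtx546

open MeasureTheory ProbabilityTheory Set

universe u1 u2 u3 u4

structure Cor (V : Type u1) (E : Type u2) (Q : V → Type u3) (T : E → Type u4)
    [∀ v, MeasurableSpace (Q v)] [∀ e, MeasurableSpace (T e)] where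
  s : E → V
  t : E → V
  mu : ∀ v, Measure (Q v)
  nu : ∀ e, Measure (T e)
  good : ∀ v, Set (Q v)
  ev : ∀ e, Set ((Q (s e) × Q (t e)) × T e)
  c : E → ℝ

variable {V : Type u1} {E : Type u2} {Q : V → Type u3} {T : E → Type u4}
  [∀ v, MeasurableSpace (Q v)] [∀ e, MeasurableSpace (T e)]

namespace Cor

variable (K : Cor V E Q T)

/-- probability of the tube event given the gates -/
def pi (e : E) (p : Q (K.s e) × Q (K.t e)) : ℝ := (K.nu e).real (Prod.mk p ⁻¹' K.ev e)

/-- factor of a tube -/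
def fac (e : E) (p : Q (K.s e) × Q (K.t e)) (x : T e) : ℝ :=
  (K.ev e).indicator (fun _ => K.c e / K.pi e p) (p, x)

/-- indicator of a good gate -/
def gd (v : V) (q : Q v) : ℝ := (K.good v).indicator (fun _ => 1) q

/-- the two end states of a tube -/
def en (e : E) (q : ∀ v, Q v) : Q (K.s e) × Q (K.t e) := (q (K.s e), q (K.t e))

/-- **the weight** -/
def g [Fintype V] [Fintype E] (z : (∀ v, Q v) × (∀ e, T e)) : ℝ :=
  (∏ v, K.gd v (z.1 v)) * ∏ e, K.fac e (K.en e z.1) (z.2 e)

/-- both gates of the tube are good -/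
def gg (e : E) : Set (Q (K.s e) × Q (K.t e)) := K.good (K.s e) ×ˢ K.good (K.t e)

structure Ok : Prop where
  st : ∀ e, K.s e ≠ K.t e
  pmu : ∀ v, IsProbabilityMeasure (K.mu v)
  pnu : ∀ e, IsProbabilityMeasure (K.nu e)
  mgood : ∀ v, MeasurableSet (K.good v)
  mev : ∀ e, MeasurableSet (K.ev e)
  cpos : ∀ e, 0 < K.c e
  pi_ge : ∀ e, ∀ p ∈ K.gg e, K.c e ≤ K.pi e p

variable {K}

section basics

theorem meas_pi (h : K.Ok) (e : E) : Measurable (K.pi e) := by
  have := h.pnu e
  exact (measurable_measure_prodMk_left (h.mev e)).ennreal_toReal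

theorem meas_en (e : E) : Measurable (K.en e) := by
  unfold en
  fun_prop

theorem meas_gd (h : K.Ok) (v : V) : Measurable (K.gd v) :=
  measurable_const.indicator (h.mgood v)

theorem meas_fac (h : K.Ok) (e : E) :
    Measurable fun y : (Q (K.s e) × Q (K.t e)) × T e => K.fac e y.1 y.2 := by
  have h1 : Measurable fun y : (Q (K.s e) × Q (K.t e)) × T e => K.c e / K.pi e y.1 :=
    measurable_const.div ((meas_pi h e).comp measurable_fst)
  have h2 := h1.indicator (h.mev e)
  have e2 : (fun y : (Q (K.s e) × Q (K.t e)) × T e => K.fac e y.1 y.2) =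
      (K.ev e).indicator fun y => K.c e / K.pi e y.1 := by
    funext y
    unfold fac
    by_cases hy : y ∈ K.ev e
    · rw [indicator_of_mem (show (y.1, y.2) ∈ K.ev e from hy), indicator_of_mem hy]
    · rw [indicator_of_notMem (show (y.1, y.2) ∉ K.ev e from hy), indicator_of_notMem hy]
  rw [e2]
  exact h2

theorem meas_g [Fintype V] [Fintype E] (h : K.Ok) : Measurable K.g := by
  unfold g
  refine Measurable.mul ?_ ?_
  · exact Finset.measurable_prod _ fun v _ =>
      (meas_gd h v).comp ((measurable_pi_apply v).comp measurable_fst)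
  · refine Finset.measurable_prod _ fun e _ => ?_
    exact (meas_fac h e).comp (((meas_en e).comp measurable_fst).prodMk
      ((measurable_pi_apply e).comp measurable_snd))

theorem pi_nonneg (e : E) (p : Q (K.s e) × Q (K.t e)) : 0 ≤ K.pi e p := measureReal_nonneg

theorem fac_nonneg (h : K.Ok) (e : E) (p : Q (K.s e) × Q (K.t e)) (x : T e) : 0 ≤ K.fac e p x := by
  unfold fac
  refine indicator_nonneg (fun _ _ => ?_) _
  exact div_nonneg (h.cpos e).le (pi_nonneg e p)

theorem fac_le (h : K.Ok) (e : E) {p : Q (K.s e) × Q (K.t e)} (hp : p ∈ K.gg e) (x : T e) :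
    K.fac e p x ≤ 1 := by
  unfold fac
  refine indicator_le' (fun _ _ => ?_) (fun _ _ => zero_le_one) _
  have h1 := h.pi_ge e p hp
  have h2 := h.cpos e
  exact (div_le_one (h2.trans_le h1)).2 h1

theorem gd_nonneg (v : V) (q : Q v) : 0 ≤ K.gd v q := indicator_nonneg (fun _ _ => zero_le_one) _

theorem gd_le (v : V) (q : Q v) : K.gd v q ≤ 1 :=
  indicator_le' (fun _ _ => le_rfl) (fun _ _ => zero_le_one) _

variable [Fintype V] [Fintype E]

theorem g_nonneg (h : K.Ok) (z : (∀ v, Q v) × (∀ e, T e)) : 0 ≤ K.g z :=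
  mul_nonneg (Finset.prod_nonneg fun v _ => gd_nonneg v _)
    (Finset.prod_nonneg fun e _ => fac_nonneg h e _ _)

/-- off the good gates the weight vanishes -/
theorem g_zero {z : (∀ v, Q v) × (∀ e, T e)} {v : V} (hv : z.1 v ∉ K.good v) : K.g z = 0 := by
  unfold g
  rw [Finset.prod_eq_zero (Finset.mem_univ v) (indicator_of_notMem hv _), zero_mul]

theorem g_zero' {z : (∀ v, Q v) × (∀ e, T e)} {e : E} (he : (K.en e z.1, z.2 e) ∉ K.ev e) :
    K.g z = 0 := by
  unfold g
  rw [Finset.prod_eq_zero (Finset.mem_univ e) (indicator_of_notMem he _), mul_zero]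

theorem g_le_one (h : K.Ok) (z : (∀ v, Q v) × (∀ e, T e)) : K.g z ≤ 1 := by
  by_cases hg : ∀ v, z.1 v ∈ K.good v
  · unfold g
    have h1 : ∏ v, K.gd v (z.1 v) ≤ 1 :=
      Finset.prod_le_one (fun v _ => gd_nonneg v _) fun v _ => gd_le v _
    have h2 : ∏ e, K.fac e (K.en e z.1) (z.2 e) ≤ 1 :=
      Finset.prod_le_one (fun e _ => fac_nonneg h e _ _) fun e _ => fac_le h e ⟨hg _, hg _⟩ _
    exact mul_le_one₀ h1 (Finset.prod_nonneg fun e _ => fac_nonneg h e _ _) h2
  · push Not at hg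
    obtain ⟨v, hv⟩ := hg
    rw [g_zero hv]
    exact zero_le_one

/-- support of the weight -/
theorem g_supp {z : (∀ v, Q v) × (∀ e, T e)} (hz : K.g z ≠ 0) :
    (∀ v, z.1 v ∈ K.good v) ∧ ∀ e, (K.en e z.1, z.2 e) ∈ K.ev e := by
  constructor
  · intro v
    by_contra hv
    exact hz (g_zero hv)
  · intro e
    by_contra he
    exact hz (g_zero' he)

end basics

section integrals

variable {𝕜 : Type*} [RCLike 𝕜]

theorem pi_pos (h : K.Ok) {e : E} {p : Q (K.s e) × Q (K.t e)} (hp : p ∈ K.gg e) :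
    0 < K.pi e p := (h.cpos e).trans_le (h.pi_ge e p hp)

theorem int_fac (h : K.Ok) {e : E} {p : Q (K.s e) × Q (K.t e)} (hp : p ∈ K.gg e) :
    ∫ x, K.fac e p x ∂(K.nu e) = K.c e := by
  have e1 : ∀ x, K.fac e p x = (Prod.mk p ⁻¹' K.ev e).indicator (fun _ => K.c e / K.pi e p) x := by
    intro x
    rfl
  rw [integral_congr_ae (Filter.Eventually.of_forall e1),
    integral_indicator_const _ (measurable_prodMk_left (h.mev e))]
  show K.pi e p * (K.c e / K.pi e p) = K.c e
  have := pi_pos h hp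
  field_simp

theorem int_fac' (h : K.Ok) {e : E} {p : Q (K.s e) × Q (K.t e)} (hp : p ∈ K.gg e) :
    ∫ x, (K.fac e p x : 𝕜) ∂(K.nu e) = (K.c e : 𝕜) := by
  rw [integral_ofReal, int_fac h hp]

variable [Fintype V] [Fintype E]

/-- integral over the tubes -/
theorem int_tubes (h : K.Ok) {q : ∀ v, Q v} (hq : ∀ v, q v ∈ K.good v) :
    ∫ x, ∏ e, K.fac e (K.en e q) (x e) ∂(Measure.pi K.nu) = ∏ e, K.c e := by
  have := h.pnu
  rw [integral_fintype_prod_eq_prod (fun e x => K.fac e (K.en e q) x)]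
  exact Finset.prod_congr rfl fun e _ => int_fac h ⟨hq _, hq _⟩

/-- local integral of a function of one tube and its gates -/
def lam (K : Cor V E Q T) (e : E) (F : (Q (K.s e) × Q (K.t e)) × T e → 𝕜)
    (p : Q (K.s e) × Q (K.t e)) : 𝕜 := ∫ x, (K.fac e p x : 𝕜) * F (p, x) ∂(K.nu e)

/-- integral over the tubes of a function of one of them -/
theorem int_tubesF (h : K.Ok) {q : ∀ v, Q v} (hq : ∀ v, q v ∈ K.good v) (e0 : E)
    (F : (Q (K.s e0) × Q (K.t e0)) × T e0 → 𝕜) :
    ∫ x, ((∏ e, K.fac e (K.en e q) (x e) : ℝ) : 𝕜) * F (K.en e0 q, x e0) ∂(Measure.pi K.nu) =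
      ((∏ e ∈ Finset.univ.erase e0, K.c e : ℝ) : 𝕜) * K.lam e0 F (K.en e0 q) := by
  have := h.pnu
  let U : ∀ e, T e → 𝕜 := Function.update (fun e (_ : T e) => (1 : 𝕜)) e0
    (fun x => F (K.en e0 q, x))
  have U0 : ∀ x, U e0 x = F (K.en e0 q, x) := fun x => by simp [U]
  have U1 : ∀ e, e ≠ e0 → ∀ x, U e x = 1 := fun e he x => by simp [U, Function.update_of_ne he]
  have e1 : ∀ x : ∀ e, T e, ((∏ e, K.fac e (K.en e q) (x e) : ℝ) : 𝕜) * F (K.en e0 q, x e0) =
      ∏ e, ((K.fac e (K.en e q) (x e) : 𝕜) * U e (x e)) := by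
    intro x
    rw [Finset.prod_mul_distrib, RCLike.ofReal_prod,
      Finset.prod_eq_single (f := fun e => U e (x e)) e0 (fun e _ he => U1 e he _)
        (fun hh => absurd (Finset.mem_univ _) hh), U0]
  rw [integral_congr_ae (Filter.Eventually.of_forall e1),
    integral_fintype_prod_eq_prod (fun e x => (K.fac e (K.en e q) x : 𝕜) * U e x),
    ← Finset.prod_erase_mul _ _ (Finset.mem_univ e0), RCLike.ofReal_prod]
  congr 1
  · refine Finset.prod_congr rfl fun e he => ?_
    have hne := Finset.ne_of_mem_erase he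
    rw [← int_fac' h (⟨hq _, hq _⟩ : K.en e q ∈ K.gg e)]
    refine integral_congr_ae (Filter.Eventually.of_forall fun x => ?_)
    show (K.fac e (K.en e q) x : 𝕜) * U e x = _
    rw [U1 e hne, mul_one]
  · refine integral_congr_ae (Filter.Eventually.of_forall fun x => ?_)
    show (K.fac e0 (K.en e0 q) x : 𝕜) * U e0 x = _
    rw [U0]

theorem int_gd (h : K.Ok) :
    ∫ q, ∏ v, K.gd v (q v) ∂(Measure.pi K.mu) = ∏ v, (K.mu v).real (K.good v) := by
  have := h.pmu
  rw [integral_fintype_prod_eq_prod (fun v q => K.gd v q)]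
  refine Finset.prod_congr rfl fun v _ => ?_
  unfold gd
  rw [integral_indicator_const _ (h.mgood v), smul_eq_mul, mul_one]

theorem g_integrable (h : K.Ok) :
    Integrable K.g ((Measure.pi K.mu).prod (Measure.pi K.nu)) := by
  have := h.pnu
  have := h.pmu
  refine Integrable.mono' (integrable_const (1 : ℝ)) (meas_g h).aestronglyMeasurable ?_
  refine Filter.Eventually.of_forall fun z => ?_
  rw [Real.norm_of_nonneg (g_nonneg h z)]
  exact g_le_one h z

/-- **(W1)** -/
theorem int_g (h : K.Ok) :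
    ∫ z, K.g z ∂((Measure.pi K.mu).prod (Measure.pi K.nu)) =
      (∏ e, K.c e) * ∏ v, (K.mu v).real (K.good v) := by
  have := h.pnu
  have := h.pmu
  rw [integral_prod _ (g_integrable h), ← int_gd h, ← integral_const_mul]
  refine integral_congr_ae (Filter.Eventually.of_forall fun q => ?_)
  show ∫ x, K.g (q, x) ∂(Measure.pi K.nu) = (∏ e, K.c e) * ∏ v, K.gd v (q v)
  have e1 : ∫ x, K.g (q, x) ∂(Measure.pi K.nu) = (∏ v, K.gd v (q v)) *
      ∫ x, ∏ e, K.fac e (K.en e q) (x e) ∂(Measure.pi K.nu) := by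
    rw [← integral_const_mul]
    rfl
  rw [e1]
  by_cases hq : ∀ v, q v ∈ K.good v
  · rw [int_tubes h hq, mul_comm]
  · push Not at hq
    obtain ⟨v, hv⟩ := hq
    have h0 : ∏ v, K.gd v (q v) = 0 :=
      Finset.prod_eq_zero (Finset.mem_univ v) (indicator_of_notMem hv _)
    rw [h0, zero_mul, mul_zero]

/-- law of the two end states of a tube -/
theorem map_en (h : K.Ok) (e : E) :
    Measure.map (K.en e) (Measure.pi K.mu) = (K.mu (K.s e)).prod (K.mu (K.t e)) := by
  have := h.pmu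
  have h1 := (iIndepFun_pi (μ := K.mu) (X := fun v => (id : Q v → Q v))
    (fun v => aemeasurable_id)).indepFun (h.st e)
  have h2 := h1.map_prod_eq_prod_map_map (measurable_pi_apply _).aemeasurable
    (measurable_pi_apply _).aemeasurable
  have e1 : Measure.map (fun q : ∀ v, Q v => q (K.s e)) (Measure.pi K.mu) = K.mu (K.s e) :=
    (measurePreserving_eval K.mu (K.s e)).map_eq
  have e2 : Measure.map (fun q : ∀ v, Q v => q (K.t e)) (Measure.pi K.mu) = K.mu (K.t e) :=
    (measurePreserving_eval K.mu (K.t e)).map_eq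
  have h3 : Measure.map (K.en e) (Measure.pi K.mu) =
      (Measure.map (fun q : ∀ v, Q v => q (K.s e)) (Measure.pi K.mu)).prod
      (Measure.map (fun q : ∀ v, Q v => q (K.t e)) (Measure.pi K.mu)) := h2
  rw [h3, e1, e2]

/-- the end states of a tube are independent of the other gates -/
theorem int_gates (h : K.Ok) (e : E) {L : Q (K.s e) × Q (K.t e) → 𝕜}
    (hL : AEStronglyMeasurable L ((K.mu (K.s e)).prod (K.mu (K.t e)))) :
    ∫ q, L (K.en e q) * ((∏ v ∈ Finset.univ \ {K.s e, K.t e}, K.gd v (q v) : ℝ) : 𝕜)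
        ∂(Measure.pi K.mu) =
      (∫ p, L p ∂((K.mu (K.s e)).prod (K.mu (K.t e)))) *
        ((∏ v ∈ Finset.univ \ {K.s e, K.t e}, (K.mu v).real (K.good v) : ℝ) : 𝕜) := by
  have := h.pmu
  have hi := (iIndepFun_pi (μ := K.mu) (X := fun v => (id : Q v → Q v))
    (fun v => aemeasurable_id)).indepFun_finset {K.s e, K.t e}
    (Finset.univ \ {K.s e, K.t e}) Finset.disjoint_sdiff (fun v => measurable_pi_apply v)
  let phi : (∀ i : ({K.s e, K.t e} : Finset V), Q i) → Q (K.s e) × Q (K.t e) :=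
    fun u => (u ⟨K.s e, by simp⟩, u ⟨K.t e, by simp⟩)
  let psi : (∀ i : (Finset.univ \ {K.s e, K.t e} : Finset V), Q i) → ℝ :=
    fun u => ∏ i : (Finset.univ \ {K.s e, K.t e} : Finset V), K.gd i (u i)
  have hphi : Measurable phi := by fun_prop
  have hpsi : Measurable psi := Finset.measurable_prod _ fun i _ =>
    (meas_gd h i).comp (measurable_pi_apply i)
  have h2 := hi.comp hphi hpsi
  have e1 : (phi ∘ fun (q : ∀ v, Q v) (i : ({K.s e, K.t e} : Finset V)) => id (q i)) = K.en e := rfl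
  have e2 : (psi ∘ fun (q : ∀ v, Q v) (i : (Finset.univ \ {K.s e, K.t e} : Finset V)) =>
      id (q i)) = fun q : ∀ v, Q v => ∏ v ∈ Finset.univ \ {K.s e, K.t e}, K.gd v (q v) := by
    funext q
    show ∏ i : (Finset.univ \ {K.s e, K.t e} : Finset V), K.gd i (q i) = _
    exact Finset.prod_coe_sort (Finset.univ \ {K.s e, K.t e}) (fun v => K.gd v (q v))
  rw [e1, e2] at h2
  have mp : Measurable fun q : ∀ v, Q v => ∏ v ∈ Finset.univ \ {K.s e, K.t e}, K.gd v (q v) :=
    Finset.measurable_prod _ fun v _ => (meas_gd h v).comp (measurable_pi_apply v)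
  have hL' : AEStronglyMeasurable L (Measure.map (K.en e) (Measure.pi K.mu)) := by
    rw [map_en h e]; exact hL
  have h3 := h2.integral_fun_comp_mul_comp (f := L) (g := fun r : ℝ => (r : 𝕜))
    (meas_en e).aemeasurable mp.aemeasurable hL'
    RCLike.continuous_ofReal.aestronglyMeasurable
  rw [h3]
  congr 1
  · rw [← map_en h e, integral_map (meas_en e).aemeasurable hL']
  · rw [integral_ofReal]
    congr 1
    have e3 : ∀ q : ∀ v, Q v, ∏ v ∈ Finset.univ \ {K.s e, K.t e}, K.gd v (q v) =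
        ∏ v, (if v ∈ ({K.s e, K.t e} : Finset V) then (fun _ : Q v => (1 : ℝ)) else K.gd v)
          (q v) := by
      intro q
      rw [← Finset.prod_sdiff (Finset.subset_univ ({K.s e, K.t e} : Finset V))]
      rw [Finset.prod_congr (s₁ := ({K.s e, K.t e} : Finset V)) rfl
        (fun v hv => by rw [if_pos hv]), Finset.prod_const_one, mul_one]
      exact Finset.prod_congr rfl fun v hv => by rw [if_neg (Finset.mem_sdiff.1 hv).2]
    rw [integral_congr_ae (Filter.Eventually.of_forall e3),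
      integral_fintype_prod_eq_prod (fun v =>
        (if v ∈ ({K.s e, K.t e} : Finset V) then (fun _ : Q v => (1 : ℝ)) else K.gd v)),
      ← Finset.prod_sdiff (Finset.subset_univ ({K.s e, K.t e} : Finset V))]
    rw [Finset.prod_congr (s₁ := ({K.s e, K.t e} : Finset V)) (g := fun _ => (1 : ℝ)) rfl
        (fun v hv => by rw [if_pos hv]; simp), Finset.prod_const_one, mul_one]
    refine Finset.prod_congr rfl fun v hv => ?_
    rw [if_neg (Finset.mem_sdiff.1 hv).2]
    unfold gd
    rw [integral_indicator_const _ (h.mgood v), smul_eq_mul, mul_one]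

/-- set of the good states of a tube (gates good, tube event) -/
def gs (K : Cor V E Q T) (e : E) : Set ((Q (K.s e) × Q (K.t e)) × T e) :=
  (Prod.fst ⁻¹' K.gg e) ∩ K.ev e

theorem meas_gg (h : K.Ok) (e : E) : MeasurableSet (K.gg e) := (h.mgood _).prod (h.mgood _)

theorem meas_gs (h : K.Ok) (e : E) : MeasurableSet (K.gs e) :=
  (measurable_fst (meas_gg h e)).inter (h.mev e)

/-- law of (end states, tube) -/
def ll (K : Cor V E Q T) (e : E) : Measure ((Q (K.s e) × Q (K.t e)) × T e) :=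
  ((K.mu (K.s e)).prod (K.mu (K.t e))).prod (K.nu e)

/-- projection on a tube with its gates -/
def pr (K : Cor V E Q T) (e : E) (z : (∀ v, Q v) × (∀ e, T e)) : (Q (K.s e) × Q (K.t e)) × T e :=
  (K.en e z.1, z.2 e)

theorem meas_pr (e : E) : Measurable (K.pr e) :=
  ((meas_en e).comp measurable_fst).prodMk ((measurable_pi_apply e).comp measurable_snd)

theorem mp_pr (h : K.Ok) (e : E) :
    MeasurePreserving (K.pr e) ((Measure.pi K.mu).prod (Measure.pi K.nu)) (K.ll e) := by
  have := h.pnu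
  have := h.pmu
  have h1 : MeasurePreserving (K.en e) (Measure.pi K.mu)
    ((K.mu (K.s e)).prod (K.mu (K.t e))) := ⟨meas_en e, map_en h e⟩
  exact h1.prod (measurePreserving_eval K.nu e)

theorem g_pr_zero {z : (∀ v, Q v) × (∀ e, T e)} {e : E} (he : K.pr e z ∉ K.gs e) : K.g z = 0 := by
  by_contra hz
  have h1 := g_supp hz
  exact he ⟨⟨h1.1 _, h1.1 _⟩, h1.2 _⟩

theorem gF_eq (e : E) (F : (Q (K.s e) × Q (K.t e)) × T e → 𝕜) (z : (∀ v, Q v) × (∀ e, T e)) :
    (K.g z : 𝕜) * F (K.pr e z) = (K.g z : 𝕜) * (K.gs e).indicator F (K.pr e z) := by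
  by_cases hz : K.pr e z ∈ K.gs e
  · rw [indicator_of_mem hz]
  · rw [g_pr_zero hz, RCLike.ofReal_zero, zero_mul, zero_mul]

theorem gF_integrable (h : K.Ok) {e : E} {F : (Q (K.s e) × Q (K.t e)) × T e → 𝕜}
    (hF : IntegrableOn F (K.gs e) (K.ll e)) :
    Integrable (fun z => (K.g z : 𝕜) * F (K.pr e z)) ((Measure.pi K.mu).prod (Measure.pi K.nu)) := by
  have := h.pnu
  have := h.pmu
  have h1 : Integrable ((K.gs e).indicator F) (K.ll e) := (integrable_indicator_iff (meas_gs h e)).2 hF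
  have h2 := (mp_pr h e).integrable_comp_of_integrable h1
  rw [show (fun z => (K.g z : 𝕜) * F (K.pr e z)) =
    fun z => (K.g z : 𝕜) * (K.gs e).indicator F (K.pr e z) from funext fun z => gF_eq e F z]
  refine h2.norm.mono' ?_ (Filter.Eventually.of_forall fun z => ?_)
  · exact ((RCLike.continuous_ofReal.measurable.comp (meas_g h)).aestronglyMeasurable).mul
      h2.aestronglyMeasurable
  · rw [norm_mul, RCLike.norm_ofReal, abs_of_nonneg (g_nonneg h z)]
    exact mul_le_of_le_one_left (norm_nonneg _) (g_le_one h z)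

/-- **exact local mean** of a function of one tube and its gates -/
def loc (K : Cor V E Q T) (e : E) (F : (Q (K.s e) × Q (K.t e)) × T e → 𝕜) : 𝕜 :=
  (∫ p in K.gg e, ((K.pi e p)⁻¹ : ℝ) * ∫ x in Prod.mk p ⁻¹' K.ev e, F (p, x) ∂(K.nu e)
      ∂((K.mu (K.s e)).prod (K.mu (K.t e)))) /
    (((K.mu (K.s e)).real (K.good (K.s e)) * (K.mu (K.t e)).real (K.good (K.t e)) : ℝ) : 𝕜)

theorem lam_eq (h : K.Ok) (e : E) (F : (Q (K.s e) × Q (K.t e)) × T e → 𝕜)
    (p : Q (K.s e) × Q (K.t e)) :
    K.lam e F p = (K.c e : 𝕜) * (((K.pi e p)⁻¹ : ℝ) *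
      ∫ x in Prod.mk p ⁻¹' K.ev e, F (p, x) ∂(K.nu e)) := by
  unfold lam
  rw [← integral_indicator (measurable_prodMk_left (h.mev e)), ← mul_assoc,
    ← RCLike.ofReal_mul, ← div_eq_mul_inv, ← integral_const_mul]
  refine integral_congr_ae (Filter.Eventually.of_forall fun x => ?_)
  show (K.fac e p x : 𝕜) * F (p, x) = _ * (Prod.mk p ⁻¹' K.ev e).indicator (fun x => F (p, x)) x
  unfold fac
  by_cases hx : (p, x) ∈ K.ev e
  · rw [indicator_of_mem hx, indicator_of_mem (show x ∈ Prod.mk p ⁻¹' K.ev e from hx)]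
  · rw [indicator_of_notMem hx, indicator_of_notMem (show x ∉ Prod.mk p ⁻¹' K.ev e from hx)]
    simp

/-- raw form of (W2), for globally integrable functions -/
theorem int_gF_raw (h : K.Ok) {e : E} {F : (Q (K.s e) × Q (K.t e)) × T e → 𝕜}
    (hF : Integrable F (K.ll e)) :
    ∫ z, (K.g z : 𝕜) * F (K.pr e z) ∂((Measure.pi K.mu).prod (Measure.pi K.nu)) =
      ((∏ e' ∈ Finset.univ.erase e, K.c e' : ℝ) : 𝕜) *
        ((∫ p in K.gg e, K.lam e F p ∂((K.mu (K.s e)).prod (K.mu (K.t e)))) *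
        ((∏ v ∈ Finset.univ \ {K.s e, K.t e}, (K.mu v).real (K.good v) : ℝ) : 𝕜)) := by
  have := h.pnu
  have := h.pmu
  have hi := gF_integrable h hF.integrableOn
  have hfacF : Integrable (fun y : (Q (K.s e) × Q (K.t e)) × T e =>
      (K.gg e ×ˢ (univ : Set (T e))).indicator (fun y => (K.fac e y.1 y.2 : 𝕜) * F y) y)
      (K.ll e) := by
    refine hF.norm.mono' ?_ (Filter.Eventually.of_forall fun y => ?_)
    · exact ((RCLike.continuous_ofReal.measurable.comp (meas_fac h e)).aestronglyMeasurable.mul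
        hF.aestronglyMeasurable).indicator ((meas_gg h e).prod MeasurableSet.univ)
    · by_cases hy : y ∈ K.gg e ×ˢ (univ : Set (T e))
      · rw [indicator_of_mem hy, norm_mul, RCLike.norm_ofReal, abs_of_nonneg (fac_nonneg h e _ _)]
        exact mul_le_of_le_one_left (norm_nonneg _) (fac_le h e hy.1 _)
      · rw [indicator_of_notMem hy, norm_zero]
        exact norm_nonneg _
  have hL : AEStronglyMeasurable (fun p => (K.gg e).indicator (K.lam e F) p)
      ((K.mu (K.s e)).prod (K.mu (K.t e))) := by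
    have h1 := hfacF.aestronglyMeasurable.integral_prod_right'
    refine h1.congr (Filter.Eventually.of_forall fun p => ?_)
    show ∫ x, (K.gg e ×ˢ (univ : Set (T e))).indicator (fun y => (K.fac e y.1 y.2 : 𝕜) * F y) (p, x)
      ∂(K.nu e) = (K.gg e).indicator (K.lam e F) p
    by_cases hp : p ∈ K.gg e
    · rw [indicator_of_mem hp]
      refine integral_congr_ae (Filter.Eventually.of_forall fun x => ?_)
      show (K.gg e ×ˢ (univ : Set (T e))).indicator (fun y => (K.fac e y.1 y.2 : 𝕜) * F y) (p, x) = _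
      rw [indicator_of_mem (show (p, x) ∈ K.gg e ×ˢ (univ : Set (T e)) from ⟨hp, mem_univ _⟩)]
    · rw [indicator_of_notMem hp]
      refine (integral_congr_ae (Filter.Eventually.of_forall fun x => ?_)).trans (integral_zero _ _)
      show (K.gg e ×ˢ (univ : Set (T e))).indicator (fun y => (K.fac e y.1 y.2 : 𝕜) * F y) (p, x) = 0
      rw [indicator_of_notMem (fun hh => hp hh.1)]
  rw [integral_prod _ hi, ← integral_indicator (meas_gg h e), ← int_gates h e hL,
    ← integral_const_mul]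
  refine integral_congr_ae (Filter.Eventually.of_forall fun q => ?_)
  show ∫ x, (K.g (q, x) : 𝕜) * F (K.pr e (q, x)) ∂(Measure.pi K.nu) = _ *
    ((K.gg e).indicator (K.lam e F) (K.en e q) * _)
  have e1 : ∫ x, (K.g (q, x) : 𝕜) * F (K.pr e (q, x)) ∂(Measure.pi K.nu) =
      ((∏ v, K.gd v (q v) : ℝ) : 𝕜) * ∫ x, ((∏ e, K.fac e (K.en e q) (x e) : ℝ) : 𝕜) *
        F (K.en e q, x e) ∂(Measure.pi K.nu) := by
    rw [← integral_const_mul]
    refine integral_congr_ae (Filter.Eventually.of_forall fun x => ?_)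
    show (K.g (q, x) : 𝕜) * F (K.pr e (q, x)) = ((∏ v, K.gd v (q v) : ℝ) : 𝕜) *
      (((∏ e, K.fac e (K.en e q) (x e) : ℝ) : 𝕜) * F (K.en e q, x e))
    rw [← mul_assoc, ← RCLike.ofReal_mul]
    rfl
  rw [e1]
  have hne : (K.s e : V) ≠ K.t e := h.st e
  have e2 : ∏ v, K.gd v (q v) = (∏ v ∈ Finset.univ \ {K.s e, K.t e}, K.gd v (q v)) *
      (K.gd _ (q (K.s e)) * K.gd _ (q (K.t e))) := by
    rw [← Finset.prod_sdiff (Finset.subset_univ ({K.s e, K.t e} : Finset V)), Finset.prod_pair hne]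
  by_cases hq : ∀ v, q v ∈ K.good v
  · rw [int_tubesF h hq e F, indicator_of_mem (show K.en e q ∈ K.gg e from ⟨hq _, hq _⟩), e2]
    unfold gd
    rw [indicator_of_mem (hq (K.s e)), indicator_of_mem (hq (K.t e))]
    simp only [mul_one]
    ring
  · have h0 : ∏ v, K.gd v (q v) = 0 := by
      push Not at hq
      obtain ⟨v, hv⟩ := hq
      exact Finset.prod_eq_zero (Finset.mem_univ v) (indicator_of_notMem hv _)
    rw [h0, RCLike.ofReal_zero, zero_mul]
    symm
    by_cases hp : K.en e q ∈ K.gg e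
    · rw [e2] at h0
      have h1 : K.gd _ (q (K.s e)) = 1 := indicator_of_mem hp.1 _
      have h2 : K.gd _ (q (K.t e)) = 1 := indicator_of_mem hp.2 _
      rw [h1, h2, mul_one, mul_one] at h0
      rw [h0, RCLike.ofReal_zero, mul_zero, mul_zero]
    · rw [indicator_of_notMem hp, zero_mul, mul_zero]

theorem loc_ind (h : K.Ok) (e : E) (F : (Q (K.s e) × Q (K.t e)) × T e → 𝕜) :
    K.loc e ((K.gs e).indicator F) = K.loc e F := by
  unfold loc
  congr 1
  refine setIntegral_congr_fun (meas_gg h e) fun p hp => ?_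
  show _ * _ = _ * _
  congr 1
  refine setIntegral_congr_fun (measurable_prodMk_left (h.mev e)) fun x hx => ?_
  exact indicator_of_mem (show (p, x) ∈ K.gs e from ⟨hp, hx⟩) _

/-- **(W2)**: exact local mean -/
theorem int_gF (h : K.Ok) {e : E} {F : (Q (K.s e) × Q (K.t e)) × T e → 𝕜}
    (hF : IntegrableOn F (K.gs e) (K.ll e)) :
    ∫ z, (K.g z : 𝕜) * F (K.pr e z) ∂((Measure.pi K.mu).prod (Measure.pi K.nu)) =
      ((∫ z, K.g z ∂((Measure.pi K.mu).prod (Measure.pi K.nu)) : ℝ) : 𝕜) * K.loc e F := by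
  have := h.pnu
  have := h.pmu
  have h1 : Integrable ((K.gs e).indicator F) (K.ll e) :=
    (integrable_indicator_iff (meas_gs h e)).2 hF
  rw [integral_congr_ae (Filter.Eventually.of_forall fun z => gF_eq e F z), int_gF_raw h h1,
    int_g h, ← loc_ind h e F]
  set F' := (K.gs e).indicator F with hF'
  have e1 : ∫ p in K.gg e, K.lam e F' p ∂((K.mu (K.s e)).prod (K.mu (K.t e))) = (K.c e : 𝕜) *
      ∫ p in K.gg e, ((K.pi e p)⁻¹ : ℝ) * ∫ x in Prod.mk p ⁻¹' K.ev e, F' (p, x) ∂(K.nu e)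
        ∂((K.mu (K.s e)).prod (K.mu (K.t e))) := by
    rw [← integral_const_mul]
    exact integral_congr_ae (Filter.Eventually.of_forall fun p => lam_eq h e F' p)
  rw [e1]
  unfold loc
  set I := ∫ p in K.gg e, ((K.pi e p)⁻¹ : ℝ) * ∫ x in Prod.mk p ⁻¹' K.ev e, F' (p, x) ∂(K.nu e)
        ∂((K.mu (K.s e)).prod (K.mu (K.t e))) with hI
  have hne : (K.s e : V) ≠ K.t e := h.st e
  have e2 : ∏ v, (K.mu v).real (K.good v) =
      (∏ v ∈ Finset.univ \ {K.s e, K.t e}, (K.mu v).real (K.good v)) *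
      ((K.mu (K.s e)).real (K.good (K.s e)) * (K.mu (K.t e)).real (K.good (K.t e))) := by
    rw [← Finset.prod_sdiff (Finset.subset_univ ({K.s e, K.t e} : Finset V)), Finset.prod_pair hne]
  have e3 : ∏ e', K.c e' = (∏ e' ∈ Finset.univ.erase e, K.c e') * K.c e :=
    (Finset.prod_erase_mul _ _ (Finset.mem_univ e)).symm
  rw [e2, e3]
  set A := ∏ e' ∈ Finset.univ.erase e, K.c e'
  set B := ∏ v ∈ Finset.univ \ {K.s e, K.t e}, (K.mu v).real (K.good v)
  set m := (K.mu (K.s e)).real (K.good (K.s e)) * (K.mu (K.t e)).real (K.good (K.t e)) with hm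
  by_cases h0 : m = 0
  · have hI0 : I = 0 := by
      have h2 : ((K.mu (K.s e)).prod (K.mu (K.t e))) (K.gg e) = 0 := by
        unfold gg
        rw [Measure.prod_prod]
        rcases mul_eq_zero.1 h0 with h3 | h3
        · rw [measureReal_eq_zero_iff] at h3
          rw [h3, zero_mul]
        · rw [measureReal_eq_zero_iff] at h3
          rw [h3, mul_zero]
      rw [hI, Measure.restrict_eq_zero.2 h2, integral_zero_measure]
    rw [hI0, h0]
    simp
  · have h0' : (m : 𝕜) ≠ 0 := RCLike.ofReal_ne_zero.2 h0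
    push_cast
    field_simp

/-- **(W2')**: the same with an independent factor (inside) -/
theorem int_gFH (h : K.Ok) {e : E} {F : (Q (K.s e) × Q (K.t e)) × T e → 𝕜}
    (hF : IntegrableOn F (K.gs e) (K.ll e)) {R : Type*} [MeasurableSpace R] {rho : Measure R}
    [SFinite rho] (H : R → 𝕜) :
    ∫ z, ((K.g z.1 : 𝕜) * F (K.pr e z.1)) * H z.2
        ∂(((Measure.pi K.mu).prod (Measure.pi K.nu)).prod rho) =
      ((∫ z, K.g z ∂((Measure.pi K.mu).prod (Measure.pi K.nu)) : ℝ) : 𝕜) * K.loc e F *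
        ∫ r, H r ∂rho := by
  have := h.pnu
  have := h.pmu
  rw [← int_gF h hF]
  exact integral_prod_mul (fun z => (K.g z : 𝕜) * F (K.pr e z)) H

theorem fac_le' (h : K.Ok) {e : E} {p : Q (K.s e) × Q (K.t e)} (hp : p ∈ K.gg e) :
    (K.pi e p)⁻¹ ≤ (K.c e)⁻¹ := by
  have h1 := h.pi_ge e p hp
  have h2 := h.cpos e
  gcongr

/-- one integral form of the local mean -/
theorem loc_eq (h : K.Ok) {e : E} {F : (Q (K.s e) × Q (K.t e)) × T e → 𝕜}
    (hF : IntegrableOn F (K.gs e) (K.ll e)) :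
    K.loc e F = (∫ y in K.gs e, ((K.pi e y.1)⁻¹ : ℝ) * F y ∂(K.ll e)) /
      (((K.mu (K.s e)).real (K.good (K.s e)) * (K.mu (K.t e)).real (K.good (K.t e)) : ℝ) : 𝕜) := by
  have := h.pnu
  have := h.pmu
  unfold loc
  congr 1
  have h1 : Integrable ((K.gs e).indicator F) (K.ll e) :=
    (integrable_indicator_iff (meas_gs h e)).2 hF
  have h2 : Integrable ((K.gs e).indicator fun y => (((K.pi e y.1)⁻¹ : ℝ) : 𝕜) * F y) (K.ll e) := by
    refine (h1.norm.const_mul (K.c e)⁻¹).mono' ?_ (Filter.Eventually.of_forall fun y => ?_)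
    · have e1 : ((K.gs e).indicator fun y => (((K.pi e y.1)⁻¹ : ℝ) : 𝕜) * F y) =
          fun y => (((K.pi e y.1)⁻¹ : ℝ) : 𝕜) * (K.gs e).indicator F y := by
        funext y
        by_cases hy : y ∈ K.gs e
        · rw [indicator_of_mem hy, indicator_of_mem hy]
        · rw [indicator_of_notMem hy, indicator_of_notMem hy, mul_zero]
      rw [e1]
      exact (RCLike.continuous_ofReal.measurable.comp
        ((meas_pi h e).comp measurable_fst).inv).aestronglyMeasurable.mul h1.aestronglyMeasurable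
    · by_cases hy : y ∈ K.gs e
      · rw [indicator_of_mem hy, indicator_of_mem hy, norm_mul, RCLike.norm_ofReal,
          abs_of_nonneg (inv_nonneg.2 (pi_nonneg e _))]
        exact mul_le_mul_of_nonneg_right (fac_le' h hy.1) (norm_nonneg _)
      · rw [indicator_of_notMem hy, indicator_of_notMem hy, norm_zero, mul_zero]
  rw [← integral_indicator (meas_gs h e)]
  unfold ll at h2 ⊢
  rw [integral_prod _ h2, ← integral_indicator (meas_gg h e)]
  refine integral_congr_ae (Filter.Eventually.of_forall fun p => ?_)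
  show (K.gg e).indicator (fun p => (((K.pi e p)⁻¹ : ℝ) : 𝕜) *
      ∫ x in Prod.mk p ⁻¹' K.ev e, F (p, x) ∂(K.nu e)) p =
    ∫ x, (K.gs e).indicator (fun y => (((K.pi e y.1)⁻¹ : ℝ) : 𝕜) * F y) (p, x) ∂(K.nu e)
  by_cases hp : p ∈ K.gg e
  · rw [indicator_of_mem hp, ← integral_indicator (measurable_prodMk_left (h.mev e)),
      ← integral_const_mul]
    refine integral_congr_ae (Filter.Eventually.of_forall fun x => ?_)
    show _ * (Prod.mk p ⁻¹' K.ev e).indicator (fun x => F (p, x)) x =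
      (K.gs e).indicator (fun y => (((K.pi e y.1)⁻¹ : ℝ) : 𝕜) * F y) (p, x)
    by_cases hx : (p, x) ∈ K.ev e
    · rw [indicator_of_mem (show x ∈ Prod.mk p ⁻¹' K.ev e from hx),
        indicator_of_mem (show (p, x) ∈ K.gs e from ⟨hp, hx⟩)]
    · rw [indicator_of_notMem (show x ∉ Prod.mk p ⁻¹' K.ev e from hx),
        indicator_of_notMem (fun hh : (p, x) ∈ K.gs e => hx hh.2), mul_zero]
  · rw [indicator_of_notMem hp]
    symm
    refine (integral_congr_ae (Filter.Eventually.of_forall fun x => ?_)).trans (integral_zero _ _)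
    exact indicator_of_notMem (fun hh => hp hh.1) _

/-- **(W3)**: bound for the local mean of a nonnegative function -/
theorem loc_le (h : K.Ok) {e : E} {F : (Q (K.s e) × Q (K.t e)) × T e → ℝ}
    (hF : IntegrableOn F (K.gs e) (K.ll e)) (h0 : ∀ y, 0 ≤ F y) :
    K.loc e F ≤ ((K.c e)⁻¹ * ∫ y in K.gs e, F y ∂(K.ll e)) /
      ((K.mu (K.s e)).real (K.good (K.s e)) * (K.mu (K.t e)).real (K.good (K.t e))) := by
  rw [loc_eq h hF, ← integral_const_mul]
  refine div_le_div_of_nonneg_right ?_ (by positivity)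
  refine integral_mono_of_nonneg ?_ (hF.const_mul _) ?_
  · exact Filter.Eventually.of_forall fun y => mul_nonneg (inv_nonneg.2 (pi_nonneg e _)) (h0 y)
  · rw [Filter.EventuallyLE, ae_restrict_iff' (meas_gs h e)]
    exact Filter.Eventually.of_forall fun y hy => mul_le_mul_of_nonneg_right (fac_le' h hy.1) (h0 y)

theorem loc_nonneg {e : E} {F : (Q (K.s e) × Q (K.t e)) × T e → ℝ} (h0 : ∀ y, 0 ≤ F y) :
    0 ≤ K.loc e F := by
  unfold loc
  refine div_nonneg (integral_nonneg fun p => ?_) (by positivity)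
  exact mul_nonneg (inv_nonneg.2 (pi_nonneg e _)) (integral_nonneg fun x => h0 _)

/-- **(W3')**: `E [g F] <= E g * C / (c * mu good * mu good)` with `C = E [F ; good tube]` -/
theorem int_gF_le (h : K.Ok) {e : E} {F : (Q (K.s e) × Q (K.t e)) × T e → ℝ}
    (hF : IntegrableOn F (K.gs e) (K.ll e)) (h0 : ∀ y, 0 ≤ F y) :
    ∫ z, K.g z * F (K.pr e z) ∂((Measure.pi K.mu).prod (Measure.pi K.nu)) ≤
      (∫ z, K.g z ∂((Measure.pi K.mu).prod (Measure.pi K.nu))) *
      (((K.c e)⁻¹ * ∫ y in K.gs e, F y ∂(K.ll e)) /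
      ((K.mu (K.s e)).real (K.good (K.s e)) * (K.mu (K.t e)).real (K.good (K.t e)))) := by
  have h1 := int_gF (𝕜 := ℝ) h hF
  simp only [RCLike.ofReal_real_eq_id, id] at h1
  rw [h1]
  exact mul_le_mul_of_nonneg_left (loc_le h hF h0) (integral_nonneg fun z => g_nonneg h z)

/-! ### dropping one tube -/

/-- the weight without the factor of the tube `e0` -/
def gk (K : Cor V E Q T) (e0 : E) (z : (∀ v, Q v) × (∀ e, T e)) : ℝ :=
  (∏ v, K.gd v (z.1 v)) * ∏ e ∈ Finset.univ.erase e0, K.fac e (K.en e z.1) (z.2 e)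

theorem gk_nonneg (h : K.Ok) (e0 : E) (z : (∀ v, Q v) × (∀ e, T e)) : 0 ≤ K.gk e0 z :=
  mul_nonneg (Finset.prod_nonneg fun v _ => gd_nonneg v _)
    (Finset.prod_nonneg fun e _ => fac_nonneg h e _ _)

theorem g_eq_gk (e0 : E) (z : (∀ v, Q v) × (∀ e, T e)) :
    K.g z = K.gk e0 z * K.fac e0 (K.en e0 z.1) (z.2 e0) := by
  unfold g gk
  rw [mul_assoc, Finset.prod_erase_mul _ _ (Finset.mem_univ e0)]

theorem gk_zero {e0 : E} {z : (∀ v, Q v) × (∀ e, T e)} {v : V} (hv : z.1 v ∉ K.good v) :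
    K.gk e0 z = 0 := by
  unfold gk
  rw [Finset.prod_eq_zero (Finset.mem_univ v) (indicator_of_notMem hv _), zero_mul]

theorem g_le_gk (h : K.Ok) (e0 : E) (z : (∀ v, Q v) × (∀ e, T e)) : K.g z ≤ K.gk e0 z := by
  by_cases hg : ∀ v, z.1 v ∈ K.good v
  · rw [g_eq_gk e0]
    exact mul_le_of_le_one_right (gk_nonneg h e0 z) (fac_le h e0 ⟨hg _, hg _⟩ _)
  · push Not at hg
    obtain ⟨v, hv⟩ := hg
    rw [g_zero hv, gk_zero hv]

theorem gk_update (e0 : E) (q : ∀ v, Q v) (x : ∀ e, T e) (y : T e0) :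
    K.gk e0 (q, Function.update x e0 y) = K.gk e0 (q, x) := by
  unfold gk
  congr 1
  refine Finset.prod_congr rfl fun e he => ?_
  show K.fac e (K.en e q) (Function.update x e0 y e) = K.fac e (K.en e q) (x e)
  rw [Function.update_of_ne (Finset.ne_of_mem_erase he)]

theorem meas_gk (h : K.Ok) (e0 : E) : Measurable (K.gk e0) := by
  unfold gk
  refine Measurable.mul ?_ ?_
  · exact Finset.measurable_prod _ fun v _ =>
      (meas_gd h v).comp ((measurable_pi_apply v).comp measurable_fst)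
  · refine Finset.measurable_prod _ fun e _ => ?_
    exact (meas_fac h e).comp (((meas_en e).comp measurable_fst).prodMk
      ((measurable_pi_apply e).comp measurable_snd))

open scoped ENNReal

theorem lint_fac (h : K.Ok) {e : E} {p : Q (K.s e) × Q (K.t e)} (hp : p ∈ K.gg e) :
    ∫⁻ x, ENNReal.ofReal (K.fac e p x) ∂(K.nu e) = ENNReal.ofReal (K.c e) := by
  have := h.pnu
  rw [← int_fac h hp, ofReal_integral_eq_lintegral_ofReal]
  · refine Integrable.mono' (integrable_const (1 : ℝ))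
      (((meas_fac h e).comp measurable_prodMk_left).aestronglyMeasurable)
      (Filter.Eventually.of_forall fun x => ?_)
    rw [Real.norm_of_nonneg (fac_nonneg h e p x)]
    exact fac_le h e hp x
  · exact Filter.Eventually.of_forall fun x => fac_nonneg h e p x

/-- one coordinate at a time: `∫⁻ f * ofReal (fac e0) = c * ∫⁻ f` for `f` not depending on `x e0` -/
theorem lint_gk (h : K.Ok) (e0 : E) :
    ∫⁻ z, ENNReal.ofReal (K.g z) ∂((Measure.pi K.mu).prod (Measure.pi K.nu)) =
      ENNReal.ofReal (K.c e0) *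
        ∫⁻ z, ENNReal.ofReal (K.gk e0 z) ∂((Measure.pi K.mu).prod (Measure.pi K.nu)) := by
  have := h.pnu
  have := h.pmu
  have m1 : Measurable fun z => ENNReal.ofReal (K.g z) := (meas_g h).ennreal_ofReal
  have m2 : Measurable fun z => ENNReal.ofReal (K.gk e0 z) := (meas_gk h e0).ennreal_ofReal
  rw [← lintegral_const_mul _ m2, lintegral_prod _ m1.aemeasurable,
    lintegral_prod _ (m2.const_mul _).aemeasurable]
  refine lintegral_congr fun q => ?_
  refine lintegral_eq_of_lmarginal_eq {e0} (m1.comp measurable_prodMk_left)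
    ((m2.const_mul _).comp measurable_prodMk_left) ?_
  rw [lmarginal_singleton, lmarginal_singleton]
  funext x
  by_cases hq : ∀ v, q v ∈ K.good v
  · have e1 : ∀ y : T e0, ENNReal.ofReal (K.g (q, Function.update x e0 y)) =
        ENNReal.ofReal (K.gk e0 (q, x)) * ENNReal.ofReal (K.fac e0 (K.en e0 q) y) := by
      intro y
      rw [g_eq_gk e0, gk_update, ENNReal.ofReal_mul (gk_nonneg h e0 _)]
      show _ * ENNReal.ofReal (K.fac e0 (K.en e0 q) (Function.update x e0 y e0)) = _
      rw [Function.update_self]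
    have e2 : ∀ y : T e0, ENNReal.ofReal (K.c e0) *
        ENNReal.ofReal (K.gk e0 (q, Function.update x e0 y)) =
        ENNReal.ofReal (K.gk e0 (q, x)) * ENNReal.ofReal (K.c e0) := by
      intro y
      rw [gk_update, mul_comm]
    simp only [e1, e2]
    rw [lintegral_const_mul' _ _ ENNReal.ofReal_ne_top,
      lint_fac h (⟨hq _, hq _⟩ : K.en e0 q ∈ K.gg e0), lintegral_const, measure_univ, mul_one]
  · push Not at hq
    obtain ⟨v, hv⟩ := hq
    have e1 : ∀ y : T e0, K.g (q, Function.update x e0 y) = 0 := fun y => g_zero (v := v) hv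
    have e2 : ∀ y : T e0, K.gk e0 (q, Function.update x e0 y) = 0 := fun y => gk_zero (v := v) hv
    simp only [e1, e2, ENNReal.ofReal_zero, mul_zero]

/-- **(W5)**: dropping one tube -/
theorem drop (h : K.Ok) (e0 : E) {Y : (∀ v, Q v) × (∀ e, T e) → ℝ≥0∞} (hY : Measurable Y)
    {C : ℝ≥0∞} (hC : ∀ q x, K.gk e0 (q, x) ≠ 0 →
      ∫⁻ y, Y (q, Function.update x e0 y) ∂(K.nu e0) ≤ C) :
    ∫⁻ z, ENNReal.ofReal (K.g z) * Y z ∂((Measure.pi K.mu).prod (Measure.pi K.nu)) ≤
      C / ENNReal.ofReal (K.c e0) *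
        ∫⁻ z, ENNReal.ofReal (K.g z) ∂((Measure.pi K.mu).prod (Measure.pi K.nu)) := by
  have := h.pnu
  have := h.pmu
  have m1 : Measurable fun z => ENNReal.ofReal (K.g z) := (meas_g h).ennreal_ofReal
  have m2 : Measurable fun z => ENNReal.ofReal (K.gk e0 z) := (meas_gk h e0).ennreal_ofReal
  have hc0 : ENNReal.ofReal (K.c e0) ≠ 0 := by
    have := h.cpos e0
    simpa using this
  have hct : ENNReal.ofReal (K.c e0) ≠ ∞ := ENNReal.ofReal_ne_top
  have step : ∫⁻ z, ENNReal.ofReal (K.gk e0 z) * Y z ∂((Measure.pi K.mu).prod (Measure.pi K.nu)) ≤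
      ∫⁻ z, ENNReal.ofReal (K.gk e0 z) * C ∂((Measure.pi K.mu).prod (Measure.pi K.nu)) := by
    have m3 : Measurable fun z => ENNReal.ofReal (K.gk e0 z) * Y z := m2.mul hY
    have m4 : Measurable fun z => ENNReal.ofReal (K.gk e0 z) * C := m2.mul measurable_const
    rw [lintegral_prod _ m3.aemeasurable, lintegral_prod _ m4.aemeasurable]
    refine lintegral_mono fun q => ?_
    refine lintegral_le_of_lmarginal_le {e0} (m3.comp measurable_prodMk_left)
      (m4.comp measurable_prodMk_left) ?_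
    rw [lmarginal_singleton, lmarginal_singleton]
    intro x
    show ∫⁻ y, ENNReal.ofReal (K.gk e0 (q, Function.update x e0 y)) *
      Y (q, Function.update x e0 y) ∂(K.nu e0) ≤
      ∫⁻ y, ENNReal.ofReal (K.gk e0 (q, Function.update x e0 y)) * C ∂(K.nu e0)
    simp only [gk_update]
    rw [lintegral_const_mul' _ _ ENNReal.ofReal_ne_top, lintegral_const, measure_univ, mul_one]
    by_cases h0 : K.gk e0 (q, x) = 0
    · rw [h0, ENNReal.ofReal_zero, zero_mul, zero_mul]
    · gcongr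
      exact hC q x h0
  calc ∫⁻ z, ENNReal.ofReal (K.g z) * Y z ∂((Measure.pi K.mu).prod (Measure.pi K.nu))
      ≤ ∫⁻ z, ENNReal.ofReal (K.gk e0 z) * Y z ∂((Measure.pi K.mu).prod (Measure.pi K.nu)) := by
        refine lintegral_mono fun z => ?_
        gcongr
        exact g_le_gk h e0 z
    _ ≤ ∫⁻ z, ENNReal.ofReal (K.gk e0 z) * C ∂((Measure.pi K.mu).prod (Measure.pi K.nu)) := step
    _ = C / ENNReal.ofReal (K.c e0) *
        ∫⁻ z, ENNReal.ofReal (K.g z) ∂((Measure.pi K.mu).prod (Measure.pi K.nu)) := by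
        rw [lint_gk h e0, lintegral_mul_const _ m2, ← mul_assoc,
          ENNReal.div_mul_cancel hc0 hct, mul_comm]

theorem lint_g (h : K.Ok) :
    ∫⁻ z, ENNReal.ofReal (K.g z) ∂((Measure.pi K.mu).prod (Measure.pi K.nu)) =
      ENNReal.ofReal (∫ z, K.g z ∂((Measure.pi K.mu).prod (Measure.pi K.nu))) :=
  (ofReal_integral_eq_lintegral_ofReal (g_integrable h)
    (Filter.Eventually.of_forall fun z => g_nonneg h z)).symm

end integrals

end Cor

/-! ### tower -/

section tower

variable {Ω : Type*} {m m0 : MeasurableSpace Ω} {μ : Measure Ω} {𝕜 : Type*} [RCLike 𝕜]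

/-- **(W4)**: `E [E[g | F_out] X] = E [g X]` for `F_out`-measurable `X` -/
theorem tower (hm : m ≤ m0) [SigmaFinite (μ.trim hm)] {g : Ω → ℝ} {X : Ω → 𝕜}
    (hg : Integrable g μ) (hX : StronglyMeasurable[m] X)
    (hgX : Integrable (fun ω => (g ω : 𝕜) * X ω) μ) :
    ∫ ω, ((μ[g | m] ω : ℝ) : 𝕜) * X ω ∂μ = ∫ ω, (g ω : 𝕜) * X ω ∂μ := by
  have e1 : (fun ω => (g ω : 𝕜) * X ω) = g • X := by
    funext ω
    show _ = g ω • X ω
    rw [RCLike.real_smul_eq_coe_mul]
  have h1 := condExp_smul_of_aestronglyMeasurable_right (m := m) hg (e1 ▸ hgX)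
    hX.aestronglyMeasurable
  rw [e1, ← integral_condExp hm (f := g • X)]
  refine integral_congr_ae ?_
  filter_upwards [h1] with ω hω
  rw [hω]
  show _ = μ[g | m] ω • X ω
  rw [RCLike.real_smul_eq_coe_mul]

/-- the weight `E[g | F_out]` lies in `[0, 1]` and vanishes off every `F_out`-set which contains
the support of `g` -/
theorem tower_nonneg {g : Ω → ℝ} (h0 : ∀ ω, 0 ≤ g ω) : ∀ᵐ ω ∂μ, 0 ≤ μ[g | m] ω :=
  condExp_nonneg (Filter.Eventually.of_forall h0)

theorem tower_le_one (hm : m ≤ m0) [IsProbabilityMeasure μ] {g : Ω → ℝ} (hg : Integrable g μ)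
    (h1 : ∀ ω, g ω ≤ 1) : ∀ᵐ ω ∂μ, μ[g | m] ω ≤ 1 := by
  have h2 := condExp_mono (m := m) hg (integrable_const (1 : ℝ)) (Filter.Eventually.of_forall h1)
  rw [condExp_const hm] at h2
  exact h2

theorem tower_supp [IsFiniteMeasure μ] {g : Ω → ℝ} (hg : Integrable g μ) {G : Set Ω}
    (hG : MeasurableSet[m] G) (hs : ∀ ω, ω ∉ G → g ω = 0) : ∀ᵐ ω ∂μ, ω ∉ G → μ[g | m] ω = 0 := by
  have h1 := condExp_indicator (m := m) hg hG
  have h2 : G.indicator g = g := by
    funext ω
    by_cases hω : ω ∈ G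
    · exact indicator_of_mem hω _
    · rw [indicator_of_notMem hω, hs ω hω]
  rw [h2] at h1
  filter_upwards [h1] with ω hω hn
  rw [hω, indicator_of_notMem hn]

end tower

/-! ### tower, finite form (uniform colours, classes of a map) -/

section fin

variable {Ω : Type*} [Fintype Ω] {B : Type*} {𝕜 : Type*} [RCLike 𝕜]

/-- mean over the class of `ω` under the map `f` -/
def cav (f : Ω → B) (g : Ω → ℝ) (ω : Ω) : ℝ :=
  (∑ τ ∈ Finset.univ.filter (fun τ => f τ = f ω), g τ) /
    (Finset.univ.filter (fun τ => f τ = f ω)).card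

theorem cav_sum (f : Ω → B) (g : Ω → ℝ) (X : B → 𝕜) :
    ∑ ω, (cav f g ω : 𝕜) * X (f ω) = ∑ ω, (g ω : 𝕜) * X (f ω) := by
  have e1 : ∀ ω, (cav f g ω : 𝕜) * X (f ω) = ∑ τ, if f τ = f ω then
      (g τ : 𝕜) * X (f τ) / ((Finset.univ.filter (fun σ => f σ = f τ)).card : 𝕜) else 0 := by
    intro ω
    unfold cav
    rw [← Finset.sum_filter]
    push_cast
    rw [div_mul_eq_mul_div, Finset.sum_mul, Finset.sum_div]
    refine Finset.sum_congr rfl fun τ hτ => ?_
    rw [(Finset.mem_filter.1 hτ).2]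
  rw [Finset.sum_congr rfl fun ω _ => e1 ω, Finset.sum_comm]
  refine Finset.sum_congr rfl fun τ _ => ?_
  rw [← Finset.sum_filter, Finset.sum_const, nsmul_eq_mul]
  have e2 : (Finset.univ.filter fun ω => f τ = f ω) = Finset.univ.filter fun σ => f σ = f τ :=
    Finset.filter_congr fun ω _ => eq_comm
  rw [e2]
  have hc : ((Finset.univ.filter fun σ => f σ = f τ).card : 𝕜) ≠ 0 := by
    have : τ ∈ Finset.univ.filter fun σ => f σ = f τ := by simp
    exact_mod_cast (Finset.card_pos.2 ⟨τ, this⟩).ne'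
  field_simp

end fin

end Crest.Agent.R143.Wgtx546
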