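import Crest.Agent.R143.RingC_312
import Crest.Agent.R143.AnnC_707
import Crest.Agent.R143.LawG_348

/-!
# Row 143 (S0194), block H: the white circuit from the second closed path (helper312)

* `kin_sup` : sup balls round the centre are in the inner square
* **`circ_of`** : links of the tiles along a closed square path give 707's `CircG`
* **`WhtH.circ`** : the same from 348's `WhtH`; `cir_Xc` : 355's field `cir` for the colours of the
  cells
-/

set_option autoImplicit false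

noncomputable section

open scoped Classical

namespace Crest.Agent.R143.WhiteCx312

open Crest.Agent.R143.B0x346 Crest.Agent.R143.DelGx806 Crest.Agent.R143.DelRx806
open Crest.Agent.R143.ToolWx838 Crest.Agent.R143.Blkx838
open Crest.Agent.R143.Gatex838 (X Y)
open Crest.Agent.R143.WLocx713 Crest.Agent.R143.RingDx117 Crest.Agent.R143.Neckx921
open Crest.Agent.R143.Idxx927 (RingP cyc)
open Crest.Agent.R143.TileRx228 Crest.Agent.R143.SqPx503 Crest.Agent.R143.Sepx686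
open Crest.Agent.R143.RingPx503 Crest.Agent.R143.PathDx503 Crest.Agent.R143.PathGx503
open Crest.Agent.R143.RingBx312 Crest.Agent.R143.RingCx312
open Crest.Agent.R143.CircPx838 (sup)
open Crest.Agent.R143.AnnCx707 (CircG)
open Crest.Agent.R143.FinCx811
open Crest.Agent.R143.ColXx829
open Crest.Agent.R143.CorHx713 (gA QA sdt yy xx)
open Crest.Agent.R143.LawGx348

variable {S : Finset ℂ} {h A B m lo hi : ℝ} {K : ℕ} {v : ℤ × ℤ} {W : ℤ → ℤ × ℤ} {x : ℤ → ℂ}

theorem kin_sup (hl : lo ≤ h * K / 2 - A) {p : ℂ} (hp : sup (p - zc h K v) ≤ lo) :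
    p ∈ Kin h A K v := by
  unfold sup at hp
  rw [max_le_iff, abs_le, abs_le, Complex.sub_re, Complex.sub_im] at hp
  obtain ⟨⟨h1, h2⟩, h3, h4⟩ := hp
  have e1 : (zc h K v).re = h * (v.1 + K / 2) := rfl
  have e2 : (zc h K v).im = h * (v.2 + K / 2) := rfl
  rw [e1] at h1 h2
  rw [e2] at h3 h4
  refine ⟨⟨?_, ?_⟩, ?_, ?_⟩ <;> nlinarith

/-- the tiles are in the annulus -/
theorem tile_ann (hK : 1 ≤ K) (hW : ∀ a, W a = sqW K a + v) (F : FPath (4 * K) W) (hA : 0 < A)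
    (hB : B ≤ h) (hh : 0 < h) {a : ℤ} {s : ℂ} (hs : s ∈ RR A B h W a) :
    h * K / 2 - A < sup (s - zc h K v) ∧ sup (s - zc h K v) < h * K / 2 + A := by
  obtain ⟨⟨⟨h1, h2⟩, h3, h4⟩, h5⟩ := sq_strip hK hW F hA hB hh hs
  have e1 : (s - zc h K v).re = s.re - h * (v.1 + K / 2) := rfl
  have e2 : (s - zc h K v).im = s.im - h * (v.2 + K / 2) := rfl
  unfold sup
  rw [e1, e2]
  constructor
  · rw [lt_max_iff, lt_abs, lt_abs]
    rcases h5 with h5 | h5 | h5 | h5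
    · left; right; nlinarith
    · left; left; nlinarith
    · right; right; nlinarith
    · right; left; nlinarith
  · rw [max_lt_iff, abs_lt, abs_lt]
    refine ⟨⟨?_, ?_⟩, ?_, ?_⟩ <;> nlinarith

/-- **the circuit of a closed square path** -/
theorem circ_of (K3 : 3 ≤ K) (hW : ∀ a, W a = sqW K a + v) (F : FPath (4 * K) W) (hA : 0 < A)
    (m0 : 0 ≤ m) (hAB : A ≤ B) (hB : h / 2 < B + m) (hh : A + B + 2 * m < h)
    (per : ∀ a, x (a + (4 * K : ℕ)) = x a) {Q : Set ℂ}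
    (lk : ∀ a, Lk S {s | s ∈ Q ∧ s ∈ RR A B h W a} (x a) (x (a + 1)))
    (hg : ∀ a, |X (gz h W a) (ge W a) (x a)| < h)
    (step : ∀ a, ∀ u v, DE S u v → u ∈ RR A B h W a → v ∈ RR A B h W a → ‖u - v‖ ≤ m)
    {β : Finset ℂ} (hβ : ∀ s ∈ Q, s ∈ β) (h1 : lo ≤ h * K / 2 - (A + m))
    (h2 : h * K / 2 + A ≤ hi) :
    ∃ c, CircG S (zc h K v) lo hi β c ∧ ∀ s ∈ c, s ∈ Q := by
  have K1 : 1 ≤ K := by omega
  have hh0 : 0 < h := by linarith
  have ec : ∀ j : ℕ, (0 : ℤ) + ((j + 1 : ℕ) : ℤ) = 0 + j + 1 := fun j => by push_cast; ring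
  obtain ⟨P, HP, hl, h3, h4⟩ := exists_pieces (S := S) (N := 4 * K) (by omega)
    (x := fun j : ℕ => x (0 + j))
    (by
      intro j
      show x (0 + ((j + 4 * K : ℕ) : ℤ)) = _
      rw [show (0 : ℤ) + ((j + 4 * K : ℕ) : ℤ) = 0 + j + (4 * K : ℕ) by push_cast; ring, per])
    (Q := fun j => {s | s ∈ Q ∧ s ∈ RR A B h W (0 + j)})
    (RR := fun j => RR (A + m) (B + m) h W (0 + j))
    (by
      intro j _
      have := lk (0 + j)
      rw [← ec] at this
      exact this)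
    (by
      intro j _ u v huv hu hv
      have := step (0 + j) u v huv hu.2 hv.2
      rw [norm_sub_rev] at this
      exact SepLx686.seg_RR F hu.2 this)
  have hidx := fun {z : ℂ} (hz : z ∈ Kin h (A + m) K v) =>
    sq_index (A := A + m) (B := B + m) K3 hW F (by linarith) (by linarith) hB (by linarith) HP
      (fun j hj s hs => RR_mono (by linarith) (by linarith) h W _ (h4 j hj s hs).2) hg hz
  have hoff : ∀ z ∈ Kin h (A + m) K v, Off z (cyc (4 * K) P) := fun z hz =>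
    HP.off fun j _ => kin_off K1 hW F (by linarith) (by linarith) hh0 hz _
  have hmem : ∀ s ∈ cyc (4 * K) P, s ∈ Q ∧ ∃ a, s ∈ RR A B h W a := by
    intro s hs
    obtain ⟨j, hj, h5, h6⟩ := h3 s hs
    exact ⟨h5, _, h6⟩
  refine ⟨(cyc (4 * K) P).reverse, ⟨⟨?_, ?_⟩, ?_, ?_, ?_, ?_, ?_⟩, ?_⟩
  · rw [List.head?_reverse, List.getLast?_reverse]
    exact hl.closed.symm
  · intro p hp
    rw [prs_reverse, List.mem_reverse, List.mem_map] at hp
    obtain ⟨q, hq, rfl⟩ := hp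
    exact (hl.del q hq).symm
  · intro h5
    rw [List.reverse_eq_nil_iff] at h5
    have h6 := HP.hd 0
    have h7 : x (0 + ((0 : ℕ) : ℤ)) ∈ cyc (4 * K) P := HP.mem.2 ⟨0, by omega, by
      exact List.mem_of_mem_head? (by rw [h6]; rfl)⟩
    rw [h5] at h7
    exact absurd h7 (List.not_mem_nil)
  · intro s hs
    exact hβ s (hmem s (List.mem_reverse.1 hs)).1
  · intro s hs
    obtain ⟨-, a, ha⟩ := hmem s (List.mem_reverse.1 hs)
    have := (tile_ann K1 hW F hA (by linarith) hh0 ha).1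
    linarith
  · intro s hs
    obtain ⟨-, a, ha⟩ := hmem s (List.mem_reverse.1 hs)
    have := (tile_ann K1 hW F hA (by linarith) hh0 ha).2
    linarith
  · intro p hp
    have hk := kin_sup h1 hp
    rw [asum_reverse (hoff p hk), hidx hk]
    ring
  · intro s hs
    exact (hmem s (List.mem_reverse.1 hs)).1

/-! ### from 348's `WhtH` -/

variable {X' : Set (ℂ × Bool)} {U : Set ℂ} {η d : ℝ}

/-- the white sites of the gates -/
theorem WhtH.wx (H : WhtH X' U (4 * K) W η d) (a : ℤ) :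
    |X (gz (100 * η) W a) (ge W a) (xx η W X' a)| < 100 * η := by
  have h0 := H.e0
  have h1 := H.de
  have h2 := H.wy a
  obtain ⟨⟨h5, h6⟩, h7, h8⟩ := h2
  have h3 : ‖xx η W X' a - yy η W X' a‖ < 2 * d :=
    H.step (H.box_U a (by rw [abs_le]; constructor <;> linarith)
      (by rw [abs_le]; constructor <;> linarith)) (Or.inl ⟨_, Frame5x395.th_spec (H.sd a)⟩)
  have h4 := (Crossx228.abs_X_sub (gz (100 * η) W a) (ge_d4 H.path a).norm (xx η W X' a)
    (yy η W X' a)).trans_lt h3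
  rw [abs_lt] at h4 ⊢
  constructor <;> linarith

/-- **the white circuit** -/
theorem WhtH.circ (H : WhtH X' U (4 * K) W η d) (K3 : 3 ≤ K) (hW : ∀ a, W a = sqW K a + v)
    {β : Finset ℂ} (hβ : ∀ s ∈ sX X', s ∉ bX X' → s ∈ β)
    (h1 : lo ≤ 100 * η * K / 2 - 10 * η) (h2 : 100 * η * K / 2 + 9 * η ≤ hi) :
    ∃ c, CircG (sX X') (zc (100 * η) K v) lo hi β c ∧ ∀ s ∈ c, s ∈ sX X' ∧ s ∉ bX X' := by
  have h0 := H.e0
  have hd := H.d0
  have hde := H.de
  refine circ_of (m := 2 * d) (A := 9 * η) (B := 51 * η) K3 hW H.path (by linarith) (by linarith)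
    (by linarith) (by linarith) (by linarith) (x := xx η W X') H.xper
    (Q := {s | s ∈ sX X' ∧ s ∉ bX X'}) H.wht (WhtH.wx H) ?_ (fun s hs => hβ s hs.1 hs.2)
    (by linarith) h2
  intro a u v huv hu _
  exact (H.step' (H.fat a u hu u (by simp; linarith)) huv).le

variable {A₀ : Finset ℂ} {hS : GP (A₀ : Set ℂ)} {h3 : 3 ≤ A₀.card} {σ : Cs hS → ZMod 2}

/-- a white site has a white cell -/
theorem sr_zero {s : ℂ} (hs : s ∈ A₀) (hb : s ∉ bX (Xc hS h3 σ)) :
    σ (Meetx707.sr hS h3 s) = 0 := by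
  have e1 : Meetx707.sr hS h3 s = cs hS h3 ⟨s, hs⟩ := dif_pos hs
  have e2 : cX (Xc hS h3 σ) s = σ (cs hS h3 ⟨s, hs⟩) := cX_Xc hs
  have h4 : cX (Xc hS h3 σ) s ≠ 1 := fun h5 =>
    hb (Finset.mem_filter.2 ⟨by rw [sX_Xc]; exact hs, h5⟩)
  rw [e1, ← e2]
  have key : ∀ b : ZMod 2, b ≠ 1 → b = 0 := by decide
  exact key _ h4

/-- **355's field `cir`** -/
theorem cir_Xc {A1 A2 : ℝ} (H : WhtH (Xc hS h3 σ) U (4 * K) W η d) (K3 : 3 ≤ K)
    (hW : ∀ a, W a = sqW K a + v) (h1 : A1 ≤ 100 * η * K / 2 - 10 * η)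
    (h2 : 100 * η * K / 2 + 9 * η ≤ A2) :
    ∃ (lo hi : ℝ) (β : Finset ℂ) (c : List ℂ), CircG A₀ (zc (100 * η) K v) lo hi β c ∧ A1 ≤ lo ∧
      hi ≤ A2 ∧ (∀ s ∈ c, s ∈ A₀) ∧ ∀ s ∈ c, σ (Meetx707.sr hS h3 s) = 0 := by
  obtain ⟨c, h4, h5⟩ := WhtH.circ H K3 hW (β := A₀) (lo := A1) (hi := A2)
    (fun s hs _ => by rwa [sX_Xc] at hs) h1 h2
  rw [sX_Xc] at h4
  refine ⟨A1, A2, A₀, c, h4, le_rfl, le_rfl, fun s hs => ?_, fun s hs => ?_⟩
  · have := (h5 s hs).1
    rwa [sX_Xc] at this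
  · have h6 := h5 s hs
    rw [sX_Xc] at h6
    exact sr_zero h6.1 h6.2

end Crest.Agent.R143.WhiteCx312
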