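import Crest.Agent.R143.WhiteC_312
import Crest.Agent.R143.RingG_355
import Crest.Agent.R143.RingU_197

/-!
# Row 143 (S0194), block H: fields `rk`, `bx`, `cir` of 355's `SiteR` (helper312)

* `rk_clo` : levels of the tiles; **`bx_rc`** : the deep sites are not joined to the hull off the left
  cells of the ring loop, on `rc0 hS`
* family of 197 (`Wi n`, `Wo n`, `RingUx197.zB`, `et n`): `rk_fam`, **`bx_fam`**, **`cir_fam`**
-/

set_option autoImplicit false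

noncomputable section

open scoped Classical

namespace Crest.Agent.R143.WhiteDx312

open Crest.Agent.R143.B0x346 Crest.Agent.R143.DelGx806 Crest.Agent.R143.DelRx806
open Crest.Agent.R143.ToolWx838 Crest.Agent.R143.Blkx838
open Crest.Agent.R143.Frame1x395 Crest.Agent.R143.Frame2x395 Crest.Agent.R143.Frame3x395
  Crest.Agent.R143.Frame8x395 Crest.Agent.R143.Frame10x395 Crest.Agent.R143.Frame11x395
open Crest.Agent.R143.Splx117 Crest.Agent.R143.WLocx713 Crest.Agent.R143.RingDx117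
  Crest.Agent.R143.Neckx921
open Crest.Agent.R143.TileRx228 Crest.Agent.R143.SqPx503
open Crest.Agent.R143.RingPx503 Crest.Agent.R143.PathDx503 Crest.Agent.R143.PathGx503
open Crest.Agent.R143.RingIx503 Crest.Agent.R143.RingBx312 Crest.Agent.R143.RingCx312
open Crest.Agent.R143.WhiteCx312
open Crest.Agent.R143.GiantEx197 (Ek Eg Lf hull_mem)
open Crest.Agent.R143.CircPx838 (sup)
open Crest.Agent.R143.AnnCx707 (CircG)
open Crest.Agent.R143.FinCx811 Crest.Agent.R143.ColXx829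
open Crest.Agent.R143.RcTx422 (scol scol_hull)
open Crest.Agent.R143.SmallAx304 (chiS)
open Crest.Agent.R143.FactIx432 (cfg_scol)
open Crest.Agent.R143.Meetx707 (sr)
open Crest.Agent.R143.Brgx355 (Sm sm_rc0)
open Crest.Agent.R143.RingXx713 (RngH)
open Crest.Agent.R143.LawGx348 (WhtH)
open Crest.Agent.R143.RingUx197 hiding zB
open Crest.Agent.R143.NonXx592 (P)

/-! ### on 503's `Clo` -/

section gen

variable {S V β : Finset ℂ} {χ : ℂ → ZMod 2} {h A B A' B' κ bb m m' τ : ℝ} {a0 a1 b0 b1 : ℝ}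
  {K : ℕ} {v : ℤ × ℤ} {W : ℤ → ℤ × ℤ} {y x : ℤ → ℂ} {U : Set ℂ}
  {hS : GP (S : Set ℂ)} {hχ : HullC S χ}
  (H : Clo S V β χ h A B A' B' κ bb a0 a1 b0 b1 m m' τ (4 * K) W y x U)

include H in
/-- levels of the tiles -/
theorem rk_clo (hK : 1 ≤ K) (hW : ∀ a, W a = sqW K a + v) {a : ℤ} {s : ℂ}
    (hs : s ∈ RR (A + τ) (B + τ) h W a) :
    h * K / 2 - (A + τ) < sup (s - zc h K v) ∧ sup (s - zc h K v) < h * K / 2 + (A + τ) := by
  obtain ⟨p1, p2, p3, p4, p5⟩ := pos H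
  exact tile_ann hK hW H.F p2 p4 p1 hs

/-- **the deep sites are not joined to the hull off the left cells** -/
theorem bx_rc {o : ℤ} {N : ℕ} {T : ℕ → ℕ}
    (R : Winx355.RL (cm0 hS) (cfg (cm0 hS) (lift S hχ)) (pz hχ H o) N (4 * K) T
      (fun k => cl S (RR (A + τ) (B + τ) h W (o - 1 - k))))
    (Tp : ∀ k, P (cm0 hS) (cfg (cm0 hS) (lift S hχ)) (pz hχ H o) (T k) = pz hχ H (o - k))
    (TR : ∀ k t, T k ≤ t → t ≤ T (k + 1) →
      P (cm0 hS) (cfg (cm0 hS) (lift S hχ)) (pz hχ H o) t ∈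
        RD S (RR (A + τ) (B + τ) h W (o - 1 - k)))
    (Q : NumS h A B m τ K) (hW : ∀ a, W a = sqW K a + v) (h3 : 3 ≤ S.card) {n : ℕ}
    (hn : N ≤ n + 1) {ψ : Cs hS → ZMod 2}
    (hψ : cfg (cm0 hS) (lift S hχ) = cfg (rc0 hS) ψ) {u : ℂ} (hu : OnHull S u) (huS : u ∈ S)
    {A0 : ℝ} (hA0 : A0 ≤ h * K / 2 - (A + τ + m)) :
    ∀ s ∈ S, sup (s - zc h K v) ≤ A0 →
      sr hS h3 s ∉ Ek (rc0 hS) (sr hS h3 u) (Lf (rc0 hS) (cfg (rc0 hS) ψ) (pz hχ H o) n) := by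
  intro s hs hs0 hc
  have val : ∀ w ∈ S, (sr hS h3 w).1 = Quot.mk _ w := by
    intro w hw
    have e : sr hS h3 w = cs hS h3 ⟨w, hw⟩ := dif_pos hw
    rw [e]
    rfl
  refine box_not_eg H R TR Tp Q hW h3 hn hu (w := s) (kin_sup hA0 hs0) (Or.inl ?_)
  have e1 := (sm_rc0 hS).ek (h0 := sr hS h3 u)
    (K := Lf (rc0 hS) (cfg (rc0 hS) ψ) (pz hχ H o) n)
  have e2 := (sm_rc0 hS).lf (x := cfg (rc0 hS) ψ) (pz hχ H o) n
  rw [← e2, val u huS] at e1
  show (Quot.mk _ s : Quot (hullE S)) ∈ Ek (cm0 hS) (Quot.mk _ u)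
    (Lf (cm0 hS) (cfg (cm0 hS) (lift S hχ)) (pz hχ H o) n)
  rw [hψ, e1]
  exact ⟨_, hc, val s hs⟩

end gen

/-! ### the family -/

section fam

variable {n : ℕ} {A β : Finset ℂ} {U : Set ℂ} {d : ℝ} {hS : GP (A : Set ℂ)} {h3 : 3 ≤ A.card}

theorem zc_eq_o {n : ℕ} (hn : 0 < n) : zc (100 * et n) (n + 22) (-11, -11) = RingUx197.zB := by
  have h := et_mul hn
  unfold zc RingUx197.zB
  apply Complex.ext
  · show 100 * et n * (((-11 : ℤ) : ℝ) + ((n + 22 : ℕ) : ℝ) / 2) = 1 / 2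
    push_cast
    linear_combination h / 2
  · show 100 * et n * (((-11 : ℤ) : ℝ) + ((n + 22 : ℕ) : ℝ) / 2) = 1 / 2
    push_cast
    linear_combination h / 2

theorem hk_i (hn : 0 < n) : 100 * et n * ((n + 2 : ℕ) : ℝ) / 2 = 1 / 2 + 100 * et n := by
  have h := et_mul hn
  push_cast
  linear_combination h / 2

theorem hk_o (hn : 0 < n) : 100 * et n * ((n + 22 : ℕ) : ℝ) / 2 = 1 / 2 + 11 * (100 * et n) := by
  have h := et_mul hn
  push_cast
  linear_combination h / 2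

/-- levels of the tiles of the ring -/
theorem rk_fam (hn : 0 < n) (R : RngH (Xc hS h3 (chiS hS h3 β)) U (4 * (n + 2)) (Wi n) (et n) d)
    {a : ℤ} {s : ℂ}
    (hs : s ∈ RR (9 * et n + et n / 2) (51 * et n + et n / 2) (100 * et n) (Wi n) a) :
    1 / 2 + 90 * et n < sup (s - RingUx197.zB) ∧ sup (s - RingUx197.zB) < 1 / 2 + 110 * et n := by
  have h1 := rk_clo (clo_X R) (v := (-1, -1)) (by omega) (fun a => rfl) hs
  have h2 := et_pos hn
  rw [zc_eq hn, hk_i hn] at h1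
  constructor <;> linarith [h1.1, h1.2]

/-- **355's field `cir`** -/
theorem cir_fam (hn : 0 < n) {σ : Cs hS → ZMod 2}
    (H : WhtH (Xc hS h3 σ) U (4 * (n + 22)) (Wo n) (et n) d) {A1 A2 : ℝ}
    (h1 : A1 ≤ 1 / 2 + 1090 * et n) (h2 : 1 / 2 + 1109 * et n ≤ A2) :
    ∃ (lo hi : ℝ) (γ : Finset ℂ) (c : List ℂ), CircG A RingUx197.zB lo hi γ c ∧ A1 ≤ lo ∧
      hi ≤ A2 ∧ (∀ s ∈ c, s ∈ A) ∧ ∀ s ∈ c, σ (sr hS h3 s) = 0 := by
  have h := cir_Xc (v := (-11, -11)) (A1 := A1) (A2 := A2) H (by omega) (fun a => rfl)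
    (by rw [hk_o hn]; linarith) (by rw [hk_o hn]; linarith)
  rwa [zc_eq_o hn] at h

/-- **355's field `bx`** on `rc0 hS` -/
theorem bx_fam (hn : 4 ≤ n)
    (R : RngH (Xc hS h3 (chiS hS h3 β)) U (4 * (n + 2)) (Wi n) (et n) d) {o : ℤ} {N : ℕ}
    {T : ℕ → ℕ}
    (L : Winx355.RL (cm0 hS) (cfg (cm0 hS) (lift A (scol_hull (chiS hS h3 β))))
      (pz (scol_hull (chiS hS h3 β)) (clo_X R) o) N (4 * (n + 2)) T
      (fun k => cl A (RR (9 * et n + et n / 2) (51 * et n + et n / 2) (100 * et n) (Wi n)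
        (o - 1 - k))))
    (Tp : ∀ k, P (cm0 hS) (cfg (cm0 hS) (lift A (scol_hull (chiS hS h3 β))))
      (pz (scol_hull (chiS hS h3 β)) (clo_X R) o) (T k) =
        pz (scol_hull (chiS hS h3 β)) (clo_X R) (o - k))
    (TR : ∀ k t, T k ≤ t → t ≤ T (k + 1) →
      P (cm0 hS) (cfg (cm0 hS) (lift A (scol_hull (chiS hS h3 β))))
        (pz (scol_hull (chiS hS h3 β)) (clo_X R) o) t ∈
          RD A (RR (9 * et n + et n / 2) (51 * et n + et n / 2) (100 * et n) (Wi n)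
            (o - 1 - k)))
    {n' : ℕ} (hn' : N ≤ n' + 1) {u : ℂ} (hu : OnHull A u) (huS : u ∈ A) {A0 : ℝ}
    (hA0 : A0 ≤ 1 / 2 + 90 * et n) :
    ∀ s ∈ A, sup (s - RingUx197.zB) ≤ A0 →
      sr hS h3 s ∉ Ek (rc0 hS) (sr hS h3 u) (Lf (rc0 hS) (cfg (rc0 hS) (chiS hS h3 β))
        (pz (scol_hull (chiS hS h3 β)) (clo_X R) o) n') := by
  have n0 : 0 < n := by omega
  have h1 := et_pos n0
  have hd := R.d0
  have hde := R.de
  have h := bx_rc (clo_X R) (v := (-1, -1)) L Tp TR ⟨by omega, by linarith, by linarith⟩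
    (fun a => rfl) h3 hn' (cfg_scol (hS := hS) h3 β) hu huS (A0 := A0)
    (by rw [hk_i n0]; linarith)
  rwa [zc_eq n0] at h

end fam

end Crest.Agent.R143.WhiteDx312
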