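import Crest.Agent.R143.P2W_445
import Crest.Agent.R143.LawU_348
import Crest.Agent.R143.WndI_416

/-!
# Row 143 (S0194), block H, P2: the weights off a window, literal sets and geometry (helper348)

445's `P2W_445` (`gI`, `rI`, `Cl`, `gOff`, `winM`), 357's literal sets, 197's family.

* `sq0_far`, `sqv_far` : vertices of the square path at cyclic distance at least four: a coordinate
  differs by three, or both by two
* `rr_off` : the region of such a tile is outside of `closedBall (cen l) (2 h)`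
* `I7 M l`, `J7 M l` : gates `l - 2 .. l + 3`, tiles `l - 3 .. l + 3`; `i7_card`, `j7_card`, `cl7`
* **`rI_off`** : the region off `I₁ ⊇ I7`, `J₁ ⊇ J7` is outside of `closedBall (cen l) (2 h)`
* **`wo_off`** : the region of the white path is outside of it
* `IM`, `JM` : gates and tiles which meet a set `U`; `cl_meet`, `rI_meet`, `jm_card`
* **`winM_fam`** : 126's `WinM` for `gOff I₁ J₁ I₂ J₂` on the names of the family, any `D` in
  `closedBall (cen l) (2 h - d)`; `winM_one` : `I7`, `J7` only; **`winM_arm`** : off the window and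
  everything that meets the arm box `U`; `rOff_arm`; `winM_fam'` : a smaller weight
-/

set_option autoImplicit false
set_option linter.all false

noncomputable section

open scoped Classical

namespace Crest.Agent.R143.WinOx348

open MeasureTheory Set ProbabilityTheory
open Crest.ProbabilityR.Voronoi
open Crest.Agent.R143.B0x346 Crest.Agent.R143.Locx922
open Crest.Agent.R143.PP0x831 Crest.Agent.R143.Poisx304 Crest.Agent.R143.Janx304
open Crest.Agent.R143.IndLocx279 Crest.Agent.R143.PWx978 Crest.Agent.R143.Tplx978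
open Crest.Agent.R143.TileRx228 Crest.Agent.R143.PthFx765 Crest.Agent.R143.TplIx204
open Crest.Agent.R143.CorNx765 Crest.Agent.R143.RngNx765
open Crest.Agent.R143.Dbl2x609 Crest.Agent.R143.WgtHx445 Crest.Agent.R143.HGluex136
open Crest.Agent.R143.Asm3x414 Crest.Agent.R143.Asm4x414
open Crest.Agent.R143.SumScx302 (sq)
open Crest.Agent.R143.RelMx126 (WinM)
open Crest.Agent.R143.SqPx503 (sqW sq0)
open Crest.Agent.R143.SqGx445 (sqV sqv_fpath)
open Crest.Agent.R143.CircPx838 (sup)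
open Crest.Agent.R143.P2Wx445
open Crest.Agent.R143.RingUx197 (et Wi Wo et_pos et_mul)
open Crest.Agent.R143.LawUx348
open scoped ENNReal

/-! ### the square path -/

theorem sq0_far {K r t : ℤ} (hK : 3 ≤ K) (h0 : 0 ≤ r) (h1 : r < 4 * K) (h2 : 0 ≤ t)
    (h3 : t < 4 * K) (h4 : 4 ≤ t - r ∨ 4 ≤ r - t) (h5 : t - r ≤ 4 * K - 4)
    (h6 : r - t ≤ 4 * K - 4) :
    3 ≤ |(sq0 K t).1 - (sq0 K r).1| ∨ 3 ≤ |(sq0 K t).2 - (sq0 K r).2| ∨
      (2 ≤ |(sq0 K t).1 - (sq0 K r).1| ∧ 2 ≤ |(sq0 K t).2 - (sq0 K r).2|) := by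
  simp only [le_abs]
  unfold sq0
  split_ifs <;> simp only <;> omega

/-- **vertices at cyclic distance at least four** -/
theorem sqv_far {K : ℕ} (hK : 3 ≤ K) (v : ℤ × ℤ) {a b : ℤ}
    (h : ∀ e : ℤ, -3 ≤ e → e ≤ 3 → ¬ ((4 * K : ℕ) : ℤ) ∣ b - (a + e)) :
    3 ≤ |(sqV K v b).1 - (sqV K v a).1| ∨ 3 ≤ |(sqV K v b).2 - (sqV K v a).2| ∨
      (2 ≤ |(sqV K v b).1 - (sqV K v a).1| ∧ 2 ≤ |(sqV K v b).2 - (sqV K v a).2|) := by
  have hK' : (3 : ℤ) ≤ K := by exact_mod_cast hK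
  have e1 : (sqV K v b).1 - (sqV K v a).1 = (sqW K b).1 - (sqW K a).1 := by
    unfold sqV
    rw [Prod.fst_add, Prod.fst_add]
    ring
  have e2 : (sqV K v b).2 - (sqV K v a).2 = (sqW K b).2 - (sqW K a).2 := by
    unfold sqV
    rw [Prod.snd_add, Prod.snd_add]
    ring
  rw [e1, e2]
  unfold sqW
  have hL : (4 * K : ℤ) ≠ 0 := by omega
  have h0 := Int.emod_nonneg a hL
  have h1 := Int.emod_lt_of_pos a (show (0 : ℤ) < 4 * K by omega)
  have h2 := Int.emod_nonneg b hL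
  have h3 := Int.emod_lt_of_pos b (show (0 : ℤ) < 4 * K by omega)
  have d1 : ((4 * K : ℕ) : ℤ) ∣ (b - a) - (b % (4 * K) - a % (4 * K)) := by
    push_cast
    have k1 := Int.emod_add_mul_ediv a (4 * K : ℤ)
    have k2 := Int.emod_add_mul_ediv b (4 * K : ℤ)
    refine ⟨b / (4 * K) - a / (4 * K), ?_⟩
    linear_combination k1 - k2
  have key : ∀ e : ℤ, -3 ≤ e → e ≤ 3 → ∀ c : ℤ,
      b % (4 * K) - a % (4 * K) ≠ e + c * (4 * K) := by
    intro e he1 he2 c hc
    refine h e he1 he2 ?_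
    rw [hc] at d1
    have d2 : ((4 * K : ℕ) : ℤ) ∣ c * (4 * K) := ⟨c, by push_cast; ring⟩
    have := dvd_add d1 d2
    rwa [show b - a - (e + c * (4 * K)) + c * (4 * K) = b - (a + e) by ring] at this
  generalize a % (4 * K : ℤ) = r at h0 h1 d1 key ⊢
  generalize b % (4 * K : ℤ) = t at h2 h3 d1 key ⊢
  refine sq0_far hK' h0 h1 h2 h3 ?_ ?_ ?_
  · by_contra hcon
    refine key (t - r) (by omega) (by omega) 0 (by ring)
  · by_contra hcon
    refine key (t - r - 4 * K) (by omega) (by omega) 1 (by ring)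
  · by_contra hcon
    refine key (t - r + 4 * K) (by omega) (by omega) (-1) (by ring)

/-- **the region of a tile at cyclic distance at least four** -/
theorem rr_off {K : ℕ} (hK : 3 ≤ K) (v : ℤ × ℤ) {A B h : ℝ} (h0 : 0 < h) (hA0 : 0 < A)
    (hA : 8 * A ≤ h) (hB0 : 0 ≤ B) (hB : 20 * B ≤ 11 * h) {a b : ℤ}
    (hab : ∀ e : ℤ, -3 ≤ e → e ≤ 3 → ¬ ((4 * K : ℕ) : ℤ) ∣ b - (a + e)) {s : ℂ}
    (hs : s ∈ RR A B h (sqV K v) b) : s ∉ Metric.closedBall (cen h (sqV K v) a) (2 * h) := by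
  intro hc
  rw [Metric.mem_closedBall, dist_eq_norm] at hc
  obtain ⟨w, hw, -, ht⟩ := mem_RR (sqv_fpath (show 1 ≤ K by omega) v) hs
  obtain ⟨τ, t0, t1, t2, t3⟩ := FineDx576.arm_pt hB0 hw ht
  rw [FineDx576.cen_re] at t2
  rw [FineDx576.cen_im] at t3
  have c1 : |(s - cen h (sqV K v) a).re| ≤ 2 * h := (Complex.abs_re_le_norm _).trans hc
  have c2 : |(s - cen h (sqV K v) a).im| ≤ 2 * h := (Complex.abs_im_le_norm _).trans hc
  have c3 : (s - cen h (sqV K v) a).re ^ 2 + (s - cen h (sqV K v) a).im ^ 2 ≤ (2 * h) ^ 2 := by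
    have h5 := pow_le_pow_left₀ (norm_nonneg _) hc 2
    rw [Complex.sq_norm, Complex.normSq_apply] at h5
    nlinarith
  rw [Complex.sub_re, FineDx576.cen_re] at c1 c3
  rw [Complex.sub_im, FineDx576.cen_im] at c2 c3
  -- lower bounds of a coordinate
  have key : ∀ (x τ' : ℝ) (p q : ℤ) (m : ℕ), |x - (h * q + τ')| ≤ A → (m : ℤ) ≤ |q - p| →
      (m : ℝ) * h - A - |τ'| ≤ |x - h * p| := by
    intro x τ' p q m hx hm
    have hm' : (m : ℝ) ≤ |(q : ℝ) - p| := by exact_mod_cast hm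
    have h5 : (m : ℝ) * h ≤ |h * q - h * p| := by
      rw [← mul_sub, abs_mul, abs_of_pos h0]
      nlinarith
    have h6 : |h * (q : ℝ) - h * p| ≤ |x - h * p| + |x - (h * q + τ')| + |τ'| := by
      have : h * (q : ℝ) - h * p = (x - h * p) - (x - (h * q + τ')) - τ' := by ring
      rw [this]
      exact (abs_sub _ _).trans (by gcongr; exact abs_sub _ _)
    linarith
  have hu : (|(τ * w.1 : ℝ)| ≤ B ∧ |(τ * w.2 : ℝ)| ≤ B) ∧
      ((τ * w.1 : ℝ) = 0 ∨ (τ * w.2 : ℝ) = 0) := by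
    rcases hw with rfl | rfl | rfl | rfl <;> simp [abs_of_nonneg t0, t1, hB0]
  obtain ⟨⟨u1, u2⟩, u3⟩ := hu
  have big : ∀ y : ℝ, 3 * h - A - B ≤ |y| → |y| ≤ 2 * h → False := by
    intro y h1 h2
    linarith
  rcases sqv_far hK v hab with g | g | ⟨g1, g2⟩
  · have := key _ _ _ _ 3 t2 (by exact_mod_cast g)
    exact big _ (by push_cast at this; linarith) c1
  · have := key _ _ _ _ 3 t3 (by exact_mod_cast g)
    exact big _ (by push_cast at this; linarith) c2
  · have k1 := key _ _ _ _ 2 t2 (by exact_mod_cast g1)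
    have k2 := key _ _ _ _ 2 t3 (by exact_mod_cast g2)
    push_cast at k1 k2
    have fin : ∀ x y : ℝ, 2 * h - A ≤ |x| → 2 * h - A - B ≤ |y| → x ^ 2 + y ^ 2 ≤ (2 * h) ^ 2 →
        False := by
      intro x y hx hy hxy
      have e1 : 15 / 8 * h ≤ |x| := by linarith
      have e2 : 53 / 40 * h ≤ |y| := by linarith
      have e3 := pow_le_pow_left₀ (by positivity) e1 2
      have e4 := pow_le_pow_left₀ (by positivity) e2 2
      rw [sq_abs] at e3 e4
      nlinarith [mul_pos h0 h0]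
    rcases u3 with u3 | u3
    · rw [u3, abs_zero] at k1
      exact fin _ _ (by linarith) (by linarith) c3
    · rw [u3, abs_zero] at k2
      exact fin (s.im - h * ((sqV K v a).2 : ℝ)) (s.re - h * ((sqV K v a).1 : ℝ)) (by linarith)
        (by linarith) (by linarith)

/-! ### the literal sets -/

section sets

variable (M : ℕ)

/-- dropped gates of the window of the tile `l` -/
def I7 (l : ℤ) : Finset (ZMod M) :=
  (Finset.Icc (-2 : ℤ) 3).image fun e => ((l + e : ℤ) : ZMod M)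

/-- dropped tiles of the window of the tile `l` -/
def J7 (l : ℤ) : Finset (ZMod M) :=
  (Finset.Icc (-3 : ℤ) 3).image fun e => ((l + e : ℤ) : ZMod M)

variable {M}

theorem i7_card (l : ℤ) : (I7 M l).card ≤ 6 := Finset.card_image_le.trans (by simp)

theorem j7_card (l : ℤ) : (J7 M l).card ≤ 7 := Finset.card_image_le.trans (by simp)

theorem mem_I7 {l e : ℤ} (h1 : -2 ≤ e) (h2 : e ≤ 3) : ((l + e : ℤ) : ZMod M) ∈ I7 M l :=
  Finset.mem_image.2 ⟨e, Finset.mem_Icc.2 ⟨h1, h2⟩, rfl⟩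

theorem mem_J7 {l e : ℤ} (h1 : -3 ≤ e) (h2 : e ≤ 3) : ((l + e : ℤ) : ZMod M) ∈ J7 M l :=
  Finset.mem_image.2 ⟨e, Finset.mem_Icc.2 ⟨h1, h2⟩, rfl⟩

/-- a dropped gate is only seen by dropped tiles -/
theorem cl7 (l : ℤ) : Cl (I7 M l) (J7 M l) := by
  intro k hk
  constructor
  · intro h
    obtain ⟨e, he, rfl⟩ := Finset.mem_image.1 h
    have := Finset.mem_Icc.1 he
    exact hk (mem_J7 (by omega) (by omega))
  · intro h
    obtain ⟨e, he, h2⟩ := Finset.mem_image.1 h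
    have := Finset.mem_Icc.1 he
    have e1 : k = ((l + (e - 1) : ℤ) : ZMod M) := by
      have : k = k + 1 - 1 := by ring
      rw [this, ← h2]
      push_cast
      ring
    exact hk (e1 ▸ mem_J7 (by omega) (by omega))

theorem cl_empty : Cl (∅ : Finset (ZMod M)) ∅ := fun k _ => ⟨by simp, by simp⟩

end sets

/-! ### the regions off the window -/

section off

variable {K : ℕ} {v : ℤ × ℤ} {A B h ε : ℝ} {T : Tpl ε (Tn × Bool)}

/-- **the region off the window of the tile `l`** -/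
theorem rI_off [Fintype (ZMod (4 * K))] (hK : 3 ≤ K) (P : FPath (4 * K) (sqV K v))
    (Hs : Std T A B h Prod.fst) (b : Bool) (h0 : 0 < h) (hA : 8 * A ≤ h) (hB : 20 * B ≤ 11 * h)
    {l : ℤ} {I₁ J₁ : Finset (ZMod (4 * K))} (h7 : I7 (4 * K) l ⊆ I₁) (j7 : J7 (4 * K) l ⊆ J₁) :
    Disjoint (rI P Hs b I₁ J₁) (Metric.closedBall (cen h (sqV K v) l) (2 * h)) := by
  rw [Set.disjoint_left]
  intro s hs
  have hB0 : 0 ≤ B := (Hs.hA.trans_le Hs.hAB).le
  rcases hs with hs | hs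
  · obtain ⟨i, hi, hs⟩ := mem_iUnion₂.1 hs
    have hi' := (Finset.mem_sdiff.1 hi).2
    have hs' : s ∈ PthFx765.GB A B h (sqV K v) (zc i) := by
      have := net_B P Hs (rty_typ (M := 4 * K) (W := sqV K v) b) (zc i)
      rw [zc_cast] at this
      rw [← this]
      exact hs
    have n1 : ∀ e : ℤ, -2 ≤ e → e ≤ 3 → ¬ ((4 * K : ℕ) : ℤ) ∣ zc i - (l + e) := by
      intro e e1 e2 hd
      apply hi'
      have := cast_dvd hd
      rw [zc_cast] at this
      rw [this]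
      exact h7 (mem_I7 e1 e2)
    by_cases h3 : ((4 * K : ℕ) : ℤ) ∣ zc i - (l + -3)
    · -- the gate `l - 3`: use the tile `l - 4`
      have h4 : s ∈ RR A B h (sqV K v) (zc i - 1) := by
        refine PthFx765.GB_sub' P Hs.hA Hs.hB (zc i - 1) ?_
        rwa [sub_add_cancel]
      refine rr_off hK v h0 Hs.hA hA hB0 hB ?_ h4
      intro e e1 e2 hd
      by_cases e3 : e = 3
      · subst e3
        have := dvd_sub h3 hd
        rw [show zc i - (l + -3) - (zc i - 1 - (l + 3)) = 7 by ring] at this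
        have := Int.le_of_dvd (by norm_num) this
        push_cast at this
        omega
      · refine n1 (e + 1) (by omega) (by omega) ?_
        rwa [show zc i - (l + (e + 1)) = zc i - 1 - (l + e) by ring]
    · refine rr_off hK v h0 Hs.hA hA hB0 hB ?_ (PthFx765.GB_sub P Hs.hA Hs.hB (zc i) hs')
      intro e e1 e2
      by_cases e3 : e = -3
      · subst e3
        exact h3
      · exact n1 e (by omega) e2
  · obtain ⟨k, hk, hs⟩ := mem_iUnion₂.1 hs
    have hk' := (Finset.mem_sdiff.1 hk).2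
    have hs' : s ∈ PthFx765.TB A B h (sqV K v) (zc k) := by
      have := net_C P Hs (rty_typ (M := 4 * K) (W := sqV K v) b) (zc k)
      rw [zc_cast] at this
      rw [← this]
      exact hs
    refine rr_off hK v h0 Hs.hA hA hB0 hB ?_ hs'.1
    intro e e1 e2 hd
    apply hk'
    have := cast_dvd hd
    rw [zc_cast] at this
    rw [this]
    exact j7 (mem_J7 e1 e2)

theorem cen_RR {W : ℤ → ℤ × ℤ} (hA : 0 < A) (hB : 0 < B) (a : ℤ) :
    cen h W a ∈ RR A B h W a := by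
  refine Or.inl ⟨⟨?_, ?_⟩, ?_⟩ <;> simp [Gatex838.X, Gatex838.Y, hA, hB]

/-- the centres of the tiles of the ring -/
theorem cen_wi {n : ℕ} (hn : 0 < n) (a : ℤ) :
    |sup (cen (100 * et n) (Wi n) a - RingUx197.zB) - (1 / 2 + 100 * et n)| < 12 * et n := by
  have h0 := et_pos hn
  exact sup_wi hn (A := 12 * et n) (B := 52 * et n) (by linarith) (by linarith)
    (cen_RR (by linarith) (by linarith) a)

theorem sup_tri (s t : ℂ) : sup s ≤ ‖s - t‖ + sup t := by
  unfold sup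
  have h1 := Complex.abs_re_le_norm (s - t)
  have h2 := Complex.abs_im_le_norm (s - t)
  rw [Complex.sub_re] at h1
  rw [Complex.sub_im] at h2
  have h3 : |s.re| ≤ |s.re - t.re| + |t.re| := by
    have := abs_add_le (s.re - t.re) t.re
    rwa [sub_add_cancel] at this
  have h4 : |s.im| ≤ |s.im - t.im| + |t.im| := by
    have := abs_add_le (s.im - t.im) t.im
    rwa [sub_add_cancel] at this
  refine max_le ?_ ?_
  · have := le_max_left |t.re| |t.im|
    linarith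
  · have := le_max_right |t.re| |t.im|
    linarith

/-- **the region of the white path is outside of the window** -/
theorem wo_off {n : ℕ} (hn : 0 < n) {A B : ℝ} (hA : 0 < A) (hA' : A ≤ 12 * et n)
    (hB : B ≤ 100 * et n) (l : ℤ) : Disjoint (Rall A B (100 * et n) (Wo n))
      (Metric.closedBall (cen (100 * et n) (Wi n) l) (2 * (100 * et n))) := by
  rw [Set.disjoint_left]
  intro s hs hc
  obtain ⟨a, hs⟩ := mem_iUnion.1 hs
  have h0 := et_pos hn
  have h1 := sup_wo hn hA hB hs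
  have h2 := cen_wi hn l
  rw [Metric.mem_closedBall, dist_eq_norm] at hc
  have h3 := sup_tri (s - RingUx197.zB) (cen (100 * et n) (Wi n) l - RingUx197.zB)
  rw [sub_sub_sub_cancel_right] at h3
  rw [abs_lt] at h1 h2
  linarith

/-- the window is in the box -/
theorem win_box {n : ℕ} (hn : 24 ≤ n) {r : ℝ} (hr : 4 ≤ r) (l : ℤ) :
    Metric.closedBall (cen (100 * et n) (Wi n) l) (2 * (100 * et n)) ⊆ Metric.closedBall 0 r := by
  intro s hc
  have h0 := et_pos (show 0 < n by omega)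
  have h1 : ‖cen (100 * et n) (Wi n) l‖ ≤ 3 := ball_wi (A := 12 * et n) (B := 52 * et n)
    (by omega) (by linarith) le_rfl (by linarith) (cen_RR (by linarith) (by linarith) l)
  have h2 := et_le (show 12 ≤ n by omega)
  rw [Metric.mem_closedBall, dist_eq_norm] at hc
  rw [mem_closedBall_zero_iff]
  have h3 := norm_add_le (s - cen (100 * et n) (Wi n) l) (cen (100 * et n) (Wi n) l)
  rw [sub_add_cancel] at h3
  linarith

theorem ball_sq (c : ℂ) {r : ℝ} (hr : 0 < r) : Metric.closedBall c r ⊆ sq (c - ⟨2 * r, 2 * r⟩)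
    (4 * r) := by
  intro w hw
  rw [Metric.mem_closedBall, dist_eq_norm] at hw
  have h3 := (Complex.abs_re_le_norm (w - c)).trans hw
  have h4 := (Complex.abs_im_le_norm (w - c)).trans hw
  rw [Complex.sub_re, abs_le] at h3
  rw [Complex.sub_im, abs_le] at h4
  refine ⟨?_, ?_, ?_, ?_⟩ <;> simp only [Complex.sub_re, Complex.sub_im] <;> linarith

/-- the two regions are in the box -/
theorem rall_box {n : ℕ} (hn : 24 ≤ n) {r : ℝ} (hr : 3 ≤ r) (hA : 0 < A) (hA' : A ≤ 12 * et n)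
    (hB : B ≤ 100 * et n) :
    Rall A B (100 * et n) (Wi n) ⊆ Metric.closedBall 0 r ∧
      Rall A B (100 * et n) (Wo n) ⊆ Metric.closedBall 0 r := by
  refine ⟨iUnion_subset fun a s hs => ?_, iUnion_subset fun a s hs => ?_⟩
  · rw [mem_closedBall_zero_iff]
    exact (ball_wi (by omega) hA hA' hB hs).trans hr
  · rw [mem_closedBall_zero_iff]
    exact (ball_wo hn hA hA' hB hs).trans hr

/-- the two regions are disjoint -/
theorem rall_dis {n : ℕ} (hn : 0 < n) (hA : 0 < A) (hA' : A ≤ 12 * et n)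
    (hB : B ≤ 100 * et n) :
    Disjoint (Rall A B (100 * et n) (Wi n)) (Rall A B (100 * et n) (Wo n)) := by
  rw [Set.disjoint_left]
  intro s h1 h2
  obtain ⟨a, h1⟩ := mem_iUnion.1 h1
  obtain ⟨b, h2⟩ := mem_iUnion.1 h2
  have h3 := sup_wi hn hA hB h1
  have h4 := sup_wo hn hA hB h2
  have h0 := et_pos hn
  rw [abs_lt] at h3 h4
  linarith

end off

/-! ### gates and tiles which meet a set -/

section meet

variable {M : ℕ} {W : ℤ → ℤ × ℤ} (A B h : ℝ) (W) (U : Set ℂ) [Fintype (ZMod M)]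

/-- gates whose box meets `U` -/
def IM : Finset (ZMod M) := Finset.univ.filter fun i => (GB A B h W (PthFx765.zc i) ∩ U).Nonempty

/-- tiles whose region meets `U` -/
def JM : Finset (ZMod M) := Finset.univ.filter fun k => (RR A B h W (PthFx765.zc k) ∩ U).Nonempty

variable {A B h W U} {ε : ℝ} {T : Tpl ε (Tn × Bool)}

theorem mem_IM {i : ZMod M} : i ∈ IM A B h W U ↔ (GB A B h W (PthFx765.zc i) ∩ U).Nonempty := by
  unfold IM
  simp

theorem mem_JM {k : ZMod M} : k ∈ JM A B h W U ↔ (RR A B h W (PthFx765.zc k) ∩ U).Nonempty := by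
  unfold JM
  simp

theorem im_jm (P : FPath M W) (hA : 0 < A) (hB : B ≤ h) :
    (IM A B h W U : Finset (ZMod M)) ⊆ JM A B h W U := fun i hi =>
  mem_JM.2 ((mem_IM.1 hi).mono (inter_subset_inter_left _ (GB_sub P hA hB _)))

/-- the region of a gate is in the tile before it -/
theorem gb_prev (P : FPath M W) (hA : 0 < A) (hB : B ≤ h) (k : ZMod M) :
    GB A B h W (PthFx765.zc (k + 1)) ⊆ RR A B h W (PthFx765.zc k) := by
  have hd : (M : ℤ) ∣ (PthFx765.zc k + 1) - PthFx765.zc (k + 1) := by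
    refine (ZMod.intCast_eq_intCast_iff_dvd_sub _ _ M).1 ?_
    push_cast
    rw [PthFx765.zc_cast, PthFx765.zc_cast]
  rw [← GB_dvd P hd]
  exact GB_sub' P hA hB _

theorem cl_meet (P : FPath M W) (hA : 0 < A) (hB : B ≤ h) :
    Cl (IM A B h W U : Finset (ZMod M)) (JM A B h W U) := by
  intro k hk
  refine ⟨fun h => hk (im_jm P hA hB h), fun h => hk (mem_JM.2 ?_)⟩
  exact (mem_IM.1 h).mono (inter_subset_inter_left _ (gb_prev P hA hB k))

theorem Cl.union {I J I' J' : Finset (ZMod M)} (H : Cl I J) (H' : Cl I' J') :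
    Cl (I ∪ I') (J ∪ J') := by
  intro k hk
  rw [Finset.mem_union, not_or] at hk
  have h1 := H k hk.1
  have h2 := H' k hk.2
  simp only [Finset.mem_union, not_or]
  exact ⟨⟨h1.1, h2.1⟩, ⟨h1.2, h2.2⟩⟩

/-- **the region off the gates and tiles which meet `U` is disjoint from `U`** -/
theorem rI_meet (P : FPath M W) (Hs : Std T A B h Prod.fst) (b : Bool) {I J : Finset (ZMod M)}
    (hI : IM A B h W U ⊆ I) (hJ : JM A B h W U ⊆ J) : Disjoint (rI P Hs b I J) U := by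
  rw [Set.disjoint_left]
  intro s hs hU
  rcases hs with hs | hs
  · obtain ⟨i, hi, hs⟩ := mem_iUnion₂.1 hs
    refine (Finset.mem_sdiff.1 hi).2 (hI (mem_IM.2 ⟨s, ?_, hU⟩))
    have := net_B P Hs (rty_typ (M := M) (W := W) b) (PthFx765.zc i)
    rw [PthFx765.zc_cast] at this
    rw [← this]
    exact hs
  · obtain ⟨k, hk, hs⟩ := mem_iUnion₂.1 hs
    refine (Finset.mem_sdiff.1 hk).2 (hJ (mem_JM.2 ⟨s, ?_, hU⟩))
    have := net_C P Hs (rty_typ (M := M) (W := W) b) (PthFx765.zc k)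
    rw [PthFx765.zc_cast] at this
    have h2 : s ∈ TB A B h W (PthFx765.zc k) := by
      rw [← this]
      exact hs
    exact h2.1

/-- the number of lattice coordinates -/
theorem box_card (x : ℝ) (R : ℕ) : (Finset.Icc ⌈x - R⌉ ⌊x + R⌋).card ≤ 2 * R + 1 := by
  rw [Int.card_Icc]
  have h1 := Int.le_ceil (x - R)
  have h2 := Int.floor_le (x + R)
  have h3 : ((⌊x + R⌋ : ℤ) : ℝ) - ⌈x - R⌉ ≤ 2 * R := by linarith
  have h4 : ⌊x + R⌋ - ⌈x - R⌉ ≤ 2 * R := by exact_mod_cast h3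
  omega

/-- **the number of tiles which meet a ball** -/
theorem jm_card (P : FPath M W) (h0 : 0 < h) (hB0 : 0 ≤ B) (hAB : A + B ≤ h) {c : ℂ} {R : ℕ}
    (hU : U ⊆ Metric.closedBall c (R * h)) :
    (JM A B h W U : Finset (ZMod M)).card ≤ (2 * R + 3) ^ 2 := by
  have key : ∀ k ∈ (JM A B h W U : Finset (ZMod M)), W (PthFx765.zc k) ∈
      Finset.Icc ⌈c.re / h - (R + 1 : ℕ)⌉ ⌊c.re / h + (R + 1 : ℕ)⌋ ×ˢ
        Finset.Icc ⌈c.im / h - (R + 1 : ℕ)⌉ ⌊c.im / h + (R + 1 : ℕ)⌋ := by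
    intro k hk
    obtain ⟨s, hs, hsU⟩ := mem_JM.1 hk
    have hc := hU hsU
    rw [Metric.mem_closedBall, dist_eq_norm] at hc
    obtain ⟨w, hw, -, ht⟩ := mem_RR P hs
    obtain ⟨τ, t0, t1, t2, t3⟩ := FineDx576.arm_pt hB0 hw ht
    rw [FineDx576.cen_re] at t2
    rw [FineDx576.cen_im] at t3
    have hu : |(τ * w.1 : ℝ)| ≤ B ∧ |(τ * w.2 : ℝ)| ≤ B := by
      rcases hw with rfl | rfl | rfl | rfl <;> simp [abs_of_nonneg t0, t1, hB0]
    have c1 := (Complex.abs_re_le_norm _).trans hc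
    have c2 := (Complex.abs_im_le_norm _).trans hc
    rw [Complex.sub_re] at c1
    rw [Complex.sub_im] at c2
    have one : ∀ (x y τ' : ℝ) (q : ℤ), |x - (h * q + τ')| ≤ A → |τ'| ≤ B → |x - y| ≤ R * h →
        q ∈ Finset.Icc ⌈y / h - (R + 1 : ℕ)⌉ ⌊y / h + (R + 1 : ℕ)⌋ := by
      intro x y τ' q h1 h2 h3
      rw [abs_le] at h1 h2 h3
      rw [Finset.mem_Icc, Int.ceil_le, Int.le_floor]
      push_cast
      have e1 : y - (R + 1) * h ≤ h * q := by linarith
      have e2 : h * q ≤ y + (R + 1) * h := by linarith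
      constructor
      · rw [sub_le_iff_le_add, div_le_iff₀ h0]
        linarith
      · rw [← sub_le_iff_le_add, le_div_iff₀ h0]
        linarith
    exact Finset.mem_product.2 ⟨one _ _ _ _ t2 hu.1 c1, one _ _ _ _ t3 hu.2 c2⟩
  have inj : Set.InjOn (fun k : ZMod M => W (PthFx765.zc k))
      (JM A B h W U : Finset (ZMod M)) := by
    intro k _ k' _ hkk
    have h1 := P.simple _ _ hkk
    have h2 := cast_dvd h1
    rw [PthFx765.zc_cast, PthFx765.zc_cast] at h2
    exact h2.symm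
  refine (Finset.card_le_card_of_injOn _ key inj).trans ?_
  rw [Finset.card_product, pow_two]
  have e1 := box_card (c.re / h) (R + 1)
  have e2 := box_card (c.im / h) (R + 1)
  exact Nat.mul_le_mul (e1.trans (by omega)) (e2.trans (by omega))

end meet

/-! ### 126's `WinM` on the names of the family -/

section fam

variable {A B h ε : ℝ} {T : Tpl ε (Tn × Bool)} {n : ℕ}
  [Fintype (ZMod (4 * (n + 2)))] [Fintype (ZMod (4 * (n + 22)))]

/-- **`WinM` FOR THE WEIGHT OFF THE WINDOW OF THE TILE `l`** : the dropped sets `I₁`, `J₁` of the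
ring contain the gates `l - 2 .. l + 3` and the tiles `l - 3 .. l + 3`, `I₂`, `J₂` any closed sets -/
theorem winM_fam (hn : 24 ≤ n) (hh : h = 100 * et n) (hA : A ≤ 12 * et n) (hB : B ≤ 55 * et n)
    (P : FPath (4 * (n + 2)) (Wi n)) (P' : FPath (4 * (n + 22)) (Wo n))
    (Hs : Std T A B h Prod.fst) {Rr : ℝ} (hRr : 4 ≤ Rr) {Ui Uo : Set ℂ} {F e : Cf → ℝ≥0∞}
    {Kw : ℝ≥0∞} (H : WD ε (Metric.closedBall 0 (Rr + 1)) Ui Uo (gO P Hs true) (gO P' Hs false) F e
      Kw) {l : ℤ} {I₁ J₁ : Finset (ZMod (4 * (n + 2)))} {I₂ J₂ : Finset (ZMod (4 * (n + 22)))}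
    (h7 : I7 _ l ⊆ I₁) (j7 : J7 _ l ⊆ J₁) (H₁ : Cl I₁ J₁) (H₂ : Cl I₂ J₂) {cc ca : ℝ}
    (hcc : 0 < cc) (hca : 0 < ca) (hcc1 : cc ≤ 1) (hca1 : ca ≤ 1) (h1 : ENNReal.ofReal cc ≤ T.c)
    (h2 : ENNReal.ofReal ca ≤ ∫⁻ ω, T.A (cfg ε ω) ∂sampleLaw) {i j : ℕ}
    (hi : I₁.card + I₂.card ≤ i) (hj : J₁.card + J₂.card ≤ j) {d : ℝ} {D : Set ℂ}
    (Dm : MeasurableSet D) (hD : D ⊆ Metric.closedBall (cen h (Wi n) l) (2 * h - d)) :
    WinM ε (Metric.closedBall 0 (Rr + 1)) (8 * h) d (ENNReal.ofReal (cW cc ca i j) * (2 * Kw *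
      Mg ε (Metric.closedBall 0 (Rr + 1)) (wt (Metric.closedBall 0 (Rr + 1)) (gO P Hs true)
        (gO P' Hs false) F e)))
      (cen h (Wi n) l - ⟨4 * h, 4 * h⟩) D (Metric.closedBall (cen h (Wi n) l) (2 * h))
      (rOff P P' Hs I₁ J₁ I₂ J₂) (gOff P P' Hs I₁ J₁ I₂ J₂) := by
  have e0 := et_pos (show 0 < n by omega)
  have hB' : B ≤ 100 * et n := by linarith
  subst hh
  obtain ⟨r1, r2⟩ := rall_box (A := A) (B := B) hn (r := Rr + 1) (by linarith) Hs.hA hA hB'
  refine winM P P' Hs H (rall_dis (by omega) Hs.hA hA hB') r1 r2 H₁ H₂ hcc hca hcc1 hca1 h1 h2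
    hi hj Dm Metric.isClosed_closedBall.measurableSet (win_box hn (by linarith) l) ?_ ?_
    (rI_off (by omega) P Hs true (by linarith) (by linarith) (by linarith) h7 j7)
    ((wo_off (by omega) Hs.hA hA hB' l).mono_left (rI_sub P' Hs false))
  · have := ball_sq (cen (100 * et n) (Wi n) l) (r := 2 * (100 * et n)) (by linarith)
    rw [show 2 * (2 * (100 * et n)) = 4 * (100 * et n) by ring,
      show 4 * (2 * (100 * et n)) = 8 * (100 * et n) by ring] at this
    exact this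
  · intro o ho s hs
    have h3 := hD ho
    rw [Metric.mem_closedBall] at h3 hs ⊢
    linarith [dist_triangle s o (cen (100 * et n) (Wi n) l)]

/-- **the window of the tile `l`, nothing else dropped** -/
theorem winM_one (hn : 24 ≤ n) (hh : h = 100 * et n) (hA : A ≤ 12 * et n) (hB : B ≤ 55 * et n)
    (P : FPath (4 * (n + 2)) (Wi n)) (P' : FPath (4 * (n + 22)) (Wo n))
    (Hs : Std T A B h Prod.fst) {Rr : ℝ} (hRr : 4 ≤ Rr) {Ui Uo : Set ℂ} {F e : Cf → ℝ≥0∞}
    {Kw : ℝ≥0∞} (H : WD ε (Metric.closedBall 0 (Rr + 1)) Ui Uo (gO P Hs true) (gO P' Hs false) F e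
      Kw) (l : ℤ) {cc ca : ℝ}
    (hcc : 0 < cc) (hca : 0 < ca) (hcc1 : cc ≤ 1) (hca1 : ca ≤ 1) (h1 : ENNReal.ofReal cc ≤ T.c)
    (h2 : ENNReal.ofReal ca ≤ ∫⁻ ω, T.A (cfg ε ω) ∂sampleLaw) {d : ℝ} {D : Set ℂ}
    (Dm : MeasurableSet D) (hD : D ⊆ Metric.closedBall (cen h (Wi n) l) (2 * h - d)) :
    WinM ε (Metric.closedBall 0 (Rr + 1)) (8 * h) d (ENNReal.ofReal (cW cc ca 6 7) * (2 * Kw *
      Mg ε (Metric.closedBall 0 (Rr + 1)) (wt (Metric.closedBall 0 (Rr + 1)) (gO P Hs true)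
        (gO P' Hs false) F e)))
      (cen h (Wi n) l - ⟨4 * h, 4 * h⟩) D (Metric.closedBall (cen h (Wi n) l) (2 * h))
      (rOff P P' Hs (I7 _ l) (J7 _ l) ∅ ∅) (gOff P P' Hs (I7 _ l) (J7 _ l) ∅ ∅) :=
  winM_fam hn hh hA hB P P' Hs hRr H subset_rfl subset_rfl (cl7 l) cl_empty hcc hca hcc1 hca1 h1
    h2 (by simpa using i7_card l) (by simpa using j7_card l) Dm hD

/-- number of dropped gates of the two nets -/
def nI (R : ℕ) : ℕ := 6 + 2 * (2 * R + 3) ^ 2

/-- number of dropped tiles of the two nets -/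
def nJ (R : ℕ) : ℕ := 7 + 2 * (2 * R + 3) ^ 2

/-- **THE WINDOW OF THE TILE `l` AND THE ARM BOX `U`** : all gates and tiles of both nets which meet
`U` are dropped too -/
theorem winM_arm (hn : 24 ≤ n) (hh : h = 100 * et n) (hA : A ≤ 12 * et n) (hB : B ≤ 55 * et n)
    (P : FPath (4 * (n + 2)) (Wi n)) (P' : FPath (4 * (n + 22)) (Wo n))
    (Hs : Std T A B h Prod.fst) {Rr : ℝ} (hRr : 4 ≤ Rr) {Ui Uo : Set ℂ} {F e : Cf → ℝ≥0∞}
    {Kw : ℝ≥0∞} (H : WD ε (Metric.closedBall 0 (Rr + 1)) Ui Uo (gO P Hs true) (gO P' Hs false) F e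
      Kw) (l : ℤ) {U : Set ℂ} {c : ℂ} {R : ℕ} (hU : U ⊆ Metric.closedBall c (R * h)) {cc ca : ℝ}
    (hcc : 0 < cc) (hca : 0 < ca) (hcc1 : cc ≤ 1) (hca1 : ca ≤ 1) (h1 : ENNReal.ofReal cc ≤ T.c)
    (h2 : ENNReal.ofReal ca ≤ ∫⁻ ω, T.A (cfg ε ω) ∂sampleLaw) {d : ℝ} {D : Set ℂ}
    (Dm : MeasurableSet D) (hD : D ⊆ Metric.closedBall (cen h (Wi n) l) (2 * h - d)) :
    WinM ε (Metric.closedBall 0 (Rr + 1)) (8 * h) d
      (ENNReal.ofReal (cW cc ca (nI R) (nJ R)) * (2 * Kw *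
      Mg ε (Metric.closedBall 0 (Rr + 1)) (wt (Metric.closedBall 0 (Rr + 1)) (gO P Hs true)
        (gO P' Hs false) F e)))
      (cen h (Wi n) l - ⟨4 * h, 4 * h⟩) D (Metric.closedBall (cen h (Wi n) l) (2 * h))
      (rOff P P' Hs (I7 _ l ∪ IM A B h (Wi n) U) (J7 _ l ∪ JM A B h (Wi n) U)
        (IM A B h (Wo n) U) (JM A B h (Wo n) U))
      (gOff P P' Hs (I7 _ l ∪ IM A B h (Wi n) U) (J7 _ l ∪ JM A B h (Wi n) U)
        (IM A B h (Wo n) U) (JM A B h (Wo n) U)) := by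
  have e0 := et_pos (show 0 < n by omega)
  have hB0 : 0 ≤ B := (Hs.hA.trans_le Hs.hAB).le
  have hAB : A + B ≤ h := by rw [hh]; linarith
  have h0 : 0 < h := by rw [hh]; linarith
  have k1 := jm_card P h0 hB0 hAB hU
  have k2 := jm_card P' h0 hB0 hAB hU
  have k3 := (Finset.card_le_card (im_jm (U := U) P Hs.hA Hs.hB)).trans k1
  have k4 := (Finset.card_le_card (im_jm (U := U) P' Hs.hA Hs.hB)).trans k2
  refine winM_fam hn hh hA hB P P' Hs hRr H Finset.subset_union_left Finset.subset_union_left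
    (Cl.union (cl7 l) (cl_meet P Hs.hA Hs.hB)) (cl_meet P' Hs.hA Hs.hB) hcc hca hcc1 hca1 h1 h2
    ?_ ?_ Dm hD
  · have := Finset.card_union_le (I7 (4 * (n + 2)) l) (IM A B h (Wi n) U)
    have := i7_card (M := 4 * (n + 2)) l
    unfold nI
    omega
  · have := Finset.card_union_le (J7 (4 * (n + 2)) l) (JM A B h (Wi n) U)
    have := j7_card (M := 4 * (n + 2)) l
    unfold nJ
    omega

/-- the region of the weight off the window and the arm box is disjoint from the arm box -/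
theorem rOff_arm (P : FPath (4 * (n + 2)) (Wi n)) (P' : FPath (4 * (n + 22)) (Wo n))
    (Hs : Std T A B h Prod.fst) (l : ℤ) (U : Set ℂ) :
    Disjoint (rOff P P' Hs (I7 _ l ∪ IM A B h (Wi n) U) (J7 _ l ∪ JM A B h (Wi n) U)
      (IM A B h (Wo n) U) (JM A B h (Wo n) U)) U :=
  disjoint_union_left.2 ⟨rI_meet P Hs true Finset.subset_union_right Finset.subset_union_right,
    rI_meet P' Hs false subset_rfl subset_rfl⟩

/-- the same for a smaller weight `go`, local on a region off the window -/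
theorem winM_fam' (hn : 24 ≤ n) (hh : h = 100 * et n) (hA : A ≤ 12 * et n) (hB : B ≤ 55 * et n)
    (P : FPath (4 * (n + 2)) (Wi n)) (P' : FPath (4 * (n + 22)) (Wo n))
    (Hs : Std T A B h Prod.fst) {Rr : ℝ} (hRr : 4 ≤ Rr) {Ui Uo : Set ℂ} {F e : Cf → ℝ≥0∞}
    {Kw : ℝ≥0∞} (H : WD ε (Metric.closedBall 0 (Rr + 1)) Ui Uo (gO P Hs true) (gO P' Hs false) F e
      Kw) {l : ℤ} {I₁ J₁ : Finset (ZMod (4 * (n + 2)))} {I₂ J₂ : Finset (ZMod (4 * (n + 22)))}
    (H₁ : Cl I₁ J₁) (H₂ : Cl I₂ J₂) {cc ca : ℝ}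
    (hcc : 0 < cc) (hca : 0 < ca) (hcc1 : cc ≤ 1) (hca1 : ca ≤ 1) (h1 : ENNReal.ofReal cc ≤ T.c)
    (h2 : ENNReal.ofReal ca ≤ ∫⁻ ω, T.A (cfg ε ω) ∂sampleLaw) {i j : ℕ}
    (hi : I₁.card + I₂.card ≤ i) (hj : J₁.card + J₂.card ≤ j) {d : ℝ} {D : Set ℂ}
    (Dm : MeasurableSet D) (hD : D ⊆ Metric.closedBall (cen h (Wi n) l) (2 * h - d))
    {U : Set ℂ} {go : Cf → ℝ≥0∞} (Um : MeasurableSet U) (UB : U ⊆ Metric.closedBall 0 (Rr + 1))
    (dis : Disjoint U (Metric.closedBall (cen h (Wi n) l) (2 * h))) (loc : LocalOn U go)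
    (fm : FM go) (hle : ∀ X : Cf, X.Finite → go X ≤ gOff P P' Hs I₁ J₁ I₂ J₂ X) :
    WinM ε (Metric.closedBall 0 (Rr + 1)) (8 * h) d (ENNReal.ofReal (cW cc ca i j) * (2 * Kw *
      Mg ε (Metric.closedBall 0 (Rr + 1)) (wt (Metric.closedBall 0 (Rr + 1)) (gO P Hs true)
        (gO P' Hs false) F e)))
      (cen h (Wi n) l - ⟨4 * h, 4 * h⟩) D (Metric.closedBall (cen h (Wi n) l) (2 * h)) U go := by
  have e0 := et_pos (show 0 < n by omega)
  have hB' : B ≤ 100 * et n := by linarith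
  subst hh
  obtain ⟨r1, r2⟩ := rall_box (A := A) (B := B) hn (r := Rr + 1) (by linarith) Hs.hA hA hB'
  refine winM' P P' Hs H (rall_dis (by omega) Hs.hA hA hB') r1 r2 H₁ H₂ hcc hca hcc1 hca1 h1 h2
    hi hj Dm Metric.isClosed_closedBall.measurableSet (win_box hn (by linarith) l) ?_ ?_ Um UB dis
    loc fm hle
  · have := ball_sq (cen (100 * et n) (Wi n) l) (r := 2 * (100 * et n)) (by linarith)
    rw [show 2 * (2 * (100 * et n)) = 4 * (100 * et n) by ring,
      show 4 * (2 * (100 * et n)) = 8 * (100 * et n) by ring] at this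
    exact this
  · intro o ho s hs
    have h3 := hD ho
    rw [Metric.mem_closedBall] at h3 hs ⊢
    linarith [dist_triangle s o (cen (100 * et n) (Wi n) l)]

end fam

end Crest.Agent.R143.WinOx348
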