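import Crest.Agent.R143.SqG_503

/-!
# Row 143 (S0194), block H: the windows of the square ring (helper503)

`K = (w + 8) m1`, `4 m1` windows of `w` tiles, gap of `8` tiles, the corners are in the middle of gaps.
Walk order: tile `k` = tile `w + 4 - k` of `W = sqW K + v` (base gate `o = w + 5`); window `i` =
tiles `(w + 8) i + j`, `0 ≤ j < w`.
* `win_side` : the window `i` with three more tiles on each side is on one side of the square
* `WD` : side `r` and index `i'` of the window; `c0` : centre of the window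
* **`off_sec`** : the tiles off the window miss its sector
-/

set_option autoImplicit false

noncomputable section

open scoped Classical

namespace Crest.Agent.R143.WinQx503

open Crest.Agent.R143.ToolWx838 Crest.Agent.R143.CircPx838
open Crest.Agent.R143.Gatex838 (X Y)
open Crest.Agent.R143.TileRx228 Crest.Agent.R143.SqPx503 Crest.Agent.R143.RingBx312
open Crest.Agent.R143.RingCx312 (zc)
open Crest.Agent.R143.Stripx707 (Dir Sec)
open Crest.Agent.R143.SqGx503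

/-- side and position of the window `i` -/
structure WD (K w m1 : ℕ) (i : ℕ) (r : Fin 4) (i' : ℕ) : Prop where
  lt : i' < m1
  bi : ∀ j : ℤ, -3 ≤ j → j ≤ w + 2 →
    bi K r ((w + 4 : ℤ) - ((w + 8) * i + j)) = (w + 8) * i' + w + 4 - j

theorem win_side {K w m1 : ℕ} (hK : K = (w + 8) * m1) (m1p : 1 ≤ m1) {i : ℕ} (hi : i < 4 * m1) :
    ∃ (r : Fin 4) (i' : ℕ), WD K w m1 i r i' := by
  obtain ⟨p, q, h3, h2, h1⟩ : ∃ p q : ℕ, p < 4 ∧ q < m1 ∧ i = m1 * p + q :=
    ⟨i / m1, i % m1, Nat.div_lt_of_lt_mul (by omega), Nat.mod_lt _ (by omega),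
      (Nat.div_add_mod i m1).symm⟩
  have hKz : (K : ℤ) = (w + 8) * m1 := by rw [hK]; push_cast; ring
  have h1' : (i : ℤ) = m1 * p + q := by rw [h1]; push_cast; ring
  -- the residue
  have key : ∀ (r : Fin 4) (b a t : ℤ), 0 ≤ b → b < 4 * K →
      a - (r : ℕ) * K = b + 4 * K * t → SqGx503.bi K r a = b := by
    intro r b a t h0 h4 e
    unfold SqGx503.bi
    rw [e, Int.add_mul_emod_self_left]
    exact Int.emod_eq_of_lt h0 h4
  have hw : ((w : ℤ) + 8) ≤ K := by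
    rw [hKz]
    have : (1 : ℤ) ≤ m1 := by exact_mod_cast m1p
    nlinarith
  rcases Nat.eq_zero_or_pos q with hq0 | hq0
  · -- the first window of a side
    have e : ((w : ℤ) + 8) * i = K * p := by
      rw [h1', hq0, hKz]
      push_cast
      ring
    have g0 : ∀ j : ℤ, -3 ≤ j → j ≤ w + 2 → (0 : ℤ) ≤ (w + 8) * ((0 : ℕ) : ℤ) + w + 4 - j ∧
        ((w : ℤ) + 8) * ((0 : ℕ) : ℤ) + w + 4 - j < 4 * K := by
      intro j h4 h5
      rw [Nat.cast_zero, mul_zero]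
      omega
    interval_cases p
    · refine ⟨0, 0, m1p, fun j hj1 hj2 => key _ _ _ 0 (g0 j hj1 hj2).1 (g0 j hj1 hj2).2 ?_⟩
      rw [e]; push_cast; simp
    · refine ⟨3, 0, m1p, fun j hj1 hj2 => key _ _ _ (-1) (g0 j hj1 hj2).1 (g0 j hj1 hj2).2 ?_⟩
      rw [e]; push_cast; simp; ring
    · refine ⟨2, 0, m1p, fun j hj1 hj2 => key _ _ _ (-1) (g0 j hj1 hj2).1 (g0 j hj1 hj2).2 ?_⟩
      rw [e]; push_cast; simp; ring
    · refine ⟨1, 0, m1p, fun j hj1 hj2 => key _ _ _ (-1) (g0 j hj1 hj2).1 (g0 j hj1 hj2).2 ?_⟩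
      rw [e]; push_cast; simp; ring
  · have hmq : ((m1 - q : ℕ) : ℤ) = m1 - q := by rw [Nat.cast_sub h2.le]
    have b1 : (w + 8 : ℤ) * (m1 - q) + (w + 8) * q = K := by rw [hKz]; ring
    have b2 : (w + 8 : ℤ) * 1 ≤ (w + 8) * q :=
      mul_le_mul_of_nonneg_left (by omega) (by omega)
    have b3 : (w + 8 : ℤ) * 1 ≤ (w + 8) * (m1 - q) :=
      mul_le_mul_of_nonneg_left (by omega) (by omega)
    have e : ((w : ℤ) + 8) * i = K * p + (w + 8) * q := by rw [h1', hKz]; ring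
    have g0 : ∀ j : ℤ, -3 ≤ j → j ≤ w + 2 → (0 : ℤ) ≤ (w + 8) * ((m1 - q : ℕ) : ℤ) + w + 4 - j ∧
        ((w : ℤ) + 8) * ((m1 - q : ℕ) : ℤ) + w + 4 - j < 4 * K := by
      intro j h4 h5
      rw [hmq]
      omega
    have hlt : m1 - q < m1 := by omega
    interval_cases p
    · refine ⟨3, m1 - q, hlt, fun j hj1 hj2 => key _ _ _ (-1) (g0 j hj1 hj2).1 (g0 j hj1 hj2).2 ?_⟩
      rw [e, hmq]; push_cast; simp; linarith
    · refine ⟨2, m1 - q, hlt, fun j hj1 hj2 => key _ _ _ (-1) (g0 j hj1 hj2).1 (g0 j hj1 hj2).2 ?_⟩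
      rw [e, hmq]; push_cast; simp; linarith
    · refine ⟨1, m1 - q, hlt, fun j hj1 hj2 => key _ _ _ (-1) (g0 j hj1 hj2).1 (g0 j hj1 hj2).2 ?_⟩
      rw [e, hmq]; push_cast; simp; linarith
    · refine ⟨0, m1 - q, hlt, fun j hj1 hj2 => key _ _ _ (-1) (g0 j hj1 hj2).1 (g0 j hj1 hj2).2 ?_⟩
      rw [e, hmq]; push_cast; simp; linarith

variable {h A B t0 : ℝ} {K w m1 : ℕ} {v : ℤ × ℤ} {W : ℤ → ℤ × ℤ} {i i' : ℕ} {r : Fin 4}

/-- the centre of the window, in the coordinate `Y` of its side -/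
def c0 (h : ℝ) (K w i' : ℕ) : ℝ := h * ((w + 8) * i' + 5 + (w - 1) / 2) - h * K / 2

/-- **the tiles off the window miss its sector** -/
theorem off_sec (hK : K = (w + 8) * m1) (D : WD K w m1 i r i') (hW : ∀ a, W a = sqW K a + v)
    (F : FPath (4 * K) W) (hh : 0 < h) (hA : 0 < A) (hAB : A ≤ B) (hB : B ≤ h)
    (ht : t0 + B ≤ h * K) {k : ℕ} (hk : k < 4 * K - w) {z : ℂ}
    (hz : z ∈ RR A B h W ((w + 5 : ℤ) - 1 - (((w + 8) * i + w + k : ℕ) : ℤ))) :
    ¬ Sec (us r) (zc h K v) (h * K / 2) t0 (c0 h K w i') (h * (w - 1) / 2) z := by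
  rintro ⟨hX, hY⟩
  rw [abs_le] at hY
  have hi' := D.lt
  have hK1 : 1 ≤ K := by
    rw [hK]
    exact Nat.one_le_iff_ne_zero.2 (Nat.mul_ne_zero (by omega) (by omega))
  have hKz : (K : ℤ) = (w + 8) * m1 := by rw [hK]; push_cast; ring
  have hKi : ((w : ℤ) + 8) * i' + (w + 8) ≤ K := by
    rw [hKz]
    have : (i' : ℤ) + 1 ≤ m1 := by exact_mod_cast hi'
    nlinarith
  have hKr : ((w : ℝ) + 8) * i' + (w + 8) ≤ K := by exact_mod_cast hKi
  have hi0 : (0 : ℝ) ≤ ((w : ℝ) + 8) * i' := by positivity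
  have hw0 : (0 : ℝ) ≤ w := by positivity
  have hy0 : h * ((w + 8) * i' + 5) ≤ Y (zc h K v) (us r) z + h * K / 2 := by
    have := hY.1
    unfold c0 at this
    linarith
  have hy1 : Y (zc h K v) (us r) z + h * K / 2 ≤ h * ((w + 8) * i' + w + 4) := by
    have := hY.2
    unfold c0 at this
    linarith
  obtain ⟨b1, b2, b3⟩ := tile_sec hK1 hW F hA hAB (t0 := t0) (y0 := h * ((w + 8) * i' + 5))
    (y1 := h * ((w + 8) * i' + w + 4)) (by nlinarith) (by nlinarith) ht r hz hX hy0 hy1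
  set b := bi K r ((w + 5 : ℤ) - 1 - (((w + 8) * i + w + k : ℕ) : ℤ)) with hb
  -- the index of the tile
  have c1 : ((w : ℤ) + 8) * i' + 5 ≤ b := by
    by_contra hc
    push Not at hc
    have : (b : ℝ) + 1 ≤ (w + 8) * i' + 5 := by exact_mod_cast hc
    nlinarith
  have c2 : b ≤ ((w : ℤ) + 8) * i' + w + 4 := by
    by_contra hc
    push Not at hc
    have : ((w : ℝ) + 8) * i' + w + 4 + 1 ≤ b := by exact_mod_cast hc
    nlinarith
  -- the same tile in the window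
  set j : ℤ := (w + 8) * i' + w + 4 - b with hj
  have d1 := D.bi j (by omega) (by omega)
  have d2 : SqGx503.bi K r ((w + 4 : ℤ) - ((w + 8) * i + j)) = b := by rw [d1, hj]; ring
  rw [hb] at d2
  unfold SqGx503.bi at d2
  have d3 := Int.emod_emod_of_dvd ((w + 4 : ℤ) - ((w + 8) * i + j) - (r : ℕ) * K)
    (dvd_refl (4 * K : ℤ))
  have d4 : (4 * K : ℤ) ∣ ((w + 4 : ℤ) - ((w + 8) * i + j) - (r : ℕ) * K) -
      ((w + 5 : ℤ) - 1 - (((w + 8) * i + w + k : ℕ) : ℤ) - (r : ℕ) * K) :=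
    Int.ModEq.dvd (show _ ≡ _ [ZMOD (4 * K : ℤ)] from d2.symm)
  have e1 : ((w + 4 : ℤ) - ((w + 8) * i + j) - (r : ℕ) * K) -
      ((w + 5 : ℤ) - 1 - (((w + 8) * i + w + k : ℕ) : ℤ) - (r : ℕ) * K) = w + k - j := by
    push_cast
    ring
  rw [e1] at d4
  have h4 := Int.le_of_dvd (by omega) d4
  omega

end Crest.Agent.R143.WinQx503
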