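import Crest.Agent.R143.NonX_592
import Crest.Agent.R143.Lobe_565

/-!
# Row 143 (S0194): windows, exact splitting of a closed strand (helper228)

A loop is cut (cyclically) by cut times `t j` in arcs `[t j, t (j + 1))`; hypothesis `Adj`: a left
cell occurs only in the same arc or in two neighbouring arcs (double gates of transversal chains).

* `Main` : no left cell occurs before and after the gap inside a window of two neighbouring arcs
* `main_rel`, `rel_main` : the main gaps form one class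
* `split` : the sum over the main gaps is a sum of functions of (gate, arc, gate) and of functions
  of the gates (`noncross` makes the two kinds of straddling lobes of a gate disjoint)
* `blk_main` : the block of a main gap, for the loops of a `CMap`
-/

set_option autoImplicit false

noncomputable section

open scoped Classical

namespace Crest.Agent.R143.Winx228

/-! ### cyclic sequences -/

section cyc

variable {C : Type} {f : ℤ → C} {N : ℤ} {n : ℤ} {t : ℤ → ℤ}

/-- cut times of a cyclic sequence of period `N`, `n` arcs -/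
structure Cut (N n : ℤ) (t : ℤ → ℤ) : Prop where
  mono : Monotone t
  per : ∀ j, t (j + n) = t j + N
  pos : 0 < N
  four : 4 ≤ n

/-- equal cells occur only in neighbouring arcs -/
def Adj (f : ℤ → C) (N : ℤ) (t : ℤ → ℤ) : Prop :=
  ∀ u v, u ≤ v → v < u + N → f u = f v →
    (∃ j, t j ≤ u ∧ v < t (j + 2)) ∨ ∃ j, t j ≤ v ∧ u + N < t (j + 2)

/-- the gap between the times `a` and `a + 1` is not in a lobe of a window -/
def Main (f : ℤ → C) (t : ℤ → ℤ) (a : ℤ) : Prop :=
  ∀ j s s', t j ≤ s → s ≤ a → a < s' → s' < t (j + 2) → f s ≠ f s'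

/-- the relation of the gaps `a < b < a + N` -/
def Rl (f : ℤ → C) (N a b : ℤ) : Prop :=
  ∀ s s', a < s → s ≤ b → b < s' → s' ≤ a + N → f s ≠ f s'

theorem Cut.win (T : Cut N n t) (j : ℤ) : t (j + 2) ≤ t j + N := by
  rw [← T.per j]
  exact T.mono (by have := T.four; omega)

/-- `Main` is periodic -/
theorem main_per (T : Cut N n t) (hf : ∀ u, f (u + N) = f u) (a : ℤ) :
    Main f t (a + N) ↔ Main f t a := by
  constructor
  · intro H j s s' h1 h2 h3 h4
    rw [← hf s, ← hf s']
    refine H (j + n) _ _ ?_ (by omega) (by omega) ?_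
    · rw [T.per]; omega
    · rw [show j + n + 2 = j + 2 + n by omega, T.per]; omega
  · intro H j s s' h1 h2 h3 h4
    have e1 := T.per (j - n)
    have e2 := T.per (j - n + 2)
    rw [show j - n + n = j by omega] at e1
    rw [show j - n + 2 + n = j + 2 by omega] at e2
    have h5 := H (j - n) (s - N) (s' - N) (by omega) (by omega) (by omega) (by omega)
    rwa [← hf (s - N), ← hf (s' - N), show s - N + N = s by omega,
      show s' - N + N = s' by omega] at h5

/-- main gaps are related -/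
theorem main_rel (T : Cut N n t) (hf : ∀ u, f (u + N) = f u) (A : Adj f N t) {a b : ℤ}
    (ha : Main f t a) (hb : Main f t b) : Rl f N a b := by
  intro s s' h1 h2 h3 h4 e
  rcases A s s' (by omega) (by omega) e with ⟨j, g1, g2⟩ | ⟨j, g1, g2⟩
  · exact hb j s s' g1 h2 h3 g2 e
  · have h5 := (main_per T hf a).2 ha
    refine h5 j s' (s + N) g1 h4 (by omega) g2 ?_
    rw [hf, e]

/-- a gap which is related to a main gap is main -/
theorem rel_main (T : Cut N n t) (hf : ∀ u, f (u + N) = f u) {a b : ℤ} (hab : a < b)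
    (hbN : b < a + N) (H : Rl f N a b) (ha : Main f t a) : Main f t b := by
  intro j s s' h1 h2 h3 h4 e
  have hw := T.win j
  by_cases c1 : a < s
  · by_cases c2 : s' ≤ a + N
    · exact H s s' c1 h2 h3 c2 e
    · exact ((main_per T hf a).2 ha) j s s' h1 (by omega) (by omega) h4 e
  · exact ha j s s' h1 (by omega) (by omega) h4 e

theorem rel_main' (T : Cut N n t) (hf : ∀ u, f (u + N) = f u) {a b : ℤ} (hab : a < b)
    (hbN : b < a + N) (H : Rl f N a b) (hb : Main f t b) : Main f t a := by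
  have H' : Rl f N b (a + N) := by
    intro s s' h1 h2 h3 h4 e
    have h5 := H (s' - N) s (by omega) (by omega) h1 h2
    refine h5 ?_
    rw [← hf (s' - N), show s' - N + N = s' by omega, e]
  exact (main_per T hf a).1 (rel_main T hf (by omega) (by omega) H' hb)

/-! ### the parts of `Main` -/

/-- a lobe inside the arc `j` -/
def R0 (f : ℤ → C) (t : ℤ → ℤ) (j a : ℤ) : Prop :=
  ∃ s s', t j ≤ s ∧ s ≤ a ∧ a < s' ∧ s' < t (j + 1) ∧ f s = f s'

/-- a lobe from the arc `j - 1` to the arc `j` -/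
def RL (f : ℤ → C) (t : ℤ → ℤ) (j a : ℤ) : Prop :=
  ∃ s s', t (j - 1) ≤ s ∧ s < t j ∧ a < s' ∧ s' < t (j + 1) ∧ f s = f s'

/-- a lobe from the arc `j` to the arc `j + 1` -/
def RR (f : ℤ → C) (t : ℤ → ℤ) (j a : ℤ) : Prop :=
  ∃ s s', t j ≤ s ∧ s ≤ a ∧ t (j + 1) ≤ s' ∧ s' < t (j + 2) ∧ f s = f s'

/-- no cell in the arcs `j - 1` and `j + 1` -/
theorem far (T : Cut N n t) (A : Adj f N t) {j s s' : ℤ} (h1 : t (j - 1) ≤ s) (h2 : s < t j)
    (h3 : t (j + 1) ≤ s') (h4 : s' < t (j + 2)) : f s ≠ f s' := by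
  intro e
  have m1 := T.mono (show j ≤ j + 1 by omega)
  have hw := T.win (j - 1)
  have h5 : s' < s + N := by
    have := T.mono (show j + 2 ≤ j - 1 + n by have := T.four; omega)
    rw [T.per] at this
    omega
  rcases A s s' (by omega) h5 e with ⟨i, g1, g2⟩ | ⟨i, g1, g2⟩
  · have c1 : i < j := by
      by_contra hc
      have := T.mono (show j ≤ i by omega)
      omega
    have := T.mono (show i + 2 ≤ j + 1 by omega)
    omega
  · have c1 : i < j + 2 := by
      by_contra hc
      have := T.mono (show j + 2 ≤ i by omega)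
      omega
    have := T.mono (show i + 2 ≤ j - 1 + n by have := T.four; omega)
    rw [T.per] at this
    omega

theorem main_iff (T : Cut N n t) {j a : ℤ} (h1 : t j ≤ a) (h2 : a < t (j + 1)) :
    Main f t a ↔ ¬ R0 f t j a ∧ ¬ RL f t j a ∧ ¬ RR f t j a := by
  constructor
  · intro H
    refine ⟨?_, ?_, ?_⟩
    · rintro ⟨s, s', g1, g2, g3, g4, g5⟩
      have := T.mono (show j + 1 ≤ j + 2 by omega)
      exact H j s s' g1 g2 g3 (by omega) g5
    · rintro ⟨s, s', g1, g2, g3, g4, g5⟩
      refine H (j - 1) s s' g1 (by omega) g3 ?_ g5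
      rw [show j - 1 + 2 = j + 1 by omega]; exact g4
    · rintro ⟨s, s', g1, g2, g3, g4, g5⟩
      exact H j s s' g1 g2 (by omega) g4 g5
  · rintro ⟨n0, nL, nR⟩ i s s' g1 g2 g3 g4 e
    -- the window contains `a`
    have c1 : i ≤ j := by
      by_contra hc
      have := T.mono (show j + 1 ≤ i by omega)
      omega
    have c2 : j - 1 ≤ i := by
      by_contra hc
      have := T.mono (show i + 2 ≤ j by omega)
      omega
    rcases (show i = j ∨ i = j - 1 by omega) with rfl | rfl
    · by_cases hs : s' < t (i + 1)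
      · exact n0 ⟨s, s', g1, g2, g3, hs, e⟩
      · exact nR ⟨s, s', g1, g2, by omega, g4, e⟩
    · rw [show j - 1 + 2 = j + 1 by omega] at g4
      by_cases hs : t j ≤ s
      · exact n0 ⟨s, s', hs, g2, g3, g4, e⟩
      · exact nL ⟨s, s', g1, by omega, g3, g4, e⟩

/-- noncrossing of the visits -/
def NC (f : ℤ → C) (N : ℤ) : Prop :=
  ∀ s u s' u', s < u → u < s' → s' < u' → u' < s + N → f s = f s' → f u = f u' → f s = f u

/-- **the two kinds of straddling lobes of an arc are disjoint** -/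
theorem lobes_disj (T : Cut N n t) (A : Adj f N t) (X : NC f N) {j a : ℤ}
    (hL : RL f t j a) (hR : RR f t j a) : False := by
  obtain ⟨s, s', g1, g2, g3, g4, g5⟩ := hL
  obtain ⟨u, u', k1, k2, k3, k4, k5⟩ := hR
  have h5 : u' < s + N := by
    have := T.mono (show j + 2 ≤ j - 1 + n by have := T.four; omega)
    rw [T.per] at this
    omega
  have h6 := X s u s' u' (by omega) (by omega) (by omega) h5 g5 k5
  exact far T A g1 g2 k3 k4 (h6.trans k5)

/-! ### sums -/

variable {E : Type} [AddCommGroup E]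

/-- sum over the gaps of the arc `j` with a property -/
def sm (t : ℤ → ℤ) (w : ℤ → E) (j : ℤ) (Q : ℤ → Prop) : E :=
  ∑ a ∈ (Finset.Ico (t j) (t (j + 1))).filter Q, w a

/-- the part of the gate `j` -/
def gt (f : ℤ → C) (t : ℤ → ℤ) (w : ℤ → E) (j : ℤ) : E := sm t w j fun a => ¬ R0 f t j a

/-- the part of the arc `j` : its main gaps, minus the parts of the straddling lobes in the
neighbouring gates -/
def Yt (f : ℤ → C) (t : ℤ → ℤ) (w : ℤ → E) (j : ℤ) : E :=
  sm t w j (fun a => Main f t a) -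
    sm t w (j - 1) (fun a => ¬ R0 f t (j - 1) a ∧ RR f t (j - 1) a) -
    sm t w (j + 1) (fun a => ¬ R0 f t (j + 1) a ∧ RL f t (j + 1) a)

/-- the main gaps of a gate -/
theorem gate_sum (T : Cut N n t) (A : Adj f N t) (X : NC f N) (w : ℤ → E) (j : ℤ) :
    sm t w j (fun a => Main f t a) = gt f t w j -
      sm t w j (fun a => ¬ R0 f t j a ∧ RR f t j a) -
      sm t w j (fun a => ¬ R0 f t j a ∧ RL f t j a) := by
  unfold gt sm
  rw [Finset.sum_filter, Finset.sum_filter, Finset.sum_filter, Finset.sum_filter,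
    ← Finset.sum_sub_distrib, ← Finset.sum_sub_distrib]
  refine Finset.sum_congr rfl fun a ha => ?_
  rw [Finset.mem_Ico] at ha
  have h1 := main_iff (f := f) T ha.1 ha.2
  by_cases c0 : R0 f t j a
  · rw [if_neg fun h => (h1.1 h).1 c0, if_neg (not_not.2 c0), if_neg fun h => h.1 c0,
      if_neg fun h => h.1 c0]
    simp
  · by_cases cL : RL f t j a
    · have cR : ¬ RR f t j a := fun hR => lobes_disj T A X cL hR
      rw [if_neg fun h => (h1.1 h).2.1 cL, if_pos c0, if_neg fun h => cR h.2, if_pos ⟨c0, cL⟩]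
      simp
    · by_cases cR : RR f t j a
      · rw [if_neg fun h => (h1.1 h).2.2 cR, if_pos c0, if_pos ⟨c0, cR⟩, if_neg fun h => cL h.2]
        simp
      · rw [if_pos (h1.2 ⟨c0, cL, cR⟩), if_pos c0, if_neg fun h => cR h.2, if_neg fun h => cL h.2]
        simp


/-- locality of the three predicates -/
theorem r0_congr {C' : Type} {f' : ℤ → C'} {t' : ℤ → ℤ} {j j' c : ℤ}
    (e0 : t' j' = t j + c) (e1 : t' (j' + 1) = t (j + 1) + c)
    (hf : ∀ u v, t (j - 1) ≤ u → u < t (j + 2) → t (j - 1) ≤ v → v < t (j + 2) →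
      (f' (u + c) = f' (v + c) ↔ f u = f v)) (m0 : t (j - 1) ≤ t j) (m2 : t (j + 1) ≤ t (j + 2))
    (a : ℤ) : R0 f' t' j' (a + c) ↔ R0 f t j a := by
  constructor
  · rintro ⟨s, s', h1, h2, h3, h4, h5⟩
    refine ⟨s - c, s' - c, by omega, by omega, by omega, by omega, ?_⟩
    rw [← hf _ _ (by omega) (by omega) (by omega) (by omega)]
    rwa [sub_add_cancel, sub_add_cancel]
  · rintro ⟨s, s', h1, h2, h3, h4, h5⟩
    refine ⟨s + c, s' + c, by omega, by omega, by omega, by omega, ?_⟩
    rwa [hf _ _ (by omega) (by omega) (by omega) (by omega)]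

theorem rl_congr {C' : Type} {f' : ℤ → C'} {t' : ℤ → ℤ} {j j' c : ℤ}
    (em : t' (j' - 1) = t (j - 1) + c) (e0 : t' j' = t j + c)
    (e1 : t' (j' + 1) = t (j + 1) + c)
    (hf : ∀ u v, t (j - 1) ≤ u → u < t (j + 1) → t (j - 1) ≤ v → v < t (j + 1) →
      (f' (u + c) = f' (v + c) ↔ f u = f v)) {a : ℤ} (ha : t j ≤ a) :
    RL f' t' j' (a + c) ↔ RL f t j a := by
  constructor
  · rintro ⟨s, s', h1, h2, h3, h4, h5⟩
    refine ⟨s - c, s' - c, by omega, by omega, by omega, by omega, ?_⟩
    rw [← hf _ _ (by omega) (by omega) (by omega) (by omega)]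
    rwa [sub_add_cancel, sub_add_cancel]
  · rintro ⟨s, s', h1, h2, h3, h4, h5⟩
    refine ⟨s + c, s' + c, by omega, by omega, by omega, by omega, ?_⟩
    rwa [hf _ _ (by omega) (by omega) (by omega) (by omega)]

theorem rr_congr {C' : Type} {f' : ℤ → C'} {t' : ℤ → ℤ} {j j' c : ℤ}
    (e0 : t' j' = t j + c) (e1 : t' (j' + 1) = t (j + 1) + c)
    (e2 : t' (j' + 2) = t (j + 2) + c)
    (hf : ∀ u v, t j ≤ u → u < t (j + 2) → t j ≤ v → v < t (j + 2) →
      (f' (u + c) = f' (v + c) ↔ f u = f v)) {a : ℤ} (ha : a < t (j + 1)) :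
    RR f' t' j' (a + c) ↔ RR f t j a := by
  constructor
  · rintro ⟨s, s', h1, h2, h3, h4, h5⟩
    refine ⟨s - c, s' - c, by omega, by omega, by omega, by omega, ?_⟩
    rw [← hf _ _ (by omega) (by omega) (by omega) (by omega)]
    rwa [sub_add_cancel, sub_add_cancel]
  · rintro ⟨s, s', h1, h2, h3, h4, h5⟩
    refine ⟨s + c, s' + c, by omega, by omega, by omega, by omega, ?_⟩
    rwa [hf _ _ (by omega) (by omega) (by omega) (by omega)]

/-- shift of a sum over an arc -/
theorem sm_shift {t' : ℤ → ℤ} {w w' : ℤ → E} {j j' c : ℤ} {Q Q' : ℤ → Prop}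
    (e0 : t' j' = t j + c) (e1 : t' (j' + 1) = t (j + 1) + c)
    (hw : ∀ u, t j ≤ u → u < t (j + 1) → w' (u + c) = w u)
    (hQ : ∀ u, t j ≤ u → u < t (j + 1) → (Q' (u + c) ↔ Q u)) :
    sm t' w' j' Q' = sm t w j Q := by
  unfold sm
  rw [Finset.sum_filter, Finset.sum_filter, e0, e1, ← Finset.sum_Ico_add' _ _ _ c]
  refine Finset.sum_congr rfl fun u hu => ?_
  rw [Finset.mem_Ico] at hu
  rw [hw u hu.1 hu.2]
  exact if_congr (hQ u hu.1 hu.2) rfl rfl

/-- the part of the arc `j` in local form -/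
def Ys (f : ℤ → C) (t : ℤ → ℤ) (w : ℤ → E) (j : ℤ) : E :=
  sm t w j (fun a => ¬ R0 f t j a ∧ ¬ RL f t j a ∧ ¬ RR f t j a) -
    sm t w (j - 1) (fun a => ¬ R0 f t (j - 1) a ∧ RR f t (j - 1) a) -
    sm t w (j + 1) (fun a => ¬ R0 f t (j + 1) a ∧ RL f t (j + 1) a)

theorem Ys_eq (T : Cut N n t) (w : ℤ → E) (j : ℤ) : Ys f t w j = Yt f t w j := by
  have e : sm t w j (fun a => ¬ R0 f t j a ∧ ¬ RL f t j a ∧ ¬ RR f t j a) =
      sm t w j (fun a => Main f t a) := by
    unfold sm
    rw [Finset.sum_filter, Finset.sum_filter]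
    refine Finset.sum_congr rfl fun a ha => ?_
    rw [Finset.mem_Ico] at ha
    have h := main_iff (f := f) T ha.1 ha.2
    by_cases c : Main f t a
    · rw [if_pos (h.1 c), if_pos c]
    · rw [if_neg (fun hh => c (h.2 hh)), if_neg c]
  unfold Ys Yt
  rw [e]

/-- sum over one period -/
theorem sum_arcs (hm : Monotone t) (F : ℤ → E) (m : ℕ) :
    ∑ a ∈ Finset.Ico (t 0) (t m), F a =
      ∑ k ∈ Finset.range m, ∑ a ∈ Finset.Ico (t k) (t (k + 1)), F a := by
  induction m with
  | zero => simp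
  | succ m ih =>
    rw [Finset.sum_range_succ, ← ih]
    have h1 : t 0 ≤ t (m : ℤ) := hm (by positivity)
    have h2 : t (m : ℤ) ≤ t ((m : ℤ) + 1) := hm (by omega)
    have h3 : Disjoint (Finset.Ico (t 0) (t (m : ℤ))) (Finset.Ico (t (m : ℤ)) (t ((m : ℤ) + 1))) := by
      rw [Finset.disjoint_left]
      intro a ha hb
      rw [Finset.mem_Ico] at ha hb
      omega
    rw [← Finset.sum_union h3, Finset.Ico_union_Ico_eq_Ico h1 h2]
    push_cast
    rfl

/-- telescoping of a periodic sequence -/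
theorem shift2 {m : ℕ} (F : ℤ → E) (hF : F (2 * (m : ℤ) - 1) = F (-1)) :
    ∑ k ∈ Finset.range m, F (2 * (k : ℤ) + 1) = ∑ k ∈ Finset.range m, F (2 * (k : ℤ) - 1) := by
  have key : ∀ r : ℕ, ∑ k ∈ Finset.range r, F (2 * (k : ℤ) + 1) + F (-1) =
      ∑ k ∈ Finset.range r, F (2 * (k : ℤ) - 1) + F (2 * (r : ℤ) - 1) := by
    intro r
    induction r with
    | zero => simp
    | succ r ih =>
      rw [Finset.sum_range_succ, Finset.sum_range_succ]
      have e1 : F (2 * ((r + 1 : ℕ) : ℤ) - 1) = F (2 * (r : ℤ) + 1) := by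
        congr 1
        push_cast
        ring
      rw [e1, add_right_comm, ih]
  have h1 := key m
  rw [hF] at h1
  exact add_right_cancel h1

/-- **exact splitting**: `2 m` arcs; the even arcs are the tubes, the odd arcs are the gates -/
theorem split {m : ℕ} (T : Cut N (2 * m) t) (hf : ∀ u, f (u + N) = f u) (A : Adj f N t)
    (X : NC f N) (w : ℤ → E) (hw : ∀ u, w (u + N) = w u) :
    ∑ a ∈ (Finset.Ico (t 0) (t 0 + N)).filter (Main f t), w a =
      ∑ k ∈ Finset.range m, (Yt f t w (2 * k) + gt f t w (2 * k + 1)) := by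
  have e0 : t 0 + N = t ((2 * m : ℕ) : ℤ) := by
    rw [← T.per 0]
    push_cast
    rw [zero_add]
  rw [Finset.sum_filter, e0, sum_arcs T.mono]
  -- two by two
  have h2 : ∀ (G : ℕ → E) (r : ℕ), ∑ k ∈ Finset.range (2 * r), G k =
      ∑ k ∈ Finset.range r, (G (2 * k) + G (2 * k + 1)) := by
    intro G r
    induction r with
    | zero => simp
    | succ r ih =>
      rw [show 2 * (r + 1) = 2 * r + 1 + 1 by ring, Finset.sum_range_succ, Finset.sum_range_succ, ih,
        Finset.sum_range_succ, add_assoc]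
  rw [h2]
  have h3 : ∀ k : ℕ, (∑ a ∈ Finset.Ico (t ((2 * k : ℕ) : ℤ)) (t (((2 * k : ℕ) : ℤ) + 1)),
      if Main f t a then w a else 0) = sm t w (2 * k) (fun a => Main f t a) := by
    intro k
    unfold sm
    rw [Finset.sum_filter]
    push_cast
    rfl
  have h4 : ∀ k : ℕ, (∑ a ∈ Finset.Ico (t ((2 * k + 1 : ℕ) : ℤ)) (t (((2 * k + 1 : ℕ) : ℤ) + 1)),
      if Main f t a then w a else 0) = gt f t w (2 * k + 1) -
      sm t w (2 * k + 1) (fun a => ¬ R0 f t (2 * k + 1) a ∧ RR f t (2 * k + 1) a) -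
      sm t w (2 * k + 1) (fun a => ¬ R0 f t (2 * k + 1) a ∧ RL f t (2 * k + 1) a) := by
    intro k
    rw [← gate_sum T A X]
    unfold sm
    rw [Finset.sum_filter]
    push_cast
    rfl
  simp only [h3, h4]
  unfold Yt
  -- periodicity
  have p1 : ∀ j, sm t w (j + 2 * m) (fun a => ¬ R0 f t (j + 2 * m) a ∧ RR f t (j + 2 * m) a) =
      sm t w j (fun a => ¬ R0 f t j a ∧ RR f t j a) := by
    intro j
    have q0 := T.per j
    have q1 : t (j + 2 * m + 1) = t (j + 1) + N := by rw [← T.per]; congr 1; ring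
    have q2 : t (j + 2 * m + 2) = t (j + 2) + N := by rw [← T.per]; congr 1; ring
    refine sm_shift q0 q1 (fun u _ _ => hw u) fun u hu1 hu2 => ?_
    have c1 := r0_congr (f := f) (f' := f) (t := t) (t' := t) (j := j) (j' := j + 2 * m) (c := N)
      q0 q1 (fun u v _ _ _ _ => by rw [hf, hf]) (T.mono (by omega)) (T.mono (by omega)) u
    have c2 := rr_congr (f := f) (f' := f) (t := t) (t' := t) (j := j) (j' := j + 2 * m) (c := N)
      q0 q1 q2 (fun u v _ _ _ _ => by rw [hf, hf]) hu2
    rw [c1, c2]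
  have h5 := shift2 (m := m) (fun j => sm t w j (fun a => ¬ R0 f t j a ∧ RR f t j a))
    (by
      have := p1 (-1)
      rw [show -1 + 2 * (m : ℤ) = 2 * (m : ℤ) - 1 by ring] at this
      exact this)
  simp only [Finset.sum_add_distrib, Finset.sum_sub_distrib]
  rw [h5]
  have key : ∀ a b c d : E, a + (b - c - d) = a - c - d + b := by intros; abel
  exact key _ _ _ _

/-- locality of the part of an arc -/
theorem Ys_congr {C' : Type} {f' : ℤ → C'} {t' : ℤ → ℤ} {w w' : ℤ → E} {j j' c : ℤ}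
    (hm : Monotone t)
    (em : t' (j' - 1) = t (j - 1) + c) (e0 : t' j' = t j + c)
    (e1 : t' (j' + 1) = t (j + 1) + c) (e2 : t' (j' + 2) = t (j + 2) + c)
    (hf : ∀ u v, t (j - 1) ≤ u → u < t (j + 2) → t (j - 1) ≤ v → v < t (j + 2) →
      (f' (u + c) = f' (v + c) ↔ f u = f v))
    (hw : ∀ u, t (j - 1) ≤ u → u < t (j + 2) → w' (u + c) = w u) :
    Ys f' t' w' j' = Ys f t w j := by
  have m1 := hm (show j - 1 ≤ j by omega)
  have m2 := hm (show j ≤ j + 1 by omega)
  have m3 := hm (show j + 1 ≤ j + 2 by omega)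
  unfold Ys
  congr 1
  · congr 1
    · refine sm_shift e0 e1 (fun u h1 h2 => hw u (by omega) (by omega)) fun u h1 h2 => ?_
      rw [r0_congr e0 e1 hf m1 m3 u,
        rl_congr em e0 e1 (fun u v g1 g2 g3 g4 => hf u v g1 (by omega) g3 (by omega)) h1,
        rr_congr e0 e1 e2 (fun u v g1 g2 g3 g4 => hf u v (by omega) g2 (by omega) g4) h2]
    · have k0 : t' (j' - 1 + 1) = t (j - 1 + 1) + c := by
        rw [sub_add_cancel, sub_add_cancel]; exact e0
      have k1 : t' (j' - 1 + 2) = t (j - 1 + 2) + c := by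
        rw [show j' - 1 + 2 = j' + 1 by ring, show j - 1 + 2 = j + 1 by ring]; exact e1
      have l0 : t (j - 1 + 1) = t j := by rw [sub_add_cancel]
      have l1 : t (j - 1 + 2) = t (j + 1) := by rw [show j - 1 + 2 = j + 1 by ring]
      refine sm_shift em k0 (fun u h1 h2 => hw u h1 (by omega)) fun u h1 h2 => ?_
      have r1 : R0 f' t' (j' - 1) (u + c) ↔ R0 f t (j - 1) u := by
        constructor
        · rintro ⟨s, s', g1, g2, g3, g4, g5⟩
          refine ⟨s - c, s' - c, by omega, by omega, by omega, by omega, ?_⟩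
          rw [← hf _ _ (by omega) (by omega) (by omega) (by omega)]
          rwa [sub_add_cancel, sub_add_cancel]
        · rintro ⟨s, s', g1, g2, g3, g4, g5⟩
          refine ⟨s + c, s' + c, by omega, by omega, by omega, by omega, ?_⟩
          rwa [hf _ _ (by omega) (by omega) (by omega) (by omega)]
      rw [r1, rr_congr em k0 k1 (fun u v g1 g2 g3 g4 => hf u v (by omega) (by omega) (by omega)
        (by omega)) h2]
  · have k0 : t' (j' + 1 - 1) = t (j + 1 - 1) + c := by
      rw [add_sub_cancel_right, add_sub_cancel_right]; exact e0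
    have k2 : t' (j' + 1 + 1) = t (j + 1 + 1) + c := by
      rw [show j' + 1 + 1 = j' + 2 by ring, show j + 1 + 1 = j + 2 by ring]; exact e2
    have l0 : t (j + 1 - 1) = t j := by rw [add_sub_cancel_right]
    have l2 : t (j + 1 + 1) = t (j + 2) := by rw [show j + 1 + 1 = j + 2 by ring]
    refine sm_shift e1 k2 (fun u h1 h2 => hw u (by omega) (by omega)) fun u h1 h2 => ?_
    have r1 : R0 f' t' (j' + 1) (u + c) ↔ R0 f t (j + 1) u := by
      constructor
      · rintro ⟨s, s', g1, g2, g3, g4, g5⟩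
        refine ⟨s - c, s' - c, by omega, by omega, by omega, by omega, ?_⟩
        rw [← hf _ _ (by omega) (by omega) (by omega) (by omega)]
        rwa [sub_add_cancel, sub_add_cancel]
      · rintro ⟨s, s', g1, g2, g3, g4, g5⟩
        refine ⟨s + c, s' + c, by omega, by omega, by omega, by omega, ?_⟩
        rwa [hf _ _ (by omega) (by omega) (by omega) (by omega)]
    rw [r1, rl_congr k0 e1 k2 (fun u v g1 g2 g3 g4 => hf u v (by omega) (by omega) (by omega)
      (by omega)) h1]

end cyc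

end Crest.Agent.R143.Winx228
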