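import Crest.Agent.R143.O_355
import Crest.Agent.R143.RevC_389

/-!
# Row 143 (S0194), block H, glue of [A] (helper355): windows

* `RL M x P₀ N n T Reg` : the ring loop (period `N`) with gate times `T k` (`T (k + n) = T k + N`) and
  tiles `Reg k` (`n`-periodic; tiles which are not neighbours are disjoint); the left cells at the
  times of the tile `k` are in `Reg k`
* `RL.near` : a cell which is visited in the tiles `s` and `s'` : `s' ≡ s - 1, s, s + 1`
* `arcW` : the arc off the window `[A, B)` : states `P (T B + tp), .., P (T B + tq)` with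
  `tp ≤ T (B + 3) - T B`, `T (A + n - 3) - T B ≤ tq ≤ T (A + n) - T B` (389's `RingW`)
* `RL.two` : `p` visited in the tile `s`, `q` in the tile `t`, `s + 5 ≤ A ≤ B`, `B + 4 ≤ t`,
  `t + 3 ≤ s + n` : both are cells of the arc and all visits of `q` are before all visits of `p`
* `exists_win` : a window `[h i, h i + l)` (`n = h m₀`) between `s` and `s + d` if `2 h + 9 ≤ d`
-/

set_option autoImplicit false

noncomputable section

open scoped Classical

namespace Crest.Agent.R143.Winx355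

open Crest.Agent.R143.Frame1x395 Crest.Agent.R143.Frame2x395 Crest.Agent.R143.Frame3x395
  Crest.Agent.R143.Frame8x395 Crest.Agent.R143.Frame9x395 Crest.Agent.R143.Frame11x395
  Crest.Agent.R143.NonXx592 Crest.Agent.R143.Coarsex166 Crest.Agent.R143.Budx432
  Crest.Agent.R143.Bud2x432
  Crest.Agent.R143.Chordx355 Crest.Agent.R143.ChordCx357 Crest.Agent.R143.Chord2x355
  Crest.Agent.R143.H2x355 Crest.Agent.R143.Ox355

variable {D C : Type} {M : CMap D C} {x : D → ZMod 2}

/-- the ring loop with its gates and tiles -/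
structure RL (M : CMap D C) (x : D → ZMod 2) (P₀ : D) (N n : ℕ) (T : ℕ → ℕ) (Reg : ℕ → Set C) :
    Prop where
  L : Lp M x P₀ N
  mono : StrictMono T
  zero : T 0 = 0
  per : ∀ k, T (k + n) = T k + N
  reg : ∀ k u, T k ≤ u → u < T (k + 1) → lc M x P₀ u ∈ Reg k
  perR : ∀ k, Reg (k + n) = Reg k
  dis : ∀ k j, 2 ≤ j → j + 2 ≤ n → Disjoint (Reg k) (Reg (k + j))

variable {P₀ : D} {N n : ℕ} {T : ℕ → ℕ} {Reg : ℕ → Set C}

/-- the tile of a time -/
theorem RL.tile (R : RL M x P₀ N n T Reg) (u : ℕ) : ∃ k, T k ≤ u ∧ u < T (k + 1) := by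
  have h1 : ∃ k, u < T k := ⟨u + 1, lt_of_lt_of_le (Nat.lt_succ_self u) (R.mono.id_le (u + 1))⟩
  have h2 : u < T (Nat.find h1) := Nat.find_spec h1
  have h3 : Nat.find h1 ≠ 0 := by
    intro h
    rw [h, R.zero] at h2
    omega
  obtain ⟨k, hk⟩ := Nat.exists_eq_succ_of_ne_zero h3
  refine ⟨k, ?_, ?_⟩
  · have := Nat.find_min h1 (m := k) (by omega)
    omega
  · rw [hk] at h2
    exact h2

theorem RL.regm (R : RL M x P₀ N n T Reg) (k j : ℕ) : Reg (k + n * j) = Reg k := by
  induction j with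
  | zero => rfl
  | succ j ih => rw [Nat.mul_succ, ← add_assoc, R.perR, ih]

/-- two tiles with a common cell are neighbours -/
theorem RL.nb (R : RL M x P₀ N n T Reg) {s s' : ℕ} {c : C} (h : c ∈ Reg s) (h' : c ∈ Reg s')
    (hn : 0 < n) (hs : s ≤ s') : ∃ j, s' = s + n * j ∨ s' = s + n * j + 1 ∨ s' + 1 = s + n * j := by
  set d := s' - s with hd
  have e1 : d % n + n * (d / n) = d := Nat.mod_add_div d n
  have h3 : d % n < n := Nat.mod_lt _ hn
  have h4 : c ∈ Reg (s + d % n) := by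
    rw [← R.regm (s + d % n) (d / n)]
    have : s + d % n + n * (d / n) = s' := by omega
    rw [this]
    exact h'
  by_cases h5 : 2 ≤ d % n ∧ d % n + 2 ≤ n
  · exact absurd h4 fun h6 => Set.disjoint_left.1 (R.dis s (d % n) h5.1 h5.2) h h6
  · rcases Nat.lt_or_ge (d % n) 2 with h6 | h6
    · rcases Nat.eq_zero_or_pos (d % n) with h7 | h7
      · exact ⟨d / n, Or.inl (by omega)⟩
      · exact ⟨d / n, Or.inr (Or.inl (by omega))⟩
    · refine ⟨d / n + 1, Or.inr (Or.inr ?_)⟩
      have h7 : d % n + 1 = n := by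
        by_contra
        exact h5 ⟨h6, by omega⟩
      rw [Nat.mul_add, Nat.mul_one]
      omega

/-- the tiles of the visits of a cell -/
theorem RL.near (R : RL M x P₀ N n T Reg) {u u' s s' : ℕ} (hs1 : T s ≤ u) (hs2 : u < T (s + 1))
    (hs1' : T s' ≤ u') (hs2' : u' < T (s' + 1)) (e : lc M x P₀ u = lc M x P₀ u') (hn : 0 < n)
    (hs : s ≤ s') : ∃ j, s' = s + n * j ∨ s' = s + n * j + 1 ∨ s' + 1 = s + n * j :=
  R.nb (R.reg s u hs1 hs2) (e ▸ R.reg s' u' hs1' hs2') hn hs

theorem RL.lcN (R : RL M x P₀ N n T Reg) (u : ℕ) : lc M x P₀ (u + N) = lc M x P₀ u := by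
  unfold lc
  rw [P_per R.L.per]

/-- **both end cells are on the arc off the window, `q` before `p`** -/
theorem RL.two (R : RL M x P₀ N n T Reg) {A B s t i j tp tq : ℕ} {p q : C}
    (hi1 : T s ≤ i) (hi2 : i < T (s + 1)) (hip : lc M x P₀ i = p)
    (hj1 : T t ≤ j) (hj2 : j < T (t + 1)) (hjq : lc M x P₀ j = q)
    (hA : s + 5 ≤ A) (hAB : A ≤ B) (hB : B + 4 ≤ t) (hts : t + 3 ≤ s + n)
    (htp : T B + tp ≤ T (B + 3)) (htq1 : T (A + n - 3) ≤ T B + tq) (htq2 : T B + tq ≤ T (A + n)) :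
    (∃ u, u ≤ tq - tp ∧ lc M x P₀ (T B + tp + u) = p) ∧
    (∃ u, u ≤ tq - tp ∧ lc M x P₀ (T B + tp + u) = q) ∧
    ∀ u u', u ≤ tq - tp → u' ≤ tq - tp → lc M x P₀ (T B + tp + u) = q →
      lc M x P₀ (T B + tp + u') = p → u < u' := by
  have hm := R.mono
  have le : ∀ {a b : ℕ}, a ≤ b → T a ≤ T b := fun h => hm.monotone h
  have hT1 : T (B + 3) ≤ T t := le (by omega)
  have hT2 : T (t + 1) ≤ T (A + n - 3) := le (by omega)
  have hT3 : T t < T (t + 1) := hm (by omega)
  have hT4 : T (B + 3) ≤ T (s + n) := le (by omega)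
  have hT5 : T (s + n + 1) ≤ T (A + n - 3) := le (by omega)
  have hT6 : T (s + n) = T s + N := R.per s
  have hT7 : T (s + n + 1) = T (s + 1) + N := by
    rw [show s + n + 1 = s + 1 + n by omega]
    exact R.per _
  refine ⟨⟨i + N - (T B + tp), by omega, ?_⟩, ⟨j - (T B + tp), by omega, ?_⟩, ?_⟩
  · rw [show T B + tp + (i + N - (T B + tp)) = i + N by omega, R.lcN]
    exact hip
  · rw [show T B + tp + (j - (T B + tp)) = j by omega]
    exact hjq
  · intro u u' hu hu' eq ep
    -- tile of the visit of `q`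
    obtain ⟨k, hk1, hk2⟩ := R.tile (T B + tp + u)
    obtain ⟨k', hk1', hk2'⟩ := R.tile (T B + tp + u')
    have hkB : B ≤ k := by
      by_contra hc
      have : T (k + 1) ≤ T B := le (by omega)
      omega
    have hkB' : B ≤ k' := by
      by_contra hc
      have : T (k' + 1) ≤ T B := le (by omega)
      omega
    have hkA : k ≤ A + n := by
      by_contra hc
      have h1 : T (A + n) < T k := hm (by omega)
      omega
    have hkA' : k' ≤ A + n := by
      by_contra hc
      have h1 : T (A + n) < T k' := hm (by omega)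
      omega
    have hn : 0 < n := by omega
    -- `q` is visited in the tiles `t - 1, t, t + 1`
    have c1 : k ≤ t + 1 := by
      by_contra hc
      obtain ⟨a, ha⟩ := R.near hj1 hj2 hk1 hk2 (hjq.trans eq.symm) hn (by omega)
      rcases Nat.eq_zero_or_pos a with rfl | h
      · omega
      · have : n * 1 ≤ n * a := Nat.mul_le_mul_left n h
        omega
    -- `p` is visited in the tiles `s + n - 1, s + n, s + n + 1`
    have c2 : s + n ≤ k' + 1 := by
      by_contra hc
      obtain ⟨a, ha⟩ := R.near hi1 hi2 hk1' hk2' (hip.trans ep.symm) hn (by omega)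
      rcases Nat.eq_zero_or_pos a with rfl | h
      · omega
      · have : n * 1 ≤ n * a := Nat.mul_le_mul_left n h
        omega
    have h1 : T (k + 1) ≤ T k' := le (by omega)
    omega

/-- a window between two distant tiles -/
theorem exists_win {n h l m₀ s d : ℕ} (hh : 5 ≤ h) (hn : n = h * m₀) (hm : 2 ≤ m₀) (hl : l ≤ h)
    (hs : s < n) (hd : 2 * h + 9 ≤ d) : ∃ i, i < m₀ ∧ ((s + 5 ≤ h * i ∧ h * i + l + 4 ≤ s + d) ∨
      (s + 5 ≤ h * i + n ∧ h * i + n + l + 4 ≤ s + d)) := by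
  set a := (s + 5 + h - 1) / h with ha
  have h1 : h * a ≤ s + 5 + h - 1 := Nat.mul_div_le _ _
  have h2 : s + 5 + h - 1 < h * (a + 1) := by
    have := Nat.lt_mul_div_succ (s + 5 + h - 1) (show 0 < h by omega)
    rwa [← ha] at this
  have h3 : s + 5 ≤ h * a := by
    rw [Nat.mul_add, Nat.mul_one] at h2
    omega
  rcases Nat.lt_or_ge a m₀ with h4 | h4
  · exact ⟨a, h4, Or.inl ⟨h3, by omega⟩⟩
  · have h5 : a - m₀ < 2 := by
      by_contra hne
      have h6 : m₀ + 2 ≤ a := by omega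
      have h7 : h * (m₀ + 2) ≤ h * a := Nat.mul_le_mul_left h h6
      rw [Nat.mul_add] at h7
      omega
    have h8 : h * (a - m₀) + n = h * a := by
      rw [hn, ← Nat.mul_add]
      congr 1
      omega
    exact ⟨a - m₀, by omega, Or.inr ⟨by omega, by omega⟩⟩

/-- the end cells `p`, `q` are in tiles which are far from each other on both sides -/
def FarC (Reg : ℕ → Set C) (n h : ℕ) (p q : C) : Prop :=
  ∀ s t, p ∈ Reg s → q ∈ Reg t → s ≤ t → t < s + n → 2 * h + 9 ≤ t - s ∧ t - s + 3 ≤ n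

/-- 707's order: every touch of `q` is followed by a touch of `p` -/
def OrdC (M : CMap D C) (x : D → ZMod 2) (p₀ : D) (m : ℕ) (p q : C) : Prop :=
  ∀ j, j < m → lc M x p₀ j = q → ∃ j', j ≤ j' ∧ j' < m ∧ lc M x p₀ j' = p

theorem RL.hn (R : RL M x P₀ N n T Reg) : 0 < n := by
  by_contra hc
  have h1 : n = 0 := by omega
  have h2 := R.per 0
  rw [h1, Nat.add_zero] at h2
  have := R.L.pos
  omega

/-- the statement of `two` for the base state -/
theorem RL.base (R : RL M x P₀ N n T Reg) {A B s t i j tp tq : ℕ} {p q : C}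
    (hi1 : T s ≤ i) (hi2 : i < T (s + 1)) (hip : lc M x P₀ i = p)
    (hj1 : T t ≤ j) (hj2 : j < T (t + 1)) (hjq : lc M x P₀ j = q)
    (hA : s + 5 ≤ A) (hAB : A ≤ B) (hB : B + 4 ≤ t) (hts : t + 3 ≤ s + n)
    (htp : T B + tp ≤ T (B + 3)) (htq1 : T (A + n - 3) ≤ T B + tq) (htq2 : T B + tq ≤ T (A + n)) :
    p ∈ Kc M x (P M x P₀ (T B + tp)) (tq - tp + 1) ∧
    q ∈ Kc M x (P M x P₀ (T B + tp)) (tq - tp + 1) ∧
    OrdC M x (P M x P₀ (T B + tp)) (tq - tp + 1) p q := by
  obtain ⟨⟨u, hu, eu⟩, ⟨v, hv, ev⟩, h3⟩ := R.two hi1 hi2 hip hj1 hj2 hjq hA hAB hB hts htp htq1 htq2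
  refine ⟨⟨u, by omega, by rw [lc_shift]; exact eu⟩, ⟨v, by omega, by rw [lc_shift]; exact ev⟩, ?_⟩
  intro a ha e
  rw [lc_shift] at e
  refine ⟨u, ?_, by omega, by rw [lc_shift]; exact eu⟩
  exact (h3 a u (by omega) hu e eu).le

/-- **a chord with far end cells has a window on its facing side** -/
theorem RL.window (R : RL M x P₀ N n T Reg) {h l m₀ : ℕ} (hh : 5 ≤ h) (hn : n = h * m₀)
    (hm : 2 ≤ m₀) (hl : l ≤ h) {p q : C} (hp : ∃ u, lc M x P₀ u = p) (hq : ∃ u, lc M x P₀ u = q)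
    (hf : FarC Reg n h p q) {tp tq : ℕ → ℕ}
    (htp : ∀ i, i < m₀ → T (h * i + l) + tp i ≤ T (h * i + l + 3))
    (htq1 : ∀ i, i < m₀ → T (h * i + n - 3) ≤ T (h * i + l) + tq i)
    (htq2 : ∀ i, i < m₀ → T (h * i + l) + tq i ≤ T (h * i + n)) :
    ∃ i, i < m₀ ∧ p ∈ Kc M x (P M x P₀ (T (h * i + l) + tp i)) (tq i - tp i + 1) ∧
      q ∈ Kc M x (P M x P₀ (T (h * i + l) + tp i)) (tq i - tp i + 1) ∧
      OrdC M x (P M x P₀ (T (h * i + l) + tp i)) (tq i - tp i + 1) p q := by
  obtain ⟨u0, hu0⟩ := hp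
  obtain ⟨v0, hv0⟩ := hq
  have hNpos := R.L.pos
  have mod : ∀ w, lc M x P₀ (w % N) = lc M x P₀ w := by
    intro w
    unfold lc
    rw [← R.L.mod w]
  set u := u0 % N with hu
  have huN : u < N := Nat.mod_lt _ hNpos
  have hup : lc M x P₀ u = p := (mod u0).trans hu0
  obtain ⟨s, hs1, hs2⟩ := R.tile u
  have hsn : s < n := by
    by_contra hc
    have h1 : T (0 + n) ≤ T s := R.mono.monotone (by omega)
    rw [R.per, R.zero] at h1
    omega
  -- a visit of `q` after the gate `s`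
  obtain ⟨v, hv1, hv2, hvq⟩ : ∃ v, T s ≤ v ∧ v < T s + N ∧ lc M x P₀ v = q := by
    have h1 : v0 % N < N := Nat.mod_lt _ hNpos
    have h2 : lc M x P₀ (v0 % N) = q := (mod v0).trans hv0
    have h3 : T s < N := by
      have h4 : T s < T n := R.mono hsn
      have h5 := R.per 0
      rw [Nat.zero_add, R.zero, Nat.zero_add] at h5
      omega
    rcases Nat.lt_or_ge (v0 % N) (T s) with h4 | h4
    · exact ⟨v0 % N + N, by omega, by omega, by rw [R.lcN]; exact h2⟩
    · exact ⟨v0 % N, h4, by omega, h2⟩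
  obtain ⟨t, ht1, ht2⟩ := R.tile v
  have hst : s ≤ t := by
    by_contra hc
    have h1 : T (t + 1) ≤ T s := R.mono.monotone (by omega)
    omega
  have hts : t < s + n := by
    by_contra hc
    have h1 : T (s + n) ≤ T t := R.mono.monotone (by omega)
    rw [R.per] at h1
    omega
  obtain ⟨f1, f2⟩ := hf s t (hup ▸ R.reg s u hs1 hs2) (hvq ▸ R.reg t v ht1 ht2) hst hts
  obtain ⟨i, hi, hw⟩ := exists_win hh hn hm hl hsn f1
  refine ⟨i, hi, ?_⟩
  rcases hw with ⟨w1, w2⟩ | ⟨w1, w2⟩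
  · exact R.base hs1 hs2 hup ht1 ht2 hvq w1 (by omega) (by omega) (by omega) (htp i hi)
      (htq1 i hi) (htq2 i hi)
  · have e1 : T (h * i + l + n) = T (h * i + l) + N := R.per _
    have e2 : T (h * i + l + n + 3) = T (h * i + l + 3) + N := by
      rw [show h * i + l + n + 3 = h * i + l + 3 + n by omega]; exact R.per _
    have hnn : 3 ≤ n := by
      have : h * 2 ≤ h * m₀ := Nat.mul_le_mul_left h hm
      omega
    have e3 : T (h * i + n + n - 3) = T (h * i + n - 3) + N := by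
      rw [show h * i + n + n - 3 = h * i + n - 3 + n by omega]; exact R.per _
    have e4 : T (h * i + n + n) = T (h * i + n) + N := R.per _
    have h1 := R.base (A := h * i + n) (B := h * i + l + n) (tp := tp i) (tq := tq i)
      hs1 hs2 hup ht1 ht2 hvq w1 (by omega) (by omega) (by omega)
      (by have := htp i hi; omega) (by have := htq1 i hi; omega) (by have := htq2 i hi; omega)
    have e5 : P M x P₀ (T (h * i + l + n) + tp i) = P M x P₀ (T (h * i + l) + tp i) := by
      rw [e1, show T (h * i + l) + N + tp i = T (h * i + l) + tp i + N by omega, P_per R.L.per]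
    rw [e5] at h1
    exact h1

end Crest.Agent.R143.Winx355
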