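import Crest.Agent.R143.RE0_723
import Crest.Agent.R143.Frame10_395

/-!
# Row 143 (S0194), CORE-C, leaf CONT, (K2): the walker between two classes (helper133)

`S` sites (general position), `w` the hull cycle; `L` left class (black), `R` right class (white), `T` target
class; the other sites are free, `σ` = set of the black free sites.

* `Wd S n w k L R T` : the classes and the hull (every hull site is in a class, counterclockwise order
  `L`, `R`, `T`; the walk starts at the hull edge `(w k, w (k + 1))`, `w k ∈ L`, `w (k + 1) ∈ R`)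
* `nx` : one step: at the state `(l, r)` (`l` black, `r` white, the triangle `(l, r, x)` on the left) :
  stop if `x ∈ T`, else `(x, r)` if `x` is black and `(l, x)` if `x` is white
* `st σ j` : state at the time `j`; `tau σ` : first time with `x ∈ T`
* `Wd.ok` : states are valid; `Wd.inj` : states are different up to `tau`; `Wd.stops` : the walk stops
* `Wd.left`, `Wd.right` : the left (right) sites form a black (white) chain
* `rev σ m` : the free sites seen up to the time `m`; `Adp`, `Adp.isStop` : exploration up to a stopping time;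
  `fsT` : first time (at most `tau`) at which the history has a property
-/

set_option autoImplicit false

noncomputable section

open scoped Classical

namespace Crest.Agent.R143.Wk2x133

open Crest.Agent.R143.B0x346 Crest.Agent.R143.DelGx806 Crest.Agent.R143.DelRx806
  Crest.Agent.R143.JColx54 Crest.Agent.R143.RE0x723
open Crest.Agent.R143.Frame5x395 (sd mem_sd th th_spec)
open Crest.Agent.R143.Frame10x395 (th0)
open Crest.Agent.R143.Harx315 (IsStop)

variable {S : Finset ℂ} {n : ℕ} {w : ℤ → ℂ} {k : ℤ} {L R T σ σ' : Finset ℂ}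

/-- classes and hull -/
structure Wd (S : Finset ℂ) (n : ℕ) (w : ℤ → ℂ) (k : ℤ) (L R T : Finset ℂ) : Prop where
  gp : GP (S : Set ℂ)
  cyc : HullCyc S n w
  subL : L ⊆ S
  subR : R ⊆ S
  subT : T ⊆ S
  dLR : Disjoint L R
  dLT : Disjoint L T
  dRT : Disjoint R T
  hull : ∀ j, w j ∈ L ∨ w j ∈ R ∨ w j ∈ T
  st0 : w k ∈ L
  st1 : w (k + 1) ∈ R
  noRL : ∀ j, w j ∈ R → w (j + 1) ∉ L

/-- the free sites -/
def fr (S L R T : Finset ℂ) : Finset ℂ := S \ (L ∪ R ∪ T)

theorem mem_fr {v : ℂ} : v ∈ fr S L R T ↔ v ∈ S ∧ v ∉ L ∧ v ∉ R ∧ v ∉ T := by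
  unfold fr
  simp only [Finset.mem_sdiff, Finset.mem_union, not_or, and_assoc]

/-- black sites -/
def Bl (L σ : Finset ℂ) (v : ℂ) : Prop := v ∈ σ ∨ v ∈ L

/-- white sites -/
def Wh (S L T σ : Finset ℂ) (v : ℂ) : Prop := v ∈ S ∧ v ∉ σ ∧ v ∉ L ∧ v ∉ T

/-- one step -/
def nx (S L T σ : Finset ℂ) (e : ℂ × ℂ) : ℂ × ℂ :=
  if th S e ∈ T then e else if Bl L σ (th S e) then (th S e, e.2) else (e.1, th S e)

/-- state at the time `j` -/
def st (S : Finset ℂ) (w : ℤ → ℂ) (k : ℤ) (L T σ : Finset ℂ) (j : ℕ) : ℂ × ℂ :=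
  (nx S L T σ)^[j] (w k, w (k + 1))

theorem st_zero : st S w k L T σ 0 = (w k, w (k + 1)) := rfl

theorem st_succ (j : ℕ) : st S w k L T σ (j + 1) = nx S L T σ (st S w k L T σ j) :=
  Function.iterate_succ_apply' _ _ _

/-- valid state -/
structure Ok (S L T σ : Finset ℂ) (e : ℂ × ℂ) : Prop where
  sid : e ∈ sd S
  bl : Bl L σ e.1
  wh : Wh S L T σ e.2

theorem Wd.free_hull (H : Wd S n w k L R T) (hσ : σ ⊆ fr S L R T) (j : ℤ) : w j ∉ σ := by
  intro h
  obtain ⟨-, h1, h2, h3⟩ := mem_fr.1 (hσ h)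
  rcases H.hull j with h' | h' | h'
  · exact h1 h'
  · exact h2 h'
  · exact h3 h'

/-- the two sides of an edge between a black site and a white site -/
theorem Wd.twin (H : Wd S n w k L R T) (hσ : σ ⊆ fr S L R T) {a b : ℂ} (h : (a, b) ∈ sd S)
    (ha : Wh S L T σ a) (hb : Bl L σ b) : (b, a) ∈ sd S := by
  by_contra hn
  have h1 : hullE S a b := ⟨mem_sd.1 h, fun c hc => hn (mem_sd.2 ⟨c, hc⟩)⟩
  obtain ⟨j, -, -, rfl, rfl⟩ := H.cyc.all a b h1
  have h2 : w j ∈ R := by
    rcases H.hull j with h' | h' | h'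
    · exact absurd h' ha.2.2.1
    · exact h'
    · exact absurd h' ha.2.2.2
  have h3 : w (j + 1) ∈ L := by
    rcases hb with h' | h'
    · exact absurd h' (H.free_hull hσ _)
    · exact h'
  exact H.noRL j h2 h3

theorem Wd.start (H : Wd S n w k L R T) (hσ : σ ⊆ fr S L R T) : Ok S L T σ (w k, w (k + 1)) where
  sid := mem_sd.2 (H.cyc.edge k).1
  bl := Or.inr H.st0
  wh := ⟨H.subR H.st1, H.free_hull hσ _, fun h => Finset.disjoint_left.1 H.dLR h H.st1,
    fun h => Finset.disjoint_left.1 H.dRT H.st1 h⟩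

theorem tri_mem (hS : GP (S : Set ℂ)) {e : ℂ × ℂ} (he : e ∈ sd S) :
    (e.1, e.2, th S e) ∈ delT S ∧ (e.2, th S e, e.1) ∈ delT S ∧ (th S e, e.1, e.2) ∈ delT S := by
  have h1 := th_spec he
  exact ⟨h1, delT_rot hS h1, delT_rot hS (delT_rot hS h1)⟩

theorem sites (hS : GP (S : Set ℂ)) {e : ℂ × ℂ} (he : e ∈ sd S) :
    e.1 ∈ S ∧ e.2 ∈ S ∧ th S e ∈ S := by
  obtain ⟨h1, h2, h3⟩ := tri_mem hS he
  exact ⟨(adj_tri h1).mem.1, (adj_tri h1).mem.2, (adj_tri h2).mem.2⟩

theorem Ok.next (H : Wd S n w k L R T) (hσ : σ ⊆ fr S L R T) {e : ℂ × ℂ} (h : Ok S L T σ e) :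
    Ok S L T σ (nx S L T σ e) := by
  obtain ⟨t1, t2, t3⟩ := tri_mem H.gp h.sid
  obtain ⟨s1, s2, s3⟩ := sites H.gp h.sid
  unfold nx
  split_ifs with h1 h2
  · exact h
  · exact ⟨H.twin hσ (mem_sd.2 ⟨_, t2⟩) h.wh h2, h2, h.wh⟩
  · have hw : Wh S L T σ (th S e) := ⟨s3, fun h' => h2 (Or.inl h'), fun h' => h2 (Or.inr h'), h1⟩
    exact ⟨H.twin hσ (mem_sd.2 ⟨_, t3⟩) hw h.bl, h.bl, hw⟩

theorem Wd.ok (H : Wd S n w k L R T) (hσ : σ ⊆ fr S L R T) (j : ℕ) :
    Ok S L T σ (st S w k L T σ j) := by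
  induction j with
  | zero => exact H.start hσ
  | succ j ih => rw [st_succ]; exact ih.next H hσ

/-- the previous state -/
def pv (S L σ : Finset ℂ) (f : ℂ × ℂ) : ℂ × ℂ :=
  if Bl L σ (th S (f.2, f.1)) then (th S (f.2, f.1), f.2) else (f.1, th S (f.2, f.1))

/-- the step can be reversed -/
theorem Ok.back (H : Wd S n w k L R T) {e : ℂ × ℂ} (h : Ok S L T σ e) (hT : th S e ∉ T) :
    pv S L σ (nx S L T σ e) = e ∧ ((nx S L T σ e).2, (nx S L T σ e).1) ∈ sd S := by
  obtain ⟨t1, t2, t3⟩ := tri_mem H.gp h.sid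
  unfold nx
  rw [if_neg hT]
  split_ifs with h2
  · have e1 : th S (e.2, th S e) = e.1 := th0 H.gp t2
    refine ⟨?_, mem_sd.2 ⟨_, t2⟩⟩
    unfold pv
    simp only
    rw [e1, if_pos h.bl]
  · have e1 : th S (th S e, e.1) = e.2 := th0 H.gp t3
    refine ⟨?_, mem_sd.2 ⟨_, t3⟩⟩
    unfold pv
    simp only
    rw [e1, if_neg]
    rintro (h' | h')
    · exact h.wh.2.1 h'
    · exact h.wh.2.2.1 h'

/-- the walk has not stopped before the time `m` -/
def Run (S : Finset ℂ) (w : ℤ → ℂ) (k : ℤ) (L T σ : Finset ℂ) (m : ℕ) : Prop :=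
  ∀ j < m, th S (st S w k L T σ j) ∉ T

theorem Wd.ne_zero (H : Wd S n w k L R T) (hσ : σ ⊆ fr S L R T) {m : ℕ}
    (hr : Run S w k L T σ m) {j : ℕ} (hj : j < m) :
    st S w k L T σ (j + 1) ≠ (w k, w (k + 1)) := by
  intro e
  have h1 := ((H.ok hσ j).back H (hr j hj)).2
  rw [← st_succ, e] at h1
  obtain ⟨c, hc⟩ := mem_sd.1 h1
  exact (H.cyc.edge k).2 c hc

/-- the states are different -/
theorem Wd.inj (H : Wd S n w k L R T) (hσ : σ ⊆ fr S L R T) {m : ℕ}
    (hr : Run S w k L T σ m) : ∀ i j : ℕ, i < j → j ≤ m → st S w k L T σ i ≠ st S w k L T σ j := by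
  intro i
  induction i with
  | zero =>
    intro j hj hm e
    obtain ⟨j, rfl⟩ : ∃ j', j = j' + 1 := ⟨j - 1, by omega⟩
    exact H.ne_zero hσ hr (by omega) e.symm
  | succ i ih =>
    intro j hj hm e
    obtain ⟨j, rfl⟩ : ∃ j', j = j' + 1 := ⟨j - 1, by omega⟩
    have h1 := ((H.ok hσ i).back H (hr i (by omega))).1
    have h2 := ((H.ok hσ j).back H (hr j (by omega))).1
    rw [← st_succ] at h1 h2
    rw [e, h2] at h1
    exact ih j (by omega) (by omega) h1.symm

/-- the walk stops -/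
theorem Wd.stops (H : Wd S n w k L R T) (hσ : σ ⊆ fr S L R T) :
    ∃ j, th S (st S w k L T σ j) ∈ T := by
  by_contra hcon
  push Not at hcon
  have hr : ∀ m, Run S w k L T σ m := fun m j _ => hcon j
  have hinj : Function.Injective (st S w k L T σ) := by
    intro i j e
    rcases lt_trichotomy i j with h | h | h
    · exact absurd e (H.inj hσ (hr j) i j h le_rfl)
    · exact h
    · exact absurd e.symm (H.inj hσ (hr i) j i h le_rfl)
  have hfin : (Set.range (st S w k L T σ)).Finite := by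
    refine (Finset.finite_toSet (S ×ˢ S)).subset ?_
    rintro _ ⟨j, rfl⟩
    obtain ⟨s1, s2, -⟩ := sites H.gp (H.ok hσ j).sid
    simp only [Finset.coe_product, Set.mem_prod, Finset.mem_coe]
    exact ⟨s1, s2⟩
  exact Set.infinite_range_of_injective hinj hfin

/-- the time of the stop -/
def tau (S : Finset ℂ) (w : ℤ → ℂ) (k : ℤ) (L T σ : Finset ℂ) : ℕ :=
  if h : ∃ j, th S (st S w k L T σ j) ∈ T then Nat.find h else 0

theorem Wd.tau_mem (H : Wd S n w k L R T) (hσ : σ ⊆ fr S L R T) :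
    th S (st S w k L T σ (tau S w k L T σ)) ∈ T := by
  have h := H.stops hσ
  unfold tau
  rw [dif_pos h]
  exact Nat.find_spec h

theorem run_tau : Run S w k L T σ (tau S w k L T σ) := by
  intro j hj
  unfold tau at hj
  split_ifs at hj with h
  · exact Nat.find_min h hj
  · exact absurd hj (Nat.not_lt_zero j)

theorem Wd.tau_le (H : Wd S n w k L R T) (hσ : σ ⊆ fr S L R T) {m : ℕ}
    (hr : Run S w k L T σ m) : m ≤ tau S w k L T σ := by
  by_contra hcon
  push Not at hcon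
  exact hr _ hcon (H.tau_mem hσ)

/-! ### the chains -/

theorem Wd.left (H : Wd S n w k L R T) (hσ : σ ⊆ fr S L R T) {i j : ℕ} (hij : i ≤ j) :
    Pth S {v | Bl L σ v ∧ ∃ m, i ≤ m ∧ m ≤ j ∧ v = (st S w k L T σ m).1}
      (st S w k L T σ i).1 (st S w k L T σ j).1 := by
  induction j, hij using Nat.le_induction with
  | base => exact Pth.refl ⟨(H.ok hσ i).bl, i, le_rfl, le_rfl, rfl⟩
  | succ j hij ih =>
    have h1 : Pth S {v | Bl L σ v ∧ ∃ m, i ≤ m ∧ m ≤ j + 1 ∧ v = (st S w k L T σ m).1}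
        (st S w k L T σ i).1 (st S w k L T σ j).1 := by
      refine ih.mono ?_
      rintro v ⟨h1, m, h2, h3, h4⟩
      exact ⟨h1, m, h2, by omega, h4⟩
    by_cases he : (st S w k L T σ (j + 1)).1 = (st S w k L T σ j).1
    · rw [he]; exact h1
    · have hb := (H.ok hσ (j + 1)).bl
      refine h1.tail ?_ ⟨hb, j + 1, by omega, le_rfl, rfl⟩
      obtain ⟨t1, t2, t3⟩ := tri_mem H.gp (H.ok hσ j).sid
      rw [st_succ] at he ⊢
      unfold nx at he ⊢
      split_ifs at he ⊢ with c1 c2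
      · exact absurd rfl he
      · exact (adj_tri t3).symm
      · exact absurd rfl he

theorem Wd.right (H : Wd S n w k L R T) (hσ : σ ⊆ fr S L R T) {i j : ℕ} (hij : i ≤ j) :
    Pth S {v | Wh S L T σ v ∧ ∃ m, i ≤ m ∧ m ≤ j ∧ v = (st S w k L T σ m).2}
      (st S w k L T σ i).2 (st S w k L T σ j).2 := by
  induction j, hij using Nat.le_induction with
  | base => exact Pth.refl ⟨(H.ok hσ i).wh, i, le_rfl, le_rfl, rfl⟩
  | succ j hij ih =>
    have h1 : Pth S {v | Wh S L T σ v ∧ ∃ m, i ≤ m ∧ m ≤ j + 1 ∧ v = (st S w k L T σ m).2}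
        (st S w k L T σ i).2 (st S w k L T σ j).2 := by
      refine ih.mono ?_
      rintro v ⟨h1, m, h2, h3, h4⟩
      exact ⟨h1, m, h2, by omega, h4⟩
    by_cases he : (st S w k L T σ (j + 1)).2 = (st S w k L T σ j).2
    · rw [he]; exact h1
    · have hb := (H.ok hσ (j + 1)).wh
      refine h1.tail ?_ ⟨hb, j + 1, by omega, le_rfl, rfl⟩
      obtain ⟨t1, t2, t3⟩ := tri_mem H.gp (H.ok hσ j).sid
      rw [st_succ] at he ⊢
      unfold nx at he ⊢
      split_ifs at he ⊢ with c1 c2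
      · exact absurd rfl he
      · exact absurd rfl he
      · exact adj_tri t2

/-- sites of two successive states are adjacent or equal, and the two sites of a state are adjacent -/
theorem Wd.adj (H : Wd S n w k L R T) (hσ : σ ⊆ fr S L R T) (j : ℕ) :
    Adj S (st S w k L T σ j).1 (st S w k L T σ j).2 :=
  adj_tri (th_spec (H.ok hσ j).sid)

/-! ### exploration -/

/-- the free sites seen up to the time `m` -/
def rev (S : Finset ℂ) (w : ℤ → ℂ) (k : ℤ) (L R T σ : Finset ℂ) (m : ℕ) : Finset ℂ :=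
  (fr S L R T).filter fun v => ∃ j < m, v = th S (st S w k L T σ j)

theorem rev_mono {m m' : ℕ} (h : m ≤ m') : rev S w k L R T σ m ⊆ rev S w k L R T σ m' := by
  intro v hv
  unfold rev at hv ⊢
  rw [Finset.mem_filter] at hv ⊢
  obtain ⟨h1, j, h2, h3⟩ := hv
  exact ⟨h1, j, by omega, h3⟩

/-- the walk only depends on the colours which it has seen -/
theorem Wd.agree (_H : Wd S n w k L R T) (hσ : σ ⊆ fr S L R T) (hσ' : σ' ⊆ fr S L R T) {m : ℕ}
    (h : σ ∩ rev S w k L R T σ m = σ' ∩ rev S w k L R T σ m) :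
    ∀ j ≤ m, st S w k L T σ' j = st S w k L T σ j := by
  intro j
  induction j with
  | zero => intro _; rfl
  | succ j ih =>
    intro hj
    have e := ih (by omega)
    rw [st_succ, st_succ, e]
    unfold nx
    have hb : Bl L σ' (th S (st S w k L T σ j)) ↔ Bl L σ (th S (st S w k L T σ j)) := by
      unfold Bl
      by_cases hf : th S (st S w k L T σ j) ∈ fr S L R T
      · have hr : th S (st S w k L T σ j) ∈ rev S w k L R T σ m := by
          unfold rev
          rw [Finset.mem_filter]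
          exact ⟨hf, j, by omega, rfl⟩
        have h1 : th S (st S w k L T σ j) ∈ σ ∩ rev S w k L R T σ m ↔
            th S (st S w k L T σ j) ∈ σ' ∩ rev S w k L R T σ m := by rw [h]
        simp only [Finset.mem_inter, hr, and_true] at h1
        rw [h1]
      · have h1 : th S (st S w k L T σ j) ∉ σ := fun h' => hf (hσ h')
        have h2 : th S (st S w k L T σ j) ∉ σ' := fun h' => hf (hσ' h')
        simp only [h1, h2, false_or]
    simp only [hb]

theorem Wd.rev_agree (H : Wd S n w k L R T) (hσ : σ ⊆ fr S L R T) (hσ' : σ' ⊆ fr S L R T) {m : ℕ}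
    (h : σ ∩ rev S w k L R T σ m = σ' ∩ rev S w k L R T σ m) :
    rev S w k L R T σ' m = rev S w k L R T σ m := by
  have h1 := H.agree hσ hσ' h
  unfold rev
  refine Finset.filter_congr fun v _ => ?_
  constructor
  · rintro ⟨j, h2, h3⟩; exact ⟨j, h2, by rw [h3, h1 j (by omega)]⟩
  · rintro ⟨j, h2, h3⟩; exact ⟨j, h2, by rw [h3, h1 j (by omega)]⟩

/-- stopping time: it only depends on the colours seen -/
def Adp (S : Finset ℂ) (w : ℤ → ℂ) (k : ℤ) (L R T : Finset ℂ) (ρ : Finset ℂ → ℕ) : Prop :=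
  ∀ σ σ', σ ⊆ fr S L R T → σ' ⊆ fr S L R T →
    σ ∩ rev S w k L R T σ (ρ σ) = σ' ∩ rev S w k L R T σ (ρ σ) → ρ σ' = ρ σ

/-- the exploration up to a stopping time -/
theorem Adp.isStop (H : Wd S n w k L R T) {ρ : Finset ℂ → ℕ} (hρ : Adp S w k L R T ρ) :
    IsStop (fr S L R T) (fun σ => rev S w k L R T σ (ρ σ)) where
  sub := fun σ _ => Finset.filter_subset _ _
  stop := by
    intro σ σ' hσ hσ' h
    rw [hρ σ σ' hσ hσ' h]
    exact H.rev_agree hσ hσ' h

/-- history up to the time `j` -/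
def hist (S : Finset ℂ) (w : ℤ → ℂ) (k : ℤ) (L T σ : Finset ℂ) (j : ℕ) : List (ℂ × ℂ) :=
  (List.range (j + 1)).map (st S w k L T σ)

/-- first time at which the history has the property `P` or the walk stops -/
def fsT (S : Finset ℂ) (w : ℤ → ℂ) (k : ℤ) (L T : Finset ℂ) (P : List (ℂ × ℂ) → Prop)
    (σ : Finset ℂ) : ℕ :=
  if h : ∃ j, P (hist S w k L T σ j) ∨ th S (st S w k L T σ j) ∈ T then Nat.find h else 0

theorem Wd.fsT_spec (H : Wd S n w k L R T) (hσ : σ ⊆ fr S L R T) (P : List (ℂ × ℂ) → Prop) :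
    (P (hist S w k L T σ (fsT S w k L T P σ)) ∨
      th S (st S w k L T σ (fsT S w k L T P σ)) ∈ T) ∧
    ∀ j < fsT S w k L T P σ, ¬ P (hist S w k L T σ j) ∧ th S (st S w k L T σ j) ∉ T := by
  have h : ∃ j, P (hist S w k L T σ j) ∨ th S (st S w k L T σ j) ∈ T := by
    obtain ⟨j, hj⟩ := H.stops hσ
    exact ⟨j, Or.inr hj⟩
  have e : fsT S w k L T P σ = Nat.find h := by unfold fsT; rw [dif_pos h]
  rw [e]
  refine ⟨Nat.find_spec h, fun j hj => ?_⟩
  have := Nat.find_min h hj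
  push Not at this
  exact this

theorem Wd.fsT_le (H : Wd S n w k L R T) (hσ : σ ⊆ fr S L R T) (P : List (ℂ × ℂ) → Prop) :
    fsT S w k L T P σ ≤ tau S w k L T σ :=
  H.tau_le hσ fun j hj => ((H.fsT_spec hσ P).2 j hj).2

theorem fsT_false : fsT S w k L T (fun _ => False) σ = tau S w k L T σ := by
  unfold fsT tau
  simp only [false_or]

theorem hist_congr {j : ℕ} (h : ∀ i ≤ j, st S w k L T σ' i = st S w k L T σ i) :
    hist S w k L T σ' j = hist S w k L T σ j := by
  unfold hist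
  refine List.map_congr_left fun i hi => h i ?_
  rw [List.mem_range] at hi
  omega

/-- first times are stopping times -/
theorem Wd.fsT_adp (H : Wd S n w k L R T) (P : List (ℂ × ℂ) → Prop) :
    Adp S w k L R T (fsT S w k L T P) := by
  intro σ σ' hσ hσ' h
  have h1 := H.agree hσ hσ' h
  obtain ⟨a1, a2⟩ := H.fsT_spec hσ P
  obtain ⟨b1, b2⟩ := H.fsT_spec hσ' P
  rcases lt_trichotomy (fsT S w k L T P σ') (fsT S w k L T P σ) with hlt | heq | hgt
  · exfalso
    have e1 : hist S w k L T σ' (fsT S w k L T P σ') = hist S w k L T σ (fsT S w k L T P σ') :=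
      hist_congr fun i hi => h1 i (by omega)
    have e2 := h1 (fsT S w k L T P σ') hlt.le
    rw [e1, e2] at b1
    obtain ⟨c1, c2⟩ := a2 _ hlt
    rcases b1 with b1 | b1
    · exact c1 b1
    · exact c2 b1
  · exact heq
  · exfalso
    have e1 : hist S w k L T σ' (fsT S w k L T P σ) = hist S w k L T σ (fsT S w k L T P σ) :=
      hist_congr fun i hi => h1 i hi
    have e2 := h1 (fsT S w k L T P σ) le_rfl
    obtain ⟨c1, c2⟩ := b2 _ hgt
    rw [e1] at c1
    rw [e2] at c2
    rcases a1 with a1 | a1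
    · exact c1 a1
    · exact c2 a1

/-- the complete exploration -/
theorem Wd.tau_adp (H : Wd S n w k L R T) : Adp S w k L R T (tau S w k L T) := by
  have := H.fsT_adp (fun _ => False)
  have e : fsT S w k L T (fun _ => False) = tau S w k L T := by
    funext σ; exact fsT_false
  rwa [e] at this

/-! ### the end of the walk -/

/-- the triangle `t = (v, a, b)` with `v` in the target class, `a` joined to the left class by black
sites and `b` joined to the right class by white sites -/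
structure Hit (S L R T σ : Finset ℂ) (t : ℂ × ℂ × ℂ) : Prop where
  mem : t ∈ delT S
  tgt : t.1 ∈ T
  bl : ∃ x ∈ L, Pth S {v | Bl L σ v} x t.2.1
  wh : ∃ y ∈ R, Pth S {v | Wh S L T σ v} y t.2.2

/-- the triangle at the end of the walk -/
def fin (S : Finset ℂ) (w : ℤ → ℂ) (k : ℤ) (L T σ : Finset ℂ) : ℂ × ℂ × ℂ :=
  (th S (st S w k L T σ (tau S w k L T σ)), st S w k L T σ (tau S w k L T σ))

/-- the walk ends at a hit triangle -/
theorem Wd.hit (H : Wd S n w k L R T) (hσ : σ ⊆ fr S L R T) :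
    Hit S L R T σ (fin S w k L T σ) where
  mem := (tri_mem H.gp (H.ok hσ _).sid).2.2
  tgt := H.tau_mem hσ
  bl := ⟨_, H.st0, (H.left hσ (Nat.zero_le _)).mono fun _ hv => hv.1⟩
  wh := ⟨_, H.st1, (H.right hσ (Nat.zero_le _)).mono fun _ hv => hv.1⟩

/-- if the hit triangle is unique, the end of the walk is the hit triangle -/
theorem Wd.hit_iff (H : Wd S n w k L R T) (hσ : σ ⊆ fr S L R T)
    (hu : ∀ t t', Hit S L R T σ t → Hit S L R T σ t' → t = t') (t : ℂ × ℂ × ℂ) :
    Hit S L R T σ t ↔ t = fin S w k L T σ :=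
  ⟨fun h => hu _ _ h (H.hit hσ), fun h => h ▸ H.hit hσ⟩

/-! ### polygons with three classes -/

section pg

variable {p : ℕ → ℤ} {A : ℕ → Finset ℂ}

theorem pg_arc (h : Pg S n w 2 p A) (j : ℤ) : ∃ c ≤ 2, w j ∈ A c ∧
    (w (j + 1) ∈ A c ∨ w (j + 1) ∈ A ((c + 1) % 3)) := by
  have hn : (0 : ℤ) < n := by exact_mod_cast h.cyc.pos
  obtain ⟨j', h1, h2, h3⟩ : ∃ j', p 0 < j' ∧ j' ≤ p 0 + n ∧ ∃ q : ℤ, j' = j + q * n := by
    refine ⟨p 0 + 1 + (j - (p 0 + 1)) % n, ?_, ?_, -((j - (p 0 + 1)) / n), ?_⟩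
    · have := Int.emod_nonneg (j - (p 0 + 1)) hn.ne'
      linarith
    · have := Int.emod_lt_of_pos (j - (p 0 + 1)) hn
      linarith
    · have := Int.emod_add_mul_ediv (j - (p 0 + 1)) n
      linarith
  obtain ⟨q, h3⟩ := h3
  have per : ∀ (q : ℤ) (i : ℤ), w (i + q * n) = w i := by
    intro q i
    induction q using Int.induction_on with
    | zero => simp
    | succ m ih =>
      rw [show i + ((m : ℤ) + 1) * n = i + m * n + n by ring, h.cyc.per, ih]
    | pred m ih =>
      rw [← h.cyc.per (i + (-(m : ℤ) - 1) * n), ← ih]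
      congr 1; ring
  have e0 : w j = w j' := by rw [h3, per]
  have e1 : w (j + 1) = w (j' + 1) := by
    rw [h3, show j + q * n + 1 = (j + 1) + q * n by ring, per]
  rw [e0, e1]
  have m0 : p 0 < p 1 := h.mono 0 (by norm_num)
  have m1 : p 1 < p 2 := h.mono 1 (by norm_num)
  have ml := h.last
  have arc0 : ∀ k, p 0 < k → k ≤ p 1 → w k ∈ A 0 := h.arc 0 (by norm_num)
  have arc1 : ∀ k, p 1 < k → k ≤ p 2 → w k ∈ A 1 := h.arc 1 (by norm_num)
  rcases lt_or_ge (p 1) j' with a1 | a1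
  · rcases lt_or_ge (p 2) j' with a2 | a2
    · refine ⟨2, le_rfl, h.arcl j' a2 h2, ?_⟩
      rcases h2.lt_or_eq with a3 | a3
      · exact Or.inl (h.arcl (j' + 1) (by omega) (by omega))
      · right
        have : w (j' + 1) = w (p 0 + 1) := by
          rw [a3, show p 0 + (n : ℤ) + 1 = (p 0 + 1) + n by ring, h.cyc.per]
        rw [this]
        exact arc0 (p 0 + 1) (by omega) (by omega)
    · refine ⟨1, by norm_num, arc1 j' a1 a2, ?_⟩
      rcases a2.lt_or_eq with a3 | a3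
      · exact Or.inl (arc1 (j' + 1) (by omega) (by omega))
      · right
        exact h.arcl (j' + 1) (by omega) (by omega)
  · refine ⟨0, by norm_num, arc0 j' h1 a1, ?_⟩
    rcases a1.lt_or_eq with a3 | a3
    · exact Or.inl (arc0 (j' + 1) (by omega) (by omega))
    · right
      exact arc1 (j' + 1) (by omega) (by omega)

theorem pg_class (h : Pg S n w 2 p A) {c c' : ℕ} (hc : c ≤ 2) (hc' : c' ≤ 2) {v : ℂ}
    (h1 : v ∈ A c) (h2 : v ∈ A c') : c = c' := by
  by_contra hne
  exact Finset.disjoint_left.1 (h.disj c c' hc hc' hne) h1 h2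

/-- the walk to the class `c` -/
theorem pg_wd (h : Pg S n w 2 p A) {c : ℕ} (hc : c ≤ 2) :
    Wd S n w (p ((c + 2) % 3)) (A ((c + 1) % 3)) (A ((c + 2) % 3)) (A c) := by
  have m0 : p 0 < p 1 := h.mono 0 (by norm_num)
  have m1 : p 1 < p 2 := h.mono 1 (by norm_num)
  have ml := h.last
  have arc0 : ∀ k, p 0 < k → k ≤ p 1 → w k ∈ A 0 := h.arc 0 (by norm_num)
  have arc1 : ∀ k, p 1 < k → k ≤ p 2 → w k ∈ A 1 := h.arc 1 (by norm_num)
  have b1 : (c + 1) % 3 ≤ 2 := by omega
  have b2 : (c + 2) % 3 ≤ 2 := by omega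
  have s0 : w (p ((c + 2) % 3)) ∈ A ((c + 1) % 3) := by
    interval_cases c
    · exact arc1 _ m1 le_rfl
    · show w (p 0) ∈ A 2
      rw [← h.cyc.per]
      exact h.arcl _ (by omega) le_rfl
    · exact arc0 _ m0 le_rfl
  have s1 : w (p ((c + 2) % 3) + 1) ∈ A ((c + 2) % 3) := by
    interval_cases c
    · exact h.arcl _ (by show p 2 < p 2 + 1; omega) (by show p 2 + 1 ≤ p 0 + n; omega)
    · exact arc0 _ (by show p 0 < p 0 + 1; omega) (by show p 0 + 1 ≤ p 1; omega)
    · exact arc1 _ (by show p 1 < p 1 + 1; omega) (by show p 1 + 1 ≤ p 2; omega)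
  refine ⟨h.gp, h.cyc, h.sub _ b1, h.sub _ b2, h.sub _ hc, h.disj _ _ b1 b2 (by omega),
    h.disj _ _ b1 hc (by omega), h.disj _ _ b2 hc (by omega), ?_, s0, s1, ?_⟩
  · intro j
    obtain ⟨c', hc', h1, -⟩ := pg_arc h j
    have : c' = (c + 1) % 3 ∨ c' = (c + 2) % 3 ∨ c' = c := by omega
    rcases this with rfl | rfl | rfl
    · exact Or.inl h1
    · exact Or.inr (Or.inl h1)
    · exact Or.inr (Or.inr h1)
  · intro j hj hj'
    obtain ⟨c', hc', h1, h2⟩ := pg_arc h j
    have e1 := pg_class h hc' b2 h1 hj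
    rcases h2 with h2 | h2
    · have e2 := pg_class h hc' b1 h2 hj'
      omega
    · have e2 := pg_class h (by omega) b1 h2 hj'
      omega

theorem pg_fr {c : ℕ} (hc : c ≤ 2) :
    fr S (A ((c + 1) % 3)) (A ((c + 2) % 3)) (A c) = inr S A 2 := by
  unfold fr inr un
  congr 1
  ext v
  simp only [Finset.mem_union, Finset.mem_biUnion, Finset.mem_Ico]
  constructor
  · rintro ((h | h) | h)
    · exact ⟨_, ⟨by omega, by omega⟩, h⟩
    · exact ⟨_, ⟨by omega, by omega⟩, h⟩
    · exact ⟨_, ⟨by omega, by omega⟩, h⟩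
  · rintro ⟨c', ⟨h1, h2⟩, h3⟩
    have : c' = (c + 1) % 3 ∨ c' = (c + 2) % 3 ∨ c' = c := by omega
    rcases this with rfl | rfl | rfl
    · exact Or.inl (Or.inl h3)
    · exact Or.inl (Or.inr h3)
    · exact Or.inr h3

end pg

end Crest.Agent.R143.Wk2x133
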