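import Crest.Agent.R143.B6I_903

/-!
# Row 143 (S0194), block X: literal output `XOUT` (helper683; text of helper927 with the dichotomy of
helper654)

For two networks which agree near `z` : all amplitudes near `z` are tiny in the first network, or in
the second one, or the winding polynomials mix on the set `T'` of the normal faces, and the amplitudes
of all other faces are tiny in both networks.
-/

set_option autoImplicit false

open scoped Topology Classical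

namespace Crest.Agent.R143.X0Dx683

open Complex Set Metric Filter
open Crest.ProbabilityR.Voronoi
open Crest.Agent.R143.B0x346 Crest.Agent.R143.B0Dx346
open Crest.Agent.R143.B6Ix903
open Crest.Agent.R143.B1bx796 (touch)

/-- the short real segment `[1, 1 + rhoS ε]` -/
noncomputable def rhoS (ε : ℝ) : ℝ := Real.exp (-Real.sqrt (Real.log (1 / ε)))

/-- choice of base points and of lifts at the common faces of two networks -/
structure LiftData where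
  pt : ℂ × ℂ × ℂ → ℂ
  lf : ℂ × ℂ × ℂ → ℤ → ℝ
  lf' : ℂ × ℂ × ℂ → ℤ → ℝ
  a0 : ℂ × ℂ × ℂ → ℝ
  a0' : ℂ × ℂ × ℂ → ℝ

/-- winding polynomial of the face `t` in the first network at the real point `x` -/
noncomputable def LiftData.X (l : LiftData) (N : Net ℂ) (t : ℂ × ℂ × ℂ) (x : ℝ) : ℝ :=
  (N.X t (l.pt t) (l.lf t) (l.a0 t) (x : ℂ)).re

/-- winding polynomial of the face `t` in the second network at the real point `x` -/
noncomputable def LiftData.X' (l : LiftData) (N : Net ℂ) (t : ℂ × ℂ × ℂ) (x : ℝ) : ℝ :=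
  (N.X t (l.pt t) (l.lf' t) (l.a0' t) (x : ℂ)).re

/-- admissible base point and lift at the face `t` -/
structure Pos (N : Net ℂ) (t : ℂ × ℂ × ℂ) (x : ℂ) (lf : ℤ → ℝ) (a0 : ℝ) : Prop where
  inn : Lft x t.1 t.2.1 ∧ Lft x t.2.1 t.2.2 ∧ Lft x t.2.2 t.1
  lift : Lift N x lf
  dir : ∃ r : ℝ, 0 < r ∧ mid (t.1, t.2.1) - x = (r : ℂ) * Complex.exp (a0 * Complex.I)

/-- the crude bound: `exp (log (1 / ε) ^ C0)` (any power of the logarithm is allowed) -/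
noncomputable def crd (C0 ε : ℝ) : ℝ := Real.log (1 / ε) ^ C0

/-- **mixing at real points for two networks** on the faces `T`: admissible lifts, very crude bounds
(lower at `1`, upper on `[e^{-s}, e^{s}]`), cross ratios close to one on the short segment -/
structure MixN (N N' : Net ℂ) (T : Finset (ℂ × ℂ × ℂ)) (l : LiftData) (s ε c C0 : ℝ) : Prop where
  pos : ∀ t ∈ T, Pos N t (l.pt t) (l.lf t) (l.a0 t)
  pos' : ∀ t ∈ T, Pos N' t (l.pt t) (l.lf' t) (l.a0' t)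
  lo : ∀ t ∈ T, Real.exp (-crd C0 ε) ≤ l.X N t 1
  lo' : ∀ t ∈ T, Real.exp (-crd C0 ε) ≤ l.X' N' t 1
  up : ∀ t ∈ T, ∀ x ∈ Icc (Real.exp (-s)) (Real.exp s), l.X N t x ≤ Real.exp (crd C0 ε)
  up' : ∀ t ∈ T, ∀ x ∈ Icc (Real.exp (-s)) (Real.exp s), l.X' N' t x ≤ Real.exp (crd C0 ε)
  mix : ∀ x ∈ Icc (1 : ℝ) (1 + rhoS ε), ∀ s ∈ T, ∀ t ∈ T,
    |l.X N t x * l.X' N' s x - l.X N s x * l.X' N' t x| ≤ ε ^ c * (l.X N s x * l.X' N' t x)

/-- **literal output of block X** -/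
def XOUT : Prop := ∀ (π : Par) (δ δ' : ℝ), 0 < δ → 0 < δ' → ∀ κ : ℝ, 0 < κ → κ < 1 / 2 →
  ∀ A : ℝ, 0 < A →
  ∃ s0 : ℝ, 0 < s0 ∧ ∀ s : ℝ, 0 < s → s ≤ s0 → ∃ c C0 : ℝ, 0 < c ∧ 0 < C0 ∧
    ∀ᶠ ε : ℝ in 𝓝[>] 0, ∀ (D D' : Dom) (ω ω' : Sample) (z : ℂ),
      At π δ ε D ω z → At π δ' ε D' ω' z →
      (∀ s : ℂ, ‖s - z‖ < π.R → (s ∈ points ε ω ↔ s ∈ points ε ω')) →
      (∀ t ∈ touch z (ε ^ κ) (D.sites ε ω), ‖(net D ε ω).Q t‖ ≤ ε ^ A) ∨
      (∀ t ∈ touch z (ε ^ κ) (D.sites ε ω), ‖(net D' ε ω').Q t‖ ≤ ε ^ (2 * A)) ∨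
      ∃ (l : LiftData) (T' : Finset (ℂ × ℂ × ℂ)), T' ⊆ touch z (ε ^ κ) (D.sites ε ω) ∧
        MixN (net D ε ω) (net D' ε ω') T' l s ε c C0 ∧
        ∀ t ∈ touch z (ε ^ κ) (D.sites ε ω), t ∉ T' →
          ‖(net D ε ω).Q t‖ ≤ ε ^ A ∧ ‖(net D' ε ω').Q t‖ ≤ ε ^ A

end Crest.Agent.R143.X0Dx683
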