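import Crest.Agent.R143.X0C_683

/-!
# Row 143 (S0194), block X, assembly 1 (helper683): abstract counting and the passage from the labels
to the winding polynomial at real points

* `Sys2.V_step`, `Sys2.Bd_le_V`
* `bd_le` : counting: the weight of the paths with `k` bad states is at most `e ^ (k - 1)`
* `polymix` : mixing of the coefficients + exponential tails => cross ratios of the polynomials at the
  real points of `[1, 1 + ρ]`
-/

set_option autoImplicit false

noncomputable section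

open scoped Classical

namespace Crest.Agent.R143.X1Ax683

open Crest.Agent.R143.X0Cx683

variable {A F B ι : Type} {D : RegD F B} {m : ℕ} {c C : ℝ}

theorem V_nonneg (Z : Sys2 A F B ι D m c C) (j : ℕ) (a : A) (s : F) : 0 ≤ Z.V j a s :=
  finsum_nonneg fun k => Z.X_nonneg j a s k

theorem V_step (Z : Sys2 A F B ι D m c C) {j : ℕ} (hj : j < m) {a : A} (ha : Z.st j a) (s : F) :
    Z.V j a s = ∑ i ∈ Z.I j, Z.p j i * Z.V (j + 1) (Z.nx j a i) s := by
  unfold Sys2.V
  calc ∑ᶠ k, Z.X j a s k = ∑ᶠ k, ∑ i ∈ Z.I j, Z.p j i * Z.X (j + 1) (Z.nx j a i) s k :=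
        finsum_congr fun k => Z.step j hj a ha s k
    _ = ∑ i ∈ Z.I j, ∑ᶠ k, Z.p j i * Z.X (j + 1) (Z.nx j a i) s k := by
        refine finsum_sum_comm _ _ fun i _ => ?_
        exact (Z.X_fin (j + 1) (Z.nx j a i) s).subset fun k hk => by
          intro h0
          exact hk (by simp only [h0, mul_zero])
    _ = ∑ i ∈ Z.I j, Z.p j i * ∑ᶠ k, Z.X (j + 1) (Z.nx j a i) s k := by
        refine Finset.sum_congr rfl fun i _ => ?_
        exact (mul_finsum _ _).symm

theorem Bd_nonneg (Z : Sys2 A F B ι D m c C) (s : F) :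
    ∀ (n j k : ℕ) (a : A), 0 ≤ Z.Bd n j k a s
  | 0, j, k, a => by
      unfold Sys2.Bd
      split_ifs
      · exact V_nonneg Z j a s
      · exact le_refl _
  | n + 1, j, k, a => by
      unfold Sys2.Bd
      exact Finset.sum_nonneg fun i _ => mul_nonneg (Z.p_nonneg j i) (Bd_nonneg Z s n _ _ _)

theorem Bd_le_V (Z : Sys2 A F B ι D m c C) (s : F) :
    ∀ (n j k : ℕ) (a : A), j + n = m → Z.st j a → Z.Bd n j k a s ≤ Z.V j a s
  | 0, j, k, a, _, _ => by
      unfold Sys2.Bd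
      split_ifs
      · exact le_refl _
      · exact V_nonneg Z j a s
  | n + 1, j, k, a, h, ha => by
      have hj : j < m := by omega
      unfold Sys2.Bd
      rw [V_step Z hj ha s]
      refine Finset.sum_le_sum fun i hi => mul_le_mul_of_nonneg_left ?_ (Z.p_nonneg j i)
      exact Bd_le_V Z s n (j + 1) _ _ (by omega) (Z.st_nx j hj a ha i hi)

/-- **counting**: `ho j a` = the outer legs reach the scale `j` -/
theorem bd_le (Z : Sys2 A F B ι D m c C) (s : F) (ho : ℕ → A → Prop) {e : ℝ} (he0 : 0 ≤ e)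
    (he1 : e ≤ 1)
    (H1 : ∀ j < m, ∀ a, Z.st j a → ¬ Z.good j a →
      ∑ i ∈ (Z.I j).filter (fun i => ho (j + 1) (Z.nx j a i)), Z.p j i ≤ e)
    (H2 : ∀ j < m, ∑ i ∈ Z.I j, Z.p j i ≤ 1)
    (H3 : ∀ j ≤ m, ∀ a, Z.st j a → ¬ ho j a → Z.V j a s = 0)
    (H4 : ∀ a, Z.st m a → Z.V m a s ≤ 1) :
    ∀ (n j k : ℕ) (a : A), j + n = m → Z.st j a → Z.Bd n j k a s ≤ e ^ (k - 1)
  | 0, j, k, a, h, ha => by
      have hj : j = m := by omega
      subst hj
      unfold Sys2.Bd
      split_ifs with hk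
      · have hk1 : k - 1 = 0 := by omega
        rw [hk1, pow_zero]
        exact H4 a ha
      · positivity
  | n + 1, j, k, a, h, ha => by
      have hj : j < m := by omega
      have ih := bd_le Z s ho he0 he1 H1 H2 H3 H4 n (j + 1)
      unfold Sys2.Bd
      by_cases hg : Z.good j a
      · rw [if_pos hg, Nat.sub_zero]
        calc ∑ i ∈ Z.I j, Z.p j i * Z.Bd n (j + 1) k (Z.nx j a i) s
            ≤ ∑ i ∈ Z.I j, Z.p j i * e ^ (k - 1) :=
              Finset.sum_le_sum fun i hi => mul_le_mul_of_nonneg_left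
                (ih k _ (by omega) (Z.st_nx j hj a ha i hi)) (Z.p_nonneg j i)
          _ = (∑ i ∈ Z.I j, Z.p j i) * e ^ (k - 1) := by rw [Finset.sum_mul]
          _ ≤ 1 * e ^ (k - 1) := mul_le_mul_of_nonneg_right (H2 j hj) (by positivity)
          _ = e ^ (k - 1) := one_mul _
      · rw [if_neg hg]
        have hz : ∀ i ∈ Z.I j, ¬ ho (j + 1) (Z.nx j a i) →
            Z.p j i * Z.Bd n (j + 1) (k - 1) (Z.nx j a i) s = 0 := by
          intro i hi hn
          have hs := Z.st_nx j hj a ha i hi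
          have h1 := Bd_le_V Z s n (j + 1) (k - 1) (Z.nx j a i) (by omega) hs
          rw [H3 (j + 1) (by omega) _ hs hn] at h1
          have h2 := Bd_nonneg Z s n (j + 1) (k - 1) (Z.nx j a i)
          rw [le_antisymm h1 h2, mul_zero]
        rw [← Finset.sum_filter_add_sum_filter_not (Z.I j) (fun i => ho (j + 1) (Z.nx j a i))]
        have h0 : ∑ i ∈ (Z.I j).filter (fun i => ¬ ho (j + 1) (Z.nx j a i)),
            Z.p j i * Z.Bd n (j + 1) (k - 1) (Z.nx j a i) s = 0 :=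
          Finset.sum_eq_zero fun i hi => by
            rw [Finset.mem_filter] at hi
            exact hz i hi.1 hi.2
        rw [h0, add_zero]
        calc ∑ i ∈ (Z.I j).filter (fun i => ho (j + 1) (Z.nx j a i)),
              Z.p j i * Z.Bd n (j + 1) (k - 1) (Z.nx j a i) s
            ≤ ∑ i ∈ (Z.I j).filter (fun i => ho (j + 1) (Z.nx j a i)),
              Z.p j i * e ^ (k - 1 - 1) :=
              Finset.sum_le_sum fun i hi => mul_le_mul_of_nonneg_left
                (ih (k - 1) _ (by omega) (Z.st_nx j hj a ha i (Finset.mem_filter.1 hi).1))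
                (Z.p_nonneg j i)
          _ = (∑ i ∈ (Z.I j).filter (fun i => ho (j + 1) (Z.nx j a i)), Z.p j i) *
              e ^ (k - 1 - 1) := by rw [Finset.sum_mul]
          _ ≤ e * e ^ (k - 1 - 1) :=
              mul_le_mul_of_nonneg_right (H1 j hj a ha hg) (by positivity)
          _ ≤ e ^ (k - 1) := by
              rcases Nat.eq_zero_or_pos (k - 1) with hk | hk
              · rw [hk]
                simpa using he1
              · rw [← pow_succ']
                have : k - 1 - 1 + 1 = k - 1 := by omega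
                rw [this]

/-! ### polynomials at real points -/

/-- polynomial of a sequence -/
def P (K : Finset ℤ) (u : ℤ → ℝ) (x : ℝ) : ℝ := ∑ k ∈ K, u k * x ^ k

theorem zpow_le_exp {x ρ : ℝ} (hx1 : 1 ≤ x) (hx2 : x ≤ 1 + ρ) (n : ℤ) :
    x ^ n ≤ Real.exp (ρ * |(n : ℝ)|) := by
  have hx0 : 0 < x := by linarith
  have hρ : 0 ≤ ρ := by linarith
  have h1 : x ≤ Real.exp ρ := by
    have := Real.add_one_le_exp ρ
    linarith
  have h2 : x ^ n ≤ x ^ |n| := zpow_le_zpow_right₀ hx1 (le_abs_self n)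
  have h3 : x ^ |n| = x ^ (n.natAbs) := by
    rw [Int.abs_eq_natAbs, zpow_natCast]
  have h4 : x ^ (n.natAbs) ≤ Real.exp ρ ^ n.natAbs := pow_le_pow_left₀ hx0.le h1 _
  have h5 : Real.exp ρ ^ n.natAbs = Real.exp (ρ * |(n : ℝ)|) := by
    rw [← Real.exp_nat_mul]
    congr 1
    have : ((n.natAbs : ℕ) : ℝ) = |(n : ℝ)| := by
      rw [Nat.cast_natAbs]
      push_cast
      rfl
    rw [this]
    ring
  rw [h3] at h2
  rw [h5] at h4
  exact h2.trans h4

theorem exp_le_zpow {x ρ : ℝ} (hx1 : 1 ≤ x) (hx2 : x ≤ 1 + ρ) (n : ℤ) :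
    Real.exp (-(ρ * |(n : ℝ)|)) ≤ x ^ n := by
  have hx0 : 0 < x := by linarith
  have h := zpow_le_exp hx1 hx2 (-n)
  rw [zpow_neg] at h
  have h2 : |((-n : ℤ) : ℝ)| = |(n : ℝ)| := by push_cast; exact abs_neg _
  rw [h2] at h
  have h3 : 0 < x ^ n := zpow_pos hx0 n
  rw [Real.exp_neg, inv_le_comm₀ (Real.exp_pos _) h3]
  exact h

theorem P_mul {K : Finset ℤ} {u v : ℤ → ℝ} {x : ℝ} (hx : x ≠ 0) :
    P K u x * P K v x = ∑ k ∈ K, ∑ l ∈ K, u k * v l * x ^ (k + l) := by
  unfold P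
  rw [Finset.sum_mul_sum]
  refine Finset.sum_congr rfl fun k _ => Finset.sum_congr rfl fun l _ => ?_
  rw [zpow_add₀ hx]
  ring

/-- the cut function -/
def cutf (M x : ℝ) (n : ℤ) : ℝ := if |(n : ℝ)| ≤ M then x ^ n / Real.exp 1 else 0

theorem cutf_le {x ρ M : ℝ} (hx1 : 1 ≤ x) (hx2 : x ≤ 1 + ρ) (hM : ρ * M ≤ 1) (n : ℤ) :
    |cutf M x n| ≤ 1 := by
  have hx0 : 0 < x := by linarith
  have hρ : 0 ≤ ρ := by linarith
  unfold cutf
  split_ifs with h
  · have h1 := zpow_le_exp hx1 hx2 n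
    have h2 : Real.exp (ρ * |(n : ℝ)|) ≤ Real.exp 1 :=
      Real.exp_le_exp.2 ((mul_le_mul_of_nonneg_left h hρ).trans hM)
    have h3 : 0 < x ^ n := zpow_pos hx0 n
    rw [abs_of_nonneg (by positivity), div_le_one (Real.exp_pos _)]
    exact h1.trans h2
  · simp

/-- the part of the product with large `|k + l|` -/
def tl (K : Finset ℤ) (M x : ℝ) (u v : ℤ → ℝ) : ℝ :=
  ∑ k ∈ K, ∑ l ∈ K, if |((k + l : ℤ) : ℝ)| ≤ M then 0 else u k * v l * x ^ (k + l)

theorem P_mul_cut {K : Finset ℤ} {u v : ℤ → ℝ} {x M : ℝ} (hx : x ≠ 0) :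
    P K u x * P K v x =
      Real.exp 1 * (∑ k ∈ K, ∑ l ∈ K, cutf M x (k + l) * (u k * v l)) + tl K M x u v := by
  rw [P_mul hx, Finset.mul_sum]
  unfold tl
  rw [← Finset.sum_add_distrib]
  refine Finset.sum_congr rfl fun k _ => ?_
  rw [Finset.mul_sum, ← Finset.sum_add_distrib]
  refine Finset.sum_congr rfl fun l _ => ?_
  unfold cutf
  have he : Real.exp 1 ≠ 0 := (Real.exp_pos 1).ne'
  split_ifs with h
  · field_simp
    ring
  · ring

theorem tl_nonneg {K : Finset ℤ} {u v : ℤ → ℝ} {x M : ℝ} (hx : 0 < x) (hu : ∀ k, 0 ≤ u k)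
    (hv : ∀ k, 0 ≤ v k) : 0 ≤ tl K M x u v := by
  unfold tl
  refine Finset.sum_nonneg fun k _ => Finset.sum_nonneg fun l _ => ?_
  split_ifs
  · exact le_refl _
  · exact mul_nonneg (mul_nonneg (hu k) (hv l)) (zpow_pos hx _).le

/-- exponential moment -/
def EM (K : Finset ℤ) (s : ℝ) (u : ℤ → ℝ) : ℝ := ∑ k ∈ K, u k * Real.exp (s * |(k : ℝ)|)

theorem EM_nonneg {K : Finset ℤ} {s : ℝ} {u : ℤ → ℝ} (hu : ∀ k, 0 ≤ u k) : 0 ≤ EM K s u :=
  Finset.sum_nonneg fun k _ => mul_nonneg (hu k) (Real.exp_pos _).le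

theorem tl_le {K : Finset ℤ} {u v : ℤ → ℝ} {x ρ M s : ℝ} (hx1 : 1 ≤ x) (hx2 : x ≤ 1 + ρ)
    (hs : ρ ≤ s) (hu : ∀ k, 0 ≤ u k) (hv : ∀ k, 0 ≤ v k) :
    tl K M x u v ≤ Real.exp (-((s - ρ) * M)) * (EM K s u * EM K s v) := by
  have hρ : 0 ≤ ρ := by linarith
  have hs0 : 0 ≤ s := by linarith
  unfold tl EM
  rw [Finset.sum_mul_sum, Finset.mul_sum]
  refine Finset.sum_le_sum fun k _ => ?_
  rw [Finset.mul_sum]
  refine Finset.sum_le_sum fun l _ => ?_
  split_ifs with h
  · have := hu k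
    have := hv l
    positivity
  · push Not at h
    have h1 := zpow_le_exp hx1 hx2 (k + l)
    have h2 : |((k + l : ℤ) : ℝ)| ≤ |(k : ℝ)| + |(l : ℝ)| := by
      push_cast
      exact abs_add_le _ _
    have h3 : ρ * |((k + l : ℤ) : ℝ)| ≤ -((s - ρ) * M) + (s * |(k : ℝ)| + s * |(l : ℝ)|) := by
      have h4 : (s - ρ) * M ≤ (s - ρ) * |((k + l : ℤ) : ℝ)| :=
        mul_le_mul_of_nonneg_left h.le (by linarith)
      have h5 : s * |((k + l : ℤ) : ℝ)| ≤ s * (|(k : ℝ)| + |(l : ℝ)|) :=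
        mul_le_mul_of_nonneg_left h2 hs0
      nlinarith
    have h6 : x ^ (k + l) ≤ Real.exp (-((s - ρ) * M)) *
        (Real.exp (s * |(k : ℝ)|) * Real.exp (s * |(l : ℝ)|)) := by
      rw [← Real.exp_add, ← Real.exp_add]
      exact h1.trans (Real.exp_le_exp.2 h3)
    calc u k * v l * x ^ (k + l) ≤ u k * v l * (Real.exp (-((s - ρ) * M)) *
        (Real.exp (s * |(k : ℝ)|) * Real.exp (s * |(l : ℝ)|))) :=
          mul_le_mul_of_nonneg_left h6 (mul_nonneg (hu k) (hv l))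
      _ = Real.exp (-((s - ρ) * M)) * (u k * Real.exp (s * |(k : ℝ)|) *
        (v l * Real.exp (s * |(l : ℝ)|))) := by ring

/-- **from the coefficients to the real points** -/
theorem polymix {K : Finset ℤ} {xt xs yt ys : ℤ → ℝ} {ρ M s η v0 Λ : ℝ} (hxt : ∀ k, 0 ≤ xt k)
    (hxs : ∀ k, 0 ≤ xs k) (hyt : ∀ k, 0 ≤ yt k) (hys : ∀ k, 0 ≤ ys k) (hρ : 0 ≤ ρ)
    (hρs : ρ ≤ s) (hρM : ρ * M ≤ 1) (hM : 0 ≤ M) (hη0 : 0 ≤ η) (hη : η ≤ 1 / 3) (hv0 : 0 < v0)
    (hmix : ∀ f : ℤ → ℝ, (∀ n, |f n| ≤ 1) →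
      |∑ k ∈ K, ∑ l ∈ K, f (k + l) * (xt k * ys l - xs k * yt l)| ≤
        η * ((∑ k ∈ K, xt k) * (∑ k ∈ K, ys k) + (∑ k ∈ K, xs k) * ∑ k ∈ K, yt k))
    (lxs : v0 ≤ ∑ k ∈ K, xs k) (lyt : v0 ≤ ∑ k ∈ K, yt k)
    (uxt : EM K s xt ≤ Λ) (uxs : EM K s xs ≤ Λ) (uyt : EM K s yt ≤ Λ) (uys : EM K s ys ≤ Λ)
    (htail : Real.exp (-((s - ρ) * M)) * (Λ * Λ) ≤ v0 ^ 2 / 2) {x : ℝ} (hx1 : 1 ≤ x)
    (hx2 : x ≤ 1 + ρ) :
    |P K xt x * P K ys x - P K xs x * P K yt x| ≤
      (6 * Real.exp 1 ^ 2 * η +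
        4 * Real.exp 1 * (Real.exp (-((s - ρ) * M)) * (Λ * Λ)) / v0 ^ 2) *
        (P K xs x * P K yt x) := by
  have hx0 : 0 < x := by linarith
  have hs0 : 0 ≤ s := by linarith
  set τ : ℝ := Real.exp (-((s - ρ) * M)) * (Λ * Λ) with hτ
  set At : ℝ := (∑ k ∈ K, xt k) * ∑ k ∈ K, ys k with hAt
  set Bt : ℝ := (∑ k ∈ K, xs k) * ∑ k ∈ K, yt k with hBt
  have hB0 : v0 ^ 2 ≤ Bt := by
    rw [pow_two]
    exact mul_le_mul lxs lyt hv0.le (hv0.le.trans lxs)
  have hA0 : 0 ≤ At := mul_nonneg (Finset.sum_nonneg fun k _ => hxt k)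
    (Finset.sum_nonneg fun k _ => hys k)
  have hΛ : 0 ≤ Λ := (EM_nonneg hxt).trans uxt
  have hτ0 : 0 ≤ τ := by positivity
  -- `A ≤ 2 B`
  have hAB : At ≤ 2 * Bt := by
    have h1 := hmix (fun _ => 1) (fun _ => by simp)
    have h2 : ∑ k ∈ K, ∑ l ∈ K, (1 : ℝ) * (xt k * ys l - xs k * yt l) = At - Bt := by
      rw [hAt, hBt, Finset.sum_mul_sum, Finset.sum_mul_sum, ← Finset.sum_sub_distrib]
      refine Finset.sum_congr rfl fun k _ => ?_
      rw [← Finset.sum_sub_distrib]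
      refine Finset.sum_congr rfl fun l _ => ?_
      ring
    rw [h2] at h1
    have h3 := (abs_le.1 h1).2
    have hBt0 : 0 ≤ Bt := (sq_nonneg v0).trans hB0
    nlinarith
  -- the main part
  have hcut := hmix (cutf M x) (cutf_le hx1 hx2 hρM)
  have t1 := tl_le (K := K) (M := M) hx1 hx2 hρs hxt hys
  have t2 := tl_le (K := K) (M := M) hx1 hx2 hρs hxs hyt
  have t1' : tl K M x xt ys ≤ τ := by
    refine t1.trans ?_
    rw [hτ]
    refine mul_le_mul_of_nonneg_left ?_ (Real.exp_pos _).le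
    exact mul_le_mul uxt uys (EM_nonneg hys) hΛ
  have t2' : tl K M x xs yt ≤ τ := by
    refine t2.trans ?_
    rw [hτ]
    refine mul_le_mul_of_nonneg_left ?_ (Real.exp_pos _).le
    exact mul_le_mul uxs uyt (EM_nonneg hyt) hΛ
  have n1 := tl_nonneg (K := K) (M := M) hx0 hxt hys
  have n2 := tl_nonneg (K := K) (M := M) hx0 hxs hyt
  have e1 := P_mul_cut (K := K) (u := xt) (v := ys) (M := M) hx0.ne'
  have e2 := P_mul_cut (K := K) (u := xs) (v := yt) (M := M) hx0.ne'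
  have hdiff : P K xt x * P K ys x - P K xs x * P K yt x =
      Real.exp 1 * (∑ k ∈ K, ∑ l ∈ K, cutf M x (k + l) * (xt k * ys l - xs k * yt l)) +
        (tl K M x xt ys - tl K M x xs yt) := by
    rw [e1, e2]
    have : ∑ k ∈ K, ∑ l ∈ K, cutf M x (k + l) * (xt k * ys l - xs k * yt l) =
        (∑ k ∈ K, ∑ l ∈ K, cutf M x (k + l) * (xt k * ys l)) -
          ∑ k ∈ K, ∑ l ∈ K, cutf M x (k + l) * (xs k * yt l) := by
      rw [← Finset.sum_sub_distrib]
      refine Finset.sum_congr rfl fun k _ => ?_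
      rw [← Finset.sum_sub_distrib]
      refine Finset.sum_congr rfl fun l _ => ?_
      ring
    rw [this]
    ring
  -- lower bound of the denominator
  have hlow : Bt / (2 * Real.exp 1) ≤ P K xs x * P K yt x := by
    have h1 : ∑ k ∈ K, ∑ l ∈ K, xs k * yt l * (Real.exp (-1) * (1 - Real.exp (-((s - ρ) * M)) *
        (Real.exp (s * |(k : ℝ)|) * Real.exp (s * |(l : ℝ)|)))) ≤ P K xs x * P K yt x := by
      rw [P_mul hx0.ne']
      refine Finset.sum_le_sum fun k _ => Finset.sum_le_sum fun l _ => ?_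
      refine mul_le_mul_of_nonneg_left ?_ (mul_nonneg (hxs k) (hyt l))
      by_cases h : |((k + l : ℤ) : ℝ)| ≤ M
      · have h2 := exp_le_zpow hx1 hx2 (k + l)
        have h3 : Real.exp (-1) ≤ Real.exp (-(ρ * |((k + l : ℤ) : ℝ)|)) := by
          refine Real.exp_le_exp.2 (neg_le_neg ?_)
          exact (mul_le_mul_of_nonneg_left h hρ).trans hρM
        calc _ ≤ Real.exp (-1) * 1 := by
              refine mul_le_mul_of_nonneg_left ?_ (Real.exp_pos _).le
              have : 0 ≤ Real.exp (-((s - ρ) * M)) *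
                (Real.exp (s * |(k : ℝ)|) * Real.exp (s * |(l : ℝ)|)) := by positivity
              linarith
          _ = Real.exp (-1) := mul_one _
          _ ≤ _ := h3.trans h2
      · push Not at h
        have h2 : |((k + l : ℤ) : ℝ)| ≤ |(k : ℝ)| + |(l : ℝ)| := by
          push_cast
          exact abs_add_le _ _
        have h4 : 1 ≤ Real.exp (-((s - ρ) * M)) *
            (Real.exp (s * |(k : ℝ)|) * Real.exp (s * |(l : ℝ)|)) := by
          rw [← Real.exp_add, ← Real.exp_add]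
          refine Real.one_le_exp ?_
          have h5 : (s - ρ) * M ≤ s * M := by nlinarith
          have h6 : s * M ≤ s * (|(k : ℝ)| + |(l : ℝ)|) :=
            mul_le_mul_of_nonneg_left (h.le.trans h2) hs0
          nlinarith
        calc _ ≤ Real.exp (-1) * 0 := by
              refine mul_le_mul_of_nonneg_left ?_ (Real.exp_pos _).le
              linarith
          _ = 0 := mul_zero _
          _ ≤ _ := (zpow_pos hx0 _).le
    have h2 : ∑ k ∈ K, ∑ l ∈ K, xs k * yt l * (Real.exp (-1) * (1 - Real.exp (-((s - ρ) * M)) *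
        (Real.exp (s * |(k : ℝ)|) * Real.exp (s * |(l : ℝ)|)))) =
        Real.exp (-1) * (Bt - Real.exp (-((s - ρ) * M)) * (EM K s xs * EM K s yt)) := by
      rw [hBt]
      unfold EM
      rw [Finset.sum_mul_sum, Finset.sum_mul_sum, mul_sub, Finset.mul_sum, Finset.mul_sum,
        Finset.mul_sum, ← Finset.sum_sub_distrib]
      refine Finset.sum_congr rfl fun k _ => ?_
      rw [Finset.mul_sum, Finset.mul_sum, Finset.mul_sum, ← Finset.sum_sub_distrib]
      refine Finset.sum_congr rfl fun l _ => ?_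
      ring
    rw [h2] at h1
    have h3 : Real.exp (-((s - ρ) * M)) * (EM K s xs * EM K s yt) ≤ Bt / 2 := by
      have : Real.exp (-((s - ρ) * M)) * (EM K s xs * EM K s yt) ≤ τ := by
        rw [hτ]
        refine mul_le_mul_of_nonneg_left ?_ (Real.exp_pos _).le
        exact mul_le_mul uxs uyt (EM_nonneg hyt) hΛ
      linarith
    have h4 : Real.exp (-1) * (Bt / 2) ≤ Real.exp (-1) *
        (Bt - Real.exp (-((s - ρ) * M)) * (EM K s xs * EM K s yt)) :=
      mul_le_mul_of_nonneg_left (by linarith) (Real.exp_pos _).le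
    have h5 : Bt / (2 * Real.exp 1) = Real.exp (-1) * (Bt / 2) := by
      rw [Real.exp_neg]
      field_simp
    rw [h5]
    exact h4.trans h1
  have hBt0 : 0 < Bt := lt_of_lt_of_le (by positivity) hB0
  have he := Real.exp_pos 1
  have hPB : Bt ≤ 2 * Real.exp 1 * (P K xs x * P K yt x) := by
    rw [div_le_iff₀ (by positivity)] at hlow
    linarith
  have hP0 : 0 ≤ P K xs x * P K yt x := by
    have : 0 ≤ Bt / (2 * Real.exp 1) := by positivity
    linarith
  rw [hdiff]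
  have f1 : |Real.exp 1 * (∑ k ∈ K, ∑ l ∈ K, cutf M x (k + l) * (xt k * ys l - xs k * yt l))| ≤
      Real.exp 1 * (η * (3 * Bt)) := by
    rw [abs_mul, abs_of_pos he]
    refine mul_le_mul_of_nonneg_left (hcut.trans ?_) he.le
    refine mul_le_mul_of_nonneg_left ?_ hη0
    linarith
  have f2 : |tl K M x xt ys - tl K M x xs yt| ≤ τ := by
    rw [abs_le]
    constructor <;> linarith
  have f3 : τ ≤ τ / v0 ^ 2 * Bt := by
    rw [div_mul_eq_mul_div, le_div_iff₀ (by positivity)]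
    exact mul_le_mul_of_nonneg_left hB0 hτ0
  calc _ ≤ Real.exp 1 * (η * (3 * Bt)) + τ := (abs_add_le _ _).trans (add_le_add f1 f2)
    _ ≤ Real.exp 1 * (η * 3) * (2 * Real.exp 1 * (P K xs x * P K yt x)) +
        τ / v0 ^ 2 * (2 * Real.exp 1 * (P K xs x * P K yt x)) := by
        have g1 : Real.exp 1 * (η * (3 * Bt)) ≤
            Real.exp 1 * (η * 3) * (2 * Real.exp 1 * (P K xs x * P K yt x)) := by
          have : Real.exp 1 * (η * (3 * Bt)) = Real.exp 1 * (η * 3) * Bt := by ring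
          rw [this]
          exact mul_le_mul_of_nonneg_left hPB (by positivity)
        have g2 : τ ≤ τ / v0 ^ 2 * (2 * Real.exp 1 * (P K xs x * P K yt x)) :=
          f3.trans (mul_le_mul_of_nonneg_left hPB (by positivity))
        linarith
    _ ≤ _ := by
        have g3 : 0 ≤ τ / v0 ^ 2 * (2 * Real.exp 1 * (P K xs x * P K yt x)) := by positivity
        have g4 : 4 * Real.exp 1 * τ / v0 ^ 2 * (P K xs x * P K yt x) =
            2 * (τ / v0 ^ 2 * (2 * Real.exp 1 * (P K xs x * P K yt x))) := by ring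
        rw [add_mul, g4]
        nlinarith

end Crest.Agent.R143.X1Ax683
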