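import Crest.Agent.R143.X1A_683

/-!
# Row 143 (S0194), block X, assembly 2 (helper683): average over the initial state

* `shD` : regeneration data shifted by one scale; `av Z x0 wt` : first step = choice of the initial
  state `a ∈ x0` with the weight `wt a`
* `mix_av` : the conclusion of `MixAbs2` for the averages over the initial states
-/

set_option autoImplicit false

noncomputable section

open scoped Classical

namespace Crest.Agent.R143.X1Bx683

open Crest.Agent.R143.X0Cx683 Crest.Agent.R143.X1Ax683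

variable {A F B ι : Type} {D : RegD F B} {m : ℕ} {c C : ℝ}

/-- regeneration data shifted by one -/
def shD (D : RegD F B) : RegD F B where
  reg j b := match j with
    | 0 => 0
    | j + 1 => D.reg j b
  Y j b s k := match j with
    | 0 => 0
    | j + 1 => D.Y j b s k
  inn j s := match j with
    | 0 => True
    | j + 1 => D.inn j s
  reg_nonneg := by
    intro j b
    cases j with
    | zero => exact le_refl _
    | succ j => exact D.reg_nonneg j b
  reg_fin := by
    intro j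
    cases j with
    | zero => simp only [Function.support_fun_zero, Set.finite_empty]
    | succ j => exact D.reg_fin j
  Y_nonneg := by
    intro j b s k
    cases j with
    | zero => exact le_refl _
    | succ j => exact D.Y_nonneg j b s k
  Y_fin := by
    intro j b s
    cases j with
    | zero => simp only [Function.support_fun_zero, Set.finite_empty]
    | succ j => exact D.Y_fin j b s

/-- the system with one more step: choice of the initial state -/
def av [Inhabited B] (Z : Sys2 A F B ι D m c C) (x0 : Finset A) (wt : A → ℝ) (h0 : ∀ a, 0 ≤ wt a)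
    (hst : ∀ a ∈ x0, Z.st 0 a) : Sys2 (Option A) F B (A ⊕ ι) (shD D) (m + 1) c C where
  I j := match j with
    | 0 => x0.map ⟨Sum.inl, Sum.inl_injective⟩
    | j + 1 => (Z.I j).map ⟨Sum.inr, Sum.inr_injective⟩
  p j i := match j, i with
    | 0, Sum.inl a => wt a
    | j + 1, Sum.inr i => Z.p j i
    | _, _ => 0
  nx j a i := match j, a, i with
    | 0, _, Sum.inl a => some a
    | j + 1, some a, Sum.inr i => some (Z.nx j a i)
    | _, _, _ => none
  st j a := match j, a with
    | 0, none => True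
    | j + 1, some a => Z.st j a
    | _, _ => False
  good j a := match j, a with
    | j + 1, some a => Z.good j a
    | _, _ => False
  X j a s k := match j, a with
    | 0, none => ∑ a ∈ x0, wt a * Z.X 0 a s k
    | j + 1, some a => Z.X j a s k
    | _, _ => 0
  att j a i := match j, a, i with
    | j + 1, some a, Sum.inr i => Z.att j a i
    | _, _, _ => False
  lb j a i := match j, a, i with
    | j + 1, some a, Sum.inr i => Z.lb j a i
    | _, _, _ => default
  ln j a i := match j, a, i with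
    | j + 1, some a, Sum.inr i => Z.ln j a i
    | _, _, _ => 0
  w j a n := match j, a with
    | j + 1, some a => Z.w j a n
    | _, _ => 0
  p_nonneg := by
    intro j i
    rcases j with _ | j <;> rcases i with a | i
    · exact h0 a
    · exact le_refl _
    · exact le_refl _
    · exact Z.p_nonneg j i
  X_nonneg := by
    intro j a s k
    rcases j with _ | j <;> rcases a with _ | a
    · exact Finset.sum_nonneg fun a _ => mul_nonneg (h0 a) (Z.X_nonneg 0 a s k)
    · exact le_refl _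
    · exact le_refl _
    · exact Z.X_nonneg j a s k
  X_fin := by
    intro j a s
    rcases j with _ | j <;> rcases a with _ | a
    · refine Set.Finite.subset
        (Set.Finite.biUnion x0.finite_toSet fun a _ => Z.X_fin 0 a s) fun k hk => ?_
      by_contra hn
      refine hk (Finset.sum_eq_zero fun a ha => ?_)
      have : Z.X 0 a s k = 0 := by
        by_contra h
        exact hn (Set.mem_biUnion (Finset.mem_coe.2 ha) h)
      rw [this, mul_zero]
    · simp only [Function.support_fun_zero, Set.finite_empty]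
    · simp only [Function.support_fun_zero, Set.finite_empty]
    · exact Z.X_fin j a s
  w_nonneg := by
    intro j a n
    rcases j with _ | j <;> rcases a with _ | a
    · exact le_refl _
    · exact le_refl _
    · exact le_refl _
    · exact Z.w_nonneg j a n
  w_fin := by
    intro j a
    rcases j with _ | j <;> rcases a with _ | a
    · simp only [Function.support_fun_zero, Set.finite_empty]
    · simp only [Function.support_fun_zero, Set.finite_empty]
    · simp only [Function.support_fun_zero, Set.finite_empty]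
    · exact Z.w_fin j a
  st_nx := by
    intro j hj a ha i hi
    rcases j with _ | j
    · rw [Finset.mem_map] at hi
      obtain ⟨b, hb, rfl⟩ := hi
      exact hst b hb
    · rcases a with _ | a
      · exact ha.elim
      · rw [Finset.mem_map] at hi
        obtain ⟨b, hb, rfl⟩ := hi
        exact Z.st_nx j (by omega) a ha b hb
  step := by
    intro j hj a ha s k
    rcases j with _ | j
    · rcases a with _ | a
      · rw [Finset.sum_map]
        rfl
      · exact ha.elim
    · rcases a with _ | a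
      · exact ha.elim
      · rw [Finset.sum_map]
        exact Z.step j (by omega) a ha s k
  att_val := by
    intro j hj a ha i hi hatt s k
    rcases j with _ | j
    · exact hatt.elim
    · rcases a with _ | a
      · exact ha.elim
      · rw [Finset.mem_map] at hi
        obtain ⟨b, hb, rfl⟩ := hi
        exact Z.att_val j (by omega) a ha b hb hatt s k
  lo := by
    intro j hj a ha hg b n
    rcases j with _ | j
    · exact hg.elim
    · rcases a with _ | a
      · exact ha.elim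
      · refine (Z.lo j (by omega) a ha hg b n).trans (le_of_eq ?_)
        rw [Finset.filter_map, Finset.sum_map]
        rfl
  up := by
    intro j hj a ha hg s hs
    rcases j with _ | j
    · exact hg.elim
    · rcases a with _ | a
      · exact ha.elim
      · exact Z.up j (by omega) a ha hg s hs

variable [Inhabited B]

theorem av_V (Z : Sys2 A F B ι D m c C) (x0 : Finset A) (wt : A → ℝ) (h0 : ∀ a, 0 ≤ wt a)
    (hst : ∀ a ∈ x0, Z.st 0 a) (s : F) :
    (av Z x0 wt h0 hst).V 0 none s = ∑ a ∈ x0, wt a * Z.V 0 a s := by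
  have h := V_step (av Z x0 wt h0 hst) (j := 0) (by omega) (a := none) trivial s
  rw [h]
  show ∑ i ∈ x0.map ⟨Sum.inl, Sum.inl_injective⟩, _ = _
  rw [Finset.sum_map]
  rfl

theorem av_Bd1 (Z : Sys2 A F B ι D m c C) (x0 : Finset A) (wt : A → ℝ) (h0 : ∀ a, 0 ≤ wt a)
    (hst : ∀ a ∈ x0, Z.st 0 a) (s : F) :
    ∀ (n j k : ℕ) (a : A), (av Z x0 wt h0 hst).Bd n (j + 1) k (some a) s = Z.Bd n j k a s
  | 0, j, k, a => rfl
  | n + 1, j, k, a => by
      show ∑ i ∈ (Z.I j).map ⟨Sum.inr, Sum.inr_injective⟩, _ = ∑ i ∈ Z.I j, _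
      rw [Finset.sum_map]
      refine Finset.sum_congr rfl fun i _ => ?_
      show Z.p j i * (av Z x0 wt h0 hst).Bd n (j + 1 + 1) _ (some (Z.nx j a i)) s = _
      rw [av_Bd1 Z x0 wt h0 hst s n (j + 1)]
      rfl

theorem av_Bd (Z : Sys2 A F B ι D m c C) (x0 : Finset A) (wt : A → ℝ) (h0 : ∀ a, 0 ≤ wt a)
    (hst : ∀ a ∈ x0, Z.st 0 a) (s : F) (k : ℕ) :
    (av Z x0 wt h0 hst).Bd (m + 1) 0 k none s = ∑ a ∈ x0, wt a * Z.Bd m 0 (k - 1) a s := by
  show ∑ i ∈ x0.map ⟨Sum.inl, Sum.inl_injective⟩, _ = _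
  rw [Finset.sum_map]
  refine Finset.sum_congr rfl fun a _ => ?_
  have hk : (k - if (av Z x0 wt h0 hst).good 0 none then 0 else 1) = k - 1 := by
    have hg : ¬ (av Z x0 wt h0 hst).good 0 none := fun h => h
    rw [if_neg hg]
  show wt a * (av Z x0 wt h0 hst).Bd m (0 + 1)
    (k - if (av Z x0 wt h0 hst).good 0 none then 0 else 1) (some a) s = _
  rw [hk, av_Bd1]

/-- average of the values -/
def aX (Z : Sys2 A F B ι D m c C) (x0 : Finset A) (wt : A → ℝ) (s : F) (k : ℤ) : ℝ :=
  ∑ a ∈ x0, wt a * Z.X 0 a s k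

omit [Inhabited B] in
theorem card_shift (D : RegD F B) (m : ℕ) (s : F) :
    ((Finset.range (m + 1)).filter fun j => ¬ (shD D).inn j s).card =
      ((Finset.range m).filter fun j => ¬ D.inn j s).card := by
  have h : (Finset.range (m + 1)).filter (fun j => ¬ (shD D).inn j s) =
      ((Finset.range m).filter fun j => ¬ D.inn j s).map ⟨Nat.succ, Nat.succ_injective⟩ := by
    ext j
    rw [Finset.mem_map]
    simp only [Finset.mem_filter, Finset.mem_range, Function.Embedding.coeFn_mk]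
    constructor
    · rintro ⟨h1, h2⟩
      rcases j with _ | j
      · exact (h2 trivial).elim
      · exact ⟨j, ⟨by omega, h2⟩, rfl⟩
    · rintro ⟨i, ⟨h1, h2⟩, rfl⟩
      exact ⟨by omega, h2⟩
  rw [h, Finset.card_map]

/-- **mixing of the averages** (bad paths: `(m + 1) / 8` bad states cost at most `e ^ ..`) -/
theorem mix_av (hM : MixAbs2) {c C : ℝ} (hc : 0 < c) (hc1 : c ≤ 1) (hC : 1 ≤ C) :
    ∃ C1 th : ℝ, 1 ≤ C1 ∧ 0 < th ∧ th < 1 ∧
  ∀ (A F B ι : Type) [Inhabited B] (D : RegD F B) (m : ℕ) (Z Z' : Sys2 A F B ι D m c C)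
    (x0 y0 : Finset A) (wt wt' : A → ℝ) (s t : F) (e q : ℝ) (ho ho' : ℕ → A → Prop) (f : ℤ → ℝ),
    (∀ n, |f n| ≤ 1) → (∀ a, 0 ≤ wt a) → (∀ a, 0 ≤ wt' a) → ∑ a ∈ x0, wt a ≤ 1 →
    ∑ a ∈ y0, wt' a ≤ 1 → (∀ a ∈ x0, Z.st 0 a) → (∀ a ∈ y0, Z'.st 0 a) → 0 ≤ e → e ≤ 1 → 0 ≤ q →
    (∀ j < m, ∀ a, Z.st j a → ¬ Z.good j a →
      ∑ i ∈ (Z.I j).filter (fun i => ho (j + 1) (Z.nx j a i)), Z.p j i ≤ e) →
    (∀ j < m, ∀ a, Z'.st j a → ¬ Z'.good j a →
      ∑ i ∈ (Z'.I j).filter (fun i => ho' (j + 1) (Z'.nx j a i)), Z'.p j i ≤ e) →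
    (∀ j < m, ∑ i ∈ Z.I j, Z.p j i ≤ 1) → (∀ j < m, ∑ i ∈ Z'.I j, Z'.p j i ≤ 1) →
    (∀ j ≤ m, ∀ a, Z.st j a → ¬ ho j a → ∀ s, Z.V j a s = 0) →
    (∀ j ≤ m, ∀ a, Z'.st j a → ¬ ho' j a → ∀ s, Z'.V j a s = 0) →
    (∀ a, Z.st m a → ∀ s, Z.V m a s ≤ 1) → (∀ a, Z'.st m a → ∀ s, Z'.V m a s ≤ 1) →
    ((Finset.range m).filter fun j => ¬ D.inn j s).card ≤ m / 8 →
    ((Finset.range m).filter fun j => ¬ D.inn j t).card ≤ m / 8 →
    e ^ ((m + 1) / 8 - 1) ≤ q * ∑ᶠ k, aX Z x0 wt s k →
    e ^ ((m + 1) / 8 - 1) ≤ q * ∑ᶠ k, aX Z x0 wt t k →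
    e ^ ((m + 1) / 8 - 1) ≤ q * ∑ᶠ k, aX Z' y0 wt' s k →
    e ^ ((m + 1) / 8 - 1) ≤ q * ∑ᶠ k, aX Z' y0 wt' t k →
    |∑ᶠ k, ∑ᶠ l, f (k + l) * (aX Z x0 wt t k * aX Z' y0 wt' s l -
        aX Z x0 wt s k * aX Z' y0 wt' t l)| ≤
      C1 * (th ^ (m + 1) + q) * ((∑ᶠ k, aX Z x0 wt t k) * (∑ᶠ k, aX Z' y0 wt' s k) +
        (∑ᶠ k, aX Z x0 wt s k) * ∑ᶠ k, aX Z' y0 wt' t k) := by
  obtain ⟨C1, th, hC1, hth, hth1, H⟩ := hM c C hc hc1 hC
  refine ⟨C1, th, hC1, hth, hth1, ?_⟩
  intro A F B ι _ D m Z Z' x0 y0 wt wt' s t e q ho ho' f hf hw hw' hs1 hs1' hst hst' he0 he1 hq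
    H1 H1' H2 H2' H3 H3' H4 H4' ins int vs vt vs' vt'
  have key : ∀ (Z0 : Sys2 A F B ι D m c C) (x : Finset A) (w0 : A → ℝ)
      (h0 : ∀ a, 0 ≤ w0 a) (hs : ∑ a ∈ x, w0 a ≤ 1) (hst0 : ∀ a ∈ x, Z0.st 0 a)
      (hh : ℕ → A → Prop)
      (_ : ∀ j < m, ∀ a, Z0.st j a → ¬ Z0.good j a →
        ∑ i ∈ (Z0.I j).filter (fun i => hh (j + 1) (Z0.nx j a i)), Z0.p j i ≤ e)
      (_ : ∀ j < m, ∑ i ∈ Z0.I j, Z0.p j i ≤ 1)
      (_ : ∀ j ≤ m, ∀ a, Z0.st j a → ¬ hh j a → ∀ s, Z0.V j a s = 0)
      (_ : ∀ a, Z0.st m a → ∀ s, Z0.V m a s ≤ 1) (u : F)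
      (_ : e ^ ((m + 1) / 8 - 1) ≤ q * ∑ᶠ k, aX Z0 x w0 u k),
      (av Z0 x w0 h0 hst0).Bd (m + 1) 0 ((m + 1) / 8 + 1) none u ≤
        q * (av Z0 x w0 h0 hst0).V 0 none u := by
    intro Z0 x w0 h0 hs hst0 hh G1 G2 G3 G4 u hu
    rw [av_Bd]
    have h1 : ∑ a ∈ x, w0 a * Z0.Bd m 0 ((m + 1) / 8 + 1 - 1) a u ≤
        ∑ a ∈ x, w0 a * e ^ ((m + 1) / 8 - 1) := by
      refine Finset.sum_le_sum fun a ha => mul_le_mul_of_nonneg_left ?_ (h0 a)
      have := bd_le Z0 u hh he0 he1 G1 G2 (fun j hj a ha hn => G3 j hj a ha hn u)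
        (fun a ha => G4 a ha u) m 0 ((m + 1) / 8 + 1 - 1) a (by omega) (hst0 a ha)
      simpa using this
    refine h1.trans ?_
    rw [← Finset.sum_mul]
    refine (mul_le_of_le_one_left (by positivity) hs).trans ?_
    exact hu
  have hcard : ∀ u, ((Finset.range m).filter fun j => ¬ D.inn j u).card ≤ m / 8 →
      ((Finset.range (m + 1)).filter fun j => ¬ (shD D).inn j u).card ≤ (m + 1) / 8 := by
    intro u hu
    rw [card_shift]
    omega
  exact H (Option A) (Option A) F B (A ⊕ ι) (shD D) (m + 1) (av Z x0 wt hw hst)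
    (av Z' y0 wt' hw' hst') none none s t q f hf trivial trivial hq (hcard s ins) (hcard t int)
    (key Z x0 wt hw hs1 hst ho H1 H2 H3 H4 s vs) (key Z x0 wt hw hs1 hst ho H1 H2 H3 H4 t vt)
    (key Z' y0 wt' hw' hs1' hst' ho' H1' H2' H3' H4' s vs')
    (key Z' y0 wt' hw' hs1' hst' ho' H1' H2' H3' H4' t vt')

end Crest.Agent.R143.X1Bx683
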