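import Crest.Agent.R143.X1B_683
import Crest.Agent.R143.IndepB_583
import Crest.Agent.R143.J9_872

/-!
# Row 143 (S0194), block X, assembly 3 (helper683): the system of one world

* `Rj` lemmas
* `sysW` : the instance of `Sys2` for a world with regeneration data at the scales `j < m`
* `ho` : outer legs reach the scale `j`; `H1`, `H2`, `H3`, `H4` : hypotheses of the counting lemma
-/

set_option autoImplicit false

noncomputable section

open scoped Classical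

namespace Crest.Agent.R143.X1Cx683

open Crest.Agent.R143.B0x346 Crest.Agent.R143.DelGx806 Crest.Agent.R143.DelRx806
open Crest.Agent.R143.Harx315 Crest.Agent.R143.X0Bx683 Crest.Agent.R143.X0Cx683
open Crest.Agent.R143.X1Ax683 Crest.Agent.R143.X1Bx683

/-! ### scales -/

theorem Rj_pos {R : ℝ} (hR : 0 < R) (j : ℕ) : 0 < Rj R j := by
  unfold Rj; positivity

theorem Rj_succ (R : ℝ) (j : ℕ) : Rj R (j + 1) = Rj R j / 256 := by
  unfold Rj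
  rw [pow_succ]
  field_simp

theorem Rj_zero (R : ℝ) : Rj R 0 = R := by
  unfold Rj
  simp

theorem Rj_anti {R : ℝ} (hR : 0 < R) {i j : ℕ} (h : i ≤ j) : Rj R j ≤ Rj R i := by
  unfold Rj
  exact div_le_div_of_nonneg_left hR.le (by positivity) (pow_le_pow_right₀ (by norm_num) h)

theorem Rj_le {R : ℝ} (hR : 0 < R) (j : ℕ) : Rj R j ≤ R := by
  have := Rj_anti hR (Nat.zero_le j)
  rwa [Rj_zero] at this

variable {S : Finset ℂ} {N : Net ℂ} {z0 : ℂ} {R R1 d b0 C4 r : ℝ}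

/-- outer legs reach the scale `j` -/
def ho (N : Net ℂ) (s0 : ℂ × ℂ × ℂ) (z0 : ℂ) (R : ℝ) (j : ℕ) (J : Finset (ℂ × ℂ)) : Prop :=
  j = 0 ∨ HO N s0 z0 (Rj R (j - 1) / 4) J

/-- the outer-good states -/
def goodO (S : Finset ℂ) (N : Net ℂ) (s0 : ℂ × ℂ × ℂ) (z0 : ℂ) (R δ : ℝ) (j : ℕ)
    (J : Finset (ℂ × ℂ)) : Prop :=
  pr (Fs S z0 (Rj R j)) (fun β => HO N s0 z0 (Rj R j / 4) (flip N.toTrg J β)) ≤
    2 * pr (Fs S z0 (Rj R j)) (fun β => GO N s0 z0 (Rj R j / 4) δ (flip N.toTrg J β))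

/-- common regeneration data -/
def rD (T : Finset (ℂ × ℂ × ℂ)) (reg : ℕ → Finset (ℂ × ℂ) → ℝ)
    (Y : ℕ → Finset (ℂ × ℂ) → ℂ × ℂ × ℂ → ℤ → ℝ) (inn : ℕ → ℂ × ℂ × ℂ → Prop)
    (h1 : ∀ j b, 0 ≤ reg j b) (h2 : ∀ j, (Function.support (reg j)).Finite)
    (h3 : ∀ j b t k, 0 ≤ Y j b t k) (h4 : ∀ j b t, (Function.support (Y j b t)).Finite) :
    RegD {t // t ∈ T} (Finset (ℂ × ℂ)) where
  reg := reg
  Y j b s k := Y j b s.1 k
  inn j s := inn j s.1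
  reg_nonneg := h1
  reg_fin := h2
  Y_nonneg j b s k := h3 j b s.1 k
  Y_fin j b s := h4 j b s.1

/-- the weights of the labels -/
def wgt {f : Fc S N z0 r} {δ c : ℝ} {m : ℕ} {reg : ℕ → Finset (ℂ × ℂ) → ℝ}
    {Y : ℕ → Finset (ℂ × ℂ) → ℂ × ℂ × ℂ → ℤ → ℝ} {Att : ℕ → Finset (ℂ × ℂ) → ℤ → Prop}
    (hA : ∀ j < m, RegW f R j δ c (reg j) (Y j) (Att j)) (j : ℕ) (J : Finset (ℂ × ℂ)) (n : ℤ) : ℝ :=
  if h : j < m ∧ J ∈ N.tj f.s0 then ((hA j h.1).lo J h.2).choose n else 0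

section inst

variable {f : Fc S N z0 r} {δ c : ℝ} {m : ℕ} {reg : ℕ → Finset (ℂ × ℂ) → ℝ}
    {Y : ℕ → Finset (ℂ × ℂ) → ℂ × ℂ × ℂ → ℤ → ℝ} {Att : ℕ → Finset (ℂ × ℂ) → ℤ → Prop}

theorem wgt_nonneg (hA : ∀ j < m, RegW f R j δ c (reg j) (Y j) (Att j)) (j : ℕ)
    (J : Finset (ℂ × ℂ)) (n : ℤ) : 0 ≤ wgt hA j J n := by
  unfold wgt
  split_ifs with h
  · exact ((hA j h.1).lo J h.2).choose_spec.1 n
  · exact le_refl _

theorem wgt_fin (hA : ∀ j < m, RegW f R j δ c (reg j) (Y j) (Att j)) (j : ℕ)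
    (J : Finset (ℂ × ℂ)) : (Function.support (wgt hA j J)).Finite := by
  unfold wgt
  by_cases h : j < m ∧ J ∈ N.tj f.s0
  · simp only [h, and_self, dite_true]
    exact ((hA j h.1).lo J h.2).choose_spec.2.1
  · simp only [h, dite_false, Function.support_fun_zero, Set.finite_empty]

theorem wgt_sum (hA : ∀ j < m, RegW f R j δ c (reg j) (Y j) (Att j)) {j : ℕ} (hj : j < m)
    {J : Finset (ℂ × ℂ)} (hJ : J ∈ N.tj f.s0) : ∑ᶠ n, wgt hA j J n =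
      pr (Fs S z0 (Rj R j)) (fun β => GO N f.s0 z0 (Rj R j / 4) δ (flip N.toTrg J β)) := by
  have h : j < m ∧ J ∈ N.tj f.s0 := ⟨hj, hJ⟩
  unfold wgt
  simp only [h, and_self, dite_true]
  exact ((hA j h.1).lo J h.2).choose_spec.2.2.1

theorem wgt_lo (hA : ∀ j < m, RegW f R j δ c (reg j) (Y j) (Att j)) {j : ℕ} (hj : j < m)
    {J : Finset (ℂ × ℂ)} (hJ : J ∈ N.tj f.s0) (b : Finset (ℂ × ℂ)) (n : ℤ) :
    c * wgt hA j J n * reg j b ≤ pr (Ann S z0 (Rj R (j + 1)) (Rj R j)) fun β =>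
      Att j (flip N.toTrg J β) n ∧
        restr z0 (Rj R (j + 1)) (Rj R j / 8) (flip N.toTrg J β) = b := by
  have h : j < m ∧ J ∈ N.tj f.s0 := ⟨hj, hJ⟩
  unfold wgt
  simp only [h, and_self, dite_true]
  exact ((hA j h.1).lo J h.2).choose_spec.2.2.2 b n

/-- `pr` as a sum over colourings -/
theorem pr_eq_sum (V : Finset ℂ) (P : Finset ℂ → Prop) :
    pr V P = ∑ i ∈ V.powerset.filter P, (1 / 2 ^ V.card : ℝ) := by
  rw [Finset.sum_const, nsmul_eq_mul]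
  unfold pr nb fl
  rw [mul_one_div]

theorem flip_st (hw : World S N z0 R R1 d b0 C4) (f : Fc S N z0 r) {ρ : ℝ} (hρ : ρ ≤ R)
    {J : Finset (ℂ × ℂ)} {β : Finset ℂ} (hβ : β ⊆ Fs S z0 ρ) (hJ : J ∈ N.tj f.s0) :
    flip N.toTrg J β ∈ N.tj f.s0 :=
  (J8x872.flip_mem hw.hnet ((J8x872.free_world hw hρ).mono hβ)).2 hJ

/-- **the system of one world** -/
def sysW (hw : World S N z0 R R1 d b0 C4) {T : Finset (ℂ × ℂ × ℂ)} (hT : f.T = T)
    (hc0 : 0 < c) (hr : r ≤ Rj R m) (hd : 4 * d ≤ Rj R m / 64) {inn : ℕ → ℂ × ℂ × ℂ → Prop}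
    (hinn : ∀ j < m, ∀ t ∈ T, inn j t → ∀ J ∈ N.tj f.s0,
      f.h (Rj R j) (Rj R j / 64) J t ≤ 2 * f.g (Rj R j) (Rj R j / 64) δ J t)
    (h1 : ∀ j b, 0 ≤ reg j b) (h2 : ∀ j, (Function.support (reg j)).Finite)
    (h3 : ∀ j b t k, 0 ≤ Y j b t k) (h4 : ∀ j b t, (Function.support (Y j b t)).Finite)
    (hA : ∀ j < m, RegW f R j δ c (reg j) (Y j) (Att j)) :
    Sys2 (Finset (ℂ × ℂ)) {t // t ∈ T} (Finset (ℂ × ℂ)) (Finset ℂ) (rD T reg Y inn h1 h2 h3 h4)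
      m c (4 / c) where
  I j := (Ann S z0 (Rj R (j + 1)) (Rj R j)).powerset
  p j _ := 1 / 2 ^ (Ann S z0 (Rj R (j + 1)) (Rj R j)).card
  nx _ J β := flip N.toTrg J β
  st _ J := J ∈ N.tj f.s0
  good j J := goodO S N f.s0 z0 R δ j J
  X j J s k := f.XK (Rj R j) J s.1 k
  att j J β := ∃ n, Att j (flip N.toTrg J β) n
  lb j J β := restr z0 (Rj R (j + 1)) (Rj R j / 8) (flip N.toTrg J β)
  ln j J β := if h : ∃ n, Att j (flip N.toTrg J β) n then h.choose else 0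
  w j J n := wgt hA j J n
  p_nonneg j _ := by positivity
  X_nonneg j J s k := J9x872.XK_nonneg f _ J k
  X_fin j J s := J9x872.XK_fin f (hT ▸ s.2) _ J
  w_nonneg := wgt_nonneg hA
  w_fin := wgt_fin hA
  st_nx j _ J hJ β hβ := by
    refine flip_st hw f (Rj_le hw.Rpos j) ?_ hJ
    exact (Finset.mem_powerset.1 hβ).trans (J9x872.ann_sub S z0 _ _)
  step j _ J _ s k := by
    rw [← J9x872.ex_eq_sum]
    exact J9x872.step_XK f (Rj_anti hw.Rpos (Nat.le_succ j)) J k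
  att_val j hj J hJ β hβ hatt s k := by
    have hJ' : flip N.toTrg J β ∈ N.tj f.s0 := by
      refine flip_st hw f (Rj_le hw.Rpos j) ?_ hJ
      exact (Finset.mem_powerset.1 hβ).trans (J9x872.ann_sub S z0 _ _)
    rw [dif_pos hatt]
    exact (hA j hj).val _ hJ' _ hatt.choose_spec s.1 (hT ▸ s.2) k
  lo j hj J hJ hg b n := by
    refine (wgt_lo hA hj hJ b n).trans (le_of_eq ?_)
    rw [pr_eq_sum]
    refine Finset.sum_congr (Finset.ext fun β => ?_) fun _ _ => rfl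
    simp only [Finset.mem_filter]
    refine and_congr_right fun _ => ?_
    constructor
    · rintro ⟨ha, hb⟩
      have hex : ∃ n, Att j (flip N.toTrg J β) n := ⟨n, ha⟩
      refine ⟨hex, hb, ?_⟩
      rw [dif_pos hex]
      exact (hA j hj).uniq _ _ _ hex.choose_spec ha
    · rintro ⟨hex, hb, hn⟩
      rw [dif_pos hex] at hn
      exact ⟨hn ▸ hex.choose_spec, hb⟩
  up j hj J hJ hg s hs := by
    have hR := hw.Rpos
    have hs2 : s.1 ∈ f.T := hT ▸ s.2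
    have hRm : Rj R m ≤ Rj R (j + 1) := Rj_anti hR hj
    have hRm' : Rj R m ≤ Rj R j := Rj_anti hR hj.le
    have hp := Rj_pos hR j
    rw [J9x872.X1_eq hw f hs2 (Rj_le hR j) hJ]
    have e1 := Indepx583.indep S N z0 R R1 d b0 C4 r hw f (Rj R j / 4) (Rj R j / 64) (Rj R j)
      (by rw [Rj_succ] at hRm; linarith) (by linarith) (by linarith) (by linarith)
      (Rj_le hR j) J hJ s.1 hs2
    have e2 : f.h (Rj R j) (Rj R j / 64) J s.1 ≤ 2 * f.g (Rj R j) (Rj R j / 64) δ J s.1 :=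
      hinn j hj s.1 s.2 hs J hJ
    have e3 := (hA j hj).up J hJ s.1 hs2
    have e4 := wgt_sum hA hj hJ
    rw [e4]
    set p1 := pr (Fs S z0 (Rj R j)) (fun β => HO N f.s0 z0 (Rj R j / 4) (flip N.toTrg J β))
    set p2 := pr (Fs S z0 (Rj R j)) (fun β => GO N f.s0 z0 (Rj R j / 4) δ (flip N.toTrg J β))
    have e5 : p1 ≤ 2 * p2 := hg
    have hp2 : 0 ≤ p2 := pr_nonneg
    have hg0 : 0 ≤ f.g (Rj R j) (Rj R j / 64) δ J s.1 := pr_nonneg
    have hh0 : 0 ≤ f.h (Rj R j) (Rj R j / 64) J s.1 := pr_nonneg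
    have e6 : f.g (Rj R j) (Rj R j / 64) δ J s.1 ≤
        (∑ᶠ b, reg j b * ∑ᶠ k, Y j b s.1 k) / c := by
      rw [le_div_iff₀ hc0]
      linarith
    calc f.X1 (Rj R j) J s.1 ≤ p1 * f.h (Rj R j) (Rj R j / 64) J s.1 := e1
      _ ≤ (2 * p2) * (2 * f.g (Rj R j) (Rj R j / 64) δ J s.1) :=
          mul_le_mul e5 e2 hh0 (by positivity)
      _ = 4 * p2 * f.g (Rj R j) (Rj R j / 64) δ J s.1 := by ring
      _ ≤ 4 * p2 * ((∑ᶠ b, reg j b * ∑ᶠ k, Y j b s.1 k) / c) :=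
          mul_le_mul_of_nonneg_left e6 (by positivity)
      _ = 4 / c * p2 * ∑ᶠ b, reg j b * ∑ᶠ k, Y j b s.1 k := by ring

end inst

/-! ### hypotheses of the counting lemma -/

/-- the colours of an annulus -/
theorem pr_ann (f : Fc S N z0 r) (hR : 0 < R) (j : ℕ) (J : Finset (ℂ × ℂ)) :
    pr (Ann S z0 (Rj R (j + 1)) (Rj R j)) (fun β => HO N f.s0 z0 (Rj R j / 4)
      (flip N.toTrg J β)) =
    pr (Fs S z0 (Rj R j)) (fun β => HO N f.s0 z0 (Rj R j / 4) (flip N.toTrg J β)) := by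
  have hp := Rj_pos hR j
  symm
  refine pr_dep (J9x872.ann_sub S z0 _ _) ?_
  intro β hβ
  refine J9x872.HO_congr (J9x872.agr_flip₂ fun s hs => ?_)
  constructor
  · intro h
    refine Finset.mem_inter.2 ⟨h, ?_⟩
    have h1 := Finset.mem_filter.1 (hβ h)
    refine Finset.mem_filter.2 ⟨h1.1, ?_, h1.2⟩
    have h2 : Rj R j / 4 ≤ ‖s - z0‖ := not_lt.1 hs
    rw [Rj_succ]
    linarith
  · exact fun h => (Finset.mem_inter.1 h).1

/-- (H1) -/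
theorem H1 (hw : World S N z0 R R1 d b0 C4) (f : Fc S N z0 r) {δ e : ℝ} {j : ℕ}
    {J : Finset (ℂ × ℂ)}
    (hgap : pr (Fs S z0 (Rj R j)) (fun β => HO N f.s0 z0 (Rj R j / 4) (flip N.toTrg J β) ∧
      ¬ GO N f.s0 z0 (Rj R j / 4) δ (flip N.toTrg J β)) ≤ e / 2)
    (hb : ¬ goodO S N f.s0 z0 R δ j J) :
    ∑ β ∈ (Ann S z0 (Rj R (j + 1)) (Rj R j)).powerset.filter
      (fun β => ho N f.s0 z0 R (j + 1) (flip N.toTrg J β)),
      (1 / 2 ^ (Ann S z0 (Rj R (j + 1)) (Rj R j)).card : ℝ) ≤ e := by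
  rw [← pr_eq_sum]
  have e1 : pr (Ann S z0 (Rj R (j + 1)) (Rj R j))
      (fun β => ho N f.s0 z0 R (j + 1) (flip N.toTrg J β)) =
      pr (Ann S z0 (Rj R (j + 1)) (Rj R j)) (fun β => HO N f.s0 z0 (Rj R j / 4)
        (flip N.toTrg J β)) := by
    refine pr_congr fun β _ => ?_
    unfold ho
    simp
  rw [e1, pr_ann f hw.Rpos]
  have e2 := pr_and_add (Fs S z0 (Rj R j))
    (fun β => HO N f.s0 z0 (Rj R j / 4) (flip N.toTrg J β))
    (fun β => GO N f.s0 z0 (Rj R j / 4) δ (flip N.toTrg J β))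
  have e3 : pr (Fs S z0 (Rj R j)) (fun β => HO N f.s0 z0 (Rj R j / 4) (flip N.toTrg J β) ∧
      GO N f.s0 z0 (Rj R j / 4) δ (flip N.toTrg J β)) ≤
      pr (Fs S z0 (Rj R j)) (fun β => GO N f.s0 z0 (Rj R j / 4) δ (flip N.toTrg J β)) :=
    pr_mono fun β _ h => h.2
  unfold goodO at hb
  push Not at hb
  linarith

/-- (H2) -/
theorem H2 (S : Finset ℂ) (z0 : ℂ) (R : ℝ) (j : ℕ) :
    ∑ β ∈ (Ann S z0 (Rj R (j + 1)) (Rj R j)).powerset,
      (1 / 2 ^ (Ann S z0 (Rj R (j + 1)) (Rj R j)).card : ℝ) ≤ 1 := by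
  rw [Finset.sum_const, Finset.card_powerset, nsmul_eq_mul]
  push_cast
  rw [mul_one_div, div_self (by positivity)]

/-- (H3) -/
theorem H3 (hw : World S N z0 R R1 d b0 C4) (f : Fc S N z0 r) {j : ℕ} (hr : r ≤ Rj R j)
    {J : Finset (ℂ × ℂ)} (hJ : J ∈ N.tj f.s0) (hn : ¬ ho N f.s0 z0 R j J) {t : ℂ × ℂ × ℂ}
    (ht : t ∈ f.T) : f.X1 (Rj R j) J t = 0 := by
  have hR := hw.Rpos
  unfold Fc.X1
  rw [← pr_false (Fs S z0 (Rj R j))]
  refine pr_congr fun β hβ => ⟨?_, False.elim⟩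
  rintro ⟨k, hk⟩
  apply hn
  rcases Nat.eq_zero_or_pos j with h0 | h0
  · exact Or.inl h0
  right
  have hJ' : flip N.toTrg J β ∈ N.tj f.s0 := flip_st hw f (Rj_le hR j) hβ hJ
  have h1 : HO N t z0 (Rj R j) (f.at' (flip N.toTrg J β) t) := by
    exact Indepx583.tri3_HO hw (Rj_le hR j) (fun i => (f.near t ht i).trans_le hr)
      ((J9x872.at_mem hw.hnet f ht).2 hJ') hk
  have h2 : HO N f.s0 z0 (Rj R j) (flip N.toTrg J β) := (Indepx583.HO_at f ht hr).1 h1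
  have h3 : HO N f.s0 z0 (Rj R j) J :=
    (J9x872.HO_flip fun s hs => (Finset.mem_filter.1 (hβ hs)).2).1 h2
  obtain ⟨i, rfl⟩ : ∃ i, j = i + 1 := ⟨j - 1, by omega⟩
  have hp := Rj_pos hR i
  refine J9x872.HO_mono' hw ?_ ?_ h3
  · rw [Nat.add_sub_cancel, Rj_succ]
    linarith
  · rw [Nat.add_sub_cancel]
    have := Rj_le hR i
    linarith

end Crest.Agent.R143.X1Cx683
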