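import Crest.Agent.R143.X1C_683
import Crest.Agent.R143.LBW_654
import Crest.Agent.R143.J10_872
import Crest.Agent.R143.MixAbs2_811

/-!
# Row 143 (S0194), block X, assembly 4 (helper683): mixing for a pair of worlds

* `cK f t k` : normalised coefficients of the winding polynomial, `cK_sum`
* `mixP` : mixing of the coefficients (from GAPO, GAPI, REG)
-/

set_option autoImplicit false

noncomputable section

open scoped Classical

namespace Crest.Agent.R143.X1Dx683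

open Crest.Agent.R143.B0x346 Crest.Agent.R143.DelGx806 Crest.Agent.R143.DelRx806
open Crest.Agent.R143.Harx315 Crest.Agent.R143.Planarx54 Crest.Agent.R143.X0Bx683
open Crest.Agent.R143.X0Cx683 Crest.Agent.R143.X1Ax683 Crest.Agent.R143.X1Bx683
open Crest.Agent.R143.X1Cx683
open Crest.Agent.R143.LBWx654 (pav Oa GOa Ia GIa Xa)

variable {S S' : Finset ℂ} {N N' : Net ℂ} {z0 : ℂ} {R R1 d b0 C4 r : ℝ}

/-- normalised coefficients of the winding polynomial -/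
def cK (f : Fc S N z0 r) (t : ℂ × ℂ × ℂ) (k : ℤ) : ℝ :=
  (N.cntK t (f.pt t) (f.lf t) (f.a0 t) k : ℝ) / (N.tj t).card

theorem cK_nonneg (f : Fc S N z0 r) (t : ℂ × ℂ × ℂ) (k : ℤ) : 0 ≤ cK f t k := by
  unfold cK; positivity

theorem cK_eq (hw : World S N z0 R R1 d b0 C4) (f : Fc S N z0 r) {t : ℂ × ℂ × ℂ} (ht : t ∈ f.T)
    {ρ : ℝ} (hρ : ρ ≤ R) (k : ℤ) :
    cK f t k = ∑ J ∈ N.tj f.s0, 1 / ((N.tj f.s0).card : ℝ) * f.XK ρ J t k := by
  unfold cK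
  rw [J9x872.cntK_avg hw f ht hρ, J9x872.card_at hw.hnet f ht, ← Finset.mul_sum]
  ring

theorem cK_fin (hw : World S N z0 R R1 d b0 C4) (f : Fc S N z0 r) {t : ℂ × ℂ × ℂ} (ht : t ∈ f.T) :
    (Function.support (cK f t)).Finite := by
  refine Set.Finite.subset (Set.Finite.biUnion (N.tj f.s0).finite_toSet fun J _ =>
    J9x872.XK_fin f ht R J) fun k hk => ?_
  by_contra hn
  apply hk
  rw [cK_eq hw f ht (le_refl R)]
  refine Finset.sum_eq_zero fun J hJ => ?_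
  have : f.XK R J t k = 0 := by
    by_contra h
    exact hn (Set.mem_biUnion (Finset.mem_coe.2 hJ) h)
  rw [this, mul_zero]

theorem cK_sum (hw : World S N z0 R R1 d b0 C4) (f : Fc S N z0 r) {t : ℂ × ℂ × ℂ} (ht : t ∈ f.T) :
    ∑ᶠ k, cK f t k = Xa N t := by
  have h1 : ∀ k, cK f t k = ∑ J ∈ N.tj f.s0, 1 / ((N.tj f.s0).card : ℝ) * f.XK R J t k :=
    fun k => cK_eq hw f ht (le_refl R) k
  rw [finsum_congr h1, finsum_sum_comm]
  · have h2 : ∀ J ∈ N.tj f.s0, ∑ᶠ k, 1 / ((N.tj f.s0).card : ℝ) * f.XK R J t k =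
        1 / ((N.tj f.s0).card : ℝ) * f.X1 R J t := by
      intro J hJ
      rw [← mul_finsum, J9x872.X1_eq hw f ht (le_refl R) hJ]
    rw [Finset.sum_congr rfl h2, ← Finset.mul_sum]
    unfold Xa
    rw [LBWx654.pav_at hw f ht (le_refl R), one_div, inv_mul_eq_div]
    rfl
  · intro J _
    refine (J9x872.XK_fin f ht R J).subset fun k hk h => hk ?_
    simp only [h, mul_zero]

/-- smaller constants are allowed in `RegW` -/
theorem RegW.mono {f : Fc S N z0 r} {j : ℕ} {δ c c' : ℝ} {reg : Finset (ℂ × ℂ) → ℝ}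
    {Y : Finset (ℂ × ℂ) → ℂ × ℂ × ℂ → ℤ → ℝ} {Att : Finset (ℂ × ℂ) → ℤ → Prop}
    (h : RegW f R j δ c reg Y Att) (hc : c' ≤ c) (hreg : ∀ b, 0 ≤ reg b) :
    RegW f R j δ c' reg Y Att where
  uniq := h.uniq
  val := h.val
  lo J hJ := by
    obtain ⟨w, h1, h2, h3, h4⟩ := h.lo J hJ
    refine ⟨w, h1, h2, h3, fun b n => le_trans ?_ (h4 b n)⟩
    exact mul_le_mul_of_nonneg_right (mul_le_mul_of_nonneg_right hc (h1 n)) (hreg b)
  up J hJ t ht := by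
    refine le_trans ?_ (h.up J hJ t ht)
    exact mul_le_mul_of_nonneg_right hc pr_nonneg

theorem hmul {K a x y : ℝ} (ha : 0 ≤ a) (hy : 0 ≤ y) (hle : a ≤ K) (h : K * x ≤ y) : a * x ≤ y := by
  rcases le_or_gt 0 x with hx | hx
  · exact (mul_le_mul_of_nonneg_right hle hx).trans h
  · nlinarith

/-- small `δ` -/
theorem exists_del {θ c K c' K' : ℝ} (hθ : 0 < θ) (hc : 0 < c) (hK : 0 < K) (hc' : 0 < c')
    (hK' : 0 < K') : ∃ δ : ℝ, 0 < δ ∧ δ ≤ 1 ∧ 2 * (K * δ ^ c) ≤ θ ∧ 2 * (K' * δ ^ c') ≤ θ := by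
  have key : ∀ {c K δ : ℝ}, 0 < c → 0 < K → 0 < δ → δ ≤ (θ / (2 * K)) ^ c⁻¹ →
      2 * (K * δ ^ c) ≤ θ := by
    intro c K δ hc hK hδ h
    have h1 : δ ^ c ≤ ((θ / (2 * K)) ^ c⁻¹) ^ c := Real.rpow_le_rpow hδ.le h hc.le
    rw [← Real.rpow_mul (by positivity), inv_mul_cancel₀ hc.ne', Real.rpow_one] at h1
    calc 2 * (K * δ ^ c) ≤ 2 * (K * (θ / (2 * K))) := by gcongr
      _ = θ := by field_simp
  refine ⟨min 1 (min ((θ / (2 * K)) ^ c⁻¹) ((θ / (2 * K')) ^ c'⁻¹)), ?_, min_le_left _ _, ?_, ?_⟩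
  · exact lt_min one_pos (lt_min (by positivity) (by positivity))
  · exact key hc hK (lt_min one_pos (lt_min (by positivity) (by positivity)))
      ((min_le_right _ _).trans (min_le_left _ _))
  · exact key hc' hK' (lt_min one_pos (lt_min (by positivity) (by positivity)))
      ((min_le_right _ _).trans (min_le_right _ _))

/-- **mixing of the coefficients for a pair of worlds** -/
theorem mixP (hO : GAPO) (hI : GAPI) (hG : REG) (hC4 : 0 < C4) {θ : ℝ} (hθ : 0 < θ) (hθ1 : θ ≤ 1) :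
    ∃ C1 th K : ℝ, 1 ≤ C1 ∧ 0 < th ∧ th < 1 ∧ 0 < K ∧
    ∀ (S S' : Finset ℂ) (N N' : Net ℂ) (z0 : ℂ) (R R1 d b0 r : ℝ) (f : Fc S N z0 r)
      (f' : Fc S' N' z0 r), Pair S S' N N' z0 R R1 d b0 C4 r f f' → K * R ≤ R1 →
    ∀ m n : ℕ, r ≤ Rj R (m + 1) → K * b0 ≤ Rj R m → K * d ≤ Rj R m → n ≤ m / 16 →
    θ ^ (n + 1) < Oa N f.s0 z0 R m → θ ^ (n + 1) < Oa N' f'.s0 z0 R m →
    ∀ s ∈ f.T, ∀ t ∈ f.T, θ ^ (n + 1) < Ia N s z0 R 0 → θ ^ (n + 1) < Ia N t z0 R 0 →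
      θ ^ (n + 1) < Ia N' s z0 R 0 → θ ^ (n + 1) < Ia N' t z0 R 0 →
    ∀ q : ℝ, 0 ≤ q → θ ^ ((m + 1) / 8 - 1) ≤ q * Xa N s → θ ^ ((m + 1) / 8 - 1) ≤ q * Xa N t →
      θ ^ ((m + 1) / 8 - 1) ≤ q * Xa N' s → θ ^ ((m + 1) / 8 - 1) ≤ q * Xa N' t →
    ∀ g : ℤ → ℝ, (∀ n, |g n| ≤ 1) →
      |∑ᶠ k, ∑ᶠ l, g (k + l) * (cK f t k * cK f' s l - cK f s k * cK f' t l)| ≤
        C1 * (th ^ (m + 1) + q) * (Xa N t * Xa N' s + Xa N s * Xa N' t) := by
  obtain ⟨cg, Kg, hcg, hKg, hg⟩ := LBWx654.gaps hO hI hC4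
  obtain ⟨cO, KO, hcO, hKO, hgO⟩ := hO C4 hC4
  have hKg0 : 0 < Kg := by linarith
  obtain ⟨δ, hδ, hδ1, hδg, hδO⟩ := exists_del hθ hcg hKg0 hcO hKO
  obtain ⟨cr, Kr, hcr, hKr, hR⟩ := hG C4 δ hC4 hδ hδ1
  set c : ℝ := min cr 1 with hc
  have hc0 : 0 < c := lt_min hcr one_pos
  have hc1 : c ≤ 1 := min_le_right _ _
  have hC : 1 ≤ 4 / c := by
    rw [le_div_iff₀ hc0]
    linarith
  obtain ⟨C1, th, hC1, hth, hth1, hmix⟩ := mix_av MixAbs2x811.mixAbs2 hc0 hc1 hC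
  set Km : ℝ := max (max (256 * Kr) (Kg / δ)) (max (4 * KO / δ) 256) with hKm
  have mR : Kr ≤ Km := by
    have : 256 * Kr ≤ Km := (le_max_left _ _).trans (le_max_left _ _)
    linarith
  have mG : Kg / δ ≤ Km := (le_max_right _ _).trans (le_max_left _ _)
  have mG' : Kg ≤ Km := by
    have h2 : Kg ≤ Kg / δ := by
      rw [le_div_iff₀ hδ]
      nlinarith
    linarith
  have mO : 4 * KO / δ ≤ Km := (le_max_left _ _).trans (le_max_right _ _)
  have mO' : KO ≤ Km := by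
    have h2 : KO ≤ 4 * KO / δ := by
      rw [le_div_iff₀ hδ]
      nlinarith
    linarith
  have m256 : (256 : ℝ) ≤ Km := (le_max_right _ _).trans (le_max_right _ _)
  have hKm0 : 0 < Km := by linarith
  refine ⟨C1, th, Km, hC1, hth, hth1, hKm0, ?_⟩
  intro S S' N N' z0 R R1 d b0 r f f' hP hKR m n hr hb hd hn hOm hOm' s hs t ht hIs hIt hIs' hIt'
    q hq0 hqs hqt hqs' hqt' g hgb
  have hw := hP.w
  have hw' := hP.w'
  have hRp := hw.Rpos
  have hR1 : 0 ≤ R1 := by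
    have := hw.RR1
    linarith
  have hRm := Rj_pos hRp m
  -- gap at every scale, given the outside
  have gapJ : ∀ {S : Finset ℂ} {N : Net ℂ} (f : Fc S N z0 r), World S N z0 R R1 d b0 C4 →
      ∀ j < m, ∀ J ∈ N.tj f.s0,
      pr (Fs S z0 (Rj R j)) (fun β => HO N f.s0 z0 (Rj R j / 4) (flip N.toTrg J β) ∧
        ¬ GO N f.s0 z0 (Rj R j / 4) δ (flip N.toTrg J β)) ≤ θ / 2 := by
    intro S N f hw j hj J hJ
    have h0 := Rj_pos hRp j
    have e1 : Rj R (j + 1) = Rj R j / 256 := Rj_succ R j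
    have e2 : Rj R (j + 2) = Rj R (j + 1) / 256 := Rj_succ R (j + 1)
    have h4 : 4 * (Rj R j / 4) = Rj R j := by ring
    have hr2 : r ≤ Rj R (j + 2) := hr.trans (Rj_anti hRp (by omega))
    have key : ∀ x, Km * x ≤ Rj R m → KO * x ≤ δ * (Rj R j / 4) := by
      intro x hx
      have h1 : 4 * KO / δ * x ≤ Rj R m := hmul (by positivity) hRm.le mO hx
      have h2 : KO * x = δ / 4 * (4 * KO / δ * x) := by field_simp
      have h3 : 4 * KO / δ * x ≤ Rj R j := h1.trans (Rj_anti hRp hj.le)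
      calc KO * x = δ / 4 * (4 * KO / δ * x) := h2
        _ ≤ δ / 4 * Rj R j := mul_le_mul_of_nonneg_left h3 (by positivity)
        _ = δ * (Rj R j / 4) := by ring
    have hgap := hgO S N z0 R R1 d b0 hw (hmul hKO.le hR1 mO' hKR) f.s0 (f.sub _ f.s0m)
      (Rj R j / 4) δ (by rw [h4]; exact Rj_le hRp j)
      (fun i => lt_of_lt_of_le (f.near _ f.s0m i) (by linarith)) hδ hδ1 (key _ hb) (key _ hd) J hJ
    rw [h4] at hgap
    linarith
  -- the averaged gaps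
  have hgap : ∀ {S : Finset ℂ} {N : Net ℂ} (f : Fc S N z0 r), World S N z0 R R1 d b0 C4 →
      ∀ j < m, Oa N f.s0 z0 R (j + 1) - GOa N f.s0 z0 R δ j ≤ Kg * δ ^ cg * Oa N f.s0 z0 R j ∧
      ∀ t ∈ f.T, Ia N t z0 R j - GIa N t z0 R δ j ≤ Kg * δ ^ cg * Ia N t z0 R (j + 1) := by
    intro S N f hw j hj
    have key : ∀ x, Km * x ≤ Rj R m → Kg * x ≤ δ * Rj R j := by
      intro x hx
      have h1 : Kg / δ * x ≤ Rj R m := hmul (by positivity) hRm.le mG hx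
      have h2 : Kg * x = δ * (Kg / δ * x) := by field_simp
      rw [h2]
      exact mul_le_mul_of_nonneg_left (h1.trans (Rj_anti hRp hj.le)) hδ.le
    exact hg δ hδ hδ1 S N z0 R R1 d b0 r f hw (hmul hKg0.le hR1 mG' hKR) j
      (hr.trans (Rj_anti hRp (by omega))) (key _ hb) (key _ hd)
  have hq' : 0 < Kg * δ ^ cg := by positivity
  have hpow : (2 * (Kg * δ ^ cg)) ^ (n + 1) ≤ θ ^ (n + 1) := pow_le_pow_left₀ (by positivity) hδg _
  have cnt : ∀ {S : Finset ℂ} {N : Net ℂ} (f : Fc S N z0 r), World S N z0 R R1 d b0 C4 →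
      ∀ u ∈ f.T, θ ^ (n + 1) < Ia N u z0 R 0 →
      ((Finset.range m).filter fun j => ¬ Ia N u z0 R j ≤ 2 * GIa N u z0 R δ j).card ≤ n := by
    intro S N f hw u hu hIu
    exact (LBWx654.counts (n := n) hw f hr hq' (hδg.trans hθ1) (hgap f hw)).2 u hu
      (hpow.trans_lt hIu)
  -- the regeneration data
  have hreg : ∀ j, ∃ (reg : Finset (ℂ × ℂ) → ℝ) (Y : Finset (ℂ × ℂ) → ℂ × ℂ × ℂ → ℤ → ℝ)
      (Att Att' : Finset (ℂ × ℂ) → ℤ → Prop),
      (∀ b, 0 ≤ reg b) ∧ (Function.support reg).Finite ∧ (∀ b t k, 0 ≤ Y b t k) ∧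
      (∀ b t, (Function.support (Y b t)).Finite) ∧
      (j < m → RegW f R j δ c reg Y Att ∧ RegW f' R j δ c reg Y Att') := by
    intro j
    by_cases hj : j < m
    · have hRj : Rj R m ≤ Rj R (j + 1) := Rj_anti hRp (by omega)
      obtain ⟨reg, Y, Att, Att', h1, h2, h3, h4, h5, h6⟩ := hR S S' N N' z0 R R1 d b0 r f f' hP
        (hmul hKr.le hR1 mR hKR) j (hr.trans (Rj_anti hRp (by omega)))
        ((hmul hKr.le hRm.le mR hb).trans hRj) ((hmul hKr.le hRm.le mR hd).trans hRj)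
      exact ⟨reg, Y, Att, Att', h1, h2, h3, h4, fun _ => ⟨RegW.mono h5 (min_le_left _ _) h1,
        RegW.mono h6 (min_le_left _ _) h1⟩⟩
    · refine ⟨fun _ => 0, fun _ _ _ => 0, fun _ _ => False, fun _ _ => False, fun _ => le_refl _,
        ?_, fun _ _ _ => le_refl _, fun _ _ => ?_, fun h => absurd h hj⟩
      · simp only [Function.support_fun_zero, Set.finite_empty]
      · simp only [Function.support_fun_zero, Set.finite_empty]
  choose reg Y Att Att' g1 g2 g3 g4 g5 using hreg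
  set inn : ℕ → ℂ × ℂ × ℂ → Prop := fun j u => Ia N u z0 R j ≤ 2 * GIa N u z0 R δ j ∧
    Ia N' u z0 R j ≤ 2 * GIa N' u z0 R δ j with hinn
  have hinnJ : ∀ {S : Finset ℂ} {N : Net ℂ} (f : Fc S N z0 r), World S N z0 R R1 d b0 C4 →
      ∀ (j : ℕ) (u : ℂ × ℂ × ℂ), u ∈ f.T → Ia N u z0 R j ≤ 2 * GIa N u z0 R δ j →
      ∀ J ∈ N.tj f.s0,
      f.h (Rj R j) (Rj R j / 64) J u ≤ 2 * f.g (Rj R j) (Rj R j / 64) δ J u := by
    intro S N f hw j u hu h J hJ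
    have h0 := Rj_pos hRp j
    rw [← LBWx654.Ia_eq hw f hu hJ (by linarith) (Rj_le hRp j),
      ← LBWx654.GIa_eq hw f hu hJ (by linarith) (Rj_le hRp j)]
    exact h
  have hd4 : 4 * d ≤ Rj R m / 64 := by
    have := hmul (by norm_num) hRm.le m256 hd
    linarith
  have hrm : r ≤ Rj R m := hr.trans (Rj_anti hRp (by omega))
  let Z := sysW (f := f) hw rfl hc0 hrm hd4 (inn := inn)
    (fun j _ u hu h => hinnJ f hw j u hu h.1) g1 g2 g3 g4 (fun j hj => (g5 j hj).1)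
  let Z' := sysW (f := f') hw' hP.T.symm hc0 hrm hd4 (inn := inn)
    (fun j _ u hu h => hinnJ f' hw' j u (hP.T ▸ hu) h.2) g1 g2 g3 g4 (fun j hj => (g5 j hj).2)
  have hcard : ∀ u ∈ f.T, θ ^ (n + 1) < Ia N u z0 R 0 → θ ^ (n + 1) < Ia N' u z0 R 0 →
      ((Finset.range m).filter fun j => ¬ inn j u).card ≤ m / 8 := by
    intro u hu h1 h2
    have k1 := cnt f hw u hu h1
    have k2 := cnt f' hw' u (hP.T ▸ hu) h2
    have k3 : (Finset.range m).filter (fun j => ¬ inn j u) ⊆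
        ((Finset.range m).filter fun j => ¬ Ia N u z0 R j ≤ 2 * GIa N u z0 R δ j) ∪
        ((Finset.range m).filter fun j => ¬ Ia N' u z0 R j ≤ 2 * GIa N' u z0 R δ j) := by
      intro j hj
      simp only [Finset.mem_union, Finset.mem_filter] at hj ⊢
      have := not_and_or.1 hj.2
      tauto
    have := (Finset.card_le_card k3).trans (Finset.card_union_le _ _)
    omega
  have hcard2 : ∀ (u : ℂ × ℂ × ℂ) (hu : u ∈ f.T), θ ^ (n + 1) < Ia N u z0 R 0 →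
      θ ^ (n + 1) < Ia N' u z0 R 0 → ((Finset.range m).filter fun j =>
        ¬ (rD f.T reg Y inn g1 g2 g3 g4).inn j ⟨u, hu⟩).card ≤ m / 8 := by
    intro u hu h1 h2
    refine le_trans (le_of_eq ?_) (hcard u hu h1 h2)
    congr 1
    ext j
    simp only [Finset.mem_filter]
    rfl
  -- the averages are the coefficients
  have hc0' : Rj R 0 = R := Rj_zero R
  have ax : ∀ (u : {t // t ∈ f.T}) (k : ℤ),
      aX Z (N.tj f.s0) (fun _ => 1 / ((N.tj f.s0).card : ℝ)) u k = cK f u.1 k := by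
    intro u k
    rw [cK_eq hw f u.2 (le_refl R)]
    show ∑ J ∈ N.tj f.s0, 1 / ((N.tj f.s0).card : ℝ) * f.XK (Rj R 0) J u.1 k = _
    rw [hc0']
  have ax' : ∀ (u : {t // t ∈ f.T}) (k : ℤ),
      aX Z' (N'.tj f'.s0) (fun _ => 1 / ((N'.tj f'.s0).card : ℝ)) u k = cK f' u.1 k := by
    intro u k
    rw [cK_eq hw' f' (hP.T ▸ u.2) (le_refl R)]
    show ∑ J ∈ N'.tj f'.s0, 1 / ((N'.tj f'.s0).card : ℝ) * f'.XK (Rj R 0) J u.1 k = _
    rw [hc0']
  have sx : ∀ (u : {t // t ∈ f.T}),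
      ∑ᶠ k, aX Z (N.tj f.s0) (fun _ => 1 / ((N.tj f.s0).card : ℝ)) u k = Xa N u.1 := by
    intro u
    rw [finsum_congr (ax u), cK_sum hw f u.2]
  have sx' : ∀ (u : {t // t ∈ f.T}),
      ∑ᶠ k, aX Z' (N'.tj f'.s0) (fun _ => 1 / ((N'.tj f'.s0).card : ℝ)) u k = Xa N' u.1 := by
    intro u
    rw [finsum_congr (ax' u), cK_sum hw' f' (hP.T ▸ u.2)]
  have wsum : ∀ (X : Finset (Finset (ℂ × ℂ))), ∑ _J ∈ X, 1 / (X.card : ℝ) ≤ 1 := by
    intro X
    rw [Finset.sum_const, nsmul_eq_mul, mul_one_div]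
    exact div_self_le_one _
  have VX : ∀ (j : ℕ) (J : Finset (ℂ × ℂ)), J ∈ N.tj f.s0 → ∀ u : {t // t ∈ f.T},
      Z.V j J u = f.X1 (Rj R j) J u.1 := fun j J hJ u =>
    J9x872.X1_eq hw f u.2 (Rj_le hRp j) hJ
  have VX' : ∀ (j : ℕ) (J : Finset (ℂ × ℂ)), J ∈ N'.tj f'.s0 → ∀ u : {t // t ∈ f.T},
      Z'.V j J u = f'.X1 (Rj R j) J u.1 := fun j J hJ u =>
    J9x872.X1_eq hw' f' (hP.T ▸ u.2) (Rj_le hRp j) hJ
  have := hmix (Finset (ℂ × ℂ)) {t // t ∈ f.T} (Finset (ℂ × ℂ)) (Finset ℂ)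
    (rD f.T reg Y inn g1 g2 g3 g4) m Z Z' (N.tj f.s0) (N'.tj f'.s0)
    (fun _ => 1 / ((N.tj f.s0).card : ℝ)) (fun _ => 1 / ((N'.tj f'.s0).card : ℝ)) ⟨s, hs⟩ ⟨t, ht⟩
    θ q (ho N f.s0 z0 R) (ho N' f'.s0 z0 R) g hgb (fun _ => by positivity)
    (fun _ => by positivity) (wsum _) (wsum _) (fun a ha => ha) (fun a ha => ha) hθ.le hθ1 hq0
    (fun j hj J hJ hb => H1 hw f (gapJ f hw j hj J hJ) hb)
    (fun j hj J hJ hb => H1 hw' f' (gapJ f' hw' j hj J hJ) hb)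
    (fun j _ => H2 S z0 R j) (fun j _ => H2 S' z0 R j)
    (fun j hj J hJ hn u => by
      rw [VX j J hJ u]
      exact H3 hw f (hrm.trans (Rj_anti hRp hj)) hJ hn u.2)
    (fun j hj J hJ hn u => by
      rw [VX' j J hJ u]
      exact H3 hw' f' (hrm.trans (Rj_anti hRp hj)) hJ hn (hP.T ▸ u.2))
    (fun J hJ u => by
      rw [VX m J hJ u]
      exact pr_le_one)
    (fun J hJ u => by
      rw [VX' m J hJ u]
      exact pr_le_one)
    (hcard2 s hs hIs hIs') (hcard2 t ht hIt hIt')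
    (by rw [sx]; exact hqs) (by rw [sx]; exact hqt) (by rw [sx']; exact hqs')
    (by rw [sx']; exact hqt')
  rw [sx, sx, sx', sx'] at this
  simp only [ax, ax'] at this
  exact this

end Crest.Agent.R143.X1Dx683
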