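import Crest.Agent.R143.XF_903
import Crest.Agent.R143.B6c_903
import Crest.Agent.R143.M4U_991

/-!
# Row 143 (S0194), block X: from `At` to `World` and `Pair` (helper903)

* `world_at` : an admissible domain in a good environment is a `World` around `z`
* `pair_at` : two such domains with the same points near `z` form a `Pair`; faces = `touch`
-/

set_option autoImplicit false

noncomputable section

open scoped Classical

namespace Crest.Agent.R143.XAx903

open Complex Set Filter Topology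
open Crest.ProbabilityR.Voronoi
open Crest.Agent.R143.B0x346 Crest.Agent.R143.B0Dx346 Crest.Agent.R143.PP1x831
open Crest.Agent.R143.DelGx806 Crest.Agent.R143.Locx922 Crest.Agent.R143.Circx63
open Crest.Agent.R143.X0Bx683 Crest.Agent.R143.RB0x838 Crest.Agent.R143.XLx903
open Crest.Agent.R143.XFx903 Crest.Agent.R143.B6Ix903 Crest.Agent.R143.B6cx903
open Crest.Agent.R143.B1bx796 (touch)

/-- big radius of the world -/
def R1 (π : Par) : ℝ := min (π.R / 4) (1 / 4)

/-- smallest scale of the mesh bound -/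
def b0 (π : Par) (ε : ℝ) : ℝ := max (ε * Real.log (1 / ε) ^ π.a) (2 * rad π.C ε)

theorem R1_pos (π : Par) : 0 < R1 π := lt_min (by have := π.Rpos; positivity) (by norm_num)

variable {π : Par} {δ δ' κ ε : ℝ} {D D' : Dom} {ω ω' : Sample} {z : ℂ}

/-- **an admissible domain in a good environment is a world** -/
theorem world_at (h : At π δ ε D ω z) (hs : Sm π δ κ ε) {R : ℝ} (hR : 0 < R) (hR1 : R ≤ R1 π) :
    World (D.sites ε ω) (net D ε ω) z R (R1 π) (rad π.C ε) (b0 π ε) (16 * π.C4) := by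
  have hd := hs.d
  have h2 := hs.rd
  have h3 := hs.rR
  have hr : 0 < ε ^ κ := Real.rpow_pos_of_pos hs.unit.1 _
  have hroom := room_norm h.room π.Rpos.le
  have hL := h.ok.Lpos
  have hn0 : 0 ≤ ‖z - D.c‖ := norm_nonneg _
  have hN := h.hnet hs
  have m1 : R1 π ≤ π.R / 4 := min_le_left _ _
  have m2 : R1 π ≤ 1 / 4 := min_le_right _ _
  have hH : Hol (D.sites ε ω : Set ℂ) (Metric.closedBall z (R1 π)) (rad π.C ε) :=
    h.hol hs (by linarith)
  have hC4 := π.C4pos
  refine ⟨hN, hR, hR1, ⟨hN.gp, hd, fun w hw => ?_⟩, fun a b ha => ?_, fun a b ha => ?_, ?_⟩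
  · exact hH w (by rw [Metric.mem_closedBall, dist_eq_norm]; exact hw) w (by simpa using hd.le)
  · have haW : a ∈ Metric.closedBall z (R1 π) := by
      rw [Metric.mem_closedBall, dist_eq_norm]; linarith
    rw [(netS_kl_W hd hN hH haW).1]
    rintro ⟨w, hw, hwo⟩
    have h4 := (vedge_sub_ball hd hH haW hw).1
    refine Set.disjoint_left.1 h.room.1 ?_ hwo
    rw [Metric.mem_closedBall, dist_eq_norm]
    have := norm_tri w a z
    linarith
  · have haW : a ∈ Metric.closedBall z (R1 π) := by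
      rw [Metric.mem_closedBall, dist_eq_norm]; linarith
    exact not_hull hd hH haW b
  · intro z' hz' b hb hb1 z'' hz''
    have hb2 : 2 * rad π.C ε ≤ b := (le_max_right _ _).trans hb
    have hb3 : ε * Real.log (1 / ε) ^ π.a ≤ b := (le_max_left _ _).trans hb
    have hbpos : 0 < b := by linarith
    have n1 := norm_tri z'' z' z
    have n2 := norm_tri z'' z D.c
    have h5 := M4Ux991.sum_V' (ω := ω) (V := Metric.closedBall z'' b) (W := Metric.ball z'' (2 * b))
      (C := π.C4 * (2 * b) ^ 2) hd h.good.env ?_ ?_ (by positivity) ?_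
    · refine h5.trans (le_of_eq (by ring))
    · intro v hv
      rw [Metric.mem_closedBall, dist_eq_norm] at hv ⊢
      have := norm_tri v z'' D.c
      linarith
    · intro v hv w hw
      rw [Metric.mem_closedBall, dist_eq_norm] at hv
      rw [Metric.mem_ball, dist_eq_norm] at hw ⊢
      have := norm_tri w v z''
      linarith
    · refine h.good.diam z'' ?_ (2 * b) (by linarith) (by linarith)
      rw [Metric.mem_closedBall, dist_eq_norm]
      linarith

/-- corners of the faces which touch the ball -/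
theorem touch_cor (h : At π δ ε D ω z) (hs : Sm π δ κ ε) {t : ℂ × ℂ × ℂ}
    (ht : t ∈ touch z (ε ^ κ) (D.sites ε ω)) : Cor z (ε ^ κ + 2 * rad π.C ε) t := by
  have h3 := hs.rR
  have hr : 0 < ε ^ κ := Real.rpow_pos_of_pos hs.unit.1 _
  exact B1gx991.touch_near hs.d (h.hol hs (by linarith)) ht

/-- **two domains with the same points near `z`** -/
theorem pair_at (h : At π δ ε D ω z) (h' : At π δ' ε D' ω' z) (hs : Sm π δ κ ε)
    (hs' : Sm π δ' κ ε)
    (hp : ∀ s : ℂ, ‖s - z‖ < π.R → (s ∈ points ε ω ↔ s ∈ points ε ω')) {R : ℝ}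
    (hR : 3 * ε ^ κ ≤ R) (hR1 : R ≤ R1 π) {s0 : ℂ × ℂ × ℂ}
    (hs0 : s0 ∈ touch z (ε ^ κ) (D.sites ε ω)) :
    ∃ (f : Fc (D.sites ε ω) (net D ε ω) z (2 * ε ^ κ))
      (f' : Fc (D'.sites ε ω') (net D' ε ω') z (2 * ε ^ κ)),
      X0Cx683.Pair (D.sites ε ω) (D'.sites ε ω') (net D ε ω) (net D' ε ω') z R (R1 π)
        (rad π.C ε) (b0 π ε) (16 * π.C4) (2 * ε ^ κ) f f' ∧
      f.T = touch z (ε ^ κ) (D.sites ε ω) ∧ f.s0 = s0 ∧
      (∀ t, |f.a0 t - f.lf t 0| ≤ 3 * Real.pi) ∧ ∀ t, |f'.a0 t - f'.lf t 0| ≤ 3 * Real.pi := by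
  have hd := hs.d
  have h2 := hs.rd
  have h3 := hs.rR
  have hr : 0 < ε ^ κ := Real.rpow_pos_of_pos hs.unit.1 _
  have hroom := room_norm h.room π.Rpos.le
  have hroom' := room_norm h'.room π.Rpos.le
  have hL := h.ok.Lpos
  have hL' := h'.ok.Lpos
  have m1 : R1 π ≤ π.R / 4 := min_le_left _ _
  have hRpos : 0 < R := by linarith
  refine exists_pair (r0 := ε ^ κ + 2 * rad π.C ε) (world_at h hs hRpos hR1)
    (world_at h' hs' hRpos hR1) ?_ (by linarith) (by linarith) ?_ ?_ hs0
  · intro s hsn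
    rw [mem_sites h.good.env.fin, mem_sites h'.good.env.fin]
    have n1 := norm_tri s z D.c
    have n2 := norm_tri s z D'.c
    have hRR := π.Rpos
    have h4 := hp s (by linarith)
    constructor
    · rintro ⟨h5, -⟩
      exact ⟨h4.1 h5, by linarith⟩
    · rintro ⟨h5, -⟩
      exact ⟨h4.2 h5, by linarith⟩
  · intro t ht
    rw [B1bx796.touch] at ht
    exact (Finset.mem_filter.1 ht).1
  · intro t ht
    exact touch_cor h hs ht

end Crest.Agent.R143.XAx903
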