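import Crest.Agent.R143.XV4_796
import Crest.Agent.R143.XD_697

/-!
# Row 143, block X: loops with three gates, definitions (helper796)

Unit `q = ρ / 1600`, annulus `A1` = sites with `100 q ≤ |s - z0| < 200 q`.

* `JF` : the join `J` in the annulus = edges which cross an axis, flipped by the colours `β`
* `Dax` : reference sites (right side of the axis)
* `G3` : closed chain (counterclockwise) of sites of `A1` with exactly three occupied edges `gt k`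
  (directed counterclockwise: a walker at `gt k` enters the inside); `Pa k`, `Pb k` = passage through
  the box `k` before / after the gate
* `sig`, `gat` : canonical choice from the occupied edges inside `A1`
-/

set_option autoImplicit false

noncomputable section

open scoped Classical

namespace Crest.Agent.R143.XG3x796

open Crest.Agent.R143.B0x346 Crest.Agent.R143.DelGx806 Crest.Agent.R143.DelRx806
open Crest.Agent.R143.ToolWx838 Crest.Agent.R143.Blkx838 Crest.Agent.R143.ToolW2x838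
open Crest.Agent.R143.ToolW3x838 Crest.Agent.R143.Circ4x838 Crest.Agent.R143.Harx315
open Crest.Agent.R143.RB0x838 Crest.Agent.R143.CircPx838 Crest.Agent.R143.Gatex838
open Crest.Agent.R143.X0Bx683 Crest.Agent.R143.XDx697 Crest.Agent.R143.XV2x796

/-- the form of the join `J` in the annulus `A1`, colours `β` -/
def JF (S : Finset ℂ) (z0 : ℂ) (q : ℝ) (J : Finset (ℂ × ℂ)) (β : Finset ℂ) : Prop :=
  ∀ p : ℂ × ℂ, DE S p.1 p.2 → p.1 ∈ A1 S z0 q → p.2 ∈ A1 S z0 q →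
    (p ∈ J ↔ ¬ (AxE z0 p ↔ ¬ (p.1 ∈ β ↔ p.2 ∈ β)))

/-- the sites on the right side of the axis of the box `k` -/
def Dax (S : Finset ℂ) (z0 : ℂ) (q : ℝ) (k : ℕ) : Finset ℂ :=
  (A1 S z0 q).filter fun s => 0 ≤ X z0 (XV2x796.ed k) s

/-- closed chain with exactly three occupied edges -/
structure G3 (S : Finset ℂ) (z0 : ℂ) (q : ℝ) (J : Finset (ℂ × ℂ)) (c : List ℂ)
    (gt : ZMod 3 → ℂ × ℂ) (Pa Pb : ZMod 3 → List ℂ) : Prop where
  loop : Loop S c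
  ann : ∀ s ∈ c, s ∈ A1 S z0 q
  wind : ∀ z : ℂ, |z.re - z0.re| ≤ 100 * q → |z.im - z0.im| ≤ 100 * q → asum z c = 2 * Real.pi
  occ : ∀ k, gt k ∈ J ∧ (gt k).swap ∈ J
  cnt : ∀ k, (prs c).count (gt k) = 1 ∧ (gt k).swap ∉ prs c
  only : ∀ p ∈ prs c, (p ∈ J ∨ p.swap ∈ J) → ∃ k, p = gt k
  a_ne : ∀ k, Pa k ≠ []
  b_ne : ∀ k, Pb k ≠ []
  a_last : ∀ k, (Pa k).getLast? = some (gt k).1
  b_head : ∀ k, (Pb k).head? = some (gt k).2
  a_prs : ∀ k, ∀ p ∈ prs (Pa k), p ∈ prs c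
  b_prs : ∀ k, ∀ p ∈ prs (Pb k), p ∈ prs c
  a_free : ∀ k, JFree J (Pa k)
  b_free : ∀ k, JFree J (Pb k)
  a_mem : ∀ k, ∀ s ∈ Pa k, s ∈ c ∧ -(6 * q) < X z0 (XDx697.ed k) s ∧
    102 * q < Y z0 (XDx697.ed k) s ∧ Y z0 (XDx697.ed k) s < 141 * q
  b_mem : ∀ k, ∀ s ∈ Pb k, s ∈ c ∧ X z0 (XDx697.ed k) s < 6 * q ∧
    102 * q < Y z0 (XDx697.ed k) s ∧ Y z0 (XDx697.ed k) s < 141 * q
  a_x : ∀ k, ∀ s, (Pa k).head? = some s → 10 * q ≤ X z0 (XDx697.ed k) s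
  b_x : ∀ k, ∀ s, (Pb k).getLast? = some s → X z0 (XDx697.ed k) s ≤ -(10 * q)
  /-- position of the gates -/
  g_pos : ∀ k, (-(6 * q) < X z0 (XDx697.ed k) (gt k).1 ∧ X z0 (XDx697.ed k) (gt k).1 ≤ 12 * q ∧
      115 * q < Y z0 (XDx697.ed k) (gt k).1 ∧ Y z0 (XDx697.ed k) (gt k).1 < 125 * q) ∧
    (-(10 * q) < X z0 (XDx697.ed k) (gt k).2 ∧ X z0 (XDx697.ed k) (gt k).2 < 6 * q ∧
      115 * q < Y z0 (XDx697.ed k) (gt k).2 ∧ Y z0 (XDx697.ed k) (gt k).2 < 125 * q)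

/-- there is a passage structure -/
def G3E (S : Finset ℂ) (z0 : ℂ) (q : ℝ) (J : Finset (ℂ × ℂ)) (c : List ℂ)
    (gt : ZMod 3 → ℂ × ℂ) : Prop := ∃ Pa Pb, G3 S z0 q J c gt Pa Pb

/-- the occupied edges inside the annulus `A1` -/
def rA (S : Finset ℂ) (z0 : ℂ) (q : ℝ) (J : Finset (ℂ × ℂ)) : Finset (ℂ × ℂ) :=
  J.filter fun p => p.1 ∈ A1 S z0 q ∧ p.2 ∈ A1 S z0 q

/-- there is a loop with three gates, occupied edges `E` -/
def HasR (S : Finset ℂ) (z0 : ℂ) (q : ℝ) (E : Finset (ℂ × ℂ)) : Prop :=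
  ∃ (c : List ℂ) (gt : ZMod 3 → ℂ × ℂ), G3E S z0 q E c gt

/-- a loop, chosen from the set `E` of occupied edges -/
def sigR (S : Finset ℂ) (z0 : ℂ) (q : ℝ) (E : Finset (ℂ × ℂ)) : List ℂ :=
  if h : HasR S z0 q E then h.choose else []

/-- its gates -/
def gatR (S : Finset ℂ) (z0 : ℂ) (q : ℝ) (E : Finset (ℂ × ℂ)) : ZMod 3 → ℂ × ℂ :=
  if h : HasR S z0 q E then h.choose_spec.choose else fun _ => (0, 0)

/-- there is a loop with three gates -/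
def HasG (S : Finset ℂ) (z0 : ℂ) (q : ℝ) (J : Finset (ℂ × ℂ)) : Prop := HasR S z0 q (rA S z0 q J)

/-- canonical loop -/
def sig (S : Finset ℂ) (z0 : ℂ) (q : ℝ) (J : Finset (ℂ × ℂ)) : List ℂ := sigR S z0 q (rA S z0 q J)

/-- canonical gates -/
def gat (S : Finset ℂ) (z0 : ℂ) (q : ℝ) (J : Finset (ℂ × ℂ)) : ZMod 3 → ℂ × ℂ :=
  gatR S z0 q (rA S z0 q J)

variable {S : Finset ℂ} {z0 : ℂ} {q : ℝ} {J J' : Finset (ℂ × ℂ)}

theorem mem_rA {p : ℂ × ℂ} : p ∈ rA S z0 q J ↔ p ∈ J ∧ p.1 ∈ A1 S z0 q ∧ p.2 ∈ A1 S z0 q := by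
  unfold rA; simp

/-- the structure only depends on the occupied edges inside `A1` -/
theorem G3.congr {c : List ℂ} {gt : ZMod 3 → ℂ × ℂ} {Pa Pb : ZMod 3 → List ℂ}
    (h : G3 S z0 q J c gt Pa Pb)
    (hJ : ∀ p : ℂ × ℂ, p.1 ∈ A1 S z0 q → p.2 ∈ A1 S z0 q → (p ∈ J ↔ p ∈ J')) :
    G3 S z0 q J' c gt Pa Pb := by
  have hm : ∀ p ∈ prs c, p.1 ∈ A1 S z0 q ∧ p.2 ∈ A1 S z0 q := fun p hp =>
    ⟨h.ann _ (mem_of_prs hp).1, h.ann _ (mem_of_prs hp).2⟩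
  have ha : ∀ k, ∀ p ∈ prs (Pa k), p.1 ∈ A1 S z0 q ∧ p.2 ∈ A1 S z0 q := fun k p hp =>
    hm p (h.a_prs k p hp)
  have hb : ∀ k, ∀ p ∈ prs (Pb k), p.1 ∈ A1 S z0 q ∧ p.2 ∈ A1 S z0 q := fun k p hp =>
    hm p (h.b_prs k p hp)
  have hg : ∀ k, (gt k).1 ∈ A1 S z0 q ∧ (gt k).2 ∈ A1 S z0 q := by
    intro k
    have h1 : gt k ∈ prs c := by
      rw [← List.count_pos_iff, (h.cnt k).1]; norm_num
    exact hm _ h1
  refine ⟨h.loop, h.ann, h.wind, fun k => ⟨(hJ _ (hg k).1 (hg k).2).1 (h.occ k).1,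
    (hJ (gt k).swap (hg k).2 (hg k).1).1 (h.occ k).2⟩, h.cnt, fun p hp hpJ => ?_, h.a_ne, h.b_ne,
    h.a_last, h.b_head, h.a_prs, h.b_prs, fun k p hp => ?_, fun k p hp => ?_, h.a_mem, h.b_mem,
    h.a_x, h.b_x, h.g_pos⟩
  · refine h.only p hp ?_
    rw [hJ p (hm p hp).1 (hm p hp).2, hJ p.swap (hm p hp).2 (hm p hp).1]
    exact hpJ
  · rw [← hJ p (ha k p hp).1 (ha k p hp).2, ← hJ p.swap (ha k p hp).2 (ha k p hp).1]
    exact h.a_free k p hp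
  · rw [← hJ p (hb k p hp).1 (hb k p hp).2, ← hJ p.swap (hb k p hp).2 (hb k p hp).1]
    exact h.b_free k p hp

theorem G3.rA {c : List ℂ} {gt : ZMod 3 → ℂ × ℂ} {Pa Pb : ZMod 3 → List ℂ}
    (h : G3 S z0 q J c gt Pa Pb) : G3 S z0 q (rA S z0 q J) c gt Pa Pb :=
  h.congr fun p h1 h2 => by rw [mem_rA]; exact ⟨fun h => ⟨h, h1, h2⟩, fun h => h.1⟩

theorem G3.of_rA {c : List ℂ} {gt : ZMod 3 → ℂ × ℂ} {Pa Pb : ZMod 3 → List ℂ}
    (h : G3 S z0 q (XG3x796.rA S z0 q J) c gt Pa Pb) : G3 S z0 q J c gt Pa Pb :=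
  h.congr fun p h1 h2 => by rw [mem_rA]; exact ⟨fun h => h.1, fun h => ⟨h, h1, h2⟩⟩

theorem HasG.of {c : List ℂ} {gt : ZMod 3 → ℂ × ℂ} (h : G3E S z0 q J c gt) : HasG S z0 q J := by
  obtain ⟨Pa, Pb, h⟩ := h
  exact ⟨c, gt, Pa, Pb, h.rA⟩

/-- the canonical loop is a loop with three gates -/
theorem HasG.spec (h : HasG S z0 q J) : G3E S z0 q J (sig S z0 q J) (gat S z0 q J) := by
  have h1 : HasR S z0 q (rA S z0 q J) := h
  have h2 := h1.choose_spec.choose_spec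
  unfold sig gat sigR gatR
  rw [dif_pos h1, dif_pos h1]
  obtain ⟨Pa, Pb, h3⟩ := h2
  exact ⟨Pa, Pb, h3.of_rA⟩

/-- the canonical loop only depends on the occupied edges inside `A1` -/
theorem sig_congr (h : rA S z0 q J = rA S z0 q J') : sig S z0 q J = sig S z0 q J' ∧
    gat S z0 q J = gat S z0 q J' ∧ (HasG S z0 q J ↔ HasG S z0 q J') := by
  unfold sig gat HasG
  rw [h]
  exact ⟨rfl, rfl, Iff.rfl⟩

end Crest.Agent.R143.XG3x796
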