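import Crest.Agent.R143.Planar2_54
import Crest.Agent.R143.Loc_922

/-!
# Row 143 (S0194), block X, lifts (helper903)

* `exists_lift` : the directions of the three marks of an `HNet`, seen from a point strictly inside
  the hull, have a lift (they are in counterclockwise order)
* `lift_move` : a lift at `z0` is transported to `x` by the small angles
  `arg ((mid (ex k) - x) / (mid (ex k) - z0))`
-/

set_option autoImplicit false

noncomputable section

open scoped Classical

namespace Crest.Agent.R143.XLx903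

open Complex Set Filter Topology
open Crest.ProbabilityR.Voronoi
open Crest.Agent.R143.B0x346 Crest.Agent.R143.B0Dx346
open Crest.Agent.R143.DelGx806 Crest.Agent.R143.Planar2x54 Crest.Agent.R143.Locx922

variable {S : Finset ℂ} {N : Net ℂ} {x z0 : ℂ} {lf : ℤ → ℝ}

/-- `x` is strictly inside the hull -/
def Ins (S : Finset ℂ) (x : ℂ) : Prop := ∀ a b, hullE S a b → Lft x a b

theorem ins_tri (hS : GP (S : Set ℂ)) {t : ℂ × ℂ × ℂ} (ht : t ∈ delT S) (hx : InO' x t) :
    Ins S x := fun _ _ h => hull_lft hS ht hx h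

theorem ins_hol {d : ℝ} {W : Set ℂ} (hd : 0 < d) (hH : Hol (S : Set ℂ) W d) (hw : x ∈ W) :
    Ins S x := fun _ _ h => lft_hull hd hH hw h

theorem ins_seg (h0 : Ins S z0) (h1 : Ins S x) {s : ℝ} (hs : s ∈ Icc (0 : ℝ) 1) :
    Ins S (z0 + (s : ℂ) * (x - z0)) := by
  intro a b h
  have a0 := h0 a b h
  have a1 := h1 a b h
  unfold Lft at *
  have e : cr (b - a) (z0 + (s : ℂ) * (x - z0) - a) =
      (1 - s) * cr (b - a) (z0 - a) + s * cr (b - a) (x - a) := by
    unfold cr
    simp only [Complex.sub_re, Complex.sub_im, Complex.add_re, Complex.add_im, Complex.mul_re,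
      Complex.mul_im, Complex.ofReal_re, Complex.ofReal_im]
    ring
  rw [e]
  obtain ⟨s0, s1⟩ := hs
  rcases eq_or_lt_of_le s0 with h | h
  · rw [← h]; simpa using a0
  · have := mul_pos h a1
    have := mul_nonneg (sub_nonneg.mpr s1) a0.le
    linarith

/-- direction of the mark `k` seen from `x` -/
def dm (N : Net ℂ) (x : ℂ) (k : ZMod 3) : ℂ := mid (N.ex k) - x

/-- vector of the hull edge of the mark `k` -/
def ev (N : Net ℂ) (k : ZMod 3) : ℂ := (N.ex k).2 - (N.ex k).1

theorem cr_mid (u a b x : ℂ) : cr u (mid (a, b) - x) = (cr u (a - x) + cr u (b - x)) / 2 := by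
  unfold cr mid
  simp only [Complex.sub_re, Complex.sub_im, Complex.add_re, Complex.add_im, Complex.div_ofNat_re,
    Complex.div_ofNat_im]
  ring

theorem ev_dm (H : HNet S N) (hx : Ins S x) (k : ZMod 3) : cr (ev N k) (dm N x k) < 0 := by
  have h := hx _ _ (H.hex k)
  unfold Lft at h
  unfold ev dm
  have e : cr ((N.ex k).2 - (N.ex k).1) (mid (N.ex k) - x) =
      - cr ((N.ex k).2 - (N.ex k).1) (x - (N.ex k).1) := by
    unfold cr mid
    simp only [Complex.sub_re, Complex.sub_im, Complex.add_re, Complex.add_im,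
      Complex.div_ofNat_re, Complex.div_ofNat_im]
    ring
  rw [e]
  linarith

theorem ev_diff (H : HNet S N) (x : ℂ) (k j : ZMod 3) :
    cr (ev N k) (dm N x k) ≤ cr (ev N k) (dm N x j) := by
  have hs := hull_side (H.hex k)
  obtain ⟨⟨c, hc⟩, -⟩ := H.hex j
  obtain ⟨o, ho⟩ := mem_delT_iff.1 hc
  have h1 := hs _ ho.ma
  have h2 := hs _ ho.mb
  have e : cr (ev N k) (dm N x j) - cr (ev N k) (dm N x k) =
      (cr ((N.ex k).2 - (N.ex k).1) ((N.ex j).1 - (N.ex k).1) +
        cr ((N.ex k).2 - (N.ex k).1) ((N.ex j).2 - (N.ex k).1)) / 2 := by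
    unfold ev dm cr mid
    simp only [Complex.sub_re, Complex.sub_im, Complex.add_re, Complex.add_im,
      Complex.div_ofNat_re, Complex.div_ofNat_im]
    ring
  linarith

theorem sum_dm (N : Net ℂ) (x : ℂ) :
    cr (dm N x 0) (dm N x 1) + cr (dm N x 1) (dm N x 2) + cr (dm N x 2) (dm N x 0) =
      cr (mid (N.ex 1) - mid (N.ex 0)) (mid (N.ex 2) - mid (N.ex 0)) := by
  unfold dm cr
  simp only [Complex.sub_re, Complex.sub_im]
  ring

/-- `w` in the open triangle `0, u, v` (or on its sides at `0`) contradicts the supporting line -/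
theorem supp_aux {u v w e : ℂ} (h0 : cr e w < 0) (h1 : cr e w ≤ cr e u) (h2 : cr e w ≤ cr e v)
    (h4 : cr v w ≤ 0) (h5 : cr w u ≤ 0) (h6 : 0 < cr u v + cr v w + cr w u) :
    False := by
  have e1 : cr u v * cr e w = (- cr v w) * cr e u + (- cr w u) * cr e v := by
    unfold cr; ring
  nlinarith [mul_le_mul_of_nonneg_left h1 (neg_nonneg.mpr h4),
    mul_le_mul_of_nonneg_left h2 (neg_nonneg.mpr h5)]

theorem two_pos (H : HNet S N) (hx : Ins S x) : ∃ k : ZMod 3,
    0 < cr (dm N x k) (dm N x (k + 1)) ∧ 0 < cr (dm N x (k + 1)) (dm N x (k + 2)) := by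
  have hs := sum_dm N x
  have hc := H.ccw
  rw [← hs] at hc
  have z1 : (0 : ZMod 3) + 1 = 1 := rfl
  have z2 : (0 : ZMod 3) + 2 = 2 := rfl
  have z3 : (1 : ZMod 3) + 1 = 2 := rfl
  have z4 : (1 : ZMod 3) + 2 = 0 := rfl
  have z5 : (2 : ZMod 3) + 1 = 0 := rfl
  have z6 : (2 : ZMod 3) + 2 = 1 := rfl
  by_contra hcon
  push Not at hcon
  have c0 := hcon 0
  have c1 := hcon 1
  have c2 := hcon 2
  rw [z1, z2] at c0
  rw [z3, z4] at c1
  rw [z5, z6] at c2
  rcases lt_or_ge 0 (cr (dm N x 0) (dm N x 1)) with p0 | p0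
  · have q1 := c0 p0
    have q2 : cr (dm N x 2) (dm N x 0) ≤ 0 := by
      by_contra h
      exact absurd p0 (not_lt.mpr (c2 (not_le.mp h)))
    exact supp_aux (ev_dm H hx 2) (ev_diff H x 2 0) (ev_diff H x 2 1) q1 q2 hc
  · rcases lt_or_ge 0 (cr (dm N x 1) (dm N x 2)) with p1 | p1
    · have q1 := c1 p1
      exact supp_aux (ev_dm H hx 0) (ev_diff H x 0 1) (ev_diff H x 0 2) q1 p0 (by linarith)
    · have p2 : 0 < cr (dm N x 2) (dm N x 0) := by linarith
      exact supp_aux (ev_dm H hx 1) (ev_diff H x 1 2) (ev_diff H x 1 0) p0 p1 (by linarith)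

/-- lifted directions -/
structure LiftM (u : ZMod 3 → ℂ) (lf : ℤ → ℝ) : Prop where
  mono : StrictMono lf
  per : ∀ k, lf (k + 3) = lf k + 2 * Real.pi
  dir : ∀ k : ℤ, ∃ r : ℝ, 0 < r ∧ u (k : ZMod 3) = (r : ℂ) * Complex.exp (lf k * Complex.I)

theorem LiftM.shift {u : ZMod 3 → ℂ} {j : ℤ} {lf : ℤ → ℝ}
    (h : LiftM (fun k => u (k + (j : ZMod 3))) lf) : LiftM u (fun n => lf (n - j)) where
  mono := fun a b hab => h.mono (by omega)
  per := fun k => by
    have := h.per (k - j)
    rw [show k + 3 - j = k - j + 3 by ring]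
    exact this
  dir := fun k => by
    obtain ⟨r, hr, hd⟩ := h.dir (k - j)
    refine ⟨r, hr, ?_⟩
    simp only [Int.cast_sub, sub_add_cancel] at hd
    exact hd

theorem exists_liftM {u : ZMod 3 → ℂ} (h01 : 0 < cr (u 0) (u 1)) (h12 : 0 < cr (u 1) (u 2)) :
    ∃ lf, LiftM u lf := by
  have n0 := (ne_zero_of_cr h01.ne').1
  have n1 := (ne_zero_of_cr h01.ne').2
  have n2 := (ne_zero_of_cr h12.ne').2
  have a01 := ang_pos (x := 0) (a := u 0) (b := u 1) (by simpa using h01)
  have a12 := ang_pos (x := 0) (a := u 1) (b := u 2) (by simpa using h12)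
  have r01 : Rot (ang 0 (u 0) (u 1)) (u 0) (u 1) := by
    have := ang_rot (x := 0) (a := u 0) (b := u 1) (by simpa using n0) (by simpa using n1)
    simpa using this
  have r12 : Rot (ang 0 (u 1) (u 2)) (u 1) (u 2) := by
    have := ang_rot (x := 0) (a := u 1) (b := u 2) (by simpa using n1) (by simpa using n2)
    simpa using this
  set A := ang 0 (u 0) (u 1) with hA
  set B := ang 0 (u 1) (u 2) with hB
  set a : ℝ := (u 0).arg with ha
  have d0 : ∃ r : ℝ, 0 < r ∧ u 0 = (r : ℂ) * Complex.exp ((a : ℝ) * Complex.I) := by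
    refine ⟨‖u 0‖, norm_pos_iff.mpr n0, ?_⟩
    rw [ha, Complex.norm_mul_exp_arg_mul_I]
  have rd : ∀ {θ φ : ℝ} {v w : ℂ}, (∃ r : ℝ, 0 < r ∧ v = (r : ℂ) * Complex.exp ((θ : ℝ) *
      Complex.I)) → Rot φ v w → ∃ r : ℝ, 0 < r ∧ w = (r : ℂ) * Complex.exp ((θ + φ : ℝ) *
      Complex.I) := by
    rintro θ φ v w ⟨r, hr, rfl⟩ ⟨r', hr', rfl⟩
    refine ⟨r' * r, mul_pos hr' hr, ?_⟩
    push_cast
    rw [add_mul, Complex.exp_add]
    ring
  have d1 := rd d0 r01
  have d2 := rd d1 r12
  set lf : ℤ → ℝ := fun k => a + (k / 3 : ℤ) * (2 * Real.pi) +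
    (if k % 3 = 0 then 0 else if k % 3 = 1 then A else A + B) with hlf
  have hdiv : ∀ k : ℤ, k % 3 = 0 ∨ k % 3 = 1 ∨ k % 3 = 2 := by intro k; omega
  refine ⟨lf, ?_, ?_, ?_⟩
  · apply strictMono_int_of_lt_succ
    intro k
    simp only [hlf]
    rcases hdiv k with h | h | h
    · have h' : (k + 1) % 3 = 1 := by omega
      have h'' : (k + 1) / 3 = k / 3 := by omega
      rw [h, h', h'']
      norm_num
      linarith [a01.1]
    · have h' : (k + 1) % 3 = 2 := by omega
      have h'' : (k + 1) / 3 = k / 3 := by omega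
      rw [h, h', h'']
      norm_num
      linarith [a12.1]
    · have h' : (k + 1) % 3 = 0 := by omega
      have h'' : (k + 1) / 3 = k / 3 + 1 := by omega
      rw [h, h', h'']
      norm_num
      linarith [a01.2, a12.2, Real.pi_pos]
  · intro k
    simp only [hlf]
    have h' : (k + 3) % 3 = k % 3 := by omega
    have h'' : (k + 3) / 3 = k / 3 + 1 := by omega
    rw [h', h'']
    push_cast
    ring
  · intro k
    -- remove the multiple of `2π`
    have hk : k = k % 3 + 3 * (k / 3) := by omega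
    have hz : (k : ZMod 3) = ((k % 3 : ℤ) : ZMod 3) := by
      conv_lhs => rw [hk]
      push_cast
      have : (3 : ZMod 3) = 0 := rfl
      rw [this]; ring
    have key : ∀ θ : ℝ, Complex.exp (((a + (k / 3 : ℤ) * (2 * Real.pi) + θ : ℝ) : ℂ) * Complex.I) =
        Complex.exp (((a + θ : ℝ) : ℂ) * Complex.I) := by
      intro θ
      rw [Complex.exp_eq_exp_iff_exists_int]
      refine ⟨k / 3, ?_⟩
      push_cast
      ring
    rw [hz]
    simp only [hlf]
    rw [key]
    rcases hdiv k with h | h | h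
    · rw [h]
      norm_num
      exact d0
    · rw [h]
      norm_num
      simpa using d1
    · rw [h]
      norm_num
      obtain ⟨r, hr, h2⟩ := d2
      refine ⟨r, hr, ?_⟩
      rw [h2]
      congr 2
      push_cast
      ring

theorem LiftM.toLift (h : LiftM (dm N x) lf) : Lift N x lf := ⟨h.mono, h.per, h.dir⟩

theorem toLiftM (h : Lift N x lf) : LiftM (dm N x) lf := ⟨h.mono, h.per, h.dir⟩

/-- **the marks have a lift** seen from every point strictly inside the hull -/
theorem exists_lift (H : HNet S N) (hx : Ins S x) : ∃ lf, Lift N x lf := by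
  obtain ⟨k, h1, h2⟩ := two_pos H hx
  obtain ⟨lf, h⟩ := exists_liftM (u := fun j => dm N x (j + ((k.val : ℤ) : ZMod 3)))
    (by
      have e : ((k.val : ℤ) : ZMod 3) = k := by simp
      simp only [e, zero_add]
      rwa [add_comm 1 k])
    (by
      have e : ((k.val : ℤ) : ZMod 3) = k := by simp
      simp only [e]
      rwa [add_comm 1 k, add_comm 2 k])
  exact ⟨_, h.shift.toLift⟩

/-- a lift is defined up to `2π` -/
theorem Lift.sub {m : ℤ} (h : Lift N x lf) : Lift N x (fun k => lf k - m * (2 * Real.pi)) where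
  mono := fun a b hab => by
    have := h.mono hab
    simp only
    linarith
  per := fun k => by
    have := h.per k
    rw [this]; ring
  dir := fun k => by
    obtain ⟨r, hr, hd⟩ := h.dir k
    refine ⟨r, hr, ?_⟩
    rw [hd]
    congr 1
    rw [Complex.exp_eq_exp_iff_exists_int]
    refine ⟨m, ?_⟩
    push_cast
    ring

/-- the lift with `lf 0` in `[-π, π]` -/
theorem exists_lift0 (H : HNet S N) (hx : Ins S x) : ∃ lf, Lift N x lf ∧ |lf 0| ≤ Real.pi := by
  obtain ⟨lf, h⟩ := exists_lift H hx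
  refine ⟨_, Lift.sub (m := round (lf 0 / (2 * Real.pi))) h, ?_⟩
  have hp := Real.pi_pos
  have h1 := abs_sub_round (lf 0 / (2 * Real.pi))
  have e : lf 0 - (round (lf 0 / (2 * Real.pi)) : ℝ) * (2 * Real.pi) =
      (lf 0 / (2 * Real.pi) - round (lf 0 / (2 * Real.pi))) * (2 * Real.pi) := by
    field_simp
  rw [e, abs_mul, abs_of_pos (by positivity : (0 : ℝ) < 2 * Real.pi)]
  nlinarith

/-- two marks are never in the same direction -/
theorem dm_ne (H : HNet S N) (hx : Ins S x) (k : ZMod 3) {r : ℝ} (hr : 0 < r)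
    (h : dm N x (k + 1) = (r : ℂ) * dm N x k) : False := by
  have e : ∀ (a : ℝ) (u v : ℂ), cr u ((a : ℂ) * v) = a * cr u v := by
    intro a u v
    unfold cr
    simp only [Complex.mul_re, Complex.mul_im, Complex.ofReal_re, Complex.ofReal_im]
    ring
  have e2 : ∀ (u v w : ℂ), cr u (v - w) = cr u v - cr u w := by
    intro u v w
    unfold cr
    simp only [Complex.sub_re, Complex.sub_im]
    ring
  have a1 := ev_dm H hx k
  have a2 := ev_diff H x k (k + 1)
  rw [h, e] at a2
  have b1 := ev_dm H hx (k + 1)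
  have b2 := ev_diff H x (k + 1) k
  rw [h, e] at b1 b2
  -- `r ≤ 1` and `1 ≤ r`
  have r1 : r ≤ 1 := by
    by_contra hc
    push Not at hc
    nlinarith
  have c1 : cr (ev N (k + 1)) (dm N x k) < 0 := by
    by_contra hc
    push Not at hc
    nlinarith
  have r2 : 1 ≤ r := by
    by_contra hc
    push Not at hc
    nlinarith
  have r3 : r = 1 := le_antisymm r1 r2
  rw [r3, Complex.ofReal_one, one_mul] at h
  have hm : mid (N.ex (k + 1)) = mid (N.ex k) := by
    have : mid (N.ex (k + 1)) - x = mid (N.ex k) - x := h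
    linear_combination this
  have hc := H.ccw
  have z3 : ∀ i : ZMod 3, i = 0 ∨ i = 1 ∨ i = 2 := by decide
  have zero : ∀ u : ℂ, cr u u = 0 ∧ cr 0 u = 0 ∧ cr u 0 = 0 := by
    intro u
    unfold cr
    refine ⟨by ring, by simp, by simp⟩
  rcases z3 k with rfl | rfl | rfl
  · rw [show (0 : ZMod 3) + 1 = 1 from rfl] at hm
    rw [hm, sub_self, (zero _).2.1] at hc
    exact lt_irrefl _ hc
  · rw [show (1 : ZMod 3) + 1 = 2 from rfl] at hm
    rw [hm, (zero _).1] at hc
    exact lt_irrefl _ hc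
  · rw [show (2 : ZMod 3) + 1 = 0 from rfl] at hm
    rw [hm, sub_self, (zero _).2.2] at hc
    exact lt_irrefl _ hc

/-- the transported lift -/
def mv (N : Net ℂ) (z0 : ℂ) (lf : ℤ → ℝ) (x : ℂ) (k : ℤ) : ℝ :=
  lf k + ((mid (N.ex (k : ZMod 3)) - x) / (mid (N.ex (k : ZMod 3)) - z0)).arg

theorem ratio_slit {m z0 x : ℂ} (h : ‖x - z0‖ < ‖m - z0‖) :
    (m - x) / (m - z0) ∈ Complex.slitPlane := by
  have h0 : m - z0 ≠ 0 := by
    intro h0
    rw [h0, norm_zero] at h
    exact absurd h (not_lt.2 (norm_nonneg _))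
  have e : (m - x) / (m - z0) = 1 - (x - z0) / (m - z0) := by
    field_simp
    ring
  rw [e]
  refine Or.inl ?_
  have h1 : ‖(x - z0) / (m - z0)‖ < 1 := by
    rw [norm_div, div_lt_one (norm_pos_iff.2 h0)]
    exact h
  have h2 := (Complex.abs_re_le_norm ((x - z0) / (m - z0)))
  rw [abs_le] at h2
  simp only [Complex.sub_re, Complex.one_re]
  linarith [h2.2]

theorem mv_dir (hl : Lift N z0 lf) (hx : ∀ k, ‖x - z0‖ < ‖mid (N.ex k) - z0‖) (k : ℤ) :
    ∃ r : ℝ, 0 < r ∧ mid (N.ex (k : ZMod 3)) - x = (r : ℂ) * Complex.exp (mv N z0 lf x k * Complex.I) := by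
  obtain ⟨r, hr, h⟩ := hl.dir k
  set m := mid (N.ex (k : ZMod 3)) with hm
  have h0 : m - z0 ≠ 0 := by
    intro h0
    have := hx (k : ZMod 3)
    rw [← hm, h0, norm_zero] at this
    exact absurd this (not_lt.2 (norm_nonneg _))
  have h1 : (m - x) / (m - z0) ≠ 0 := Complex.slitPlane_ne_zero (ratio_slit (hx _))
  have e1 : m - x = (m - x) / (m - z0) * (m - z0) := by field_simp
  have e3 : mv N z0 lf x k = lf k + ((m - x) / (m - z0)).arg := rfl
  rw [e3]
  obtain ⟨q, hq⟩ : ∃ q, q = (m - x) / (m - z0) := ⟨_, rfl⟩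
  rw [← hq] at e1 h1 ⊢
  refine ⟨‖q‖ * r, mul_pos (norm_pos_iff.2 h1) hr, ?_⟩
  have e2 : (‖q‖ : ℂ) * Complex.exp (q.arg * Complex.I) = q := Complex.norm_mul_exp_arg_mul_I q
  rw [e1, h]
  push_cast
  rw [add_mul, Complex.exp_add]
  linear_combination (-(r : ℂ) * Complex.exp (lf k * Complex.I)) * e2

theorem mv_per (hl : Lift N z0 lf) (k : ℤ) :
    mv N z0 lf x (k + 3) = mv N z0 lf x k + 2 * Real.pi := by
  unfold mv
  have : ((k + 3 : ℤ) : ZMod 3) = (k : ZMod 3) := by
    push_cast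
    have : (3 : ZMod 3) = 0 := rfl
    rw [this, add_zero]
  rw [this, hl.per]
  ring

/-- **transport of a lift** inside the hull -/
theorem lift_move (H : HNet S N) (h0 : Ins S z0) (h1 : Ins S x)
    (hx : ∀ k, ‖x - z0‖ < ‖mid (N.ex k) - z0‖) (hl : Lift N z0 lf) :
    Lift N x (mv N z0 lf x) := by
  refine ⟨strictMono_int_of_lt_succ fun k => ?_, mv_per hl, mv_dir hl hx⟩
  by_contra hcon
  push Not at hcon
  -- continuity along the segment
  set X : ℝ → ℂ := fun s => z0 + (s : ℂ) * (x - z0) with hX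
  set g : ℝ → ℝ := fun s => mv N z0 lf (X s) (k + 1) - mv N z0 lf (X s) k with hg
  have hXn : ∀ s ∈ Icc (0 : ℝ) 1, ∀ j, ‖X s - z0‖ < ‖mid (N.ex j) - z0‖ := by
    intro s hs j
    refine lt_of_le_of_lt ?_ (hx j)
    rw [hX]
    simp only [add_sub_cancel_left, norm_mul, Complex.norm_real, Real.norm_eq_abs,
      abs_of_nonneg hs.1]
    exact mul_le_of_le_one_left (norm_nonneg _) hs.2
  have hXc : Continuous X := by
    rw [hX]; fun_prop
  have hcont : ContinuousOn g (Icc (0 : ℝ) 1) := by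
    have hc : ∀ j : ℤ, ContinuousOn (fun s => mv N z0 lf (X s) j) (Icc (0 : ℝ) 1) := by
      intro j
      unfold mv
      refine ContinuousOn.add continuousOn_const fun s hs => ?_
      have hsl := ratio_slit (hXn s hs (j : ZMod 3))
      have hca := (Complex.continuousAt_arg hsl)
      have hcd : ContinuousAt (fun s => (mid (N.ex (j : ZMod 3)) - X s) /
          (mid (N.ex (j : ZMod 3)) - z0)) s :=
        ((continuous_const.sub hXc).div_const _).continuousAt
      exact (ContinuousAt.comp (f := fun s => (mid (N.ex (j : ZMod 3)) - X s) /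
          (mid (N.ex (j : ZMod 3)) - z0)) (g := Complex.arg) hca hcd).continuousWithinAt
    exact (hc (k + 1)).sub (hc k)
  have g0 : 0 ≤ g 0 := by
    simp only [hg, hX, Complex.ofReal_zero, zero_mul, add_zero]
    have hs : ∀ j : ℤ, mv N z0 lf z0 j = lf j := by
      intro j
      unfold mv
      have hne : mid (N.ex (j : ZMod 3)) - z0 ≠ 0 := by
        intro h
        have := hx (j : ZMod 3)
        rw [h, norm_zero] at this
        exact absurd this (not_lt.2 (norm_nonneg _))
      rw [div_self hne, Complex.arg_one, add_zero]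
    rw [hs, hs]
    have := hl.mono (show k < k + 1 by omega)
    linarith
  have g1 : g 1 ≤ 0 := by
    simp only [hg, hX, Complex.ofReal_one, one_mul, add_sub_cancel]
    linarith
  obtain ⟨s, hs, hsz⟩ := intermediate_value_Icc' (zero_le_one) hcont
    (show (0 : ℝ) ∈ Icc (g 1) (g 0) from ⟨g1, g0⟩)
  obtain ⟨r, hr, e1⟩ := mv_dir hl (hXn s hs) k
  obtain ⟨r', hr', e2⟩ := mv_dir hl (hXn s hs) (k + 1)
  have hsz' : mv N z0 lf (X s) (k + 1) = mv N z0 lf (X s) k := by
    have : g s = mv N z0 lf (X s) (k + 1) - mv N z0 lf (X s) k := rfl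
    linarith
  have hins := ins_seg h0 h1 hs
  refine dm_ne H hins (k : ZMod 3) (r := r' / r) (by positivity) ?_
  unfold dm
  have ec : ((k + 1 : ℤ) : ZMod 3) = (k : ZMod 3) + 1 := by push_cast; rfl
  rw [← ec]
  change mid (N.ex ((k + 1 : ℤ) : ZMod 3)) - X s = _ * (mid (N.ex (k : ZMod 3)) - X s)
  rw [e1, e2, hsz']
  push_cast
  have : (r : ℂ) ≠ 0 := Complex.ofReal_ne_zero.2 hr.ne'
  field_simp

end Crest.Agent.R143.XLx903
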