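import Crest.Agent.R143.XLeg_126

/-!
# Row 143 (S0194), block X: exploration of legs as a stopping set (helper126)

* `ExS` : the sites of the states explored from the starts `st0 i` (any index type: one leg, three
  legs), the walker stays outside `W`
* `leadsO_loc`, `exS_loc`, `legTip_loc` : if two joins agree on the edges with both ends in `ExS`
  then they have the same explored part
* `Ex V`, `isStop` : `β ↦ ExS (flip J β) ∩ V` is a stopping set (`Harx315.IsStop`)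
* `decided` : every event in terms of the tips is decided by the exploration; `decided_HO`,
  `decided_GO`, `decided_HI`, `decided_GI`
* `frozen` : the colours outside the explored set do not change the explored part
* `pr_shift` : change of gauge
-/

set_option autoImplicit false

noncomputable section

open scoped Classical

namespace Crest.Agent.R143.XStopx126

open Crest.Agent.R143.B0x346 Crest.Agent.R143.DelGx806 Crest.Agent.R143.DelRx806
open Crest.Agent.R143.ToolWx838 Crest.Agent.R143.Blkx838 Crest.Agent.R143.Planarx54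
open Crest.Agent.R143.XGx343 Crest.Agent.R143.X0Bx683 Crest.Agent.R143.JCardx872
open Crest.Agent.R143.JWalkx872 Crest.Agent.R143.JCol2x54 Crest.Agent.R143.XLegx126
open Crest.Agent.R143.Harx315

variable {S : Finset ℂ} {G : Trg ℂ} {kl : Set (ℂ × ℂ)} {O : Set (ℂ × ℂ × ℂ)} {D : Set (ℂ × ℂ)}
  {J J' : Finset (ℂ × ℂ)} {W : Set ℂ} {ι : Type} {st0 : ι → ℂ × ℂ}

/-- sites of the explored states -/
def ExS (G : Trg ℂ) (O : Set (ℂ × ℂ × ℂ)) (D : Set (ℂ × ℂ)) (J : Finset (ℂ × ℂ)) (W : Set ℂ)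
    (st0 : ι → ℂ × ℂ) : Set ℂ :=
  {s | ∃ i, s = (st0 i).1 ∨ s = (st0 i).2 ∨
    (st0 i ∈ J ∧ ∃ x, LeadsO G O D J W (st0 i) x ∧ (s = x.1 ∨ s = x.2))}

theorem exS_start (i : ι) : (st0 i).1 ∈ ExS G O D J W st0 ∧ (st0 i).2 ∈ ExS G O D J W st0 :=
  ⟨⟨i, Or.inl rfl⟩, ⟨i, Or.inr (Or.inl rfl)⟩⟩

theorem exS_mem {i : ι} (hi : st0 i ∈ J) {x : ℂ × ℂ} (hx : LeadsO G O D J W (st0 i) x) :
    x.1 ∈ ExS G O D J W st0 ∧ x.2 ∈ ExS G O D J W st0 :=
  ⟨⟨i, Or.inr (Or.inr ⟨hi, x, hx, Or.inl rfl⟩)⟩, ⟨i, Or.inr (Or.inr ⟨hi, x, hx, Or.inr rfl⟩)⟩⟩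

/-- the explored sites are outside `W` -/
theorem exS_out (h0 : ∀ i, OutP W (st0 i)) {s : ℂ} (hs : s ∈ ExS G O D J W st0) : s ∉ W := by
  obtain ⟨i, rfl | rfl | ⟨-, x, hx, rfl | rfl⟩⟩ := hs
  · exact (h0 i).1
  · exact (h0 i).2
  · exact (LeadsO.out_right hx).1
  · exact (LeadsO.out_right hx).2

/-- the two joins agree on the explored edges -/
def Agr (G : Trg ℂ) (O : Set (ℂ × ℂ × ℂ)) (D : Set (ℂ × ℂ)) (J J' : Finset (ℂ × ℂ)) (W : Set ℂ)
    (st0 : ι → ℂ × ℂ) : Prop :=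
  ∀ a b, a ∈ ExS G O D J W st0 → b ∈ ExS G O D J W st0 → ((a, b) ∈ J ↔ (a, b) ∈ J')

/-- **locality of the exploration** -/
theorem leadsO_loc (hJ : IsJoin G kl O D J) (h : Agr G O D J J' W st0) {i : ι} (hi : st0 i ∈ J)
    (x : ℂ × ℂ) : LeadsO G O D J W (st0 i) x ↔ LeadsO G O D J' W (st0 i) x := by
  constructor
  · rintro ⟨h0, hx⟩
    refine ⟨h0, ?_⟩
    induction hx with
    | refl => exact Relation.ReflTransGen.refl
    | tail h1 h2 ih =>
      rename_i y z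
      refine ih.tail ⟨?_, h2.2⟩
      have ey := exS_mem hi (⟨h0, h1⟩ : LeadsO G O D J W (st0 i) y)
      have ez := exS_mem hi (⟨h0, h1.tail h2⟩ : LeadsO G O D J W (st0 i) z)
      obtain ⟨⟨c, hc, hcO, hD, h3⟩, -⟩ := h2
      refine ⟨c, hc, hcO, hD, ?_⟩
      rcases h3 with ⟨h4, rfl⟩ | ⟨h4, h5, rfl⟩
      · exact Or.inl ⟨(h _ _ ey.2 ez.1).1 h4, rfl⟩
      · exact Or.inr ⟨(h _ _ ez.2 ey.1).1 h4, fun h6 => h5 ((h _ _ ey.2 ez.2).2 h6), rfl⟩
  · rintro ⟨h0, hx⟩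
    refine ⟨h0, ?_⟩
    induction hx with
    | refl => exact Relation.ReflTransGen.refl
    | tail h1 h2 ih =>
      rename_i y z
      refine ih.tail ⟨?_, h2.2⟩
      have hy : LeadsO G O D J W (st0 i) y := ⟨h0, ih⟩
      have ey := exS_mem hi hy
      obtain ⟨⟨c, hc, hcO, hD, h3⟩, hz⟩ := h2
      have hcW : c ∉ W := by
        rcases h3 with ⟨-, rfl⟩ | ⟨-, -, rfl⟩
        · exact hz.1
        · exact hz.2
      have hyJ : y ∈ J := by
        rcases leads_mem hJ hi (LeadsO.leads hy) with h4 | h4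
        · exact h4
        · exact absurd h4 hD
      have ec : c ∈ ExS G O D J W st0 := by
        rcases step_prog hJ hyJ with ⟨c', hc', hO'⟩ | ⟨y', hy'⟩
        · have := G.uniq hc hc'
          subst this
          exact absurd hO' hcO
        · have hy'' := hy'
          obtain ⟨c', hc', -, -, h4⟩ := hy'
          have := G.uniq hc hc'
          subst this
          have hyo := LeadsO.out_right hy
          rcases h4 with ⟨-, rfl⟩ | ⟨-, -, rfl⟩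
          · exact (exS_mem hi ⟨h0, ih.tail ⟨hy'', hcW, hyo.2⟩⟩).1
          · exact (exS_mem hi ⟨h0, ih.tail ⟨hy'', hyo.1, hcW⟩⟩).2
      refine ⟨c, hc, hcO, hD, ?_⟩
      rcases h3 with ⟨h4, rfl⟩ | ⟨h4, h5, rfl⟩
      · exact Or.inl ⟨(h _ _ ey.2 ec).2 h4, rfl⟩
      · exact Or.inr ⟨(h _ _ ec ey.1).2 h4, fun h6 => h5 ((h _ _ ey.2 ec).1 h6), rfl⟩

theorem start_loc (h : Agr G O D J J' W st0) (i : ι) : st0 i ∈ J ↔ st0 i ∈ J' :=
  h _ _ (exS_start i).1 (exS_start i).2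

theorem exS_loc (hJ : IsJoin G kl O D J) (h : Agr G O D J J' W st0) :
    ExS G O D J' W st0 = ExS G O D J W st0 := by
  ext s
  unfold ExS
  simp only [Set.mem_ofPred_eq]
  refine exists_congr fun i => or_congr_right (or_congr_right ?_)
  rw [← start_loc h i]
  refine and_congr_right fun hi => exists_congr fun x => ?_
  rw [leadsO_loc hJ h hi x]

theorem legTip_loc (hJ : IsJoin G kl O D J) (h : Agr G O D J J' W st0) {i : ι} (hi : st0 i ∈ J)
    (x : ℂ × ℂ) : LegTip G O D J W (st0 i) x ↔ LegTip G O D J' W (st0 i) x := by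
  unfold LegTip
  rw [leadsO_loc hJ h hi x]

/-! ### stopping sets -/

theorem mem_bd' {β : Finset ℂ} {p : ℂ × ℂ} : p ∈ bd G β ↔ p ∈ G.E ∧ ¬ (p.1 ∈ β ↔ p.2 ∈ β) := by
  unfold bd
  rw [Finset.mem_filter]

theorem flip_iff {β β' : Finset ℂ} {a b : ℂ} (ha : a ∈ β ↔ a ∈ β') (hb : b ∈ β ↔ b ∈ β') :
    (a, b) ∈ flip G J β ↔ (a, b) ∈ flip G J β' := by
  unfold X0Bx683.flip
  rw [Finset.mem_symmDiff, Finset.mem_symmDiff, mem_bd', mem_bd']
  simp only [ha, hb]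

/-- explored sites in `V` -/
def Ex (G : Trg ℂ) (O : Set (ℂ × ℂ × ℂ)) (D : Set (ℂ × ℂ)) (J : Finset (ℂ × ℂ)) (W : Set ℂ)
    (st0 : ι → ℂ × ℂ) (V : Finset ℂ) (β : Finset ℂ) : Finset ℂ :=
  V.filter fun s => s ∈ ExS G O D (flip G J β) W st0

variable {V : Finset ℂ}

theorem agr_of {β β' : Finset ℂ} (hβ : β ⊆ V) (hβ' : β' ⊆ V)
    (h : β ∩ Ex G O D J W st0 V β = β' ∩ Ex G O D J W st0 V β) :
    Agr G O D (flip G J β) (flip G J β') W st0 := by
  have key : ∀ a, a ∈ ExS G O D (flip G J β) W st0 → (a ∈ β ↔ a ∈ β') := by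
    intro a ha
    by_cases haV : a ∈ V
    · have h1 : a ∈ Ex G O D J W st0 V β := Finset.mem_filter.2 ⟨haV, ha⟩
      have h2 : a ∈ β ∩ Ex G O D J W st0 V β ↔ a ∈ β' ∩ Ex G O D J W st0 V β := by rw [h]
      simpa [h1] using h2
    · exact ⟨fun h => absurd (hβ h) haV, fun h => absurd (hβ' h) haV⟩
  intro a b ha hb
  exact flip_iff (key a ha) (key b hb)

/-- **the explored sites form a stopping set** -/
theorem isStop (hJ : ∀ β, β ⊆ V → IsJoin G kl O D (flip G J β)) :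
    IsStop V (Ex G O D J W st0 V) where
  sub β _ := Finset.filter_subset _ _
  stop β β' hβ hβ' h := by
    have h1 := exS_loc (hJ β hβ) (agr_of hβ hβ' h)
    unfold Ex
    rw [h1]

/-- **events in terms of the tips are decided** -/
theorem decided (hJ : ∀ β, β ⊆ V → IsJoin G kl O D (flip G J β))
    (P : (ι → ℂ × ℂ → Prop) → Prop) :
    Decided V (Ex G O D J W st0 V) (fun β => (∀ i, st0 i ∈ flip G J β) ∧
      P fun i x => LegTip G O D (flip G J β) W (st0 i) x) := by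
  intro β β' hβ hβ' h
  have hag := agr_of hβ hβ' h
  have h1 : (∀ i, st0 i ∈ flip G J β) ↔ ∀ i, st0 i ∈ flip G J β' :=
    forall_congr' fun i => start_loc hag i
  constructor
  · rintro ⟨k1, k2⟩
    refine ⟨h1.1 k1, ?_⟩
    have e : (fun i x => LegTip G O D (flip G J β') W (st0 i) x) =
        fun i x => LegTip G O D (flip G J β) W (st0 i) x := by
      funext i x
      exact propext (legTip_loc (hJ β hβ) hag (k1 i) x).symm
    rw [e]
    exact k2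
  · rintro ⟨k1, k2⟩
    have k3 := h1.2 k1
    refine ⟨k3, ?_⟩
    have e : (fun i x => LegTip G O D (flip G J β) W (st0 i) x) =
        fun i x => LegTip G O D (flip G J β') W (st0 i) x := by
      funext i x
      exact propext (legTip_loc (hJ β hβ) hag (k3 i) x)
    rw [e]
    exact k2

/-- **the unexplored colours do not change the explored part** -/
theorem frozen {β0 β : Finset ℂ} (hβ0 : β0 ⊆ V)
    (hβ : β ⊆ V \ Ex G O D J W st0 V β0) :
    Agr G O D (flip G J β0) (flip G J (β ∪ (β0 ∩ Ex G O D J W st0 V β0))) W st0 := by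
  apply agr_of hβ0
  · exact Finset.union_subset (hβ.trans Finset.sdiff_subset)
      (Finset.inter_subset_left.trans hβ0)
  · ext a
    simp only [Finset.mem_inter, Finset.mem_union]
    constructor
    · rintro ⟨h1, h2⟩
      exact ⟨Or.inr ⟨h1, h2⟩, h2⟩
    · rintro ⟨h1 | h1, h2⟩
      · exact absurd h2 (Finset.mem_sdiff.1 (hβ h1)).2
      · exact ⟨h1.1, h2⟩

/-! ### the four events -/

theorem vt_st_mem {t : ℂ × ℂ × ℂ} {D : Set (ℂ × ℂ)} {J : Finset (ℂ × ℂ)}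
    (hJ : IsJoin G kl O D J) (h1 : ∀ i, (vt t i, vt t (i + 1)) ∉ D)
    (h2 : ∀ i, (vt t (i + 1), vt t i) ∉ D) :
    (∀ i, (vt t i, vt t (i + 1)) ∈ J) ↔ ∀ i, st t i ∈ J :=
  forall_congr' fun i => hJ.sym _ _ (h1 i) (h2 i)

theorem decided_tips (hJ : ∀ β, β ⊆ V → IsJoin G kl O D (flip G J β)) :
    Decided V (Ex G O D J W st0 V) (fun β => (∀ i, st0 i ∈ flip G J β) ∧
      ∀ i, ∃ x, LegTip G O D (flip G J β) W (st0 i) x) :=
  decided hJ fun T => ∀ i, ∃ x, T i x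

variable {N : Net ℂ} {s0 : ℂ × ℂ × ℂ}

theorem decided_HO (hJ : ∀ β, β ⊆ V → IsJoin N.toTrg kl (rots s0) N.exS (flip N.toTrg J β))
    {z0 : ℂ} {ρ : ℝ} : Decided V (Ex N.toTrg (rots s0) N.exS J (Dsc z0 ρ) N.ex V)
      (fun β => HO N s0 z0 ρ (flip N.toTrg J β)) := by
  intro β β' hβ hβ' h
  have h1 := decided (st0 := N.ex) (W := Dsc z0 ρ) hJ (fun T => ∀ i, ∃ x, T i x) β β' hβ hβ' h
  have k : ∀ β, β ⊆ V → ∀ i, N.ex i ∈ flip N.toTrg J β := fun β hβ i =>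
    ((hJ β hβ).mark _ _ ⟨i, rfl⟩).1
  constructor
  · exact fun h2 => (h1.1 ⟨k β hβ, h2⟩).2
  · exact fun h2 => (h1.2 ⟨k β' hβ', h2⟩).2

theorem decided_GO (hJ : ∀ β, β ⊆ V → IsJoin N.toTrg kl (rots s0) N.exS (flip N.toTrg J β))
    {z0 : ℂ} {ρ δ : ℝ} : Decided V (Ex N.toTrg (rots s0) N.exS J (Dsc z0 ρ) N.ex V)
      (fun β => GO N s0 z0 ρ δ (flip N.toTrg J β)) := by
  intro β β' hβ hβ' h
  have h1 := decided (st0 := N.ex) (W := Dsc z0 ρ) hJ (fun T => ∃ q : ZMod 3 → ℂ × ℂ,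
    (∀ i, T i (q i)) ∧ ∀ i j, i ≠ j → δ * ρ ≤ ‖mid (q i) - mid (q j)‖) β β' hβ hβ' h
  have k : ∀ β, β ⊆ V → ∀ i, N.ex i ∈ flip N.toTrg J β := fun β hβ i =>
    ((hJ β hβ).mark _ _ ⟨i, rfl⟩).1
  constructor
  · exact fun h2 => (h1.1 ⟨k β hβ, h2⟩).2
  · exact fun h2 => (h1.2 ⟨k β' hβ', h2⟩).2

theorem decided_HI {t : ℂ × ℂ × ℂ}
    (hJ : ∀ β, β ⊆ V → IsJoin N.toTrg kl (rots t) N.exS (flip N.toTrg J β))
    (h1 : ∀ i, (vt t i, vt t (i + 1)) ∉ N.exS) (h2 : ∀ i, (vt t (i + 1), vt t i) ∉ N.exS)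
    {z0 : ℂ} {ρ : ℝ} : Decided V (Ex N.toTrg (rots t) N.exS J (Dsc z0 ρ)ᶜ (st t) V)
      (fun β => HI N t z0 ρ (flip N.toTrg J β)) := by
  intro β β' hβ hβ' h
  have h3 := decided (st0 := st t) (W := (Dsc z0 ρ)ᶜ) hJ (fun T => ∀ i, ∃ x, T i x) β β' hβ hβ' h
  constructor
  · rintro ⟨k1, k2⟩
    have k3 := h3.1 ⟨(vt_st_mem (hJ β hβ) h1 h2).1 k1, k2⟩
    exact ⟨(vt_st_mem (hJ β' hβ') h1 h2).2 k3.1, k3.2⟩
  · rintro ⟨k1, k2⟩
    have k3 := h3.2 ⟨(vt_st_mem (hJ β' hβ') h1 h2).1 k1, k2⟩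
    exact ⟨(vt_st_mem (hJ β hβ) h1 h2).2 k3.1, k3.2⟩

theorem decided_GI {t : ℂ × ℂ × ℂ}
    (hJ : ∀ β, β ⊆ V → IsJoin N.toTrg kl (rots t) N.exS (flip N.toTrg J β))
    (h1 : ∀ i, (vt t i, vt t (i + 1)) ∉ N.exS) (h2 : ∀ i, (vt t (i + 1), vt t i) ∉ N.exS)
    {z0 : ℂ} {ρ δ : ℝ} : Decided V (Ex N.toTrg (rots t) N.exS J (Dsc z0 ρ)ᶜ (st t) V)
      (fun β => GI N t z0 ρ δ (flip N.toTrg J β)) := by
  intro β β' hβ hβ' h
  have h3 := decided (st0 := st t) (W := (Dsc z0 ρ)ᶜ) hJ (fun T => ∃ q : ZMod 3 → ℂ × ℂ,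
    (∀ i, T i (q i)) ∧ ∀ i j, i ≠ j → δ * ρ ≤ ‖mid (q i) - mid (q j)‖) β β' hβ hβ' h
  constructor
  · rintro ⟨k1, k2⟩
    have k3 := h3.1 ⟨(vt_st_mem (hJ β hβ) h1 h2).1 k1, k2⟩
    exact ⟨(vt_st_mem (hJ β' hβ') h1 h2).2 k3.1, k3.2⟩
  · rintro ⟨k1, k2⟩
    have k3 := h3.2 ⟨(vt_st_mem (hJ β' hβ') h1 h2).1 k1, k2⟩
    exact ⟨(vt_st_mem (hJ β hβ) h1 h2).2 k3.1, k3.2⟩

/-! ### change of gauge -/

theorem nb_shift {α : Type} [DecidableEq α] {V s0 : Finset α} (h : s0 ⊆ V)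
    (A : Finset α → Prop) : nb V (fun β => A (symmDiff β s0)) = nb V A := by
  have hs : ∀ β, β ⊆ V → symmDiff β s0 ⊆ V := by
    intro β hβ a ha
    rw [Finset.mem_symmDiff] at ha
    rcases ha with h1 | h1
    · exact hβ h1.1
    · exact h h1.1
  unfold nb
  apply Finset.card_bij (fun β _ => symmDiff β s0)
  · intro β hβ
    rw [mem_fil] at hβ ⊢
    exact ⟨hs β hβ.1, hβ.2⟩
  · intro β _ β' _ h1
    have h2 : symmDiff (symmDiff β s0) s0 = symmDiff (symmDiff β' s0) s0 := by rw [h1]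
    rwa [symmDiff_symmDiff_cancel_right, symmDiff_symmDiff_cancel_right] at h2
  · intro β hβ
    rw [mem_fil] at hβ
    refine ⟨symmDiff β s0, ?_, symmDiff_symmDiff_cancel_right _ _⟩
    rw [mem_fil]
    refine ⟨hs β hβ.1, ?_⟩
    rw [symmDiff_symmDiff_cancel_right]
    exact hβ.2

/-- **change of gauge** -/
theorem pr_shift {α : Type} [DecidableEq α] {V s0 : Finset α} (h : s0 ⊆ V)
    (A : Finset α → Prop) : pr V (fun β => A (symmDiff β s0)) = pr V A := by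
  unfold pr
  rw [nb_shift h]

end Crest.Agent.R143.XStopx126
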