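import Crest.Agent.R143.GateB_838
import Crest.Agent.R143.X0B_683

/-!
# Row 143, block X: three gates in one annulus, probabilistic part (helper796)

* `MZ V W A` : `A` is increasing in the colours outside `W`; `harris_mz`
* `fub` : good colours of the annulus (continuations outside and inside have probability `≥ c`)
* `ed k` : directions of the four boxes; `GateE`, `AL`, `AR`, `AB`, `VP`, `Cout`, `Cin`, `BB`
* `vplus` : the good colours have probability `≥ p ^ 41 / 2`
-/

set_option autoImplicit false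

noncomputable section

open scoped Classical

namespace Crest.Agent.R143.XV1x796

open Crest.Agent.R143.B0x346 Crest.Agent.R143.DelGx806 Crest.Agent.R143.DelRx806
open Crest.Agent.R143.ToolWx838 Crest.Agent.R143.Blkx838 Crest.Agent.R143.ToolW2x838
open Crest.Agent.R143.ToolW3x838 Crest.Agent.R143.Circ4x838 Crest.Agent.R143.Harx315
open Crest.Agent.R143.RB0x838 Crest.Agent.R143.CircPx838 Crest.Agent.R143.Gatex838
open Crest.Agent.R143.X0Bx683

/-! ### Harris with explored windows -/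

section abs

variable {α : Type*} {V W W' : Finset α} {A B : Finset α → Prop}

/-- increasing in the colours outside `W` -/
def MZ (V W : Finset α) (A : Finset α → Prop) : Prop :=
  ∀ β β', β ⊆ β' → β' ⊆ V → β ∩ W = β' ∩ W → A β → A β'

theorem MZ.of_up (h : Up V A) : MZ V W A := fun β β' h1 h2 _ h4 => h β β' h1 h2 h4

theorem MZ.and (hA : MZ V W A) (hB : MZ V W' B) : MZ V (W ∪ W') (fun β => A β ∧ B β) := by
  intro β β' h1 h2 h3 h4
  have e1 : β ∩ W = β' ∩ W := by
    have : (W ∪ W') ∩ W = W := by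
      ext x; simp only [Finset.mem_inter, Finset.mem_union]; tauto
    calc β ∩ W = β ∩ (W ∪ W') ∩ W := by rw [Finset.inter_assoc, this]
      _ = β' ∩ (W ∪ W') ∩ W := by rw [h3]
      _ = β' ∩ W := by rw [Finset.inter_assoc, this]
  have e2 : β ∩ W' = β' ∩ W' := by
    have : (W ∪ W') ∩ W' = W' := by
      ext x; simp only [Finset.mem_inter, Finset.mem_union]; tauto
    calc β ∩ W' = β ∩ (W ∪ W') ∩ W' := by rw [Finset.inter_assoc, this]
      _ = β' ∩ (W ∪ W') ∩ W' := by rw [h3]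
      _ = β' ∩ W' := by rw [Finset.inter_assoc, this]
  exact ⟨hA β β' h1 h2 e1 h4.1, hB β β' h1 h2 e2 h4.2⟩

theorem MZ.up (h : MZ V W A) (hW : W ⊆ V) {γ : Finset α} (hγ : γ ⊆ W) :
    Up (V \ W) (fun β => A (β ∪ γ)) := by
  intro β β' h1 h2 h3
  refine h _ _ (Finset.union_subset_union h1 subset_rfl)
    (Finset.union_subset (h2.trans Finset.sdiff_subset) (hγ.trans hW)) ?_ h3
  have e : ∀ δ, δ ⊆ V \ W → (δ ∪ γ) ∩ W = γ := by
    intro δ hδ
    ext x
    simp only [Finset.mem_inter, Finset.mem_union]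
    constructor
    · rintro ⟨h4 | h4, h5⟩
      · exact absurd h5 (Finset.mem_sdiff.1 (hδ h4)).2
      · exact h4
    · intro h4
      exact ⟨Or.inr h4, hγ h4⟩
  rw [e β (h1.trans h2), e β' h2]

/-- **Harris for events which are increasing outside disjoint windows** -/
theorem harris_mz (hW : W ⊆ V) (hW' : W' ⊆ V) (hd : Disjoint W W') (hA : MZ V W A)
    (hA' : Dep V (V \ W') A) (hB : MZ V W' B) (hB' : Dep V (V \ W) B) :
    pr V A * pr V B ≤ pr V (fun β => A β ∧ B β) := by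
  rw [mul_comm]
  apply cond_ge hW
  intro γ hγ
  have hWV : W' ⊆ V \ W := fun x hx =>
    Finset.mem_sdiff.2 ⟨hW' hx, fun h => Finset.disjoint_left.1 hd h hx⟩
  have e1 : ∀ β, β ⊆ V \ W → (B (β ∪ γ) ↔ B β) := by
    intro β hβ
    have h1 : (β ∪ γ) ∩ (V \ W) = β := by
      ext x
      simp only [Finset.mem_inter, Finset.mem_union, Finset.mem_sdiff]
      constructor
      · rintro ⟨h2 | h2, h3, h4⟩
        · exact h2
        · exact absurd (hγ h2) h4
      · intro h2
        exact ⟨Or.inl h2, Finset.mem_sdiff.1 (hβ h2)⟩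
    rw [hB' (β ∪ γ) (Finset.union_subset (hβ.trans Finset.sdiff_subset) (hγ.trans hW)), h1]
  rw [pr_congr (V := V \ W) (A := fun β => A (β ∪ γ) ∧ B (β ∪ γ))
    (B := fun β => B β ∧ A (β ∪ γ)) (fun β hβ => by rw [e1 β hβ]; exact and_comm),
    pr_dep (W := V \ W) Finset.sdiff_subset hB', mul_comm]
  apply cond_ge hWV
  intro γ' hγ'
  have u1 : Up ((V \ W) \ W') (fun β => B (β ∪ γ')) := by
    have h1 := hB.up hW' hγ'
    intro β β' h2 h3 h4
    refine h1 β β' h2 ?_ h4
    intro x hx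
    have := Finset.mem_sdiff.1 (h3 hx)
    exact Finset.mem_sdiff.2 ⟨(Finset.mem_sdiff.1 this.1).1, this.2⟩
  have u0 := hA.up hW hγ
  have u2 : Up ((V \ W) \ W') (fun β => A (β ∪ γ' ∪ γ)) := by
    intro β β' h2 h3 h4
    exact u0 (β ∪ γ') (β' ∪ γ') (Finset.union_subset_union h2 subset_rfl)
      (Finset.union_subset (h3.trans Finset.sdiff_subset) (hγ'.trans hWV)) h4
  have h1 := harris_up u1 u2
  refine le_trans (le_of_eq ?_) h1
  rw [mul_comm]
  congr 1
  -- the event `A` does not look at `W'`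
  have hdep : Dep (V \ W) ((V \ W) \ W') (fun β => A (β ∪ γ)) := by
    intro β hβ
    have k1 : β ∪ γ ⊆ V := Finset.union_subset (hβ.trans Finset.sdiff_subset) (hγ.trans hW)
    have k2 : β ∩ ((V \ W) \ W') ∪ γ ⊆ V :=
      Finset.union_subset ((Finset.inter_subset_left.trans hβ).trans Finset.sdiff_subset)
        (hγ.trans hW)
    change A (β ∪ γ) ↔ A (β ∩ ((V \ W) \ W') ∪ γ)
    rw [hA' _ k1, hA' _ k2]
    have : (β ∪ γ) ∩ (V \ W') = (β ∩ ((V \ W) \ W') ∪ γ) ∩ (V \ W') := by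
      ext x
      simp only [Finset.mem_inter, Finset.mem_union, Finset.mem_sdiff]
      constructor
      · rintro ⟨h2 | h2, h3, h4⟩
        · exact ⟨Or.inl ⟨h2, Finset.mem_sdiff.1 (hβ h2), h4⟩, h3, h4⟩
        · exact ⟨Or.inr h2, h3, h4⟩
      · rintro ⟨⟨h2, -⟩ | h2, h3, h4⟩
        · exact ⟨Or.inl h2, h3, h4⟩
        · exact ⟨Or.inr h2, h3, h4⟩
    rw [this]
  rw [pr_dep (W := (V \ W) \ W') Finset.sdiff_subset hdep]
  apply pr_congr
  intro β hβ
  have k1 : β ∪ γ ⊆ V := Finset.union_subset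
    ((hβ.trans Finset.sdiff_subset).trans Finset.sdiff_subset) (hγ.trans hW)
  have k2 : β ∪ γ' ∪ γ ⊆ V := Finset.union_subset (Finset.union_subset
    ((hβ.trans Finset.sdiff_subset).trans Finset.sdiff_subset) (hγ'.trans hW')) (hγ.trans hW)
  rw [hA' _ k1, hA' _ k2]
  have : (β ∪ γ) ∩ (V \ W') = (β ∪ γ' ∪ γ) ∩ (V \ W') := by
    ext x
    simp only [Finset.mem_inter, Finset.mem_union, Finset.mem_sdiff]
    constructor
    · rintro ⟨h2 | h2, h3, h4⟩
      · exact ⟨Or.inl (Or.inl h2), h3, h4⟩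
      · exact ⟨Or.inr h2, h3, h4⟩
    · rintro ⟨(h2 | h2) | h2, h3, h4⟩
      · exact ⟨Or.inl h2, h3, h4⟩
      · exact absurd (hγ' h2) h4
      · exact ⟨Or.inr h2, h3, h4⟩
  rw [this]

/-- change of the gauge does not change the probabilities -/
theorem pr_symm {D : Finset α} (hD : D ⊆ V) (A : Finset α → Prop) :
    pr V (fun β => A (symmDiff β D)) = pr V A := by
  have hsub : ∀ β, β ⊆ V → symmDiff β D ⊆ V := by
    intro β hβ x hx
    rcases Finset.mem_symmDiff.1 hx with h | h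
    · exact hβ h.1
    · exact hD h.1
  unfold pr
  congr 2
  unfold nb
  apply Finset.card_bij (fun β _ => symmDiff β D)
  · intro β hβ
    rw [mem_fil] at hβ ⊢
    exact ⟨hsub β hβ.1, hβ.2⟩
  · intro β _ β' _ h
    exact symmDiff_left_injective D h
  · intro β hβ
    rw [mem_fil] at hβ
    refine ⟨symmDiff β D, ?_, symmDiff_symmDiff_cancel_right D β⟩
    rw [mem_fil, symmDiff_symmDiff_cancel_right]
    exact ⟨hsub β hβ.1, hβ.2⟩

/-- average over the colours of `W` -/
theorem sum_le_aux {W : Finset α} {T : Finset α → Prop} {f : Finset α → ℝ} {c : ℝ}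
    (h0 : ∀ b, b ⊆ W → ¬ T b → f b ≤ c) (h1 : ∀ b, b ⊆ W → f b ≤ 1) (hc : 0 ≤ c) :
    (∑ b ∈ W.powerset, f b) / 2 ^ W.card ≤ pr W T + c := by
  have h2 : ∑ b ∈ W.powerset, f b ≤ ∑ b ∈ W.powerset, ((if T b then 1 else 0) + c) := by
    refine Finset.sum_le_sum fun b hb => ?_
    rw [Finset.mem_powerset] at hb
    by_cases h : T b
    · rw [if_pos h]; linarith [h1 b hb]
    · rw [if_neg h]; linarith [h0 b hb h]
  rw [div_le_iff₀ (two_pos' W)]
  refine h2.trans (le_of_eq ?_)
  rw [Finset.sum_add_distrib, Finset.sum_const, Finset.card_powerset, nsmul_eq_mul,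
    Finset.sum_ite, Finset.sum_const_zero, add_zero, Finset.sum_const, nsmul_eq_mul, mul_one]
  unfold pr nb fl
  rw [add_mul, div_mul_cancel₀ _ (two_pos' W).ne']
  push_cast
  ring

/-- **good colours of the middle set**: if the total event has probability `≥ 4 c`, then with
probability `≥ 2 c` the middle colours are good -/
theorem fub {V1 V2 V0 : Finset α} (h12 : Disjoint V1 V2) (h10 : Disjoint V1 V0)
    (h20 : Disjoint V2 V0) {T P Q : Finset α → Prop} {c : ℝ} (hc : 0 ≤ c)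
    (h : 4 * c ≤ pr (V1 ∪ V2 ∪ V0) (fun β => T (β ∩ V1) ∧ P (β ∩ (V1 ∪ V2)) ∧ Q (β ∩ (V1 ∪ V0)))) :
    2 * c ≤ pr V1 (fun b => T b ∧ c ≤ pr V2 (fun a => P (b ∪ a)) ∧
      c ≤ pr V0 (fun i => Q (b ∪ i))) := by
  have hsub : V1 ⊆ V1 ∪ V2 ∪ V0 := fun x hx => Finset.mem_union_left _ (Finset.mem_union_left _ hx)
  have hrest : (V1 ∪ V2 ∪ V0) \ V1 = V2 ∪ V0 := by
    ext x
    simp only [Finset.mem_sdiff, Finset.mem_union]
    constructor
    · rintro ⟨(h1 | h1) | h1, h2⟩
      · exact absurd h1 h2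
      · exact Or.inl h1
      · exact Or.inr h1
    · rintro (h1 | h1)
      · exact ⟨Or.inl (Or.inr h1), fun h2 => Finset.disjoint_left.1 h12 h2 h1⟩
      · exact ⟨Or.inr h1, fun h2 => Finset.disjoint_left.1 h10 h2 h1⟩
  rw [pr_sum hsub, hrest] at h
  have key : ∀ b, b ⊆ V1 → pr (V2 ∪ V0) (fun β => T ((β ∪ b) ∩ V1) ∧
      P ((β ∪ b) ∩ (V1 ∪ V2)) ∧ Q ((β ∪ b) ∩ (V1 ∪ V0))) =
      if T b then pr V2 (fun a => P (b ∪ a)) * pr V0 (fun i => Q (b ∪ i)) else 0 := by
    intro b hb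
    have e1 : ∀ β, β ⊆ V2 ∪ V0 → (β ∪ b) ∩ V1 = b := by
      intro β hβ
      ext x
      simp only [Finset.mem_inter, Finset.mem_union]
      constructor
      · rintro ⟨h1 | h1, h2⟩
        · exfalso
          rcases Finset.mem_union.1 (hβ h1) with h3 | h3
          · exact Finset.disjoint_left.1 h12 h2 h3
          · exact Finset.disjoint_left.1 h10 h2 h3
        · exact h1
      · intro h1
        exact ⟨Or.inr h1, hb h1⟩
    have e2 : ∀ β, β ⊆ V2 ∪ V0 → (β ∪ b) ∩ (V1 ∪ V2) = b ∪ (β ∩ V2) := by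
      intro β hβ
      ext x
      simp only [Finset.mem_inter, Finset.mem_union]
      constructor
      · rintro ⟨h1 | h1, h2 | h2⟩
        · exfalso
          rcases Finset.mem_union.1 (hβ h1) with h3 | h3
          · exact Finset.disjoint_left.1 h12 h2 h3
          · exact Finset.disjoint_left.1 h10 h2 h3
        · exact Or.inr ⟨h1, h2⟩
        · exact Or.inl h1
        · exact Or.inl h1
      · rintro (h1 | ⟨h1, h2⟩)
        · exact ⟨Or.inr h1, Or.inl (hb h1)⟩
        · exact ⟨Or.inl h1, Or.inr h2⟩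
    have e3 : ∀ β, β ⊆ V2 ∪ V0 → (β ∪ b) ∩ (V1 ∪ V0) = b ∪ (β ∩ V0) := by
      intro β hβ
      ext x
      simp only [Finset.mem_inter, Finset.mem_union]
      constructor
      · rintro ⟨h1 | h1, h2 | h2⟩
        · exfalso
          rcases Finset.mem_union.1 (hβ h1) with h3 | h3
          · exact Finset.disjoint_left.1 h12 h2 h3
          · exact Finset.disjoint_left.1 h10 h2 h3
        · exact Or.inr ⟨h1, h2⟩
        · exact Or.inl h1
        · exact Or.inl h1
      · rintro (h1 | ⟨h1, h2⟩)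
        · exact ⟨Or.inr h1, Or.inl (hb h1)⟩
        · exact ⟨Or.inl h1, Or.inr h2⟩
    rw [pr_congr (B := fun β => T b ∧ P (b ∪ (β ∩ V2)) ∧ Q (b ∪ (β ∩ V0)))
      (fun β hβ => by rw [e1 β hβ, e2 β hβ, e3 β hβ])]
    by_cases hT : T b
    · rw [if_pos hT]
      rw [pr_congr (B := fun β => P (b ∪ (β ∩ V2)) ∧ Q (b ∪ (β ∩ V0)))
        (fun β _ => by simp [hT])]
      have d2 : Dep (V2 ∪ V0) V2 (fun β => P (b ∪ (β ∩ V2))) := by
        intro β _
        change P (b ∪ (β ∩ V2)) ↔ P (b ∪ (β ∩ V2 ∩ V2))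
        rw [Finset.inter_assoc, Finset.inter_self]
      have d0 : Dep (V2 ∪ V0) V0 (fun β => Q (b ∪ (β ∩ V0))) := by
        intro β _
        change Q (b ∪ (β ∩ V0)) ↔ Q (b ∪ (β ∩ V0 ∩ V0))
        rw [Finset.inter_assoc, Finset.inter_self]
      rw [pr_indep h20 d2 d0, pr_dep Finset.subset_union_left d2,
        pr_dep Finset.subset_union_right d0]
      congr 1
      · exact pr_congr fun β hβ => by rw [Finset.inter_eq_left.2 hβ]
      · exact pr_congr fun β hβ => by rw [Finset.inter_eq_left.2 hβ]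
    · rw [if_neg hT]
      rw [pr_congr (B := fun _ => False) (fun β _ => by simp [hT])]
      exact pr_false _
  rw [Finset.sum_congr rfl (fun b hb => key b (Finset.mem_powerset.1 hb))] at h
  have hb : ∀ b, b ⊆ V1 → ¬ (T b ∧ c ≤ pr V2 (fun a => P (b ∪ a)) ∧ c ≤ pr V0 (fun i => Q (b ∪ i))) →
      (if T b then pr V2 (fun a => P (b ∪ a)) * pr V0 (fun i => Q (b ∪ i)) else 0) ≤ c := by
    intro b _ hn
    split_ifs with hT
    · have a1 : 0 ≤ pr V2 (fun a => P (b ∪ a)) := pr_nonneg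
      have a2 : pr V2 (fun a => P (b ∪ a)) ≤ 1 := pr_le_one
      have b1 : 0 ≤ pr V0 (fun i => Q (b ∪ i)) := pr_nonneg
      have b2 : pr V0 (fun i => Q (b ∪ i)) ≤ 1 := pr_le_one
      by_cases h1 : c ≤ pr V2 (fun a => P (b ∪ a))
      · have h2 : pr V0 (fun i => Q (b ∪ i)) ≤ c := by
          by_contra hcon
          push Not at hcon
          exact hn ⟨hT, h1, hcon.le⟩
        calc _ ≤ 1 * pr V0 (fun i => Q (b ∪ i)) := mul_le_mul_of_nonneg_right a2 b1
          _ ≤ c := by rw [one_mul]; exact h2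
      · push Not at h1
        calc _ ≤ pr V2 (fun a => P (b ∪ a)) * 1 := mul_le_mul_of_nonneg_left b2 a1
          _ ≤ c := by rw [mul_one]; exact h1.le
    · exact hc
  have h1 : ∀ b, b ⊆ V1 →
      (if T b then pr V2 (fun a => P (b ∪ a)) * pr V0 (fun i => Q (b ∪ i)) else 0) ≤ 1 := by
    intro b _
    split_ifs
    · exact mul_le_one₀ pr_le_one pr_nonneg pr_le_one
    · exact zero_le_one
  have := sum_le_aux hb h1 hc
  linarith [pr_nonneg (V := V1) (A := fun b => T b ∧ c ≤ pr V2 (fun a => P (b ∪ a)) ∧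
      c ≤ pr V0 (fun i => Q (b ∪ i)))]

end abs

end Crest.Agent.R143.XV1x796
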