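import Crest.Agent.R143.XV1_796

/-!
# Row 143, block X: three gates in one annulus, events and probability (helper796)

Unit `q = ρ / 1600`. Box `k = 0, 1, 2` (right, top, left side), bottom side `k = 3`, first axis `ed k`
(clockwise), second axis = outwards. `D k` = the sites of the box `k` on the right side of the reference
path; gauge colours `β`, local colours of the box `symmDiff β (D k)`.
-/

set_option autoImplicit false

noncomputable section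

open scoped Classical

namespace Crest.Agent.R143.XV2x796

open Crest.Agent.R143.B0x346 Crest.Agent.R143.DelGx806 Crest.Agent.R143.DelRx806
open Crest.Agent.R143.ToolWx838 Crest.Agent.R143.Blkx838 Crest.Agent.R143.ToolW2x838
open Crest.Agent.R143.ToolW3x838 Crest.Agent.R143.Circ4x838 Crest.Agent.R143.Harx315
open Crest.Agent.R143.RB0x838 Crest.Agent.R143.CircPx838 Crest.Agent.R143.Gatex838
open Crest.Agent.R143.X0Bx683 Crest.Agent.R143.XV1x796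

/-! ### directions -/

/-- first axis of the side `k` -/
def ed (k : ℕ) : ℂ := -Complex.I * Complex.I ^ k

theorem ed_succ (k : ℕ) : ed (k + 1) = ed k * Complex.I := by
  unfold ed; rw [pow_succ, mul_assoc]

theorem norm_ed (k : ℕ) : ‖ed k‖ = 1 := by
  unfold ed; simp

theorem ed_ne (k : ℕ) : ed k ≠ 0 := by
  intro h
  have := norm_ed k
  rw [h] at this
  simp at this

variable {S V : Finset ℂ} {z0 : ℂ} {q : ℝ} {β β' : Finset ℂ} {D : ℕ → Finset ℂ}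

theorem X_succ (z0 : ℂ) (k : ℕ) (s : ℂ) : X z0 (ed (k + 1)) s = Y z0 (ed k) s := by
  rw [ed_succ, X_turn]

theorem Y_succ (z0 : ℂ) (k : ℕ) (s : ℂ) : Y z0 (ed (k + 1)) s = -X z0 (ed k) s := by
  rw [ed_succ, Y_turn]

/-- coordinates and norm -/
theorem norm_XY (z0 : ℂ) (k : ℕ) (s : ℂ) : ‖s - z0‖ ^ 2 = X z0 (ed k) s ^ 2 + Y z0 (ed k) s ^ 2 := by
  have h : ‖s - z0‖ = ‖(s - z0) / ed k‖ := by rw [norm_div, norm_ed, div_one]
  rw [h, Complex.sq_norm, Complex.normSq_apply]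
  unfold X Y
  ring

theorem norm_ge_of {k : ℕ} {s : ℂ} {a : ℝ} (ha : 0 ≤ a) (h : a ≤ Y z0 (ed k) s) : a ≤ ‖s - z0‖ := by
  have h1 := norm_XY z0 k s
  by_contra hcon
  push Not at hcon
  nlinarith [norm_nonneg (s - z0), sq_nonneg (X z0 (ed k) s)]

theorem norm_lt_of {k : ℕ} {s : ℂ} {a b r : ℝ} (hr : 0 ≤ r) (h1 : |X z0 (ed k) s| ≤ a)
    (h2 : |Y z0 (ed k) s| ≤ b) (h : a ^ 2 + b ^ 2 < r ^ 2) : ‖s - z0‖ < r := by
  have h3 := norm_XY z0 k s
  have h4 : X z0 (ed k) s ^ 2 ≤ a ^ 2 := by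
    rw [← sq_abs]; exact pow_le_pow_left₀ (abs_nonneg _) h1 2
  have h5 : Y z0 (ed k) s ^ 2 ≤ b ^ 2 := by
    rw [← sq_abs]; exact pow_le_pow_left₀ (abs_nonneg _) h2 2
  by_contra hcon
  push Not at hcon
  nlinarith [norm_nonneg (s - z0)]

/-! ### boxes -/

/-- the box `k` -/
def Bx (z0 : ℂ) (q : ℝ) (k : ℕ) (s : ℂ) : Prop :=
  |X z0 (ed k) s| ≤ 12 * q ∧ 100 * q ≤ Y z0 (ed k) s ∧ Y z0 (ed k) s ≤ 141 * q

/-- middle window of the box `k` -/
def Md (z0 : ℂ) (q : ℝ) (k : ℕ) (s : ℂ) : Prop :=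
  (-(6 * q) < X z0 (ed k) s ∧ X z0 (ed k) s < 6 * q) ∧
    115 * q < Y z0 (ed k) s ∧ Y z0 (ed k) s < 125 * q

/-- the sites of the middle window -/
def Zk (V : Finset ℂ) (z0 : ℂ) (q : ℝ) (k : ℕ) : Finset ℂ := V.filter fun s => Md z0 q k s

theorem mem_Zk {k : ℕ} {s : ℂ} : s ∈ Zk V z0 q k ↔ s ∈ V ∧ Md z0 q k s := by
  unfold Zk; simp

/-- the reference path of the box passes between the windows -/
structure DOK (V : Finset ℂ) (z0 : ℂ) (q : ℝ) (D : ℕ → Finset ℂ) : Prop where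
  sub : ∀ k < 3, D k ⊆ V
  left : ∀ k < 3, ∀ s ∈ V, Bx z0 q k s → X z0 (ed k) s ≤ -(6 * q) → s ∉ D k
  right : ∀ k < 3, ∀ s ∈ V, Bx z0 q k s → 6 * q ≤ X z0 (ed k) s → s ∈ D k

/-- different boxes are disjoint -/
theorem bx_unique (hq : 0 < q) {j k : ℕ} (hj : j < 3) (hk : k < 3) {s : ℂ} (h1 : Bx z0 q j s)
    (h2 : Bx z0 q k s) : j = k := by
  obtain ⟨a1, a2, -⟩ := h1
  obtain ⟨b1, b2, -⟩ := h2
  rw [abs_le] at a1 b1
  have s1 := X_succ z0 0 s
  have s2 := Y_succ z0 0 s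
  have s3 := X_succ z0 1 s
  have s4 := Y_succ z0 1 s
  norm_num at s1 s2 s3 s4
  interval_cases j <;> interval_cases k <;> first | rfl | (exfalso; linarith)

theorem md_bx (hq : 0 < q) {k : ℕ} {s : ℂ} (h : Md z0 q k s) : Bx z0 q k s := by
  obtain ⟨⟨a1, a2⟩, a3, a4⟩ := h
  refine ⟨?_, by linarith, by linarith⟩
  rw [abs_le]; constructor <;> linarith

/-! ### the gates -/

/-- one gate in the box `k` -/
def GateE (S V : Finset ℂ) (z0 : ℂ) (q : ℝ) (D : ℕ → Finset ℂ) (k : ℕ) (β : Finset ℂ) : Prop :=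
  ∃ L R χ1 χ2, Gate S z0 (ed k) (-(10 * q)) (-(6 * q)) (6 * q) (10 * q) (115 * q) (125 * q)
    (105 * q) (138 * q) (2 * q) V (symmDiff β (D k)) L R χ1 χ2

theorem not_mem_symmDiff {s : ℂ} {A B : Finset ℂ} : s ∉ symmDiff A B ↔ (s ∈ A ↔ s ∈ B) := by
  rw [Finset.mem_symmDiff]; tauto

/-- the gate event is monotone in the colours of the sites on the left and on the right -/
theorem gate_tr (hq : 0 < q) (hD : DOK V z0 q D) {k : ℕ} (hk : k < 3) (hβ : β ⊆ V) (hβ' : β' ⊆ V)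
    (h1 : ∀ s ∈ V, Bx z0 q k s → X z0 (ed k) s ≤ -(6 * q) → s ∈ β → s ∈ β')
    (h2 : ∀ s ∈ V, Bx z0 q k s → 6 * q ≤ X z0 (ed k) s → s ∈ β → s ∈ β')
    (h3 : ∀ s ∈ V, Md z0 q k s → (s ∈ β ↔ s ∈ β')) (h : GateE S V z0 q D k β) :
    GateE S V z0 q D k β' := by
  obtain ⟨L, R, χ1, χ2, g⟩ := h
  have hsub : symmDiff β (D k) ⊆ V := by
    intro x hx
    rcases Finset.mem_symmDiff.1 hx with h | h
    · exact hβ h.1
    · exact hD.sub k hk h.1
  have lft : ∀ s ∈ V, Bx z0 q k s → X z0 (ed k) s ≤ -(6 * q) → s ∈ symmDiff β (D k) →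
      s ∈ symmDiff β' (D k) := by
    intro s hs hb hx hsy
    have hn := hD.left k hk s hs hb hx
    rw [Finset.mem_symmDiff] at hsy ⊢
    rcases hsy with h | h
    · exact Or.inl ⟨h1 s hs hb hx h.1, hn⟩
    · exact absurd h.1 hn
  have rgt : ∀ s ∈ V, Bx z0 q k s → 6 * q ≤ X z0 (ed k) s → s ∉ symmDiff β (D k) →
      s ∉ symmDiff β' (D k) := by
    intro s hs hb hx hsy
    have hn := hD.right k hk s hs hb hx
    rw [not_mem_symmDiff] at hsy ⊢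
    exact ⟨fun _ => hn, fun _ => h2 s hs hb hx (hsy.2 hn)⟩
  have mdl : ∀ s ∈ V, Md z0 q k s → (s ∈ symmDiff β (D k) ↔ s ∈ symmDiff β' (D k)) := by
    intro s hs hm
    rw [Finset.mem_symmDiff, Finset.mem_symmDiff, h3 s hs hm]
  refine ⟨L, R, χ1, χ2, ⟨g.left.ne, g.left.adj, fun s hs => ?_, g.left.strip, g.left.loc,
    g.left.left, g.left.right⟩, ⟨g.right.ne, g.right.adj, fun s hs => ?_, g.right.strip,
    g.right.loc, g.right.left, g.right.right⟩, g.n1, g.n2, g.d1, g.d2, fun s hs => ?_,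
    fun s hs => ?_, g.b1, g.b2, g.h1, g.h2, g.gate⟩
  · have a1 := g.left.strip s hs
    have a2 := g.left.loc s hs
    refine lft s (hsub (g.left.col s hs)) ⟨?_, by linarith, by linarith⟩ a1.2.le (g.left.col s hs)
    rw [abs_le]; constructor <;> linarith
  · have a1 := g.right.strip s hs
    have a2 := g.right.loc s hs
    have a3 := Finset.mem_sdiff.1 (g.right.col s hs)
    refine Finset.mem_sdiff.2 ⟨a3.1, rgt s a3.1 ⟨?_, by linarith, by linarith⟩ a1.1.le a3.2⟩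
    rw [abs_le]; constructor <;> linarith
  · have a1 := g.b1 s hs
    have a2 := g.c1 s hs
    have hV := hsub a2
    rcases le_or_gt (X z0 (ed k) s) (-(6 * q)) with hx | hx
    · refine lft s hV ⟨?_, by linarith, by linarith⟩ hx a2
      rw [abs_le]; constructor <;> linarith
    · exact (mdl s hV ⟨⟨hx, a1.1.2⟩, a1.2.1, a1.2.2⟩).1 a2
  · have a1 := g.b2 s hs
    have a2 := g.c2 s hs
    refine ⟨a2.1, ?_⟩
    rcases lt_or_ge (X z0 (ed k) s) (6 * q) with hx | hx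
    · exact fun h => a2.2 ((mdl s a2.1 ⟨⟨a1.1.1, hx⟩, a1.2.1, a1.2.2⟩).2 h)
    · refine rgt s a2.1 ⟨?_, by linarith, by linarith⟩ hx a2.2
      rw [abs_le]; constructor <;> linarith

theorem gate_mz (hq : 0 < q) (hD : DOK V z0 q D) {k : ℕ} (hk : k < 3) :
    MZ V (Zk V z0 q k) (GateE S V z0 q D k) := by
  intro β β' h1 h2 h3 h4
  refine gate_tr hq hD hk (h1.trans h2) h2 (fun s _ _ _ hs => h1 hs) (fun s _ _ _ hs => h1 hs)
    (fun s hs hm => ⟨fun h => h1 h, fun h => ?_⟩) h4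
  have : s ∈ β' ∩ Zk V z0 q k := Finset.mem_inter.2 ⟨h, mem_Zk.2 ⟨hs, hm⟩⟩
  rw [← h3] at this
  exact (Finset.mem_inter.1 this).1

/-- the gate event only looks at the box -/
theorem gate_dep (hq : 0 < q) (hD : DOK V z0 q D) {k : ℕ} (hk : k < 3) {W : Finset ℂ}
    (hW : ∀ s ∈ V, Bx z0 q k s → s ∈ W) : Dep V W (GateE S V z0 q D k) := by
  intro β hβ
  have hβ' : β ∩ W ⊆ V := Finset.inter_subset_left.trans hβ
  constructor
  · refine gate_tr hq hD hk hβ hβ' (fun s hs hb _ h => Finset.mem_inter.2 ⟨h, hW s hs hb⟩)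
      (fun s hs hb _ h => Finset.mem_inter.2 ⟨h, hW s hs hb⟩) (fun s hs hm => ?_)
    rw [Finset.mem_inter]
    exact ⟨fun h => ⟨h, hW s hs (md_bx hq hm)⟩, fun h => h.1⟩
  · refine gate_tr hq hD hk hβ' hβ (fun s hs hb _ h => (Finset.mem_inter.1 h).1)
      (fun s hs hb _ h => (Finset.mem_inter.1 h).1) (fun s hs hm => ?_)
    rw [Finset.mem_inter]
    exact ⟨fun h => h.1, fun h => ⟨h, hW s hs (md_bx hq hm)⟩⟩

/-! ### arms and continuations -/

theorem dep_hc {W : Finset ℂ} {e : ℂ} {x0 x1 y0 y1 m : ℝ}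
    (hW : ∀ s ∈ V, y0 < Y z0 e s → Y z0 e s < y1 → x0 - m ≤ X z0 e s → X z0 e s ≤ x1 + m → s ∈ W) :
    Dep V W (fun β => ∃ l, HC S z0 e x0 x1 y0 y1 m β l) := by
  intro β hβ
  constructor
  · rintro ⟨l, h⟩
    refine ⟨l, h.ne, h.adj, fun s hs => Finset.mem_inter.2 ⟨h.col s hs, ?_⟩, h.strip, h.loc,
      h.left, h.right⟩
    exact hW s (hβ (h.col s hs)) (h.strip s hs).1 (h.strip s hs).2 (h.loc s hs).1 (h.loc s hs).2
  · rintro ⟨l, h⟩
    exact ⟨l, h.mono Finset.inter_subset_left⟩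

theorem dep_vc {W : Finset ℂ} {e : ℂ} {x0 x1 y0 y1 m : ℝ}
    (hW : ∀ s ∈ V, x0 < X z0 e s → X z0 e s < x1 → y0 - m ≤ Y z0 e s → Y z0 e s ≤ y1 + m → s ∈ W) :
    Dep V W (fun β => ∃ l, VC S z0 e x0 x1 y0 y1 m β l) := by
  intro β hβ
  constructor
  · rintro ⟨l, h⟩
    refine ⟨l, h.ne, h.adj, fun s hs => Finset.mem_inter.2 ⟨h.col s hs, ?_⟩, h.strip, h.loc,
      h.left, h.right⟩
    exact hW s (hβ (h.col s hs)) (h.strip s hs).1 (h.strip s hs).2 (h.loc s hs).1 (h.loc s hs).2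
  · rintro ⟨l, h⟩
    exact ⟨l, h.mono Finset.inter_subset_left⟩

/-- left arm of the box `k` in the strip `(a, b)` -/
def AL (S : Finset ℂ) (z0 : ℂ) (q : ℝ) (k : ℕ) (a b : ℝ) (β : Finset ℂ) : Prop :=
  ∃ l, HC S z0 (ed k) (-(b * q)) (-(6 * q)) (a * q) (b * q) (2 * q) β l

/-- right arm of the box `k` in the strip `(a, b)` -/
def AR (S : Finset ℂ) (z0 : ℂ) (q : ℝ) (k : ℕ) (a b : ℝ) (β : Finset ℂ) : Prop :=
  ∃ l, HC S z0 (ed k) (6 * q) (b * q) (a * q) (b * q) (2 * q) β l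

/-- bottom chain in the strip `(a, b)` -/
def AB (S : Finset ℂ) (z0 : ℂ) (q : ℝ) (a b : ℝ) (β : Finset ℂ) : Prop :=
  ∃ l, HC S z0 (ed 3) (-(b * q)) (b * q) (a * q) (b * q) (2 * q) β l

/-- all arms of one strip -/
structure Arms (S : Finset ℂ) (z0 : ℂ) (q : ℝ) (a b : ℝ) (β : Finset ℂ) : Prop where
  al : ∀ k < 3, AL S z0 q k a b β
  ar : ∀ k < 3, AR S z0 q k a b β
  ab : AB S z0 q a b β

/-- **three gates**: the event on the colours of the annulus -/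
structure VP (S V : Finset ℂ) (z0 : ℂ) (q : ℝ) (D : ℕ → Finset ℂ) (β : Finset ℂ) : Prop where
  gate : ∀ k < 3, GateE S V z0 q D k β
  arms : Arms S z0 q 107 111 β

/-- continuation to the outside -/
def Cout (S : Finset ℂ) (z0 : ℂ) (q : ℝ) (β : Finset ℂ) : Prop := ∀ k < 3,
  (∃ l, VC S z0 (ed k) (-(10 * q)) (-(6 * q)) (102 * q) (220 * q) (2 * q) β l) ∧
    ∃ l, VC S z0 (ed k) (6 * q) (10 * q) (102 * q) (220 * q) (2 * q) β l

/-- continuation to the inside -/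
def Cin (S : Finset ℂ) (z0 : ℂ) (q : ℝ) (β : Finset ℂ) : Prop := ∀ k < 3,
  (∃ l, VC S z0 (ed k) (-(10 * q)) (-(6 * q)) (80 * q) (141 * q) (2 * q) β l) ∧
    ∃ l, VC S z0 (ed k) (6 * q) (10 * q) (80 * q) (141 * q) (2 * q) β l

/-- the sites of the annulus -/
def A1 (S : Finset ℂ) (z0 : ℂ) (q : ℝ) : Finset ℂ := Ann S z0 (100 * q) (200 * q)

theorem mem_A1 {s : ℂ} : s ∈ A1 S z0 q ↔ s ∈ S ∧ 100 * q ≤ ‖s - z0‖ ∧ ‖s - z0‖ < 200 * q := by
  unfold A1 Ann; simp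

/-- good colours of the annulus -/
def BB (S V2 V0 : Finset ℂ) (z0 : ℂ) (q : ℝ) (D : ℕ → Finset ℂ) (c : ℝ) (b : Finset ℂ) : Prop :=
  VP S (A1 S z0 q) z0 q D b ∧ c ≤ pr V2 (fun a => Cout S z0 q (b ∪ a)) ∧
    c ≤ pr V0 (fun i => Cin S z0 q (b ∪ i))

end Crest.Agent.R143.XV2x796
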