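import Crest.Agent.R143.XV2_796

/-!
# Row 143, block X: three gates in one annulus, probability (helper796)

`vplus` : with `p = exp (- C (1 + C4))` the good colours of the annulus (with `c = p ^ 34 / 4`) have
probability `≥ p ^ 34 / 2`
-/

set_option autoImplicit false

noncomputable section

open scoped Classical

namespace Crest.Agent.R143.XV3x796

open Crest.Agent.R143.B0x346 Crest.Agent.R143.DelGx806 Crest.Agent.R143.DelRx806
open Crest.Agent.R143.ToolWx838 Crest.Agent.R143.Blkx838 Crest.Agent.R143.ToolW2x838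
open Crest.Agent.R143.ToolW3x838 Crest.Agent.R143.Circ4x838 Crest.Agent.R143.Harx315
open Crest.Agent.R143.RB0x838 Crest.Agent.R143.CircPx838 Crest.Agent.R143.Gatex838
open Crest.Agent.R143.X0Bx683 Crest.Agent.R143.XV1x796 Crest.Agent.R143.XV2x796

variable {S V V2 V0 : Finset ℂ} {z0 : ℂ} {q p : ℝ} {β β' : Finset ℂ} {D : ℕ → Finset ℂ}

/-- crossing probabilities at least `p` for all rectangles which are used, colours `V` -/
structure HP (S V : Finset ℂ) (z0 : ℂ) (q p : ℝ) : Prop where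
  hc : ∀ (k : ℕ) (x0 x1 y0 y1 : ℝ), |x0| ≤ 300 * q → |x1| ≤ 300 * q → |y0| ≤ 300 * q →
    |y1| ≤ 300 * q → 4 * q ≤ x1 - x0 → y1 - y0 = 4 * q →
    (∀ s ∈ S, y0 < Y z0 (ed k) s → Y z0 (ed k) s < y1 → x0 - 2 * q ≤ X z0 (ed k) s →
      X z0 (ed k) s ≤ x1 + 2 * q → s ∈ V) →
    p ≤ pr V (fun β => ∃ l, HC S z0 (ed k) x0 x1 y0 y1 (2 * q) β l)
  vc : ∀ (k : ℕ) (x0 x1 y0 y1 : ℝ), |x0| ≤ 300 * q → |x1| ≤ 300 * q → |y0| ≤ 300 * q →
    |y1| ≤ 300 * q → 4 * q ≤ y1 - y0 → x1 - x0 = 4 * q →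
    (∀ s ∈ S, x0 < X z0 (ed k) s → X z0 (ed k) s < x1 → y0 - 2 * q ≤ Y z0 (ed k) s →
      Y z0 (ed k) s ≤ y1 + 2 * q → s ∈ V) →
    p ≤ pr V (fun β => ∃ l, VC S z0 (ed k) x0 x1 y0 y1 (2 * q) β l)

theorem Nv.mono {R R' ρ d C4 : ℝ} (h : Nv S z0 R ρ d C4) (hR : R' ≤ R) : Nv S z0 R' ρ d C4 :=
  ⟨Crest.Agent.R143.CircPx838.LDns.mono h.dns hR, fun z hz => h.mesh z (hz.trans hR), h.C4⟩

/-- crossing probabilities from `RB` -/
theorem hp_of_rb (hRB : RB) : ∃ C c1 K : ℝ, 0 < C ∧ 0 < c1 ∧ 0 < K ∧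
    ∀ (S : Finset ℂ) (z0 : ℂ) (q d C4 : ℝ), 0 < q → Nv S z0 (K * q) (100 * q) d C4 → d ≤ c1 * q →
    ∀ V : Finset ℂ, V ⊆ S → HP S V z0 q (Real.exp (-C * (1 + C4))) := by
  obtain ⟨C, c1, K, hC, hc1, hK, h⟩ := rb_hc hRB 25 (by norm_num)
  obtain ⟨C', c1', K', hC', hc1', hK', h'⟩ := rb_vc hRB 25 (by norm_num)
  refine ⟨max C C', 100 * min c1 c1', 100 * max K K', by positivity, by positivity, by positivity, ?_⟩
  intro S z0 q d C4 hq hN hd V hV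
  have hC4 := hN.C4
  have e1 : Real.exp (-max C C' * (1 + C4)) ≤ Real.exp (-C * (1 + C4)) := by
    rw [Real.exp_le_exp]
    have := le_max_left C C'
    nlinarith
  have e2 : Real.exp (-max C C' * (1 + C4)) ≤ Real.exp (-C' * (1 + C4)) := by
    rw [Real.exp_le_exp]
    have := le_max_right C C'
    nlinarith
  have n1 : Nv S z0 (K * (100 * q)) (100 * q) d C4 := Nv.mono hN (by
    have := le_max_left K K'
    nlinarith)
  have n2 : Nv S z0 (K' * (100 * q)) (100 * q) d C4 := Nv.mono hN (by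
    have := le_max_right K K'
    nlinarith)
  have d1 : d ≤ c1 * (100 * q) := hd.trans (by
    have := min_le_left c1 c1'
    nlinarith)
  have d2 : d ≤ c1' * (100 * q) := hd.trans (by
    have := min_le_right c1 c1'
    nlinarith)
  constructor
  · intro k x0 x1 y0 y1 a1 a2 a3 a4 a5 a6 hr
    exact e1.trans (h S z0 (100 * q) d C4 (by positivity) n1 d1 (ed k) x0 x1 y0 y1 (2 * q)
      (norm_ed k) (by linarith) (by linarith) (by linarith) (by linarith) (by linarith)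
      (by linarith) (by linarith) (by linarith) V hV hr)
  · intro k x0 x1 y0 y1 a1 a2 a3 a4 a5 a6 hr
    exact e2.trans (h' S z0 (100 * q) d C4 (by positivity) n2 d2 (ed k) x0 x1 y0 y1 (2 * q)
      (norm_ed k) (by linarith) (by linarith) (by linarith) (by linarith) (by linarith)
      (by linarith) (by linarith) (by linarith) V hV hr)

/-- sites of the square annulus are in `A1` -/
theorem a1_of {k : ℕ} {s : ℂ} (hq : 0 < q) (hs : s ∈ S) (h1 : 100 * q ≤ Y z0 (ed k) s)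
    (h2 : Y z0 (ed k) s ≤ 141 * q) (h3 : |X z0 (ed k) s| ≤ 137 * q) : s ∈ A1 S z0 q := by
  rw [mem_A1]
  refine ⟨hs, norm_ge_of (by positivity) h1, norm_lt_of (k := k) (a := 137 * q) (b := 141 * q)
    (by positivity) h3 (abs_le.2 ⟨by linarith, h2⟩) (by nlinarith)⟩

/-- **one gate** -/
theorem gateE_pr (hq : 0 < q) (hS : GP (S : Set ℂ)) (hp : 0 ≤ p) (hP : HP S (A1 S z0 q) z0 q p)
    (hD : DOK (A1 S z0 q) z0 q D) {k : ℕ} (hk : k < 3) :
    p ^ 5 ≤ pr (A1 S z0 q) (GateE S (A1 S z0 q) z0 q D k) := by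
  have w : Wn (-(10 * q)) (-(6 * q)) (-(2 * q)) (6 * q) (10 * q) (115 * q) (125 * q) (118 * q)
      (122 * q) (105 * q) (138 * q) (2 * q) := by
    constructor <;> linarith
  have hb : ∀ a : ℝ, |a| ≤ 300 → |a * q| ≤ 300 * q := by
    intro a ha
    rw [abs_mul, abs_of_pos hq]
    exact mul_le_mul_of_nonneg_right ha hq.le
  have hb' : ∀ a : ℝ, |a| ≤ 300 → |-(a * q)| ≤ 300 * q := by
    intro a ha
    rw [abs_neg]
    exact hb a ha
  have key := gate_pr (V := A1 S z0 q) (z0 := z0) w hS (ed_ne k) hp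
    (hP.hc k _ _ _ _ (hb' 10 (by norm_num)) (hb' 2 (by norm_num)) (hb 118 (by norm_num))
      (hb 122 (by norm_num)) (by linarith) (by ring) (fun s hs a1 a2 a3 a4 =>
        a1_of hq hs (by linarith) (by linarith) (by rw [abs_le]; constructor <;> linarith)))
    (hP.vc k _ _ _ _ (hb' 10 (by norm_num)) (hb' 6 (by norm_num)) (hb 105 (by norm_num))
      (hb 138 (by norm_num)) (by linarith) (by ring) (fun s hs a1 a2 a3 a4 =>
        a1_of hq hs (by linarith) (by linarith) (by rw [abs_le]; constructor <;> linarith)))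
    (hP.vc k _ _ _ _ (hb' 6 (by norm_num)) (hb' 2 (by norm_num)) (hb 118 (by norm_num))
      (hb 122 (by norm_num)) (by linarith) (by ring) (fun s hs a1 a2 a3 a4 =>
        a1_of hq hs (by linarith) (by linarith) (by rw [abs_le]; constructor <;> linarith)))
    (hP.hc k _ _ _ _ (hb' 6 (by norm_num)) (hb 10 (by norm_num)) (hb 118 (by norm_num))
      (hb 122 (by norm_num)) (by linarith) (by ring) (fun s hs a1 a2 a3 a4 =>
        a1_of hq hs (by linarith) (by linarith) (by rw [abs_le]; constructor <;> linarith)))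
    (hP.vc k _ _ _ _ (hb 6 (by norm_num)) (hb 10 (by norm_num)) (hb 105 (by norm_num))
      (hb 138 (by norm_num)) (by linarith) (by ring) (fun s hs a1 a2 a3 a4 =>
        a1_of hq hs (by linarith) (by linarith) (by rw [abs_le]; constructor <;> linarith)))
  refine key.trans (le_of_eq ?_)
  exact (pr_symm (hD.sub k hk) (fun β => ∃ L R χ1 χ2, Gate S z0 (ed k) (-(10 * q)) (-(6 * q))
    (6 * q) (10 * q) (115 * q) (125 * q) (105 * q) (138 * q) (2 * q) (A1 S z0 q) β L R χ1 χ2)).symm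

/-! ### increasing events -/

/-- `U` is increasing, does not look at the middle windows, has probability `≥ p ^ n` -/
structure UE (V Z : Finset ℂ) (p : ℝ) (n : ℕ) (U : Finset ℂ → Prop) : Prop where
  up : Up V U
  dep : Dep V (V \ Z) U
  le : p ^ n ≤ pr V U

theorem UE.and {Z : Finset ℂ} {n n' : ℕ} {U U' : Finset ℂ → Prop} (hp : 0 ≤ p)
    (h : UE V Z p n U) (h' : UE V Z p n' U') : UE V Z p (n + n') (fun β => U β ∧ U' β) := by
  refine ⟨h.up.and h'.up, h.dep.and h'.dep, ?_⟩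
  rw [pow_add]
  exact (mul_le_mul h.le h'.le (by positivity) pr_nonneg).trans (harris_up h.up h'.up)

theorem UE.all3 {Z : Finset ℂ} {n : ℕ} {U : ℕ → Finset ℂ → Prop} (hp : 0 ≤ p)
    (h : ∀ k < 3, UE V Z p n (U k)) : UE V Z p (n + n + n) (fun β => ∀ k < 3, U k β) := by
  have h1 := ((h 0 (by norm_num)).and hp (h 1 (by norm_num))).and hp (h 2 (by norm_num))
  have e : (fun β => ∀ k < 3, U k β) = fun β => (U 0 β ∧ U 1 β) ∧ U 2 β := by
    funext β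
    apply propext
    constructor
    · intro h
      exact ⟨⟨h 0 (by norm_num), h 1 (by norm_num)⟩, h 2 (by norm_num)⟩
    · rintro ⟨⟨h0, h1⟩, h2⟩ k hk
      interval_cases k
      · exact h0
      · exact h1
      · exact h2
  rw [e]
  exact h1

theorem ue_hc {Z : Finset ℂ} {k : ℕ} {x0 x1 y0 y1 : ℝ} (hP : HP S V z0 q p)
    (a1 : |x0| ≤ 300 * q) (a2 : |x1| ≤ 300 * q) (a3 : |y0| ≤ 300 * q)
    (a4 : |y1| ≤ 300 * q) (a5 : 4 * q ≤ x1 - x0) (a6 : y1 - y0 = 4 * q)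
    (hV : ∀ s ∈ S, y0 < Y z0 (ed k) s → Y z0 (ed k) s < y1 → x0 - 2 * q ≤ X z0 (ed k) s →
      X z0 (ed k) s ≤ x1 + 2 * q → s ∈ V)
    (hZ : ∀ s ∈ V, y0 < Y z0 (ed k) s → Y z0 (ed k) s < y1 → x0 - 2 * q ≤ X z0 (ed k) s →
      X z0 (ed k) s ≤ x1 + 2 * q → s ∉ Z) :
    UE V Z p 1 (fun β => ∃ l, HC S z0 (ed k) x0 x1 y0 y1 (2 * q) β l) := by
  refine ⟨up_hc V S z0 _ _ _ _ _ _, dep_hc fun s hs b1 b2 b3 b4 =>
    Finset.mem_sdiff.2 ⟨hs, hZ s hs b1 b2 b3 b4⟩, ?_⟩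
  rw [pow_one]
  exact hP.hc k x0 x1 y0 y1 a1 a2 a3 a4 a5 a6 hV

theorem ue_vc {Z : Finset ℂ} {k : ℕ} {x0 x1 y0 y1 : ℝ} (hP : HP S V z0 q p)
    (a1 : |x0| ≤ 300 * q) (a2 : |x1| ≤ 300 * q) (a3 : |y0| ≤ 300 * q)
    (a4 : |y1| ≤ 300 * q) (a5 : 4 * q ≤ y1 - y0) (a6 : x1 - x0 = 4 * q)
    (hV : ∀ s ∈ S, x0 < X z0 (ed k) s → X z0 (ed k) s < x1 → y0 - 2 * q ≤ Y z0 (ed k) s →
      Y z0 (ed k) s ≤ y1 + 2 * q → s ∈ V)
    (hZ : ∀ s ∈ V, x0 < X z0 (ed k) s → X z0 (ed k) s < x1 → y0 - 2 * q ≤ Y z0 (ed k) s →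
      Y z0 (ed k) s ≤ y1 + 2 * q → s ∉ Z) :
    UE V Z p 1 (fun β => ∃ l, VC S z0 (ed k) x0 x1 y0 y1 (2 * q) β l) := by
  refine ⟨up_vc V S z0 _ _ _ _ _ _, dep_vc fun s hs b1 b2 b3 b4 =>
    Finset.mem_sdiff.2 ⟨hs, hZ s hs b1 b2 b3 b4⟩, ?_⟩
  rw [pow_one]
  exact hP.vc k x0 x1 y0 y1 a1 a2 a3 a4 a5 a6 hV

/-- all the middle windows -/
def ZZ (V : Finset ℂ) (z0 : ℂ) (q : ℝ) : Finset ℂ := Zk V z0 q 0 ∪ (Zk V z0 q 1 ∪ Zk V z0 q 2)

theorem mem_ZZ {s : ℂ} : s ∈ ZZ V z0 q ↔ ∃ j < 3, s ∈ Zk V z0 q j := by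
  unfold ZZ
  rw [Finset.mem_union, Finset.mem_union]
  constructor
  · rintro (h | h | h)
    · exact ⟨0, by norm_num, h⟩
    · exact ⟨1, by norm_num, h⟩
    · exact ⟨2, by norm_num, h⟩
  · rintro ⟨j, hj, h⟩
    interval_cases j
    · exact Or.inl h
    · exact Or.inr (Or.inl h)
    · exact Or.inr (Or.inr h)

/-- the middle windows in the coordinates of another side -/
theorem zz_coord {s : ℂ} (hq : 0 < q) (h : s ∈ ZZ V z0 q) {k : ℕ} (hk : k < 4)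
    (h1 : 70 * q ≤ Y z0 (ed k) s) : Md z0 q k s ∧ k < 3 := by
  obtain ⟨j, hj, hz⟩ := mem_ZZ.1 h
  have hm := (mem_Zk.1 hz).2
  have hm' := hm
  obtain ⟨⟨m1, m2⟩, m3, m4⟩ := hm'
  have s1 := X_succ z0 0 s
  have s2 := Y_succ z0 0 s
  have s3 := X_succ z0 1 s
  have s4 := Y_succ z0 1 s
  have s5 := X_succ z0 2 s
  have s6 := Y_succ z0 2 s
  norm_num at s1 s2 s3 s4 s5 s6
  interval_cases j <;> interval_cases k <;>
    first | exact ⟨hm, by norm_num⟩ | (exfalso; linarith)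

/-- hypotheses on the other sites -/
structure VOK (S V2 V0 : Finset ℂ) (z0 : ℂ) (q : ℝ) : Prop where
  s2 : V2 ⊆ S
  s0 : V0 ⊆ S
  d12 : Disjoint (A1 S z0 q) V2
  d10 : Disjoint (A1 S z0 q) V0
  d20 : Disjoint V2 V0
  m2 : ∀ s ∈ S, 200 * q ≤ ‖s - z0‖ → ‖s - z0‖ ≤ 230 * q → s ∈ V2
  m0 : ∀ s ∈ S, 70 * q ≤ ‖s - z0‖ → ‖s - z0‖ < 100 * q → s ∈ V0

/-- all the colours -/
def VT (S V2 V0 : Finset ℂ) (z0 : ℂ) (q : ℝ) : Finset ℂ := A1 S z0 q ∪ V2 ∪ V0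

theorem VOK.sub (h : VOK S V2 V0 z0 q) : VT S V2 V0 z0 q ⊆ S := by
  unfold VT
  refine Finset.union_subset (Finset.union_subset (fun s hs => (mem_A1.1 hs).1) h.s2) h.s0

theorem VOK.mem (h : VOK S V2 V0 z0 q) {s : ℂ} (hs : s ∈ S) (h1 : 70 * q ≤ ‖s - z0‖)
    (h2 : ‖s - z0‖ ≤ 230 * q) : s ∈ VT S V2 V0 z0 q := by
  unfold VT
  rw [Finset.mem_union, Finset.mem_union]
  rcases lt_or_ge ‖s - z0‖ (100 * q) with h3 | h3
  · exact Or.inr (h.m0 s hs h1 h3)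
  · rcases lt_or_ge ‖s - z0‖ (200 * q) with h4 | h4
    · exact Or.inl (Or.inl (mem_A1.2 ⟨hs, h3, h4⟩))
    · exact Or.inl (Or.inr (h.m2 s hs h4 h2))

/-- sites with small coordinates are coloured -/
theorem VOK.mem' (h : VOK S V2 V0 z0 q) (hq : 0 < q) {k : ℕ} {s : ℂ} (hs : s ∈ S)
    (h1 : 70 * q ≤ Y z0 (ed k) s) (h2 : |Y z0 (ed k) s| ≤ 223 * q) (h3 : |X z0 (ed k) s| ≤ 50 * q) :
    s ∈ VT S V2 V0 z0 q :=
  h.mem hs (norm_ge_of (by positivity) h1) (norm_lt_of (k := k) (a := 50 * q) (b := 223 * q)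
    (by positivity) h3 h2 (by nlinarith)).le

theorem a1_vt {s : ℂ} (h : s ∈ A1 S z0 q) : s ∈ VT S V2 V0 z0 q :=
  Finset.mem_union_left _ (Finset.mem_union_left _ h)

theorem bq {q : ℝ} (hq : 0 < q) {a : ℝ} (ha : |a| ≤ 300) : |a * q| ≤ 300 * q := by
  rw [abs_mul, abs_of_pos hq]
  exact mul_le_mul_of_nonneg_right ha hq.le

theorem bq' {q : ℝ} (hq : 0 < q) {a : ℝ} (ha : |a| ≤ 300) : |-(a * q)| ≤ 300 * q := by
  rw [abs_neg]
  exact bq hq ha

/-- arms -/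
theorem ue_arms (hq : 0 < q) (hp : 0 ≤ p) (hP : HP S (VT S V2 V0 z0 q) z0 q p) {a : ℝ}
    (ha1 : 105 ≤ a) (ha2 : a ≤ 111) :
    UE (VT S V2 V0 z0 q) (ZZ (VT S V2 V0 z0 q) z0 q) p 7 (Arms S z0 q a (a + 4)) := by
  have hq1 : 105 * q ≤ a * q := mul_le_mul_of_nonneg_right ha1 hq.le
  have hq2 : a * q ≤ 111 * q := mul_le_mul_of_nonneg_right ha2 hq.le
  have hq3 : (a + 4) * q = a * q + 4 * q := by ring
  have ab : |a| ≤ 300 := by rw [abs_le]; constructor <;> linarith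
  have ab4 : |a + 4| ≤ 300 := by rw [abs_le]; constructor <;> linarith
  have nz : ∀ k < 4, ∀ s ∈ VT S V2 V0 z0 q, a * q < Y z0 (ed k) s → Y z0 (ed k) s < (a + 4) * q →
      s ∉ ZZ (VT S V2 V0 z0 q) z0 q := by
    intro k hk s _ h1 h2 hz
    obtain ⟨⟨-, m3, m4⟩, -⟩ := zz_coord hq hz hk (by linarith)
    linarith
  have el : ∀ k < 3, UE (VT S V2 V0 z0 q) (ZZ (VT S V2 V0 z0 q) z0 q) p 1 (AL S z0 q k a (a + 4)) := by
    intro k hk
    refine ue_hc hP (bq' hq ab4) (bq' hq (by norm_num)) (bq hq ab) (bq hq ab4) (by linarith)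
      (by ring) (fun s hs b1 b2 b3 b4 => a1_vt (a1_of hq hs (by linarith) (by linarith) ?_))
      (fun s hs b1 b2 _ _ => nz k (by omega) s hs b1 b2)
    rw [abs_le]; constructor <;> linarith
  have er : ∀ k < 3, UE (VT S V2 V0 z0 q) (ZZ (VT S V2 V0 z0 q) z0 q) p 1 (AR S z0 q k a (a + 4)) := by
    intro k hk
    refine ue_hc hP (bq hq (by norm_num)) (bq hq ab4) (bq hq ab) (bq hq ab4) (by linarith)
      (by ring) (fun s hs b1 b2 b3 b4 => a1_vt (a1_of hq hs (by linarith) (by linarith) ?_))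
      (fun s hs b1 b2 _ _ => nz k (by omega) s hs b1 b2)
    rw [abs_le]; constructor <;> linarith
  have eb : UE (VT S V2 V0 z0 q) (ZZ (VT S V2 V0 z0 q) z0 q) p 1 (AB S z0 q a (a + 4)) := by
    refine ue_hc hP (bq' hq ab4) (bq hq ab4) (bq hq ab) (bq hq ab4) (by linarith)
      (by ring) (fun s hs b1 b2 b3 b4 => a1_vt (a1_of hq hs (by linarith) (by linarith) ?_))
      (fun s hs b1 b2 _ _ => nz 3 (by omega) s hs b1 b2)
    rw [abs_le]; constructor <;> linarith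
  have h := ((UE.all3 hp el).and hp (UE.all3 hp er)).and hp eb
  have e : Arms S z0 q a (a + 4) = fun β => ((∀ k < 3, AL S z0 q k a (a + 4) β) ∧
      ∀ k < 3, AR S z0 q k a (a + 4) β) ∧ AB S z0 q a (a + 4) β := by
    funext β
    apply propext
    exact ⟨fun h => ⟨⟨h.al, h.ar⟩, h.ab⟩, fun h => ⟨h.1.1, h.1.2, h.2⟩⟩
  rw [e]
  exact h

theorem ue_cont (hq : 0 < q) (hp : 0 ≤ p) (hV : VOK S V2 V0 z0 q)
    (hP : HP S (VT S V2 V0 z0 q) z0 q p) {y0 y1 : ℝ} (h0 : 80 ≤ y0) (h1 : y0 + 4 ≤ y1)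
    (h2 : y1 ≤ 220) :
    UE (VT S V2 V0 z0 q) (ZZ (VT S V2 V0 z0 q) z0 q) p 6 (fun β => ∀ k < 3,
      (∃ l, VC S z0 (ed k) (-(10 * q)) (-(6 * q)) (y0 * q) (y1 * q) (2 * q) β l) ∧
        ∃ l, VC S z0 (ed k) (6 * q) (10 * q) (y0 * q) (y1 * q) (2 * q) β l) := by
  have hq1 : 80 * q ≤ y0 * q := mul_le_mul_of_nonneg_right h0 hq.le
  have hq2 : (y0 + 4) * q ≤ y1 * q := mul_le_mul_of_nonneg_right h1 hq.le
  have hq3 : y1 * q ≤ 220 * q := mul_le_mul_of_nonneg_right h2 hq.le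
  have hq4 : (y0 + 4) * q = y0 * q + 4 * q := by ring
  have ab0 : |y0| ≤ 300 := by rw [abs_le]; constructor <;> linarith
  have ab1 : |y1| ≤ 300 := by rw [abs_le]; constructor <;> linarith
  have nz : ∀ k < 3, ∀ s ∈ VT S V2 V0 z0 q, y0 * q - 2 * q ≤ Y z0 (ed k) s →
      (X z0 (ed k) s < -(6 * q) ∨ 6 * q < X z0 (ed k) s) → s ∉ ZZ (VT S V2 V0 z0 q) z0 q := by
    intro k hk s _ b1 b2 hz'
    obtain ⟨⟨⟨m1, m2⟩, -, -⟩, -⟩ := zz_coord hq hz' (k := k) (by omega) (by linarith)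
    rcases b2 with h | h <;> linarith
  have hL : ∀ k < 3, UE (VT S V2 V0 z0 q) (ZZ (VT S V2 V0 z0 q) z0 q) p 1
      (fun β => ∃ l, VC S z0 (ed k) (-(10 * q)) (-(6 * q)) (y0 * q) (y1 * q) (2 * q) β l) := by
    intro k hk
    refine ue_vc hP (bq' hq (by norm_num)) (bq' hq (by norm_num)) (bq hq ab0) (bq hq ab1)
      (by linarith) (by ring) (fun s hs b1 b2 b3 b4 => hV.mem' hq (k := k) hs (by linarith) ?_ ?_)
      (fun s hs _ b2 b3 _ => nz k hk s hs b3 (Or.inl b2))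
    · rw [abs_le]; constructor <;> linarith
    · rw [abs_le]; constructor <;> linarith
  have hR : ∀ k < 3, UE (VT S V2 V0 z0 q) (ZZ (VT S V2 V0 z0 q) z0 q) p 1
      (fun β => ∃ l, VC S z0 (ed k) (6 * q) (10 * q) (y0 * q) (y1 * q) (2 * q) β l) := by
    intro k hk
    refine ue_vc hP (bq hq (by norm_num)) (bq hq (by norm_num)) (bq hq ab0) (bq hq ab1)
      (by linarith) (by ring) (fun s hs b1 b2 b3 b4 => hV.mem' hq (k := k) hs (by linarith) ?_ ?_)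
      (fun s hs b1 _ b3 _ => nz k hk s hs b3 (Or.inr b1))
    · rw [abs_le]; constructor <;> linarith
    · rw [abs_le]; constructor <;> linarith
  exact UE.all3 (n := 1 + 1) hp (fun k hk => (hL k hk).and hp (hR k hk))

end Crest.Agent.R143.XV3x796
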