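import Crest.Agent.R143.XV3_796

/-!
# Row 143, block X: three gates in one annulus, assembly of the probability (helper796)

`total_pr`, `vplus`
-/

set_option autoImplicit false

noncomputable section

open scoped Classical

namespace Crest.Agent.R143.XV4x796

open Crest.Agent.R143.B0x346 Crest.Agent.R143.DelGx806 Crest.Agent.R143.DelRx806
open Crest.Agent.R143.ToolWx838 Crest.Agent.R143.Blkx838 Crest.Agent.R143.ToolW2x838
open Crest.Agent.R143.ToolW3x838 Crest.Agent.R143.Circ4x838 Crest.Agent.R143.Harx315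
open Crest.Agent.R143.RB0x838 Crest.Agent.R143.CircPx838 Crest.Agent.R143.Gatex838
open Crest.Agent.R143.X0Bx683 Crest.Agent.R143.XV1x796 Crest.Agent.R143.XV2x796
open Crest.Agent.R143.XV3x796

variable {S V V2 V0 : Finset ℂ} {z0 : ℂ} {q p : ℝ} {β β' : Finset ℂ} {D : ℕ → Finset ℂ}

/-- the gate event as an event on all the colours -/
def GG (S : Finset ℂ) (z0 : ℂ) (q : ℝ) (D : ℕ → Finset ℂ) (k : ℕ) (β : Finset ℂ) : Prop :=
  GateE S (A1 S z0 q) z0 q D k (β ∩ A1 S z0 q)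

theorem gg_mz (hq : 0 < q) (hD : DOK (A1 S z0 q) z0 q D) {k : ℕ} (hk : k < 3) :
    MZ (VT S V2 V0 z0 q) (Zk (VT S V2 V0 z0 q) z0 q k) (GG S z0 q D k) := by
  intro β β' h1 h2 h3 h4
  refine gate_mz hq hD hk _ _ (Finset.inter_subset_inter_right h1) Finset.inter_subset_right ?_ h4
  ext s
  rw [Finset.mem_inter, Finset.mem_inter, Finset.mem_inter, Finset.mem_inter, mem_Zk]
  constructor
  · rintro ⟨⟨a1, a2⟩, a3, a4⟩
    exact ⟨⟨h1 a1, a2⟩, a3, a4⟩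
  · rintro ⟨⟨a1, a2⟩, a3, a4⟩
    have : s ∈ β' ∩ Zk (VT S V2 V0 z0 q) z0 q k :=
      Finset.mem_inter.2 ⟨a1, mem_Zk.2 ⟨a1_vt a2, a4⟩⟩
    rw [← h3] at this
    exact ⟨⟨(Finset.mem_inter.1 this).1, a2⟩, a3, a4⟩

theorem gg_dep (hq : 0 < q) (hD : DOK (A1 S z0 q) z0 q D) {k : ℕ} (hk : k < 3) {W : Finset ℂ}
    (hW : ∀ s ∈ W, ¬ Bx z0 q k s) :
    Dep (VT S V2 V0 z0 q) (VT S V2 V0 z0 q \ W) (GG S z0 q D k) := by
  intro β hβ
  have h := gate_dep (S := S) hq hD hk (W := A1 S z0 q \ W)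
    (fun s hs hb => Finset.mem_sdiff.2 ⟨hs, fun h => hW s h hb⟩)
  unfold GG
  rw [h _ Finset.inter_subset_right, h (β ∩ (VT S V2 V0 z0 q \ W) ∩ A1 S z0 q)
    Finset.inter_subset_right]
  have : β ∩ A1 S z0 q ∩ (A1 S z0 q \ W) =
      β ∩ (VT S V2 V0 z0 q \ W) ∩ A1 S z0 q ∩ (A1 S z0 q \ W) := by
    ext s
    simp only [Finset.mem_inter, Finset.mem_sdiff]
    constructor
    · rintro ⟨⟨a1, a2⟩, a3, a4⟩
      exact ⟨⟨⟨a1, a1_vt a2, a4⟩, a2⟩, a3, a4⟩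
    · rintro ⟨⟨⟨a1, -, -⟩, a2⟩, a3, a4⟩
      exact ⟨⟨a1, a2⟩, a3, a4⟩
  rw [this]

theorem zk_bx (hq : 0 < q) {j k : ℕ} (hj : j < 3) (hk : k < 3) (hjk : j ≠ k) {s : ℂ}
    (h : s ∈ Zk V z0 q j) : ¬ Bx z0 q k s := fun hb =>
  hjk (bx_unique hq hj hk (md_bx hq (mem_Zk.1 h).2) hb)

theorem zk_disj (hq : 0 < q) {j k : ℕ} (hj : j < 3) (hk : k < 3) (hjk : j ≠ k) :
    Disjoint (Zk V z0 q j) (Zk V z0 q k) := by
  rw [Finset.disjoint_left]
  intro s h1 h2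
  exact zk_bx hq hj hk hjk h1 (md_bx hq (mem_Zk.1 h2).2)

/-- the increasing part -/
def UU (S : Finset ℂ) (z0 : ℂ) (q : ℝ) (β : Finset ℂ) : Prop :=
  Arms S z0 q 107 111 β ∧ Cout S z0 q β ∧ Cin S z0 q β

theorem ue_uu (hq : 0 < q) (hp : 0 ≤ p) (hV : VOK S V2 V0 z0 q)
    (hP : HP S (VT S V2 V0 z0 q) z0 q p) :
    UE (VT S V2 V0 z0 q) (ZZ (VT S V2 V0 z0 q) z0 q) p 19 (UU S z0 q) := by
  have h1 := ue_arms (a := 107) hq hp hP (by norm_num) (by norm_num)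
  rw [show (107 : ℝ) + 4 = 111 by norm_num] at h1
  have h3 := ue_cont hq hp hV hP (y0 := 102) (y1 := 220) (by norm_num) (by norm_num) (by norm_num)
  have h4 := ue_cont hq hp hV hP (y0 := 80) (y1 := 141) (by norm_num) (by norm_num) (by norm_num)
  exact h1.and hp (h3.and hp h4)

theorem al_a1 (hq : 0 < q) {a : ℝ} (ha1 : 105 ≤ a) (ha2 : a ≤ 131) (hβ : β ⊆ S)
    (h : Arms S z0 q a (a + 4) β) : Arms S z0 q a (a + 4) (β ∩ A1 S z0 q) := by
  have hq1 : 105 * q ≤ a * q := mul_le_mul_of_nonneg_right ha1 hq.le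
  have hq2 : a * q ≤ 131 * q := mul_le_mul_of_nonneg_right ha2 hq.le
  have hq3 : (a + 4) * q = a * q + 4 * q := by ring
  have key : ∀ (k : ℕ) (x0 x1 : ℝ), -((a + 4) * q) ≤ x0 → x1 ≤ (a + 4) * q →
      (∃ l, HC S z0 (ed k) x0 x1 (a * q) ((a + 4) * q) (2 * q) β l) →
      ∃ l, HC S z0 (ed k) x0 x1 (a * q) ((a + 4) * q) (2 * q) (β ∩ A1 S z0 q) l := by
    rintro k x0 x1 c1 c2 ⟨l, h⟩
    refine ⟨l, h.ne, h.adj, fun s hs => Finset.mem_inter.2 ⟨h.col s hs, ?_⟩, h.strip, h.loc,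
      h.left, h.right⟩
    have b1 := h.strip s hs
    have b2 := h.loc s hs
    refine a1_of (k := k) hq (hβ (h.col s hs)) (by linarith) (by linarith) ?_
    rw [abs_le]; constructor <;> linarith
  refine ⟨fun k hk => key k _ _ le_rfl (by linarith) (h.al k hk),
    fun k hk => key k _ _ (by linarith) le_rfl (h.ar k hk), key 3 _ _ le_rfl le_rfl h.ab⟩

theorem cout_a1 (hq : 0 < q) (hV : VOK S V2 V0 z0 q) (hβ : β ⊆ S) (h : Cout S z0 q β) :
    Cout S z0 q (β ∩ (A1 S z0 q ∪ V2)) := by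
  have key : ∀ (k : ℕ) (s : ℂ), s ∈ S → |X z0 (ed k) s| ≤ 10 * q → 100 * q ≤ Y z0 (ed k) s →
      Y z0 (ed k) s ≤ 222 * q → s ∈ A1 S z0 q ∪ V2 := by
    intro k s hs b1 b2 b3
    have n1 : 100 * q ≤ ‖s - z0‖ := norm_ge_of (by positivity) b2
    have n2 : ‖s - z0‖ < 230 * q := norm_lt_of (k := k) (a := 10 * q) (b := 222 * q)
      (by positivity) b1 (abs_le.2 ⟨by linarith, b3⟩) (by nlinarith)
    rw [Finset.mem_union]
    rcases lt_or_ge ‖s - z0‖ (200 * q) with h4 | h4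
    · exact Or.inl (mem_A1.2 ⟨hs, by linarith, h4⟩)
    · exact Or.inr (hV.m2 s hs h4 n2.le)
  intro k hk
  obtain ⟨⟨l, hl⟩, l', hl'⟩ := h k hk
  refine ⟨⟨l, hl.ne, hl.adj, fun s hs => Finset.mem_inter.2 ⟨hl.col s hs, ?_⟩, hl.strip, hl.loc,
    hl.left, hl.right⟩, ⟨l', hl'.ne, hl'.adj, fun s hs => Finset.mem_inter.2 ⟨hl'.col s hs, ?_⟩,
    hl'.strip, hl'.loc, hl'.left, hl'.right⟩⟩
  · have c1 := hl.strip s hs
    have c2 := hl.loc s hs
    exact key k s (hβ (hl.col s hs)) (abs_le.2 ⟨by linarith, by linarith⟩) (by linarith) (by linarith)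
  · have c1 := hl'.strip s hs
    have c2 := hl'.loc s hs
    exact key k s (hβ (hl'.col s hs)) (abs_le.2 ⟨by linarith, by linarith⟩) (by linarith)
      (by linarith)

theorem cin_a1 (hq : 0 < q) (hV : VOK S V2 V0 z0 q) (hβ : β ⊆ S) (h : Cin S z0 q β) :
    Cin S z0 q (β ∩ (A1 S z0 q ∪ V0)) := by
  have key : ∀ (k : ℕ) (s : ℂ), s ∈ S → |X z0 (ed k) s| ≤ 10 * q → 78 * q ≤ Y z0 (ed k) s →
      Y z0 (ed k) s ≤ 143 * q → s ∈ A1 S z0 q ∪ V0 := by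
    intro k s hs b1 b2 b3
    have n1 : 78 * q ≤ ‖s - z0‖ := norm_ge_of (by positivity) b2
    have n2 : ‖s - z0‖ < 200 * q := norm_lt_of (k := k) (a := 10 * q) (b := 143 * q)
      (by positivity) b1 (abs_le.2 ⟨by linarith, b3⟩) (by nlinarith)
    rw [Finset.mem_union]
    rcases lt_or_ge ‖s - z0‖ (100 * q) with h4 | h4
    · exact Or.inr (hV.m0 s hs (by linarith) h4)
    · exact Or.inl (mem_A1.2 ⟨hs, h4, n2⟩)
  intro k hk
  obtain ⟨⟨l, hl⟩, l', hl'⟩ := h k hk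
  refine ⟨⟨l, hl.ne, hl.adj, fun s hs => Finset.mem_inter.2 ⟨hl.col s hs, ?_⟩, hl.strip, hl.loc,
    hl.left, hl.right⟩, ⟨l', hl'.ne, hl'.adj, fun s hs => Finset.mem_inter.2 ⟨hl'.col s hs, ?_⟩,
    hl'.strip, hl'.loc, hl'.left, hl'.right⟩⟩
  · have c1 := hl.strip s hs
    have c2 := hl.loc s hs
    exact key k s (hβ (hl.col s hs)) (abs_le.2 ⟨by linarith, by linarith⟩) (by linarith) (by linarith)
  · have c1 := hl'.strip s hs
    have c2 := hl'.loc s hs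
    exact key k s (hβ (hl'.col s hs)) (abs_le.2 ⟨by linarith, by linarith⟩) (by linarith)
      (by linarith)

/-- **probability of the total event** -/
theorem total_pr (hq : 0 < q) (hS : GP (S : Set ℂ)) (hp : 0 ≤ p) (hV : VOK S V2 V0 z0 q)
    (hD : DOK (A1 S z0 q) z0 q D) (hP1 : HP S (A1 S z0 q) z0 q p)
    (hP : HP S (VT S V2 V0 z0 q) z0 q p) :
    p ^ 34 ≤ pr (VT S V2 V0 z0 q) (fun β => VP S (A1 S z0 q) z0 q D (β ∩ A1 S z0 q) ∧
      Cout S z0 q (β ∩ (A1 S z0 q ∪ V2)) ∧ Cin S z0 q (β ∩ (A1 S z0 q ∪ V0))) := by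
  set VV := VT S V2 V0 z0 q with hVV
  have hA1 : A1 S z0 q ⊆ VV := fun s hs => a1_vt hs
  have hg : ∀ k < 3, p ^ 5 ≤ pr VV (GG S z0 q D k) := by
    intro k hk
    have hdep : Dep VV (A1 S z0 q) (GG S z0 q D k) := by
      intro β _
      unfold GG
      rw [Finset.inter_assoc, Finset.inter_self]
    rw [pr_dep hA1 hdep]
    refine (gateE_pr hq hS hp hP1 hD hk).trans (le_of_eq (pr_congr fun β hβ => ?_))
    unfold GG
    rw [Finset.inter_eq_left.2 hβ]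
  have hU := ue_uu hq hp hV hP
  have hZ : ∀ k, Zk VV z0 q k ⊆ VV := fun k => Finset.filter_subset _ _
  have dU : ∀ k < 3, Dep VV (VV \ Zk VV z0 q k) (UU S z0 q) := fun k hk =>
    hU.dep.mono (Finset.sdiff_subset_sdiff subset_rfl (fun s hs => mem_ZZ.2 ⟨k, hk, hs⟩))
  have p5 : (0 : ℝ) ≤ p ^ 5 := by positivity
  have p26 : (0 : ℝ) ≤ p ^ 19 := by positivity
  -- gate 2
  have m2 : MZ VV (Zk VV z0 q 2 ∪ ∅) (fun β => GG S z0 q D 2 β ∧ UU S z0 q β) :=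
    (gg_mz hq hD (by norm_num)).and (MZ.of_up hU.up)
  have H2 := harris_mz (hZ 2) (Finset.empty_subset VV) (Finset.disjoint_empty_right _)
    (gg_mz hq hD (by norm_num)) (gg_dep hq hD (k := 2) (by norm_num) (W := ∅) (by simp))
    (MZ.of_up (W := ∅) hU.up) (dU 2 (by norm_num))
  have g2 : p ^ 24 ≤ pr VV (fun β => GG S z0 q D 2 β ∧ UU S z0 q β) := by
    calc p ^ 24 = p ^ 5 * p ^ 19 := by ring
      _ ≤ _ := mul_le_mul (hg 2 (by norm_num)) hU.le p26 pr_nonneg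
      _ ≤ _ := H2
  -- gate 1
  have hsub2 : Zk VV z0 q 2 ∪ ∅ ⊆ VV := by rw [Finset.union_empty]; exact hZ 2
  have m1 : MZ VV (Zk VV z0 q 1 ∪ (Zk VV z0 q 2 ∪ ∅))
      (fun β => GG S z0 q D 1 β ∧ (GG S z0 q D 2 β ∧ UU S z0 q β)) :=
    (gg_mz hq hD (by norm_num)).and m2
  have H1 := harris_mz (hZ 1) hsub2
    (by rw [Finset.union_empty]; exact zk_disj hq (by norm_num) (by norm_num) (by norm_num))
    (gg_mz hq hD (by norm_num)) (gg_dep hq hD (k := 1) (by norm_num) (W := Zk VV z0 q 2 ∪ ∅) (by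
      intro s hs
      rw [Finset.union_empty] at hs
      exact zk_bx hq (by norm_num) (by norm_num) (by norm_num) hs)) m2
    ((gg_dep hq hD (k := 2) (by norm_num) (W := Zk VV z0 q 1) (fun s hs =>
      zk_bx hq (by norm_num) (by norm_num) (by norm_num) hs)).and (dU 1 (by norm_num)))
  have g1 : p ^ 29 ≤ pr VV (fun β => GG S z0 q D 1 β ∧ (GG S z0 q D 2 β ∧ UU S z0 q β)) := by
    calc p ^ 29 = p ^ 5 * p ^ 24 := by ring
      _ ≤ _ := mul_le_mul (hg 1 (by norm_num)) g2 (by positivity) pr_nonneg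
      _ ≤ _ := H1
  -- gate 0
  have hsub1 : Zk VV z0 q 1 ∪ (Zk VV z0 q 2 ∪ ∅) ⊆ VV := Finset.union_subset (hZ 1) hsub2
  have H0 := harris_mz (hZ 0) hsub1 (by
      rw [Finset.union_empty, Finset.disjoint_union_right]
      exact ⟨zk_disj hq (by norm_num) (by norm_num) (by norm_num),
        zk_disj hq (by norm_num) (by norm_num) (by norm_num)⟩)
    (gg_mz hq hD (by norm_num)) (gg_dep hq hD (k := 0) (by norm_num)
      (W := Zk VV z0 q 1 ∪ (Zk VV z0 q 2 ∪ ∅)) (by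
      intro s hs
      rw [Finset.union_empty, Finset.mem_union] at hs
      rcases hs with hs | hs
      · exact zk_bx hq (by norm_num) (by norm_num) (by norm_num) hs
      · exact zk_bx hq (by norm_num) (by norm_num) (by norm_num) hs)) m1
    ((gg_dep hq hD (k := 1) (by norm_num) (W := Zk VV z0 q 0) (fun s hs =>
      zk_bx hq (by norm_num) (by norm_num) (by norm_num) hs)).and
      ((gg_dep hq hD (k := 2) (by norm_num) (W := Zk VV z0 q 0) (fun s hs =>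
      zk_bx hq (by norm_num) (by norm_num) (by norm_num) hs)).and (dU 0 (by norm_num))))
  have g0 : p ^ 34 ≤ pr VV (fun β => GG S z0 q D 0 β ∧ (GG S z0 q D 1 β ∧
      (GG S z0 q D 2 β ∧ UU S z0 q β))) := by
    calc p ^ 34 = p ^ 5 * p ^ 29 := by ring
      _ ≤ _ := mul_le_mul (hg 0 (by norm_num)) g1 (by positivity) pr_nonneg
      _ ≤ _ := H0
  refine g0.trans (pr_mono ?_)
  rintro β hβ ⟨h0, h1, h2, hi, hco, hci⟩
  have hβS : β ⊆ S := hβ.trans hV.sub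
  refine ⟨⟨?_, ?_⟩, cout_a1 hq hV hβS hco, cin_a1 hq hV hβS hci⟩
  · intro k hk
    interval_cases k
    · exact h0
    · exact h1
    · exact h2
  · have := al_a1 (a := 107) hq (by norm_num) (by norm_num) hβS (by
      rw [show (107 : ℝ) + 4 = 111 by norm_num]; exact hi)
    rw [show (107 : ℝ) + 4 = 111 by norm_num] at this
    exact this

/-- **V+**: the good colours of the annulus -/
theorem vplus (hRB : RB) : ∃ C c1 K : ℝ, 0 < C ∧ 0 < c1 ∧ 0 < K ∧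
    ∀ (S : Finset ℂ) (z0 : ℂ) (q d C4 : ℝ), 0 < q → Nv S z0 (K * q) (100 * q) d C4 → d ≤ c1 * q →
    ∀ (V2 V0 : Finset ℂ) (D : ℕ → Finset ℂ), VOK S V2 V0 z0 q → DOK (A1 S z0 q) z0 q D →
    Real.exp (-C * (1 + C4)) / 2 ≤
      pr (A1 S z0 q) (BB S V2 V0 z0 q D (Real.exp (-C * (1 + C4)) / 4)) := by
  obtain ⟨C, c1, K, hC, hc1, hK, h⟩ := hp_of_rb hRB
  refine ⟨34 * C, c1, K, by positivity, hc1, hK, ?_⟩
  intro S z0 q d C4 hq hN hd V2 V0 D hV hD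
  set p := Real.exp (-C * (1 + C4)) with hp
  have hp0 : 0 ≤ p := (Real.exp_pos _).le
  have e1 : Real.exp (-(34 * C) * (1 + C4)) = p ^ 34 := by
    rw [hp, ← Real.exp_nat_mul]
    congr 1
    push_cast
    ring
  rw [e1]
  have hT := total_pr hq hN.dns.gp hp0 hV hD
    (h S z0 q d C4 hq hN hd (A1 S z0 q) (fun s hs => (mem_A1.1 hs).1))
    (h S z0 q d C4 hq hN hd (VT S V2 V0 z0 q) hV.sub)
  have hc : 0 ≤ p ^ 34 / 4 := by positivity
  have key := fub (V1 := A1 S z0 q) (V2 := V2) (V0 := V0) hV.d12 hV.d10 hV.d20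
    (T := VP S (A1 S z0 q) z0 q D) (P := Cout S z0 q) (Q := Cin S z0 q) hc (by
      have : 4 * (p ^ 34 / 4) = p ^ 34 := by ring
      rw [this]
      exact hT)
  calc p ^ 34 / 2 = 2 * (p ^ 34 / 4) := by ring
    _ ≤ _ := key

end Crest.Agent.R143.XV4x796
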