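import Crest.Agent.R143.XG3_796

/-!
# Row 143, block X: three gates in one annulus, the loop (helper796)

`hasG` : the colours `VP` and the join of the form `JF` have a loop with three gates
-/

set_option autoImplicit false

noncomputable section

open scoped Classical

namespace Crest.Agent.R143.XV5x796

open Crest.Agent.R143.B0x346 Crest.Agent.R143.DelGx806 Crest.Agent.R143.DelRx806
open Crest.Agent.R143.ToolWx838 Crest.Agent.R143.Blkx838 Crest.Agent.R143.ToolW2x838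
open Crest.Agent.R143.ToolW3x838 Crest.Agent.R143.Circ4x838 Crest.Agent.R143.Harx315
open Crest.Agent.R143.RB0x838 Crest.Agent.R143.CircPx838 Crest.Agent.R143.Gatex838
open Crest.Agent.R143.X0Bx683
open Crest.Agent.R143.XDx697 (AxE)
open Crest.Agent.R143.XV1x796 Crest.Agent.R143.XV2x796 Crest.Agent.R143.XV3x796
open Crest.Agent.R143.XG3x796

variable {S V : Finset ℂ} {z0 : ℂ} {q : ℝ} {β : Finset ℂ} {J : Finset (ℂ × ℂ)}

/-! ### coordinates -/

theorem ed_four (k : ℕ) : ed (k + 4) = ed k := by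
  unfold ed
  rw [pow_add, Complex.I_pow_four, mul_one]

theorem edz (k : ZMod 3) : XDx697.ed k = ed k.val := rfl

/-- all coordinates in terms of the side `0` -/
theorem coords (z0 s : ℂ) : (X z0 (ed 1) s = Y z0 (ed 0) s ∧ Y z0 (ed 1) s = -X z0 (ed 0) s) ∧
    (X z0 (ed 2) s = -X z0 (ed 0) s ∧ Y z0 (ed 2) s = -Y z0 (ed 0) s) ∧
    (X z0 (ed 3) s = -Y z0 (ed 0) s ∧ Y z0 (ed 3) s = X z0 (ed 0) s) := by
  have s1 := X_succ z0 0 s
  have s2 := Y_succ z0 0 s
  have s3 := X_succ z0 1 s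
  have s4 := Y_succ z0 1 s
  have s5 := X_succ z0 2 s
  have s6 := Y_succ z0 2 s
  norm_num at s1 s2 s3 s4 s5 s6
  refine ⟨⟨s1, s2⟩, ⟨?_, ?_⟩, ?_, ?_⟩ <;> linarith

theorem coords0 (z0 s : ℂ) : Y z0 (ed 0) s = s.re - z0.re ∧ X z0 (ed 0) s = z0.im - s.im := by
  unfold X Y ed
  rw [pow_zero, mul_one, div_negI]
  simp

theorem mid_X (z0 e : ℂ) (p : ℂ × ℂ) : X z0 e (mid p) = (X z0 e p.1 + X z0 e p.2) / 2 := by
  unfold X
  have : (mid p - z0) / e = ((p.1 - z0) / e + (p.2 - z0) / e) / 2 := by unfold mid; ring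
  rw [this]
  simp

theorem mid_Y (z0 e : ℂ) (p : ℂ × ℂ) : Y z0 e (mid p) = (Y z0 e p.1 + Y z0 e p.2) / 2 := by
  unfold Y
  have : (mid p - z0) / e = ((p.1 - z0) / e + (p.2 - z0) / e) / 2 := by unfold mid; ring
  rw [this]
  simp

/-- the edges which cross an axis, near the side `k` -/
theorem axe_iff {k : ℕ} (hk : k < 3) {p : ℂ × ℂ} (h1 : 0 < Y z0 (ed k) p.1)
    (h2 : 0 < Y z0 (ed k) p.2) :
    AxE z0 p ↔ ¬ (0 ≤ X z0 (ed k) p.1 ↔ 0 ≤ X z0 (ed k) p.2) := by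
  obtain ⟨⟨a1, a2⟩, ⟨a3, a4⟩, -, -⟩ := coords z0 p.1
  obtain ⟨⟨b1, b2⟩, ⟨b3, b4⟩, -, -⟩ := coords z0 p.2
  constructor
  · rintro ⟨j, hj, hx⟩
    rw [edz] at hj hx
    rw [mid_Y] at hj
    have hjv : j.val < 3 := ZMod.val_lt j
    generalize j.val = m at hj hx hjv
    intro hcon
    apply hx
    interval_cases m <;> interval_cases k
    all_goals first
      | exact hcon
      | (exfalso; linarith)
      | (constructor <;> intro _ <;> linarith)
  · intro h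
    refine ⟨(k : ZMod 3), ?_, ?_⟩
    · rw [edz, ZMod.val_natCast, Nat.mod_eq_of_lt hk, mid_Y]; linarith
    · rw [edz, ZMod.val_natCast, Nat.mod_eq_of_lt hk]; exact h

theorem axe_bot {p : ℂ × ℂ} (h1 : 0 < Y z0 (ed 3) p.1) (h2 : 0 < Y z0 (ed 3) p.2) : ¬ AxE z0 p := by
  obtain ⟨⟨a1, a2⟩, ⟨a3, a4⟩, a5, a6⟩ := coords z0 p.1
  obtain ⟨⟨b1, b2⟩, ⟨b3, b4⟩, b5, b6⟩ := coords z0 p.2
  rintro ⟨j, hj, hx⟩
  rw [edz] at hj hx
  rw [mid_Y] at hj
  have hjv : j.val < 3 := ZMod.val_lt j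
  generalize j.val = m at hj hx hjv
  apply hx
  interval_cases m
  all_goals first
    | (exfalso; linarith)
    | (constructor <;> intro _ <;> linarith)

theorem mem_Dax {k : ℕ} {s : ℂ} : s ∈ Dax S z0 q k ↔ s ∈ A1 S z0 q ∧ 0 ≤ X z0 (ed k) s := by
  unfold Dax; simp

theorem dok (hq : 0 < q) : DOK (A1 S z0 q) z0 q (Dax S z0 q) where
  sub k _ := Finset.filter_subset _ _
  left k _ s _ _ h := by
    rw [mem_Dax]
    rintro ⟨-, h1⟩
    linarith
  right k _ s hs _ h := mem_Dax.2 ⟨hs, by linarith⟩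

/-- the join in the box `k` is the boundary of the local colours -/
theorem jf_box (hJ : JF S z0 q J β) {k : ℕ} (hk : k < 3) {p : ℂ × ℂ} (hde : DE S p.1 p.2)
    (m1 : p.1 ∈ A1 S z0 q) (m2 : p.2 ∈ A1 S z0 q) (h1 : 0 < Y z0 (ed k) p.1)
    (h2 : 0 < Y z0 (ed k) p.2) :
    p ∈ J ↔ ¬ (p.1 ∈ symmDiff β (Dax S z0 q k) ↔ p.2 ∈ symmDiff β (Dax S z0 q k)) := by
  rw [hJ p hde m1 m2, axe_iff hk h1 h2, Finset.mem_symmDiff, Finset.mem_symmDiff, mem_Dax, mem_Dax]
  tauto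

/-- an edge without axis and without change of colour is empty -/
theorem jf_free (hJ : JF S z0 q J β) {p : ℂ × ℂ} (hde : DE S p.1 p.2)
    (m1 : p.1 ∈ A1 S z0 q) (m2 : p.2 ∈ A1 S z0 q) (hax : ¬ AxE z0 p) (h1 : p.1 ∈ β)
    (h2 : p.2 ∈ β) : p ∉ J := by
  rw [hJ p hde m1 m2]
  tauto

/-! ### chains -/

/-- chain with ends `a`, `b`, without occupied edges, all sites satisfy `Q` -/
structure Cn (S : Finset ℂ) (J : Finset (ℂ × ℂ)) (a b : ℂ) (Q : ℂ → Prop) (m : List ℂ) : Prop where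
  head : m.head? = some a
  last : m.getLast? = some b
  adj : ∀ p ∈ prs m, DE S p.1 p.2
  free : JFree J m
  mem : ∀ s ∈ m, Q s

theorem Cn.ne {a b : ℂ} {Q : ℂ → Prop} {m : List ℂ} (h : Cn S J a b Q m) : m ≠ [] := by
  rintro rfl
  simpa using h.head

theorem Cn.mono {a b : ℂ} {Q Q' : ℂ → Prop} {m : List ℂ} (h : Cn S J a b Q m)
    (hQ : ∀ s, Q s → Q' s) : Cn S J a b Q' m :=
  ⟨h.head, h.last, h.adj, h.free, fun s hs => hQ s (h.mem s hs)⟩

theorem Cn.cat {a b c : ℂ} {Q : ℂ → Prop} {l m : List ℂ} (h : Cn S J a b Q l)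
    (h' : Cn S J b c Q m) : Cn S J a c Q (Circ4x838.cat l m) := by
  have hp := prs_cat h.last h'.head
  refine ⟨?_, ?_, ?_, ?_, ?_⟩
  · rw [cat_head h.ne]; exact h.head
  · rw [cat_last h.last h'.head]; exact h'.last
  · intro p hp'
    rw [hp, List.mem_append] at hp'
    exact hp'.elim (h.adj p) (h'.adj p)
  · intro p hp'
    rw [hp, List.mem_append] at hp'
    exact hp'.elim (h.free p) (h'.free p)
  · intro s hs
    exact (mem_cat hs).elim (h.mem s) (h'.mem s)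

theorem Cn.reverse {a b : ℂ} {Q : ℂ → Prop} {m : List ℂ} (h : Cn S J a b Q m) :
    Cn S J b a Q m.reverse := by
  refine ⟨?_, ?_, ?_, ?_, fun s hs => h.mem s (List.mem_reverse.1 hs)⟩
  · rw [List.head?_reverse]; exact h.last
  · rw [List.getLast?_reverse]; exact h.head
  · intro p hp
    rw [prs_reverse] at hp
    simp only [List.mem_reverse, List.mem_map] at hp
    obtain ⟨r, hr, rfl⟩ := hp
    exact (h.adj r hr).symm
  · intro p hp
    rw [prs_reverse] at hp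
    simp only [List.mem_reverse, List.mem_map] at hp
    obtain ⟨r, hr, rfl⟩ := hp
    rw [Prod.swap_swap]
    exact (h.free r hr).symm

/-- part of a chain -/
theorem Cn.sub {a b : ℂ} {Q : ℂ → Prop} {l : List ℂ} (ha : a ∈ l) (hb : b ∈ l)
    (hadj : ∀ p ∈ prs l, DE S p.1 p.2) (hfree : JFree J l) (hQ : ∀ s ∈ l, Q s) :
    ∃ m, Cn S J a b Q m := by
  obtain ⟨m, hm⟩ := sub_chain ha hb
  refine ⟨m, hm.head, hm.last, fun p hp => ?_, fun p hp => ?_, fun s hs => hQ s (hm.mem s hs)⟩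
  · rcases hm.prs p hp with h | h
    · exact hadj p h
    · exact (hadj _ h).symm
  · rcases hm.prs p hp with h | h
    · exact hfree p h
    · have := hfree _ h
      rw [Prod.swap_swap] at this
      exact this.symm

/-! ### the passage through a box -/

/-- passage through the box `k` from the right to the left -/
structure Pass (S : Finset ℂ) (z0 : ℂ) (q : ℝ) (J : Finset (ℂ × ℂ)) (k : ℕ) (c a : ℂ) (g : ℂ × ℂ)
    (Pa Pb : List ℂ) : Prop where
  pa : Cn S J c g.1 (fun s => s ∈ A1 S z0 q ∧ -(6 * q) < X z0 (ed k) s ∧ 102 * q < Y z0 (ed k) s ∧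
    Y z0 (ed k) s < 141 * q) Pa
  pb : Cn S J g.2 a (fun s => s ∈ A1 S z0 q ∧ X z0 (ed k) s < 6 * q ∧ 102 * q < Y z0 (ed k) s ∧
    Y z0 (ed k) s < 141 * q) Pb
  de : DE S g.1 g.2
  ne : g.1 ≠ g.2
  occ : g ∈ J ∧ g.swap ∈ J
  pos : (-(6 * q) < X z0 (ed k) g.1 ∧ X z0 (ed k) g.1 ≤ 12 * q ∧
      115 * q < Y z0 (ed k) g.1 ∧ Y z0 (ed k) g.1 < 125 * q) ∧
    (-(10 * q) < X z0 (ed k) g.2 ∧ X z0 (ed k) g.2 < 6 * q ∧
      115 * q < Y z0 (ed k) g.2 ∧ Y z0 (ed k) g.2 < 125 * q)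

theorem pass (hq : 0 < q) (hS : GP (S : Set ℂ)) (hβ : β ⊆ A1 S z0 q) (hJ : JF S z0 q J β) {k : ℕ}
    (hk : k < 3) (hg : GateE S (A1 S z0 q) z0 q (Dax S z0 q) k β) {l r : List ℂ}
    (hl : HC S z0 (ed k) (-(111 * q)) (-(6 * q)) (107 * q) (111 * q) (2 * q) β l)
    (hr : HC S z0 (ed k) (6 * q) (111 * q) (107 * q) (111 * q) (2 * q) β r)
    {a c : ℂ} (ha : a ∈ l) (hc : c ∈ r) : ∃ g Pa Pb, Pass S z0 q J k c a g Pa Pb := by
  obtain ⟨L, R, χ1, χ2, g⟩ := hg
  have hsd : symmDiff β (Dax S z0 q k) ⊆ A1 S z0 q := by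
    intro x hx
    rcases Finset.mem_symmDiff.1 hx with h | h
    · exact hβ h.1
    · exact (mem_Dax.1 h.1).1
  obtain ⟨l1, l1a, l1b⟩ := hl.meet hS (ed_ne k) g.left (by linarith) (by linarith) (by linarith)
    (by linarith)
  obtain ⟨r1, r1a, r1b⟩ := hr.meet hS (ed_ne k) g.right (by linarith) (by linarith) (by linarith)
    (by linarith)
  -- the chains are free
  have bxfree : ∀ m : List ℂ, (∀ p ∈ prs m, DE S p.1 p.2) → (∀ s ∈ m, s ∈ A1 S z0 q ∧
      0 < Y z0 (ed k) s) → ((∀ s ∈ m, s ∈ symmDiff β (Dax S z0 q k)) ∨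
      ∀ s ∈ m, s ∉ symmDiff β (Dax S z0 q k)) → JFree J m := by
    intro m hadj hm hcol p hp
    have h1 := hm _ (mem_of_prs hp).1
    have h2 := hm _ (mem_of_prs hp).2
    have e : (p.1 ∈ symmDiff β (Dax S z0 q k) ↔ p.2 ∈ symmDiff β (Dax S z0 q k)) := by
      rcases hcol with h | h
      · exact ⟨fun _ => h _ (mem_of_prs hp).2, fun _ => h _ (mem_of_prs hp).1⟩
      · exact ⟨fun h' => absurd h' (h _ (mem_of_prs hp).1), fun h' => absurd h' (h _ (mem_of_prs hp).2)⟩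
    refine ⟨?_, ?_⟩
    · rw [jf_box hJ hk (hadj p hp) h1.1 h2.1 h1.2 h2.2]
      exact fun h => h e
    · rw [jf_box (p := p.swap) hJ hk (hadj p hp).symm h2.1 h1.1 h2.2 h1.2]
      exact fun h => h e.symm
  have armfree : ∀ m : List ℂ, (∀ p ∈ prs m, DE S p.1 p.2) → (∀ s ∈ m, s ∈ β) →
      (∀ s ∈ m, 0 < Y z0 (ed k) s) → ((∀ s ∈ m, 0 ≤ X z0 (ed k) s) ∨ ∀ s ∈ m, X z0 (ed k) s < 0) →
      JFree J m := by
    intro m hadj hm hY hX p hp
    have i1 := (mem_of_prs hp).1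
    have i2 := (mem_of_prs hp).2
    have hax : ¬ AxE z0 p := by
      rw [axe_iff hk (hY _ i1) (hY _ i2), not_not]
      rcases hX with h | h
      · exact ⟨fun _ => h _ i2, fun _ => h _ i1⟩
      · exact ⟨fun h' => absurd (h _ i1) (not_lt.2 h'), fun h' => absurd (h _ i2) (not_lt.2 h')⟩
    have hax' : ¬ AxE z0 p.swap := by
      rw [axe_iff (p := p.swap) hk (hY _ i2) (hY _ i1), not_not]
      rcases hX with h | h
      · exact ⟨fun _ => h _ i1, fun _ => h _ i2⟩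
      · exact ⟨fun h' => absurd (h _ i2) (not_lt.2 h'), fun h' => absurd (h _ i1) (not_lt.2 h')⟩
    exact ⟨jf_free hJ (hadj p hp) (hβ (hm _ i1)) (hβ (hm _ i2)) hax (hm _ i1) (hm _ i2),
      jf_free (p := p.swap) hJ (hadj p hp).symm (hβ (hm _ i2)) (hβ (hm _ i1)) hax' (hm _ i2)
        (hm _ i1)⟩
  have fL : JFree J L := bxfree L g.left.adj (fun s hs => ⟨hsd (g.left.col s hs), by
    have := g.left.loc s hs
    linarith⟩) (Or.inl g.left.col)
  have fR : JFree J R := bxfree R g.right.adj (fun s hs =>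
    ⟨(Finset.mem_sdiff.1 (g.right.col s hs)).1, by
      have := g.right.loc s hs
      linarith⟩) (Or.inr fun s hs => (Finset.mem_sdiff.1 (g.right.col s hs)).2)
  have f1 : JFree J χ1 := bxfree χ1 g.d1 (fun s hs => ⟨hsd (g.c1 s hs), by
    have := (g.b1 s hs).2
    linarith⟩) (Or.inl g.c1)
  have f2 : JFree J χ2 := bxfree χ2 g.d2 (fun s hs => ⟨(g.c2 s hs).1, by
    have := (g.b2 s hs).2
    linarith⟩) (Or.inr fun s hs => (g.c2 s hs).2)
  have fl : JFree J l := armfree l hl.adj hl.col (fun s hs => by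
    have := hl.strip s hs
    linarith) (Or.inr fun s hs => by
    have := hl.loc s hs
    linarith)
  have fr : JFree J r := armfree r hr.adj hr.col (fun s hs => by
    have := hr.strip s hs
    linarith) (Or.inl fun s hs => by
    have := hr.loc s hs
    linarith)
  -- left part
  obtain ⟨m1, k1⟩ := Cn.sub (S := S) (J := J) (Q := fun s => s ∈ A1 S z0 q ∧ X z0 (ed k) s < 6 * q ∧
    102 * q < Y z0 (ed k) s ∧ Y z0 (ed k) s < 141 * q) ha l1a hl.adj fl (fun s hs => by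
      have h1 := hl.strip s hs
      have h2 := hl.loc s hs
      exact ⟨hβ (hl.col s hs), by linarith, by linarith, by linarith⟩)
  obtain ⟨m2, k2⟩ := Cn.sub (S := S) (J := J) (Q := fun s => s ∈ A1 S z0 q ∧ X z0 (ed k) s < 6 * q ∧
    102 * q < Y z0 (ed k) s ∧ Y z0 (ed k) s < 141 * q) l1b g.h1 g.left.adj fL (fun s hs => by
      have h1 := g.left.strip s hs
      have h2 := g.left.loc s hs
      exact ⟨hsd (g.left.col s hs), by linarith, by linarith, by linarith⟩)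
  have k3 : Cn S J (χ1.head g.n1) (χ1.getLast g.n1) (fun s => s ∈ A1 S z0 q ∧ X z0 (ed k) s < 6 * q ∧
      102 * q < Y z0 (ed k) s ∧ Y z0 (ed k) s < 141 * q) χ1 :=
    ⟨List.head?_eq_some_head g.n1, List.getLast?_eq_some_getLast g.n1, g.d1, f1, fun s hs => by
      have h1 := g.b1 s hs
      exact ⟨hsd (g.c1 s hs), by linarith, by linarith, by linarith⟩⟩
  have P1 := ((k1.cat k2).cat k3).reverse
  -- right part
  obtain ⟨m4, k4⟩ := Cn.sub (S := S) (J := J) (Q := fun s => s ∈ A1 S z0 q ∧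
    -(6 * q) < X z0 (ed k) s ∧ 102 * q < Y z0 (ed k) s ∧ Y z0 (ed k) s < 141 * q) r1a hc hr.adj fr
    (fun s hs => by
      have h1 := hr.strip s hs
      have h2 := hr.loc s hs
      exact ⟨hβ (hr.col s hs), by linarith, by linarith, by linarith⟩)
  obtain ⟨m5, k5⟩ := Cn.sub (S := S) (J := J) (Q := fun s => s ∈ A1 S z0 q ∧
    -(6 * q) < X z0 (ed k) s ∧ 102 * q < Y z0 (ed k) s ∧ Y z0 (ed k) s < 141 * q) g.h2 r1b
    g.right.adj fR (fun s hs => by
      have h1 := g.right.strip s hs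
      have h2 := g.right.loc s hs
      exact ⟨(Finset.mem_sdiff.1 (g.right.col s hs)).1, by linarith, by linarith, by linarith⟩)
  have k6 : Cn S J (χ2.head g.n2) (χ2.getLast g.n2) (fun s => s ∈ A1 S z0 q ∧
      -(6 * q) < X z0 (ed k) s ∧ 102 * q < Y z0 (ed k) s ∧ Y z0 (ed k) s < 141 * q) χ2 :=
    ⟨List.head?_eq_some_head g.n2, List.getLast?_eq_some_getLast g.n2, g.d2, f2, fun s hs => by
      have h1 := g.b2 s hs
      exact ⟨(g.c2 s hs).1, by linarith, by linarith, by linarith⟩⟩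
  have P2 := ((k6.cat k5).cat k4).reverse
  have e1 := g.c1 _ (List.getLast_mem g.n1)
  have e2 := g.c2 _ (List.head_mem g.n2)
  have b1 := g.b1 _ (List.getLast_mem g.n1)
  have b2 := g.b2 _ (List.head_mem g.n2)
  refine ⟨(χ2.head g.n2, χ1.getLast g.n1), _, _, P2, P1, g.gate.symm, ?_, ⟨?_, ?_⟩,
    ⟨by linarith [b2.1.1], by linarith [b2.1.2], by linarith [b2.2.1], by linarith [b2.2.2]⟩,
    by linarith [b1.1.1], by linarith [b1.1.2], by linarith [b1.2.1], by linarith [b1.2.2]⟩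
  · intro h
    have h' : χ2.head g.n2 = χ1.getLast g.n1 := h
    rw [h'] at e2
    exact e2.2 e1
  · rw [jf_box hJ hk g.gate.symm e2.1 (hsd e1) (by
      change 0 < Y z0 (ed k) (χ2.head g.n2)
      linarith [b2.2.1]) (by
      change 0 < Y z0 (ed k) (χ1.getLast g.n1)
      linarith [b1.2.1])]
    intro h
    exact e2.2 (h.2 e1)
  · rw [Prod.swap_prod_mk, jf_box (p := (χ1.getLast g.n1, χ2.head g.n2)) hJ hk g.gate (hsd e1) e2.1 (by
      change 0 < Y z0 (ed k) (χ1.getLast g.n1)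
      linarith [b1.2.1]) (by
      change 0 < Y z0 (ed k) (χ2.head g.n2)
      linarith [b2.2.1])]
    intro h
    exact e2.2 (h.1 e1)

/-! ### the whole side -/

/-- the passage as one chain -/
theorem prs_pass {c a : ℂ} {k : ℕ} {g : ℂ × ℂ} {Pa Pb : List ℂ} (h : Pass S z0 q J k c a g Pa Pb) :
    prs (Pa ++ Pb) = prs Pa ++ g :: prs Pb := by
  have h1 := h.pa.last
  have h2 := h.pb.head
  have n1 := h.pa.ne
  cases Pb with
  | nil => simp at h2
  | cons y m =>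
    simp only [List.head?_cons, Option.some.injEq] at h2
    rw [List.getLast?_eq_some_getLast n1, Option.some.injEq] at h1
    have e : Pa = Pa.dropLast ++ [g.1] := by
      conv_lhs => rw [← List.dropLast_append_getLast n1, h1]
    have e2 : prs (Pa ++ y :: m) = prs Pa ++ prs (g.1 :: y :: m) := by
      conv_lhs => rw [e]
      rw [List.append_assoc, List.singleton_append, prs_append, ← e]
    rw [e2, prs_cons, h2]

theorem pass_head {c a : ℂ} {k : ℕ} {g : ℂ × ℂ} {Pa Pb : List ℂ}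
    (h : Pass S z0 q J k c a g Pa Pb) : (Pa ++ Pb).head? = some c := by
  rw [List.head?_append_of_ne_nil _ h.pa.ne]; exact h.pa.head

theorem pass_last {c a : ℂ} {k : ℕ} {g : ℂ × ℂ} {Pa Pb : List ℂ}
    (h : Pass S z0 q J k c a g Pa Pb) : (Pa ++ Pb).getLast? = some a := by
  rw [List.getLast?_append_of_ne_nil _ h.pb.ne]; exact h.pb.last

theorem pass_mem {c a : ℂ} {k : ℕ} {g : ℂ × ℂ} {Pa Pb : List ℂ}
    (h : Pass S z0 q J k c a g Pa Pb) {s : ℂ} (hs : s ∈ Pa ++ Pb) :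
    s ∈ A1 S z0 q ∧ 102 * q < Y z0 (ed k) s ∧ Y z0 (ed k) s < 141 * q := by
  rcases List.mem_append.1 hs with h1 | h1
  · have := h.pa.mem s h1
    exact ⟨this.1, this.2.2⟩
  · have := h.pb.mem s h1
    exact ⟨this.1, this.2.2⟩

/-- corner: the left arm of the side `k` and the right arm of the side `k + 1` -/
theorem corner (hq : 0 < q) (hS : GP (S : Set ℂ)) {k : ℕ} {x0 x1 : ℝ} {P Q : List ℂ} {β' : Finset ℂ}
    (hP : HC S z0 (ed k) (-(111 * q)) x1 (107 * q) (111 * q) (2 * q) β P) (h1 : -(107 * q) ≤ x1)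
    (hQ : HC S z0 (ed (k + 1)) x0 (111 * q) (107 * q) (111 * q) (2 * q) β' Q)
    (h0 : x0 ≤ 107 * q) : ∃ s, s ∈ P ∧ s ∈ Q := by
  refine cross_e hS (ed_ne k) hP.ne hQ.ne hP.adj hQ.adj (x0 := -(111 * q)) (x1 := -(107 * q))
    (y0 := 107 * q) (y1 := 111 * q) hP.strip (fun s hs => ?_) hP.left (h1.trans hP.right) ?_ ?_
  · have h := hQ.strip s hs
    rw [Y_succ] at h
    constructor <;> linarith
  · have h := hQ.left
    rw [X_succ] at h
    linarith
  · have h := hQ.right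
    rw [X_succ] at h
    linarith

end Crest.Agent.R143.XV5x796
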