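import Crest.Agent.R143.XV6_796

/-!
# Row 143, block X: closed chains through one gate (helper796)

`lamO` : a closed chain made of a horizontal chain above the box `k`, two vertical chains in the windows
and a piece of the loop which contains the gate `k`; `lamI` : the same below the box.
-/

set_option autoImplicit false

noncomputable section

open scoped Classical

namespace Crest.Agent.R143.XV7x796

open Crest.Agent.R143.B0x346 Crest.Agent.R143.DelGx806 Crest.Agent.R143.DelRx806
open Crest.Agent.R143.ToolWx838 Crest.Agent.R143.Blkx838 Crest.Agent.R143.ToolW2x838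
open Crest.Agent.R143.ToolW3x838 Crest.Agent.R143.Circ4x838 Crest.Agent.R143.Harx315
open Crest.Agent.R143.RB0x838 Crest.Agent.R143.CircPx838 Crest.Agent.R143.Gatex838
open Crest.Agent.R143.X0Bx683
open Crest.Agent.R143.XDx697 (AxE)
open Crest.Agent.R143.XV1x796 Crest.Agent.R143.XV2x796 Crest.Agent.R143.XV3x796
open Crest.Agent.R143.XG3x796 Crest.Agent.R143.XV5x796 Crest.Agent.R143.XV6x796

variable {S V : Finset ℂ} {z0 : ℂ} {q : ℝ} {β : Finset ℂ} {J : Finset (ℂ × ℂ)} {c : List ℂ}
  {gt : ZMod 3 → ℂ × ℂ} {Pa Pb : ZMod 3 → List ℂ}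

/-! ### winding in the coordinates of a side -/

theorem ang_map {e : ℂ} (he : e ≠ 0) (z0 x a b : ℂ) :
    ang ((x - z0) / e) ((a - z0) / e) ((b - z0) / e) = ang x a b := by
  unfold ang
  congr 1
  have h1 : (b - z0) / e - (x - z0) / e = (b - x) / e := by ring
  have h2 : (a - z0) / e - (x - z0) / e = (a - x) / e := by ring
  rw [h1, h2, div_div_div_cancel_right₀ he]

theorem asum_map {e : ℂ} (he : e ≠ 0) (z0 x : ℂ) (l : List ℂ) :
    asum ((x - z0) / e) (l.map fun s => (s - z0) / e) = asum x l := by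
  induction l with
  | nil => rfl
  | cons a l ih =>
    cases l with
    | nil => rfl
    | cons b l =>
      rw [List.map_cons] at ih
      rw [List.map_cons, List.map_cons, asum_cons, asum_cons, ang_map he, ih]

/-- closed chain through the four sides of a point, in the coordinates of the side `e` -/
theorem asum_glue_e {e z s1 s2 s3 s4 : ℂ} (he : e ≠ 0) {mT mL mB mR : List ℂ}
    (hT1 : mT.head? = some s1) (hT2 : mT.getLast? = some s2) (hL1 : mL.head? = some s2)
    (hL2 : mL.getLast? = some s3) (hB1 : mB.head? = some s3) (hB2 : mB.getLast? = some s4)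
    (hR1 : mR.head? = some s4) (hR2 : mR.getLast? = some s1)
    (hT : ∀ s ∈ mT, Y z0 e z < Y z0 e s) (hL : ∀ s ∈ mL, X z0 e s < X z0 e z)
    (hB : ∀ s ∈ mB, Y z0 e s < Y z0 e z) (hR : ∀ s ∈ mR, X z0 e z < X z0 e s) :
    asum z mT + asum z mL + asum z mB + asum z mR = 2 * Real.pi := by
  set f : ℂ → ℂ := fun s => (s - z0) / e with hf
  have hh : ∀ {m : List ℂ} {a : ℂ}, m.head? = some a → (m.map f).head? = some (f a) := by
    intro m a h
    rw [List.head?_map, h]; rfl
  have hl : ∀ {m : List ℂ} {a : ℂ}, m.getLast? = some a → (m.map f).getLast? = some (f a) := by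
    intro m a h
    rw [List.getLast?_map, h]; rfl
  have key := asum_glue (z := f z) (hh hT1) (hl hT2) (hh hL1) (hl hL2) (hh hB1) (hl hB2) (hh hR1)
    (hl hR2)
    (by
      intro s hs
      rw [List.mem_map] at hs
      obtain ⟨b, hb, rfl⟩ := hs
      exact hT b hb)
    (by
      intro s hs
      rw [List.mem_map] at hs
      obtain ⟨b, hb, rfl⟩ := hs
      exact hL b hb)
    (by
      intro s hs
      rw [List.mem_map] at hs
      obtain ⟨b, hb, rfl⟩ := hs
      exact hB b hb)
    (by
      intro s hs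
      rw [List.mem_map] at hs
      obtain ⟨b, hb, rfl⟩ := hs
      exact hR b hb)
  rw [asum_map he z0 z mT, asum_map he z0 z mL, asum_map he z0 z mB, asum_map he z0 z mR] at key
  exact key

/-- no winding below a chain -/
theorem asum_below {e z : ℂ} {l : List ℂ} {y : ℝ} (hl : l.head? = l.getLast?)
    (h : ∀ s ∈ l, y < Y z0 e s) (hz : Y z0 e z ≤ y) : asum z l = 0 := by
  refine asum_half_closed (u := e * Complex.I) hl fun a ha => ?_
  have h1 := h a ha
  have h2 : ((a - z) / (e * Complex.I)).re = Y z0 e a - Y z0 e z := by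
    have e1 : (a - z) / (e * Complex.I) = (a - z0) / e / Complex.I - (z - z0) / e / Complex.I := by
      rw [div_div, div_div]; ring
    rw [e1, Complex.sub_re, div_I_re, div_I_re]
    rfl
  rw [h2]
  linarith

/-- no winding outside a disc -/
theorem asum_far {z : ℂ} {l : List ℂ} {r : ℝ} (hl : l.head? = l.getLast?)
    (h : ∀ s ∈ l, ‖s - z0‖ < r) (hz : r ≤ ‖z - z0‖) : asum z l = 0 := by
  rcases eq_or_ne l [] with rfl | hne
  · rfl
  have hr : 0 < r := lt_of_le_of_lt (norm_nonneg _) (h _ (List.head_mem hne))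
  have hz0 : z - z0 ≠ 0 := by
    intro h0
    rw [h0, norm_zero] at hz
    linarith
  refine asum_half_closed (u := -(z - z0)) hl fun a ha => ?_
  have h1 := h a ha
  have e1 : (a - z) / -(z - z0) = 1 - (a - z0) / (z - z0) := by
    field_simp
    ring
  rw [e1, Complex.sub_re, Complex.one_re]
  have h2 : ((a - z0) / (z - z0)).re ≤ ‖(a - z0) / (z - z0)‖ := Complex.re_le_norm _
  rw [norm_div] at h2
  have h3 : ‖a - z0‖ / ‖z - z0‖ < 1 := by
    rw [div_lt_one (norm_pos_iff.2 hz0)]
    linarith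
  linarith

/-! ### the piece of the loop between two vertical chains -/

/-- piece of the loop from `CR` to `CL`, through the gate -/
structure Mid (S : Finset ℂ) (z0 : ℂ) (q : ℝ) (J : Finset (ℂ × ℂ)) (c : List ℂ) (k : ZMod 3)
    (g : ℂ × ℂ) (a b : ℂ) (A B : List ℂ) : Prop where
  a : Cn S J a g.1 (fun s => s ∈ c ∧ 102 * q < Y z0 (XDx697.ed k) s ∧
    Y z0 (XDx697.ed k) s < 141 * q) A
  b : Cn S J g.2 b (fun s => s ∈ c ∧ 102 * q < Y z0 (XDx697.ed k) s ∧
    Y z0 (XDx697.ed k) s < 141 * q) B
  ca : ∀ p ∈ prs A, p ∈ prs c ∨ p.swap ∈ prs c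
  cb : ∀ p ∈ prs B, p ∈ prs c ∨ p.swap ∈ prs c

theorem edz_ne (k : ZMod 3) : XDx697.ed k ≠ 0 := by
  rw [edz]; exact ed_ne _

theorem G3.gate_mem (h : G3 S z0 q J c gt Pa Pb) (k : ZMod 3) : gt k ∈ prs c := by
  rw [← List.count_pos_iff, (h.cnt k).1]; norm_num

theorem mid_exists (hS : GP (S : Set ℂ)) (hg : G3 S z0 q J c gt Pa Pb) (k : ZMod 3)
    {CL CR : List ℂ} {βL βR : Finset ℂ} {y0 y1 mL : ℝ} (h0 : y0 ≤ 102 * q) (h1 : 141 * q ≤ y1)
    (hL : VC S z0 (XDx697.ed k) (-(10 * q)) (-(6 * q)) y0 y1 mL βL CL)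
    (hR : VC S z0 (XDx697.ed k) (6 * q) (10 * q) y0 y1 mL βR CR) :
    ∃ a b A B, a ∈ CR ∧ b ∈ CL ∧ Mid S z0 q J c k (gt k) a b A B := by
  have hgd := hg.loop.del _ (G3.gate_mem hg k)
  -- the passage from the left to the right
  set F : List ℂ := (Pa k ++ Pb k).reverse with hF
  have e1 : Pa k = (Pa k).dropLast ++ [(gt k).1] := by
    have h1 := hg.a_last k
    rw [List.getLast?_eq_some_getLast (hg.a_ne k), Option.some.injEq] at h1
    conv_lhs => rw [← List.dropLast_append_getLast (hg.a_ne k), h1]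
  have eF : prs (Pa k ++ Pb k) = prs (Pa k) ++ gt k :: prs (Pb k) := by
    have h2 := hg.b_head k
    cases hb : Pb k with
    | nil => exact absurd hb (hg.b_ne k)
    | cons y m =>
      rw [hb, List.head?_cons, Option.some.injEq] at h2
      have e2 : prs (Pa k ++ y :: m) = prs (Pa k) ++ prs ((gt k).1 :: y :: m) := by
        conv_lhs => rw [e1]
        rw [List.append_assoc, List.singleton_append, prs_append, ← e1]
      rw [e2, prs_cons, h2]
  have hFn : F ≠ [] := by
    rw [hF]
    simp [hg.a_ne k]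
  have hFd : ∀ p ∈ prs F, DE S p.1 p.2 := by
    intro p hp
    rw [hF, prs_reverse, eF] at hp
    simp only [List.mem_reverse, List.mem_map, List.mem_append, List.mem_cons] at hp
    obtain ⟨r, hr | rfl | hr, rfl⟩ := hp
    · exact (hg.loop.del _ (hg.a_prs k r hr)).symm
    · exact hgd.symm
    · exact (hg.loop.del _ (hg.b_prs k r hr)).symm
  have hFy : ∀ s ∈ F, 102 * q < Y z0 (XDx697.ed k) s ∧ Y z0 (XDx697.ed k) s < 141 * q := by
    intro s hs
    rw [hF, List.mem_reverse, List.mem_append] at hs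
    rcases hs with hs | hs
    · exact (hg.a_mem k s hs).2.2
    · exact (hg.b_mem k s hs).2.2
  have hF0 : X z0 (XDx697.ed k) (F.head hFn) ≤ -(10 * q) := by
    refine hg.b_x k _ ?_
    rw [← List.head?_eq_some_head hFn, hF, List.head?_reverse,
      List.getLast?_append_of_ne_nil _ (hg.b_ne k)]
  have hF1 : 10 * q ≤ X z0 (XDx697.ed k) (F.getLast hFn) := by
    refine hg.a_x k _ ?_
    rw [← List.getLast?_eq_some_getLast hFn, hF, List.getLast?_reverse,
      List.head?_append_of_ne_nil _ (hg.a_ne k)]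
  have hq0 : 0 < q := by
    have := hFy _ (List.head_mem hFn)
    linarith
  obtain ⟨b, b1, b2⟩ := cross_e hS (edz_ne k) hFn hL.ne hFd hL.adj (x0 := -(10 * q))
    (x1 := -(6 * q)) (y0 := 102 * q) (y1 := 141 * q) hFy hL.strip hF0 (by linarith)
    (hL.left.trans h0) (h1.trans hL.right)
  obtain ⟨a, a1, a2⟩ := cross_e hS (edz_ne k) hFn hR.ne hFd hR.adj (x0 := 6 * q)
    (x1 := 10 * q) (y0 := 102 * q) (y1 := 141 * q) hFy hR.strip (by linarith) hF1
    (hR.left.trans h0) (h1.trans hR.right)
  have hb : b ∈ Pb k := by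
    rw [hF, List.mem_reverse, List.mem_append] at b1
    rcases b1 with h | h
    · have := (hg.a_mem k b h).2.1
      have := (hL.strip b b2).2
      linarith
    · exact h
  have ha : a ∈ Pa k := by
    rw [hF, List.mem_reverse, List.mem_append] at a1
    rcases a1 with h | h
    · exact h
    · have := (hg.b_mem k a h).2.1
      have := (hR.strip a a2).1
      linarith
  obtain ⟨A, hA⟩ := sub_chain ha (List.mem_of_getLast? (hg.a_last k))
  obtain ⟨B, hB⟩ := sub_chain (List.mem_of_head? (hg.b_head k)) hb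
  refine ⟨a, b, A, B, a2, b2, ⟨hA.head, hA.last, fun p hp => ?_, fun p hp => ?_, fun s hs => ?_⟩,
    ⟨hB.head, hB.last, fun p hp => ?_, fun p hp => ?_, fun s hs => ?_⟩, fun p hp => ?_,
    fun p hp => ?_⟩
  · rcases hA.prs p hp with h | h
    · exact hg.loop.del _ (hg.a_prs k p h)
    · exact (hg.loop.del _ (hg.a_prs k _ h)).symm
  · rcases hA.prs p hp with h | h
    · exact hg.a_free k p h
    · have := hg.a_free k _ h
      rw [Prod.swap_swap] at this
      exact this.symm
  · have := hg.a_mem k s (hA.mem s hs)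
    exact ⟨this.1, this.2.2⟩
  · rcases hB.prs p hp with h | h
    · exact hg.loop.del _ (hg.b_prs k p h)
    · exact (hg.loop.del _ (hg.b_prs k _ h)).symm
  · rcases hB.prs p hp with h | h
    · exact hg.b_free k p h
    · have := hg.b_free k _ h
      rw [Prod.swap_swap] at this
      exact this.symm
  · have := hg.b_mem k s (hB.mem s hs)
    exact ⟨this.1, this.2.2⟩
  · rcases hA.prs p hp with h | h
    · exact Or.inl (hg.a_prs k p h)
    · exact Or.inr (hg.a_prs k _ h)
  · rcases hB.prs p hp with h | h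
    · exact Or.inl (hg.b_prs k p h)
    · exact Or.inr (hg.b_prs k _ h)

end Crest.Agent.R143.XV7x796
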