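import Crest.Agent.R143.XV7_796

/-!
# Row 143, block X: closed chains through one gate, construction (helper796)

`lamO`, `lamI`
-/

set_option autoImplicit false

noncomputable section

open scoped Classical

namespace Crest.Agent.R143.XV8x796

open Crest.Agent.R143.B0x346 Crest.Agent.R143.DelGx806 Crest.Agent.R143.DelRx806
open Crest.Agent.R143.ToolWx838 Crest.Agent.R143.Blkx838 Crest.Agent.R143.ToolW2x838
open Crest.Agent.R143.ToolW3x838 Crest.Agent.R143.Circ4x838 Crest.Agent.R143.Harx315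
open Crest.Agent.R143.RB0x838 Crest.Agent.R143.CircPx838 Crest.Agent.R143.Gatex838
open Crest.Agent.R143.X0Bx683 Crest.Agent.R143.XGx343
open Crest.Agent.R143.XDx697 (AxE)
open Crest.Agent.R143.XV1x796 Crest.Agent.R143.XV2x796 Crest.Agent.R143.XV3x796
open Crest.Agent.R143.XG3x796 Crest.Agent.R143.XV5x796 Crest.Agent.R143.XV6x796
open Crest.Agent.R143.XV7x796

variable {S V : Finset ℂ} {z0 : ℂ} {q : ℝ} {β : Finset ℂ} {J : Finset (ℂ × ℂ)} {c : List ℂ}
  {gt : ZMod 3 → ℂ × ℂ} {Pa Pb : ZMod 3 → List ℂ}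

theorem prs_join {A B : List ℂ} {g : ℂ × ℂ} (hA : A.getLast? = some g.1)
    (hB : B.head? = some g.2) : prs (A ++ B) = prs A ++ g :: prs B := by
  have n1 : A ≠ [] := by rintro rfl; simp at hA
  cases B with
  | nil => simp at hB
  | cons y m =>
    simp only [List.head?_cons, Option.some.injEq] at hB
    rw [List.getLast?_eq_some_getLast n1, Option.some.injEq] at hA
    have e : A = A.dropLast ++ [g.1] := by
      conv_lhs => rw [← List.dropLast_append_getLast n1, hA]
    have e2 : prs (A ++ y :: m) = prs A ++ prs (g.1 :: y :: m) := by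
      conv_lhs => rw [e]
      rw [List.append_assoc, List.singleton_append, prs_append, ← e]
    rw [e2, prs_cons, hB]

/-- closed chain with one occupied edge apart from the pieces of `H`, `CL`, `CR` -/
structure Lam (S : Finset ℂ) (z0 : ℂ) (q : ℝ) (J : Finset (ℂ × ℂ)) (c : List ℂ) (e : ℂ)
    (g : ℂ × ℂ) (H CL CR l : List ℂ) (ya yb : ℝ) : Prop where
  loop : Loop S l
  mem : ∀ s ∈ l, s ∈ H ∨ s ∈ CL ∨ s ∈ CR ∨ (s ∈ c ∧ 102 * q < Y z0 e s ∧ Y z0 e s < 141 * q)
  prs : ∀ p ∈ prs l, Touch H p ∨ Touch CL p ∨ Touch CR p ∨ (Touch c p ∧ p ∉ J ∧ p.swap ∉ J) ∨ p = g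
  cnt : (ToolWx838.prs l).count g = 1
  ncnt : g.swap ∉ ToolWx838.prs l
  wind : ∀ z, |X z0 e z| ≤ 6 * q → ya ≤ Y z0 e z → Y z0 e z ≤ yb → asum z l = 2 * Real.pi

theorem not_prs {m : List ℂ} {g : ℂ × ℂ} (h : ¬ (g.1 ∈ m ∧ g.2 ∈ m)) :
    g ∉ prs m ∧ g.swap ∉ prs m :=
  ⟨fun h1 => h ⟨(mem_of_prs h1).1, (mem_of_prs h1).2⟩,
    fun h1 => h ⟨(mem_of_prs h1).2, (mem_of_prs h1).1⟩⟩

theorem not_free {m : List ℂ} {g : ℂ × ℂ} (h : JFree J m) (hg : g ∈ J) :
    g ∉ prs m ∧ g.swap ∉ prs m :=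
  ⟨fun h1 => (h _ h1).1 hg, fun h1 => (h _ h1).2 (by rw [Prod.swap_swap]; exact hg)⟩

/-- the four pieces form a closed chain -/
theorem glue_lam {e : ℂ} (he : e ≠ 0) {m1 m2 m3 m4 : List ℂ} {s1 s2 s3 s4 : ℂ}
    (h1 : m1.head? = some s1) (h1' : m1.getLast? = some s2) (h2 : m2.head? = some s2)
    (h2' : m2.getLast? = some s3) (h3 : m3.head? = some s3) (h3' : m3.getLast? = some s4)
    (h4 : m4.head? = some s4) (h4' : m4.getLast? = some s1) :
    ∃ l, l.head? = l.getLast? ∧ (∀ s ∈ l, s ∈ m1 ∨ s ∈ m2 ∨ s ∈ m3 ∨ s ∈ m4) ∧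
      prs l = prs m1 ++ prs m2 ++ prs m3 ++ prs m4 ∧
      ∀ z, (∀ s ∈ m1, Y z0 e z < Y z0 e s) → (∀ s ∈ m2, X z0 e s < X z0 e z) →
        (∀ s ∈ m3, Y z0 e s < Y z0 e z) → (∀ s ∈ m4, X z0 e z < X z0 e s) →
        asum z l = 2 * Real.pi := by
  have n1 : m1 ≠ [] := by rintro rfl; simp at h1
  have e2 : (cat m1 m2).getLast? = some s3 := by rw [cat_last h1' h2]; exact h2'
  have n2 : cat m1 m2 ≠ [] := by intro h; rw [h] at e2; simp at e2
  have e3 : (cat (cat m1 m2) m3).getLast? = some s4 := by rw [cat_last e2 h3]; exact h3'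
  have n3 : cat (cat m1 m2) m3 ≠ [] := by intro h; rw [h] at e3; simp at e3
  refine ⟨cat (cat (cat m1 m2) m3) m4, ?_, ?_, ?_, ?_⟩
  · rw [cat_last e3 h4, h4', cat_head n3, cat_head n2, cat_head n1, h1]
  · intro s hs
    rcases mem_cat hs with hs | hs
    · rcases mem_cat hs with hs | hs
      · rcases mem_cat hs with hs | hs
        · exact Or.inl hs
        · exact Or.inr (Or.inl hs)
      · exact Or.inr (Or.inr (Or.inl hs))
    · exact Or.inr (Or.inr (Or.inr hs))
  · rw [prs_cat e3 h4, prs_cat e2 h3, prs_cat h1' h2]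
  · intro z k1 k2 k3 k4
    rw [asum_cat e3 h4, asum_cat e2 h3, asum_cat h1' h2]
    exact asum_glue_e he h1 h1' h2 h2' h3 h3' h4 h4' k1 k2 k3 k4

theorem sub_touch {l m : List ℂ} {a b : ℂ} (h : Sub l a b m) {p : ℂ × ℂ} (hp : p ∈ prs m) :
    Touch l p := h.prs p hp

/-- **inner chain**: the horizontal chain `H` is below the loop -/
theorem lamI (hS : GP (S : Set ℂ)) (hg : G3 S z0 q J c gt Pa Pb) (k : ZMod 3)
    {H CL CR : List ℂ} {βH βL βR : Finset ℂ} {x0 x1 y0 y1 h0 h1 mL mH : ℝ}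
    (hL : VC S z0 (XDx697.ed k) (-(10 * q)) (-(6 * q)) y0 y1 mL βL CL)
    (hR : VC S z0 (XDx697.ed k) (6 * q) (10 * q) y0 y1 mL βR CR)
    (hH : HC S z0 (XDx697.ed k) x0 x1 h0 h1 mH βH H) (a0 : x0 ≤ -(10 * q)) (a1 : 10 * q ≤ x1)
    (b0 : y0 ≤ h0) (b1 : h0 ≤ h1) (b2 : h1 ≤ 102 * q) (b3 : 141 * q ≤ y1) (hq : 0 < q) :
    ∃ l, Lam S z0 q J c (XDx697.ed k) (gt k) H CL CR l h1 (102 * q) := by
  obtain ⟨a, b, A, B, ha, hb, hM⟩ := mid_exists hS hg k (by linarith) b3 hL hR
  obtain ⟨t1, t1a, t1b⟩ := hH.meet hS (edz_ne k) hL a0 (by linarith) b0 (by linarith)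
  obtain ⟨t2, t2a, t2b⟩ := hH.meet hS (edz_ne k) hR (by linarith) a1 b0 (by linarith)
  obtain ⟨mL', kL⟩ := sub_chain hb t1b
  obtain ⟨mH', kH⟩ := sub_chain t1a t2a
  obtain ⟨mR', kR⟩ := sub_chain t2b ha
  have hAB := prs_join hM.a.last hM.b.head
  have hpos := hg.g_pos k
  obtain ⟨l, l1, l2, l3, l4⟩ := glue_lam (z0 := z0) (edz_ne k) (m1 := A ++ B) (m2 := mL')
    (m3 := mH') (m4 := mR') (s1 := a) (s2 := b)
    (by rw [List.head?_append_of_ne_nil _ hM.a.ne]; exact hM.a.head)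
    (by rw [List.getLast?_append_of_ne_nil _ hM.b.ne]; exact hM.b.last)
    kL.head kL.last kH.head kH.last kR.head kR.last
  have nA := not_free hM.a.free (hg.occ k).1
  have nB := not_free hM.b.free (hg.occ k).1
  have nL : gt k ∉ prs mL' ∧ (gt k).swap ∉ prs mL' := not_prs (by
    rintro ⟨h1, -⟩
    have := (hL.strip _ (kL.mem _ h1)).2
    linarith [hpos.1.1])
  have nR : gt k ∉ prs mR' ∧ (gt k).swap ∉ prs mR' := not_prs (by
    rintro ⟨-, h1⟩
    have := (hR.strip _ (kR.mem _ h1)).1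
    linarith [hpos.2.2.1])
  have nH : gt k ∉ prs mH' ∧ (gt k).swap ∉ prs mH' := not_prs (by
    rintro ⟨h1, -⟩
    have := (hH.strip _ (kH.mem _ h1)).2
    linarith [hpos.1.2.2.1])
  have gne : (gt k).swap ≠ gt k := by
    intro h
    have := (hg.cnt k).2
    rw [h] at this
    exact this (G3.gate_mem hg k)
  refine ⟨l, ⟨l1, fun p hp => ?_⟩, fun s hs => ?_, fun p hp => ?_, ?_, ?_, fun z hz1 hz2 hz3 => ?_⟩
  · rw [l3, hAB] at hp
    simp only [List.mem_append, List.mem_cons] at hp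
    rcases hp with (((hp | rfl | hp) | hp) | hp) | hp
    · exact hM.a.adj p hp
    · exact hg.loop.del _ (G3.gate_mem hg k)
    · exact hM.b.adj p hp
    · rcases kL.prs p hp with h | h
      · exact hL.adj p h
      · exact (hL.adj _ h).symm
    · rcases kH.prs p hp with h | h
      · exact hH.adj p h
      · exact (hH.adj _ h).symm
    · rcases kR.prs p hp with h | h
      · exact hR.adj p h
      · exact (hR.adj _ h).symm
  · rcases l2 s hs with h | h | h | h
    · refine Or.inr (Or.inr (Or.inr ?_))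
      rcases List.mem_append.1 h with h | h
      · exact hM.a.mem s h
      · exact hM.b.mem s h
    · exact Or.inr (Or.inl (kL.mem s h))
    · exact Or.inl (kH.mem s h)
    · exact Or.inr (Or.inr (Or.inl (kR.mem s h)))
  · rw [l3, hAB] at hp
    simp only [List.mem_append, List.mem_cons] at hp
    rcases hp with (((hp | rfl | hp) | hp) | hp) | hp
    · exact Or.inr (Or.inr (Or.inr (Or.inl ⟨hM.ca p hp, hM.a.free p hp⟩)))
    · exact Or.inr (Or.inr (Or.inr (Or.inr rfl)))
    · exact Or.inr (Or.inr (Or.inr (Or.inl ⟨hM.cb p hp, hM.b.free p hp⟩)))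
    · exact Or.inr (Or.inl (sub_touch kL hp))
    · exact Or.inl (sub_touch kH hp)
    · exact Or.inr (Or.inr (Or.inl (sub_touch kR hp)))
  · rw [l3, hAB]
    simp only [List.count_append, List.count_cons_self]
    rw [List.count_eq_zero_of_not_mem nA.1, List.count_eq_zero_of_not_mem nB.1,
      List.count_eq_zero_of_not_mem nL.1, List.count_eq_zero_of_not_mem nR.1,
      List.count_eq_zero_of_not_mem nH.1]
  · rw [l3, hAB]
    simp only [List.mem_append, List.mem_cons, not_or]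
    exact ⟨⟨⟨⟨nA.2, gne, nB.2⟩, nL.2⟩, nH.2⟩, nR.2⟩
  · rw [abs_le] at hz1
    refine l4 z (fun s hs => ?_) (fun s hs => ?_) (fun s hs => ?_) (fun s hs => ?_)
    · rcases List.mem_append.1 hs with h | h
      · have := (hM.a.mem s h).2.1
        linarith
      · have := (hM.b.mem s h).2.1
        linarith
    · have := (hL.strip s (kL.mem s hs)).2
      linarith
    · have := (hH.strip s (kH.mem s hs)).2
      linarith
    · have := (hR.strip s (kR.mem s hs)).1
      linarith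

/-- **outer chain**: the horizontal chain `H` is above the loop -/
theorem lamO (hS : GP (S : Set ℂ)) (hg : G3 S z0 q J c gt Pa Pb) (k : ZMod 3)
    {H CL CR : List ℂ} {βH βL βR : Finset ℂ} {x0 x1 y0 y1 h0 h1 mL mH : ℝ}
    (hL : VC S z0 (XDx697.ed k) (-(10 * q)) (-(6 * q)) y0 y1 mL βL CL)
    (hR : VC S z0 (XDx697.ed k) (6 * q) (10 * q) y0 y1 mL βR CR)
    (hH : HC S z0 (XDx697.ed k) x0 x1 h0 h1 mH βH H) (a0 : x0 ≤ -(10 * q)) (a1 : 10 * q ≤ x1)
    (b0 : y0 ≤ 102 * q) (b1 : 141 * q ≤ h0) (b2 : h0 ≤ h1) (b3 : h1 ≤ y1) (hq : 0 < q) :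
    ∃ l, Lam S z0 q J c (XDx697.ed k) (gt k).swap H CL CR l (141 * q) h0 := by
  obtain ⟨a, b, A, B, ha, hb, hM⟩ := mid_exists hS hg k b0 (by linarith) hL hR
  obtain ⟨t1, t1a, t1b⟩ := hH.meet hS (edz_ne k) hL a0 (by linarith) (by linarith) b3
  obtain ⟨t2, t2a, t2b⟩ := hH.meet hS (edz_ne k) hR (by linarith) a1 (by linarith) b3
  obtain ⟨mL', kL⟩ := sub_chain t1b hb
  obtain ⟨mH', kH⟩ := sub_chain t2a t1a
  obtain ⟨mR', kR⟩ := sub_chain ha t2b
  have hAB : prs (A ++ B).reverse =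
      ((prs B).map Prod.swap).reverse ++ ((gt k).swap :: ((prs A).map Prod.swap).reverse) := by
    rw [prs_reverse, prs_join hM.a.last hM.b.head]
    simp
  have hpos := hg.g_pos k
  obtain ⟨l, l1, l2, l3, l4⟩ := glue_lam (z0 := z0) (edz_ne k) (m1 := mH') (m2 := mL')
    (m3 := (A ++ B).reverse) (m4 := mR') kH.head kH.last kL.head kL.last
    (by rw [List.head?_reverse, List.getLast?_append_of_ne_nil _ hM.b.ne]; exact hM.b.last)
    (by rw [List.getLast?_reverse, List.head?_append_of_ne_nil _ hM.a.ne]; exact hM.a.head)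
    kR.head kR.last
  have nA := not_free hM.a.free (hg.occ k).1
  have nB := not_free hM.b.free (hg.occ k).1
  have nL : gt k ∉ prs mL' ∧ (gt k).swap ∉ prs mL' := not_prs (by
    rintro ⟨h1, -⟩
    have := (hL.strip _ (kL.mem _ h1)).2
    linarith [hpos.1.1])
  have nR : gt k ∉ prs mR' ∧ (gt k).swap ∉ prs mR' := not_prs (by
    rintro ⟨-, h1⟩
    have := (hR.strip _ (kR.mem _ h1)).1
    linarith [hpos.2.2.1])
  have nH : gt k ∉ prs mH' ∧ (gt k).swap ∉ prs mH' := not_prs (by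
    rintro ⟨h1, -⟩
    have := (hH.strip _ (kH.mem _ h1)).1
    linarith [hpos.1.2.2.2])
  have gne : gt k ≠ (gt k).swap := by
    intro h
    have := (hg.cnt k).2
    rw [← h] at this
    exact this (G3.gate_mem hg k)
  have sw : ∀ (m : List (ℂ × ℂ)) (p : ℂ × ℂ), p ∈ (m.map Prod.swap).reverse ↔ p.swap ∈ m := by
    intro m p
    simp only [List.mem_reverse, List.mem_map]
    constructor
    · rintro ⟨r, hr, rfl⟩
      rw [Prod.swap_swap]; exact hr
    · intro h
      exact ⟨_, h, Prod.swap_swap p⟩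
  refine ⟨l, ⟨l1, fun p hp => ?_⟩, fun s hs => ?_, fun p hp => ?_, ?_, ?_, fun z hz1 hz2 hz3 => ?_⟩
  · rw [l3, hAB] at hp
    simp only [List.mem_append, List.mem_cons] at hp
    rcases hp with ((hp | hp) | hp | rfl | hp) | hp
    · rcases kH.prs p hp with h | h
      · exact hH.adj p h
      · exact (hH.adj _ h).symm
    · rcases kL.prs p hp with h | h
      · exact hL.adj p h
      · exact (hL.adj _ h).symm
    · exact (hM.b.adj _ ((sw _ _).1 hp)).symm
    · exact (hg.loop.del _ (G3.gate_mem hg k)).symm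
    · exact (hM.a.adj _ ((sw _ _).1 hp)).symm
    · rcases kR.prs p hp with h | h
      · exact hR.adj p h
      · exact (hR.adj _ h).symm
  · rcases l2 s hs with h | h | h | h
    · exact Or.inl (kH.mem s h)
    · exact Or.inr (Or.inl (kL.mem s h))
    · refine Or.inr (Or.inr (Or.inr ?_))
      rw [List.mem_reverse] at h
      rcases List.mem_append.1 h with h | h
      · exact hM.a.mem s h
      · exact hM.b.mem s h
    · exact Or.inr (Or.inr (Or.inl (kR.mem s h)))
  · rw [l3, hAB] at hp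
    simp only [List.mem_append, List.mem_cons] at hp
    have fr : ∀ m : List ℂ, (∀ p ∈ prs m, p ∈ prs c ∨ p.swap ∈ prs c) → JFree J m →
        p.swap ∈ prs m → Touch c p ∧ p ∉ J ∧ p.swap ∉ J := by
      intro m h1 h2 h3
      have h4 := h1 _ h3
      have h5 := h2 _ h3
      rw [Prod.swap_swap] at h4 h5
      exact ⟨h4.symm, h5.2, h5.1⟩
    rcases hp with ((hp | hp) | hp | rfl | hp) | hp
    · exact Or.inl (sub_touch kH hp)
    · exact Or.inr (Or.inl (sub_touch kL hp))
    · exact Or.inr (Or.inr (Or.inr (Or.inl (fr B hM.cb hM.b.free ((sw _ _).1 hp)))))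
    · exact Or.inr (Or.inr (Or.inr (Or.inr rfl)))
    · exact Or.inr (Or.inr (Or.inr (Or.inl (fr A hM.ca hM.a.free ((sw _ _).1 hp)))))
    · exact Or.inr (Or.inr (Or.inl (sub_touch kR hp)))
  · rw [l3, hAB]
    simp only [List.count_append, List.count_cons_self]
    rw [List.count_eq_zero_of_not_mem nH.2, List.count_eq_zero_of_not_mem nL.2,
      List.count_eq_zero_of_not_mem nR.2,
      List.count_eq_zero_of_not_mem (a := (gt k).swap) (l := ((prs B).map Prod.swap).reverse)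
        (fun h => nB.1 (by have := (sw _ _).1 h; rwa [Prod.swap_swap] at this)),
      List.count_eq_zero_of_not_mem (a := (gt k).swap) (l := ((prs A).map Prod.swap).reverse)
        (fun h => nA.1 (by have := (sw _ _).1 h; rwa [Prod.swap_swap] at this))]
  · rw [l3, hAB, Prod.swap_swap]
    simp only [List.mem_append, List.mem_cons, not_or]
    exact ⟨⟨⟨nH.1, nL.1⟩, fun h => nB.2 ((sw _ _).1 h), gne, fun h => nA.2 ((sw _ _).1 h)⟩, nR.1⟩
  · rw [abs_le] at hz1
    refine l4 z (fun s hs => ?_) (fun s hs => ?_) (fun s hs => ?_) (fun s hs => ?_)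
    · have := (hH.strip s (kH.mem s hs)).1
      linarith
    · have := (hL.strip s (kL.mem s hs)).2
      linarith
    · rw [List.mem_reverse] at hs
      rcases List.mem_append.1 hs with h | h
      · have := (hM.a.mem s h).2.2
        linarith
      · have := (hM.b.mem s h).2.2
        linarith
    · have := (hR.strip s (kR.mem s hs)).1
      linarith

end Crest.Agent.R143.XV8x796
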