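import Crest.Agent.R143.XW9_315

/-!
# R143, block X, winding tail XW (helper315), part 10: the winding tail

* `xw` : exponential moment of the rotation, uniform in the environment, the domain and the face
* `xw_X` : the winding polynomial is at most `exp (log (1 / ε) ^ C0)` on `[exp (-s0), exp s0]`
* `xw_tail` : the tail of the rotation
-/

set_option autoImplicit false

noncomputable section

open scoped Classical

namespace Crest.Agent.R143.XWx315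

open Filter Topology
open Crest.ProbabilityR.Voronoi
open Crest.Agent.R143.B0x346 Crest.Agent.R143.B0Dx346
open Crest.Agent.R143.PP1x831 Crest.Agent.R143.Y0x831
open Crest.Agent.R143.Planarx54 Crest.Agent.R143.Planar2x54
open Crest.Agent.R143.XW8x315 Crest.Agent.R143.XW9x315
open Crest.Agent.R143.RB0x838
open Crest.Agent.R143.B6Ix903 Crest.Agent.R143.B6cx903
open Crest.Agent.R143.TRx927 (crd)
open Crest.Agent.R143.B1bx796 (touch)

/-! ### small meshes -/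

theorem ev_log (M : ℝ) : ∀ᶠ ε : ℝ in 𝓝[>] 0, M ≤ Real.log (1 / ε) :=
  TRx927.log_inv_tendsto.eventually_ge_atTop M

/-- the numbers for small meshes -/
theorem ev_num (π : Par) {δ κ c1 K1 lam ρ1 ρ2 : ℝ} (hδ : 0 < δ) (hκ : 0 < κ)
    (hκ1 : κ < 1) (hK : 0 < K1) (hc1 : 0 < c1) (hl0 : 0 < lam) (hl1 : lam ≤ 1 / 64)
    (hlK : lam * (K1 + 2) ≤ 1 / 8) (hρ2 : 0 < ρ2) (h2K : 30 * (K1 + 2) * ρ2 ≤ ρ1)
    (h2δ : 40 * ρ2 ≤ δ) (h1R : 64 * ρ1 ≤ π.R) (h1m : 64 * ρ1 ≤ π.m) (h11 : 64 * ρ1 ≤ 1) :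
    ∀ᶠ ε : ℝ in 𝓝[>] 0,
      Num π δ κ ε c1 K1 lam (ε * Real.log (1 / ε) ^ (π.a + 1)) ρ1 ρ2 := by
  have hC := π.Cpos
  have ha := π.apos
  have hL := π.Lpos
  have hρ1 : 0 < ρ1 := lt_of_lt_of_le (by positivity) h2K
  have hB : 0 < δ ^ 2 / (400 * π.L) := by positivity
  filter_upwards [ev_unit, ev_log 1, ev_log (1 / lam), ev_log ((8 * π.C / lam) ^ 2),
    ev_log ((π.C / (c1 * lam)) ^ 2), small_log (π.a + 1) 0 ρ2 one_pos hρ2,
    TRx927.rad_small π.C hB, ev_small hκ (show 0 < ρ1 / 8 by positivity)]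
    with ε h0 u1 u2 u3 u4 h3 h4 h5
  set u := Real.log (1 / ε) with hu
  have hε := h0.1
  have hu0 : 0 < u := by linarith
  have hsq : 0 ≤ Real.sqrt u := Real.sqrt_nonneg u
  have hsq2 : Real.sqrt u * Real.sqrt u = u := Real.mul_self_sqrt hu0.le
  have hua : 1 ≤ u ^ π.a := Real.one_le_rpow u1 ha.le
  have hpow : u ^ (π.a + 1) = u ^ π.a * u := by
    rw [Real.rpow_add hu0, Real.rpow_one]
  have hup : u ≤ u ^ (π.a + 1) := by
    rw [hpow]
    exact le_mul_of_one_le_left hu0.le hua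
  have hrad : rad π.C ε = π.C * ε * Real.sqrt u := rfl
  refine ⟨hK, hc1, hl0, hl1, hlK, by positivity, ?_, h2K, h2δ, h1R, h1m, h11, ?_, ?_, ?_, ?_, ?_⟩
  · rw [Real.rpow_zero, mul_one] at h3
    exact h3
  · -- `d ≤ lam ρ0 / 8`
    have h6 : 8 * π.C / lam ≤ Real.sqrt u := by
      have : 0 ≤ 8 * π.C / lam := by positivity
      exact Real.le_sqrt_of_sq_le u3
    rw [div_le_iff₀ hl0] at h6
    have h7 : π.C * Real.sqrt u ≤ lam / 8 * u := by
      have h8 : 8 * π.C * Real.sqrt u ≤ Real.sqrt u * lam * Real.sqrt u :=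
        mul_le_mul_of_nonneg_right h6 hsq
      have h9 : Real.sqrt u * lam * Real.sqrt u = lam * u := by
        rw [mul_comm (Real.sqrt u) lam, mul_assoc, hsq2]
      linarith
    have h8 : lam / 8 * u ≤ lam / 8 * u ^ (π.a + 1) :=
      mul_le_mul_of_nonneg_left hup (by positivity)
    rw [hrad]
    calc π.C * ε * Real.sqrt u = ε * (π.C * Real.sqrt u) := by ring
      _ ≤ ε * (lam / 8 * u ^ (π.a + 1)) := mul_le_mul_of_nonneg_left (h7.trans h8) hε.le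
      _ = lam * (ε * u ^ (π.a + 1)) / 8 := by ring
  · have h6 : π.C / (c1 * lam) ≤ Real.sqrt u := Real.le_sqrt_of_sq_le u4
    rw [div_le_iff₀ (by positivity)] at h6
    have h7 : π.C * Real.sqrt u ≤ c1 * lam * u := by
      have h8 : π.C * Real.sqrt u ≤ Real.sqrt u * (c1 * lam) * Real.sqrt u :=
        mul_le_mul_of_nonneg_right h6 hsq
      have h9 : Real.sqrt u * (c1 * lam) * Real.sqrt u = c1 * lam * u := by
        rw [mul_comm (Real.sqrt u) (c1 * lam), mul_assoc, hsq2]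
      linarith
    have h8 : c1 * lam * u ≤ c1 * lam * u ^ (π.a + 1) :=
      mul_le_mul_of_nonneg_left hup (by positivity)
    rw [hrad]
    calc π.C * ε * Real.sqrt u = ε * (π.C * Real.sqrt u) := by ring
      _ ≤ ε * (c1 * lam * u ^ (π.a + 1)) := mul_le_mul_of_nonneg_left (h7.trans h8) hε.le
      _ = c1 * (lam * (ε * u ^ (π.a + 1))) := by ring
  · rw [div_le_iff₀ hl0] at u2
    rw [hpow]
    calc ε * u ^ π.a = ε * u ^ π.a * 1 := by ring
      _ ≤ ε * u ^ π.a * (u * lam) := mul_le_mul_of_nonneg_left u2 (by positivity)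
      _ = lam * (ε * (u ^ π.a * u)) := by ring
  · rw [lt_div_iff₀ (by positivity)] at h4
    linarith
  · linarith

/-- number of the scales -/
theorem scales {ε lam ρ0 ρ1 : ℝ} (hε : 0 < ε) (hl : 0 < lam) (hρ0 : ε ≤ ρ0) (hρ : ρ0 ≤ 3 * ρ1)
    (h1 : 3 * ρ1 ≤ 1) : ∃ J0 : ℕ, (∀ j < J0, ρ0 * (1 + lam / 2) ^ j ≤ 3 * ρ1) ∧
      3 * ρ1 < ρ0 * (1 + lam / 2) ^ J0 ∧
      (J0 : ℝ) ≤ Real.log (1 / ε) / Real.log (1 + lam / 2) + 1 := by
  have h0 : 0 < ρ0 := lt_of_lt_of_le hε hρ0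
  have hy : 1 < 1 + lam / 2 := by linarith
  obtain ⟨N, hN1, hN2⟩ := exists_nat_pow_near (x := 3 * ρ1 / ρ0) (y := 1 + lam / 2)
    (by rw [one_le_div h0]; exact hρ) hy
  refine ⟨N + 1, ?_, ?_, ?_⟩
  · intro j hj
    have h2 : (1 + lam / 2) ^ j ≤ (1 + lam / 2) ^ N := pow_le_pow_right₀ hy.le (by omega)
    have h3 := h2.trans hN1
    rw [le_div_iff₀ h0] at h3
    linarith
  · rw [div_lt_iff₀ h0] at hN2
    linarith
  · have hlog : 0 < Real.log (1 + lam / 2) := Real.log_pos hy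
    have h2 : (N : ℝ) * Real.log (1 + lam / 2) ≤ Real.log (1 / ε) := by
      rw [← Real.log_pow]
      apply Real.log_le_log (by positivity)
      refine hN1.trans ?_
      rw [div_le_div_iff₀ h0 hε]
      have := mul_le_mul h1 hρ0 hε.le one_pos.le
      exact this
    push_cast
    have h3 : (N : ℝ) ≤ Real.log (1 / ε) / Real.log (1 + lam / 2) := by
      rw [le_div_iff₀ hlog]; exact h2
    linarith

/-! ### the theorem -/

set_option maxHeartbeats 1000000 in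
/-- **the winding tail** -/
theorem xw (hRB : RB) (π : Par) {δ : ℝ} (hδ : 0 < δ) {κ : ℝ} (hκ : 0 < κ) (hκ1 : κ < 1)
    {A1 : ℝ} (hA1 : 0 ≤ A1) :
    ∃ s0 C0 : ℝ, 0 < s0 ∧ 0 < C0 ∧ ∀ᶠ ε : ℝ in 𝓝[>] 0, ∀ (D : Dom) (ω : Sample) (z : ℂ),
      At π δ ε D ω z → ∀ t ∈ touch z (ε ^ κ) (D.sites ε ω), ∀ (x : ℂ) (lf : ℤ → ℝ) (a0 : ℝ),
        InO' x t → Lift (net D ε ω) x lf → |a0 - lf 0| ≤ A1 →
        ∑ J ∈ ((net D ε ω).tj t).filter (fun J => ∃ k, (net D ε ω).TriK t x lf a0 k J),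
          Real.exp (s0 * |(rotK (net D ε ω) t x lf a0 J : ℝ)|) ≤
        (((net D ε ω).tj t).card : ℝ) * Real.exp (crd C0 ε) := by
  obtain ⟨C1, c1, K1, hC1, hc1, hK1, hcirc⟩ := XW6x315.circ_good hRB
  have hpi := Real.pi_pos
  have hR := π.Rpos
  have hm := π.mpos
  have hC4 := π.C4pos
  have ha := π.apos
  have hC := π.Cpos
  have hK := π.Kpos
  set c0 : ℝ := Real.exp (-C1 * (1 + 36 * π.C4)) with hc0d
  have hc0 : 0 < c0 := Real.exp_pos _
  have hc01 : c0 < 1 := by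
    rw [hc0d, Real.exp_lt_one_iff]
    have : 0 < C1 * (1 + 36 * π.C4) := by positivity
    linarith
  set ρ1 : ℝ := min (min π.R π.m) 1 / 64 with hρ1
  have hmin : 0 < min (min π.R π.m) 1 := lt_min (lt_min hR hm) one_pos
  have hρ1pos : 0 < ρ1 := by rw [hρ1]; positivity
  have h1R : 64 * ρ1 ≤ π.R := by
    rw [hρ1]
    have := (min_le_left (min π.R π.m) 1).trans (min_le_left _ _)
    linarith
  have h1m : 64 * ρ1 ≤ π.m := by
    rw [hρ1]
    have := (min_le_left (min π.R π.m) 1).trans (min_le_right _ _)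
    linarith
  have h11 : 64 * ρ1 ≤ 1 := by
    rw [hρ1]
    have := min_le_right (min π.R π.m) 1
    linarith
  set ρ2 : ℝ := min (ρ1 / (30 * (K1 + 2))) (δ / 40) with hρ2
  have hρ2pos : 0 < ρ2 := lt_min (by positivity) (by positivity)
  have h2K : 30 * (K1 + 2) * ρ2 ≤ ρ1 := by
    have h1 : ρ2 ≤ ρ1 / (30 * (K1 + 2)) := min_le_left _ _
    rw [le_div_iff₀ (by positivity)] at h1
    linarith
  have h2δ : 40 * ρ2 ≤ δ := by
    have h1 : ρ2 ≤ δ / 40 := min_le_right _ _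
    linarith
  have h21 : ρ2 ≤ ρ1 := by
    have h3 : 0 < K1 * ρ2 := by positivity
    have e0 : 30 * (K1 + 2) * ρ2 = 30 * (K1 * ρ2) + 60 * ρ2 := by ring
    linarith
  set lam : ℝ := min (1 / 64) (1 / (8 * (K1 + 2))) with hlam
  have hl0 : 0 < lam := lt_min (by norm_num) (by positivity)
  have hl1 : lam ≤ 1 / 64 := min_le_left _ _
  have hlK : lam * (K1 + 2) ≤ 1 / 8 := by
    have h1 : lam ≤ 1 / (8 * (K1 + 2)) := min_le_right _ _
    rw [le_div_iff₀ (by positivity)] at h1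
    linarith
  set n0 : ℕ := ⌈(16 * π.L / (ρ2 / 2) + 3) ^ 2 + 2 +
      ((⌈3 * Real.pi * π.L / (4 * (ρ2 / 2))⌉₊ : ℝ) + 2)⌉₊ with hn0
  have hn0' := Nat.le_ceil ((16 * π.L / (ρ2 / 2) + 3) ^ 2 + 2 +
      ((⌈3 * Real.pi * π.L / (4 * (ρ2 / 2))⌉₊ : ℝ) + 2))
  rw [← hn0] at hn0'
  set M1 : ℝ := Real.pi * (n0 + 1) with hM1
  have hM1pos : 0 < M1 := by rw [hM1]; positivity
  set m : ℝ := 9 / (2 * Real.pi) * (Real.pi + 2 * M1) with hm'
  have hmpos : 0 < m := by rw [hm']; positivity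
  have hn : (0 : ℝ) < ((32 + n0 : ℕ) : ℝ) := by positivity
  have hlogp : Real.log (1 - c0) < 0 := Real.log_neg (by linarith) (by linarith)
  set s0 : ℝ := -Real.log (1 - c0) / (4 * (m * ((32 + n0 : ℕ) : ℝ))) with hs0
  have hs0pos : 0 < s0 := by
    rw [hs0]
    have : 0 < -Real.log (1 - c0) := by linarith
    positivity
  have hsmn : s0 * m * ((32 + n0 : ℕ) : ℝ) = -Real.log (1 - c0) / 4 := by
    rw [hs0]; field_simp
  have hexp : Real.exp (s0 * m * ((32 + n0 : ℕ) : ℝ)) ^ 2 * (1 - c0) =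
      Real.exp (Real.log (1 - c0) / 2) := by
    have h1 : (1 - c0) = Real.exp (Real.log (1 - c0)) := (Real.exp_log (by linarith)).symm
    rw [hsmn]
    nth_rewrite 2 [h1]
    rw [← Real.exp_nat_mul, ← Real.exp_add]
    congr 1
    push_cast
    ring
  have hexp1 : Real.exp (Real.log (1 - c0) / 2) < 1 := by
    rw [Real.exp_lt_one_iff]; linarith
  set G : ℝ := 1 / (1 - Real.exp (Real.log (1 - c0) / 2)) with hG
  have hG1 : 1 ≤ G := by
    rw [hG, le_div_iff₀ (by linarith)]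
    linarith [Real.exp_pos (Real.log (1 - c0) / 2)]
  have hGpos : 0 < G := by linarith
  have hlogG : 0 ≤ Real.log G := Real.log_nonneg hG1
  set ly : ℝ := Real.log (1 + lam / 2) with hly
  have hlypos : 0 < ly := Real.log_pos (by linarith)
  -- the constant
  set B1 : ℝ := (8 / π.C + 3) ^ 2 * π.K with hB1
  set B2 : ℝ := 1 / ly + n0 + 2 with hB2
  set B3 : ℝ := 3 / (2 * Real.pi) * (2 * M1 + 4 * Real.pi + A1) with hB3
  have hB1pos : 0 < B1 := by rw [hB1]; positivity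
  have hB2pos : 0 < B2 := by rw [hB2]; positivity
  have hB3pos : 0 < B3 := by rw [hB3]; positivity
  set Cst : ℝ := Real.log ((32 + n0 : ℕ) : ℝ) + (s0 * m * (B1 + B2) + s0 * B3) +
    Real.log G * B2 with hCst
  have hlogn : 0 ≤ Real.log ((32 + n0 : ℕ) : ℝ) := by
    apply Real.log_nonneg
    have : 1 ≤ 32 + n0 := by omega
    exact_mod_cast this
  have hCst0 : 0 ≤ Cst := by rw [hCst]; positivity
  refine ⟨s0, 2 * π.a + 4, hs0pos, by positivity, ?_⟩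
  filter_upwards [ev_unit, ev_sm π hδ hκ hκ1, ev_num π hδ hκ hκ1 hK1 hc1 hl0 hl1 hlK hρ2pos h2K
    h2δ h1R h1m h11, ev_log 1, ev_log Cst] with ε hε hs hnum u1 u2
  intro D ω z h t ht x lf a0 hx hl ha0
  set u := Real.log (1 / ε) with hu
  have hu0 : 0 < u := by linarith
  set ρ0 : ℝ := ε * u ^ (π.a + 1) with hρ0
  have hupow : 1 ≤ u ^ (π.a + 1) := Real.one_le_rpow u1 (by linarith)
  have hρ0ε : ε ≤ ρ0 := by
    rw [hρ0]
    exact le_mul_of_one_le_right hε.1.le hupow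
  obtain ⟨J0, hJ1, hJ2, hJ3⟩ := scales hε.1 hl0 hρ0ε
    (show ρ0 ≤ 3 * ρ1 by linarith [hnum.r02]) (by linarith)
  rw [← hu, ← hly] at hJ3
  -- the circuits
  have hg := geo h hs hnum ht hx
  have hcrc : Crc π ε D ω c0 c1 K1 := by
    intro w b hb h1 h2 h3 h4 h5
    exact hcirc D ε π.C π.K π.a π.C4 ω w b h.good hs.d hC4.le hg.dns hb h1 h2 h3 h4 h5
  have hsp : Real.exp (s0 * m * ((32 + n0 : ℕ) : ℝ)) ^ 2 * (1 - c0) < 1 := by
    rw [hexp]; exact hexp1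
  have key := wind_at h hs hnum hcrc hc01.le hJ1 hJ2 hn0' ht hx hl (a0 := a0) hs0pos.le hM1 hm' hsp
  refine key.trans (mul_le_mul_of_nonneg_left ?_ (Nat.cast_nonneg _))
  rw [hexp, ← hG, ← hu]
  -- numbers
  set v : ℝ := u ^ (2 * π.a + 3) with hv
  have hv1 : 1 ≤ v := Real.one_le_rpow u1 (by linarith)
  have huv : u ≤ v := by
    have : u ^ (1 : ℝ) ≤ u ^ (2 * π.a + 3) :=
      Real.rpow_le_rpow_of_exponent_le u1 (by linarith)
    rwa [Real.rpow_one] at this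
  have hcc : (4 * (2 * ρ0) / rad π.C ε + 3) ^ 2 * (π.K * u) ≤ B1 * v := by
    have hrad : rad π.C ε = π.C * ε * Real.sqrt u := rfl
    have hsq1 : 1 ≤ Real.sqrt u := by
      rw [Real.one_le_sqrt]; exact u1
    have h1 : 4 * (2 * ρ0) / rad π.C ε ≤ 8 / π.C * u ^ (π.a + 1) := by
      rw [hrad, hρ0]
      have hε0 := hε.1
      rw [div_le_iff₀ (by positivity)]
      have h2 : 8 / π.C * u ^ (π.a + 1) * (π.C * ε * Real.sqrt u) =
          8 * (ε * u ^ (π.a + 1)) * Real.sqrt u := by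
        field_simp
      rw [h2]
      have h3 : 0 ≤ 8 * (ε * u ^ (π.a + 1)) := by positivity
      have h4 := le_mul_of_one_le_right h3 hsq1
      calc 4 * (2 * (ε * u ^ (π.a + 1))) = 8 * (ε * u ^ (π.a + 1)) := by ring
        _ ≤ _ := h4
    have h0 : 0 ≤ 4 * (2 * ρ0) / rad π.C ε := by
      have h3 := hs.d
      have h4 := hε.1
      positivity
    have h2 : 4 * (2 * ρ0) / rad π.C ε + 3 ≤ (8 / π.C + 3) * u ^ (π.a + 1) := by
      have : (8 / π.C + 3) * u ^ (π.a + 1) = 8 / π.C * u ^ (π.a + 1) + 3 * u ^ (π.a + 1) := by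
        ring
      rw [this]
      linarith
    have h3 := pow_le_pow_left₀ (by positivity) h2 2
    have h4 : ((8 / π.C + 3) * u ^ (π.a + 1)) ^ 2 * (π.K * u) = B1 * v := by
      have h5 : u ^ (2 * π.a + 3) = (u ^ (π.a + 1)) ^ 2 * u := by
        rw [← Real.rpow_natCast, ← Real.rpow_mul hu0.le]
        have h6 : u = u ^ (1 : ℝ) := (Real.rpow_one u).symm
        nth_rewrite 3 [h6]
        rw [← Real.rpow_add hu0]
        congr 1
        push_cast
        ring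
      rw [hv, h5, hB1]
      ring
    rw [← h4]
    exact mul_le_mul_of_nonneg_right h3 (by positivity)
  have hJ4 : (J0 : ℝ) + n0 + 1 ≤ B2 * v := by
    have h1 : u / ly ≤ 1 / ly * v := by
      rw [div_mul_eq_mul_div, one_mul]
      exact div_le_div_of_nonneg_right huv hlypos.le
    have h2 : (n0 : ℝ) + 2 ≤ ((n0 : ℝ) + 2) * v := by
      have : (0 : ℝ) ≤ (n0 : ℝ) + 2 := by positivity
      exact le_mul_of_one_le_right this hv1
    have h3 : B2 * v = 1 / ly * v + ((n0 : ℝ) + 2) * v := by rw [hB2]; ring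
    rw [h3]
    linarith
  have hGpow : G ^ (J0 + n0 + 1) = Real.exp (Real.log G * ((J0 : ℝ) + n0 + 1)) := by
    rw [← Real.rpow_def_of_pos hGpos, ← Real.rpow_natCast]
    push_cast
    rfl
  have hnexp : ((32 + n0 : ℕ) : ℝ) = Real.exp (Real.log ((32 + n0 : ℕ) : ℝ)) :=
    (Real.exp_log hn).symm
  rw [hGpow]
  nth_rewrite 1 [hnexp]
  rw [← Real.exp_add, ← Real.exp_add, Real.exp_le_exp]
  have hcrd : crd (2 * π.a + 4) ε = u * v := by
    unfold TRx927.crd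
    rw [← hu, hv]
    have h6 : u = u ^ (1 : ℝ) := (Real.rpow_one u).symm
    nth_rewrite 2 [h6]
    rw [← Real.rpow_add hu0]
    congr 1
    ring
  rw [hcrd]
  have g1 : Real.log ((32 + n0 : ℕ) : ℝ) ≤ Real.log ((32 + n0 : ℕ) : ℝ) * v :=
    le_mul_of_one_le_right hlogn hv1
  have g2 : s0 * m * ((4 * (2 * ρ0) / rad π.C ε + 3) ^ 2 * (π.K * u) + ((J0 : ℝ) + n0 + 1)) ≤
      s0 * m * (B1 + B2) * v := by
    have : s0 * m * (B1 + B2) * v = s0 * m * (B1 * v + B2 * v) := by ring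
    rw [this]
    exact mul_le_mul_of_nonneg_left (add_le_add hcc hJ4) (by positivity)
  have g3 : s0 * (3 / (2 * Real.pi) * (2 * M1 + 4 * Real.pi + |a0 - lf 0|)) ≤ s0 * B3 * v := by
    have h1 : 3 / (2 * Real.pi) * (2 * M1 + 4 * Real.pi + |a0 - lf 0|) ≤ B3 := by
      rw [hB3]
      exact mul_le_mul_of_nonneg_left (by linarith) (by positivity)
    have h2 := mul_le_mul_of_nonneg_left h1 hs0pos.le
    have h3 : s0 * B3 ≤ s0 * B3 * v := le_mul_of_one_le_right (by positivity) hv1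
    linarith
  have g4 : Real.log G * ((J0 : ℝ) + n0 + 1) ≤ Real.log G * B2 * v := by
    rw [mul_assoc]
    exact mul_le_mul_of_nonneg_left hJ4 hlogG
  have g5 : Cst * v ≤ u * v := mul_le_mul_of_nonneg_right u2 (by linarith)
  have g6 : Cst * v = Real.log ((32 + n0 : ℕ) : ℝ) * v + (s0 * m * (B1 + B2) * v + s0 * B3 * v) +
      Real.log G * B2 * v := by rw [hCst]; ring
  linarith

/-- the crude bound increases with the exponent -/
theorem crd_mono {C0 C0' ε : ℝ} (h : C0 ≤ C0') (hε : 1 ≤ Real.log (1 / ε)) :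
    crd C0 ε ≤ crd C0' ε := Real.rpow_le_rpow_of_exponent_le hε h

/-- the winding polynomial at a positive point -/
theorem X_re_le {S : Finset ℂ} {N : Net ℂ} (H : HNet S N) {t : ℂ × ℂ × ℂ} (ht : t ∈ delT S) {x : ℂ}
    (hx : InO' x t) {lf : ℤ → ℝ} (hl : Lift N x lf) {a0 : ℝ}
    (ha0 : ∃ r : ℝ, 0 < r ∧ mid (t.1, t.2.1) - x = (r : ℂ) * Complex.exp (a0 * Complex.I))
    {s y B : ℝ} (hB : 0 ≤ B) (hy1 : Real.exp (-s) ≤ y) (hy2 : y ≤ Real.exp s)
    (h : ∑ J ∈ (N.tj t).filter (fun J => ∃ k, N.TriK t x lf a0 k J),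
      Real.exp (s * |(rotK N t x lf a0 J : ℝ)|) ≤ ((N.tj t).card : ℝ) * B) :
    (N.X t x lf a0 (y : ℂ)).re ≤ B := by
  have hy0 : 0 < y := lt_of_lt_of_le (Real.exp_pos _) hy1
  have hfil : (N.tj t).filter (fun J => ∃ k, N.TriK t x lf a0 k J) =
      (N.tj t).filter (fun J => ∃ κ, N.Tri3 t κ J) :=
    Finset.filter_congr fun J hJ => ex_triK_iff H ht hx hl ha0 hJ
  rw [X_eq H ht hx hl ha0, ← hfil]
  have hterm : ∀ k : ℤ, y ^ k ≤ Real.exp (s * |(k : ℝ)|) := by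
    intro k
    have h1 : y ^ k = Real.exp (Real.log y * k) := by
      rw [← Real.rpow_intCast, Real.rpow_def_of_pos hy0]
    rw [h1, Real.exp_le_exp]
    have h2 : |Real.log y| ≤ s := by
      rw [abs_le]
      constructor
      · have := Real.log_le_log (Real.exp_pos _) hy1
        rwa [Real.log_exp] at this
      · have := Real.log_le_log hy0 hy2
        rwa [Real.log_exp] at this
    calc Real.log y * k ≤ |Real.log y * k| := le_abs_self _
      _ = |Real.log y| * |(k : ℝ)| := abs_mul _ _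
      _ ≤ s * |(k : ℝ)| := mul_le_mul_of_nonneg_right h2 (abs_nonneg _)
  have hre : ((∑ J ∈ (N.tj t).filter (fun J => ∃ k, N.TriK t x lf a0 k J),
      (y : ℂ) ^ rotK N t x lf a0 J) / ((N.tj t).card : ℂ)).re =
      (∑ J ∈ (N.tj t).filter (fun J => ∃ k, N.TriK t x lf a0 k J), y ^ rotK N t x lf a0 J) /
        ((N.tj t).card : ℝ) := by
    rw [← Complex.ofReal_re ((∑ J ∈ (N.tj t).filter (fun J => ∃ k, N.TriK t x lf a0 k J),
      y ^ rotK N t x lf a0 J) / ((N.tj t).card : ℝ))]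
    congr 1
    push_cast
    rfl
  rw [hre]
  refine div_le_of_le_mul₀ (Nat.cast_nonneg _) hB ?_
  rw [mul_comm]
  exact (Finset.sum_le_sum fun J _ => hterm _).trans h

/-- **the winding polynomial on `[exp (-s), exp s]`** (field `up` of `MixN`) -/
theorem xw_X (hRB : RB) (π : Par) {δ : ℝ} (hδ : 0 < δ) {κ : ℝ} (hκ : 0 < κ) (hκ1 : κ < 1)
    {A1 : ℝ} (hA1 : 0 ≤ A1) :
    ∃ s0 C0 : ℝ, 0 < s0 ∧ 0 < C0 ∧ ∀ᶠ ε : ℝ in 𝓝[>] 0, ∀ (D : Dom) (ω : Sample) (z : ℂ),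
      At π δ ε D ω z → ∀ t ∈ touch z (ε ^ κ) (D.sites ε ω), ∀ (x : ℂ) (lf : ℤ → ℝ) (a0 : ℝ),
        B4x927.Pos (net D ε ω) t x lf a0 → |a0 - lf 0| ≤ A1 → ∀ s, 0 ≤ s → s ≤ s0 →
        ∀ C', C0 ≤ C' → ∀ y ∈ Set.Icc (Real.exp (-s)) (Real.exp s),
          ((net D ε ω).X t x lf a0 (y : ℂ)).re ≤ Real.exp (crd C' ε) := by
  obtain ⟨s0, C0, hs0, hC0, h⟩ := xw hRB π hδ hκ hκ1 hA1
  refine ⟨s0, C0, hs0, hC0, ?_⟩
  filter_upwards [h, ev_sm π hδ hκ hκ1, ev_log 1] with ε h1 hs u1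
  intro D ω z hAt t ht x lf a0 hP ha0 s hs1 hs2 C' hC' y hy
  have hx : InO' x t := ⟨hP.l0, hP.l1, hP.l2⟩
  have hmono : Real.exp (crd C0 ε) ≤ Real.exp (crd C' ε) :=
    Real.exp_le_exp.2 (crd_mono hC' u1)
  refine (X_re_le (hAt.hnet hs) (pos_near hAt hs ht hx).1 hx hP.lift hP.dir (s := s0)
    (Real.exp_pos _).le ?_ ?_ (h1 D ω z hAt t ht x lf a0 hx hP.lift ha0)).trans hmono
  · exact (Real.exp_le_exp.2 (by linarith)).trans hy.1
  · exact hy.2.trans (Real.exp_le_exp.2 hs2)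

/-- **the tail of the rotation** -/
theorem xw_tail (hRB : RB) (π : Par) {δ : ℝ} (hδ : 0 < δ) {κ : ℝ} (hκ : 0 < κ) (hκ1 : κ < 1)
    {A1 : ℝ} (hA1 : 0 ≤ A1) :
    ∃ s0 C0 : ℝ, 0 < s0 ∧ 0 < C0 ∧ ∀ᶠ ε : ℝ in 𝓝[>] 0, ∀ (D : Dom) (ω : Sample) (z : ℂ),
      At π δ ε D ω z → ∀ t ∈ touch z (ε ^ κ) (D.sites ε ω), ∀ (x : ℂ) (lf : ℤ → ℝ) (a0 : ℝ),
        B4x927.Pos (net D ε ω) t x lf a0 → |a0 - lf 0| ≤ A1 → ∀ n : ℕ,
        ((((net D ε ω).tj t).filter (fun J => (∃ k, (net D ε ω).TriK t x lf a0 k J) ∧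
          (n : ℝ) ≤ |(rotK (net D ε ω) t x lf a0 J : ℝ)|)).card : ℝ) ≤
        (((net D ε ω).tj t).card : ℝ) * Real.exp (-(s0 * n) + crd C0 ε) := by
  obtain ⟨s0, C0, hs0, hC0, h⟩ := xw hRB π hδ hκ hκ1 hA1
  refine ⟨s0, C0, hs0, hC0, ?_⟩
  filter_upwards [h] with ε h1
  intro D ω z hAt t ht x lf a0 hP ha0 n
  have hx : InO' x t := ⟨hP.l0, hP.l1, hP.l2⟩
  have h2 := h1 D ω z hAt t ht x lf a0 hx hP.lift ha0
  have h3 : ((((net D ε ω).tj t).filter (fun J => (∃ k, (net D ε ω).TriK t x lf a0 k J) ∧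
      (n : ℝ) ≤ |(rotK (net D ε ω) t x lf a0 J : ℝ)|)).card : ℝ) * Real.exp (s0 * n) ≤
      ∑ J ∈ ((net D ε ω).tj t).filter (fun J => ∃ k, (net D ε ω).TriK t x lf a0 k J),
          Real.exp (s0 * |(rotK (net D ε ω) t x lf a0 J : ℝ)|) := by
    rw [← nsmul_eq_mul, ← Finset.sum_const]
    refine le_trans (Finset.sum_le_sum (g := fun J =>
      Real.exp (s0 * |(rotK (net D ε ω) t x lf a0 J : ℝ)|)) fun J hJ => ?_) ?_
    · rw [Finset.mem_filter] at hJ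
      exact Real.exp_le_exp.2 (mul_le_mul_of_nonneg_left hJ.2.2 hs0.le)
    · refine Finset.sum_le_sum_of_subset_of_nonneg (fun J hJ => ?_) fun _ _ _ =>
        (Real.exp_pos _).le
      rw [Finset.mem_filter] at hJ ⊢
      exact ⟨hJ.1, hJ.2.1⟩
  have h4 := h3.trans h2
  rw [Real.exp_add, Real.exp_neg, ← div_eq_inv_mul, ← mul_div_assoc, le_div_iff₀ (Real.exp_pos _)]
  exact h4

end Crest.Agent.R143.XWx315
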