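import Crest.Agent.R143.XW1_315
import Crest.Agent.R143.Planar2_54
import Crest.Agent.R143.ToolW_838
import Crest.Agent.R143.DomB_722
import Crest.Agent.R143.G6W_723

/-!
# R143, block X, winding tail XW (helper315), part 2: branches of the argument

* `label_bound2` : the label bound when the jumps are at the edges with an end in `Z`
* `Lf q l` : branch of the argument of `-(z - x) / q` outside the polygon `l` (first vertex `x`)
  and the final ray in the direction `q`; `Lf_ang`, `abs_Lf_le`
* `lf_edge` : the angle of a Delaunay edge whose two cells do not meet the cut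
-/

set_option autoImplicit false

noncomputable section

open scoped Classical

namespace Crest.Agent.R143.XW2x315

open Finset
open Crest.Agent.R143.B0x346 Crest.Agent.R143.DelGx806 Crest.Agent.R143.DelRx806
open Crest.Agent.R143.B0Dx346 Crest.Agent.R143.JColx54 Crest.Agent.R143.Planar2x54
open Crest.Agent.R143.DomAx722 hiding ang
open Crest.Agent.R143.DomBx722
open Crest.Agent.R143.XW1x315

/-! ### labels, second form -/

section label

variable {V Λ : Type*} {R : V → V → Prop} {Z : Set V} {lab : V → Λ} {B : V → ℝ} {M0 M : ℝ}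

theorem label_aux2 (h1 : ∀ a b, R a b → a ∉ Z → b ∉ Z → B b = B a)
    (h2 : ∀ a b, R a b → |B b - B a| ≤ M0)
    (h3 : ∀ a b, a ∈ Z → b ∈ Z → lab a = lab b → |B b - B a| ≤ M) (hM0 : 0 ≤ M0) (hM : 0 ≤ M) :
    ∀ (n : ℕ) (F : Finset Λ), F.card ≤ n → ∀ u v : V, (u ∈ Z → lab u ∈ F) →
      Relation.ReflTransGen (Rl R Z lab F) u v → |B v - B u| ≤ F.card * (M + 2 * M0) ∧
        (u ∈ Z → |B v - B u| ≤ F.card * (M + 2 * M0) - M0) := by
  intro n
  induction n with
  | zero =>
      intro F hF u v hu h
      have hF0 : F = ∅ := card_eq_zero.1 (by omega)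
      subst hF0
      have hu' : u ∉ Z := fun h => by simpa using hu h
      have hv' : B v = B u ∧ v ∉ Z := by
        induction h with
        | refl => exact ⟨rfl, hu'⟩
        | @tail v' v _ h2 ih =>
            have hv' : v ∉ Z := fun h => by simpa using h2.2.2 h
            exact ⟨by rw [h1 _ _ h2.1 ih.2 hv', ih.1], hv'⟩
      rw [hv'.1]
      exact ⟨by simp, fun h => absurd h hu'⟩
  | succ n ih =>
      intro F hF u v hu h
      have hK : 0 ≤ (F.card : ℝ) * (M + 2 * M0) := by positivity
      induction h using Relation.ReflTransGen.head_induction_on with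
      | refl =>
          refine ⟨by simpa using hK, fun hvZ => ?_⟩
          have h5 : 1 ≤ F.card := card_pos.2 ⟨_, hu hvZ⟩
          have h6 : (1 : ℝ) ≤ F.card := by exact_mod_cast h5
          have h7 : (1 : ℝ) * (M + 2 * M0) ≤ F.card * (M + 2 * M0) :=
            mul_le_mul_of_nonneg_right h6 (by linarith)
          rw [sub_self, abs_zero]
          linarith
      | @head u u' h0 hp ihp =>
          by_cases huZ : u ∈ Z
          · set f := lab u with hf
            have hfF : f ∈ F := hu huZ
            have hcard : (F.erase f).card + 1 = F.card := card_erase_add_one hfF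
            obtain ⟨a, ha, haf, h4⟩ := last_visit (f := f) huZ rfl
              (Relation.ReflTransGen.head h0 hp)
            have e1 : |B a - B u| ≤ M := h3 u a huZ ha (by rw [haf])
            have key : |B v - B u| ≤ F.card * (M + 2 * M0) - M0 := by
              rcases h4 with rfl | ⟨b, hb, hbF, hp'⟩
              · have h5 : 1 ≤ F.card := card_pos.2 ⟨f, hfF⟩
                have h6 : (1 : ℝ) ≤ F.card := by exact_mod_cast h5
                have h7 : (1 : ℝ) * (M + 2 * M0) ≤ F.card * (M + 2 * M0) :=
                  mul_le_mul_of_nonneg_right h6 (by linarith)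
                linarith
              · have e2 : |B b - B a| ≤ M0 := h2 a b hb
                have e3 := (ih (F.erase f) (by omega) b v hbF hp').1
                have e4 : (F.card : ℝ) = ((F.erase f).card : ℝ) + 1 := by exact_mod_cast hcard.symm
                have e5 : |B v - B u| ≤ |B v - B b| + |B b - B a| + |B a - B u| := by
                  have : B v - B u = (B v - B b) + (B b - B a) + (B a - B u) := by ring
                  rw [this]
                  exact (abs_add_le _ _).trans (add_le_add (abs_add_le _ _) le_rfl)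
                rw [e4]
                linarith
            exact ⟨by linarith, fun _ => key⟩
          · refine ⟨?_, fun h => absurd h huZ⟩
            have h5 := ihp h0.2.2
            by_cases hu' : u' ∈ Z
            · have h6 := h5.2 hu'
              have h7 := h2 u u' h0.1
              have e5 : |B v - B u| ≤ |B v - B u'| + |B u' - B u| := by
                have : B v - B u = (B v - B u') + (B u' - B u) := by ring
                rw [this]
                exact abs_add_le _ _
              linarith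
            · rw [← h1 _ _ h0.1 huZ hu']
              exact h5.1

/-- **the label bound**, second form -/
theorem label_bound2 (h1 : ∀ a b, R a b → a ∉ Z → b ∉ Z → B b = B a)
    (h2 : ∀ a b, R a b → |B b - B a| ≤ M0)
    (h3 : ∀ a b, a ∈ Z → b ∈ Z → lab a = lab b → |B b - B a| ≤ M) (hM0 : 0 ≤ M0) (hM : 0 ≤ M)
    {u v : V} (F : Finset Λ) (hF : ∀ a, Relation.ReflTransGen R u a → a ∈ Z → lab a ∈ F)
    (h : Relation.ReflTransGen R u v) : |B v - B u| ≤ F.card * (M + 2 * M0) := by
  refine (label_aux2 h1 h2 h3 hM0 hM F.card F le_rfl u v (hF u Relation.ReflTransGen.refl) ?_).1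
  induction h with
  | refl => exact Relation.ReflTransGen.refl
  | @tail v' v hp h2 ih =>
      exact ih.tail ⟨h2, hF v' hp, hF v (hp.tail h2)⟩

end label

/-! ### the branch of the argument -/

/-- branch of the argument -/
def Lf (q : ℂ) : List ℂ → ℂ → ℝ
  | [], _ => 0
  | [w], z => (-(z - w) / q).arg
  | (w :: w' :: l), z => ((z - w) / (z - w')).arg + Lf q (w' :: l) z

/-- the cut -/
def cutS (q : ℂ) : List ℂ → Set ℂ
  | [] => ∅
  | [w] => {z | ∃ t : ℝ, 0 ≤ t ∧ z = w + t * q}
  | (w :: w' :: l) => segment ℝ w w' ∪ cutS q (w' :: l)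

theorem cutS_head (q w : ℂ) (l : List ℂ) : w ∈ cutS q (w :: l) := by
  cases l with
  | nil => exact ⟨0, le_rfl, by simp⟩
  | cons w' l => exact Or.inl (left_mem_segment ℝ w w')

theorem slit_ray {q w z : ℂ} (hq : q ≠ 0) (h : z ∉ cutS q [w]) :
    -(z - w) / q ∈ Complex.slitPlane := by
  by_contra hcon
  rw [Complex.mem_slitPlane_iff] at hcon
  push Not at hcon
  obtain ⟨h1, h2⟩ := hcon
  apply h
  set u := -(z - w) / q with hu
  have hu2 : u = ((u.re : ℝ) : ℂ) := by
    apply Complex.ext
    · simp
    · simpa using h2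
  refine ⟨-u.re, by linarith, ?_⟩
  have e1 : u * q = -(z - w) := by rw [hu, div_mul_cancel₀ _ hq]
  push_cast
  rw [← hu2]
  linear_combination e1

theorem slit_seg {w w' z : ℂ} (h : z ∉ segment ℝ w w') :
    (z - w) / (z - w') ∈ Complex.slitPlane := by
  have h1 := ToolWx838.slit (x := z) (a := w') (b := w) (by rw [segment_symm]; exact h)
  have e : (z - w) / (z - w') = (w - z) / (w' - z) := by
    rw [← neg_sub w z, ← neg_sub w' z, neg_div_neg_eq]
  rw [e]
  exact h1

theorem Lf_cont {q : ℂ} (hq : q ≠ 0) : ∀ (l : List ℂ) {z : ℂ}, z ∉ cutS q l →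
    ContinuousAt (Lf q l) z := by
  intro l
  induction l with
  | nil => intro z _; exact continuousAt_const
  | cons w l ih =>
      intro z hz
      cases l with
      | nil =>
          have h1 : ContinuousAt (fun z : ℂ => -(z - w) / q) z := by fun_prop
          have h2 : ContinuousAt Complex.arg ((fun z : ℂ => -(z - w) / q) z) :=
            Complex.continuousAt_arg (slit_ray hq hz)
          exact ContinuousAt.comp (f := fun z : ℂ => -(z - w) / q) h2 h1
      | cons w' l =>
          have hz1 : z ∉ segment ℝ w w' := fun h => hz (Or.inl h)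
          have hz2 : z ∉ cutS q (w' :: l) := fun h => hz (Or.inr h)
          have hne : z - w' ≠ 0 := fun e => hz1 (by
            rw [sub_eq_zero.1 e]; exact right_mem_segment ℝ w w')
          have h1 : ContinuousAt (fun z : ℂ => (z - w) / (z - w')) z :=
            (continuousAt_id.sub continuousAt_const).div (continuousAt_id.sub continuousAt_const) hne
          have h2 : ContinuousAt Complex.arg ((fun z : ℂ => (z - w) / (z - w')) z) :=
            Complex.continuousAt_arg (slit_seg hz1)
          exact (ContinuousAt.comp (f := fun z : ℂ => (z - w) / (z - w')) h2 h1).add (ih hz2)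

theorem abs_Lf_le (q : ℂ) : ∀ (l : List ℂ) (z : ℂ), |Lf q l z| ≤ Real.pi * l.length := by
  intro l
  induction l with
  | nil => intro z; simp [Lf]
  | cons w l ih =>
      intro z
      cases l with
      | nil =>
          simp only [Lf, List.length_singleton, Nat.cast_one, mul_one]
          exact Complex.abs_arg_le_pi _
      | cons w' l =>
          have h1 := ih z
          have h2 := Complex.abs_arg_le_pi ((z - w) / (z - w'))
          simp only [Lf, List.length_cons] at h1 ⊢
          push_cast at h1 ⊢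
          have := abs_add_le (((z - w) / (z - w')).arg) (Lf q (w' :: l) z)
          linarith

/-- direction of `Lf` -/
theorem Lf_dir {q : ℂ} (hq : q ≠ 0) : ∀ (l : List ℂ) (x : ℂ) {z : ℂ}, z ∉ cutS q (x :: l) →
    ∃ r : ℝ, 0 < r ∧ -(z - x) / q = (r : ℂ) * Complex.exp (Lf q (x :: l) z * Complex.I) := by
  intro l
  induction l with
  | nil =>
      intro x z hz
      have h1 := slit_ray hq hz
      have h2 : -(z - x) / q ≠ 0 := Complex.slitPlane_ne_zero h1
      refine ⟨‖-(z - x) / q‖, norm_pos_iff.2 h2, ?_⟩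
      simp only [Lf]
      rw [Complex.norm_mul_exp_arg_mul_I]
  | cons w l ih =>
      intro x z hz
      have hz1 : z ∉ segment ℝ x w := fun h => hz (Or.inl h)
      have hz2 : z ∉ cutS q (w :: l) := fun h => hz (Or.inr h)
      obtain ⟨r, hr, h1⟩ := ih w hz2
      have h2 := slit_seg hz1
      have h3 := Complex.slitPlane_ne_zero h2
      have hw : z - w ≠ 0 := by
        intro e
        rw [e, div_zero] at h3
        exact h3 rfl
      refine ⟨‖(z - x) / (z - w)‖ * r, mul_pos (norm_pos_iff.2 h3) hr, ?_⟩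
      simp only [Lf]
      have e1 : -(z - x) / q = ((z - x) / (z - w)) * (-(z - w) / q) := by
        field_simp
      rw [e1, h1]
      conv_lhs => rw [← Complex.norm_mul_exp_arg_mul_I ((z - x) / (z - w))]
      push_cast
      rw [add_mul, Complex.exp_add]
      ring

/-- **the angle of a segment which does not meet the cut** -/
theorem Lf_ang {q : ℂ} (hq : q ≠ 0) {l : List ℂ} {x a b : ℂ}
    (h : Disjoint (segment ℝ a b) (cutS q (x :: l))) :
    ang x a b = Lf q (x :: l) b - Lf q (x :: l) a := by
  have hoff : ∀ z ∈ segment ℝ a b, z ∉ cutS q (x :: l) := fun z hz => Set.disjoint_left.1 h hz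
  have hne : ∀ z ∈ segment ℝ a b, z - x ≠ 0 := fun z hz e => hoff z hz (by
    rw [sub_eq_zero.1 e]; exact cutS_head q x l)
  have ha := left_mem_segment ℝ a b
  have hb := right_mem_segment ℝ a b
  have ha0 := hne a ha
  -- the difference
  set g : ℂ → ℝ := fun z => ((z - x) / (a - x)).arg - (Lf q (x :: l) z - Lf q (x :: l) a) with hg
  have hslit : ∀ z ∈ segment ℝ a b, (z - x) / (a - x) ∈ Complex.slitPlane := by
    intro z hz
    apply ToolWx838.slit
    intro hx
    have hsub : segment ℝ a z ⊆ segment ℝ a b := (convex_segment a b).segment_subset ha hz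
    exact hne x (hsub hx) (sub_self x)
  have hcont : ContinuousOn (fun z => g z / (2 * Real.pi)) (segment ℝ a b) := by
    intro z hz
    apply ContinuousAt.continuousWithinAt
    apply ContinuousAt.div_const
    have h1 : ContinuousAt (fun z : ℂ => (z - x) / (a - x)) z := by fun_prop
    have h2 : ContinuousAt Complex.arg ((fun z : ℂ => (z - x) / (a - x)) z) :=
      Complex.continuousAt_arg (hslit z hz)
    exact (ContinuousAt.comp (f := fun z : ℂ => (z - x) / (a - x)) h2 h1).sub
      ((Lf_cont hq _ (hoff z hz)).sub continuousAt_const)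
  have hint : ∀ z ∈ segment ℝ a b, ∃ k : ℤ, g z / (2 * Real.pi) = k := by
    intro z hz
    obtain ⟨r1, hr1, e1⟩ := Lf_dir hq l x (hoff z hz)
    obtain ⟨r2, hr2, e2⟩ := Lf_dir hq l x (hoff a ha)
    have h1 : Rot (Lf q (x :: l) z - Lf q (x :: l) a) (a - x) (z - x) := by
      refine ⟨r1 / r2, div_pos hr1 hr2, ?_⟩
      have k1 : z - x = -(r1 * Complex.exp (Lf q (x :: l) z * Complex.I) * q) := by
        rw [← e1, div_mul_cancel₀ _ hq]; ring
      have k2 : a - x = -(r2 * Complex.exp (Lf q (x :: l) a * Complex.I) * q) := by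
        rw [← e2, div_mul_cancel₀ _ hq]; ring
      rw [k1, k2]
      have hr2' : (r2 : ℂ) ≠ 0 := Complex.ofReal_ne_zero.2 hr2.ne'
      have e : Complex.exp (((Lf q (x :: l) z - Lf q (x :: l) a : ℝ) : ℂ) * Complex.I) *
          Complex.exp (Lf q (x :: l) a * Complex.I) = Complex.exp (Lf q (x :: l) z * Complex.I) := by
        rw [← Complex.exp_add]
        congr 1
        push_cast
        ring
      rw [← e]
      push_cast
      field_simp
    have h2 : Rot (((z - x) / (a - x)).arg) (a - x) (z - x) := ang_rot ha0 (hne z hz)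
    obtain ⟨k, hk⟩ := Rot.unique ha0 h1 h2
    refine ⟨k, ?_⟩
    rw [hg]
    dsimp only
    rw [hk]
    field_simp
    ring
  have him := (convex_segment a b).isPreconnected.image _ hcont
  have h3 : (fun z => g z / (2 * Real.pi)) '' segment ℝ a b ⊆ Set.range ((↑) : ℤ → ℝ) := by
    rintro _ ⟨z, hz, rfl⟩
    obtain ⟨k, hk⟩ := hint z hz
    exact ⟨k, hk.symm⟩
  have htd : IsTotallyDisconnected (Set.range ((↑) : ℤ → ℝ)) :=
    (Set.countable_range _).isTotallyDisconnected
  have h5 := htd _ h3 him ⟨b, hb, rfl⟩ ⟨a, ha, rfl⟩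
  have h6 : g a = 0 := by
    rw [hg]
    dsimp only
    rw [div_self ha0, Complex.arg_one]
    ring
  have h7 : g b = 0 := by
    dsimp only at h5
    rw [h6] at h5
    have hpi := Real.pi_pos
    field_simp at h5
    linarith
  rw [hg] at h7
  dsimp only at h7
  unfold ang
  linarith

/-! ### edges -/

variable {S : Finset ℂ}

theorem cr_dot (u v : ℂ) : cr (-Complex.I * u) v = u.re * v.re + u.im * v.im := by
  unfold cr
  simp
  ring

/-- the site of `y` is in the half plane of `y` -/
theorem site_hp {c x y a : ℂ} {L d : ℝ} (hD : Dns S c L d) (hx : ‖x - c‖ ≤ L - 3 * d)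
    (ha : 3 * d ≤ ‖a - x‖) (hy : y ∈ cell (S : Set ℂ) a) : HP (-Complex.I * (y - x)) x a := by
  have hd := hD.dpos
  unfold HP
  rw [cr_dot]
  have e1 : ‖y - a‖ ^ 2 = ‖y - x‖ ^ 2 + ‖a - x‖ ^ 2 -
      2 * ((y - x).re * (a - x).re + (y - x).im * (a - x).im) := by
    rw [DomAx722.sq_norm, DomAx722.sq_norm, DomAx722.sq_norm]
    simp only [Complex.sub_re, Complex.sub_im]
    ring
  rcases lt_or_ge ‖y - x‖ (2 * d) with h | h
  · have h1 : ‖y - a‖ < d := by
      apply cell_near hD hy
      calc ‖y - c‖ = ‖(y - x) + (x - c)‖ := by congr 1; ring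
        _ ≤ ‖y - x‖ + ‖x - c‖ := norm_add_le _ _
        _ ≤ L - d := by linarith
    have h2 : ‖y - a‖ ^ 2 < d ^ 2 := pow_lt_pow_left₀ h1 (norm_nonneg _) (by norm_num)
    have h3 : (3 * d) ^ 2 ≤ ‖a - x‖ ^ 2 := pow_le_pow_left₀ (by linarith) ha 2
    nlinarith [sq_nonneg ‖y - x‖]
  · have hρ : 0 < ‖y - x‖ := by linarith
    set p : ℂ := x + ((2 * d / ‖y - x‖ : ℝ) : ℂ) * (y - x) with hp
    have hpn : ‖p - x‖ = 2 * d := by
      rw [hp, add_sub_cancel_left, norm_mul, Complex.norm_real, Real.norm_eq_abs,
        abs_of_pos (by positivity)]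
      field_simp
    have hpc : ‖p - c‖ ≤ L - d := by
      calc ‖p - c‖ = ‖(p - x) + (x - c)‖ := by congr 1; ring
        _ ≤ ‖p - x‖ + ‖x - c‖ := norm_add_le _ _
        _ ≤ L - d := by linarith
    obtain ⟨s, hs, hs'⟩ := hD.hole p hpc
    have hyp : ‖y - p‖ = ‖y - x‖ - 2 * d := by
      have e : y - p = ((1 - 2 * d / ‖y - x‖ : ℝ) : ℂ) * (y - x) := by
        rw [hp]; push_cast; ring
      have h0 : 0 ≤ 1 - 2 * d / ‖y - x‖ := by
        rw [sub_nonneg, div_le_one hρ]; exact h
      rw [e, norm_mul, Complex.norm_real, Real.norm_eq_abs, abs_of_nonneg h0]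
      field_simp
    have h1 : ‖y - a‖ ≤ ‖y - s‖ := hy s hs
    have h2 : ‖y - s‖ ≤ ‖y - p‖ + ‖p - s‖ := by
      have := norm_add_le (y - p) (p - s)
      rwa [sub_add_sub_cancel] at this
    rw [norm_sub_rev p s] at h2
    have h3 : ‖y - a‖ < ‖y - x‖ := by linarith
    have h4 : ‖y - a‖ ^ 2 < ‖y - x‖ ^ 2 := pow_lt_pow_left₀ h3 (norm_nonneg _) (by norm_num)
    have h5 : (3 * d) ^ 2 ≤ ‖a - x‖ ^ 2 := pow_le_pow_left₀ (by linarith) ha 2
    nlinarith

/-- the angle of an edge through a common point of the two cells -/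
theorem ang_via {c x y a b : ℂ} {L d : ℝ} (hD : Dns S c L d) (hx : ‖x - c‖ ≤ L - 3 * d)
    (ha : 3 * d ≤ ‖a - x‖) (hb : 3 * d ≤ ‖b - x‖) (hya : y ∈ cell (S : Set ℂ) a)
    (hyb : y ∈ cell (S : Set ℂ) b) : ang x a b = ang x a y + ang x y b := by
  have h1 := site_hp hD hx ha hya
  have h2 := site_hp hD hx hb hyb
  have hne : y - x ≠ 0 := by
    intro e
    rw [e] at h1
    unfold HP at h1
    rw [mul_zero] at h1
    unfold cr at h1
    simp at h1
  have h3 : HP (-Complex.I * (y - x)) x y := by
    unfold HP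
    rw [cr_dot]
    have : 0 < ‖y - x‖ ^ 2 := by positivity
    rw [DomAx722.sq_norm] at this
    nlinarith
  rw [ang_hp h1 h2, ang_hp h1 h3, ang_hp h3 h2]
  ring

/-- the segment from a site to a point of its cell is in the cell -/
theorem seg_cell {a y : ℂ} (hy : y ∈ cell (S : Set ℂ) a) :
    segment ℝ a y ⊆ cell (S : Set ℂ) a := by
  intro z hz s hs
  rw [segment_eq_image'] at hz
  obtain ⟨t, ⟨ht0, ht1⟩, rfl⟩ := hz
  have h1 := hy s hs
  have e1 : a + t • (y - a) - a = (t : ℂ) * (y - a) := by rw [Complex.real_smul]; ring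
  have e2 : y - (a + t • (y - a)) = ((1 - t : ℝ) : ℂ) * (y - a) := by
    rw [Complex.real_smul]; push_cast; ring
  have n1 : ‖a + t • (y - a) - a‖ = t * ‖y - a‖ := by
    rw [e1, norm_mul, Complex.norm_real, Real.norm_eq_abs, abs_of_nonneg ht0]
  have n2 : ‖y - (a + t • (y - a))‖ = (1 - t) * ‖y - a‖ := by
    rw [e2, norm_mul, Complex.norm_real, Real.norm_eq_abs, abs_of_nonneg (by linarith)]
  have h2 : ‖y - s‖ ≤ ‖y - (a + t • (y - a))‖ + ‖a + t • (y - a) - s‖ := by
    have := norm_add_le (y - (a + t • (y - a))) (a + t • (y - a) - s)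
    rwa [sub_add_sub_cancel] at this
  rw [n1]
  rw [n2] at h2
  linarith

/-- **the angle of a Delaunay edge whose two cells do not meet the cut** -/
theorem lf_edge {c x a b q : ℂ} {l : List ℂ} {L d : ℝ} (hD : Dns S c L d)
    (hx : ‖x - c‖ ≤ L - 3 * d) (hq : q ≠ 0) (hab : Adj S a b) (ha : 3 * d ≤ ‖a - x‖)
    (hb : 3 * d ≤ ‖b - x‖) (hca : Disjoint (cell (S : Set ℂ) a) (cutS q (x :: l)))
    (hcb : Disjoint (cell (S : Set ℂ) b) (cutS q (x :: l))) :
    ang x a b = Lf q (x :: l) b - Lf q (x :: l) a := by
  obtain ⟨y, hy⟩ := G6Wx723.vedge_nonempty hab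
  have hya := vedge_sub_left _ _ _ hy
  have hyb := vedge_sub_right _ _ _ hy
  rw [ang_via hD hx ha hb hya hyb, Lf_ang hq (hca.mono_left (seg_cell hya)),
    Lf_ang hq (hcb.mono_left ((segment_symm ℝ y b).subset.trans (seg_cell hyb)))]
  ring

end Crest.Agent.R143.XW2x315
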