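import Crest.Agent.R143.XW2_315

/-!
# R143, block X, winding tail XW (helper315), part 3: gauge, flips, clusters

* `JF S J a b` : Delaunay edge which is not occupied by `J`
* `gauge` : in a half plane seen from the odd triangle, a join is the boundary of a colouring
* `Fr S N v` : free site; `bd S β` : boundary edges of `β`; `flip_mem` : `J xor bd β` is a join
* `sum_ex` : the sum over the joins is invariant under a fair colouring of free sites
* `NJ_le` : number of crossing `J`-free clusters in a half plane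
* `sum_prod_le` : exponential moment of the numbers of crossing clusters of disjoint regions
-/

set_option autoImplicit false

noncomputable section

open scoped Classical

namespace Crest.Agent.R143.XW3x315

open Finset
open Crest.Agent.R143.B0x346 Crest.Agent.R143.DelGx806 Crest.Agent.R143.DelRx806
open Crest.Agent.R143.B0Dx346 Crest.Agent.R143.JColx54 Crest.Agent.R143.JCol2x54
open Crest.Agent.R143.JCardx872 Crest.Agent.R143.Planarx54 Crest.Agent.R143.Planar2x54
open Crest.Agent.R143.Harx315 Crest.Agent.R143.XW1x315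

variable {S : Finset ℂ} {G : Trg ℂ} {kl : Set (ℂ × ℂ)} {D : Set (ℂ × ℂ)} {J : Finset (ℂ × ℂ)}
  {t : ℂ × ℂ × ℂ} {x : ℂ}

/-- occupied edge -/
def occ (J : Finset (ℂ × ℂ)) (a b : ℂ) : Prop := (a, b) ∈ J ∨ (b, a) ∈ J

theorem occ_symm {a b : ℂ} : occ J a b ↔ occ J b a := or_comm

/-- empty Delaunay edge -/
def JF (S : Finset ℂ) (J : Finset (ℂ × ℂ)) (a b : ℂ) : Prop := Adj S a b ∧ ¬ occ J a b

theorem JF.symm {a b : ℂ} (h : JF S J a b) : JF S J b a :=
  ⟨h.1.symm, fun h' => h.2 (occ_symm.1 h')⟩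

/-! ### gauge -/

/-- the integer part of the angle of an edge, with respect to the cut opposite to `e` -/
def nn (e x a b : ℂ) : ℤ := round ((ang x a b - (L e x b - L e x a)) / (2 * Real.pi))

theorem L_exp {e x y : ℂ} (he : e ≠ 0) (hy : y - x ≠ 0) :
    ∃ r : ℝ, 0 < r ∧ y - x = (r : ℂ) * Complex.exp (L e x y * Complex.I) * e := by
  refine ⟨‖(y - x) / e‖, norm_pos_iff.2 (div_ne_zero hy he), ?_⟩
  unfold L
  rw [Complex.norm_mul_exp_arg_mul_I, div_mul_cancel₀ _ he]

theorem L_rot {e x a b : ℂ} (he : e ≠ 0) (ha : a - x ≠ 0) (hb : b - x ≠ 0) :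
    Rot (L e x b - L e x a) (a - x) (b - x) := by
  obtain ⟨r1, hr1, e1⟩ := L_exp he ha
  obtain ⟨r2, hr2, e2⟩ := L_exp he hb
  refine ⟨r2 / r1, div_pos hr2 hr1, ?_⟩
  rw [e1, e2]
  have hr1' : (r1 : ℂ) ≠ 0 := Complex.ofReal_ne_zero.2 hr1.ne'
  have e3 : Complex.exp (((L e x b - L e x a : ℝ) : ℂ) * Complex.I) *
      Complex.exp (L e x a * Complex.I) = Complex.exp (L e x b * Complex.I) := by
    rw [← Complex.exp_add]
    congr 1
    push_cast
    ring
  rw [← e3]
  push_cast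
  field_simp

theorem nn_spec {e x a b : ℂ} (he : e ≠ 0) (ha : a - x ≠ 0) (hb : b - x ≠ 0) :
    ang x a b = L e x b - L e x a + 2 * Real.pi * nn e x a b := by
  obtain ⟨k, hk⟩ := Rot.unique ha (L_rot he ha hb) (ang_rot ha hb)
  have hpi := Real.pi_pos
  have h1 : (ang x a b - (L e x b - L e x a)) / (2 * Real.pi) = (k : ℝ) := by
    rw [hk]; field_simp; ring
  have h2 : nn e x a b = k := by
    unfold nn
    rw [h1, round_intCast]
  rw [h2, hk]
  ring

theorem nn_hp {e x a b : ℂ} (ha : HP e x a) (hb : HP e x b) : nn e x a b = 0 := by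
  unfold nn
  rw [ang_hp ha hb, sub_self, zero_div, round_zero]

theorem nn_anti {e x a b : ℂ} (he : e ≠ 0) (ha : a - x ≠ 0) (hb : b - x ≠ 0)
    (h : ang x b a = - ang x a b) : nn e x b a = - nn e x a b := by
  have h1 := nn_spec he ha hb
  have h2 := nn_spec he hb ha
  rw [h, h1] at h2
  have hpi := Real.pi_pos
  have h3 : (2 * Real.pi) * ((nn e x b a : ℝ) + nn e x a b) = 0 := by linarith
  have h4 : (nn e x b a : ℝ) + nn e x a b = 0 :=
    (mul_eq_zero.1 h3).resolve_left (by positivity)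
  have h5 : nn e x b a + nn e x a b = 0 := by exact_mod_cast h4
  linarith

/-- **gauge in a half plane** -/
theorem gauge (hS : GP (S : Set ℂ)) (hG : G.T = delT S) (hD : HullM S D)
    (hJ : IsJoin G kl (rots t) D J) (ht : t ∈ delT S) (hx : InO' x t) {e : ℂ} (he : e ≠ 0) :
    ∃ σ : ℂ → Bool, ∀ a b, Adj S a b → HP e x a → HP e x b → (σ a ≠ σ b ↔ occ J a b) := by
  have hne : ∀ {a b : ℂ}, Adj S a b → a - x ≠ 0 ∧ b - x ≠ 0 := by
    intro a b h
    obtain ⟨d, h1, h2⟩ := adj_hp hS ht hx h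
    exact ⟨h1.ne, h2.ne⟩
  obtain ⟨σ, hσ⟩ := exact hS (A := ZMod 2)
    (f := fun a b => (if occ J a b then 1 else 0) + ((nn e x a b : ℤ) : ZMod 2))
    (by
      intro a b hab
      have h1 := nn_anti he (hne hab).1 (hne hab).2 (adj_anti hS ht hx hab)
      have h2 : occ J b a ↔ occ J a b := occ_symm
      simp only [h2, h1]
      push_cast
      generalize ((nn e x a b : ℤ) : ZMod 2) = u
      split_ifs <;> revert u <;> decide)
    (by
      intro a b c h
      have hG' : (a, b, c) ∈ G.T := by rw [hG]; exact h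
      have h1 : occ J a b ↔ (a, b) ∈ J := occ_iff hG hD hJ h
      have h2 : occ J b c ↔ (b, c) ∈ J := occ_iff hG hD hJ (delT_rot hS h)
      have h3 : occ J c a ↔ (c, a) ∈ J := occ_iff hG hD hJ (delT_rot hS (delT_rot hS h))
      have hp := hJ.par a b c hG'
      have n1 := hne (adj_tri h)
      have n2 := hne (adj_tri (delT_rot hS h))
      have s1 := nn_spec (b := b) he n1.1 n1.2
      have s2 := nn_spec (b := c) he n2.1 n2.2
      have s3 := nn_spec (b := a) he n2.2 n1.1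
      have hs := ang_tri hS ht hx h
      have hpi := Real.pi_pos
      have hsum : nn e x a b + nn e x b c + nn e x c a = if (a, b, c) ∈ rots t then 1 else 0 := by
        by_cases hr : (a, b, c) ∈ rots t
        · rw [if_pos hr] at hs ⊢
          have h4 : (2 * Real.pi) * ((nn e x a b : ℝ) + nn e x b c + nn e x c a - 1) = 0 := by
            linarith
          have h5 := (mul_eq_zero.1 h4).resolve_left (by positivity)
          have h6 : nn e x a b + nn e x b c + nn e x c a - 1 = 0 := by exact_mod_cast h5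
          linarith
        · rw [if_neg hr] at hs ⊢
          have h4 : (2 * Real.pi) * ((nn e x a b : ℝ) + nn e x b c + nn e x c a) = 0 := by
            linarith
          have h5 := (mul_eq_zero.1 h4).resolve_left (by positivity)
          exact_mod_cast h5
      have e1 : ((if occ J a b then 1 else 0) + ((nn e x a b : ℤ) : ZMod 2)) +
          ((if occ J b c then 1 else 0) + ((nn e x b c : ℤ) : ZMod 2)) +
          ((if occ J c a then 1 else 0) + ((nn e x c a : ℤ) : ZMod 2)) =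
          ((if occ J a b then 1 else 0) + (if occ J b c then 1 else 0) +
            (if occ J c a then 1 else 0)) +
          ((nn e x a b + nn e x b c + nn e x c a : ℤ) : ZMod 2) := by
        push_cast
        ring
      rw [e1, hsum]
      simp only [h1, h2, h3]
      by_cases hr : (a, b, c) ∈ rots t
      · rw [if_pos hr] at hp ⊢
        by_cases x1 : (a, b) ∈ J <;> by_cases x2 : (b, c) ∈ J <;> by_cases x3 : (c, a) ∈ J <;>
          simp only [x1, x2, x3, if_true, if_false] at hp ⊢ <;> first | decide | omega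
      · rw [if_neg hr] at hp ⊢
        by_cases x1 : (a, b) ∈ J <;> by_cases x2 : (b, c) ∈ J <;> by_cases x3 : (c, a) ∈ J <;>
          simp only [x1, x2, x3, if_true, if_false] at hp ⊢ <;> first | decide | omega)
  refine ⟨fun a => decide (σ a = 1), fun a b hab ha hb => ?_⟩
  have h := hσ a b hab
  rw [nn_hp ha hb, Int.cast_zero, add_zero] at h
  by_cases hx : occ J a b
  · rw [if_pos hx] at h
    simp only [hx, iff_true, ne_eq, decide_eq_decide]
    generalize σ a = u at h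
    generalize σ b = v at h
    revert u v
    decide
  · rw [if_neg hx] at h
    simp only [hx, iff_false, ne_eq, not_not, decide_eq_decide]
    generalize σ a = u at h
    generalize σ b = v at h
    revert u v
    decide

/-! ### free sites and flips -/

/-- free site: no killed edge, no hull edge -/
def Fr (S : Finset ℂ) (N : Net ℂ) (v : ℂ) : Prop := ∀ b, Adj S v b →
  (v, b) ∉ N.kl ∧ (b, v) ∉ N.kl ∧ ¬ hullE S v b ∧ ¬ hullE S b v

/-- the boundary edges of `β` -/
def bd (S : Finset ℂ) (β : Finset ℂ) : Finset (ℂ × ℂ) :=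
  (S ×ˢ S).filter fun p => Adj S p.1 p.2 ∧ (p.1 ∈ β ↔ p.2 ∉ β)

theorem mem_bd {β : Finset ℂ} {a b : ℂ} : (a, b) ∈ bd S β ↔ Adj S a b ∧ (a ∈ β ↔ b ∉ β) := by
  unfold bd
  rw [mem_filter, mem_product]
  exact ⟨fun h => h.2, fun h => ⟨h.1.mem, h⟩⟩

theorem bd_symm {β : Finset ℂ} {a b : ℂ} : (a, b) ∈ bd S β ↔ (b, a) ∈ bd S β := by
  rw [mem_bd, mem_bd]
  have h3 : (a ∈ β ↔ b ∉ β) ↔ (b ∈ β ↔ a ∉ β) := by
    by_cases a ∈ β <;> by_cases b ∈ β <;> simp [*]
  rw [h3]
  exact ⟨fun h => ⟨h.1.symm, h.2⟩, fun h => ⟨h.1.symm, h.2⟩⟩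

theorem bd_end {β : Finset ℂ} {a b : ℂ} (h : (a, b) ∈ bd S β) : a ∈ β ∨ b ∈ β := by
  rw [mem_bd] at h
  by_cases ha : a ∈ β
  · exact Or.inl ha
  · right
    by_contra hb
    exact ha (h.2.2 hb)

theorem mem_flip_no {β : Finset ℂ} {p : ℂ × ℂ} (h : p ∉ bd S β) :
    p ∈ symmDiff J (bd S β) ↔ p ∈ J := by
  rw [Finset.mem_symmDiff]
  exact ⟨fun h1 => h1.elim (fun h2 => h2.1) (fun h2 => absurd h2.1 h), fun h1 => Or.inl ⟨h1, h⟩⟩

theorem xor_lem (p a q : Prop) (ha : a) : (p ∧ ¬ (a ∧ q) ∨ (a ∧ q) ∧ ¬ p) ↔ ¬ (p ↔ q) := by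
  by_cases p <;> by_cases q <;> simp [*]

theorem mem_flip {β : Finset ℂ} {a b : ℂ} (h : Adj S a b) :
    (a, b) ∈ symmDiff J (bd S β) ↔ ¬ ((a, b) ∈ J ↔ (a ∈ β ↔ b ∉ β)) := by
  rw [Finset.mem_symmDiff, mem_bd]
  exact xor_lem _ _ _ h

variable {N : Net ℂ}

theorem par_lem (x1 x2 x3 y1 y2 y3 : Prop) [Decidable x1] [Decidable x2] [Decidable x3]
    [Decidable y1] [Decidable y2] [Decidable y3] :
    ((if ¬ (x1 ↔ (y1 ↔ ¬ y2)) then 1 else 0) + (if ¬ (x2 ↔ (y2 ↔ ¬ y3)) then 1 else 0) +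
      (if ¬ (x3 ↔ (y3 ↔ ¬ y1)) then 1 else 0) : ℕ) % 2 =
    ((if x1 then 1 else 0) + (if x2 then 1 else 0) + (if x3 then 1 else 0) : ℕ) % 2 := by
  by_cases x1 <;> by_cases x2 <;> by_cases x3 <;> by_cases y1 <;> by_cases y2 <;> by_cases y3 <;>
    simp [*]

/-- **flips** -/
theorem flip_mem (H : HNet S N) {β : Finset ℂ} (hβ : ∀ v ∈ β, Fr S N v) (hJ : J ∈ N.tj t) :
    symmDiff J (bd S β) ∈ N.tj t := by
  have hJ' := mem_joins.1 hJ
  have hG := H.tri
  refine mem_joins.2 ⟨?_, ?_, ?_, ?_, ?_, ?_⟩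
  · intro p hp
    rw [Finset.mem_symmDiff] at hp
    rcases hp with hp | hp
    · exact hJ'.sub hp.1
    · obtain ⟨a, b⟩ := p
      exact (mem_E hG).2 (mem_bd.1 hp.1).1
  · intro a b h1 h2
    have h3 := hJ'.sym a b h1 h2
    have h4 : (a, b) ∈ bd S β ↔ (b, a) ∈ bd S β := bd_symm
    rw [Finset.mem_symmDiff, Finset.mem_symmDiff, h3, h4]
  · intro a b h
    have h1 := hJ'.mark a b h
    have hh : hullE S a b := by
      obtain ⟨k, hk⟩ := h
      have := H.hex k
      rw [hk] at this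
      exact this
    have hab : Adj S a b := Or.inl hh.1
    have hno : (a, b) ∉ bd S β := by
      intro h2
      rcases bd_end h2 with h3 | h3
      · exact (hβ a h3 b hab).2.2.1 hh
      · exact (hβ b h3 a hab.symm).2.2.2 hh
    have hno' : (b, a) ∉ bd S β := fun h2 => hno (bd_symm.2 h2)
    rw [mem_flip_no hno, mem_flip_no hno']
    exact h1
  · intro a b h1 h2
    have h3 := hJ'.bdr a b h1 h2
    have hno : (a, b) ∉ bd S β := by
      intro h4
      have hab := (mem_bd.1 h4).1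
      rw [hG] at h1
      have hh : hullE S a b := by
        refine ⟨?_, h1⟩
        rcases hab with h5 | ⟨c, h5⟩
        · exact h5
        · exact absurd h5 (h1 c)
      rcases bd_end h4 with h5 | h5
      · exact (hβ a h5 b hab).2.2.1 hh
      · exact (hβ b h5 a hab.symm).2.2.2 hh
    have hno' : (b, a) ∉ bd S β := fun h2 => hno (bd_symm.2 h2)
    rw [mem_flip_no hno, mem_flip_no hno']
    exact h3
  · intro a b h1 h2 h2'
    have h3 := hJ'.kill a b h1 h2 h2'
    have hno : (a, b) ∉ bd S β := by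
      intro h4
      have hab := (mem_bd.1 h4).1
      rcases bd_end h4 with h5 | h5
      · exact (hβ a h5 b hab).1 h1
      · exact (hβ b h5 a hab.symm).2.1 h1
    have hno' : (b, a) ∉ bd S β := fun h2 => hno (bd_symm.2 h2)
    rw [mem_flip_no hno, mem_flip_no hno']
    exact h3
  · intro a b c h
    have hp := hJ'.par a b c h
    rw [hG] at h
    have h1 := adj_tri h
    have h2 := adj_tri (delT_rot H.gp h)
    have h3 := adj_tri (delT_rot H.gp (delT_rot H.gp h))
    rw [← hp]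
    simp only [mem_flip h1, mem_flip h2, mem_flip h3]
    exact par_lem _ _ _ _ _ _

/-- occupied edges after a flip of free sites -/
theorem occ_flip_iff (H : HNet S N) {β : Finset ℂ} (hβ : ∀ v ∈ β, Fr S N v) (hJ : J ∈ N.tj t)
    {a b : ℂ} (hab : Adj S a b) :
    occ (symmDiff J (bd S β)) a b ↔ ¬ (occ J a b ↔ (a ∈ β ↔ b ∉ β)) := by
  have hJ' := mem_joins.1 hJ
  by_cases h1 : (a, b) ∈ N.exS ∨ (b, a) ∈ N.exS
  · -- a mark: not touched
    have hh : hullE S a b ∨ hullE S b a := by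
      rcases h1 with ⟨k, hk⟩ | ⟨k, hk⟩
      · left
        have := H.hex k
        rw [hk] at this
        exact this
      · right
        have := H.hex k
        rw [hk] at this
        exact this
    have ha : a ∉ β := fun h => by
      have := hβ a h b hab
      exact hh.elim this.2.2.1 this.2.2.2
    have hb : b ∉ β := fun h => by
      have := hβ b h a hab.symm
      exact hh.elim this.2.2.2 this.2.2.1
    have hno : (a, b) ∉ bd S β := fun h => (bd_end h).elim ha hb
    have hno' : (b, a) ∉ bd S β := fun h => hno (bd_symm.2 h)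
    unfold occ
    rw [mem_flip_no hno, mem_flip_no hno']
    have h4 : (a ∈ β ↔ b ∉ β) ↔ False := iff_false_intro fun h => ha (h.2 hb)
    rw [h4, iff_false, not_not]
  · push Not at h1
    have h2 : (a, b) ∈ J ↔ (b, a) ∈ J := hJ'.sym a b h1.1 h1.2
    have h3 : (a ∈ β ↔ b ∉ β) ↔ (b ∈ β ↔ a ∉ β) := by
      by_cases a ∈ β <;> by_cases b ∈ β <;> simp [*]
    unfold occ
    rw [mem_flip hab, mem_flip hab.symm, h2, h3, or_self, or_self]

/-- the sum over the joins is invariant under a flip -/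
theorem sum_flip (H : HNet S N) {β : Finset ℂ} (hβ : ∀ v ∈ β, Fr S N v)
    (f : Finset (ℂ × ℂ) → ℝ) :
    ∑ J ∈ N.tj t, f (symmDiff J (bd S β)) = ∑ J ∈ N.tj t, f J := by
  apply sum_bij (fun J _ => symmDiff J (bd S β))
  · intro J hJ; exact flip_mem H hβ hJ
  · intro J _ J' _ h; exact symmDiff_left_injective _ h
  · intro J hJ
    exact ⟨symmDiff J (bd S β), flip_mem H hβ hJ, symmDiff_symmDiff_cancel_right _ J⟩
  · intro _ _; rfl

/-- **the colours of free sites are fair** -/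
theorem sum_ex (H : HNet S N) {V : Finset ℂ} (hV : ∀ v ∈ V, Fr S N v)
    (f : Finset (ℂ × ℂ) → ℝ) :
    ∑ J ∈ N.tj t, f J = ∑ J ∈ N.tj t, ex V (fun β => f (symmDiff J (bd S β))) := by
  unfold ex
  rw [← sum_div, sum_comm]
  have h1 : ∀ β ∈ V.powerset, ∑ J ∈ N.tj t, f (symmDiff J (bd S β)) = ∑ J ∈ N.tj t, f J :=
    fun β hβ => sum_flip H (fun v hv => hV v (mem_powerset.1 hβ hv)) f
  rw [sum_congr rfl h1, sum_const, card_powerset, nsmul_eq_mul]
  push_cast
  field_simp

/-! ### crossing clusters -/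

/-- number of the `J`-free clusters of `V` which cross from `q` to `o` -/
def NJ (S : Finset ℂ) (J : Finset (ℂ × ℂ)) (q o : Set ℂ) (V : Finset ℂ) : ℕ :=
  (cls (JF S J) q o V).card

variable {V T : Finset ℂ} {q o : Set ℂ}

/-- clusters of a colouring -/
theorem cl_gauge (hT : T ⊆ V)
    (h : ∀ a ∈ V, ∀ b ∈ V, Adj S a b → (occ J a b ↔ (a ∈ T ↔ b ∉ T))) {a : ℂ} (ha : a ∈ V) :
    (∀ b, Jn (JF S J) V a b → (a ∈ T ↔ b ∈ T) ∧ b ∈ V ∧
      Jn (Adj S) (if a ∈ T then T else V \ T) a b) ∧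
    ∀ b, Jn (Adj S) (if a ∈ T then T else V \ T) a b → Jn (JF S J) V a b := by
  constructor
  · intro b hab
    induction hab with
    | refl => exact ⟨Iff.rfl, ha, Relation.ReflTransGen.refl⟩
    | @tail b c _ h2 ih =>
        obtain ⟨h3, hb, hc⟩ := h2
        obtain ⟨i1, _, i3⟩ := ih
        have h4 := h b hb c hc h3.1
        have h5 : b ∈ T ↔ c ∈ T := by
          have h6 := h3.2
          tauto
        refine ⟨i1.trans h5, hc, i3.tail ⟨h3.1, ?_, ?_⟩⟩
        · split_ifs with h7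
          · exact i1.1 h7
          · exact mem_sdiff.2 ⟨hb, fun h8 => h7 (i1.2 h8)⟩
        · split_ifs with h7
          · exact h5.1 (i1.1 h7)
          · exact mem_sdiff.2 ⟨hc, fun h8 => h7 (i1.2 (h5.2 h8))⟩
  · intro b hab
    induction hab with
    | refl => exact Relation.ReflTransGen.refl
    | @tail b c _ h2 ih =>
        obtain ⟨h3, hb, hc⟩ := h2
        have hbV : b ∈ V ∧ c ∈ V ∧ (b ∈ T ↔ c ∈ T) := by
          split_ifs at hb hc with h7
          · exact ⟨hT hb, hT hc, by tauto⟩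
          · rw [mem_sdiff] at hb hc
            exact ⟨hb.1, hc.1, by tauto⟩
        refine ih.tail ⟨⟨h3, ?_⟩, hbV.1, hbV.2.1⟩
        rw [h b hbV.1 c hbV.2.1 h3]
        have := hbV.2.2
        tauto

theorem cls_gauge (hT : T ⊆ V)
    (h : ∀ a ∈ V, ∀ b ∈ V, Adj S a b → (occ J a b ↔ (a ∈ T ↔ b ∉ T))) :
    cls (JF S J) q o V ⊆ cls (Adj S) q o T ∪ cls (Adj S) q o (V \ T) := by
  intro c hc
  unfold cls at hc
  rw [mem_image] at hc
  obtain ⟨a, ha, rfl⟩ := hc
  rw [mem_filter] at ha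
  obtain ⟨haV, haq, b, hb, hbo, hab⟩ := ha
  obtain ⟨k1, k2⟩ := cl_gauge hT h haV
  have hcl : Cl (JF S J) V a = Cl (Adj S) (if a ∈ T then T else V \ T) a := by
    ext y
    unfold Cl
    rw [mem_filter, mem_filter]
    constructor
    · rintro ⟨hy, hay⟩
      obtain ⟨h1, -, h3⟩ := k1 y hay
      refine ⟨?_, h3⟩
      split_ifs with h7
      · exact h1.1 h7
      · exact mem_sdiff.2 ⟨hy, fun h8 => h7 (h1.2 h8)⟩
    · rintro ⟨hy, hay⟩
      refine ⟨?_, k2 y hay⟩
      split_ifs at hy with h7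
      · exact hT hy
      · exact (mem_sdiff.1 hy).1
  rw [hcl]
  obtain ⟨h1, -, h3⟩ := k1 b hab
  rw [mem_union]
  by_cases h7 : a ∈ T
  · left
    simp only [if_pos h7] at h3 ⊢
    unfold cls
    exact mem_image_of_mem _ (mem_filter.2 ⟨h7, haq, b, h1.1 h7, hbo, h3⟩)
  · right
    simp only [if_neg h7] at h3 ⊢
    unfold cls
    exact mem_image_of_mem _ (mem_filter.2 ⟨mem_sdiff.2 ⟨haV, h7⟩, haq, b,
      mem_sdiff.2 ⟨hb, fun h8 => h7 (h1.2 h8)⟩, hbo, h3⟩)

/-- **crossing clusters after a flip**: there is a fixed set `τ` such that the clusters are those of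
the colouring `β xor τ` -/
theorem NJ_le (H : HNet S N) (ht : t ∈ delT S) (hx : InO' x t) (hJ : J ∈ N.tj t)
    {e : ℂ} (he : e ≠ 0) (hV : ∀ v ∈ V, HP e x v) :
    ∃ τ : Finset ℂ, τ ⊆ V ∧ ∀ β : Finset ℂ, (∀ v ∈ β, Fr S N v) →
      NJ S (symmDiff J (bd S β)) q o V ≤
        (cls (Adj S) q o (symmDiff (β ∩ V) τ)).card +
        (cls (Adj S) q o (V \ symmDiff (β ∩ V) τ)).card := by
  obtain ⟨σ, hσ⟩ := gauge H.gp H.tri (HNet.hullM H) (mem_joins.1 hJ) ht hx he
  refine ⟨V.filter fun v => σ v = true, filter_subset _ _, fun β hβ => ?_⟩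
  have hT : symmDiff (β ∩ V) (V.filter fun v => σ v = true) ⊆ V :=
    (symmDiff_le_sup (a := β ∩ V) (b := V.filter fun v => σ v = true)).trans
      (union_subset inter_subset_right (filter_subset _ _))
  unfold NJ
  refine (card_le_card (cls_gauge hT ?_)).trans (card_union_le _ _)
  intro a ha b hb hab
  rw [occ_flip_iff H hβ hJ hab, ← hσ a b hab (hV a ha) (hV b hb)]
  rw [Finset.mem_symmDiff, Finset.mem_symmDiff, mem_inter, mem_inter, mem_filter, mem_filter]
  rcases h1 : σ a <;> rcases h2 : σ b <;> simp only [ha, hb] <;> tauto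

/-- **exponential moment of the crossing numbers of disjoint regions** -/
theorem sum_prod_le (H : HNet S N) (ht : t ∈ delT S) (hx : InO' x t) {ι : Type*} (s : Finset ι)
    {V : ι → Finset ℂ} {q o : ι → Set ℂ} (hfr : ∀ i ∈ s, ∀ v ∈ V i, Fr S N v)
    (hhp : ∀ i ∈ s, ∃ e : ℂ, e ≠ 0 ∧ ∀ v ∈ V i, HP e x v)
    (hd : ∀ i ∈ s, ∀ j ∈ s, i ≠ j → Disjoint (V i) (V j)) {p y : ℝ}
    (hp : ∀ i ∈ s, pr (V i) (Crs (Adj S) (q i) (o i)) ≤ p) (hy : 1 ≤ y) (hyp : y ^ 2 * p < 1) :
    ∑ J ∈ N.tj t, ∏ i ∈ s, y ^ NJ S J (q i) (o i) (V i) ≤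
      ((N.tj t).card : ℝ) * (1 / (1 - y ^ 2 * p)) ^ s.card := by
  set W : Finset ℂ := s.biUnion V with hW
  have hWfr : ∀ v ∈ W, Fr S N v := by
    intro v hv
    rw [hW, mem_biUnion] at hv
    obtain ⟨i, hi, hv⟩ := hv
    exact hfr i hi v hv
  rw [sum_ex H hWfr, ← nsmul_eq_mul]
  refine sum_le_card_nsmul _ _ _ fun J hJ => ?_
  have h1 : ∀ i ∈ s, ∃ τ : Finset ℂ, τ ⊆ V i ∧ ∀ β : Finset ℂ, (∀ v ∈ β, Fr S N v) →
      NJ S (symmDiff J (bd S β)) (q i) (o i) (V i) ≤
        (cls (Adj S) (q i) (o i) (symmDiff (β ∩ V i) τ)).card +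
        (cls (Adj S) (q i) (o i) (V i \ symmDiff (β ∩ V i) τ)).card := by
    intro i hi
    obtain ⟨e, he, hv⟩ := hhp i hi
    exact NJ_le H ht hx hJ he hv
  choose! τ hτ hN using h1
  set f : ι → Finset ℂ → ℝ := fun i β =>
    y ^ ((cls (Adj S) (q i) (o i) (symmDiff β (τ i))).card +
      (cls (Adj S) (q i) (o i) (V i \ symmDiff β (τ i))).card) with hf
  have h2 : ex W (fun β => ∏ i ∈ s, y ^ NJ S (symmDiff J (bd S β)) (q i) (o i) (V i)) ≤
      ex W (fun β => ∏ i ∈ s, f i (β ∩ V i)) := by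
    apply ex_mono
    intro β hβ
    apply prod_le_prod (fun i _ => by positivity)
    intro i hi
    rw [hf]
    dsimp only
    exact pow_le_pow_right₀ hy (hN i hi β fun v hv => hWfr v (hβ hv))
  refine h2.trans ?_
  rw [ex_prod s (fun i hi => subset_biUnion_of_mem V hi) hd]
  have h3 : ∀ i ∈ s, ex (V i) (f i) ≤ 1 / (1 - y ^ 2 * p) := by
    intro i hi
    have h4 := ex_symm (V := V i) (hτ i hi) (fun β =>
      y ^ ((cls (Adj S) (q i) (o i) β).card + (cls (Adj S) (q i) (o i) (V i \ β)).card))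
    rw [hf]
    dsimp only
    rw [h4]
    exact cls_exp2 (fun a b h => h.symm) (hp i hi) hyp
  have h5 : ∀ i ∈ s, 0 ≤ ex (V i) (f i) := fun i _ => ex_nonneg fun β _ => by
    rw [hf]; positivity
  refine (prod_le_prod h5 h3).trans ?_
  rw [prod_const]

end Crest.Agent.R143.XW3x315
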