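import Crest.Agent.R143.XW3_315

/-!
# R143, block X, winding tail XW (helper315), part 4: abstract winding bound

* `Reg` : a region in a half plane seen from `x`, with its free sites, whose other sites are
  connected by empty edges
* `lab_count` : number of the components of reachable sites of a region
* `wind_le` : deterministic bound of the rotation
* `wind_exp` : exponential moment of the rotation
-/

set_option autoImplicit false

noncomputable section

open scoped Classical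

namespace Crest.Agent.R143.XW4x315

open Finset
open Crest.Agent.R143.B0x346 Crest.Agent.R143.DelGx806 Crest.Agent.R143.DelRx806
open Crest.Agent.R143.B0Dx346 Crest.Agent.R143.JColx54 Crest.Agent.R143.JCol2x54
open Crest.Agent.R143.JCardx872 Crest.Agent.R143.JWalkx872
open Crest.Agent.R143.Planarx54 Crest.Agent.R143.Planar2x54
open Crest.Agent.R143.Harx315 Crest.Agent.R143.XW1x315 Crest.Agent.R143.XW2x315
open Crest.Agent.R143.XW3x315

variable {S : Finset ℂ} {N : Net ℂ} {J : Finset (ℂ × ℂ)} {t : ℂ × ℂ × ℂ} {x : ℂ}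

/-- empty edges inside `Q` -/
def JFQ (S : Finset ℂ) (J : Finset (ℂ × ℂ)) (Q : Set ℂ) (a b : ℂ) : Prop :=
  JF S J a b ∧ a ∈ Q ∧ b ∈ Q

theorem JFQ.symm {Q : Set ℂ} {a b : ℂ} (h : JFQ S J Q a b) : JFQ S J Q b a :=
  ⟨h.1.symm, h.2.2, h.2.1⟩

theorem rtg_symm {X : Type*} {r : X → X → Prop} (hr : ∀ x y, r x y → r y x) {x y : X}
    (h : Relation.ReflTransGen r x y) : Relation.ReflTransGen r y x := by
  induction h with
  | refl => exact Relation.ReflTransGen.refl
  | tail _ h2 ih => exact Relation.ReflTransGen.head (hr _ _ h2) ih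

theorem rtg_mono {X : Type*} {r s : X → X → Prop} (hr : ∀ x y, r x y → s x y) {x y : X}
    (h : Relation.ReflTransGen r x y) : Relation.ReflTransGen s x y := by
  induction h with
  | refl => exact Relation.ReflTransGen.refl
  | tail _ h2 ih => exact ih.tail (hr _ _ h2)

/-- component in `Q` -/
def comp (S : Finset ℂ) (J : Finset (ℂ × ℂ)) (Q : Set ℂ) (a : ℂ) : Finset ℂ :=
  S.filter fun b => Relation.ReflTransGen (JFQ S J Q) a b

theorem comp_eq {Q : Set ℂ} {a b : ℂ} (h : Relation.ReflTransGen (JFQ S J Q) a b) :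
    comp S J Q a = comp S J Q b := by
  unfold comp
  apply filter_congr
  intro c _
  exact ⟨fun h1 => (rtg_symm (fun _ _ h => h.symm) h).trans h1, fun h1 => h.trans h1⟩

theorem mem_comp {Q : Set ℂ} {a : ℂ} (ha : a ∈ S) : a ∈ comp S J Q a :=
  mem_filter.2 ⟨ha, Relation.ReflTransGen.refl⟩

/-- a region -/
structure Reg (S : Finset ℂ) (N : Net ℂ) (t : ℂ × ℂ × ℂ) (x : ℂ) (q Q Qp : Set ℂ)
    (V : Finset ℂ) : Prop where
  qQ : q ⊆ Q
  QQp : ∀ a ∈ S, a ∈ Q → a ∈ Qp
  hp : ∃ e : ℂ, e ≠ 0 ∧ ∀ a ∈ S, a ∈ Qp → HP e x a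
  start : t.2.1 ∉ Q
  VS : ∀ a ∈ V, a ∈ S ∧ a ∈ Qp ∧ Fr S N a
  wall : ∀ J ∈ N.tj t, ∀ a ∈ S, a ∈ Q → a ∉ V → ∀ b ∈ S, b ∈ Q → b ∉ V →
    Relation.ReflTransGen (JFQ S J Qp) a b

/-- entry sites -/
def ent (S : Finset ℂ) (Q : Set ℂ) : Set ℂ := {a | ∃ b, Adj S a b ∧ b ∉ Q}

variable {q Q Qp : Set ℂ} {V : Finset ℂ}

theorem walk_case (hQ : ∀ a ∈ S, a ∈ Q → a ∈ Qp) {a b : ℂ}
    (hbS : b ∈ S) (hbQ : b ∈ Q)
    (h : Relation.ReflTransGen (fun y z => JF S J y z ∧ y ∈ Q ∧ z ∈ Q) b a) :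
    (∃ w ∈ S, w ∈ Q ∧ w ∉ V ∧ Relation.ReflTransGen (JFQ S J Qp) w a) ∨
      (b ∈ V ∧ a ∈ V ∧ Jn (JF S J) V b a) := by
  induction h with
  | refl =>
      by_cases hb : b ∈ V
      · exact Or.inr ⟨hb, hb, Relation.ReflTransGen.refl⟩
      · exact Or.inl ⟨b, hbS, hbQ, hb, Relation.ReflTransGen.refl⟩
  | @tail c a _ h2 ih =>
      obtain ⟨h3, hc, ha⟩ := h2
      have hcS := h3.1.mem.1
      have haS := h3.1.mem.2
      rcases ih with ⟨w, hw1, hw2, hw3, hw4⟩ | ⟨h4, h5, h6⟩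
      · exact Or.inl ⟨w, hw1, hw2, hw3, hw4.tail ⟨h3, hQ c hcS hc, hQ a haS ha⟩⟩
      · by_cases haV : a ∈ V
        · exact Or.inr ⟨h4, haV, h6.tail ⟨h3, h5, haV⟩⟩
        · exact Or.inl ⟨a, haS, ha, haV, Relation.ReflTransGen.refl⟩

/-- **number of the components of a region** -/
theorem lab_count (hR : Reg S N t x q Q Qp V) (hJ : J ∈ N.tj t) :
    ((S.filter fun a => a ∈ q ∧ Relation.ReflTransGen (JF S J) t.2.1 a).image
      (comp S J Qp)).card ≤ 1 + NJ S J q (ent S Q) V := by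
  set g : Finset ℂ → Finset ℂ := fun c => if h : c.Nonempty then comp S J Qp h.choose else ∅ with hg
  set cw : Finset ℂ := if h : ∃ w ∈ S, w ∈ Q ∧ w ∉ V then comp S J Qp h.choose else ∅ with hcw
  have hsub : (S.filter fun a => a ∈ q ∧ Relation.ReflTransGen (JF S J) t.2.1 a).image
      (comp S J Qp) ⊆ insert cw ((cls (JF S J) q (ent S Q) V).image g) := by
    intro c hc
    rw [mem_image] at hc
    obtain ⟨a, ha, rfl⟩ := hc
    rw [mem_filter] at ha
    obtain ⟨haS, haq, hreach⟩ := ha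
    obtain ⟨a0, b, -, ha0, hab, hb, hpath⟩ := last_entry hR.start (hR.qQ haq) hreach
    have hbS : b ∈ S := hab.1.mem.2
    rcases walk_case (V := V) hR.QQp hbS hb hpath with ⟨w, w1, w2, w3, w4⟩ | ⟨h4, h5, h6⟩
    · rw [mem_insert]
      left
      have hex : ∃ w ∈ S, w ∈ Q ∧ w ∉ V := ⟨w, w1, w2, w3⟩
      rw [hcw, dif_pos hex]
      obtain ⟨k1, k2, k3⟩ := hex.choose_spec
      rw [← comp_eq w4]
      exact comp_eq (hR.wall J hJ w w1 w2 w3 _ k1 k2 k3)
    · rw [mem_insert]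
      right
      have hcl : Cl (JF S J) V a ∈ cls (JF S J) q (ent S Q) V := by
        unfold cls
        refine mem_image_of_mem _ (mem_filter.2 ⟨h5, haq, b, h4, ⟨a0, hab.1.symm, ha0⟩, ?_⟩)
        exact h6.symm fun _ _ h => h.symm
      refine mem_image.2 ⟨_, hcl, ?_⟩
      have haC : a ∈ Cl (JF S J) V a := by
        unfold Cl; exact mem_filter.2 ⟨h5, Relation.ReflTransGen.refl⟩
      have hne : (Cl (JF S J) V a).Nonempty := ⟨a, haC⟩
      rw [hg]
      dsimp only
      rw [dif_pos hne]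
      have h7 := hne.choose_spec
      unfold Cl at h7
      rw [mem_filter] at h7
      symm
      apply comp_eq
      refine rtg_mono ?_ h7.2
      rintro y z ⟨h8, h9, h10⟩
      exact ⟨h8, (hR.VS y h9).2.1, (hR.VS z h10).2.1⟩
  refine (card_le_card hsub).trans ((card_insert_le _ _).trans ?_)
  rw [add_comm]
  exact Nat.add_le_add_left card_image_le _

/-! ### the deterministic bound -/

/-- the potential along empty edges in a half plane -/
theorem pot_hp {A : ℂ → ℝ} (hA : ∀ a b, JF S J a b → ang x a b = A b - A a) {e : ℂ}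
    (he : ∀ a ∈ S, a ∈ Qp → HP e x a) {a b : ℂ} (h : Relation.ReflTransGen (JFQ S J Qp) a b) :
    a = b ∨ (HP e x a ∧ HP e x b ∧ A b - A a = L e x b - L e x a) := by
  induction h with
  | refl => exact Or.inl rfl
  | @tail c b _ h2 ih =>
      obtain ⟨h3, hc, hb⟩ := h2
      have hc' := he c h3.1.mem.1 hc
      have hb' := he b h3.1.mem.2 hb
      have h4 := hA c b h3
      rw [ang_hp hc' hb'] at h4
      rcases ih with rfl | ⟨i1, -, i3⟩
      · exact Or.inr ⟨hc', hb', by linarith⟩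
      · exact Or.inr ⟨i1, hb', by linarith⟩

theorem pot_le {A : ℂ → ℝ} (hA : ∀ a b, JF S J a b → ang x a b = A b - A a) {e : ℂ}
    (he : ∀ a ∈ S, a ∈ Qp → HP e x a) {a b : ℂ} (h : Relation.ReflTransGen (JFQ S J Qp) a b) :
    |A b - A a| ≤ Real.pi := by
  have hpi := Real.pi_pos
  rcases pot_hp hA he h with rfl | ⟨h1, h2, h3⟩
  · rw [sub_self, abs_zero]; exact hpi.le
  · rw [h3, abs_le]
    have k1 := h1.arg
    have k2 := h2.arg
    constructor <;> linarith [k1.1, k1.2, k2.1, k2.2]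

theorem abs_ang_le (x a b : ℂ) : |ang x a b| ≤ Real.pi := Complex.abs_arg_le_pi _

/-- bound of an integer by its lifted direction -/
theorem lift_abs {lf : ℤ → ℝ} (hl : Lift N x lf) (k : ℤ) :
    2 * Real.pi / 3 * |(k : ℝ)| ≤ |lf k - lf 0| + 2 * Real.pi := by
  have hpi := Real.pi_pos
  have hk := Int.mul_ediv_add_emod k 3
  set m := k / 3 with hm
  set r := k % 3 with hr
  have hr0 : 0 ≤ r := Int.emod_nonneg _ (by norm_num)
  have hr3 : r < 3 := Int.emod_lt_of_pos _ (by norm_num)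
  have e1 : lf k = lf r + m * (2 * Real.pi) := by
    have h1 := per_mul hl.per r m
    rw [← h1]
    congr 1
    omega
  have h2 : lf 0 ≤ lf r := hl.mono.monotone hr0
  have h3 : lf r < lf 0 + 2 * Real.pi := by
    rw [← hl.per 0]
    exact hl.mono (by omega)
  have e2 : (k : ℝ) = 3 * m + r := by exact_mod_cast hk.symm
  have r0 : (0 : ℝ) ≤ r := by exact_mod_cast hr0
  have r2 : (r : ℝ) ≤ 2 := by
    have : r ≤ 2 := by omega
    exact_mod_cast this
  have e3 : 2 * Real.pi / 3 * (k : ℝ) = (lf k - lf 0) - (lf r - lf 0) + 2 * Real.pi / 3 * r := by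
    rw [e1, e2]; ring
  have h4 : |2 * Real.pi / 3 * (k : ℝ)| ≤ |lf k - lf 0| + 2 * Real.pi := by
    have h5 : |2 * Real.pi / 3 * r - (lf r - lf 0)| ≤ 2 * Real.pi := by
      rw [abs_le]
      constructor
      · have : 0 ≤ 2 * Real.pi / 3 * r := by positivity
        linarith
      · have : 2 * Real.pi / 3 * r ≤ 2 * Real.pi / 3 * 2 :=
          mul_le_mul_of_nonneg_left r2 (by positivity)
        linarith
    have h6 := abs_add_le (lf k - lf 0) (2 * Real.pi / 3 * r - (lf r - lf 0))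
    have e4 : (lf k - lf 0) + (2 * Real.pi / 3 * r - (lf r - lf 0)) = 2 * Real.pi / 3 * (k : ℝ) := by
      rw [e3]; ring
    rw [e4] at h6
    linarith
  rwa [abs_mul, abs_of_pos (by positivity : (0 : ℝ) < 2 * Real.pi / 3)] at h4

variable {ι : Type*}

/-- **deterministic bound of the rotation** -/
theorem wind_le (H : HNet S N) (ht : t ∈ delT S) (hx : InO' x t) {lf : ℤ → ℝ} (hl : Lift N x lf)
    {a0 : ℝ} (hJ : J ∈ N.tj t) (hk : ∃ k, N.TriK t x lf a0 k J) {F0 : ℂ → ℝ} {M1 : ℝ}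
    (hM1 : 0 ≤ M1) (hF0 : ∀ a, |F0 a| ≤ M1) {Z : Set ℂ}
    (hZ : ∀ a b, Adj S a b → a ∉ Z → b ∉ Z → ang x a b = F0 b - F0 a)
    {core : Finset ℂ} {I : Finset ι} {q Q Qp : ι → Set ℂ} {V : ι → Finset ℂ}
    (hR : ∀ i ∈ I, Reg S N t x (q i) (Q i) (Qp i) (V i))
    (hcov : ∀ a ∈ S, a ∈ Z → a ∈ core ∨ ∃ i ∈ I, a ∈ q i) :
    2 * Real.pi / 3 * |(rotK N t x lf a0 J : ℝ)| ≤
      (core.card + ∑ i ∈ I, (1 + NJ S J (q i) (ent S (Q i)) (V i)) : ℕ) *
        (3 * (Real.pi + 2 * M1)) + 2 * M1 + 4 * Real.pi + |a0 - lf 0| := by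
  have hpi := Real.pi_pos
  have hJ' := mem_joins.1 hJ
  -- the potential
  have hT : N.TriK t x lf a0 (rotK N t x lf a0 J) J := (triK_iff hl hk _).2 rfl
  set K := rotK N t x lf a0 J with hK
  obtain ⟨hocc, hE⟩ := tri3_iff.1 hT.1
  obtain ⟨n', p', hL⟩ := HNet.legs (S := S) (π := fun i => i + (K : ZMod 3)) hocc hE
  obtain ⟨A, hA0⟩ := cutArg H.gp H.tri (HNet.hullM H) ht hx hL 0
  have hA : ∀ a b, JF S J a b → ang x a b = A b - A a := by
    intro a b hab
    have h1 : (a, b) ∉ J ∧ (b, a) ∉ J := by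
      have := hab.2
      unfold occ at this
      exact not_or.1 this
    have h3 := hA0 a b hab.1
    rw [Fl_unocc (hL.wk 0) (hL.occ0 0) h1.1 h1.2] at h3
    push_cast at h3
    linarith
  -- the leg
  obtain ⟨n, p, hW, hp0, hpn, hTh⟩ := wk_of_leadsA hT.2
  have hs0 : ((p 0).2, (p 0).1) ∈ J := by rw [hp0]; exact hT.1.1
  have hD0 : p 0 ∉ N.exS := by
    rw [hp0]
    exact fun h' => HNet.hullM H _ _ h' t.2.2 ht
  have hang := (wk_ang H.gp H.tri (HNet.hullM H) hJ' ht hx
    (fun a b h1 h2 h3 => hA a b ⟨h1, by unfold occ; exact not_or.2 ⟨h2, h3⟩⟩) hW hs0 hD0 n le_rfl).1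
  have hreach : Relation.ReflTransGen (JF S J) t.2.1 (p n).1 := by
    have h1 := (wk_lr H.gp H.tri (HNet.hullM H) hJ'
      (σ := fun a => Relation.ReflTransGen (JF S J) t.2.1 a) (fun a b h1 h2 h3 => by
        have h4 : JF S J a b := ⟨h1, by unfold occ; exact not_or.2 ⟨h2, h3⟩⟩
        exact propext ⟨fun h => h.tail h4, fun h => h.tail h4.symm⟩) hW hs0 hD0 n le_rfl).1
    rw [h1, hp0]
  -- the labels
  set B : ℂ → ℝ := fun a => A a - F0 a with hB
  set lab : ℂ → Option ι × Finset ℂ := fun a => if a ∈ core then (none, {a}) else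
    if h : ∃ i ∈ I, a ∈ q i then (some h.choose, comp S J (Qp h.choose) a) else (none, ∅) with hlab
  set Fi : ι → Finset (Finset ℂ) := fun i =>
    (S.filter fun a => a ∈ q i ∧ Relation.ReflTransGen (JF S J) t.2.1 a).image
      (comp S J (Qp i)) with hFi
  set F : Finset (Option ι × Finset ℂ) := (core.image fun a => ((none : Option ι), ({a} : Finset ℂ))) ∪
    I.biUnion fun i => (Fi i).image fun c => (some i, c) with hF
  have hFcard : F.card ≤ core.card + ∑ i ∈ I, (1 + NJ S J (q i) (ent S (Q i)) (V i)) := by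
    rw [hF]
    refine (card_union_le _ _).trans (Nat.add_le_add card_image_le ?_)
    refine card_biUnion_le.trans (sum_le_sum fun i hi => ?_)
    exact card_image_le.trans (lab_count (hR i hi) hJ)
  have hbound : |B (p n).1 - B t.2.1| ≤ F.card * ((Real.pi + 2 * M1) + 2 * (Real.pi + 2 * M1)) := by
    refine label_bound2 (R := JF S J) (Z := {a | a ∈ S ∧ a ∈ Z}) (lab := lab) (B := B)
      ?_ ?_ ?_ (by linarith) (by linarith) F ?_ hreach
    · intro a b hab ha hb
      have h1 : a ∉ Z := fun h => ha ⟨hab.1.mem.1, h⟩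
      have h2 : b ∉ Z := fun h => hb ⟨hab.1.mem.2, h⟩
      have h3 := hZ a b hab.1 h1 h2
      have h4 := hA a b hab
      rw [hB]
      dsimp only
      linarith
    · intro a b hab
      have h4 := hA a b hab
      have h5 := abs_ang_le x a b
      rw [h4] at h5
      have h6 := hF0 a
      have h7 := hF0 b
      rw [hB]
      dsimp only
      rw [abs_le] at h5 h6 h7 ⊢
      constructor <;> linarith [h5.1, h5.2, h6.1, h6.2, h7.1, h7.2]
    · rintro a b ⟨haS, haZ⟩ ⟨hbS, hbZ⟩ hab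
      have key : ∀ c, c ∈ S → c ∈ Z → c ∉ core → ∃ i ∈ I, c ∈ q i ∧
          lab c = (some i, comp S J (Qp i) c) := by
        intro c hcS hcZ hcc
        have hex : ∃ i ∈ I, c ∈ q i := (hcov c hcS hcZ).resolve_left hcc
        refine ⟨hex.choose, hex.choose_spec.1, hex.choose_spec.2, ?_⟩
        rw [hlab]
        dsimp only
        rw [if_neg hcc, dif_pos hex]
      have key2 : ∀ c, c ∈ core → lab c = (none, {c}) := by
        intro c hc
        rw [hlab]
        dsimp only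
        rw [if_pos hc]
      by_cases hac : a ∈ core
      · by_cases hbc : b ∈ core
        · rw [key2 a hac, key2 b hbc, Prod.mk.injEq, Finset.singleton_inj] at hab
          rw [hab.2, sub_self, abs_zero]
          linarith
        · obtain ⟨i, -, -, h1⟩ := key b hbS hbZ hbc
          rw [key2 a hac, h1, Prod.mk.injEq] at hab
          exact absurd hab.1 (by simp)
      · by_cases hbc : b ∈ core
        · obtain ⟨i, -, -, h1⟩ := key a haS haZ hac
          rw [key2 b hbc, h1, Prod.mk.injEq] at hab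
          exact absurd hab.1 (by simp)
        · obtain ⟨i, hi, -, h1⟩ := key a haS haZ hac
          obtain ⟨j, -, -, h2⟩ := key b hbS hbZ hbc
          rw [h1, h2, Prod.mk.injEq, Option.some_inj] at hab
          obtain ⟨rfl, h3⟩ := hab
          have h4 : b ∈ comp S J (Qp i) a := by rw [h3]; exact mem_comp hbS
          unfold comp at h4
          rw [mem_filter] at h4
          obtain ⟨e, -, he⟩ := (hR i hi).hp
          have h5 := pot_le hA he h4.2
          have h6 := hF0 a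
          have h7 := hF0 b
          rw [hB]
          dsimp only
          rw [abs_le] at h5 h6 h7 ⊢
          constructor <;> linarith [h5.1, h5.2, h6.1, h6.2, h7.1, h7.2]
    · rintro a har ⟨haS, haZ⟩
      rw [hF, mem_union]
      by_cases hac : a ∈ core
      · left
        rw [hlab]
        dsimp only
        rw [if_pos hac]
        exact mem_image_of_mem _ hac
      · right
        have hex : ∃ i ∈ I, a ∈ q i := (hcov a haS haZ).resolve_left hac
        rw [hlab]
        dsimp only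
        rw [if_neg hac, dif_pos hex, mem_biUnion]
        refine ⟨hex.choose, hex.choose_spec.1, mem_image_of_mem _ ?_⟩
        rw [hFi]
        exact mem_image_of_mem _ (mem_filter.2 ⟨haS, hex.choose_spec.2, har⟩)
  -- the angle of the leg
  have hTh2 : |lf K - a0| ≤ |B (p n).1 - B t.2.1| + 2 * M1 + 2 * Real.pi := by
    rw [hTh, hang, hp0]
    have h5 := abs_ang_le x (p n).1 (mid (p n))
    have h5' := abs_ang_le x t.2.1 (mid (t.2.1, t.1))
    have h6 := hF0 (p n).1
    have h7 := hF0 t.2.1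
    have e1 : A (p n).1 + ang x (p n).1 (mid (p n)) - (A t.2.1 + ang x t.2.1 (mid (t.2.1, t.1))) =
        (B (p n).1 - B t.2.1) + ((F0 (p n).1 - F0 t.2.1) + (ang x (p n).1 (mid (p n)) -
          ang x t.2.1 (mid (t.2.1, t.1)))) := by
      rw [hB]; dsimp only; ring
    dsimp only
    rw [e1]
    refine (abs_add_le _ _).trans ?_
    have h8 : |(F0 (p n).1 - F0 t.2.1) + (ang x (p n).1 (mid (p n)) -
          ang x t.2.1 (mid (t.2.1, t.1)))| ≤ 2 * M1 + 2 * Real.pi := by
      rw [abs_le] at h5 h5' h6 h7 ⊢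
      constructor <;> linarith [h5.1, h5.2, h5'.1, h5'.2, h6.1, h6.2, h7.1, h7.2]
    linarith
  have hlift := lift_abs hl K
  have h9 : |lf K - lf 0| ≤ |lf K - a0| + |a0 - lf 0| := by
    have := abs_add_le (lf K - a0) (a0 - lf 0)
    rwa [sub_add_sub_cancel] at this
  have h10 : (F.card : ℝ) * ((Real.pi + 2 * M1) + 2 * (Real.pi + 2 * M1)) ≤
      (core.card + ∑ i ∈ I, (1 + NJ S J (q i) (ent S (Q i)) (V i)) : ℕ) *
        (3 * (Real.pi + 2 * M1)) := by
    have e : (Real.pi + 2 * M1) + 2 * (Real.pi + 2 * M1) = 3 * (Real.pi + 2 * M1) := by ring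
    rw [e]
    exact mul_le_mul_of_nonneg_right (by exact_mod_cast hFcard) (by linarith)
  linarith

/-! ### the exponential moment -/

/-- product of several numbers `≥ 1` -/
theorem prod_le_sum_pow {n : ℕ} (hn : 0 < n) {Y : Fin n → ℝ} (hY : ∀ c, 0 ≤ Y c) :
    ∏ c, Y c ≤ ∑ c, Y c ^ n := by
  have : Nonempty (Fin n) := ⟨⟨0, hn⟩⟩
  obtain ⟨c0, -, hc0⟩ := exists_max_image (univ : Finset (Fin n)) Y univ_nonempty
  calc ∏ c, Y c ≤ ∏ _c : Fin n, Y c0 := prod_le_prod (fun c _ => hY c) fun c hc => hc0 c hc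
    _ = Y c0 ^ n := by rw [prod_const, card_univ, Fintype.card_fin]
    _ ≤ ∑ c, Y c ^ n := single_le_sum (f := fun c => Y c ^ n) (fun c _ => pow_nonneg (hY c) n)
        (mem_univ c0)

/-- **exponential moment of the rotation** -/
theorem wind_exp (H : HNet S N) (ht : t ∈ delT S) (hx : InO' x t) {lf : ℤ → ℝ} (hl : Lift N x lf)
    {a0 : ℝ} {F0 : ℂ → ℝ} {M1 : ℝ}
    (hM1 : 0 ≤ M1) (hF0 : ∀ a, |F0 a| ≤ M1) {Z : Set ℂ}
    (hZ : ∀ a b, Adj S a b → a ∉ Z → b ∉ Z → ang x a b = F0 b - F0 a)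
    {core : Finset ℂ} {I : Finset ι} {q Q Qp : ι → Set ℂ} {V : ι → Finset ℂ}
    (hR : ∀ i ∈ I, Reg S N t x (q i) (Q i) (Qp i) (V i))
    (hcov : ∀ a ∈ S, a ∈ Z → a ∈ core ∨ ∃ i ∈ I, a ∈ q i)
    {n : ℕ} (hn : 0 < n) (cl : ι → Fin n)
    (hd : ∀ i ∈ I, ∀ j ∈ I, cl i = cl j → i ≠ j → Disjoint (V i) (V j)) {p s : ℝ} (hs : 0 ≤ s)
    (hp : ∀ i ∈ I, pr (V i) (Crs (Adj S) (q i) (ent S (Q i))) ≤ p)
    (hsp : Real.exp (s * (9 / (2 * Real.pi) * (Real.pi + 2 * M1)) * n) ^ 2 * p < 1) (hp0 : 0 ≤ p) :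
    ∑ J ∈ (N.tj t).filter (fun J => ∃ k, N.TriK t x lf a0 k J),
      Real.exp (s * |(rotK N t x lf a0 J : ℝ)|) ≤
    ((N.tj t).card : ℝ) * (n *
      Real.exp (s * (9 / (2 * Real.pi) * (Real.pi + 2 * M1)) * (core.card + I.card) +
        s * (3 / (2 * Real.pi) * (2 * M1 + 4 * Real.pi + |a0 - lf 0|))) *
      (1 / (1 - Real.exp (s * (9 / (2 * Real.pi) * (Real.pi + 2 * M1)) * n) ^ 2 * p)) ^ I.card) := by
  have hpi := Real.pi_pos
  set m : ℝ := 9 / (2 * Real.pi) * (Real.pi + 2 * M1) with hm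
  set m' : ℝ := 3 / (2 * Real.pi) * (2 * M1 + 4 * Real.pi + |a0 - lf 0|) with hm'
  have hm0 : 0 ≤ m := by rw [hm]; positivity
  set y : ℝ := Real.exp (s * m) with hy
  have hy1 : 1 ≤ y := Real.one_le_exp (by positivity)
  have hyn : y ^ n = Real.exp (s * m * n) := by
    rw [hy, ← Real.exp_nat_mul]; congr 1; ring
  set P : ℝ := 1 / (1 - Real.exp (s * m * n) ^ 2 * p) with hP
  have hP1 : 1 ≤ P := by
    rw [hP, le_div_iff₀ (by linarith)]
    have : 0 ≤ Real.exp (s * m * n) ^ 2 * p := by positivity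
    linarith
  set NN : ι → Finset (ℂ × ℂ) → ℕ := fun i J => NJ S J (q i) (ent S (Q i)) (V i) with hNN
  -- pointwise
  have h1 : ∀ J ∈ (N.tj t).filter (fun J => ∃ k, N.TriK t x lf a0 k J),
      Real.exp (s * |(rotK N t x lf a0 J : ℝ)|) ≤
        Real.exp (s * m * (core.card + I.card) + s * m') * ∏ i ∈ I, y ^ NN i J := by
    intro J hJ
    rw [mem_filter] at hJ
    have h2 := wind_le H ht hx hl hJ.1 hJ.2 hM1 hF0 hZ hR hcov
    have h3 : |(rotK N t x lf a0 J : ℝ)| ≤
        m * (core.card + I.card + ∑ i ∈ I, (NN i J : ℝ)) + m' := by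
      have e1 : |(rotK N t x lf a0 J : ℝ)| =
          3 / (2 * Real.pi) * (2 * Real.pi / 3 * |(rotK N t x lf a0 J : ℝ)|) := by
        field_simp
      rw [e1]
      refine (mul_le_mul_of_nonneg_left h2 (by positivity)).trans (le_of_eq ?_)
      rw [hm, hm']
      push_cast
      rw [sum_add_distrib, sum_const, nsmul_eq_mul, mul_one]
      ring
    have e2 : ∏ i ∈ I, y ^ NN i J = Real.exp (s * m * ∑ i ∈ I, (NN i J : ℝ)) := by
      rw [mul_sum, Real.exp_sum]
      apply prod_congr rfl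
      intro i _
      rw [hy, ← Real.exp_nat_mul]
      congr 1
      ring
    rw [e2, ← Real.exp_add]
    apply Real.exp_le_exp.2
    have := mul_le_mul_of_nonneg_left h3 hs
    linarith
  -- the classes
  have h4 : ∀ J, ∏ i ∈ I, y ^ NN i J ≤
      ∑ c : Fin n, ∏ i ∈ I.filter (fun i => cl i = c), (y ^ n) ^ NN i J := by
    intro J
    have e1 : ∏ i ∈ I, y ^ NN i J = ∏ c : Fin n, ∏ i ∈ I.filter (fun i => cl i = c), y ^ NN i J :=
      (prod_fiberwise I cl fun i => y ^ NN i J).symm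
    rw [e1]
    refine (prod_le_sum_pow hn fun c => prod_nonneg fun i _ => by positivity).trans (le_of_eq ?_)
    apply sum_congr rfl
    intro c _
    rw [← prod_pow]
    apply prod_congr rfl
    intro i _
    rw [← pow_mul, ← pow_mul, mul_comm]
  have hE : (0 : ℝ) ≤ Real.exp (s * m * (core.card + I.card) + s * m') := (Real.exp_pos _).le
  have h5 : ∑ J ∈ (N.tj t).filter (fun J => ∃ k, N.TriK t x lf a0 k J),
      Real.exp (s * |(rotK N t x lf a0 J : ℝ)|) ≤
      Real.exp (s * m * (core.card + I.card) + s * m') *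
        ∑ c : Fin n, ∑ J ∈ N.tj t, ∏ i ∈ I.filter (fun i => cl i = c), (y ^ n) ^ NN i J := by
    refine (sum_le_sum h1).trans ?_
    rw [← mul_sum, sum_comm]
    apply mul_le_mul_of_nonneg_left _ hE
    refine (sum_le_sum_of_subset_of_nonneg (filter_subset _ _) fun J _ _ =>
      prod_nonneg fun i _ => by positivity).trans ?_
    exact sum_le_sum fun J _ => h4 J
  refine h5.trans ?_
  have h6 : ∀ c ∈ (univ : Finset (Fin n)),
      ∑ J ∈ N.tj t, ∏ i ∈ I.filter (fun i => cl i = c), (y ^ n) ^ NN i J ≤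
        ((N.tj t).card : ℝ) * P ^ I.card := by
    intro c _
    have h7 := sum_prod_le H ht hx (I.filter fun i => cl i = c) (V := V) (q := q)
      (o := fun i => ent S (Q i)) (p := p) (y := y ^ n)
      (fun i hi v hv => ((hR i (mem_filter.1 hi).1).VS v hv).2.2)
      (fun i hi => by
        obtain ⟨e, he, h8⟩ := (hR i (mem_filter.1 hi).1).hp
        exact ⟨e, he, fun v hv => h8 v ((hR i (mem_filter.1 hi).1).VS v hv).1
          ((hR i (mem_filter.1 hi).1).VS v hv).2.1⟩)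
      (fun i hi j hj hij => hd i (mem_filter.1 hi).1 j (mem_filter.1 hj).1
        ((mem_filter.1 hi).2.trans (mem_filter.1 hj).2.symm) hij)
      (fun i hi => hp i (mem_filter.1 hi).1) (one_le_pow₀ hy1) (by rw [hyn]; exact hsp)
    rw [hyn] at h7 ⊢
    refine h7.trans ?_
    apply mul_le_mul_of_nonneg_left _ (by positivity)
    exact pow_le_pow_right₀ hP1 (card_le_card (filter_subset _ _))
  have h8 : ∑ c : Fin n, ∑ J ∈ N.tj t, ∏ i ∈ I.filter (fun i => cl i = c), (y ^ n) ^ NN i J ≤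
      n * (((N.tj t).card : ℝ) * P ^ I.card) := by
    refine (sum_le_card_nsmul _ _ _ h6).trans (le_of_eq ?_)
    rw [card_univ, Fintype.card_fin, nsmul_eq_mul]
  refine (mul_le_mul_of_nonneg_left h8 hE).trans (le_of_eq ?_)
  ring

end Crest.Agent.R143.XW4x315
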