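import Crest.Agent.R143.XW4_315
import Crest.Agent.R143.OA_831
import Crest.Agent.R143.Ad2_422

/-!
# R143, block X, winding tail XW (helper315), part 5: regions

* `crs_le` : a circuit blocks the crossings of a square annulus
* `reg_disc`, `wall_conn` : the regions around a point of the cut
* `reg_ray` : the region along a ray inside the outside
* `mesh_good`, `ldns_good` : hypotheses of `circ_pr` in a good environment
-/

set_option autoImplicit false

noncomputable section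

open scoped Classical

namespace Crest.Agent.R143.XW5x315

open Finset
open Crest.ProbabilityR.Voronoi
open Crest.Agent.R143.B0x346 Crest.Agent.R143.DelGx806 Crest.Agent.R143.DelRx806
open Crest.Agent.R143.B0Dx346 Crest.Agent.R143.JColx54 Crest.Agent.R143.JCol2x54
open Crest.Agent.R143.JCardx872
open Crest.Agent.R143.Planarx54 Crest.Agent.R143.Planar2x54
open Crest.Agent.R143.DomAx722 hiding ang
open Crest.Agent.R143.DomBx722
open Crest.Agent.R143.Harx315 Crest.Agent.R143.XW1x315 Crest.Agent.R143.XW2x315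
open Crest.Agent.R143.XW3x315 Crest.Agent.R143.XW4x315
open Crest.Agent.R143.CircPx838 Crest.Agent.R143.Blkx838 Crest.Agent.R143.RB0x838

variable {S : Finset ℂ} {N : Net ℂ} {J : Finset (ℂ × ℂ)} {t : ℂ × ℂ × ℂ} {x w : ℂ} {r : ℝ}
  {V : Finset ℂ}

/-! ### crossings of a square annulus -/

/-- the open square -/
def Sq (w : ℂ) (r : ℝ) : Set ℂ := {a | sup (a - w) < r}

/-- the closed square -/
def Sqc (w : ℂ) (r : ℝ) : Set ℂ := {a | sup (a - w) ≤ r}

theorem Sq_norm {a : ℂ} (h : a ∈ Sq w r) : ‖a - w‖ < 2 * r := by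
  have h1 := norm_le_sup (a - w)
  have h2 : sup (a - w) < r := h
  linarith

/-- a circuit of the other colour blocks the crossing -/
theorem block (hS : GP (S : Set ℂ)) {β : Finset ℂ} {c : List ℂ}
    (hc : CircC S w r (V \ β) c) : ¬ Crs (Adj S) (Sqc w r) (ent S (Sq w (2 * r))) β := by
  rintro ⟨a, b, ha, hb, haq, ⟨b', hbb, hb'⟩, hab⟩
  have hn : ∀ y ∈ β, y ∉ c := fun y hy hyc => (mem_sdiff.1 (hc.col y hyc)).2 hy
  have h1 : ToolWx838.asum a c = ToolWx838.asum b c := by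
    have key : ∀ y, Jn (Adj S) β a y → ToolWx838.asum a c = ToolWx838.asum y c := by
      intro y hy
      induction hy with
      | refl => rfl
      | tail _ h2 ih =>
          rw [ih]
          exact OAx831.asum_step hS hc.loop h2.1 (hn _ h2.2.1) (hn _ h2.2.2)
    exact key b hab
  have hb'2 : 2 * r ≤ sup (b' - w) := by
    by_contra h
    push Not at h
    exact hb' h
  have hb'c : b' ∉ c := fun h => by
    have := hc.up b' h
    linarith
  have h2 := OAx831.asum_step hS hc.loop hbb (hn b hb) hb'c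
  have h3 := hc.wind a haq
  have h4 := hc.out hb'2
  have hpi := Real.pi_pos
  rw [h1, h2, h4] at h3
  linarith

theorem crs_le (hS : GP (S : Set ℂ)) (hV : V ⊆ S.filter fun a => a ∈ Sq w (2 * r)) {c0 : ℝ}
    (hc : c0 ≤ pr (S.filter fun a => a ∈ Sq w (2 * r)) (fun β => ∃ c, CircC S w r β c)) :
    pr V (Crs (Adj S) (Sqc w r) (ent S (Sq w (2 * r)))) ≤ 1 - c0 := by
  set V' := S.filter fun a => a ∈ Sq w (2 * r) with hV'
  set A := Crs (Adj S) (Sqc w r) (ent S (Sq w (2 * r))) with hA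
  have hdep : Dep V' V (fun β => A (β ∩ V)) := by
    intro β _
    simp only [Finset.inter_assoc, Finset.inter_self]
  have h1 : pr V (fun β => A (β ∩ V)) = pr V' (fun β => A (β ∩ V)) := (pr_dep hV hdep).symm
  have h2 : pr V A = pr V (fun β => A (β ∩ V)) := by
    apply pr_congr
    intro β hβ
    rw [Finset.inter_eq_left.2 hβ]
  have h3 : pr V' (fun β => A (β ∩ V)) ≤ pr V' (fun β => ¬ ∃ c, CircC S w r (V' \ β) c) := by
    refine pr_mono fun β hβ hAβ => ?_
    rintro ⟨c, hc'⟩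
    refine block hS hc' ?_
    exact Crs.up V' (Adj S) _ _ (β ∩ V) β inter_subset_left hβ hAβ
  rw [h2, h1]
  refine h3.trans ?_
  rw [pr_not, pr_white]
  linarith

/-! ### cells -/

variable {c : ℂ} {L d : ℝ}

theorem cell_ball (hD : Dns S c L d) {a y : ℂ} (ha : ‖a - c‖ ≤ L - 2 * d)
    (hy : y ∈ cell (S : Set ℂ) a) : ‖y - a‖ < d := by
  by_contra hcon
  push Not at hcon
  have hd := hD.dpos
  have hpos : 0 < ‖y - a‖ := hd.trans_le hcon
  set y' : ℂ := a + ((d / ‖y - a‖ : ℝ) : ℂ) * (y - a) with hy'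
  have h0 : 0 ≤ d / ‖y - a‖ := by positivity
  have h1 : d / ‖y - a‖ ≤ 1 := (div_le_one hpos).2 hcon
  have hn : ‖y' - a‖ = d := by
    rw [hy', add_sub_cancel_left, norm_mul, Complex.norm_real, Real.norm_eq_abs, abs_of_nonneg h0]
    field_simp
  have hmem : y' ∈ cell (S : Set ℂ) a := by
    apply seg_cell hy
    rw [segment_eq_image']
    exact ⟨d / ‖y - a‖, ⟨h0, h1⟩, by
      show a + (d / ‖y - a‖) • (y - a) = y'
      rw [hy', Complex.real_smul]⟩
  have h2 : ‖y' - c‖ ≤ L - d := by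
    have := norm_add_le (y' - a) (a - c)
    rw [sub_add_sub_cancel, hn] at this
    linarith
  have h3 := cell_near hD hmem h2
  linarith

theorem fr_of {D : Dom} (hD : Dns S D.c D.L d) {a : ℂ} (haS : a ∈ S)
    (ha : ‖a - D.c‖ < D.L - 2 * d) (h : Disjoint (cell (S : Set ℂ) a) D.out) :
    Fr S (D.netS S) a := by
  intro b hab
  have h1 := live_of_cell hD.gp h b
  have hG : (D.netS S).T = delT S := netS_T hD.gp
  have h2 := ring_inner hD haS ha (G := (D.netS S).toTrg) hG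
  exact ⟨h1.2.2.1, h1.2.2.2, h2.2.1 b, h2.1 b⟩

theorem not_fr {D : Dom} (hD : Dns S D.c D.L d) {a : ℂ} (haS : a ∈ S)
    (ha : ‖a - D.c‖ < D.L - 2 * d) (h : ¬ Fr S (D.netS S) a) :
    ∃ y ∈ cell (S : Set ℂ) a, y ∈ D.out := by
  by_contra hcon
  push Not at hcon
  exact h (fr_of hD haS ha (Set.disjoint_left.2 hcon))

/-! ### empty edges -/

theorem jf_of_kl (H : HNet S N) (hJ : J ∈ N.tj t) {a b : ℂ} (hab : Adj S a b)
    (h : (a, b) ∈ N.kl) : JF S J a b := by
  have h' := N.klsym a b h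
  have hJ' := mem_joins.1 hJ
  have h1 : (a, b) ∉ N.exS := by
    rintro ⟨k, hk⟩
    exact H.live k (by rw [hk]; exact h)
  have h2 : (b, a) ∉ N.exS := by
    rintro ⟨k, hk⟩
    exact H.live k (by rw [hk]; exact h')
  have h3 := hJ'.kill a b h h1 h2
  exact ⟨hab, by unfold occ; exact not_or.2 h3⟩

/-- killed edges of the network of a domain -/
theorem kl_mem {D : Dom} {ι : Type} {R : ι → Set ℂ} {q : ι → ℂ} {δ : ℝ}
    (hF : Fan D.c D.L δ R q) (hout : D.out = ⋃ i, R i) (hq : ∀ k, ∃ l, D.q k = q l)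
    (hS : Dns S D.c D.L d) (hd : 400 * (D.L * d) ≤ δ ^ 2) {p : ℂ × ℂ} (h : p ∈ D.kl S) :
    p ∈ (D.netS S).kl := by
  have hdis : ∀ {A : Set ℂ}, (∀ i, Disjoint A (R i)) → Disjoint A D.out := by
    intro A hA
    rw [hout, Set.disjoint_iUnion_right]
    exact hA
  rw [netS_kl hS.gp]
  refine ⟨h, fun k hk => ?_, fun k hk => ?_⟩
  · obtain ⟨l, hl⟩ := hq k
    have hqn : ‖D.q k‖ = 1 := by rw [hl]; exact hF.qn l
    have h1 := rayMark_spec (crossRay_exists hS hqn)
    have h2 := (hF.free_mark hS hd (k := l) (by rw [← hl]; exact h1)).1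
    rw [hk] at h2
    exact (live_of_cell hS.gp (hdis h2) p.2).1 h
  · obtain ⟨l, hl⟩ := hq k
    have hqn : ‖D.q k‖ = 1 := by rw [hl]; exact hF.qn l
    have h1 := rayMark_spec (crossRay_exists hS hqn)
    have h2 := (hF.free_mark hS hd (k := l) (by rw [← hl]; exact h1)).2
    rw [hk] at h2
    exact (live_of_cell hS.gp (hdis h2) p.2).1 h

/-! ### discs -/

theorem cr_I_mul (u v : ℂ) : cr (-Complex.I * u) v = u.re * v.re + u.im * v.im := cr_dot u v

/-- a ball which does not reach `x` is in a half plane -/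
theorem hp_ball {ρ : ℝ} (h : ρ ≤ ‖w - x‖) {a : ℂ} (ha : ‖a - w‖ < ρ) :
    HP (-Complex.I * (w - x)) x a := by
  unfold HP
  rw [cr_dot]
  have e1 : ‖a - w‖ ^ 2 = ‖a - x‖ ^ 2 + ‖w - x‖ ^ 2 -
      2 * ((w - x).re * (a - x).re + (w - x).im * (a - x).im) := by
    rw [DomAx722.sq_norm, DomAx722.sq_norm, DomAx722.sq_norm]
    simp only [Complex.sub_re, Complex.sub_im]
    ring
  have h1 : ‖a - w‖ ^ 2 < ‖w - x‖ ^ 2 := pow_lt_pow_left₀ (by linarith) (norm_nonneg _) (by norm_num)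
  nlinarith [sq_nonneg ‖a - x‖]

theorem neI {u : ℂ} (h : u ≠ 0) : -Complex.I * u ≠ 0 := by simp [h]

/-- **the region of a disc** -/
theorem reg_disc (hr : 0 < r) (h30 : 30 * r ≤ ‖w - x‖) (hu : ‖t.2.1 - x‖ ≤ r)
    (wall : ∀ J ∈ N.tj t, ∀ a ∈ S, a ∈ Sq w (2 * r) → ¬ Fr S N a → ∀ b ∈ S, b ∈ Sq w (2 * r) →
      ¬ Fr S N b → Relation.ReflTransGen (JFQ S J (Metric.ball w (30 * r))) a b) :
    Reg S N t x (Sqc w r) (Sq w (2 * r)) (Metric.ball w (30 * r))
      (S.filter fun a => a ∈ Sq w (2 * r) ∧ Fr S N a) where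
  qQ := fun a ha => by
    have h1 : sup (a - w) ≤ r := ha
    show sup (a - w) < 2 * r
    linarith
  QQp := fun a _ ha => by
    rw [Metric.mem_ball, dist_eq_norm]
    linarith [Sq_norm ha]
  hp := ⟨-Complex.I * (w - x), neI (by
      intro h
      rw [h, norm_zero] at h30
      linarith), fun a _ ha => by
    rw [Metric.mem_ball, dist_eq_norm] at ha
    exact hp_ball h30 ha⟩
  start := fun h => by
    have h1 := Sq_norm h
    have h2 : ‖w - x‖ ≤ ‖w - t.2.1‖ + ‖t.2.1 - x‖ := norm_sub_le_norm_sub_add_norm_sub _ _ _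
    rw [norm_sub_rev w t.2.1] at h2
    linarith
  VS := fun a ha => by
    rw [mem_filter] at ha
    refine ⟨ha.1, ?_, ha.2.2⟩
    rw [Metric.mem_ball, dist_eq_norm]
    linarith [Sq_norm ha.2.1]
  wall := fun J hJ a ha haQ haV b hb hbQ hbV => wall J hJ a ha haQ
    (fun h => haV (mem_filter.2 ⟨ha, haQ, h⟩)) b hb hbQ (fun h => hbV (mem_filter.2 ⟨hb, hbQ, h⟩))

/-- **connectedness of the walls** -/
theorem wall_conn {D : Dom} (H : HNet S (D.netS S)) (hS : Dns S D.c D.L d)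
    (hkl : ∀ p, p ∈ D.kl S → p ∈ (D.netS S).kl) (hJ : J ∈ (D.netS S).tj t) {U : Set ℂ}
    (hU : IsPreconnected U) (hUo : U ⊆ D.out) {ρ : ℝ} (hUb : ∀ y ∈ U, ‖y - w‖ + d ≤ ρ)
    (hUc : ∀ y ∈ U, ‖y - D.c‖ ≤ D.L - d) {a b : ℂ} (ha : a ∈ S) (hb : b ∈ S)
    (ha' : (cell (S : Set ℂ) a ∩ U).Nonempty) (hb' : (cell (S : Set ℂ) b ∩ U).Nonempty) :
    Relation.ReflTransGen (JFQ S J (Metric.ball w ρ)) a b := by
  have h1 := out_conn hS.gp hS.card hU ha hb ha' hb'
  refine XW4x315.rtg_mono ?_ h1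
  rintro y z ⟨hy, hz, -, ⟨p, hp, hpU⟩, hadj⟩
  have hin : ∀ u ∈ S, p ∈ cell (S : Set ℂ) u → u ∈ Metric.ball w ρ := by
    intro u _ hu
    have h2 := cell_near hS hu (hUc p hpU)
    have h3 := hUb p hpU
    rw [Metric.mem_ball, dist_eq_norm]
    have h4 : ‖u - w‖ ≤ ‖u - p‖ + ‖p - w‖ := norm_sub_le_norm_sub_add_norm_sub _ _ _
    rw [norm_sub_rev u p] at h4
    linarith
  refine ⟨jf_of_kl H hJ hadj (hkl _ ⟨p, hp, hUo hpU⟩), hin y hy (vedge_sub_left _ _ _ hp),
    hin z hz (vedge_sub_right _ _ _ hp)⟩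

/-! ### the final ray -/

/-- sites whose cell meets `A` -/
def meets (S : Finset ℂ) (A : Set ℂ) : Set ℂ := {a | (cell (S : Set ℂ) a ∩ A).Nonempty}

/-- **the region of the final ray** -/
theorem reg_ray {D : Dom} (H : HNet S (D.netS S)) (hS : Dns S D.c D.L d)
    (hkl : ∀ p, p ∈ D.kl S → p ∈ (D.netS S).kl) {v : ℂ} (hv : ‖v‖ = 1) {A : Set ℂ}
    (hA : A = {y | ∃ τ : ℝ, 3 / 4 * D.L ≤ τ ∧ y = D.c + τ * v}) (hAo : A ⊆ D.out)
    (hx : ‖x - D.c‖ ≤ 5 / 8 * D.L) (hu : ‖t.2.1 - D.c‖ ≤ 5 / 8 * D.L)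
    (hd : 3 * Real.sqrt (D.L * d) < D.L / 8) (hd2 : 16 * d < D.L) :
    Reg S (D.netS S) t x (meets S A) (meets S A) (meets S A) ∅ where
  qQ := subset_rfl
  QQp := fun _ _ h => h
  hp := by
    have hL : 0 < D.L := by linarith [hS.dpos]
    have hv0 : v ≠ 0 := by
      intro h
      rw [h, norm_zero] at hv
      exact zero_ne_one hv
    have hvv : v.re ^ 2 + v.im ^ 2 = 1 := by rw [← DomAx722.sq_norm, hv, one_pow]
    have hdot : ∀ u : ℂ, |v.re * u.re + v.im * u.im| ≤ ‖u‖ := by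
      intro u
      have h1 : (v.re * u.re + v.im * u.im) ^ 2 ≤ ‖u‖ ^ 2 := by
        rw [DomAx722.sq_norm]
        have h2 : (v.re * u.re + v.im * u.im) ^ 2 + (v.re * u.im - v.im * u.re) ^ 2 =
          (v.re ^ 2 + v.im ^ 2) * (u.re ^ 2 + u.im ^ 2) := by ring
        rw [hvv, one_mul] at h2
        nlinarith [sq_nonneg (v.re * u.im - v.im * u.re)]
      exact abs_le_of_sq_le_sq h1 (norm_nonneg _)
    refine ⟨-Complex.I * v, neI hv0, ?_⟩
    rintro a haS ⟨y, hy, hyA⟩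
    rw [hA] at hyA
    obtain ⟨τ, hτ, rfl⟩ := hyA
    unfold HP
    rw [cr_dot]
    have key : ∀ σ : ℝ, 3 / 4 * D.L ≤ σ → ‖a - (D.c + σ * v)‖ < D.L / 8 →
        0 < v.re * (a - x).re + v.im * (a - x).im := by
      intro σ hσ hn
      have h1 := hdot (a - (D.c + σ * v))
      have h2 := hdot (x - D.c)
      have e : v.re * (a - x).re + v.im * (a - x).im =
          (v.re * (a - (D.c + σ * v)).re + v.im * (a - (D.c + σ * v)).im) + σ -
          (v.re * (x - D.c).re + v.im * (x - D.c).im) := by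
        simp only [Complex.sub_re, Complex.sub_im, Complex.add_re, Complex.add_im, Complex.mul_re,
          Complex.mul_im, Complex.ofReal_re, Complex.ofReal_im]
        linear_combination σ * hvv
      rw [e]
      rw [abs_le] at h1 h2
      linarith [h1.1, h2.2]
    have hcn : ∀ σ : ℝ, 0 ≤ σ → ‖D.c + σ * v - D.c‖ = σ := by
      intro σ hσ
      rw [add_sub_cancel_left, norm_mul, hv, Complex.norm_real, Real.norm_eq_abs, abs_of_nonneg hσ,
        mul_one]
    rcases le_or_gt τ (D.L - d) with h | h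
    · have h1 := cell_near hS hy (by rw [hcn τ (by linarith)]; exact h)
      rw [norm_sub_rev] at h1
      exact key τ hτ (by linarith)
    · have h1 := lens hS haS hy hv rfl h.le
      exact key D.L (by linarith) (by linarith)
  start := by
    rintro ⟨y, hy, hyA⟩
    have hd0 := hS.dpos
    have hL : 0 < D.L := by linarith
    have h1 := cell_ball hS (by linarith) hy
    rw [hA] at hyA
    obtain ⟨τ, hτ, rfl⟩ := hyA
    have h2 : ‖D.c + τ * v - D.c‖ = τ := by
      rw [add_sub_cancel_left, norm_mul, hv, Complex.norm_real, Real.norm_eq_abs,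
        abs_of_nonneg (by linarith), mul_one]
    have h3 : ‖D.c + τ * v - D.c‖ ≤ ‖D.c + τ * v - t.2.1‖ + ‖t.2.1 - D.c‖ :=
      norm_sub_le_norm_sub_add_norm_sub _ _ _
    linarith
  VS := fun a ha => absurd ha (notMem_empty a)
  wall := by
    intro J hJ a ha haQ _ b hb hbQ _
    have hpre : IsPreconnected A := by
      have e : A = (fun τ : ℝ => D.c + (τ : ℂ) * v) '' Set.Ici (3 / 4 * D.L) := by
        rw [hA]
        ext y
        constructor
        · rintro ⟨τ, h1, rfl⟩; exact ⟨τ, h1, rfl⟩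
        · rintro ⟨τ, h1, rfl⟩; exact ⟨τ, h1, rfl⟩
      rw [e]
      exact isPreconnected_Ici.image _ (by fun_prop)
    have h1 := out_conn hS.gp hS.card hpre ha hb haQ hbQ
    refine XW4x315.rtg_mono ?_ h1
    rintro y z ⟨hy, hz, -, ⟨p, hp, hpU⟩, hadj⟩
    exact ⟨jf_of_kl H hJ hadj (hkl _ ⟨p, hp, hAo hpU⟩), ⟨p, vedge_sub_left _ _ _ hp, hpU⟩,
      ⟨p, vedge_sub_right _ _ _ hp, hpU⟩⟩

/-- nothing crosses the empty set -/
theorem crs_empty {q o : Set ℂ} {p : ℝ} (hp : 0 ≤ p) : pr (∅ : Finset ℂ) (Crs (Adj S) q o) ≤ p := by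
  refine le_trans (le_of_eq ?_) hp
  have h1 : pr (∅ : Finset ℂ) (Crs (Adj S) q o) = pr (∅ : Finset ℂ) (fun _ => False) := by
    apply pr_congr
    intro β hβ
    rw [iff_false]
    rintro ⟨a, b, ha, -⟩
    exact absurd (hβ ha) (notMem_empty a)
  rw [h1]
  unfold pr nb fl
  simp

end Crest.Agent.R143.XW5x315
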