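import Crest.Agent.R143.XW6_315
import Crest.Agent.R143.B6c_903
import Crest.Agent.R143.G6T_408

/-!
# R143, block X, winding tail XW (helper315), part 7: the polygon

* `exists_chain`, `exists_list` : short chains in a connected set, as lists
* `cutS_near` : the points of the polygon are near the vertices or on the final ray
* `exists_poly` : the polygon from the point `z` (which is linked to the marks) to the middle of the
  sector of the region `0`
-/

set_option autoImplicit false

noncomputable section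

open scoped Classical

namespace Crest.Agent.R143.XW7x315

open Finset
open Crest.ProbabilityR.Voronoi
open Crest.Agent.R143.B0x346 Crest.Agent.R143.DelGx806 Crest.Agent.R143.DelRx806
open Crest.Agent.R143.B0Dx346 Crest.Agent.R143.Planarx54 Crest.Agent.R143.Planar2x54
open Crest.Agent.R143.DomAx722 hiding ang
open Crest.Agent.R143.DomBx722 Crest.Agent.R143.DomCx722
open Crest.Agent.R143.B6bx903 (lp pt pt_close)
open Crest.Agent.R143.B6cx903 (lat lp_mem_lat lat_card)
open Crest.Agent.R143.XW1x315 Crest.Agent.R143.XW2x315 Crest.Agent.R143.XW6x315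

/-! ### chains -/

theorem exists_chain {C : Set ℂ} (hC : IsPreconnected C) {c : ℂ} {R0 : ℝ} (hR0 : 0 ≤ R0)
    (hCs : C ⊆ Metric.closedBall c R0) {z w : ℂ} (hz : z ∈ C) (hw : w ∈ C) {η : ℝ} (hη : 0 < η) :
    ∃ s : Finset ℂ, (∀ y ∈ s, y ∈ C) ∧ z ∈ s ∧ w ∈ s ∧ (s.card : ℝ) ≤ (16 * R0 / η + 3) ^ 2 + 2 ∧
      Relation.ReflTransGen (fun a b => a ∈ s ∧ b ∈ s ∧ ‖a - b‖ ≤ η) z w := by
  set e : ℝ := η / 8 with he
  have he0 : 0 < e := by positivity
  set F : ℤ × ℤ → Set ℂ := fun p => Metric.closedBall (c + pt e p) (2 * e) with hF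
  have hmem : ∀ y, y ∈ F (lp e (y - c)) := by
    intro y
    simp only [hF]
    rw [Metric.mem_closedBall, dist_eq_norm]
    have := pt_close he0 (y - c)
    have e1 : y - (c + pt e (lp e (y - c))) = y - c - pt e (lp e (y - c)) := by ring
    rw [e1]; exact this
  have hlat : ∀ y ∈ C, lp e (y - c) ∈ lat R0 e := by
    intro y hy
    refine lp_mem_lat he0 ?_
    have := hCs hy
    rwa [Metric.mem_closedBall, dist_eq_norm] at this
  have hch : ∀ p, (C ∩ F p).Nonempty → ∃ y, y ∈ C ∧ y ∈ F p := fun p h => h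
  choose! g hgC hgF using hch
  set L0 := (lat R0 e).filter (fun p => (C ∩ F p).Nonempty) with hL0
  have hiz : lp e (z - c) ∈ L0 := mem_filter.2 ⟨hlat z hz, z, hz, hmem z⟩
  have hiw : lp e (w - c) ∈ L0 := mem_filter.2 ⟨hlat w hw, w, hw, hmem w⟩
  have hclose : ∀ p y y', y ∈ F p → y' ∈ F p → ‖y - y'‖ ≤ η / 2 := by
    intro p y y' h h'
    simp only [hF] at h h'
    rw [Metric.mem_closedBall, dist_eq_norm] at h h'
    have e1 : y - y' = (y - (c + pt e p)) - (y' - (c + pt e p)) := by ring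
    rw [e1]
    refine (norm_sub_le _ _).trans ?_
    rw [he] at h h' ⊢
    linarith
  have hcov : C ⊆ ⋃ i ∈ (L0 : Set (ℤ × ℤ)), F i := by
    intro y hy
    exact Set.mem_biUnion (x := lp e (y - c))
      (by rw [mem_coe]; exact mem_filter.2 ⟨hlat y hy, y, hy, hmem y⟩) (hmem y)
  have hch := G6Tx408.chain_of_cover (finite_toSet L0) (F := F)
    (fun i _ => Metric.isClosed_closedBall) hC hcov (mem_coe.2 hiz) (mem_coe.2 hiw)
    ⟨z, hz, hmem z⟩ ⟨w, hw, hmem w⟩
  refine ⟨insert z (insert w (L0.image g)), ?_, mem_insert_self _ _,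
    mem_insert_of_mem (mem_insert_self _ _), ?_, ?_⟩
  · intro y hy
    rw [mem_insert, mem_insert, mem_image] at hy
    rcases hy with rfl | rfl | ⟨p, hp, rfl⟩
    · exact hz
    · exact hw
    · exact hgC p (mem_filter.1 hp).2
  · have h1 : (insert z (insert w (L0.image g))).card ≤ (lat R0 e).card + 2 := by
      have a1 := card_insert_le z (insert w (L0.image g))
      have a2 := card_insert_le w (L0.image g)
      have a3 : (L0.image g).card ≤ L0.card := card_image_le
      have a4 : L0.card ≤ (lat R0 e).card := card_filter_le _ _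
      omega
    have h2 := lat_card hR0 he0
    have h3 : 2 * R0 / e + 3 = 16 * R0 / η + 3 := by
      have h4 : 2 * R0 / (η / 8) = 16 * R0 / η := by
        rw [div_div_eq_mul_div]; ring
      rw [he, h4]
    rw [h3] at h2
    have h4 : ((insert z (insert w (L0.image g))).card : ℝ) ≤ ((lat R0 e).card : ℝ) + 2 := by
      exact_mod_cast h1
    linarith
  · have hg : ∀ p ∈ L0, g p ∈ insert z (insert w (L0.image g)) := fun p hp =>
      mem_insert_of_mem (mem_insert_of_mem (mem_image_of_mem g hp))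
    have h1 : Relation.ReflTransGen (fun a b => a ∈ insert z (insert w (L0.image g)) ∧
        b ∈ insert z (insert w (L0.image g)) ∧ ‖a - b‖ ≤ η) (g (lp e (z - c)))
        (g (lp e (w - c))) := by
      refine Relation.ReflTransGen.lift g ?_ _ _ hch
      rintro a b ⟨ha, hb, y, ⟨hya, hyb⟩, -⟩
      rw [mem_coe] at ha hb
      refine ⟨hg a ha, hg b hb, ?_⟩
      have h2 := hclose a (g a) y (hgF a (mem_filter.1 ha).2) hya
      have h3 := hclose b y (g b) hyb (hgF b (mem_filter.1 hb).2)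
      have e1 : g a - g b = (g a - y) + (y - g b) := by ring
      rw [e1]
      refine (norm_add_le _ _).trans ?_
      linarith
    have h2 := hclose _ z _ (hmem z) (hgF _ (mem_filter.1 hiz).2)
    have h3 := hclose _ _ w (hgF _ (mem_filter.1 hiw).2) (hmem w)
    refine Relation.ReflTransGen.head ⟨mem_insert_self _ _, hg _ hiz, by linarith⟩ ?_
    exact h1.tail ⟨hg _ hiw, mem_insert_of_mem (mem_insert_self _ _), by linarith⟩

/-- a chain as a list without repetition -/
theorem exists_list {s : Finset ℂ} {r : ℂ → ℂ → Prop} (hr : ∀ a b, r a b → r b a) {z w : ℂ}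
    (hz : z ∈ s) (h : Relation.ReflTransGen (fun a b => a ∈ s ∧ b ∈ s ∧ r a b) z w) :
    ∃ l : List ℂ, (z :: l).IsChain r ∧ (z :: l).getLast (List.cons_ne_nil _ _) = w ∧
      (∀ y ∈ z :: l, y ∈ s) ∧ (z :: l).length ≤ s.card := by
  let G : SimpleGraph ℂ :=
    { Adj := fun a b => a ≠ b ∧ a ∈ s ∧ b ∈ s ∧ r a b
      symm := ⟨fun a b h => ⟨h.1.symm, h.2.2.1, h.2.1, hr a b h.2.2.2⟩⟩
      loopless := ⟨fun a h => h.1 rfl⟩ }
  have hreach : G.Reachable z w := by
    induction h with
    | refl => exact SimpleGraph.Reachable.refl _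
    | @tail b c _ hbc ih =>
      refine ih.trans ?_
      by_cases hbc' : b = c
      · rw [hbc']
      · exact SimpleGraph.Adj.reachable (G := G) ⟨hbc', hbc⟩
  obtain ⟨p, hp⟩ := hreach.exists_isPath
  have hsup : p.support = z :: p.support.tail := SimpleGraph.Walk.support_eq_cons p
  have hmem : ∀ y ∈ p.support, y ∈ s := by
    have key : ∀ {a b : ℂ} (q : G.Walk a b), a ∈ s → ∀ y ∈ q.support, y ∈ s := by
      intro a b q
      induction q with
      | nil =>
        intro ha y hy
        rw [SimpleGraph.Walk.support_nil, List.mem_singleton] at hy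
        rw [hy]; exact ha
      | cons hadj q ih =>
        intro ha y hy
        rw [SimpleGraph.Walk.support_cons, List.mem_cons] at hy
        rcases hy with rfl | hy
        · exact ha
        · exact ih hadj.2.2.1 y hy
    exact key p hz
  refine ⟨p.support.tail, ?_, ?_, ?_, ?_⟩
  · rw [← hsup]
    exact (SimpleGraph.Walk.isChain_adj_support p).imp fun a b h => h.2.2.2
  · have : ∀ (l : List ℂ) (h1 : l ≠ []) (l' : List ℂ) (h2 : l' ≠ []), l = l' →
      l.getLast h1 = l'.getLast h2 := by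
      intro l h1 l' h2 h3
      subst h3
      rfl
    rw [this _ (List.cons_ne_nil _ _) p.support (by rw [hsup]; exact List.cons_ne_nil _ _)
      hsup.symm]
    exact SimpleGraph.Walk.getLast_support p
  · rw [← hsup]; exact hmem
  · rw [← hsup]
    have h1 : p.support.toFinset.card = p.support.length :=
      List.toFinset_card_of_nodup hp.support_nodup
    rw [← h1]
    exact card_le_card fun y hy => hmem y (List.mem_toFinset.1 hy)

/-! ### the polygon -/

theorem cutS_near {q : ℂ} {η : ℝ} (hη : 0 ≤ η) : ∀ (l : List ℂ) (w : ℂ),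
    (w :: l).IsChain (fun a b => ‖a - b‖ ≤ η) → ∀ y ∈ cutS q (w :: l),
      (∃ a ∈ w :: l, ‖y - a‖ ≤ η) ∨
        ∃ t : ℝ, 0 ≤ t ∧ y = (w :: l).getLast (List.cons_ne_nil _ _) + t * q
  | [], w, _, y, hy => by
    right
    exact hy
  | (w' :: l), w, hc, y, hy => by
    rw [List.isChain_cons_cons] at hc
    rcases hy with hy | hy
    · left
      refine ⟨w, List.mem_cons_self, ?_⟩
      have h1 : y ∈ Metric.closedBall w η := by
        refine (convex_closedBall w η).segment_subset (Metric.mem_closedBall_self hη) ?_ hy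
        rw [Metric.mem_closedBall, dist_eq_norm, ← norm_neg, neg_sub]
        exact hc.1
      rwa [Metric.mem_closedBall, dist_eq_norm] at h1
    · rcases cutS_near hη l w' hc.2 y hy with ⟨a, ha, hya⟩ | ⟨t, ht, hyt⟩
      · exact Or.inl ⟨a, List.mem_cons_of_mem _ ha, hya⟩
      · right
        refine ⟨t, ht, ?_⟩
        rw [List.getLast_cons_cons]
        exact hyt

theorem th_le {n : ℕ} {th : ℤ → ℝ} (h : Cyc n th) : th 0 < th 1 ∧ th 1 ≤ th 0 + 2 * Real.pi := by
  refine ⟨h.mono one_pos, ?_⟩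
  have h1 := h.per 0
  rw [zero_add] at h1
  rw [← h1]
  refine h.mono.monotone ?_
  have := h.npos
  omega

/-- **the polygon** -/
theorem exists_poly {D : Dom} {n : ℕ} {R : ZMod n → Set ℂ} {q : ZMod n → ℂ} {th : ℤ → ℝ} {δ : ℝ}
    (hF : FanA n D.c D.L δ R q th) (hq0 : D.q 0 = q 0) {z : ℂ} {m : ℝ}
    (hl : Spinex422.Linked D m z) {ρ1 η L1 : ℝ} (hη : 0 < η) (hρ1 : 0 < ρ1)
    (hz : ‖z - D.c‖ + 2 * ρ1 < 3 / 4 * D.L) (hL : D.L ≤ L1) :
    ∃ (b : ℂ) (l : List ℂ), ‖b - z‖ ≤ 2 * ρ1 + η ∧
      (b :: l).IsChain (fun a b => ‖a - b‖ ≤ η) ∧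
      (∀ y ∈ b :: l, (2 * ρ1 < ‖y - z‖ ∧ ‖y - D.c‖ ≤ 3 / 4 * D.L ∧
        Disjoint (Metric.ball y m) D.out) ∨
        ∃ φ : ℝ, th 0 ≤ φ ∧ φ ≤ (th 0 + th 1) / 2 ∧
          y = D.c + ((3 / 4 * D.L : ℝ) : ℂ) * Complex.exp (φ * Complex.I)) ∧
      (b :: l).getLast (List.cons_ne_nil _ _) = D.c + ((3 / 4 * D.L : ℝ) : ℂ) *
        Complex.exp ((((th 0 + th 1) / 2 : ℝ) : ℂ) * Complex.I) ∧
      ((b :: l).length : ℝ) ≤ (16 * L1 / η + 3) ^ 2 + 2 + (⌈3 * Real.pi * L1 / (4 * η)⌉₊ + 2) := by
  obtain ⟨C, hC, hzC, hCs, hCq, hCo⟩ := hl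
  have hL0 := hF.fan.Lpos
  have hpi := Real.pi_pos
  obtain ⟨ht1, ht2⟩ := th_le hF.cyc
  set w : ℂ := D.c + ((3 / 4 * D.L : ℝ) : ℂ) * D.q 0 with hw
  have hq0' : D.q 0 = Complex.exp (th 0 * Complex.I) := by
    rw [hq0]
    have := hF.dir 0
    rw [Int.cast_zero] at this
    exact this
  have hwz : 2 * ρ1 < ‖w - z‖ := by
    have h1 : ‖w - D.c‖ = 3 / 4 * D.L := by
      rw [hw, add_sub_cancel_left, norm_mul, hq0', Complex.norm_exp_ofReal_mul_I, mul_one,
        Complex.norm_real, Real.norm_eq_abs, abs_of_nonneg (by positivity)]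
    have h2 := norm_add_le (w - z) (z - D.c)
    rw [sub_add_sub_cancel, h1] at h2
    linarith
  obtain ⟨s, hsC, hzs, hws, hcard, hch⟩ := exists_chain hC (by positivity) hCs hzC (hCq 0) hη
  rw [← hw] at hws hch
  set Q : Set ℂ := {y | 2 * ρ1 < ‖y - z‖} with hQ
  have hzQ : z ∉ Q := by
    rw [hQ, Set.mem_ofPred_eq, sub_self, norm_zero]
    linarith
  obtain ⟨a, b, -, haQ, hab, hbQ, hbw⟩ := last_entry hzQ (show w ∈ Q from hwz) hch
  -- the chain inside `Q`
  set s' := s.filter (fun y => y ∈ Q) with hs'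
  have hbs' : b ∈ s' := mem_filter.2 ⟨hab.2.1, hbQ⟩
  have hch' : Relation.ReflTransGen (fun a b => a ∈ s' ∧ b ∈ s' ∧ ‖a - b‖ ≤ η) b w := by
    refine XW4x315.rtg_mono ?_ hbw
    rintro x y ⟨⟨h1, h2, h3⟩, h4, h5⟩
    exact ⟨mem_filter.2 ⟨h1, h4⟩, mem_filter.2 ⟨h2, h5⟩, h3⟩
  obtain ⟨l1, hl1, hlast1, hmem1, hlen1⟩ := exists_list
    (r := fun a b => ‖a - b‖ ≤ η) (fun a b h => by rw [norm_sub_rev]; exact h) hbs' hch'
  -- the arc
  set M : ℕ := ⌈3 * Real.pi * L1 / (4 * η)⌉₊ + 1 with hM
  have hM0 : (0 : ℝ) < M := by rw [hM]; positivity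
  set θ : ℝ := (th 1 - th 0) / 2 / M with hθ
  have hθ0 : 0 ≤ θ := by
    have : 0 ≤ th 1 - th 0 := by linarith
    rw [hθ]; positivity
  have hMθ : M * θ = (th 1 - th 0) / 2 := by
    rw [hθ]; field_simp
  have hθη : 3 / 4 * D.L * θ ≤ η := by
    have h1 : 3 * Real.pi * L1 / (4 * η) ≤ M := by
      rw [hM]; push_cast
      have := Nat.le_ceil (3 * Real.pi * L1 / (4 * η))
      linarith
    rw [div_le_iff₀ (by positivity)] at h1
    have h2 : M * (3 / 4 * D.L * θ) ≤ M * η := by
      calc M * (3 / 4 * D.L * θ) = 3 / 4 * D.L * (M * θ) := by ring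
        _ = 3 / 4 * D.L * ((th 1 - th 0) / 2) := by rw [hMθ]
        _ ≤ 3 / 4 * L1 * Real.pi := by
          refine mul_le_mul (by linarith) (by linarith) (by linarith) (by linarith)
        _ ≤ M * η := by linarith
    exact le_of_mul_le_mul_left h2 hM0
  set u : ℕ → ℂ := fun j => D.c + ((3 / 4 * D.L : ℝ) : ℂ) *
    Complex.exp (((th 0 + j * θ : ℝ) : ℂ) * Complex.I) with hu
  have hu0 : u 0 = w := by
    rw [hu, hw, hq0']
    simp
  have hstep : ∀ i j : ℕ, |(i : ℝ) - j| ≤ 1 → ‖u i - u j‖ ≤ η := by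
    intro i j hij
    have e1 : u i - u j = ((3 / 4 * D.L : ℝ) : ℂ) *
        (Complex.exp (((th 0 + i * θ : ℝ) : ℂ) * Complex.I) -
          Complex.exp (((th 0 + j * θ : ℝ) : ℂ) * Complex.I)) := by
      simp only [hu]; ring
    rw [e1, norm_mul, Complex.norm_real, Real.norm_eq_abs, abs_of_nonneg (by positivity)]
    refine le_trans (mul_le_mul_of_nonneg_left (norm_exp_sub _ _) (by positivity)) ?_
    have e2 : th 0 + i * θ - (th 0 + j * θ) = ((i : ℝ) - j) * θ := by ring
    rw [e2, abs_mul, abs_of_nonneg hθ0]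
    refine le_trans ?_ hθη
    have : |(i : ℝ) - j| * θ ≤ 1 * θ := mul_le_mul_of_nonneg_right hij hθ0
    rw [one_mul] at this
    exact mul_le_mul_of_nonneg_left this (by positivity)
  have harc : ((List.range (M + 1)).map u).IsChain (fun a b => ‖a - b‖ ≤ η) := by
    rw [List.isChain_map, List.isChain_range_succ]
    intro j _
    refine hstep j (j + 1) ?_
    push_cast
    rw [show (j : ℝ) - (j + 1) = -1 by ring]
    simp
  refine ⟨b, l1 ++ (List.range (M + 1)).map u, ?_, ?_, ?_, ?_, ?_⟩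
  · rw [hQ, Set.mem_ofPred_eq, not_lt] at haQ
    have h1 := norm_add_le (b - a) (a - z)
    rw [sub_add_sub_cancel, norm_sub_rev b a] at h1
    linarith [hab.2.2]
  · rw [← List.cons_append]
    refine List.IsChain.append hl1 harc ?_
    intro y hy y' hy'
    rw [List.getLast?_eq_getLast_of_ne_nil (List.cons_ne_nil _ _), hlast1] at hy
    rw [List.range_succ_eq_map, List.map_cons, List.head?_cons] at hy'
    simp only [Option.mem_def, Option.some.injEq] at hy hy'
    rw [← hy, ← hy', hu0, sub_self, norm_zero]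
    exact hη.le
  · intro y hy
    rw [← List.cons_append, List.mem_append] at hy
    rcases hy with hy | hy
    · left
      have h1 := hmem1 y hy
      rw [hs', mem_filter] at h1
      have h2 := hCs (hsC y h1.1)
      rw [Metric.mem_closedBall, dist_eq_norm] at h2
      exact ⟨h1.2, h2, hCo y (hsC y h1.1)⟩
    · right
      rw [List.mem_map] at hy
      obtain ⟨j, hj, rfl⟩ := hy
      rw [List.mem_range] at hj
      refine ⟨th 0 + j * θ, ?_, ?_, rfl⟩
      · have : (0 : ℝ) ≤ j * θ := by positivity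
        linarith
      · have h1 : (j : ℝ) ≤ M := by
          have : j ≤ M := by omega
          exact_mod_cast this
        have h2 := mul_le_mul_of_nonneg_right h1 hθ0
        rw [hMθ] at h2
        linarith
  · have e1 : b :: (l1 ++ (List.range (M + 1)).map u) =
        (b :: (l1 ++ (List.range M).map u)) ++ [u M] := by
      rw [List.range_succ, List.map_append, List.cons_append, List.append_assoc]
      rfl
    have : ∀ (l : List ℂ) (h1 : l ≠ []) (l' : List ℂ) (h2 : l' ≠ []), l = l' →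
      l.getLast h1 = l'.getLast h2 := by
      intro l h1 l' h2 h3
      subst h3
      rfl
    rw [this _ (List.cons_ne_nil _ _) _ (by simp) e1, List.getLast_append_singleton]
    simp only [hu]
    rw [hMθ]
    congr 4
    congr 1
    ring
  · have h1 : ((b :: (l1 ++ (List.range (M + 1)).map u)).length : ℝ) =
        ((b :: l1).length : ℝ) + (M + 1) := by
      rw [← List.cons_append, List.length_append, List.length_map, List.length_range]
      push_cast
      ring
    rw [h1]
    have h2 : ((b :: l1).length : ℝ) ≤ (16 * (3 / 4 * D.L) / η + 3) ^ 2 + 2 := by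
      refine le_trans ?_ hcard
      have : (b :: l1).length ≤ s.card := hlen1.trans (card_filter_le _ _)
      exact_mod_cast this
    have h3 : (16 * (3 / 4 * D.L) / η + 3) ^ 2 ≤ (16 * L1 / η + 3) ^ 2 := by
      have : 16 * (3 / 4 * D.L) / η ≤ 16 * L1 / η :=
        div_le_div_of_nonneg_right (by linarith) hη.le
      have h0 : 0 ≤ 16 * (3 / 4 * D.L) / η := by positivity
      exact pow_le_pow_left₀ (by positivity) (by linarith) 2
    have h4 : (M : ℝ) = (⌈3 * Real.pi * L1 / (4 * η)⌉₊ : ℝ) + 1 := by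
      rw [hM]; push_cast; ring
    rw [h4]
    linarith

end Crest.Agent.R143.XW7x315
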