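import Crest.Agent.R143.XW7_315
import Crest.Agent.R143.DomE_722
import Crest.Agent.R143.TR_927

/-!
# R143, block X, winding tail XW (helper315), part 8: the regions in a good environment

* `pos_near` : the base point of a face near `z`
* `fan_of` : the tentacles of an admissible domain
* `reg_A`, `reg_B`, `reg_C` : the discs on the first segment, on the chain, on the arc
* `wind_at` : exponential moment of the rotation of one face
-/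

set_option autoImplicit false

noncomputable section

open scoped Classical

namespace Crest.Agent.R143.XW8x315

open Finset
open Crest.ProbabilityR.Voronoi
open Crest.Agent.R143.B0x346 Crest.Agent.R143.DelGx806 Crest.Agent.R143.DelRx806
open Crest.Agent.R143.B0Dx346 Crest.Agent.R143.JColx54 Crest.Agent.R143.JCol2x54
open Crest.Agent.R143.PP1x831 Crest.Agent.R143.Y0x831
open Crest.Agent.R143.Planarx54 Crest.Agent.R143.Planar2x54
open Crest.Agent.R143.DomAx722 hiding ang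
open Crest.Agent.R143.DomBx722 Crest.Agent.R143.DomCx722
open Crest.Agent.R143.Harx315 Crest.Agent.R143.XW1x315 Crest.Agent.R143.XW2x315
open Crest.Agent.R143.XW3x315 Crest.Agent.R143.XW4x315 Crest.Agent.R143.XW5x315
open Crest.Agent.R143.XW6x315 Crest.Agent.R143.XW7x315
open Crest.Agent.R143.CircPx838 Crest.Agent.R143.Blkx838 Crest.Agent.R143.RB0x838
open Crest.Agent.R143.B6Ix903 Crest.Agent.R143.B6cx903
open Crest.Agent.R143.B1bx796 (touch)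

variable {π : Par} {δ κ ε : ℝ} {D : Dom} {ω : Sample} {z : ℂ} {t : ℂ × ℂ × ℂ} {x : ℂ}

/-! ### geometry -/

theorem pos_near (h : At π δ ε D ω z) (hs : Sm π δ κ ε)
    (ht : t ∈ touch z (ε ^ κ) (D.sites ε ω)) (hx : InO' x t) :
    t ∈ delT (D.sites ε ω) ∧ ‖x - z‖ ≤ 2 * ε ^ κ ∧ ‖t.2.1 - x‖ ≤ 2 * rad π.C ε := by
  have h2 := hs.rd
  have h3 := hs.rR
  have h4 := hs.d
  have h8 : 0 < ε ^ κ := Real.rpow_pos_of_pos hs.unit.1 _
  obtain ⟨n1, n2, n3⟩ := B1gx991.touch_near hs.d (h.hol hs (by linarith)) ht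
  have ht' : t ∈ delT (D.sites ε ω) := by
    rw [B1bx796.touch, Finset.mem_filter] at ht
    exact ht.1
  have hT := B1gx991.tri_pos ht'
  have hi : InT x t.1 t.2.1 t.2.2 := ⟨hx.1.le, hx.2.1.le, hx.2.2.le⟩
  have hxz : ‖x - z‖ ≤ 2 * ε ^ κ :=
    DomAx722.inT_ball hT hi (by linarith) (by linarith) (by linarith)
  refine ⟨ht', hxz, ?_⟩
  have hD : Del (D.sites ε ω : Set ℂ) t.1 t.2.1 t.2.2 := DelGx806.mem_delT.1 ht'
  obtain ⟨o, -, -, -, -, -, -, gb, -⟩ := Locx922.del_small hs.d (h.hol hs le_rfl) (w := x)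
    (by rw [Metric.mem_closedBall, dist_eq_norm]; linarith) (Locx922.InT.inD hT hi) hD
  exact gb.le

theorem fan_of (h : D.Ad δ) : ∃ (n : ℕ) (R : ZMod n → Set ℂ) (q : ZMod n → ℂ) (th : ℤ → ℝ),
    FanA n D.c D.L δ R q th ∧ D.out = ⋃ i, R i ∧ D.q 0 = q 0 ∧ ∀ k, ∃ l, D.q k = q l := by
  obtain ⟨n, C, hn, hC, hCD⟩ := h
  obtain ⟨th, hF⟩ := Adx422.fanA hn hC
  refine ⟨n, C.R, C.q, th, ?_, ?_, ?_, ?_⟩
  · have h1 : D.c = C.c := by rw [← hCD]; rfl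
    have h2 : D.L = C.L := by rw [← hCD]; rfl
    rw [h1, h2]
    exact hF
  · rw [← hCD, Cfgx416.Cfg.dom_out]
    rfl
  · rw [← hCD]
    exact DomEx722.dom_q0 C
  · intro k
    rw [← hCD]
    rcases Adx422.z3 k with rfl | rfl | rfl
    · exact ⟨_, DomEx722.dom_q0 C⟩
    · exact ⟨_, DomEx722.dom_q1 C⟩
    · exact ⟨_, DomEx722.dom_q2 C⟩

theorem ray_out {n : ℕ} {R : ZMod n → Set ℂ} {q : ZMod n → ℂ} {th : ℤ → ℝ}
    (hF : FanA n D.c D.L δ R q th) (hout : D.out = ⋃ i, R i) {y : ℂ}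
    (hy : y ∈ {y : ℂ | ∃ τ : ℝ, 3 / 4 * D.L ≤ τ ∧
      y = D.c + τ * Complex.exp ((((th 0 + th 1) / 2 : ℝ) : ℂ) * Complex.I)}) : y ∈ D.out := by
  obtain ⟨τ, hτ, rfl⟩ := hy
  have hL := hF.fan.Lpos
  have hg := hF.gap 0
  rw [zero_add] at hg
  rw [hout]
  refine Set.mem_iUnion.2 ⟨((0 : ℤ) : ZMod n), ?_⟩
  refine hF.sector (by linarith) (by linarith) ?_
  rw [zero_add]
  linarith

/-! ### the numbers -/

structure Num (π : Par) (δ κ ε c1 K1 lam ρ0 ρ1 ρ2 : ℝ) : Prop where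
  posK : 0 < K1
  posc : 0 < c1
  lam0 : 0 < lam
  lam1 : lam ≤ 1 / 64
  lamK : lam * (K1 + 2) ≤ 1 / 8
  r0 : 0 < ρ0
  r02 : ρ0 ≤ ρ2
  r2K : 30 * (K1 + 2) * ρ2 ≤ ρ1
  r2δ : 40 * ρ2 ≤ δ
  r1R : 64 * ρ1 ≤ π.R
  r1m : 64 * ρ1 ≤ π.m
  r11 : 64 * ρ1 ≤ 1
  d0 : rad π.C ε ≤ lam * ρ0 / 8
  d1 : rad π.C ε ≤ c1 * (lam * ρ0)
  lo : ε * Real.log (1 / ε) ^ π.a ≤ lam * ρ0
  dδ : 400 * (π.L * rad π.C ε) ≤ δ ^ 2
  ek : 8 * ε ^ κ ≤ ρ1

/-- the circuits -/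
def Crc (π : Par) (ε : ℝ) (D : Dom) (ω : Sample) (c0 c1 K1 : ℝ) : Prop :=
  ∀ (w : ℂ) (b : ℝ), 0 < b →
    ε * Real.log (1 / ε) ^ π.a ≤ 3 * b → 3 * b ≤ 1 → 2 * rad π.C ε ≤ b → rad π.C ε ≤ c1 * b →
    ‖w - D.c‖ + K1 * b + b + 2 * rad π.C ε ≤ D.L →
    c0 ≤ pr ((D.sites ε ω).filter fun a => a ∈ Sq w (2 * b)) (fun β =>
        ∃ c, CircC (D.sites ε ω) w b β c)

variable {c0 c1 K1 lam ρ0 ρ1 ρ2 : ℝ}

theorem disc_pr (hS : Dns (D.sites ε ω) D.c D.L (rad π.C ε)) (hc : Crc π ε D ω c0 c1 K1) {w : ℂ}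
    {b : ℝ} (h0 : 0 < b)
    (h1 : ε * Real.log (1 / ε) ^ π.a ≤ 3 * b) (h2 : 3 * b ≤ 1) (h3 : 2 * rad π.C ε ≤ b)
    (h4 : rad π.C ε ≤ c1 * b) (h5 : ‖w - D.c‖ + K1 * b + b + 2 * rad π.C ε ≤ D.L) :
    pr ((D.sites ε ω).filter fun a => a ∈ Sq w (2 * b) ∧ Fr (D.sites ε ω) (net D ε ω) a)
      (Crs (Adj (D.sites ε ω)) (Sqc w b) (ent (D.sites ε ω) (Sq w (2 * b)))) ≤ 1 - c0 := by
  refine crs_le hS.gp ?_ (hc w b h0 h1 h2 h3 h4 h5)
  intro a ha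
  rw [mem_filter] at ha ⊢
  exact ⟨ha.1, ha.2.1⟩

structure Geo (π : Par) (δ κ ε : ℝ) (D : Dom) (ω : Sample) (z : ℂ) (t : ℂ × ℂ × ℂ) (x : ℂ)
    (ρ1 : ℝ) : Prop where
  dns : Dns (D.sites ε ω) D.c D.L (rad π.C ε)
  xz : ‖x - z‖ ≤ ρ1 / 4
  tx : ‖t.2.1 - x‖ ≤ 2 * rad π.C ε
  zc : ‖z - D.c‖ + π.R ≤ D.L / 2
  room : Disjoint (Metric.closedBall z π.R) D.out

theorem geo (h : At π δ ε D ω z) (hs : Sm π δ κ ε) (hn : Num π δ κ ε c1 K1 lam ρ0 ρ1 ρ2)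
    (ht : t ∈ touch z (ε ^ κ) (D.sites ε ω)) (hx : InO' x t) :
    Geo π δ κ ε D ω z t x ρ1 := by
  obtain ⟨h1, h2, h3⟩ := pos_near h hs ht hx
  have h4 := room_norm h.room π.Rpos.le
  have h5 := hs.rd
  have h6 := hs.rR
  have h7 := norm_nonneg (z - D.c)
  have h8 := π.Rpos
  refine ⟨dns_of_env h.ok.Lpos (by linarith) h.good.env, ?_, h3, h4, h.room.1⟩
  linarith [hn.ek]

variable {w : ℂ}

theorem reg_A (hg : Geo π δ κ ε D ω z t x ρ1) (hn : Num π δ κ ε c1 K1 lam ρ0 ρ1 ρ2)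
    (hc : Crc π ε D ω c0 c1 K1) {u : ℂ} (hu : ‖u‖ = 1) {ρ : ℝ} (h1 : ρ0 ≤ ρ) (h2 : ρ ≤ 3 * ρ1)
    (hw : w = x + ρ * u) :
    Reg (D.sites ε ω) (net D ε ω) t x (Sqc w (lam * ρ)) (Sq w (2 * (lam * ρ)))
      (Metric.ball w (30 * (lam * ρ)))
      ((D.sites ε ω).filter fun a => a ∈ Sq w (2 * (lam * ρ)) ∧ Fr (D.sites ε ω) (net D ε ω) a) ∧
    pr ((D.sites ε ω).filter fun a => a ∈ Sq w (2 * (lam * ρ)) ∧
        Fr (D.sites ε ω) (net D ε ω) a)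
      (Crs (Adj (D.sites ε ω)) (Sqc w (lam * ρ)) (ent (D.sites ε ω) (Sq w (2 * (lam * ρ))))) ≤
        1 - c0 := by
  have hK := hn.posK
  have hc1 := hn.posc
  have hl := hn.lam0
  have hl1 := hn.lam1
  have hlK := hn.lamK
  have hr0 := hn.r0
  have hd := hg.dns.dpos
  have hρ : 0 < ρ := by linarith
  have e1 : lam * ρ0 ≤ lam * ρ := mul_le_mul_of_nonneg_left h1 hl.le
  have e2 : lam * ρ ≤ 1 / 64 * ρ := mul_le_mul_of_nonneg_right hl1 hρ.le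
  have e3 : lam * (K1 + 2) * ρ ≤ 1 / 8 * ρ := mul_le_mul_of_nonneg_right hlK hρ.le
  have e3' : lam * (K1 + 2) * ρ = K1 * (lam * ρ) + 2 * (lam * ρ) := by ring
  have e4 : 0 < lam * ρ := by positivity
  have e5 : c1 * (lam * ρ0) ≤ c1 * (lam * ρ) := mul_le_mul_of_nonneg_left e1 hc1.le
  have hd0 := hn.d0
  have hd1 := hn.d1
  have hR := hn.r1R
  have h11 := hn.r11
  have hlo := hn.lo
  have hwx : ‖w - x‖ = ρ := by
    rw [hw, add_sub_cancel_left, norm_mul, hu, Complex.norm_real, Real.norm_eq_abs,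
      abs_of_nonneg hρ.le, mul_one]
  have hwz : ‖w - z‖ ≤ ρ + ρ1 / 4 := by
    have := norm_add_le (w - x) (x - z)
    rw [sub_add_sub_cancel] at this
    linarith [hg.xz]
  have hwc : ‖w - D.c‖ ≤ ρ + ρ1 / 4 + ‖z - D.c‖ := by
    have := norm_add_le (w - z) (z - D.c)
    rw [sub_add_sub_cancel] at this
    linarith
  have hzc := hg.zc
  have hzn := norm_nonneg (z - D.c)
  have htx := hg.tx
  have hKρ : 0 < K1 * (lam * ρ) := by positivity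
  refine ⟨reg_free hg.dns e4 (by linarith) (by linarith) (by linarith) ?_,
    disc_pr hg.dns hc e4 (by linarith) (by linarith) (by linarith) (by linarith) (by linarith)⟩
  refine hg.room.mono_left ?_
  intro y hy
  rw [Metric.mem_ball, dist_eq_norm] at hy
  rw [Metric.mem_closedBall, dist_eq_norm]
  have := norm_add_le (y - w) (w - z)
  rw [sub_add_sub_cancel] at this
  linarith

theorem reg_B (hg : Geo π δ κ ε D ω z t x ρ1) (hn : Num π δ κ ε c1 K1 lam ρ0 ρ1 ρ2)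
    (hc : Crc π ε D ω c0 c1 K1) (h1 : 2 * ρ1 < ‖w - z‖) (h2 : ‖w - D.c‖ ≤ 3 / 4 * D.L)
    (h3 : Disjoint (Metric.ball w π.m) D.out) :
    Reg (D.sites ε ω) (net D ε ω) t x (Sqc w ρ2) (Sq w (2 * ρ2)) (Metric.ball w (30 * ρ2))
      ((D.sites ε ω).filter fun a => a ∈ Sq w (2 * ρ2) ∧ Fr (D.sites ε ω) (net D ε ω) a) ∧
    pr ((D.sites ε ω).filter fun a => a ∈ Sq w (2 * ρ2) ∧ Fr (D.sites ε ω) (net D ε ω) a)
      (Crs (Adj (D.sites ε ω)) (Sqc w ρ2) (ent (D.sites ε ω) (Sq w (2 * ρ2)))) ≤ 1 - c0 := by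
  have hK := hn.posK
  have hc1 := hn.posc
  have hl := hn.lam0
  have hl1 := hn.lam1
  have hr0 := hn.r0
  have hr02 := hn.r02
  have hr2 : 0 < ρ2 := by linarith
  have hd := hg.dns.dpos
  have hr2K := hn.r2K
  have hKρ : 0 < K1 * ρ2 := by positivity
  have e0 : 30 * (K1 + 2) * ρ2 = 30 * (K1 * ρ2) + 60 * ρ2 := by ring
  have e1 : lam * ρ0 ≤ 1 / 64 * ρ0 := mul_le_mul_of_nonneg_right hl1 hr0.le
  have e5 : c1 * (lam * ρ0) ≤ c1 * ρ2 := mul_le_mul_of_nonneg_left (by linarith) hc1.le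
  have hd0 := hn.d0
  have hd1 := hn.d1
  have hR := hn.r1R
  have hm := hn.r1m
  have h11 := hn.r11
  have hlo := hn.lo
  have hzc := hg.zc
  have hzn := norm_nonneg (z - D.c)
  have htx := hg.tx
  have hxz := hg.xz
  have hwx : ρ1 ≤ ‖w - x‖ := by
    have := norm_add_le (w - x) (x - z)
    rw [sub_add_sub_cancel] at this
    linarith
  refine ⟨reg_free hg.dns hr2 (by linarith) (by linarith) (by linarith) ?_,
    disc_pr hg.dns hc hr2 (by linarith) (by linarith) (by linarith) (by linarith) (by linarith)⟩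
  refine h3.mono_left (Metric.ball_subset_ball ?_)
  linarith

theorem reg_C (H : HNet (D.sites ε ω) (net D ε ω)) {n : ℕ} {R : ZMod n → Set ℂ} {q : ZMod n → ℂ}
    {th : ℤ → ℝ} (hF : FanA n D.c D.L δ R q th) (hout : D.out = ⋃ i, R i)
    (hkl : ∀ p, p ∈ D.kl (D.sites ε ω) → p ∈ (net D ε ω).kl)
    (hg : Geo π δ κ ε D ω z t x ρ1) (hn : Num π δ κ ε c1 K1 lam ρ0 ρ1 ρ2)
    (hc : Crc π ε D ω c0 c1 K1) {φ : ℝ} (h1 : th 0 ≤ φ) (h2 : φ ≤ (th 0 + th 1) / 2)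
    (hw : w = D.c + ((3 / 4 * D.L : ℝ) : ℂ) * Complex.exp (φ * Complex.I)) :
    Reg (D.sites ε ω) (net D ε ω) t x (Sqc w ρ2) (Sq w (2 * ρ2)) (Metric.ball w (30 * ρ2))
      ((D.sites ε ω).filter fun a => a ∈ Sq w (2 * ρ2) ∧ Fr (D.sites ε ω) (net D ε ω) a) ∧
    pr ((D.sites ε ω).filter fun a => a ∈ Sq w (2 * ρ2) ∧ Fr (D.sites ε ω) (net D ε ω) a)
      (Crs (Adj (D.sites ε ω)) (Sqc w ρ2) (ent (D.sites ε ω) (Sq w (2 * ρ2)))) ≤ 1 - c0 := by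
  have hK := hn.posK
  have hc1 := hn.posc
  have hl := hn.lam0
  have hl1 := hn.lam1
  have hr0 := hn.r0
  have hr02 := hn.r02
  have hr2 : 0 < ρ2 := by linarith
  have hd := hg.dns.dpos
  have hr2K := hn.r2K
  have hKρ : 0 < K1 * ρ2 := by positivity
  have e0 : 30 * (K1 + 2) * ρ2 = 30 * (K1 * ρ2) + 60 * ρ2 := by ring
  have e1 : lam * ρ0 ≤ 1 / 64 * ρ0 := mul_le_mul_of_nonneg_right hl1 hr0.le
  have e5 : c1 * (lam * ρ0) ≤ c1 * ρ2 := mul_le_mul_of_nonneg_left (by linarith) hc1.le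
  have hd0 := hn.d0
  have hd1 := hn.d1
  have hR := hn.r1R
  have hm := hn.r1m
  have h11 := hn.r11
  have hlo := hn.lo
  have hzc := hg.zc
  have hzn := norm_nonneg (z - D.c)
  have htx := hg.tx
  have hxz := hg.xz
  have hδ := hn.r2δ
  have hL := hF.fan.Lpos
  have hwc : ‖w - D.c‖ = 3 / 4 * D.L := by
    rw [hw, add_sub_cancel_left, norm_mul, Complex.norm_exp_ofReal_mul_I, mul_one,
      Complex.norm_real, Real.norm_eq_abs, abs_of_nonneg (by positivity)]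
  have hwx : ρ1 ≤ ‖w - x‖ := by
    have a1 := norm_add_le (w - x) (x - D.c)
    have a2 := norm_add_le (x - z) (z - D.c)
    rw [sub_add_sub_cancel] at a1 a2
    linarith
  refine ⟨reg_arc H hF hout hg.dns hkl hr2 (by linarith) (by linarith) (by linarith) h1 h2 hw
    (by linarith) (by linarith),
    disc_pr hg.dns hc hr2 (by linarith) (by linarith) (by linarith) (by linarith) (by linarith)⟩

end Crest.Agent.R143.XW8x315
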