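import Crest.Agent.R143.XW8_315

/-!
# R143, block X, winding tail XW (helper315), part 9: exponential moment for one face

* `wind_at` : exponential moment of the rotation of one face in a good environment
-/

set_option autoImplicit false

noncomputable section

open scoped Classical

namespace Crest.Agent.R143.XW9x315

open Finset
open Crest.ProbabilityR.Voronoi
open Crest.Agent.R143.B0x346 Crest.Agent.R143.DelGx806 Crest.Agent.R143.DelRx806
open Crest.Agent.R143.B0Dx346 Crest.Agent.R143.JColx54 Crest.Agent.R143.JCol2x54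
open Crest.Agent.R143.PP1x831 Crest.Agent.R143.Y0x831
open Crest.Agent.R143.Planarx54 Crest.Agent.R143.Planar2x54
open Crest.Agent.R143.DomAx722 hiding ang
open Crest.Agent.R143.DomBx722 Crest.Agent.R143.DomCx722
open Crest.Agent.R143.Harx315 Crest.Agent.R143.XW1x315 Crest.Agent.R143.XW2x315
open Crest.Agent.R143.XW3x315 Crest.Agent.R143.XW4x315 Crest.Agent.R143.XW5x315
open Crest.Agent.R143.XW6x315 Crest.Agent.R143.XW7x315 Crest.Agent.R143.XW8x315
open Crest.Agent.R143.CircPx838 Crest.Agent.R143.Blkx838 Crest.Agent.R143.RB0x838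
open Crest.Agent.R143.B6Ix903 Crest.Agent.R143.B6cx903
open Crest.Agent.R143.B1bx796 (touch)

/-! ### the regions -/

/-- centres -/
def cenF (x u : ℂ) (Rj : ℕ → ℝ) (l : List ℂ) : ℕ ⊕ ℕ → ℂ
  | Sum.inl j => x + (Rj j : ℂ) * u
  | Sum.inr j => l.getD j 0

/-- radii -/
def radF (lam : ℝ) (Rj : ℕ → ℝ) (ρ2 : ℝ) : ℕ ⊕ ℕ → ℝ
  | Sum.inl j => lam * Rj j
  | Sum.inr _ => ρ2

def qF (A : Set ℂ) (cen : ℕ ⊕ ℕ → ℂ) (rr : ℕ ⊕ ℕ → ℝ) : Option (ℕ ⊕ ℕ) → Set ℂ
  | none => A
  | some i => Sqc (cen i) (rr i)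

def QF (A : Set ℂ) (cen : ℕ ⊕ ℕ → ℂ) (rr : ℕ ⊕ ℕ → ℝ) : Option (ℕ ⊕ ℕ) → Set ℂ
  | none => A
  | some i => Sq (cen i) (2 * rr i)

def QpF (A : Set ℂ) (cen : ℕ ⊕ ℕ → ℂ) (rr : ℕ ⊕ ℕ → ℝ) : Option (ℕ ⊕ ℕ) → Set ℂ
  | none => A
  | some i => Metric.ball (cen i) (30 * rr i)

def VF (S : Finset ℂ) (N : Net ℂ) (cen : ℕ ⊕ ℕ → ℂ) (rr : ℕ ⊕ ℕ → ℝ) :
    Option (ℕ ⊕ ℕ) → Finset ℂ
  | none => ∅
  | some i => S.filter fun a => a ∈ Sq (cen i) (2 * rr i) ∧ Fr S N a

def clF (n0 : ℕ) : Option (ℕ ⊕ ℕ) → Fin (32 + n0)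
  | none => ⟨0, by omega⟩
  | some (Sum.inl j) => ⟨j % 32, by omega⟩
  | some (Sum.inr j) => if h : j < n0 then ⟨32 + j, by omega⟩ else ⟨0, by omega⟩

theorem geo_disj {lam ρ ρ' : ℝ} (h0 : 0 < lam) (h1 : lam ≤ 1 / 64) (hρ : 0 < ρ)
    (h : ρ * (1 + 16 * lam) ≤ ρ') {x u a : ℂ} (hu : ‖u‖ = 1)
    (ha : a ∈ Sq (x + (ρ : ℂ) * u) (2 * (lam * ρ)))
    (ha' : a ∈ Sq (x + (ρ' : ℂ) * u) (2 * (lam * ρ'))) : False := by
  have h2 := Sq_norm ha
  have h3 := Sq_norm ha'
  have h4 : ρ ≤ ρ' := by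
    have : 0 ≤ ρ * (16 * lam) := by positivity
    linarith
  have h5 : ‖(x + (ρ' : ℂ) * u) - (x + (ρ : ℂ) * u)‖ = ρ' - ρ := by
    have e : (x + (ρ' : ℂ) * u) - (x + (ρ : ℂ) * u) = ((ρ' - ρ : ℝ) : ℂ) * u := by
      push_cast; ring
    rw [e, norm_mul, hu, Complex.norm_real, Real.norm_eq_abs, abs_of_nonneg (by linarith), mul_one]
  have h6 := norm_sub_le_norm_sub_add_norm_sub (x + (ρ' : ℂ) * u) a (x + (ρ : ℂ) * u)
  rw [h5, norm_sub_rev _ a] at h6
  have h7 : (1 - 4 * lam) * ρ' < (1 + 4 * lam) * ρ := by linarith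
  have h8 : (1 - 4 * lam) * (ρ * (1 + 16 * lam)) ≤ (1 - 4 * lam) * ρ' :=
    mul_le_mul_of_nonneg_left h (by linarith)
  have h9 : (1 - 4 * lam) * (ρ * (1 + 16 * lam)) = (1 + 4 * lam) * ρ +
      8 * (lam * ρ) * (1 - 8 * lam) := by ring
  have h10 : 0 ≤ 8 * (lam * ρ) * (1 - 8 * lam) := by
    have : 0 ≤ 1 - 8 * lam := by linarith
    positivity
  linarith

theorem cls_disj {S : Finset ℂ} {N : Net ℂ} {x u : ℂ} {lam ρ0 ρ2 : ℝ} (h0 : 0 < lam)
    (h1 : lam ≤ 1 / 64) (hρ : 0 < ρ0) (hu : ‖u‖ = 1) {l : List ℂ} {n0 J0 : ℕ} (hl : l.length ≤ n0) :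
    ∀ i ∈ insertNone ((range J0).disjSum (range l.length)),
    ∀ j ∈ insertNone ((range J0).disjSum (range l.length)), clF n0 i = clF n0 j → i ≠ j →
      Disjoint (VF S N (cenF x u (fun j => ρ0 * (1 + lam / 2) ^ j) l)
          (radF lam (fun j => ρ0 * (1 + lam / 2) ^ j) ρ2) i)
        (VF S N (cenF x u (fun j => ρ0 * (1 + lam / 2) ^ j) l)
          (radF lam (fun j => ρ0 * (1 + lam / 2) ^ j) ρ2) j) := by
  have key : ∀ i j : ℕ, i < j → i % 32 = j % 32 → ∀ a : ℂ,
      a ∈ Sq (x + ((ρ0 * (1 + lam / 2) ^ i : ℝ) : ℂ) * u) (2 * (lam * (ρ0 * (1 + lam / 2) ^ i))) →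
      a ∈ Sq (x + ((ρ0 * (1 + lam / 2) ^ j : ℝ) : ℂ) * u) (2 * (lam * (ρ0 * (1 + lam / 2) ^ j))) →
      False := by
    intro i j hij hm a ha ha'
    refine geo_disj h0 h1 (ρ := ρ0 * (1 + lam / 2) ^ i) (by positivity) ?_ hu ha ha'
    have h2 : i + 32 ≤ j := by omega
    have h3 : (1 + 16 * lam) ≤ (1 + lam / 2) ^ 32 := by
      have := one_add_mul_le_pow (a := lam / 2) (by linarith) 32
      push_cast at this
      linarith
    have h4 : (1 + lam / 2) ^ (i + 32) ≤ (1 + lam / 2) ^ j :=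
      pow_le_pow_right₀ (by linarith) h2
    calc ρ0 * (1 + lam / 2) ^ i * (1 + 16 * lam) ≤ ρ0 * (1 + lam / 2) ^ i * (1 + lam / 2) ^ 32 :=
          mul_le_mul_of_nonneg_left h3 (by positivity)
      _ = ρ0 * (1 + lam / 2) ^ (i + 32) := by rw [pow_add]; ring
      _ ≤ ρ0 * (1 + lam / 2) ^ j := mul_le_mul_of_nonneg_left h4 hρ.le
  rintro (_ | i | i) hi (_ | j | j) hj hc hij
  · exact absurd rfl hij
  · exact disjoint_empty_left _
  · exact disjoint_empty_left _
  · exact disjoint_empty_right _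
  · -- two discs on the first segment
    have hc' : i % 32 = j % 32 := by
      have := congrArg Fin.val hc
      exact this
    have hne : i ≠ j := fun h => hij (by rw [h])
    rw [Finset.disjoint_left]
    intro a ha ha'
    have g1 := (mem_filter.1 ha).2.1
    have g2 := (mem_filter.1 ha').2.1
    rcases lt_or_gt_of_ne hne with h | h
    · exact key i j h hc' a g1 g2
    · exact key j i h hc'.symm a g2 g1
  · -- different classes
    exfalso
    rw [some_mem_insertNone, inr_mem_disjSum, mem_range] at hj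
    have := congrArg Fin.val hc
    simp only [clF, dif_pos (lt_of_lt_of_le hj hl)] at this
    omega
  · exact disjoint_empty_right _
  · exfalso
    rw [some_mem_insertNone, inr_mem_disjSum, mem_range] at hi
    have := congrArg Fin.val hc
    simp only [clF, dif_pos (lt_of_lt_of_le hi hl)] at this
    omega
  · exfalso
    rw [some_mem_insertNone, inr_mem_disjSum, mem_range] at hi hj
    have := congrArg Fin.val hc
    simp only [clF, dif_pos (lt_of_lt_of_le hi hl), dif_pos (lt_of_lt_of_le hj hl)] at this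
    apply hij
    have : i = j := by omega
    rw [this]

/-! ### one face -/

variable {π : Par} {δ κ ε : ℝ} {D : Dom} {ω : Sample} {z : ℂ} {t : ℂ × ℂ × ℂ} {x : ℂ}
  {c0 c1 K1 lam ρ0 ρ1 ρ2 : ℝ}

/-- the sites whose cell meets the polygon are covered -/
theorem cover {S : Finset ℂ} {c : ℂ} {L d : ℝ} (hS : Dns S c L d) {b : ℂ} {l : List ℂ} {v u : ℂ}
    {J0 : ℕ} (hb : b ≠ x) (hu : u = (b - x) / (‖b - x‖ : ℂ)) (hlam : 0 < lam) (hρ0 : 0 < ρ0)
    (hbx : ‖b - x‖ < ρ0 * (1 + lam / 2) ^ J0) (hdl : d ≤ lam * ρ0 / 8) (hlam1 : lam ≤ 1)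
    (hx : ‖x - c‖ + ‖b - x‖ ≤ L - d) (hη : 0 < ρ2) (hρ2 : ρ0 ≤ ρ2)
    (hch : (b :: l).IsChain (fun a b => ‖a - b‖ ≤ ρ2 / 2))
    (hmem : ∀ y ∈ b :: l, ‖y - c‖ + ρ2 / 2 + d ≤ L)
    (hlast : (b :: l).getLast (List.cons_ne_nil _ _) = c + ((3 / 4 * L : ℝ) : ℂ) * v)
    {a : ℂ} (ha : (cell (S : Set ℂ) a ∩ cutS v (x :: b :: l)).Nonempty) :
    ‖a - x‖ ≤ 2 * ρ0 ∨ ∃ i ∈ insertNone ((range J0).disjSum (range (b :: l).length)),
      a ∈ qF (meets S {y | ∃ τ : ℝ, 3 / 4 * L ≤ τ ∧ y = c + τ * v})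
        (cenF x u (fun j => ρ0 * (1 + lam / 2) ^ j) (b :: l))
        (radF lam (fun j => ρ0 * (1 + lam / 2) ^ j) ρ2) i := by
  have hd := hS.dpos
  have hbx0 : 0 < ‖b - x‖ := norm_pos_iff.2 (sub_ne_zero.2 hb)
  have hun : ‖u‖ = 1 := by
    rw [hu, norm_div, Complex.norm_real, norm_norm, div_self hbx0.ne']
  have hbu : b - x = (‖b - x‖ : ℂ) * u := by
    rw [hu]
    have : (‖b - x‖ : ℂ) ≠ 0 := by exact_mod_cast hbx0.ne'
    field_simp
  have e0 : lam * ρ0 ≤ ρ0 := by nlinarith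
  obtain ⟨y, hy, hyc⟩ := ha
  have hcut : y ∈ segment ℝ x b ∨ y ∈ cutS v (b :: l) := hyc
  rcases hcut with hyc | hyc
  · -- the first segment
    rw [segment_eq_image'] at hyc
    obtain ⟨σ, ⟨hσ0, hσ1⟩, hyσ⟩ := hyc
    have hyx : y = x + ((σ * ‖b - x‖ : ℝ) : ℂ) * u := by
      have hyσ' : x + σ • (b - x) = y := hyσ
      rw [← hyσ', Complex.real_smul, Complex.ofReal_mul, mul_assoc, ← hbu]
    set τ : ℝ := σ * ‖b - x‖ with hτ
    have hτ0 : 0 ≤ τ := by positivity
    have hτ1 : τ ≤ ‖b - x‖ := by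
      rw [hτ]
      exact mul_le_of_le_one_left (norm_nonneg _) hσ1
    have hnyx : ‖y - x‖ = τ := by
      rw [hyx, add_sub_cancel_left, norm_mul, hun, mul_one, Complex.norm_real, Real.norm_eq_abs,
        abs_of_nonneg hτ0]
    have hyc : ‖y - c‖ ≤ L - d := by
      have := norm_add_le (y - x) (x - c)
      rw [sub_add_sub_cancel] at this
      linarith
    have hya := cell_near hS hy hyc
    rw [norm_sub_rev] at hya
    by_cases hτρ : τ < ρ0
    · left
      have := norm_add_le (a - y) (y - x)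
      rw [sub_add_sub_cancel] at this
      linarith
    · right
      push Not at hτρ
      obtain ⟨j, hj1, hj2⟩ := exists_nat_pow_near (x := τ / ρ0) (y := 1 + lam / 2)
        (by rw [one_le_div hρ0]; exact hτρ) (by linarith)
      rw [le_div_iff₀ hρ0] at hj1
      rw [div_lt_iff₀ hρ0] at hj2
      have hj3 : j < J0 := by
        by_contra hcon
        push Not at hcon
        have h3 : (1 + lam / 2) ^ J0 ≤ (1 + lam / 2) ^ j := pow_le_pow_right₀ (by linarith) hcon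
        have h4 := mul_le_mul_of_nonneg_left h3 hρ0.le
        linarith
      refine ⟨some (Sum.inl j), ?_, ?_⟩
      · rw [some_mem_insertNone, inl_mem_disjSum, mem_range]
        exact hj3
      · set ρ : ℝ := ρ0 * (1 + lam / 2) ^ j with hρ
        have hρ1 : ρ0 ≤ ρ := by
          have : 1 ≤ (1 + lam / 2) ^ j := one_le_pow₀ (by linarith)
          rw [hρ]
          nlinarith
        have hρτ : ρ ≤ τ := by rw [hρ]; linarith
        have hτρ' : τ < ρ * (1 + lam / 2) := by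
          rw [hρ]
          calc τ < (1 + lam / 2) ^ (j + 1) * ρ0 := hj2
            _ = ρ0 * (1 + lam / 2) ^ j * (1 + lam / 2) := by rw [pow_succ]; ring
        show sup (a - (x + (ρ : ℂ) * u)) ≤ lam * ρ
        refine (sup_le_norm _).trans ?_
        have h5 : ‖y - (x + (ρ : ℂ) * u)‖ = τ - ρ := by
          have e : y - (x + (ρ : ℂ) * u) = ((τ - ρ : ℝ) : ℂ) * u := by
            rw [hyx]; push_cast; ring
          rw [e, norm_mul, hun, mul_one, Complex.norm_real, Real.norm_eq_abs,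
            abs_of_nonneg (by linarith)]
        have h6 := norm_add_le (a - y) (y - (x + (ρ : ℂ) * u))
        rw [sub_add_sub_cancel, h5] at h6
        have h7 : lam * ρ0 ≤ lam * ρ := mul_le_mul_of_nonneg_left hρ1 hlam.le
        have h8 : 0 < lam * ρ0 := by positivity
        linarith
  · right
    rcases cutS_near (by positivity) l b hch y hyc with ⟨p, hp, hyp⟩ | ⟨τ, hτ, hyτ⟩
    · obtain ⟨j, hj, hjp⟩ := List.getElem_of_mem hp
      refine ⟨some (Sum.inr j), ?_, ?_⟩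
      · rw [some_mem_insertNone, inr_mem_disjSum, mem_range]
        exact hj
      · have h1 : ‖y - c‖ ≤ L - d := by
          have := norm_add_le (y - p) (p - c)
          rw [sub_add_sub_cancel] at this
          linarith [hmem p hp]
        have hya := cell_near hS hy h1
        rw [norm_sub_rev] at hya
        show sup (a - (b :: l).getD j 0) ≤ ρ2
        have h2 : (b :: l).getD j 0 = p := by
          rw [List.getD_eq_getElem _ _ hj, hjp]
        rw [h2]
        refine (sup_le_norm _).trans ?_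
        have := norm_add_le (a - y) (y - p)
        rw [sub_add_sub_cancel] at this
        have h8 : 0 < lam * ρ0 := by positivity
        linarith
    · refine ⟨none, none_mem_insertNone, ?_⟩
      show (cell (S : Set ℂ) a ∩ _).Nonempty
      refine ⟨y, hy, 3 / 4 * L + τ, by linarith, ?_⟩
      rw [hyτ, hlast]
      push_cast
      ring

/-- **exponential moment of the rotation of one face** -/
theorem wind_at (h : At π δ ε D ω z) (hs : Sm π δ κ ε) (hn : Num π δ κ ε c1 K1 lam ρ0 ρ1 ρ2)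
    (hc : Crc π ε D ω c0 c1 K1) (hc0 : c0 ≤ 1) {J0 : ℕ}
    (hJ : ∀ j < J0, ρ0 * (1 + lam / 2) ^ j ≤ 3 * ρ1) (hJ' : 3 * ρ1 < ρ0 * (1 + lam / 2) ^ J0)
    {n0 : ℕ} (hn0 : (16 * π.L / (ρ2 / 2) + 3) ^ 2 + 2 +
      ((⌈3 * Real.pi * π.L / (4 * (ρ2 / 2))⌉₊ : ℝ) + 2) ≤ n0)
    (ht : t ∈ touch z (ε ^ κ) (D.sites ε ω)) (hx : InO' x t) {lf : ℤ → ℝ}
    (hl : Lift (net D ε ω) x lf) {a0 s M1 m : ℝ} (hs0 : 0 ≤ s) (hM1 : M1 = Real.pi * (n0 + 1))
    (hm : m = 9 / (2 * Real.pi) * (Real.pi + 2 * M1))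
    (hsp : Real.exp (s * m * ((32 + n0 : ℕ) : ℝ)) ^ 2 * (1 - c0) < 1) :
    ∑ J ∈ ((net D ε ω).tj t).filter (fun J => ∃ k, (net D ε ω).TriK t x lf a0 k J),
      Real.exp (s * |(rotK (net D ε ω) t x lf a0 J : ℝ)|) ≤
    (((net D ε ω).tj t).card : ℝ) * (((32 + n0 : ℕ) : ℝ) *
      Real.exp (s * m * ((4 * (2 * ρ0) / rad π.C ε + 3) ^ 2 * (π.K * Real.log (1 / ε)) +
        (J0 + n0 + 1)) + s * (3 / (2 * Real.pi) * (2 * M1 + 4 * Real.pi + |a0 - lf 0|))) *
      (1 / (1 - Real.exp (s * m * ((32 + n0 : ℕ) : ℝ)) ^ 2 * (1 - c0))) ^ (J0 + n0 + 1)) := by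
  have hpi := Real.pi_pos
  have hLpos := h.ok.Lpos
  have hg := geo h hs hn ht hx
  have hS := hg.dns
  have H := h.hnet hs
  have htd := (pos_near h hs ht hx).1
  obtain ⟨n, R, q, th, hF, hout, hq0, hq⟩ := fan_of h.ok
  set S := D.sites ε ω with hSdef
  set d := rad π.C ε with hd
  have hd0 : 0 < d := hs.d
  -- numbers
  have hK := hn.posK
  have hlam := hn.lam0
  have hlam1 := hn.lam1
  have hr0 := hn.r0
  have hr02 := hn.r02
  have hr2 : 0 < ρ2 := by linarith
  have hr2K := hn.r2K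
  have hKρ : 0 < K1 * ρ2 := by positivity
  have e0 : 30 * (K1 + 2) * ρ2 = 30 * (K1 * ρ2) + 60 * ρ2 := by ring
  have e1 : lam * ρ0 ≤ 1 / 64 * ρ0 := mul_le_mul_of_nonneg_right hlam1 hr0.le
  have hdl := hn.d0
  rw [← hd] at hdl
  have hR := hn.r1R
  have hm' := hn.r1m
  have hzc := hg.zc
  have hzn := norm_nonneg (z - D.c)
  have htx := hg.tx
  rw [← hd] at htx
  have hxz := hg.xz
  have hLle := h.len
  have hdL : 400 * (D.L * d) ≤ δ ^ 2 := by
    refine le_trans ?_ hn.dδ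
    have := mul_le_mul_of_nonneg_right hLle hd0.le
    linarith
  have hkl : ∀ p, p ∈ D.kl S → p ∈ (D.netS S).kl := fun p hp =>
    kl_mem hF.fan hout hq hS hdL hp
  have hxc : ‖x - D.c‖ ≤ ρ1 / 4 + ‖z - D.c‖ := by
    have := norm_add_le (x - z) (z - D.c)
    rw [sub_add_sub_cancel] at this
    linarith
  have htc : ‖t.2.1 - D.c‖ ≤ 2 * d + ρ1 / 4 + ‖z - D.c‖ := by
    have := norm_add_le (t.2.1 - x) (x - D.c)
    rw [sub_add_sub_cancel] at this
    linarith
  -- the polygon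
  obtain ⟨b, l', hb, hch, hmem, hlast, hlen⟩ := exists_poly hF hq0 h.lnk (ρ1 := ρ1) (η := ρ2 / 2)
    (L1 := π.L) (by linarith) (by linarith) (by linarith) hLle
  set v : ℂ := Complex.exp ((((th 0 + th 1) / 2 : ℝ) : ℂ) * Complex.I) with hv
  have hvn : ‖v‖ = 1 := Complex.norm_exp_ofReal_mul_I _
  have hv0 : v ≠ 0 := Complex.exp_ne_zero _
  have hlen' : (b :: l').length ≤ n0 := by
    have : ((b :: l').length : ℝ) ≤ n0 := hlen.trans hn0
    exact_mod_cast this
  have hmem' : ∀ y ∈ b :: l', ‖y - D.c‖ ≤ 3 / 4 * D.L ∧ ρ1 ≤ ‖y - x‖ := by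
    intro y hy
    rcases hmem y hy with ⟨h1, h2, -⟩ | ⟨φ, -, -, h3⟩
    · refine ⟨h2, ?_⟩
      have := norm_add_le (y - x) (x - z)
      rw [sub_add_sub_cancel] at this
      linarith
    · have h4 : ‖y - D.c‖ = 3 / 4 * D.L := by
        rw [h3, add_sub_cancel_left, norm_mul, Complex.norm_exp_ofReal_mul_I, mul_one,
          Complex.norm_real, Real.norm_eq_abs, abs_of_nonneg (by positivity)]
      refine ⟨h4.le, ?_⟩
      have a1 := norm_add_le (y - x) (x - D.c)
      rw [sub_add_sub_cancel] at a1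
      linarith
  have hbx := (hmem' b List.mem_cons_self).2
  have hbx0 : 0 < ‖b - x‖ := by linarith
  have hbne : b ≠ x := fun h => by
    rw [h, sub_self, norm_zero] at hbx0
    exact lt_irrefl _ hbx0
  set u : ℂ := (b - x) / (‖b - x‖ : ℂ) with hu
  have hun : ‖u‖ = 1 := by
    rw [hu, norm_div, Complex.norm_real, norm_norm, div_self hbx0.ne']
  have hbx3 : ‖b - x‖ ≤ 3 * ρ1 := by
    have := norm_add_le (b - z) (z - x)
    rw [sub_add_sub_cancel, norm_sub_rev z x] at this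
    linarith
  -- the branch
  set Z : Set ℂ := {a | ¬ Disjoint (cell (S : Set ℂ) a) (cutS v (x :: b :: l')) ∨
    ‖a - x‖ < 3 * d} with hZ
  set A : Set ℂ := {y | ∃ τ : ℝ, 3 / 4 * D.L ≤ τ ∧ y = D.c + τ * v} with hA
  set cen := cenF x u (fun j => ρ0 * (1 + lam / 2) ^ j) (b :: l') with hcen
  set rr := radF lam (fun j => ρ0 * (1 + lam / 2) ^ j) ρ2 with hrr
  set core : Finset ℂ := S.filter (fun a => ‖a - x‖ ≤ 2 * ρ0) with hcore
  set I := insertNone ((range J0).disjSum (range (b :: l').length)) with hI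
  have hIcard : I.card = J0 + (b :: l').length + 1 := by
    rw [hI, card_insertNone, card_disjSum, card_range, card_range]
  have hcorecard : (core.card : ℝ) ≤ (4 * (2 * ρ0) / d + 3) ^ 2 * (π.K * Real.log (1 / ε)) := by
    have hlog : 0 ≤ Real.log (1 / ε) := Real.log_nonneg (by
      rw [le_div_iff₀ hs.unit.1]; linarith [hs.unit.2])
    refine card_pts (z := x) (s := 2 * ρ0) h.good.env hd0 (mul_nonneg π.Kpos.le hlog)
      (by positivity) (by linarith) (fun y hy => ?_)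
    rw [hcore, mem_filter] at hy
    exact ⟨((DomAx722.mem_sites h.good.env.fin).1 hy.1).1, hy.2⟩
  have hreg : ∀ i ∈ I, Reg S (D.netS S) t x (qF (meets S A) cen rr i) (QF (meets S A) cen rr i)
      (QpF (meets S A) cen rr i) (VF S (D.netS S) cen rr i) ∧
      pr (VF S (D.netS S) cen rr i) (Crs (Adj S) (qF (meets S A) cen rr i)
        (ent S (QF (meets S A) cen rr i))) ≤ 1 - c0 := by
    rintro (_ | j | j) hi
    · refine ⟨?_, crs_empty (by linarith)⟩
      refine reg_ray H hS hkl hvn hA (fun y hy => ray_out hF hout hy) (by linarith) (by linarith)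
        ?_ (by linarith)
      have h1 : D.L * d < (D.L / 24) ^ 2 := by
        have h2 : d < D.L / 576 := by linarith
        have h3 := mul_lt_mul_of_pos_left h2 hLpos
        calc D.L * d < D.L * (D.L / 576) := h3
          _ = (D.L / 24) ^ 2 := by ring
      have h2 : Real.sqrt (D.L * d) < D.L / 24 := by
        rw [Real.sqrt_lt' (by positivity)]
        exact h1
      linarith
    · rw [hI, some_mem_insertNone, inl_mem_disjSum, mem_range] at hi
      have h1 : ρ0 ≤ ρ0 * (1 + lam / 2) ^ j := by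
        have : 1 ≤ (1 + lam / 2) ^ j := one_le_pow₀ (by linarith)
        nlinarith
      exact reg_A hg hn hc hun h1 (hJ j hi) rfl
    · rw [hI, some_mem_insertNone, inr_mem_disjSum, mem_range] at hi
      have h2 : (b :: l').getD j 0 ∈ b :: l' := by
        rw [List.getD_eq_getElem _ _ hi]
        exact List.getElem_mem hi
      rcases hmem _ h2 with ⟨h3, h4, h5⟩ | ⟨φ, h3, h4, h5⟩
      · exact reg_B hg hn hc h3 h4 h5
      · exact reg_C H hF hout hkl hg hn hc h3 h4 h5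
  have hF0 : ∀ a, |Lf v (x :: b :: l') a| ≤ M1 := by
    intro a
    refine (abs_Lf_le v (x :: b :: l') a).trans ?_
    rw [hM1, List.length_cons]
    push_cast
    have : ((b :: l').length : ℝ) ≤ n0 := by exact_mod_cast hlen'
    exact mul_le_mul_of_nonneg_left (by linarith) hpi.le
  have hM0 : 0 ≤ M1 := by rw [hM1]; positivity
  have hZ' : ∀ a b', Adj S a b' → a ∉ Z → b' ∉ Z →
      ang x a b' = Lf v (x :: b :: l') b' - Lf v (x :: b :: l') a := by
    intro a b' hab ha hb'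
    have ha' : Disjoint (cell (S : Set ℂ) a) (cutS v (x :: b :: l')) ∧ 3 * d ≤ ‖a - x‖ := by
      by_contra hcon
      apply ha
      by_cases h1 : Disjoint (cell (S : Set ℂ) a) (cutS v (x :: b :: l'))
      · right
        by_contra h2
        exact hcon ⟨h1, not_lt.1 h2⟩
      · exact Or.inl h1
    have hb'' : Disjoint (cell (S : Set ℂ) b') (cutS v (x :: b :: l')) ∧ 3 * d ≤ ‖b' - x‖ := by
      by_contra hcon
      apply hb'
      by_cases h1 : Disjoint (cell (S : Set ℂ) b') (cutS v (x :: b :: l'))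
      · right
        by_contra h2
        exact hcon ⟨h1, not_lt.1 h2⟩
      · exact Or.inl h1
    exact lf_edge hS (by linarith) hv0 hab ha'.2 hb''.2 ha'.1 hb''.1
  have hcov : ∀ a ∈ S, a ∈ Z → a ∈ core ∨ ∃ i ∈ I, a ∈ qF (meets S A) cen rr i := by
    intro a ha haZ
    rcases haZ with haZ | haZ
    · rw [Set.not_disjoint_iff_nonempty_inter] at haZ
      rcases cover hS hbne hu hlam hr0 (by linarith) hdl (by linarith) (by linarith) hr2 hr02 hch
        (fun y hy => by linarith [(hmem' y hy).1]) hlast haZ with h1 | h1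
      · left
        exact mem_filter.2 ⟨ha, h1⟩
      · right
        exact h1
    · left
      refine mem_filter.2 ⟨ha, ?_⟩
      have : ‖a - x‖ < 3 * d := haZ
      linarith
  have key := wind_exp H htd hx hl (a0 := a0) hM0 hF0 hZ' (fun i hi => (hreg i hi).1) hcov
    (n := 32 + n0) (by omega) (clF n0) (cls_disj hlam hlam1 hr0 hun hlen') hs0
    (fun i hi => (hreg i hi).2) (by rw [← hm]; exact hsp) (by linarith)
  rw [← hm] at key
  refine key.trans ?_
  have hm0 : 0 ≤ m := by rw [hm]; positivity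
  have hG : 1 ≤ 1 / (1 - Real.exp (s * m * ((32 + n0 : ℕ) : ℝ)) ^ 2 * (1 - c0)) := by
    have hpos : 0 < 1 - Real.exp (s * m * ((32 + n0 : ℕ) : ℝ)) ^ 2 * (1 - c0) := by linarith
    rw [le_div_iff₀ hpos]
    have : 0 ≤ Real.exp (s * m * ((32 + n0 : ℕ) : ℝ)) ^ 2 * (1 - c0) :=
      mul_nonneg (by positivity) (by linarith)
    linarith
  have hcard1 : I.card ≤ J0 + n0 + 1 := by rw [hIcard]; omega
  have hcard2 : (I.card : ℝ) ≤ J0 + n0 + 1 := by exact_mod_cast hcard1
  refine mul_le_mul_of_nonneg_left ?_ (Nat.cast_nonneg _)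
  refine mul_le_mul ?_ (pow_le_pow_right₀ hG hcard1) (by positivity) (by positivity)
  refine mul_le_mul_of_nonneg_left ?_ (Nat.cast_nonneg _)
  rw [Real.exp_le_exp]
  refine add_le_add ?_ le_rfl
  refine mul_le_mul_of_nonneg_left ?_ (by positivity)
  linarith

end Crest.Agent.R143.XW9x315
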