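import Crest.Agent.R143.CovC_126
import Crest.Agent.R143.Y8D_831
import Crest.Agent.R143.B6I_903

/-!
# R143 (helper126), leaf Y10, part A: moving a frozen reference system

* `mvK`, `S_frK` : moving the set of free cells
* `posOf`, `h_congr` : the observable only depends on the positions
* `Mo.wd`, `Mo.room`, `Mo.linked`, `Mo.good` : covariance of the hypotheses
* `Sys`, `Sys.mv` : measurable frozen system and its image under a lattice symmetry
* `lint_mv_Sb`, `lint_mv_Db` : the concentration integrals of the moved system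
-/

set_option autoImplicit false
set_option linter.unusedSectionVars false

noncomputable section

open scoped Classical

namespace Crest.Agent.R143.Y10Ax126

open MeasureTheory Filter Topology
open Crest.ProbabilityR.Voronoi
open Crest.Agent.R143.B0x346 Crest.Agent.R143.B0Dx346 Crest.Agent.R143.CovAx126
open Crest.Agent.R143.DelGx806 Crest.Agent.R143.CovBx126 Crest.Agent.R143.Y1x126
open Crest.Agent.R143.CovCx126 Crest.Agent.R143.PP1x831
open Crest.Agent.R143.Mollx887 Crest.Agent.R143.Asmx336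
open Crest.Agent.R143.Lawx831
open Crest.Agent.R143.Spinex422 (Room Linked)
open Crest.Agent.R143.Y0x831 (Good)
open scoped ENNReal

/-! ### free cells -/

/-- the moved set of cells -/
def mvK (g : Iso2) (K : Set (ℤ × ℤ)) : Set (ℤ × ℤ) := {k | g.sg.symm k ∈ K}

/-- rotating everything, for any set of free cells -/
theorem S_frK (g : Iso2) (K : Set (ℤ × ℤ)) (ω ω₀ : Sample) :
    fr (mvK g K) (g.S ω) (g.S ω₀) = g.S (fr K ω ω₀) := by
  unfold fr Iso2.S mvK
  refine Prod.ext ?_ ?_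
  · funext k
    by_cases h : g.sg.symm k ∈ K <;> simp [h]
  · funext k j
    by_cases h : g.sg.symm k ∈ K <;> simp [h]

theorem mvK_eq (g : Iso2) {K : Set (ℤ × ℤ)} (hK : ∀ k, g.sg k ∈ K ↔ k ∈ K) : mvK g K = K := by
  ext k
  show g.sg.symm k ∈ K ↔ k ∈ K
  rw [← hK, Equiv.apply_symm_apply]

theorem frK_Se (g : Iso2) (K : Set (ℤ × ℤ)) (ω ω₀ : Sample) :
    fr (mvK g K) ω (g.S ω₀) = g.S (fr K (g.Se.symm ω) ω₀) := by
  rw [← S_frK]
  congr 1
  exact (g.Se.apply_symm_apply ω).symm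

/-! ### the observable depends on the positions -/

theorem sites_congr {D : Dom} {ε : ℝ} {ω ω' : Sample} (h : points ε ω = points ε ω') :
    D.sites ε ω = D.sites ε ω' := by
  unfold Dom.sites
  simp only [h]

theorem h_congr {D : Dom} {ε : ℝ} {ω ω' : Sample} (h : points ε ω = points ε ω') :
    D.h ε ω = D.h ε ω' := by
  funext z
  unfold Dom.h
  rw [sites_congr h]

/-- the positions of a sample -/
def posOf (ω : Sample) : Pos := fun k => (ω.1 k, fun j => (ω.2 k j 0, ω.2 k j 1))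

theorem measurable_posOf : Measurable posOf := by
  unfold posOf
  fun_prop

theorem points_posOf (ε : ℝ) (ω : Sample) (c : Col) :
    points ε (Lawx831.mk (posOf ω) c) = points ε ω := by
  unfold points
  rfl

/-! ### covariance of the hypotheses -/

variable {φ : ℂ ≃ ℂ} {e : ℂ}

theorem Mo.umark (h : Mo φ e) {D : Dom} {S : Finset ℂ} (hu : UMark D S) :
    UMark (D.mv φ e) (S.map φ.toEmbedding) := by
  intro k
  obtain ⟨p, hp, hu⟩ := hu k
  refine ⟨mE φ p, (h.crossRay _ _ p).2 hp, fun p' hp' => ?_⟩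
  have h4 : p' = mE φ (φ.symm p'.1, φ.symm p'.2) := by simp [mE]
  rw [h4] at hp' ⊢
  rw [mE_inj]
  exact hu _ ((h.crossRay _ _ _).1 hp')

theorem Mo.wd (h : Mo φ e) {D : Dom} {ε : ℝ} {ω ω' : Sample}
    (hp : points ε ω' = φ '' points ε ω) (H : Wd D ε ω) : Wd (D.mv φ e) ε ω' := by
  refine ⟨?_, ?_⟩
  · rw [h.sites hp, Mo.coe_map]
    exact (h.gp _).2 H.1
  · rw [h.sites hp]
    exact Mo.umark h H.2

theorem Mo.closedBall (h : Mo φ e) (z : ℂ) (r : ℝ) :
    Metric.closedBall (φ z) r = φ '' Metric.closedBall z r := by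
  ext w
  obtain ⟨w, rfl⟩ := φ.surjective w
  rw [φ.injective.mem_set_image, Metric.mem_closedBall, Metric.mem_closedBall, dist_eq_norm,
    dist_eq_norm, h.norm]

theorem Mo.ball (h : Mo φ e) (z : ℂ) (r : ℝ) : Metric.ball (φ z) r = φ '' Metric.ball z r := by
  ext w
  obtain ⟨w, rfl⟩ := φ.surjective w
  rw [φ.injective.mem_set_image, Metric.mem_ball, Metric.mem_ball, dist_eq_norm,
    dist_eq_norm, h.norm]

theorem Mo.room (h : Mo φ e) {D : Dom} {ρ : ℝ} {z : ℂ} (H : Room D ρ z) :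
    Room (D.mv φ e) ρ (φ z) := by
  refine ⟨?_, ?_⟩
  · rw [mv_out, Mo.closedBall h, Set.disjoint_image_iff φ.injective]
    exact H.1
  · show Metric.closedBall (φ z) ρ ⊆ Metric.closedBall (φ D.c) (D.L / 2)
    rw [Mo.closedBall h, Mo.closedBall h]
    exact Set.image_mono H.2

theorem Mo.linked (h : Mo φ e) {D : Dom} {η : ℝ} {z : ℂ} (H : Linked D η z) :
    Linked (D.mv φ e) η (φ z) := by
  obtain ⟨C, h1, h2, h3, h4, h5⟩ := H
  refine ⟨φ '' C, h1.image _ (Mo.continuous h).continuousOn, ⟨z, h2, rfl⟩, ?_, ?_, ?_⟩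
  · show φ '' C ⊆ Metric.closedBall (φ D.c) (3 / 4 * D.L)
    rw [Mo.closedBall h]
    exact Set.image_mono h3
  · intro k
    refine ⟨_, h4 k, ?_⟩
    show φ (D.c + ((3 / 4 * D.L : ℝ) : ℂ) * D.q k) = φ D.c + ((3 / 4 * D.L : ℝ) : ℂ) * (e * D.q k)
    rw [h.ray]
  · rintro _ ⟨y, hy, rfl⟩
    rw [mv_out, Mo.ball h, Set.disjoint_image_iff φ.injective]
    exact h5 y hy

/-- the triple map as an equivalence -/
def mTe (φ : ℂ ≃ ℂ) : ℂ × ℂ × ℂ ≃ ℂ × ℂ × ℂ := φ.prodCongr (φ.prodCongr φ)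

theorem Mo.cell (h : Mo φ e) (S : Set ℂ) (a : ℂ) :
    Crest.ProbabilityR.Voronoi.voronoiCell (φ '' S) (φ a) =
      φ '' Crest.ProbabilityR.Voronoi.voronoiCell S a := by
  ext w
  obtain ⟨w, rfl⟩ := φ.surjective w
  rw [φ.injective.mem_set_image, h.voronoiCell]

theorem Mo.diamSum (h : Mo φ e) (S W : Set ℂ) : diamSum (φ '' S) (φ '' W) = PP1x831.diamSum S W := by
  unfold PP1x831.diamSum
  have key : ∀ t : ℂ × ℂ × ℂ,
      t ∈ {t : ℂ × ℂ × ℂ | Del S t.1 t.2.1 t.2.2 ∧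
        ((Crest.ProbabilityR.Voronoi.voronoiCell S t.1 ∪
          Crest.ProbabilityR.Voronoi.voronoiCell S t.2.1 ∪
          Crest.ProbabilityR.Voronoi.voronoiCell S t.2.2) ∩ W).Nonempty} ↔
      mTe φ t ∈ {t : ℂ × ℂ × ℂ | Del (φ '' S) t.1 t.2.1 t.2.2 ∧
        ((Crest.ProbabilityR.Voronoi.voronoiCell (φ '' S) t.1 ∪
          Crest.ProbabilityR.Voronoi.voronoiCell (φ '' S) t.2.1 ∪
          Crest.ProbabilityR.Voronoi.voronoiCell (φ '' S) t.2.2) ∩ φ '' W).Nonempty} := by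
    rintro ⟨a, b, c⟩
    show (Del S a b c ∧ _) ↔ (Del (φ '' S) (φ a) (φ b) (φ c) ∧
      ((Crest.ProbabilityR.Voronoi.voronoiCell (φ '' S) (φ a) ∪
          Crest.ProbabilityR.Voronoi.voronoiCell (φ '' S) (φ b) ∪
          Crest.ProbabilityR.Voronoi.voronoiCell (φ '' S) (φ c)) ∩ φ '' W).Nonempty)
    rw [h.del, Mo.cell h, Mo.cell h, Mo.cell h, ← Set.image_union, ← Set.image_union,
      ← Set.image_inter φ.injective, Set.image_nonempty]
  rw [← Equiv.tsum_eq ((mTe φ).subtypeEquiv key)]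
  refine tsum_congr fun t => ?_
  obtain ⟨⟨a, b, c⟩, ht⟩ := t
  show (Metric.ediam (Crest.ProbabilityR.Voronoi.voronoiCell (φ '' S) (φ a))) ^ 2 = _
  rw [Mo.cell h, (Mo.isometry h).ediam_image]

theorem Mo.good (h : Mo φ e) {D : Dom} {ε C K a C4 : ℝ} {ω ω' : Sample}
    (hp : points ε ω' = φ '' points ε ω) (H : Good D ε C K a C4 ω) :
    Good (D.mv φ e) ε C K a C4 ω' := by
  refine ⟨h.env hp H.env, ?_⟩
  intro z hz ρ h1 h2
  obtain ⟨z, rfl⟩ := φ.surjective z
  have hz' : z ∈ Metric.closedBall D.c D.L := by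
    change φ z ∈ Metric.closedBall (φ D.c) D.L at hz
    rwa [Mo.closedBall h, φ.injective.mem_set_image] at hz
  rw [hp, Mo.ball h, Mo.diamSum h]
  exact H.diam z hz' ρ h1 h2

/-! ### measurable frozen systems -/

/-- a frozen system (`D` with the free cells `K` and the outside `ω₀`), a measurable set `G` of good
inside samples, a measurable version `f` of the observable -/
structure Sys (D : Dom) (ε : ℝ) (K : Set (ℤ × ℤ)) (ω₀ : Sample) (G : Set Sample)
    (f : Sample × ℂ → ℂ) : Prop where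
  mG : MeasurableSet G
  mf : Measurable f
  eq : ∀ ω ∈ G, ∀ z, D.h ε (fr K ω ω₀) z = f (ω, z)
  wd : ∀ ω ∈ G, Wd D ε (fr K ω ω₀)

theorem Mo.measurable (h : Mo φ e) : Measurable φ := (Mo.continuous h).measurable

theorem Mo.measurable_symm (h : Mo φ e) : Measurable φ.symm :=
  (Mo.isometry_symm h).continuous.measurable

/-- the moved system -/
theorem Sys.mv {D : Dom} {ε : ℝ} {K : Set (ℤ × ℤ)} {ω₀ : Sample} {G : Set Sample}
    {f : Sample × ℂ → ℂ} (g : Iso2) (h : Sys D ε K ω₀ G f) :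
    Sys (mvD g ε D) ε (mvK g K) (g.S ω₀) (g.Se.symm ⁻¹' G)
      (fun q => f (g.Se.symm q.1, (moe g ε).symm q.2)) := by
  refine ⟨g.Se.symm.measurable h.mG, ?_, ?_, ?_⟩
  · exact h.mf.comp ((g.Se.symm.measurable.comp measurable_fst).prodMk
      ((Mo.measurable_symm (mo_moe g ε)).comp measurable_snd))
  · intro ω hω z
    have hw := h.wd _ hω
    obtain ⟨z, rfl⟩ := (moe g ε).surjective z
    rw [frK_Se, h_rot g hw.1 hw.2, Equiv.symm_apply_apply]
    exact h.eq _ hω z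
  · intro ω hω
    rw [frK_Se]
    exact Mo.wd (mo_moe g ε) (points_moe g ε _) (h.wd _ hω)

/-- change of variables for the moved system -/
theorem lint_mv (g : Iso2) (K : Set (ℤ × ℤ)) (ω₀ : Sample) (G : Set Sample) (F : Sample → ℝ≥0∞) :
    ∫⁻ ω in g.Se.symm ⁻¹' G, F (fr (mvK g K) ω (g.S ω₀)) ∂sampleLaw =
      ∫⁻ ω in G, F (g.S (fr K ω ω₀)) ∂sampleLaw := by
  have h1 := g.S_mp.setLIntegral_comp_preimage_emb g.emb
    (fun ω => F (fr (mvK g K) ω (g.S ω₀))) (g.Se.symm ⁻¹' G)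
  have h2 : g.S ⁻¹' (g.Se.symm ⁻¹' G) = G := by
    ext ω
    show g.Se.symm (g.Se ω) ∈ G ↔ ω ∈ G
    rw [g.Se.symm_apply_apply]
  rw [← h1, h2]
  simp only [S_frK]

theorem lint_mv_Sb {D : Dom} {ε : ℝ} {K : Set (ℤ × ℤ)} {ω₀ : Sample} {G : Set Sample}
    {f : Sample × ℂ → ℂ} (g : Iso2) (h : Sys D ε K ω₀ G f) (r : ℝ) (s z₀ : ℂ) :
    ∫⁻ ω in g.Se.symm ⁻¹' G, ‖Sb r ((mvD g ε D).h ε (fr (mvK g K) ω (g.S ω₀))) (moe g ε z₀) -
      g.e * s‖ₑ ∂sampleLaw = ∫⁻ ω in G, ‖Sb r (D.h ε (fr K ω ω₀)) z₀ - s‖ₑ ∂sampleLaw := by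
  rw [lint_mv g K ω₀ G fun ω => ‖Sb r ((mvD g ε D).h ε ω) (moe g ε z₀) - g.e * s‖ₑ]
  refine setLIntegral_congr_fun h.mG fun ω hω => ?_
  have hw := h.wd ω hω
  rw [Sb_mv g hw.1 hw.2, ← mul_sub, enorm_mul]
  have : ‖g.e‖ₑ = 1 := by rw [← ofReal_norm, g.he, ENNReal.ofReal_one]
  rw [this, one_mul]

theorem lint_mv_Db {D : Dom} {ε : ℝ} {K : Set (ℤ × ℤ)} {ω₀ : Sample} {G : Set Sample}
    {f : Sample × ℂ → ℂ} (g : Iso2) (h : Sys D ε K ω₀ G f) (r : ℝ) (s z₀ : ℂ) :
    ∫⁻ ω in g.Se.symm ⁻¹' G, ‖Db r ((mvD g ε D).h ε (fr (mvK g K) ω (g.S ω₀))) (moe g ε z₀) -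
      g.e⁻¹ * s‖ₑ ∂sampleLaw = ∫⁻ ω in G, ‖Db r (D.h ε (fr K ω ω₀)) z₀ - s‖ₑ ∂sampleLaw := by
  rw [lint_mv g K ω₀ G fun ω => ‖Db r ((mvD g ε D).h ε ω) (moe g ε z₀) - g.e⁻¹ * s‖ₑ]
  refine setLIntegral_congr_fun h.mG fun ω hω => ?_
  have hw := h.wd ω hω
  rw [Db_mv g hw.1 hw.2, ← mul_sub, enorm_mul]
  have : ‖g.e⁻¹‖ₑ = 1 := by
    rw [← ofReal_norm, norm_inv, g.he, inv_one, ENNReal.ofReal_one]
  rw [this, one_mul]

/-- measures of moved sets -/
theorem meas_mv (g : Iso2) (G : Set Sample) : sampleLaw (g.Se.symm ⁻¹' G) = sampleLaw G := by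
  have h1 := g.S_mp.measure_preimage_emb g.emb (g.Se.symm ⁻¹' G)
  have h2 : g.S ⁻¹' (g.Se.symm ⁻¹' G) = G := by
    ext ω
    show g.Se.symm (g.Se ω) ∈ G ↔ ω ∈ G
    rw [g.Se.symm_apply_apply]
  rw [← h1, h2]

/-- measurability in the sample of the mollified derivatives -/
theorem measurable_Sb_f {f : Sample × ℂ → ℂ} (hf : Measurable f) (r : ℝ) (z₀ : ℂ) :
    Measurable fun ω => Sb r (fun z => f (ω, z)) z₀ := by
  unfold Sb
  have h1 : Measurable fun q : Sample × ℂ => kb r q.2 * f (q.1, z₀ + q.2) :=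
    ((kb_continuous r).measurable.comp measurable_snd).mul
      (hf.comp (measurable_fst.prodMk (measurable_const.add measurable_snd)))
  exact (h1.stronglyMeasurable.integral_prod_right').measurable

theorem measurable_Db_f {f : Sample × ℂ → ℂ} (hf : Measurable f) (r : ℝ) (z₀ : ℂ) :
    Measurable fun ω => Db r (fun z => f (ω, z)) z₀ := by
  unfold Db
  have h1 := measurable_Sb_f (f := fun q => (starRingEnd ℂ) (f q))
    (Complex.continuous_conj.measurable.comp hf) r z₀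
  exact Complex.continuous_conj.measurable.comp h1

/-- joint measurability on the good set -/
theorem Sys.aesm {D : Dom} {ε : ℝ} {K : Set (ℤ × ℤ)} {ω₀ : Sample} {G : Set Sample}
    {f : Sample × ℂ → ℂ} (h : Sys D ε K ω₀ G f) {G' : Set Sample} (hG' : MeasurableSet G')
    (hsub : G' ⊆ G) :
    AEStronglyMeasurable (fun q : Sample × ℂ => D.h ε (fr K q.1 ω₀) q.2)
      ((sampleLaw.restrict G').prod volume) := by
  have : SFinite sampleLaw := by
    have := prob_sampleLaw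
    infer_instance
  refine (h.mf.aestronglyMeasurable).congr ?_
  have h1 : (sampleLaw.restrict G').prod (volume : Measure ℂ) =
      (sampleLaw.prod volume).restrict (G' ×ˢ Set.univ) := by
    rw [← Measure.prod_restrict, Measure.restrict_univ]
  rw [h1]
  filter_upwards [ae_restrict_mem (hG'.prod MeasurableSet.univ)] with q hq
  exact (h.eq q.1 (hsub hq.1) q.2).symm

end Crest.Agent.R143.Y10Ax126
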