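import Crest.Agent.R143.Y8D_831
import Crest.Agent.R143.CovC_126
import Crest.Agent.R143.B6I_903

/-!
# R143, block Y (helper831): literal interface between the concentration (831) and the covariance
assembly (126)

* `CSAM` : concentration for one domain with centre `0` (831)
* `RefD` : existence of the reference domains (309)
* `YAS`  : `CSAM → RefD → B6Ix903.YOUT` (126)
-/

set_option autoImplicit false

noncomputable section

open scoped Classical

namespace Crest.Agent.R143.Y9Dx831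

open MeasureTheory Set Filter Topology
open Crest.ProbabilityR.Voronoi
open Crest.Agent.R143.B0x346 Crest.Agent.R143.B0Dx346 Crest.Agent.R143.PP1x831
open Crest.Agent.R143.Y0x831 Crest.Agent.R143.Lawx831
open Crest.Agent.R143.Y8Dx831 Crest.Agent.R143.Y1x126 Crest.Agent.R143.CovCx126
open Crest.Agent.R143.Mollx887 Crest.Agent.R143.Asmx336 Crest.Agent.R143.B6Ix903
open Crest.Agent.R143.Spinex422 (Room Linked)
open scoped ENNReal

/-- **concentration for one domain `D` with centre `0`** and free disc of radius `4 R1`; the cells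
outside the square of half side `R1` are frozen (`ω0`). `F` is a measurable version of the
observable on the good event `G`. -/
def CSAM : Prop := ∀ (D : Dom) (δ R1 Rb : ℝ), D.OK δ → D.c = 0 → Free1 D R1 → EXJ0 D R1 →
  D.L ≤ Rb → ∀ C K a C4 : ℝ, 0 < C → 0 < K → 0 < a → 0 < C4 → MP Rb 30 C K a C4 →
    ∃ c : ℝ, 0 < c ∧ ∀ κ : ℝ, 0 < κ → κ < 1 / 4 → ∀ᶠ ε : ℝ in 𝓝[>] 0,
      ∃ (F : Sample × ℂ → ℂ) (ω0 : Sample) (s e : ℂ) (G : Set Sample), Measurable F ∧
        (∀ q, ‖F q‖ ≤ 3) ∧ MeasurableSet G ∧ sampleLaw Gᶜ ≤ ENNReal.ofReal (ε ^ (12 : ℝ)) ∧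
        (∀ ω ∈ G, Good D ε C K a C4 (fr (Ksq ⌊R1 / ε⌋) ω ω0) ∧
          Wd D ε (fr (Ksq ⌊R1 / ε⌋) ω ω0) ∧
          ∀ z, F (ω, z) = D.h ε (fr (Ksq ⌊R1 / ε⌋) ω ω0) z) ∧
        ∫⁻ ω in G, ENNReal.ofReal (‖Sb (ε ^ κ) (D.h ε (fr (Ksq ⌊R1 / ε⌋) ω ω0)) 0 - s‖ +
          ‖Db (ε ^ κ) (D.h ε (fr (Ksq ⌊R1 / ε⌋) ω ω0)) 0 - e‖) ∂sampleLaw ≤
            ENNReal.ofReal (ε ^ (c - 2 * κ) / 2)

/-- **reference domains** (309): for every `R1 > 0` a domain with centre `0`, free disc of radius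
`4 R1`, linked to the marks from all points of the free disc of radius `R1` -/
def RefD : Prop := ∀ R1 : ℝ, 0 < R1 → ∃ (D : Dom) (δ m : ℝ), D.OK δ ∧ D.c = 0 ∧ 0 < m ∧
  Free1 D R1 ∧ (∀ z : ℂ, ‖z‖ ≤ 2 * R1 → Linked D m z)

/-- **existence of joins** in the free disc (395, 922) -/
def EXJL : Prop := ∀ (D : Dom) (δ m R1 : ℝ), D.OK δ → Free1 D R1 → 0 < m →
    (∀ z : ℂ, ‖z - D.c‖ ≤ 2 * R1 → Linked D m z) → EXJ0 D R1

/-- **assembly** (126) -/
def YAS : Prop := CSAM → EXJL → RefD → B6Ix903.YOUT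

end Crest.Agent.R143.Y9Dx831
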