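import Crest.Agent.R143.Y10A_126
import Crest.Agent.R143.Y9D_831

/-!
# R143 (helper126), leaf Y10: the reference system of B6 from the concentration for one domain

* `RefD3` : reference domains with sectors (309)
* `yas3 : CSAM → EXJL → RefD3 → B6Ix903.YOUT`
-/

set_option autoImplicit false
set_option linter.unusedSectionVars false

noncomputable section

open scoped Classical

namespace Crest.Agent.R143.Y10Bx126

open MeasureTheory Filter Topology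
open Crest.ProbabilityR.Voronoi
open Crest.Agent.R143.B0x346 Crest.Agent.R143.B0Dx346 Crest.Agent.R143.CovAx126
open Crest.Agent.R143.CovBx126 Crest.Agent.R143.Y1x126
open Crest.Agent.R143.CovCx126 Crest.Agent.R143.PP1x831
open Crest.Agent.R143.Mollx887 Crest.Agent.R143.Asmx336
open Crest.Agent.R143.Lawx831 Crest.Agent.R143.Y10Ax126
open Crest.Agent.R143.Spinex422 (Room Linked)
open Crest.Agent.R143.Y0x831 (Good)
open Crest.Agent.R143.Y8Dx831 (Free1 EXJ0 Ksq)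
open Crest.Agent.R143.Y9Dx831 (CSAM EXJL)
open Crest.Agent.R143.B6Ix903 (Par Sec3 RefS MP)
open Crest.Agent.R143.B6bx903 (pt flu)
open Crest.Agent.R143.Sec0x697 (Sector)
open scoped ENNReal

/-- reference domains with sectors -/
def RefD3 : Prop := ∀ R1 : ℝ, 0 < R1 → ∃ (D : Dom) (δ m θ ρ μ η : ℝ), D.OK δ ∧ D.c = 0 ∧ 0 < m ∧
  0 < θ ∧ 0 < ρ ∧ 0 < μ ∧ 0 < η ∧ Free1 D R1 ∧ (∀ z : ℂ, ‖z‖ ≤ 2 * R1 → Linked D m z) ∧
  (∀ z : ℂ, ‖z‖ ≤ η → Sec3 D z θ ρ μ)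

/-! ### the points near the centre of the square -/

theorem point_re (ε : ℝ) (ω : Sample) (k : ℤ × ℤ) (j : ℕ) :
    (point ε ω k j).re = ε * (k.1 + (ω.2 k j 0 : ℝ)) := by
  unfold point
  simp

theorem point_im (ε : ℝ) (ω : Sample) (k : ℤ × ℤ) (j : ℕ) :
    (point ε ω k j).im = ε * (k.2 + (ω.2 k j 1 : ℝ)) := by
  unfold point
  simp

theorem same_pts {ε : ℝ} (hε : 0 < ε) {n : ℤ} {p : ℤ × ℤ} {z : ℂ} {ρ : ℝ}
    (hz : ‖z - pt ε p‖ ≤ 2 * ε) (hρ : ρ + 3 * ε ≤ ε * n) (ω ω' : Sample) {s : ℂ}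
    (hs : ‖s - z‖ < ρ) :
    s ∈ points ε ω ↔ s ∈ points ε (fr (mvK (trI p) (Ksq n)) ω ω') := by
  have hsp : ‖s - pt ε p‖ < ρ + 2 * ε := by
    calc ‖s - pt ε p‖ = ‖(s - z) + (z - pt ε p)‖ := by congr 1; ring
      _ ≤ ‖s - z‖ + ‖z - pt ε p‖ := norm_add_le _ _
      _ < ρ + 2 * ε := by linarith
  have hre : |s.re - ε * p.1| < ρ + 2 * ε := by
    have := Complex.abs_re_le_norm (s - pt ε p)
    have e1 : (s - pt ε p).re = s.re - ε * p.1 := rfl
    rw [e1] at this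
    linarith
  have him : |s.im - ε * p.2| < ρ + 2 * ε := by
    have := Complex.abs_im_le_norm (s - pt ε p)
    have e1 : (s - pt ε p).im = s.im - ε * p.2 := rfl
    rw [e1] at this
    linarith
  have key : ∀ (x u q : ℝ), 0 ≤ u → u ≤ 1 → |ε * (x + u) - ε * q| < ρ + 2 * ε →
      -(n : ℝ) < x - q ∧ x - q < n := by
    intro x u q h0 h1 h
    rw [abs_lt] at h
    constructor
    · nlinarith
    · nlinarith
  have cell : ∀ (ω'' : Sample) (k : ℤ × ℤ) (j : ℕ), point ε ω'' k j = s →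
      k ∈ mvK (trI p) (Ksq n) := by
    intro ω'' k j h
    have h1 := point_re ε ω'' k j
    have h2 := point_im ε ω'' k j
    rw [h] at h1 h2
    rw [h1] at hre
    rw [h2] at him
    have k1 := key k.1 _ p.1 (unitInterval.nonneg _) (unitInterval.le_one _) hre
    have k2 := key k.2 _ p.2 (unitInterval.nonneg _) (unitInterval.le_one _) him
    show (k.1 - p.1, k.2 - p.2) ∈ Ksq n
    refine ⟨⟨?_, ?_⟩, ⟨?_, ?_⟩⟩
    · have : (-(n : ℝ)) < ((k.1 - p.1 : ℤ) : ℝ) := by push_cast; exact k1.1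
      have h3 : (-n : ℤ) < k.1 - p.1 := by exact_mod_cast this
      exact h3.le
    · have : ((k.1 - p.1 : ℤ) : ℝ) < n := by push_cast; exact k1.2
      exact_mod_cast this
    · have : (-(n : ℝ)) < ((k.2 - p.2 : ℤ) : ℝ) := by push_cast; exact k2.1
      have h3 : (-n : ℤ) < k.2 - p.2 := by exact_mod_cast this
      exact h3.le
    · have : ((k.2 - p.2 : ℤ) : ℝ) < n := by push_cast; exact k2.2
      exact_mod_cast this
  have hfr1 : ∀ k ∈ mvK (trI p) (Ksq n), (fr (mvK (trI p) (Ksq n)) ω ω').1 k = ω.1 k := by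
    intro k hk
    show (if k ∈ mvK (trI p) (Ksq n) then ω.1 k else ω'.1 k) = ω.1 k
    rw [if_pos hk]
  have hfr2 : ∀ k ∈ mvK (trI p) (Ksq n), ∀ j,
      point ε (fr (mvK (trI p) (Ksq n)) ω ω') k j = point ε ω k j := by
    intro k hk j
    have h3 : (fr (mvK (trI p) (Ksq n)) ω ω').2 k j = ω.2 k j := by
      show (if k ∈ mvK (trI p) (Ksq n) then ω.2 k j else ω'.2 k j) = ω.2 k j
      rw [if_pos hk]
    unfold point
    rw [h3]
  constructor
  · rintro ⟨⟨k1, k2, j⟩, hp, h⟩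
    have hk := cell ω (k1, k2) j h
    refine ⟨(k1, k2, j), ?_, ?_⟩
    · show j < (fr (mvK (trI p) (Ksq n)) ω ω').1 (k1, k2)
      rw [hfr1 _ hk]
      exact hp
    · show point ε (fr (mvK (trI p) (Ksq n)) ω ω') (k1, k2) j = s
      rw [hfr2 _ hk]
      exact h
  · rintro ⟨⟨k1, k2, j⟩, hp, h⟩
    have hk := cell _ (k1, k2) j h
    refine ⟨(k1, k2, j), ?_, ?_⟩
    · show j < ω.1 (k1, k2)
      rw [← hfr1 _ hk]
      exact hp
    · show point ε ω (k1, k2) j = s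
      rw [← hfr2 _ hk]
      exact h

/-! ### the motions at the centre -/

theorem moe_trI_zero (ε : ℝ) (p : ℤ × ℤ) : moe (trI p) ε 0 = pt ε p := by
  rw [moe_apply, mo_trI]
  apply Complex.ext <;> simp [pt]

theorem moe_rotI_zero (ε : ℝ) : moe (rotI 0) ε 0 = 0 := by
  rw [moe_apply, mo_rotI]
  simp

theorem moe_trI (ε : ℝ) (p : ℤ × ℤ) (z : ℂ) : moe (trI p) ε z = pt ε p + z := by
  have h := Mo.add (mo_moe (trI p) ε) 0 z
  rw [zero_add, moe_trI_zero] at h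
  rw [h]
  show _ + (1 : ℂ) * z = _
  ring

theorem mvK_rot (n : ℤ) : mvK (rotI 0) (Ksq n) = Ksq n := by
  refine mvK_eq _ fun k => ?_
  have h := rho_sq 0 n k
  have e1 : (Set.Ico ((0 : ℤ × ℤ).1 - n) ((0 : ℤ × ℤ).1 + n) ×ˢ
      Set.Ico ((0 : ℤ × ℤ).2 - n) ((0 : ℤ × ℤ).2 + n) : Set (ℤ × ℤ)) = Ksq n := by
    unfold Ksq
    simp
  rw [e1] at h
  exact h

/-! ### sectors -/

theorem sector_tr {D : Dom} {z : ℂ} {i : ZMod 3} {ψ θ ρ μ : ℝ} (p : ℤ × ℤ) (ε : ℝ)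
    (h : Sector D z i ψ θ ρ μ) : Sector (mvD (trI p) ε D) (moe (trI p) ε z) i ψ θ ρ μ := by
  have hM := mo_moe (trI p) ε
  have e1 : ∀ w : ℂ, moe (trI p) ε z + w = moe (trI p) ε (z + w) := by
    intro w
    rw [moe_trI, moe_trI]
    ring
  refine ⟨h.θpos, h.θle, h.ρpos, h.mpos, ?_, ?_, ?_⟩
  · intro x hx
    rw [e1, Mo.ball hM]
    exact Set.image_mono (h.hit x hx)
  · intro x hx s hs j hj
    rw [e1, Mo.ball hM]
    show Disjoint _ (moe (trI p) ε '' D.R j)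
    rw [Set.disjoint_image_iff (moe (trI p) ε).injective]
    exact h.miss x hx s hs j hj
  · show ‖moe (trI p) ε z - moe (trI p) ε D.c‖ + ρ + μ ≤ D.L / 2
    rw [hM.norm]
    exact h.inn

/-! ### change of variables -/

theorem enorm_one {e : ℂ} (he : ‖e‖ = 1) (w : ℂ) : ‖e * w‖ = ‖w‖ := by
  rw [norm_mul, he, one_mul]

theorem lint_mv_both {D : Dom} {ε : ℝ} {K : Set (ℤ × ℤ)} {ω₀ : Sample} {G : Set Sample}
    {f : Sample × ℂ → ℂ} (g : Iso2) (h : Sys D ε K ω₀ G f) (r : ℝ) (s d z₀ : ℂ) :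
    ∫⁻ ω in g.Se.symm ⁻¹' G, ENNReal.ofReal
      (‖Sb r ((mvD g ε D).h ε (fr (mvK g K) ω (g.S ω₀))) (moe g ε z₀) - g.e * s‖ +
        ‖Db r ((mvD g ε D).h ε (fr (mvK g K) ω (g.S ω₀))) (moe g ε z₀) - g.e⁻¹ * d‖) ∂sampleLaw =
    ∫⁻ ω in G, ENNReal.ofReal (‖Sb r (D.h ε (fr K ω ω₀)) z₀ - s‖ +
      ‖Db r (D.h ε (fr K ω ω₀)) z₀ - d‖) ∂sampleLaw := by
  rw [lint_mv g K ω₀ G fun ω => ENNReal.ofReal
    (‖Sb r ((mvD g ε D).h ε ω) (moe g ε z₀) - g.e * s‖ +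
      ‖Db r ((mvD g ε D).h ε ω) (moe g ε z₀) - g.e⁻¹ * d‖)]
  refine setLIntegral_congr_fun h.mG fun ω hω => ?_
  have hw := h.wd ω hω
  rw [Sb_mv g hw.1 hw.2, Db_mv g hw.1 hw.2, ← mul_sub, ← mul_sub, enorm_one g.he,
    enorm_one (inv_norm g.he)]

/-- measurability on the good set -/
theorem Sys.aem {D : Dom} {ε : ℝ} {K : Set (ℤ × ℤ)} {ω₀ : Sample} {G : Set Sample}
    {f : Sample × ℂ → ℂ} (h : Sys D ε K ω₀ G f) {G' : Set Sample} (hG' : MeasurableSet G')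
    (hsub : G' ⊆ G) (r : ℝ) (s d z : ℂ) :
    AEMeasurable (fun ω => ENNReal.ofReal (‖Sb r (D.h ε (fr K ω ω₀)) z - s‖ +
      ‖Db r (D.h ε (fr K ω ω₀)) z - d‖)) (sampleLaw.restrict G') := by
  have h1 : Measurable fun ω => ENNReal.ofReal (‖Sb r (fun z => f (ω, z)) z - s‖ +
      ‖Db r (fun z => f (ω, z)) z - d‖) := by
    have m1 := measurable_Sb_f h.mf r z
    have m2 := measurable_Db_f h.mf r z
    exact (((m1.sub_const s).norm).add ((m2.sub_const d).norm)).ennreal_ofReal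
  refine h1.aemeasurable.congr ?_
  filter_upwards [ae_restrict_mem hG'] with ω hω
  have e1 : (fun z => f (ω, z)) = D.h ε (fr K ω ω₀) := by
    funext z
    exact (h.eq ω (hsub hω) z).symm
  rw [e1]

/-! ### the reference system -/

theorem pt_sub {ε : ℝ} {p : ℤ × ℤ} {z : ℂ} (h : ‖z - pt ε p‖ ≤ 2 * ε) :
    ∃ z', z = moe (trI p) ε z' ∧ ‖z'‖ ≤ 2 * ε := by
  refine ⟨z - pt ε p, ?_, h⟩
  rw [moe_trI]
  ring

theorem rot_sub {ε : ℝ} {z : ℂ} (h : ‖z‖ ≤ 2 * ε) :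
    ∃ z', z = moe (rotI 0) ε z' ∧ ‖z'‖ ≤ 2 * ε := by
  refine ⟨(moe (rotI 0) ε).symm z, ?_, ?_⟩
  · rw [Equiv.apply_symm_apply]
  · have hM := mo_moe (rotI 0) ε
    have h1 := hM.norm ((moe (rotI 0) ε).symm z) 0
    rw [Equiv.apply_symm_apply, moe_rotI_zero, sub_zero, sub_zero] at h1
    rw [← h1]
    exact h

/-- **the assembly** -/
theorem yas3 (h1 : CSAM) (h2 : EXJL) (h3 : RefD3) : B6Ix903.YOUT := by
  intro ρ₀ hρ₀
  obtain ⟨D, δ, m, θ, ρ, μ, η, hOK, hc, hm, hθ, hρ, hμ, hη, hfree, hlink, hsec⟩ := h3 ρ₀ hρ₀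
  have hL : 0 < D.L := hOK.Lpos
  have hEX : EXJ0 D ρ₀ := h2 D δ m ρ₀ hOK hfree hm (by simpa [hc] using hlink)
  refine ⟨D.L, ρ₀ / 2, m, δ, D.L, θ, ρ, μ, hL, by linarith, by linarith, hm, hOK.dpos, hL, hθ, hρ,
    hμ, ?_⟩
  intro π hπL hπR hπm hMP
  obtain ⟨c, hc0, hC⟩ := h1 D δ ρ₀ D.L hOK hc hfree hEX le_rfl π.C π.K π.a π.C4 π.Cpos π.Kpos
    π.apos π.C4pos hMP
  refine ⟨c, hc0, fun κ hκ hκ4 => ?_⟩
  have hsmall : ∀ᶠ ε : ℝ in 𝓝[>] 0, 0 < ε ∧ ε < 1 / 2 ∧ ε < ρ₀ / 8 ∧ ε < η / 2 := by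
    have hpos : 0 < min (1 / 2) (min (ρ₀ / 8) (η / 2)) := by positivity
    filter_upwards [self_mem_nhdsWithin, mem_nhdsWithin_of_mem_nhds (Iio_mem_nhds hpos)] with ε
      he1 he2
    have he2' : ε < min (1 / 2) (min (ρ₀ / 8) (η / 2)) := he2
    exact ⟨he1, he2'.trans_le (min_le_left _ _),
      he2'.trans_le ((min_le_right _ _).trans (min_le_left _ _)),
      he2'.trans_le ((min_le_right _ _).trans (min_le_right _ _))⟩
  filter_upwards [hC κ hκ hκ4, hsmall] with ε hCe ⟨hε, hε1, hε2, hε3⟩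
  obtain ⟨F, ω0, s, e, G, hF, -, hGm, hGc, hG, hint⟩ := hCe
  set n : ℤ := ⌊ρ₀ / ε⌋ with hn
  have hnε : ρ₀ / 2 + 3 * ε ≤ ε * n := by
    have h4 : ρ₀ / ε < n + 1 := Int.lt_floor_add_one _
    have h5 : ρ₀ < ε * (n + 1) := by
      rw [div_lt_iff₀ hε] at h4
      linarith
    nlinarith
  have hsys : Sys D ε (Ksq n) ω0 G F :=
    ⟨hGm, hF, fun ω hω z => ((hG ω hω).2.2 z).symm, fun ω hω => (hG ω hω).2.1⟩
  -- the turned system
  set D1 : Dom := mvD (rotI 0) ε D with hD1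
  set ω1 : Sample := (rotI 0).S ω0 with hω1
  set G1 : Set Sample := (rotI 0).Se.symm ⁻¹' G with hG1
  have hR := mo_moe (rotI 0) ε
  have hsys1 : Sys D1 ε (Ksq n) ω1 G1
      (fun q => F ((rotI 0).Se.symm q.1, (moe (rotI 0) ε).symm q.2)) := by
    have := hsys.mv (rotI 0)
    rwa [mvK_rot] at this
  have hgood1 : ∀ ω ∈ G1, Good D1 ε π.C π.K π.a π.C4 (fr (Ksq n) ω ω1) := by
    intro ω hω
    have h6 := (hG _ hω).1
    have h7 := frK_Se (rotI 0) (Ksq n) ω ω0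
    rw [mvK_rot] at h7
    rw [hω1, h7]
    exact Mo.good hR (points_moe _ _ _) h6
  have hint1 : ∫⁻ ω in G1, ENNReal.ofReal (‖Sb (ε ^ κ) (D1.h ε (fr (Ksq n) ω ω1)) 0 -
      Complex.I * s‖ + ‖Db (ε ^ κ) (D1.h ε (fr (Ksq n) ω ω1)) 0 - Complex.I⁻¹ * e‖) ∂sampleLaw ≤
      ENNReal.ofReal (ε ^ (c - 2 * κ) / 2) := by
    have h8 := lint_mv_both (rotI 0) hsys (ε ^ κ) s e 0
    rw [mvK_rot, moe_rotI_zero] at h8
    exact (le_of_eq h8).trans hint
  -- geometry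
  have hroom : ∀ z : ℂ, ‖z‖ ≤ 2 * ε → Room D π.R z := by
    intro z hz
    refine ⟨?_, ?_⟩
    · have h9 := hfree.out
      rw [hc] at h9
      rw [Set.disjoint_iff_inter_eq_empty]
      refine Set.eq_empty_of_subset_empty fun w hw => ?_
      rw [← h9]
      refine ⟨?_, hw.2⟩
      have h10 := hw.1
      rw [Metric.mem_closedBall, dist_eq_norm] at h10 ⊢
      rw [sub_zero]
      calc ‖w‖ = ‖(w - z) + z‖ := by congr 1; ring
        _ ≤ ‖w - z‖ + ‖z‖ := norm_add_le _ _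
        _ ≤ 4 * ρ₀ := by linarith
    · intro w hw
      rw [Metric.mem_closedBall, dist_eq_norm] at hw ⊢
      rw [hc, sub_zero]
      have h11 := hfree.le
      calc ‖w‖ = ‖(w - z) + z‖ := by congr 1; ring
        _ ≤ ‖w - z‖ + ‖z‖ := norm_add_le _ _
        _ ≤ D.L / 2 := by linarith
  have hlnk : ∀ z : ℂ, ‖z‖ ≤ 2 * ε → Linked D π.m z := fun z hz =>
    (hlink z (by linarith)).mono hπm
  have hε10 : ε ^ (12 : ℝ) ≤ ε ^ (10 : ℝ) / 2 := by
    have h12 : ε ^ (12 : ℝ) = ε ^ (10 : ℝ) * ε ^ (2 : ℝ) := by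
      rw [← Real.rpow_add hε]; norm_num
    have h13 : ε ^ (2 : ℝ) ≤ 1 / 2 := by
      have : ε ^ (2 : ℝ) = ε ^ 2 := by exact_mod_cast Real.rpow_natCast ε 2
      rw [this]
      nlinarith
    have h14 : 0 ≤ ε ^ (10 : ℝ) := (Real.rpow_pos_of_pos hε _).le
    rw [h12]
    nlinarith
  have hGc1 : sampleLaw G1ᶜ ≤ ENNReal.ofReal (ε ^ (12 : ℝ)) := by
    have h15 : G1ᶜ = (rotI 0).Se.symm ⁻¹' Gᶜ := rfl
    rw [h15, meas_mv]
    exact hGc
  refine ⟨fun p => mvD (trI p) ε D, fun p => mvD (trI p) ε D1,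
    fun p ω => fr (mvK (trI p) (Ksq n)) ω ((trI p).S ω0),
    fun p ω => fr (mvK (trI p) (Ksq n)) ω ((trI p).S ω1), s, e, ?_⟩
  refine ⟨?_, ?_, ?_, ?_, ?_, ?_, ?_, ?_⟩
  · -- geo0
    intro p z hz
    obtain ⟨z, rfl, hz'⟩ := pt_sub hz
    have hM := mo_moe (trI p) ε
    exact ⟨Mo.ok hM hOK, hπL, Mo.room hM (hroom z hz'), Mo.linked hM (hlnk z hz')⟩
  · -- geo1
    intro p z hz
    obtain ⟨z, rfl, hz'⟩ := pt_sub hz
    obtain ⟨z, rfl, hz''⟩ := rot_sub hz'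
    have hM := mo_moe (trI p) ε
    exact ⟨Mo.ok hM (Mo.ok hR hOK), hπL, Mo.room hM (Mo.room hR (hroom z hz'')),
      Mo.linked hM (Mo.linked hR (hlnk z hz''))⟩
  · -- sec0
    intro p z hz i
    obtain ⟨z, rfl, hz'⟩ := pt_sub hz
    obtain ⟨ψ, hψ⟩ := hsec z (by linarith) i
    exact ⟨ψ, sector_tr p ε hψ⟩
  · -- same0
    intro p z hz ω w hw
    exact same_pts hε hz (ρ := π.R) (by linarith) ω _ hw
  · -- same1
    intro p z hz ω w hw
    exact same_pts hε hz (ρ := π.R) (by linarith) ω _ hw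
  · -- good0
    intro p
    have hsub : {ω | ¬ Good (mvD (trI p) ε D) ε π.C π.K π.a π.C4
        (fr (mvK (trI p) (Ksq n)) ω ((trI p).S ω0))} ⊆ (trI p).Se.symm ⁻¹' Gᶜ := by
      intro ω hω hω'
      refine hω ?_
      rw [frK_Se]
      exact Mo.good (mo_moe (trI p) ε) (points_moe _ _ _) (hG _ hω').1
    refine (measure_mono hsub).trans ?_
    rw [meas_mv]
    refine hGc.trans (ENNReal.ofReal_le_ofReal ?_)
    have h14 : 0 ≤ ε ^ (10 : ℝ) := (Real.rpow_pos_of_pos hε _).le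
    linarith
  · -- good1
    intro p
    have hsub : {ω | ¬ Good (mvD (trI p) ε D1) ε π.C π.K π.a π.C4
        (fr (mvK (trI p) (Ksq n)) ω ((trI p).S ω1))} ⊆ (trI p).Se.symm ⁻¹' G1ᶜ := by
      intro ω hω hω'
      refine hω ?_
      rw [frK_Se]
      exact Mo.good (mo_moe (trI p) ε) (points_moe _ _ _) (hgood1 _ hω')
    refine (measure_mono hsub).trans ?_
    rw [meas_mv]
    refine hGc1.trans (ENNReal.ofReal_le_ofReal ?_)
    have h14 : 0 ≤ ε ^ (10 : ℝ) := (Real.rpow_pos_of_pos hε _).le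
    linarith
  · -- conc
    intro p
    set T0 : Set Sample := (trI p).Se.symm ⁻¹' G with hT0
    set T1 : Set Sample := (trI p).Se.symm ⁻¹' G1 with hT1
    have hs0 := hsys.mv (trI p)
    have hs1 := hsys1.mv (trI p)
    rw [← hT0] at hs0
    rw [← hT1] at hs1
    have hTm : MeasurableSet (T0 ∩ T1) := hs0.mG.inter hs1.mG
    refine ⟨T0 ∩ T1, hTm, ?_, hs0.aesm hTm Set.inter_subset_left,
      hs1.aesm hTm Set.inter_subset_right, ?_⟩
    · rw [Set.compl_inter]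
      refine (measure_union_le _ _).trans ?_
      have e1 : T0ᶜ = (trI p).Se.symm ⁻¹' Gᶜ := rfl
      have e2 : T1ᶜ = (trI p).Se.symm ⁻¹' G1ᶜ := rfl
      rw [e1, e2, meas_mv, meas_mv]
      have h14 : 0 ≤ ε ^ (10 : ℝ) / 2 := by
        have := (Real.rpow_pos_of_pos hε (10 : ℝ)).le
        linarith
      calc sampleLaw Gᶜ + sampleLaw G1ᶜ
          ≤ ENNReal.ofReal (ε ^ (10 : ℝ) / 2) + ENNReal.ofReal (ε ^ (10 : ℝ) / 2) :=
            add_le_add (hGc.trans (ENNReal.ofReal_le_ofReal hε10))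
              (hGc1.trans (ENNReal.ofReal_le_ofReal hε10))
        _ = ENNReal.ofReal (ε ^ (10 : ℝ)) := by
            rw [← ENNReal.ofReal_add h14 h14]
            congr 1
            ring
    · have q0 := lint_mv_both (trI p) hsys (ε ^ κ) s e 0
      have q1 := lint_mv_both (trI p) hsys1 (ε ^ κ) (Complex.I * s) (Complex.I⁻¹ * e) 0
      rw [moe_trI_zero] at q0 q1
      have te : (trI p).e = 1 := rfl
      rw [te, inv_one, one_mul, one_mul] at q0 q1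
      rw [← hT0] at q0
      rw [← hT1] at q1
      have a0 := Sys.aem hs0 hTm Set.inter_subset_left (ε ^ κ) s e (pt ε p)
      set A0 : Sample → ℝ := fun ω => ‖Sb (ε ^ κ) ((mvD (trI p) ε D).h ε
        (fr (mvK (trI p) (Ksq n)) ω ((trI p).S ω0))) (pt ε p) - s‖ +
        ‖Db (ε ^ κ) ((mvD (trI p) ε D).h ε
        (fr (mvK (trI p) (Ksq n)) ω ((trI p).S ω0))) (pt ε p) - e‖ with hA0
      set A1 : Sample → ℝ := fun ω => ‖Sb (ε ^ κ) ((mvD (trI p) ε D1).h ε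
        (fr (mvK (trI p) (Ksq n)) ω ((trI p).S ω1))) (pt ε p) - Complex.I * s‖ +
        ‖Db (ε ^ κ) ((mvD (trI p) ε D1).h ε
        (fr (mvK (trI p) (Ksq n)) ω ((trI p).S ω1))) (pt ε p) - Complex.I⁻¹ * e‖ with hA1
      have hflu : ∀ ω, ENNReal.ofReal (flu (ε ^ κ)
          ((mvD (trI p) ε D).h ε (fr (mvK (trI p) (Ksq n)) ω ((trI p).S ω0)))
          ((mvD (trI p) ε D1).h ε (fr (mvK (trI p) (Ksq n)) ω ((trI p).S ω1))) s e Complex.I
          (pt ε p)) = ENNReal.ofReal (A0 ω) + ENNReal.ofReal (A1 ω) := by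
        intro ω
        rw [← ENNReal.ofReal_add (by positivity) (by positivity)]
        congr 1
        simp only [hA0, hA1, flu]
        have e3 : ∀ w : ℂ, w + Complex.I * e = w - Complex.I⁻¹ * e := by
          intro w
          rw [Complex.inv_I]
          ring
        rw [e3]
        ring
      simp only [hflu]
      rw [lintegral_add_left' a0]
      have b0 : ∫⁻ ω in T0 ∩ T1, ENNReal.ofReal (A0 ω) ∂sampleLaw ≤
          ENNReal.ofReal (ε ^ (c - 2 * κ) / 2) :=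
        (lintegral_mono_set Set.inter_subset_left).trans ((le_of_eq q0).trans hint)
      have b1 : ∫⁻ ω in T0 ∩ T1, ENNReal.ofReal (A1 ω) ∂sampleLaw ≤
          ENNReal.ofReal (ε ^ (c - 2 * κ) / 2) :=
        (lintegral_mono_set Set.inter_subset_right).trans ((le_of_eq q1).trans hint1)
      have h14 : 0 ≤ ε ^ (c - 2 * κ) / 2 := by
        have := (Real.rpow_pos_of_pos hε (c - 2 * κ)).le
        linarith
      calc _ ≤ ENNReal.ofReal (ε ^ (c - 2 * κ) / 2) + ENNReal.ofReal (ε ^ (c - 2 * κ) / 2) :=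
            add_le_add b0 b1
        _ = ENNReal.ofReal (ε ^ (c - 2 * κ)) := by
            rw [← ENNReal.ofReal_add h14 h14]
            congr 1
            ring

end Crest.Agent.R143.Y10Bx126
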