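import Crest.Agent.R143.Y0_831
import Crest.Agent.R143.Var2_831

/-!
# R143, block Y5 (helper315), part a: finite colourings and white clusters

* `wht V0 ix c` : the elements of `V0` whose colour `c (ix v)` is white
* `real_wht` : its law is uniform on the subsets of `V0` (`ix` injective on `V0`)
* `real_wht_eq`, `real_wht_glue_le` : the colours of `a` and `b` identified
* `Cl_congr`, `Tch_congr` : the explored cluster is a stopping set
-/

set_option autoImplicit false

noncomputable section

open scoped Classical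

namespace Crest.Agent.R143.Y5ax315

open MeasureTheory Set Function
open Crest.Agent.R143.B0x346 Crest.Agent.R143.Y0x831 Crest.Agent.R143.Varx831

section fin

variable {I V : Type*}

/-- the white elements of `V0` -/
def wht (V0 : Finset V) (ix : V → I) (c : I → unitInterval) : Finset V :=
  V0.filter fun v => ¬ ((c (ix v) : unitInterval) : ℝ) < 1 / 2

lemma mem_wht {V0 : Finset V} {ix : V → I} {c : I → unitInterval} {v : V} :
    v ∈ wht V0 ix c ↔ v ∈ V0 ∧ ¬ ((c (ix v) : unitInterval) : ℝ) < 1 / 2 := by
  unfold wht; simp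

lemma wht_subset (V0 : Finset V) (ix : V → I) (c : I → unitInterval) : wht V0 ix c ⊆ V0 :=
  Finset.filter_subset _ _

/-- the cylinder of a colouring -/
def cyl (ix : V → I) (β : Finset V) (i : I) : Set unitInterval :=
  {x | (x : ℝ) < 1 / 2 ↔ ¬ ∃ v ∈ β, ix v = i}

lemma measurableSet_cyl (ix : V → I) (β : Finset V) (i : I) : MeasurableSet (cyl ix β i) := by
  unfold cyl
  by_cases h : ∃ v ∈ β, ix v = i
  · simp only [h, not_true_eq_false, iff_false]
    exact measurableSet_black.compl
  · simp only [h, not_false_eq_true, iff_true]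
    exact measurableSet_black

lemma volume_cyl (ix : V → I) (β : Finset V) (i : I) :
    (volume : Measure unitInterval) (cyl ix β i) = ENNReal.ofReal (1 / 2) := by
  unfold cyl
  have hb : (volume : Measure unitInterval) {t : unitInterval | (t : ℝ) < 1 / 2} =
      ENNReal.ofReal (1 / 2) := by
    have h := volume_black
    rw [Measure.real] at h
    exact (ENNReal.ofReal_toReal (measure_ne_top _ _)).symm.trans (by rw [h])
  by_cases h : ∃ v ∈ β, ix v = i
  · simp only [h, not_true_eq_false, iff_false]
    have h1 : {x : unitInterval | ¬ (x : ℝ) < 1 / 2} = {x : unitInterval | (x : ℝ) < 1 / 2}ᶜ := rfl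
    rw [h1, prob_compl_eq_one_sub measurableSet_black, hb, ← ENNReal.ofReal_one,
      ← ENNReal.ofReal_sub _ (by norm_num)]
    norm_num
  · simp only [h, not_false_eq_true, iff_true]
    exact hb

lemma wht_eq_iff {V0 : Finset V} {ix : V → I} (hix : Set.InjOn ix V0) {β : Finset V}
    (hβ : β ⊆ V0) (c : I → unitInterval) :
    wht V0 ix c = β ↔ c ∈ Set.pi (V0.image ix : Finset I) (cyl ix β) := by
  simp only [Set.mem_pi, Finset.coe_image, Set.mem_image, Finset.mem_coe, forall_exists_index,
    and_imp, forall_apply_eq_imp_iff₂]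
  constructor
  · rintro rfl v hv
    unfold cyl
    simp only [Set.mem_ofPred_eq]
    constructor
    · rintro h1 ⟨u, hu, he⟩
      rw [mem_wht] at hu
      have : u = v := hix hu.1 hv he
      subst this
      exact hu.2 h1
    · intro h1
      by_contra h2
      exact h1 ⟨v, mem_wht.2 ⟨hv, h2⟩, rfl⟩
  · intro h
    ext v
    rw [mem_wht]
    constructor
    · rintro ⟨hv, h2⟩
      by_contra h3
      have h4 := h v hv
      unfold cyl at h4
      simp only [Set.mem_ofPred_eq] at h4
      apply h2
      rw [h4]
      rintro ⟨u, hu, he⟩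
      have : u = v := hix (hβ hu) hv he
      subst this
      exact h3 hu
    · intro hv
      refine ⟨hβ hv, ?_⟩
      have h4 := h v (hβ hv)
      unfold cyl at h4
      simp only [Set.mem_ofPred_eq] at h4
      rw [h4]
      exact fun h5 => h5 ⟨v, hv, rfl⟩

/-- measurability of the events that depend on the colours of `V0` -/
theorem meas_wht (V0 : Finset V) (ix : V → I) (P : Finset V → Prop) :
    MeasurableSet {c : I → unitInterval | P (wht V0 ix c)} := by
  have h1 : {c : I → unitInterval | P (wht V0 ix c)} =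
      ⋃ β ∈ V0.powerset.filter P, ⋂ v ∈ V0,
        {c : I → unitInterval | (¬ ((c (ix v) : unitInterval) : ℝ) < 1 / 2) ↔ v ∈ β} := by
    ext c
    simp only [Set.mem_ofPred_eq, Set.mem_iUnion, Finset.mem_filter, Finset.mem_powerset,
      Set.mem_iInter, exists_prop]
    constructor
    · intro h
      exact ⟨wht V0 ix c, ⟨wht_subset _ _ _, h⟩, fun v hv => by rw [mem_wht]; simp [hv]⟩
    · rintro ⟨β, ⟨hβ, hP⟩, h⟩
      have : wht V0 ix c = β := by
        ext v
        rw [mem_wht]
        constructor
        · rintro ⟨hv, h2⟩; exact (h v hv).1 h2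
        · intro hv; exact ⟨hβ hv, (h v (hβ hv)).2 hv⟩
      rw [this]; exact hP
  rw [h1]
  refine Finset.measurableSet_biUnion _ fun β _ => Finset.measurableSet_biInter _ fun v _ => ?_
  have hp : Measurable (fun c : I → unitInterval => c (ix v)) := measurable_pi_apply (ix v)
  have hm : MeasurableSet {c : I → unitInterval | ((c (ix v) : unitInterval) : ℝ) < 1 / 2} :=
    hp measurableSet_black
  by_cases hv : v ∈ β
  · simp only [hv, iff_true]
    exact hm.compl
  · simp only [hv, iff_false, not_not]
    exact hm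

lemma measure_wht_eq {V0 : Finset V} {ix : V → I} (hix : Set.InjOn ix V0) {β : Finset V}
    (hβ : β ⊆ V0) :
    (cl I) {c | wht V0 ix c = β} = ENNReal.ofReal ((1 / 2) ^ V0.card) := by
  have h1 : {c : I → unitInterval | wht V0 ix c = β} =
      Set.pi (V0.image ix : Finset I) (cyl ix β) := by
    ext c
    exact wht_eq_iff hix hβ c
  rw [h1]
  unfold cl
  rw [Measure.infinitePi_pi _ (fun i _ => measurableSet_cyl ix β i),
    Finset.prod_congr rfl (fun i _ => volume_cyl ix β i), Finset.prod_const,
    Finset.card_image_of_injOn hix, ENNReal.ofReal_pow (by norm_num)]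

/-- **the colours of `V0` are uniform** -/
theorem real_wht {V0 : Finset V} {ix : V → I} (hix : Set.InjOn ix V0) (P : Finset V → Prop) :
    (cl I).real {c | P (wht V0 ix c)} = ((V0.powerset.filter P).card : ℝ) / 2 ^ V0.card := by
  have h1 : {c : I → unitInterval | P (wht V0 ix c)} =
      ⋃ β ∈ V0.powerset.filter P, {c : I → unitInterval | wht V0 ix c = β} := by
    ext c
    simp only [Set.mem_ofPred_eq, Set.mem_iUnion, Finset.mem_filter, Finset.mem_powerset,
      exists_prop]
    constructor
    · intro h
      exact ⟨wht V0 ix c, ⟨wht_subset _ _ _, h⟩, rfl⟩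
    · rintro ⟨β, ⟨_, hP⟩, h⟩
      rw [h]; exact hP
  rw [h1, measureReal_biUnion_finset]
  · have h2 : ∀ β ∈ V0.powerset.filter P,
        (cl I).real {c : I → unitInterval | wht V0 ix c = β} = (1 / 2) ^ V0.card := by
      intro β hβ
      rw [Measure.real, measure_wht_eq hix (Finset.mem_powerset.1 (Finset.mem_filter.1 hβ).1),
        ENNReal.toReal_ofReal (by positivity)]
    rw [Finset.sum_congr rfl h2, Finset.sum_const, nsmul_eq_mul]
    rw [one_div, inv_pow]
    rfl
  · intro β _ β' _ hne
    rw [Function.onFun, Set.disjoint_left]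
    intro c hc hc'
    exact hne (hc.symm.trans hc')
  · intro β _
    exact meas_wht V0 ix (fun γ => γ = β)

/-! ### two identified colours -/

/-- identify `b` with `a` -/
def glue (a b : V) : V → V := Function.update id b a

lemma glue_self (a b : V) : glue a b b = a := by unfold glue; simp
lemma glue_of_ne {a b v : V} (h : v ≠ b) : glue a b v = v := by unfold glue; simp [h]

/-- the subset of `V0` with the colour of `b` copied from `a` -/
def cop (a b : V) (β : Finset V) : Finset V := if a ∈ β then insert b β else β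

lemma mem_cop {a b : V} (hab : a ≠ b) {β : Finset V} (hb : b ∉ β) {v : V} :
    v ∈ cop a b β ↔ glue a b v ∈ β := by
  unfold cop
  by_cases hv : v = b
  · subst hv
    rw [glue_self]
    by_cases ha : a ∈ β
    · simp [ha]
    · simp [ha, hb]
  · rw [glue_of_ne hv]
    by_cases ha : a ∈ β
    · simp [ha, hv]
    · simp [ha]

lemma wht_glue {V0 : Finset V} {ix : V → I} {a b : V} (ha : a ∈ V0) (hb : b ∈ V0)
    (hab : a ≠ b) (c : I → unitInterval) :
    wht V0 (ix ∘ glue a b) c = cop a b (wht (V0.erase b) ix c) := by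
  have hbn : b ∉ wht (V0.erase b) ix c := by
    rw [mem_wht]; simp
  ext v
  rw [mem_cop hab hbn, mem_wht, mem_wht]
  simp only [Function.comp_apply, Finset.mem_erase]
  by_cases hv : v = b
  · subst hv
    rw [glue_self]
    simp [ha, hb, hab]
  · rw [glue_of_ne hv]
    simp [hv]

lemma card_cop {V0 : Finset V} {a b : V} (hb : b ∈ V0) (hab : a ≠ b)
    (P : Finset V → Prop) :
    ((V0.erase b).powerset.filter fun β => P (cop a b β)).card =
      (V0.powerset.filter fun β => (a ∈ β ↔ b ∈ β) ∧ P β).card := by
  apply Finset.card_bij (fun β _ => cop a b β)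
  · intro β hβ
    simp only [Finset.mem_filter, Finset.mem_powerset] at hβ ⊢
    have hbn : b ∉ β := fun h => by simpa using hβ.1 h
    refine ⟨?_, ?_, hβ.2⟩
    · intro v hv
      rw [mem_cop hab hbn] at hv
      by_cases hvb : v = b
      · rw [hvb]; exact hb
      · rw [glue_of_ne hvb] at hv
        exact Finset.mem_of_mem_erase (hβ.1 hv)
    · rw [mem_cop hab hbn, mem_cop hab hbn, glue_of_ne hab, glue_self]
  · intro β hβ β' hβ' h
    simp only [Finset.mem_filter, Finset.mem_powerset] at hβ hβ'
    have hbn : b ∉ β := fun h => by simpa using hβ.1 h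
    have hbn' : b ∉ β' := fun h => by simpa using hβ'.1 h
    ext v
    by_cases hvb : v = b
    · subst hvb; simp [hbn, hbn']
    · have h1 := mem_cop hab hbn (v := v)
      have h2 := mem_cop hab hbn' (v := v)
      rw [glue_of_ne hvb] at h1 h2
      rw [← h1, ← h2, h]
  · intro β hβ
    simp only [Finset.mem_filter, Finset.mem_powerset] at hβ
    refine ⟨β.erase b, ?_, ?_⟩
    · have hbn : b ∉ β.erase b := by simp
      have he : cop a b (β.erase b) = β := by
        ext v
        rw [mem_cop hab hbn]
        by_cases hvb : v = b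
        · subst hvb
          rw [glue_self]
          simp [hab, hβ.2.1]
        · rw [glue_of_ne hvb]; simp [hvb]
      simp only [Finset.mem_filter, Finset.mem_powerset]
      refine ⟨?_, ?_⟩
      · exact Finset.erase_subset_erase b hβ.1
      · rw [he]; exact hβ.2.2
    · have hbn : b ∉ β.erase b := by simp
      ext v
      rw [mem_cop hab hbn]
      by_cases hvb : v = b
      · subst hvb
        rw [glue_self]
        simp [hab, hβ.2.1]
      · rw [glue_of_ne hvb]; simp [hvb]

/-- **the law of the glued colours** = uniform law given that `a` and `b` have the same colour -/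
theorem real_wht_glue {V0 : Finset V} {ix : V → I} (hix : Set.InjOn ix V0) {a b : V}
    (ha : a ∈ V0) (hb : b ∈ V0) (hab : a ≠ b) (P : Finset V → Prop) :
    (cl I).real {c | P (wht V0 (ix ∘ glue a b) c)} =
      ((V0.powerset.filter fun β => (a ∈ β ↔ b ∈ β) ∧ P β).card : ℝ) * 2 / 2 ^ V0.card := by
  have h1 : {c : I → unitInterval | P (wht V0 (ix ∘ glue a b) c)} =
      {c | (fun β => P (cop a b β)) (wht (V0.erase b) ix c)} := by
    ext c
    simp only [Set.mem_ofPred_eq, wht_glue ha hb hab]
  have hix' : Set.InjOn ix (V0.erase b : Finset V) := by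
    intro x hx y hy h
    exact hix (Finset.mem_of_mem_erase hx) (Finset.mem_of_mem_erase hy) h
  rw [h1, real_wht hix' (fun β => P (cop a b β)), card_cop hb hab]
  have h2 : V0.card = (V0.erase b).card + 1 := (Finset.card_erase_add_one hb).symm
  rw [h2, pow_succ]
  field_simp

/-- glued colours: at most twice the free probability -/
theorem real_wht_glue_le {V0 : Finset V} {ix : V → I} (hix : Set.InjOn ix V0) {a b : V}
    (ha : a ∈ V0) (hb : b ∈ V0) (hab : a ≠ b) (P : Finset V → Prop) {δ : ℝ}
    (hP : ((V0.powerset.filter P).card : ℝ) ≤ δ * 2 ^ V0.card) :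
    (cl I).real {c | P (wht V0 (ix ∘ glue a b) c)} ≤ 2 * δ := by
  rw [real_wht_glue hix ha hb hab, div_le_iff₀ (by positivity)]
  have h1 : ((V0.powerset.filter fun β => (a ∈ β ↔ b ∈ β) ∧ P β).card : ℝ) ≤
      ((V0.powerset.filter P).card : ℝ) := by
    exact_mod_cast Finset.card_le_card (fun β hβ => by
      simp only [Finset.mem_filter] at hβ ⊢
      exact ⟨hβ.1, hβ.2.2⟩)
  nlinarith

/-- probability that `a` and `b` have the same colour -/
theorem card_equal {V0 : Finset V} {a b : V} (hb : b ∈ V0) (hab : a ≠ b) :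
    (V0.powerset.filter fun β : Finset V => (a ∈ β ↔ b ∈ β)).card * 2 = 2 ^ V0.card := by
  have h1 := card_cop hb hab (fun _ => True)
  simp only [and_true, Finset.filter_true, Finset.card_powerset] at h1
  rw [← h1, Finset.card_erase_of_mem hb, ← pow_succ]
  congr 1
  have : 0 < V0.card := Finset.card_pos.2 ⟨b, hb⟩
  omega

end fin

/-! ### explored clusters -/

section cluster

variable {V : Type}

lemma root_mem_Cl {G : Trg V} {w : Set V} {r : V} (h : r ∈ w) : r ∈ Cl G w r :=
  ⟨h, Relation.ReflTransGen.refl⟩

lemma Cl_subset {G : Trg V} {w : Set V} {r : V} : Cl G w r ⊆ w := by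
  rintro v ⟨hr, h⟩
  induction h with
  | refl => exact hr
  | tail _ h _ => exact h.2

lemma Cl_step {G : Trg V} {w : Set V} {r x y : V} (hx : x ∈ Cl G w r) (h : Nb G x y)
    (hy : y ∈ w) : y ∈ Cl G w r := ⟨hx.1, hx.2.tail ⟨h, hy⟩⟩

lemma Nb.symm {G : Trg V} {x y : V} (h : Nb G x y) : Nb G y x := by
  unfold Nb Trg.E at *
  simp only [Finset.mem_union, Finset.mem_image, Prod.mk.injEq] at *
  rcases h with ⟨t, ht, h1, h2⟩ | ⟨t, ht, h1, h2⟩
  · exact Or.inr ⟨t, ht, h2, h1⟩
  · exact Or.inl ⟨t, ht, h2, h1⟩

/-- the cluster only depends on the colours of the sites that touch it -/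
theorem Cl_congr {G : Trg V} {w w' : Set V} {r : V} (hr : r ∈ w ↔ r ∈ w')
    (h : ∀ v, (∃ x, Nb G v x ∧ x ∈ Cl G w r) → (v ∈ w ↔ v ∈ w')) : Cl G w' r = Cl G w r := by
  apply Set.Subset.antisymm
  · rintro v ⟨hr', hv⟩
    induction hv with
    | refl => exact root_mem_Cl (hr.2 hr')
    | tail _ hxy ih =>
        exact Cl_step ih hxy.1 ((h _ ⟨_, Nb.symm hxy.1, ih⟩).2 hxy.2)
  · rintro v ⟨hr', hv⟩
    have hv0 : Relation.ReflTransGen (fun x y => Nb G x y ∧ y ∈ w) r v := hv
    induction hv with
    | refl => exact root_mem_Cl (hr.1 hr')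
    | @tail x y hx hxy ih =>
        exact Cl_step (ih hx) hxy.1 ((h _ ⟨_, Nb.symm hxy.1, hr', hx⟩).1 hxy.2)

end cluster

end Crest.Agent.R143.Y5ax315
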