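import Crest.Agent.R143.Y5D_831
import Crest.Agent.R143.Var2_831

/-!
# R143, block Y (helper831): deletion of a block of inner sites

* `Del1` : deletion of one inner site (from the leaves `Y4`, `Y4a`)
* `del_block` : deletion of a finite set `U` of inner sites
* sample level: `SP_del`, `IP_del`, `wP_del`, `FP_del`
-/

set_option autoImplicit false

noncomputable section

open scoped Classical

namespace Crest.Agent.R143.Y6Ax831

open MeasureTheory Set Function
open Crest.ProbabilityR.Voronoi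
open Crest.Agent.R143.B0x346 Crest.Agent.R143.B0Dx346 Crest.Agent.R143.PP1x831
open Crest.Agent.R143.Y0x831 Crest.Agent.R143.Lawx831 Crest.Agent.R143.Varx831
open Crest.Agent.R143.Var3x831 Crest.Agent.R143.Y5Dx831

local notation "smk" => Crest.Agent.R143.Lawx831.mk
local notation "Tk" => Crest.Agent.R143.Var2x831.Tk
local notation "del" => Crest.Agent.R143.Var2x831.del

/-- no site of `t` is in `U` -/
def Off (U : Finset ℂ) (t : ℂ × ℂ × ℂ) : Prop := t.1 ∉ U ∧ t.2.1 ∉ U ∧ t.2.2 ∉ U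

/-- the sites `U` are inner and remain inner whatever part of `U` has been deleted -/
structure DelOK (D : Dom) (S U : Finset ℂ) : Prop where
  gp : GP (S : Set ℂ)
  sub : U ⊆ S
  hull : ∀ u ∈ U, ∀ x y : ℂ, hullE S x y → x ≠ u ∧ y ≠ u
  cell : ∀ u ∈ U, voronoiCell ((S \ U : Finset ℂ) ∪ {u} : Set ℂ) u ∩ D.out = ∅

lemma GP.mono {S S' : Set ℂ} (h : GP S) (hs : S' ⊆ S) : GP S' where
  line a ha b hb c hc := h.line a (hs ha) b (hs hb) c (hs hc)
  circ a ha b hb c hc e he := h.circ a (hs ha) b (hs hb) c (hs hc) e (hs he)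

lemma voronoiCell_anti {S S' : Set ℂ} (h : S' ⊆ S) (u : ℂ) :
    voronoiCell S u ⊆ voronoiCell S' u := fun _ hz w hw => hz w (h hw)

/-- the network after the deletion -/
structure Deleted (D : Dom) (S U : Finset ℂ) : Prop where
  arc : ∀ k, arcN (D.netS (S \ U)) k = arcN (D.netS S) k
  tri : ∀ t ∈ delT S, Off U t → t ∈ delT (S \ U)
  hull : ∀ x y : ℂ, hullE (S \ U) x y ↔ hullE S x y
  ss : ∀ a b c : ℂ, (a, b, c) ∈ delT S → Off U (a, b, c) → ∀ (k : ZMod 3) (w : Set ℂ)
    (t : ℂ × ℂ × ℂ), t ∈ delT S → Off U t → (U : Set ℂ) ⊆ w →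
      SS (killE (D.netS S) a b) k w t → SS (killE (D.netS (S \ U)) a b) k (w \ U) t

theorem del_block (h4 : Y4) (h4a : Y4a) (D : Dom) (S : Finset ℂ) :
    ∀ U : Finset ℂ, DelOK D S U → Deleted D S U := by
  intro U
  induction U using Finset.induction_on with
  | empty =>
      intro _
      refine ⟨by simp, fun t ht _ => by rwa [Finset.sdiff_empty], by simp, ?_⟩
      intro a b c _ _ k w t _ _ _ h
      simpa using h
  | insert u U hu ih =>
      intro h
      have hS' : S \ insert u U = (S \ U).erase u := by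
        ext x; simp only [Finset.mem_sdiff, Finset.mem_insert, Finset.mem_erase]; tauto
      have hsub : U ⊆ S := (Finset.subset_insert u U).trans h.sub
      have huS : u ∈ S := h.sub (Finset.mem_insert_self u U)
      have huS' : u ∈ S \ U := Finset.mem_sdiff.2 ⟨huS, hu⟩
      have hS2 : (((S \ insert u U : Finset ℂ) : Set ℂ) ∪ {u}) = ((S \ U : Finset ℂ) : Set ℂ) := by
        ext x
        simp only [Finset.coe_sdiff, Finset.coe_insert, Set.mem_union, Set.mem_sdiff,
          Finset.mem_coe, Set.mem_insert_iff, Set.mem_singleton_iff]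
        constructor
        · rintro (⟨h1, h2⟩ | rfl)
          · exact ⟨h1, fun h3 => h2 (Or.inr h3)⟩
          · exact ⟨huS, hu⟩
        · rintro ⟨h1, h2⟩
          by_cases hx : x = u
          · exact Or.inr hx
          · exact Or.inl ⟨h1, fun h3 => h3.elim hx h2⟩
      have hU : DelOK D S U := by
        refine ⟨h.gp, hsub, fun v hv => h.hull v (Finset.mem_insert_of_mem hv), fun v hv => ?_⟩
        have h1 := h.cell v (Finset.mem_insert_of_mem hv)
        rw [← Set.subset_empty_iff] at h1 ⊢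
        refine (Set.inter_subset_inter_left _ (voronoiCell_anti ?_ v)).trans h1
        intro x hx
        rcases hx with hx | hx
        · left
          rw [Finset.mem_coe, Finset.mem_sdiff] at hx ⊢
          exact ⟨hx.1, fun h3 => hx.2 (Finset.mem_insert_of_mem h3)⟩
        · right; exact hx
      have IH := ih hU
      have hgp : GP ((S \ U : Finset ℂ) : Set ℂ) := GP.mono h.gp (by
        intro x hx
        exact (Finset.mem_sdiff.1 (Finset.mem_coe.1 hx)).1)
      have hhull : ∀ x y : ℂ, hullE (S \ U) x y → x ≠ u ∧ y ≠ u := fun x y hxy =>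
        h.hull u (Finset.mem_insert_self u U) x y ((IH.hull x y).1 hxy)
      have hcell : voronoiCell ((S \ U : Finset ℂ) : Set ℂ) u ∩ D.out = ∅ := by
        have h1 := h.cell u (Finset.mem_insert_self u U)
        rwa [hS2] at h1
      have A := h4a D (S \ U) u hgp huS' hhull hcell
      rw [← hS'] at A
      have hoff : ∀ t, Off (insert u U) t → Off U t ∧ t.1 ≠ u ∧ t.2.1 ≠ u ∧ t.2.2 ≠ u := by
        intro t ht
        simp only [Off, Finset.mem_insert, not_or] at ht ⊢
        tauto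
      refine ⟨fun k => (A.1 k).trans (IH.arc k), ?_, fun x y => (A.2.2 x y).trans (IH.hull x y), ?_⟩
      · intro t ht hto
        obtain ⟨h1, h2, h3, h4⟩ := hoff t hto
        exact A.2.1 t (IH.tri t ht h1) h2 h3 h4
      · intro a b c habc habo k w t ht hto hw hss
        obtain ⟨o1, o2, o3, o4⟩ := hoff _ habo
        obtain ⟨p1, p2, p3, p4⟩ := hoff _ hto
        have hw' : (U : Set ℂ) ⊆ w := fun x hx => hw (by
          rw [Finset.mem_coe] at hx ⊢; exact Finset.mem_insert_of_mem hx)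
        have huw : u ∈ w \ (U : Set ℂ) := ⟨hw (by
          rw [Finset.mem_coe]; exact Finset.mem_insert_self u U), fun h5 => hu (Finset.mem_coe.1 h5)⟩
        have B := IH.ss a b c habc o1 k w t ht p1 hw' hss
        have C := h4 D (S \ U) u a b c hgp huS' hhull hcell (IH.tri _ habc o1) o2 o3 o4 k
          (w \ U) t (IH.tri t ht p1) p2 p3 p4 huw B
        rw [← hS'] at C
        have hwU : w \ ((insert u U : Finset ℂ) : Set ℂ) = (w \ (U : Set ℂ)) \ {u} := by
          ext x
          simp only [Finset.coe_insert, Set.mem_sdiff, Set.mem_insert_iff, Set.mem_singleton_iff]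
          tauto
        rw [hwU]
        exact C.2.2

/-! ### sample level -/

/-- the points of block `k'` -/
def Ub (ε : ℝ) (p : Pos) (k' : ℤ × ℤ) : Finset ℂ := (Tk p k').image (ptP ε p)

/-- block `k'` can be deleted -/
structure BlkOK (D : Dom) (ε : ℝ) (p : Pos) (k' : ℤ × ℤ) : Prop where
  inj : InjP ε p
  fin : (points ε (smk p fun _ => 0) ∩ Metric.closedBall D.c D.L).Finite
  dok : DelOK D (SP D ε p) (Ub ε p k')
  inn : Ub ε p k' ⊆ IP D ε p

variable {D : Dom} {ε : ℝ} {p : Pos} {k' : ℤ × ℤ}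

lemma mem_Ub {v : ℂ} : v ∈ Ub ε p k' ↔ ∃ j, j < (p k').1 ∧ ptP ε p (k', j) = v := by
  unfold Ub
  simp only [Finset.mem_image, Var2x831.mem_Tk]
  constructor
  · rintro ⟨i, ⟨h1, h2⟩, h3⟩
    exact ⟨i.2, h2, by rw [← h3, ← h1]⟩
  · rintro ⟨j, h1, h2⟩
    exact ⟨(k', j), ⟨rfl, h1⟩, h2⟩

lemma presP_del {i : Idx} : i ∈ presP (del k' p) ↔ i ∈ presP p ∧ i.1 ≠ k' := by
  unfold presP Var2x831.del
  simp only [Set.mem_ofPred_eq]
  by_cases h : i.1 = k'
  · rw [h, update_self]; simp
  · rw [update_of_ne h]; simp [h]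

lemma ptP_del {i : Idx} (h : i.1 ≠ k') : ptP ε (del k' p) i = ptP ε p i := by
  unfold ptP point Lawx831.mk Var2x831.del
  simp only [update_of_ne h]

lemma points_del (hinj : InjP ε p) :
    points ε (smk (del k' p) fun _ => 0) = points ε (smk p fun _ => 0) \ (Ub ε p k' : Set ℂ) := by
  rw [points_mk, points_mk]
  ext v
  simp only [Set.mem_image, Set.mem_sdiff, Finset.mem_coe, mem_Ub, not_exists, not_and]
  constructor
  · rintro ⟨i, hi, rfl⟩
    rw [presP_del] at hi
    rw [ptP_del hi.2]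
    refine ⟨⟨i, hi.1, rfl⟩, fun j hj hne => ?_⟩
    have := hinj (show (k', j) ∈ presP p from hj) hi.1 hne
    exact hi.2 (by rw [← this])
  · rintro ⟨⟨i, hi, rfl⟩, h2⟩
    have h3 : i.1 ≠ k' := by
      intro h4
      refine h2 i.2 (by rw [← h4]; exact hi) (by rw [← h4])
    exact ⟨i, presP_del.2 ⟨hi, h3⟩, ptP_del h3⟩

lemma mem_SP (hfin : (points ε (smk p fun _ => 0) ∩ Metric.closedBall D.c D.L).Finite) {v : ℂ} :
    v ∈ SP D ε p ↔ v ∈ points ε (smk p fun _ => 0) ∩ Metric.closedBall D.c D.L := by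
  unfold SP Dom.sites
  rw [dif_pos hfin, Set.Finite.mem_toFinset]

lemma SP_del (h : BlkOK D ε p k') : SP D ε (del k' p) = SP D ε p \ Ub ε p k' := by
  have h1 := points_del (k' := k') h.inj
  have hfin : (points ε (smk (del k' p) fun _ => 0) ∩ Metric.closedBall D.c D.L).Finite := by
    rw [h1]
    exact h.fin.subset (Set.inter_subset_inter_left _ Set.sdiff_subset)
  ext v
  rw [Finset.mem_sdiff, mem_SP hfin, mem_SP h.fin, h1]
  simp only [Set.mem_inter_iff, Set.mem_sdiff, Finset.mem_coe]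
  tauto

lemma IP_del (h : BlkOK D ε p k') (hd : Deleted D (SP D ε p) (Ub ε p k')) :
    IP D ε (del k' p) = IP D ε p \ Ub ε p k' := by
  unfold IP innN NP
  rw [SP_del h]
  ext v
  simp only [Finset.mem_filter, Finset.mem_sdiff, hd.arc]
  tauto

lemma Ub_arc (h : BlkOK D ε p k') {v : ℂ} (hv : v ∈ Ub ε p k') (k : ZMod 3) :
    v ∉ arcN (NP D ε p) k := by
  have := h.inn hv
  unfold IP innN at this
  exact (Finset.mem_filter.1 this).2 k

lemma wP_del (h : BlkOK D ε p k') (hd : Deleted D (SP D ε p) (Ub ε p k')) (k : ZMod 3) (c : Col) :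
    wP D ε k (del k' p) c = wP D ε k p (setc (Tk p k') 1 c) \ (Ub ε p k' : Set ℂ) := by
  have harc : arcN (NP D ε (del k' p)) (k + 1) = arcN (NP D ε p) (k + 1) := by
    unfold NP
    rw [SP_del h]
    exact hd.arc (k + 1)
  ext v
  unfold wP wK
  rw [harc, IP_del h hd]
  simp only [Set.mem_union, Set.mem_inter_iff, Set.mem_sdiff, Finset.mem_coe, Finset.mem_sdiff]
  constructor
  · rintro (h1 | ⟨h1, h2, h3⟩)
    · exact ⟨Or.inl h1, fun h4 => Ub_arc h h4 (k + 1) h1⟩
    · refine ⟨Or.inr ⟨?_, h2⟩, h3⟩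
      obtain ⟨i, hi, rfl, hc⟩ := h1
      rw [presP_del] at hi
      refine ⟨i, hi.1, (ptP_del hi.2).symm, ?_⟩
      have : i ∉ Tk p k' := fun h5 => hi.2 (Var2x831.mem_Tk.1 h5).1
      unfold setc
      rwa [Finset.piecewise_eq_of_notMem _ _ _ this]
  · rintro ⟨h1 | ⟨⟨i, hi, rfl, hc⟩, h2⟩, h3⟩
    · exact Or.inl h1
    · right
      have h4 : i.1 ≠ k' := by
        intro h5
        exact h3 (mem_Ub.2 ⟨i.2, by rw [← h5]; exact hi, by rw [← h5]⟩)
      refine ⟨⟨i, presP_del.2 ⟨hi, h4⟩, ptP_del h4, ?_⟩, h2, h3⟩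
      have : i ∉ Tk p k' := fun h5 => h4 (Var2x831.mem_Tk.1 h5).1
      unfold setc at hc
      rwa [Finset.piecewise_eq_of_notMem _ _ _ this] at hc

lemma Ub_wP (h : BlkOK D ε p k') (k : ZMod 3) (c : Col) :
    (Ub ε p k' : Set ℂ) ⊆ wP D ε k p (setc (Tk p k') 1 c) := by
  intro v hv
  right
  refine ⟨?_, h.inn hv⟩
  obtain ⟨j, hj, rfl⟩ := mem_Ub.1 hv
  refine ⟨(k', j), hj, rfl, ?_⟩
  have hm : ((k', j) : Idx) ∈ Tk p k' := Var2x831.mem_Tk.2 ⟨rfl, hj⟩
  have : setc (Tk p k') 1 c (k', j) = 1 := by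
    unfold setc
    exact Finset.piecewise_eq_of_mem _ _ _ hm
  rw [this]
  norm_num

/-- **deletion inclusion** for the functionals `FP` -/
theorem FP_del (h4 : Y4) (h4a : Y4a) (h : BlkOK D ε p k') {a b : ℂ} {t : ℂ × ℂ × ℂ}
    (t1 : t.1 = a) (t2 : t.2.1 = b) (ht : t ∈ delT (SP D ε p)) (hoff : Off (Ub ε p k') t)
    (k : ZMod 3) (c : Col) :
    FP D ε a b t k p (setc (Tk p k') 1 c) ≤ FP D ε a b t k (del k' p) c := by
  have hd := del_block h4 h4a D _ _ h.dok
  unfold FP
  by_cases hss : SS (killE (NP D ε p) a b) k (mrg a b (wP D ε k p (setc (Tk p k') 1 c))) t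
  swap
  · rw [if_neg hss]; split_ifs <;> norm_num
  · rw [if_pos hss]
    have ha : a ∉ Ub ε p k' := by rw [← t1]; exact hoff.1
    have hb : b ∉ Ub ε p k' := by rw [← t2]; exact hoff.2.1
    have habc : (a, b, t.2.2) ∈ delT (SP D ε p) := by
      rw [← t1, ← t2]; exact ht
    have hsub : (Ub ε p k' : Set ℂ) ⊆ mrg a b (wP D ε k p (setc (Tk p k') 1 c)) := by
      intro v hv
      have hvb : v ≠ b := fun h5 => hb (by rw [← h5]; exact hv)
      unfold mrg
      simp only [Set.mem_ofPred_eq, if_neg hvb]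
      exact Ub_wP h k c hv
    have := hd.ss a b t.2.2 habc ⟨ha, hb, hoff.2.2⟩ k _ t ht hoff hsub hss
    have e1 : mrg a b (wP D ε k p (setc (Tk p k') 1 c)) \ (Ub ε p k' : Set ℂ) =
        mrg a b (wP D ε k (del k' p) c) := by
      rw [wP_del h hd]
      ext v
      unfold mrg
      simp only [Set.mem_sdiff, Set.mem_ofPred_eq, Finset.mem_coe]
      by_cases hvb : v = b
      · rw [if_pos hvb, if_pos hvb, hvb]
        exact ⟨fun h5 => ⟨h5.1, ha⟩, fun h5 => ⟨h5.1, hb⟩⟩
      · rw [if_neg hvb, if_neg hvb]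
    have e2 : NP D ε (del k' p) = D.netS (SP D ε p \ Ub ε p k') := by
      unfold NP; rw [SP_del h]
    rw [e1, ← e2] at this
    rw [if_pos this]

end Crest.Agent.R143.Y6Ax831
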