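import Crest.Agent.R143.Y6A_831
import Crest.Agent.R143.B1c_796

/-!
# R143, block Y (helper831): quenched bound for the change of the observable under the deletion of
the far blocks

* `F_edge` : the observable at an edge between free sites in terms of the averages `av (FP ..)`
* `edge_diff` : one edge, one deleted block
* `sum_Lam_le` : the sum over the far blocks
* `sum_hval_le` : `∑_{k'} ‖h^p(z) - h^{del k' p}(z)‖² ≤ 324 M 4^M δ`
-/

set_option autoImplicit false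

noncomputable section

open scoped Classical

namespace Crest.Agent.R143.Y6Bx831

open MeasureTheory Set Function
open Crest.ProbabilityR.Voronoi
open Crest.Agent.R143.B0x346 Crest.Agent.R143.B0Dx346 Crest.Agent.R143.PP1x831
open Crest.Agent.R143.Y0x831 Crest.Agent.R143.Lawx831 Crest.Agent.R143.Varx831
open Crest.Agent.R143.Var3x831 Crest.Agent.R143.Y5Dx831 Crest.Agent.R143.Y6Ax831
open Crest.Agent.R143.B1cx796

local notation "smk" => Crest.Agent.R143.Lawx831.mk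
local notation "Tk" => Crest.Agent.R143.Var2x831.Tk
local notation "del" => Crest.Agent.R143.Var2x831.del

/-- good positions (network level) -/
structure YG (D : Dom) (ε : ℝ) (p : Pos) : Prop where
  inj : InjP ε p
  fin : (points ε (smk p fun _ => 0) ∩ Metric.closedBall D.c D.L).Finite
  hnet : HNet (SP D ε p) (NP D ε p)
  arc : ArcOK (NP D ε p) (SP D ε p)

/-- a good edge between two free sites -/
structure Edg (D : Dom) (ε : ℝ) (p : Pos) (a b : ℂ) : Prop where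
  l : ∃ c, (a, b, c) ∈ delT (SP D ε p)
  r : ∃ c, (b, a, c) ∈ delT (SP D ε p)
  ia : a ∈ IP D ε p
  ib : b ∈ IP D ε p
  eqc : ((NP D ε p).hj a b).card = ((NP D ε p).hj b a).card
  ne : ((NP D ε p).hj a b).card ≠ 0

variable {D : Dom} {ε : ℝ} {p : Pos} {k' : ℤ × ℤ} {a b : ℂ} {t t' : ℂ × ℂ × ℂ}

lemma Edg.symm (h : Edg D ε p a b) : Edg D ε p b a :=
  ⟨h.r, h.l, h.ib, h.ia, h.eqc.symm, fun h0 => h.ne (h.eqc.trans h0)⟩

lemma SP_sub (hfin : (points ε (smk p fun _ => 0) ∩ Metric.closedBall D.c D.L).Finite) :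
    (SP D ε p : Set ℂ) ⊆ ptP ε p '' presP p := by
  intro v hv
  have := (mem_SP hfin).1 (Finset.mem_coe.1 hv)
  rw [points_mk] at this
  exact this.1

lemma inn_ne_ex {N : Net ℂ} {S : Finset ℂ} (h : ArcOK N S) (ha : a ∈ innN N S) (k : ZMod 3) :
    a ≠ (N.ex k).1 ∧ a ≠ (N.ex k).2 := by
  have h1 := (Finset.mem_filter.1 ha).2
  constructor
  · intro h2; exact h1 (k - 1) (h2 ▸ h.mark k)
  · intro h2; exact h1 k (by rw [h2]; exact Relation.ReflTransGen.refl)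

lemma mem_E_of {G : Trg ℂ} {c : ℂ} (h : (a, b, c) ∈ G.T) : (a, b) ∈ G.E := by
  unfold Trg.E
  exact Finset.mem_union_left _ (Finset.mem_image.2 ⟨(a, b, c), h, rfl⟩)

lemma inn_live {N : Net ℂ} {S : Finset ℂ} (hN : HNet S N) (h : ArcOK N S) (ha : a ∈ innN N S)
    {c : ℂ} (habc : (a, b, c) ∈ delT S) : (a, b) ∉ N.kl := by
  intro h1
  have h2 : (a, b) ∈ N.toTrg.E := mem_E_of (c := c) (by rw [hN.tri]; exact habc)
  exact h.inn a ha b ⟨h2, Or.inl h1⟩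

lemma inn_notEx {N : Net ℂ} {S : Finset ℂ} (h : ArcOK N S) (ha : a ∈ innN N S) :
    (a, b) ∉ N.exS ∧ (b, a) ∉ N.exS := by
  constructor
  · rintro ⟨k, hk⟩
    exact (inn_ne_ex h ha k).1 (by rw [hk])
  · rintro ⟨k, hk⟩
    exact (inn_ne_ex h ha k).2 (by rw [hk])

/-- the leg probability as a colour average -/
theorem q_eq (h3 : Y3) (h5 : Y5a) (hε : 0 < ε) (g : YG D ε p) (he : Half D ε p a b t)
    (k : ZMod 3) : ((NP D ε p).cnt a b k : ℝ) / (((NP D ε p).hj a b).card : ℝ) =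
      av (FP D ε a b t k p) := by
  have h1 := h5 D ε p hε g.inj g.hnet g.arc (SP_sub g.fin) a b t he k
  obtain ⟨ta, tb, tc⟩ := t
  have e1 : ta = a := he.t1
  have e2 : tb = b := he.t2
  subst e1 e2
  rw [h1]
  exact h3 (SP D ε p) (NP D ε p) g.hnet ta tb tc he.mem he.opp
    (inn_live g.hnet g.arc he.ina he.mem) (inn_notEx g.arc he.ina).1 (inn_notEx g.arc he.ina).2 k

theorem q_sum (h3 : Y3) (h3s : Y3s) (h5 : Y5a) (hε : 0 < ε) (g : YG D ε p)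
    (he : Half D ε p a b t) (hne : ((NP D ε p).hj a b).card ≠ 0) :
    ∑ k, av (FP D ε a b t k p) = 1 := by
  obtain ⟨ta, tb, tc⟩ := t
  have e1 : ta = a := he.t1
  have e2 : tb = b := he.t2
  subst e1 e2
  have h1 := h3s (SP D ε p) (NP D ε p) g.hnet ta tb tc he.mem he.opp
    (inn_live g.hnet g.arc he.ina he.mem) (inn_notEx g.arc he.ina).1 (inn_notEx g.arc he.ina).2
  have h2 : ∀ k, av (FP D ε ta tb (ta, tb, tc) k p) =
      ((NP D ε p).cnt ta tb k : ℝ) / (((NP D ε p).hj ta tb).card : ℝ) := fun k =>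
    (q_eq h3 h5 hε g he k).symm
  simp only [h2]
  rw [← Finset.sum_div, ← Nat.cast_sum, h1]
  exact div_self (Nat.cast_ne_zero.2 hne)

/-- the observable at an edge between free sites -/
theorem F_edge (h3 : Y3) (h5 : Y5a) (hε : 0 < ε) (g : YG D ε p) (h : Edg D ε p a b)
    (he : Half D ε p a b t) (he' : Half D ε p b a t') :
    (NP D ε p).F a b = ∑ k : ZMod 3, omz k *
      (((av (FP D ε a b t k p) + av (FP D ε b a t' k p)) / 2 : ℝ) : ℂ) := by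
  have hno : ¬ ∃ k, (NP D ε p).ex k = (a, b) ∨ (NP D ε p).ex k = (b, a) := by
    rintro ⟨k, hk | hk⟩
    · exact (inn_notEx g.arc h.ia).1 ⟨k, hk⟩
    · exact (inn_notEx g.arc h.ia).2 ⟨k, hk⟩
  unfold Net.F
  rw [dif_neg hno]
  unfold Net.Fob
  rw [Finset.sum_div]
  refine Finset.sum_congr rfl fun k _ => ?_
  rw [← q_eq h3 h5 hε g he k, ← q_eq h3 h5 hε g he' k, ← h.eqc]
  have hne : (((NP D ε p).hj a b).card : ℝ) ≠ 0 := Nat.cast_ne_zero.2 h.ne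
  have hneC : (((NP D ε p).hj a b).card : ℂ) ≠ 0 := Nat.cast_ne_zero.2 h.ne
  push_cast
  field_simp
  ring

/-- sum of the squared level-one coefficients of a block -/
def Lam (D : Dom) (ε : ℝ) (p : Pos) (a b : ℂ) (t : ℂ × ℂ × ℂ) (k' : ℤ × ℤ) : ℝ :=
  ∑ j : ZMod 3, ∑ i ∈ Tk p k', lv (FP D ε a b t j p) i ^ 2

lemma Lam_nonneg : 0 ≤ Lam D ε p a b t k' :=
  Finset.sum_nonneg fun _ _ => Finset.sum_nonneg fun _ _ => sq_nonneg _

/-- one half edge, one block -/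
theorem half_diff (h3 : Y3) (h3s : Y3s) (h4 : Y4) (h4a : Y4a) (h5 : Y5a) (h5b : Y5b) (hε : 0 < ε)
    (g : YG D ε p) (g' : YG D ε (del k' p)) (hB : BlkOK D ε p k') (he : Half D ε p a b t)
    (he' : Half D ε (del k' p) a b t) (hne : ((NP D ε p).hj a b).card ≠ 0)
    (hne' : ((NP D ε (del k' p)).hj a b).card ≠ 0) (hoff : Off (Ub ε p k') t) {M : ℕ}
    (hM : (p k').1 ≤ M) (k : ZMod 3) :
    (av (FP D ε a b t k p) - av (FP D ε a b t k (del k' p))) ^ 2 ≤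
      4 ^ M * (3 * M) * Lam D ε p a b t k' := by
  have hcard : (Tk p k').card ≤ M := by rw [Var2x831.card_Tk]; exact hM
  have h1 := av_diff_sq (T := Tk p k') (F := fun k => FP D ε a b t k p)
    (G := fun k => FP D ε a b t k (del k' p))
    (fun j => (h5b D ε p hε g.inj g.hnet g.arc (SP_sub g.fin) a b t he j).1 _)
    (fun j => (h5b D ε (del k' p) hε g'.inj g'.hnet g'.arc (SP_sub g'.fin) a b t he' j).1 _)
    (fun j c => FP_del h4 h4a hB he.t1 he.t2 he.mem hoff j c)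
    (q_sum h3 h3s h5 hε g he hne) (q_sum h3 h3s h5 hε g' he' hne') k
  refine h1.trans ?_
  refine mul_le_mul_of_nonneg_right ?_ Lam_nonneg
  have e1 : (4 : ℝ) ^ (Tk p k').card ≤ 4 ^ M := pow_le_pow_right₀ (by norm_num) hcard
  have e2 : (3 : ℝ) * ((Tk p k').card : ℝ) ≤ 3 * M := by
    have : ((Tk p k').card : ℝ) ≤ M := by exact_mod_cast hcard
    linarith
  exact mul_le_mul e1 e2 (by positivity) (by positivity)

lemma norm_omz (k : ZMod 3) : ‖omz k‖ = 1 := by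
  unfold omz
  rw [norm_pow]
  have : ‖om‖ = 1 := by unfold om; exact Complex.norm_exp_ofReal_mul_I _
  rw [this, one_pow]

/-- the data of one edge for `p` and for the deletion of block `k'` -/
structure EdgD (D : Dom) (ε : ℝ) (p : Pos) (k' : ℤ × ℤ) (a b : ℂ) (t t' : ℂ × ℂ × ℂ) : Prop where
  e : Edg D ε p a b
  e' : Edg D ε (del k' p) a b
  hl : Half D ε p a b t
  hr : Half D ε p b a t'
  hl' : Half D ε (del k' p) a b t
  hr' : Half D ε (del k' p) b a t'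
  ol : Off (Ub ε p k') t
  or : Off (Ub ε p k') t'

/-- one edge, one block -/
theorem edge_diff (h3 : Y3) (h3s : Y3s) (h4 : Y4) (h4a : Y4a) (h5 : Y5a) (h5b : Y5b) (hε : 0 < ε)
    (g : YG D ε p) (g' : YG D ε (del k' p)) (hB : BlkOK D ε p k')
    (h : EdgD D ε p k' a b t t') {M : ℕ} (hM : (p k').1 ≤ M) :
    ‖(NP D ε p).F a b - (NP D ε (del k' p)).F a b‖ ^ 2 ≤
      27 / 2 * (4 ^ M * M) * (Lam D ε p a b t k' + Lam D ε p b a t' k') := by
  set x : ZMod 3 → ℝ := fun k => av (FP D ε a b t k p) - av (FP D ε a b t k (del k' p)) with hx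
  set y : ZMod 3 → ℝ := fun k => av (FP D ε b a t' k p) - av (FP D ε b a t' k (del k' p)) with hy
  have hxk : ∀ k, x k ^ 2 ≤ 4 ^ M * (3 * M) * Lam D ε p a b t k' := fun k =>
    half_diff h3 h3s h4 h4a h5 h5b hε g g' hB h.hl h.hl' h.e.ne h.e'.ne h.ol hM k
  have hyk : ∀ k, y k ^ 2 ≤ 4 ^ M * (3 * M) * Lam D ε p b a t' k' := fun k =>
    half_diff h3 h3s h4 h4a h5 h5b hε g g' hB h.hr h.hr' h.e.symm.ne h.e'.symm.ne h.or hM k
  have e1 : (NP D ε p).F a b - (NP D ε (del k' p)).F a b =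
      ∑ k : ZMod 3, omz k * (((x k + y k) / 2 : ℝ) : ℂ) := by
    rw [F_edge h3 h5 hε g h.e h.hl h.hr, F_edge h3 h5 hε g' h.e' h.hl' h.hr',
      ← Finset.sum_sub_distrib]
    refine Finset.sum_congr rfl fun k _ => ?_
    rw [← mul_sub]
    congr 1
    simp only [hx, hy]
    push_cast
    ring
  have e2 : ‖(NP D ε p).F a b - (NP D ε (del k' p)).F a b‖ ≤ ∑ k : ZMod 3, |(x k + y k) / 2| := by
    rw [e1]
    refine (norm_sum_le _ _).trans (Finset.sum_le_sum fun k _ => ?_)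
    rw [norm_mul, norm_omz, one_mul, Complex.norm_real, Real.norm_eq_abs]
  have e3 : (∑ k : ZMod 3, |(x k + y k) / 2|) ^ 2 ≤ 3 * ∑ k : ZMod 3, |(x k + y k) / 2| ^ 2 := by
    have := sq_sum_le_card_mul_sum_sq (s := (Finset.univ : Finset (ZMod 3)))
      (f := fun k => |(x k + y k) / 2|)
    have a3 : ((Finset.univ : Finset (ZMod 3)).card : ℝ) = 3 := by
      rw [Finset.card_univ, ZMod.card]; norm_num
    rwa [a3] at this
  have e4 : ∀ k, |(x k + y k) / 2| ^ 2 ≤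
      1 / 2 * (4 ^ M * (3 * M) * (Lam D ε p a b t k' + Lam D ε p b a t' k')) := by
    intro k
    rw [sq_abs]
    have := hxk k
    have := hyk k
    nlinarith [sq_nonneg (x k - y k)]
  calc ‖(NP D ε p).F a b - (NP D ε (del k' p)).F a b‖ ^ 2
      ≤ (∑ k : ZMod 3, |(x k + y k) / 2|) ^ 2 := pow_le_pow_left₀ (norm_nonneg _) e2 2
    _ ≤ 3 * ∑ k : ZMod 3, |(x k + y k) / 2| ^ 2 := e3
    _ ≤ 3 * ∑ _k : ZMod 3, 1 / 2 * (4 ^ M * (3 * M) *
          (Lam D ε p a b t k' + Lam D ε p b a t' k')) :=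
        mul_le_mul_of_nonneg_left (Finset.sum_le_sum fun k _ => e4 k) (by norm_num)
    _ = 27 / 2 * (4 ^ M * M) * (Lam D ε p a b t k' + Lam D ε p b a t' k') := by
        rw [Finset.sum_const, Finset.card_univ, ZMod.card]
        simp only [nsmul_eq_mul]
        push_cast
        ring

/-- the sum over the blocks -/
theorem sum_Lam_le (h5b : Y5b) (hε : 0 < ε) (g : YG D ε p) (he : Half D ε p a b t)
    (B : Finset (ℤ × ℤ)) {δ : ℝ} (hδ : 0 ≤ δ)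
    (hrev : ∀ k' ∈ B, ∀ i ∈ Tk p k', ∀ j : ZMod 3,
      (cl Idx).real {c | i ∈ JP D ε a b j p c} ≤ δ) :
    ∑ k' ∈ B, Lam D ε p a b t k' ≤ 3 * δ := by
  unfold Lam
  rw [Finset.sum_comm]
  have h1 : ∀ j : ZMod 3, ∑ k' ∈ B, ∑ i ∈ Tk p k', lv (FP D ε a b t j p) i ^ 2 ≤ δ := by
    intro j
    have hd : Set.PairwiseDisjoint (B : Set (ℤ × ℤ)) (Tk p) := by
      intro k1 _ k2 _ hne
      rw [Function.onFun, Finset.disjoint_left]
      intro i hi1 hi2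
      exact hne ((Var2x831.mem_Tk.1 hi1).1.symm.trans (Var2x831.mem_Tk.1 hi2).1)
    rw [← Finset.sum_biUnion hd]
    have hb := h5b D ε p hε g.inj g.hnet g.arc (SP_sub g.fin) a b t he j
    refine sum_lv_sq_le (hb.1 ∅) hb.2 hδ _ ?_
    intro i hi
    obtain ⟨k', hk', hi'⟩ := Finset.mem_biUnion.1 hi
    exact hrev k' hk' i hi' j
  calc ∑ j : ZMod 3, ∑ k' ∈ B, ∑ i ∈ Tk p k', lv (FP D ε a b t j p) i ^ 2
      ≤ ∑ _j : ZMod 3, δ := Finset.sum_le_sum fun j _ => h1 j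
    _ = 3 * δ := by rw [Finset.sum_const, Finset.card_univ, ZMod.card]; simp

/-- value of the observable in an open triangle -/
theorem hval_tri {S : Finset ℂ} {N : Net ℂ} (hS : GP (S : Set ℂ)) (hT : N.T = delT S) {z : ℂ}
    (ht : t ∈ delT S) (hz : z ∈ opn t) : hval N z = hm N t := by
  have hz' : ∃ t : ℂ × ℂ × ℂ, t ∈ N.T ∧ InTri z t.1 t.2.1 t.2.2 := ⟨t, hT ▸ ht, hz⟩
  rw [hval, dif_pos hz']
  set t0 := hz'.choose with ht0
  obtain ⟨h1, h2⟩ := hz'.choose_spec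
  rw [← ht0] at h1 h2
  have h1' : t0 ∈ delT S := hT ▸ h1
  obtain ⟨o, ho⟩ := DelGx806.mem_delT_iff.1 (show (t0.1, t0.2.1, t0.2.2) ∈ delT S from h1')
  obtain ⟨o', ho'⟩ := DelGx806.mem_delT_iff.1 (show (t.1, t.2.1, t.2.2) ∈ delT S from ht)
  have hd := DelGx806.disj hS ho ho' (x := z) h2 (DelGx806.InO.inT hz)
  have hd' : t ∈ rots t0 := hd
  rw [B1cx796.mem_rots] at hd'
  have : hm N t0 = hm N t := by
    rcases hd' with h | h | h
    · rw [h]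
    · rw [h, hm_rt]
    · rw [h, hm_rt, hm_rt]
  exact this

/-- the three edges of a triangle, `t i` is the triangle on the left of the edge `i` (a rotation of
`t`), `s i` the one on the right -/
structure TriD (D : Dom) (ε : ℝ) (p : Pos) (k' : ℤ × ℤ) (t s0 s1 s2 : ℂ × ℂ × ℂ) : Prop where
  e0 : EdgD D ε p k' t.1 t.2.1 t s0
  e1 : EdgD D ε p k' t.2.1 t.2.2 (rt t) s1
  e2 : EdgD D ε p k' t.2.2 t.1 (rt (rt t)) s2

/-- the six sums of one block -/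
def LamT (D : Dom) (ε : ℝ) (p : Pos) (t s0 s1 s2 : ℂ × ℂ × ℂ) (k' : ℤ × ℤ) : ℝ :=
  (Lam D ε p t.1 t.2.1 t k' + Lam D ε p t.2.1 t.1 s0 k') +
  (Lam D ε p t.2.1 t.2.2 (rt t) k' + Lam D ε p t.2.2 t.2.1 s1 k') +
  (Lam D ε p t.2.2 t.1 (rt (rt t)) k' + Lam D ε p t.1 t.2.2 s2 k')

/-- one point, one block -/
theorem hval_diff (h3 : Y3) (h3s : Y3s) (h4 : Y4) (h4a : Y4a) (h5 : Y5a) (h5b : Y5b) (hε : 0 < ε)
    (g : YG D ε p) (g' : YG D ε (del k' p)) (hB : BlkOK D ε p k') {s0 s1 s2 : ℂ × ℂ × ℂ}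
    (h : TriD D ε p k' t s0 s1 s2) {z : ℂ} (hz : z ∈ opn t) {M : ℕ} (hM : (p k').1 ≤ M) :
    ‖hval (NP D ε p) z - hval (NP D ε (del k' p)) z‖ ^ 2 ≤
      9 / 2 * (4 ^ M * M) * LamT D ε p t s0 s1 s2 k' := by
  rw [hval_tri g.hnet.gp g.hnet.tri h.e0.hl.mem hz, hval_tri g'.hnet.gp g'.hnet.tri h.e0.hl'.mem hz]
  set A := (NP D ε p).F t.1 t.2.1 - (NP D ε (del k' p)).F t.1 t.2.1 with hA
  set B := (NP D ε p).F t.2.1 t.2.2 - (NP D ε (del k' p)).F t.2.1 t.2.2 with hBd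
  set C := (NP D ε p).F t.2.2 t.1 - (NP D ε (del k' p)).F t.2.2 t.1 with hC
  have a0 : ‖A‖ ^ 2 ≤ _ := edge_diff h3 h3s h4 h4a h5 h5b hε g g' hB h.e0 hM
  have a1 : ‖B‖ ^ 2 ≤ _ := edge_diff h3 h3s h4 h4a h5 h5b hε g g' hB h.e1 hM
  have a2 : ‖C‖ ^ 2 ≤ _ := edge_diff h3 h3s h4 h4a h5 h5b hε g g' hB h.e2 hM
  have e1 : hm (NP D ε p) t - hm (NP D ε (del k' p)) t = (A + B + C) / 3 := by
    simp only [hm, hA, hBd, hC]; ring
  rw [e1]
  have e2 : ‖(A + B + C) / 3‖ ≤ (‖A‖ + ‖B‖ + ‖C‖) / 3 := by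
    rw [norm_div]
    have h3' : ‖(3 : ℂ)‖ = 3 := by norm_num
    rw [h3']
    gcongr
    exact norm_add₃_le
  have e3 : ‖(A + B + C) / 3‖ ^ 2 ≤ (‖A‖ ^ 2 + ‖B‖ ^ 2 + ‖C‖ ^ 2) / 3 := by
    refine (pow_le_pow_left₀ (norm_nonneg _) e2 2).trans ?_
    nlinarith [sq_nonneg (‖A‖ - ‖B‖), sq_nonneg (‖B‖ - ‖C‖), sq_nonneg (‖A‖ - ‖C‖)]
  refine e3.trans ?_
  unfold LamT
  linarith

/-- **one point, all far blocks** -/
theorem sum_hval_le (h3 : Y3) (h3s : Y3s) (h4 : Y4) (h4a : Y4a) (h5 : Y5a) (h5b : Y5b)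
    (hε : 0 < ε) (g : YG D ε p) (B : Finset (ℤ × ℤ)) (g' : ∀ k' ∈ B, YG D ε (del k' p))
    (hB : ∀ k' ∈ B, BlkOK D ε p k') {s0 s1 s2 : ℂ × ℂ × ℂ} {z : ℂ} (hz : z ∈ opn t)
    (h : ∀ k' ∈ B, TriD D ε p k' t s0 s1 s2) {M : ℕ} (hM : ∀ k' ∈ B, (p k').1 ≤ M) {δ : ℝ}
    (hδ : 0 ≤ δ)
    (hrev : ∀ x ∈ ({t.1, t.2.1, t.2.2} : Set ℂ), ∀ y ∈ ({t.1, t.2.1, t.2.2} : Set ℂ),
      ∀ tt : ℂ × ℂ × ℂ, Half D ε p x y tt →
      ∀ k' ∈ B, ∀ i ∈ Tk p k', ∀ j : ZMod 3, (cl Idx).real {c | i ∈ JP D ε x y j p c} ≤ δ) :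
    ∑ k' ∈ B, ‖hval (NP D ε p) z - hval (NP D ε (del k' p)) z‖ ^ 2 ≤
      81 * (4 ^ M * M) * δ := by
  rcases B.eq_empty_or_nonempty with rfl | ⟨k0, hk0⟩
  · simp only [Finset.sum_empty]; positivity
  have m1 : t.1 ∈ ({t.1, t.2.1, t.2.2} : Set ℂ) := by simp
  have m2 : t.2.1 ∈ ({t.1, t.2.1, t.2.2} : Set ℂ) := by simp
  have m3 : t.2.2 ∈ ({t.1, t.2.1, t.2.2} : Set ℂ) := by simp
  have H := h k0 hk0
  have b0 := sum_Lam_le h5b hε g H.e0.hl B hδ (hrev _ m1 _ m2 _ H.e0.hl)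
  have b0' := sum_Lam_le h5b hε g H.e0.hr B hδ (hrev _ m2 _ m1 _ H.e0.hr)
  have b1 := sum_Lam_le h5b hε g H.e1.hl B hδ (hrev _ m2 _ m3 _ H.e1.hl)
  have b1' := sum_Lam_le h5b hε g H.e1.hr B hδ (hrev _ m3 _ m2 _ H.e1.hr)
  have b2 := sum_Lam_le h5b hε g H.e2.hl B hδ (hrev _ m3 _ m1 _ H.e2.hl)
  have b2' := sum_Lam_le h5b hε g H.e2.hr B hδ (hrev _ m1 _ m3 _ H.e2.hr)
  calc ∑ k' ∈ B, ‖hval (NP D ε p) z - hval (NP D ε (del k' p)) z‖ ^ 2
      ≤ ∑ k' ∈ B, 9 / 2 * (4 ^ M * M) * LamT D ε p t s0 s1 s2 k' :=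
        Finset.sum_le_sum fun k' hk' => hval_diff h3 h3s h4 h4a h5 h5b hε g (g' k' hk')
          (hB k' hk') (h k' hk') hz (hM k' hk')
    _ = 9 / 2 * (4 ^ M * M) * ∑ k' ∈ B, LamT D ε p t s0 s1 s2 k' := by rw [Finset.mul_sum]
    _ ≤ 9 / 2 * (4 ^ M * M) * (18 * δ) := by
        refine mul_le_mul_of_nonneg_left ?_ (by positivity)
        unfold LamT
        simp only [Finset.sum_add_distrib]
        linarith
    _ = 81 * (4 ^ M * M) * δ := by ring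

end Crest.Agent.R143.Y6Bx831
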