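import Crest.Agent.R143.Y8D_831
import Crest.Agent.R143.Loc_922
import Crest.Agent.R143.G6V_408

/-!
# R143, block Y (helper796): deletion of one block in a good environment

* `env3` : the environment after the deletion of a block is good at scale `3 d`
* `blkOK` : the points of a block in the free disc can be deleted
-/

set_option autoImplicit false

noncomputable section

open scoped Classical

namespace Crest.Agent.R143.Y8ax796

open Set Filter Topology
open Crest.ProbabilityR.Voronoi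
open Crest.Agent.R143.B0x346 Crest.Agent.R143.B0Dx346 Crest.Agent.R143.PP1x831
open Crest.Agent.R143.Y0x831 Crest.Agent.R143.Lawx831
open Crest.Agent.R143.Y5Dx831 Crest.Agent.R143.Y6Ax831
open Crest.Agent.R143.Y6Bx831 Crest.Agent.R143.Y8Dx831

local notation "smk" => Crest.Agent.R143.Lawx831.mk
local notation "Tk" => Crest.Agent.R143.Var2x831.Tk
local notation "del" => Crest.Agent.R143.Var2x831.del

variable {D : Dom} {ε d M R1 : ℝ} {p : Pos} {k' : ℤ × ℤ}

/-- the points of the block are in the cell -/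
lemma Ub_cell {v : ℂ} (hv : v ∈ Ub ε p k') : v ∈ cellS ε k' := by
  obtain ⟨j, -, rfl⟩ := mem_Ub.1 hv
  refine ⟨(((p k').2 j).1 : ℝ), (((p k').2 j).2 : ℝ), ((p k').2 j).1.2.1, ((p k').2 j).1.2.2,
    ((p k').2 j).2.2.1, ((p k').2 j).2.2.2, ?_⟩
  unfold ptP point Lawx831.mk
  rfl

/-- diameter of a cell -/
lemma cell_diam (hε : 0 < ε) {v w : ℂ} (hv : v ∈ cellS ε k') (hw : w ∈ cellS ε k') :
    ‖v - w‖ < 2 * ε := by
  obtain ⟨x, y, hx0, hx1, hy0, hy1, rfl⟩ := hv
  obtain ⟨x', y', hx0', hx1', hy0', hy1', rfl⟩ := hw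
  have e : (ε : ℂ) * ((((k'.1 : ℝ) + x : ℝ) : ℂ) + (((k'.2 : ℝ) + y : ℝ) : ℂ) * Complex.I) -
      (ε : ℂ) * ((((k'.1 : ℝ) + x' : ℝ) : ℂ) + (((k'.2 : ℝ) + y' : ℝ) : ℂ) * Complex.I) =
      (ε : ℂ) * (((x - x' : ℝ) : ℂ) + ((y - y' : ℝ) : ℂ) * Complex.I) := by
    push_cast; ring
  rw [e, norm_mul, Complex.norm_real, Real.norm_of_nonneg hε.le, mul_comm 2 ε]
  refine mul_lt_mul_of_pos_left ?_ hε
  rw [← sq_lt_sq₀ (norm_nonneg _) (by norm_num), Complex.sq_norm, Complex.normSq_apply]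
  simp only [Complex.add_re, Complex.add_im, Complex.mul_re, Complex.mul_im, Complex.ofReal_re,
    Complex.ofReal_im, Complex.I_re, Complex.I_im]
  have h1 : (x - x') ^ 2 ≤ 1 := by
    rw [sq_le_one_iff_abs_le_one, abs_le]; constructor <;> linarith
  have h2 : (y - y') ^ 2 ≤ 1 := by
    rw [sq_le_one_iff_abs_le_one, abs_le]; constructor <;> linarith
  nlinarith

/-- **(A)** the environment after the deletion of a block -/
theorem env3 (hε : 0 < ε) (hd : ε ≤ d) (h : Env ε d M D.c D.L (smk p fun _ => 0))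
    (hinj : InjP ε p) (k' : ℤ × ℤ) :
    ∃ M' : ℝ, Env ε (3 * d) M' D.c D.L (smk (del k' p) fun _ => 0) := by
  have hpts := points_del (k' := k') hinj
  have hsub : points ε (smk (del k' p) fun _ => 0) ⊆ points ε (smk p fun _ => 0) := by
    rw [hpts]; exact Set.sdiff_subset
  have hbig : (points ε (smk (del k' p) fun _ => 0) ∩
      Metric.closedBall 0 (‖D.c‖ + D.L + 3 * d)).Finite :=
    Crest.Agent.R143.G6Vx408.points_lf hε _ _
  refine ⟨((points ε (smk (del k' p) fun _ => 0) ∩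
      Metric.closedBall 0 (‖D.c‖ + D.L + 3 * d)).ncard : ℝ), ?_, ?_, ?_, ?_⟩
  · exact h.fin.subset (Set.inter_subset_inter_left _ hsub)
  · exact Crest.Agent.R143.Locx922.GP.mono h.gp hsub
  · intro z hz
    rw [Metric.mem_closedBall, dist_eq_norm] at hz
    have hball : ∀ e : ℂ, ‖e‖ = 2 * d → ∃ s ∈ points ε (smk p fun _ => 0), ‖s - (z + e)‖ < d := by
      intro e he
      have hze : z + e ∈ Metric.closedBall D.c (D.L - d) := by
        rw [Metric.mem_closedBall, dist_eq_norm]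
        calc ‖z + e - D.c‖ = ‖(z - D.c) + e‖ := by ring_nf
          _ ≤ ‖z - D.c‖ + ‖e‖ := norm_add_le _ _
          _ ≤ D.L - d := by rw [he]; linarith
      obtain ⟨s, hs, hsz⟩ := h.hole _ hze
      rw [Metric.mem_ball, dist_eq_norm] at hsz
      exact ⟨s, hs, hsz⟩
    have hd0 : 0 < d := hε.trans_le hd
    have hn : ‖((2 * d : ℝ) : ℂ)‖ = 2 * d := by
      rw [Complex.norm_real, Real.norm_of_nonneg (by linarith)]
    obtain ⟨s1, hs1, hz1⟩ := hball ((2 * d : ℝ) : ℂ) hn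
    obtain ⟨s2, hs2, hz2⟩ := hball (-((2 * d : ℝ) : ℂ)) (by rw [norm_neg, hn])
    have far : 2 * d < ‖s1 - s2‖ := by
      have e1 : ((4 * d : ℝ) : ℂ) = (s1 - s2) - (s1 - (z + ((2 * d : ℝ) : ℂ))) +
          (s2 - (z + -((2 * d : ℝ) : ℂ))) := by push_cast; ring
      have e2 : ‖((4 * d : ℝ) : ℂ)‖ = 4 * d := by
        rw [Complex.norm_real, Real.norm_of_nonneg (by linarith)]
      have e3 : ‖((4 * d : ℝ) : ℂ)‖ ≤ ‖s1 - s2‖ + ‖s1 - (z + ((2 * d : ℝ) : ℂ))‖ +
          ‖s2 - (z + -((2 * d : ℝ) : ℂ))‖ := by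
        rw [e1]
        exact (norm_add_le _ _).trans (by gcongr; exact norm_sub_le _ _)
      linarith
    have hclose : ∀ s e : ℂ, ‖e‖ = 2 * d → ‖s - (z + e)‖ < d → s ∈ Metric.ball z (3 * d) := by
      intro s e he hs
      rw [Metric.mem_ball, dist_eq_norm]
      calc ‖s - z‖ = ‖(s - (z + e)) + e‖ := by ring_nf
        _ ≤ ‖s - (z + e)‖ + ‖e‖ := norm_add_le _ _
        _ < 3 * d := by rw [he]; linarith
    by_cases h1 : s1 ∈ Ub ε p k'
    · have h2 : s2 ∉ Ub ε p k' := fun h2 => by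
        have := cell_diam hε (Ub_cell h1) (Ub_cell h2)
        linarith
      refine ⟨s2, ?_, hclose s2 _ (by rw [norm_neg, hn]) hz2⟩
      rw [hpts]
      exact ⟨hs2, fun h3 => h2 (Finset.mem_coe.1 h3)⟩
    · refine ⟨s1, ?_, hclose s1 _ hn hz1⟩
      rw [hpts]
      exact ⟨hs1, fun h3 => h1 (Finset.mem_coe.1 h3)⟩
  · intro z hz
    rw [Metric.mem_closedBall, dist_eq_norm] at hz
    rw [Nat.cast_le]
    refine Set.ncard_le_ncard (Set.inter_subset_inter_right _ ?_) hbig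
    intro w hw
    rw [Metric.mem_closedBall, dist_eq_norm] at hw
    rw [mem_closedBall_zero_iff]
    calc ‖w‖ = ‖(w - z) + (z - D.c) + D.c‖ := by ring_nf
      _ ≤ ‖w - z‖ + ‖z - D.c‖ + ‖D.c‖ := (norm_add_le _ _).trans (by gcongr; exact norm_add_le _ _)
      _ ≤ ‖D.c‖ + D.L + 3 * d := by linarith

/-- the sites after the deletion are dense in the free disc -/
lemma hol_sdiff (hε : 0 < ε) (hd : ε ≤ d) (hF : Free1 D R1) (hR : 8 * d ≤ R1)
    (h : Env ε d M D.c D.L (smk p fun _ => 0)) (hinj : InjP ε p) (k' : ℤ × ℤ) :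
    Crest.Agent.R143.Locx922.Hol ((SP D ε p \ Ub ε p k' : Finset ℂ) : Set ℂ)
      (Metric.closedBall D.c (2 * R1)) (3 * d) := by
  obtain ⟨M', hE⟩ := env3 hε hd h hinj k'
  have hd0 : 0 < d := hε.trans_le hd
  have := hF.pos
  have hle := hF.le
  intro w hw z hz
  rw [Metric.mem_closedBall, dist_eq_norm] at hw
  have hz' : ‖z - D.c‖ ≤ 2 * R1 + 3 * d := by
    calc ‖z - D.c‖ = ‖(z - w) + (w - D.c)‖ := by ring_nf
      _ ≤ ‖z - w‖ + ‖w - D.c‖ := norm_add_le _ _
      _ ≤ 2 * R1 + 3 * d := by linarith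
  obtain ⟨s, hs, hsz⟩ := hE.hole z (by
    rw [Metric.mem_closedBall, dist_eq_norm]; linarith)
  rw [Metric.mem_ball, dist_eq_norm] at hsz
  rw [points_del (k' := k') hinj] at hs
  refine ⟨s, ?_, hsz⟩
  rw [Finset.mem_coe, Finset.mem_sdiff, mem_SP h.fin]
  refine ⟨⟨hs.1, ?_⟩, fun h1 => hs.2 (Finset.mem_coe.2 h1)⟩
  rw [Metric.mem_closedBall, dist_eq_norm]
  calc ‖s - D.c‖ = ‖(s - z) + (z - D.c)‖ := by ring_nf
    _ ≤ ‖s - z‖ + ‖z - D.c‖ := norm_add_le _ _
    _ ≤ D.L := by linarith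

/-- **(B)** a block in the free disc can be deleted -/
theorem blkOK (hε : 0 < ε) (hd : ε ≤ d) (hF : Free1 D R1) (hR : 8 * d ≤ R1)
    (h : Env ε d M D.c D.L (smk p fun _ => 0)) (hinj : InjP ε p)
    (hk : cellS ε k' ⊆ Metric.closedBall D.c (2 * R1))
    (hA : ∀ v ∈ D.sites ε (smk p fun _ => 0),
      voronoiCell (D.sites ε (smk p fun _ => 0) : Set ℂ) v ∩ D.out = ∅ →
      (∀ x y : ℂ, hullE (D.sites ε (smk p fun _ => 0)) x y → x ≠ v ∧ y ≠ v) →
      v ∈ innN (D.netS (D.sites ε (smk p fun _ => 0))) (D.sites ε (smk p fun _ => 0))) :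
    BlkOK D ε p k' := by
  have hd0 : 0 < d := hε.trans_le hd
  have hR0 := hF.pos
  have hle := hF.le
  have hsubb : Metric.closedBall D.c (2 * R1) ⊆ Metric.closedBall D.c (D.L - 2 * d) :=
    Metric.closedBall_subset_closedBall (by linarith)
  have hin : ∀ v ∈ Ub ε p k', v ∈ Metric.closedBall D.c (2 * R1) := fun v hv => hk (Ub_cell hv)
  have hsub : Ub ε p k' ⊆ SP D ε p := by
    intro v hv
    rw [mem_SP h.fin]
    refine ⟨?_, Metric.closedBall_subset_closedBall (by linarith) (hin v hv)⟩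
    rw [points_mk]
    obtain ⟨j, hj, rfl⟩ := mem_Ub.1 hv
    exact ⟨(k', j), hj, rfl⟩
  have hhol : Crest.Agent.R143.Locx922.Hol (SP D ε p : Set ℂ)
      (Metric.closedBall D.c (D.L - 2 * d)) d := Crest.Agent.R143.Locx922.Env.hol_sites h
  have hhull : ∀ u ∈ Ub ε p k', ∀ x y : ℂ, hullE (SP D ε p) x y → x ≠ u ∧ y ≠ u := by
    intro u hu x y hxy
    have h1 := Crest.Agent.R143.Locx922.not_hull hd0 hhol (hsubb (hin u hu))
    constructor
    · rintro rfl; exact (h1 y).1 hxy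
    · rintro rfl; exact (h1 x).2 hxy
  have hcell : ∀ u ∈ Ub ε p k',
      voronoiCell ((SP D ε p \ Ub ε p k' : Finset ℂ) ∪ {u} : Set ℂ) u ∩ D.out = ∅ := by
    intro u hu
    rw [← Set.subset_empty_iff]
    rintro z ⟨hz, hzo⟩
    have h1 := Crest.Agent.R143.Locx922.cell_sub_ball (by linarith)
      (hol_sdiff hε hd hF hR h hinj k') (hin u hu)
      (voronoiCell_anti Set.subset_union_left u hz)
    have h2 := hin u hu
    rw [Metric.mem_closedBall, dist_eq_norm] at h2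
    have h3 : z ∈ Metric.closedBall D.c (4 * R1) := by
      rw [Metric.mem_closedBall, dist_eq_norm]
      calc ‖z - D.c‖ = ‖(z - u) + (u - D.c)‖ := by ring_nf
        _ ≤ ‖z - u‖ + ‖u - D.c‖ := norm_add_le _ _
        _ ≤ 4 * R1 := by linarith
    rw [← hF.out]
    exact ⟨h3, hzo⟩
  refine ⟨hinj, h.fin, ⟨Crest.Agent.R143.Locx922.Env.gp_sites h, hsub, hhull, hcell⟩, ?_⟩
  intro v hv
  refine hA v (hsub hv) ?_ (hhull v hv)
  rw [← Set.subset_empty_iff, ← hcell v hv]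
  refine Set.inter_subset_inter_left _ (voronoiCell_anti ?_ v)
  rintro x (hx | hx)
  · exact Finset.mem_coe.2 (Finset.mem_sdiff.1 (Finset.mem_coe.1 hx)).1
  · rw [Set.mem_singleton_iff.1 hx]
    exact Finset.mem_coe.2 (hsub hv)

end Crest.Agent.R143.Y8ax796
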