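import Crest.Agent.R143.Y8a_796
import Crest.Agent.R143.Y8b_780

/-!
# R143, block Y: leaf Y8 (helper780, helper796)
-/

set_option autoImplicit false

namespace Crest.Agent.R143.Y8cx796

open Crest.Agent.R143.Y8Dx831

/-- **leaf Y8** -/
theorem y8 : Y8 :=
  Crest.Agent.R143.Y8bx780.y8_of
    (fun _ _ _ _ _ k' h1 h2 h3 h4 => Crest.Agent.R143.Y8ax796.env3 h1 h2 h3 h4 k')
    (fun _ _ _ _ _ _ _ h1 h2 h3 h4 h5 h6 h7 h8 =>
      Crest.Agent.R143.Y8ax796.blkOK h1 h2 h3 h4 h5 h6 h7 h8)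

end Crest.Agent.R143.Y8cx796
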