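import Crest.Agent.R143.Var3_831
import Crest.Agent.R143.Var2_831

/-!
# R143, block Y (helper831): abstract concentration

`f (p, z)` measurable bounded function of the positions and of `z`; the blocks outside the finite
set `Kf` are frozen; `g p = ∫ κ z f (P p, z)`.
-/

set_option autoImplicit false

noncomputable section

namespace Crest.Agent.R143.Y9Ax831

open MeasureTheory Set Function
open Crest.Agent.R143.ESx831 Crest.Agent.R143.Revx831 Crest.Agent.R143.Lawx831
open Crest.Agent.R143.Varx831 Crest.Agent.R143.Var3x831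
open scoped ENNReal

local notation "del" => Crest.Agent.R143.Var2x831.del

/-- almost everywhere version of `sum_sq_kernel_le`, functions bounded by `3` -/
theorem kernel_ae {K : Type*} {κ : ℂ → ℂ} (hκ : Integrable κ) {h : ℂ → ℂ} {h' : K → ℂ → ℂ}
    (hm : AEStronglyMeasurable h volume) (hm' : ∀ k, AEStronglyMeasurable (h' k) volume)
    (hb : ∀ z, ‖h z‖ ≤ 3) (hb' : ∀ k z, ‖h' k z‖ ≤ 3) (s : Finset K) (N : K → Set ℂ)
    (hN : ∀ k, MeasurableSet (N k)) {B : ℝ} (hB : 0 ≤ B) {A : ℝ} (hA : ∀ k ∈ s, ∫ z in N k, ‖κ z‖ ≤ A)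
    (hfar : ∀ᵐ z, κ z ≠ 0 → ∑ k ∈ s, (N k)ᶜ.indicator (fun z => ‖h z - h' k z‖ ^ 2) z ≤ B) :
    ∑ k ∈ s, ‖∫ z, κ z * (h z - h' k z)‖ ^ 2 ≤
      2 * (∫ z, ‖κ z‖) ^ 2 * B + 72 * s.card * A ^ 2 := by
  set T := toMeasurable volume {z | ¬ (κ z ≠ 0 →
    ∑ k ∈ s, (N k)ᶜ.indicator (fun z => ‖h z - h' k z‖ ^ 2) z ≤ B)} with hT
  have hTm : MeasurableSet T := measurableSet_toMeasurable _ _
  have hT0 : volume T = 0 := by rw [hT, measure_toMeasurable]; exact hfar
  have hTae : ∀ᵐ z : ℂ, z ∉ T := by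
    rw [ae_iff]; simpa using hT0
  set κ' : ℂ → ℂ := fun z => 3 * (Tᶜ.indicator κ z) with hκ'
  have e0 : ∀ᵐ z : ℂ, κ' z = 3 * κ z := by
    filter_upwards [hTae] with z hz
    simp only [hκ']
    rw [Set.indicator_of_mem (show z ∈ Tᶜ from hz)]
  have hκ'i : Integrable κ' := (hκ.indicator hTm.compl).const_mul 3
  have e1 : ∀ k, ∫ z, κ z * (h z - h' k z) = ∫ z, κ' z * (h z / 3 - h' k z / 3) := by
    intro k
    apply integral_congr_ae
    filter_upwards [e0] with z hz
    rw [hz]; ring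
  have e2 : ∫ z, ‖κ' z‖ = 3 * ∫ z, ‖κ z‖ := by
    rw [← integral_const_mul]
    apply integral_congr_ae
    filter_upwards [e0] with z hz
    rw [hz, norm_mul]; norm_num
  have hn3 : ‖(3 : ℂ)‖ = 3 := by norm_num
  have hA' : ∀ k ∈ s, ∫ z in N k, ‖κ' z‖ ≤ 3 * A := by
    intro k hk
    have : ∫ z in N k, ‖κ' z‖ = 3 * ∫ z in N k, ‖κ z‖ := by
      rw [← integral_const_mul]
      apply integral_congr_ae
      filter_upwards [ae_restrict_of_ae e0] with z hz
      rw [hz, norm_mul, hn3]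
    rw [this]
    exact mul_le_mul_of_nonneg_left (hA k hk) (by norm_num)
  have key := sum_sq_kernel_le (κ := κ') hκ'i (h := fun z => h z / 3) (h' := fun k z => h' k z / 3)
    (by simpa only [div_eq_mul_inv] using hm.mul_const (3 : ℂ)⁻¹)
    (fun k => by simpa only [div_eq_mul_inv] using (hm' k).mul_const (3 : ℂ)⁻¹)
    (fun z => by rw [norm_div, hn3]; linarith [hb z]) (fun k z => by
      rw [norm_div, hn3]; linarith [hb' k z]) s N hN (B := B / 9) (by positivity) hA' ?_
  · simp only [e1]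
    refine key.trans (le_of_eq ?_)
    rw [e2]; ring
  · intro z hz
    have hzT : z ∉ T := by
      intro hzT
      apply hz
      simp only [hκ']
      rw [Set.indicator_of_notMem (by simpa using hzT), mul_zero]
    have hκz : κ z ≠ 0 := by
      intro h0
      apply hz
      simp only [hκ']
      rw [Set.indicator_of_mem (show z ∈ Tᶜ from hzT), h0, mul_zero]
    have h1 : z ∉ {z | ¬ (κ z ≠ 0 →
        ∑ k ∈ s, (N k)ᶜ.indicator (fun z => ‖h z - h' k z‖ ^ 2) z ≤ B)} := fun h2 =>
      hzT (subset_toMeasurable _ _ h2)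
    simp only [Set.mem_ofPred_eq, not_not] at h1
    have h3 := h1 hκz
    have h4 : ∑ k ∈ s, (N k)ᶜ.indicator (fun z => ‖h z / 3 - h' k z / 3‖ ^ 2) z =
        (∑ k ∈ s, (N k)ᶜ.indicator (fun z => ‖h z - h' k z‖ ^ 2) z) / 9 := by
      rw [Finset.sum_div]
      refine Finset.sum_congr rfl fun k _ => ?_
      by_cases hzk : z ∈ (N k)ᶜ
      · rw [Set.indicator_of_mem hzk, Set.indicator_of_mem hzk, ← sub_div, norm_div, hn3, div_pow]
        norm_num
      · rw [Set.indicator_of_notMem hzk, Set.indicator_of_notMem hzk, zero_div]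
    rw [h4]
    exact div_le_div_of_nonneg_right h3 (by norm_num)

variable {f : Pos × ℂ → ℂ} {κ : ℂ → ℂ} {Kf : Finset (ℤ × ℤ)} {p0 : Pos}

/-- frozen functional -/
def gF (f : Pos × ℂ → ℂ) (κ : ℂ → ℂ) (Kf : Finset (ℤ × ℤ)) (p0 : Pos) (p : Pos) : ℂ :=
  ∫ z, κ z * f (Kf.piecewise p p0, z)

lemma measurable_pw (Kf : Finset (ℤ × ℤ)) : Measurable fun q : Pos × Pos => Kf.piecewise q.1 q.2 := by
  rw [measurable_pi_iff]
  intro k
  by_cases hk : k ∈ Kf
  · have : (fun q : Pos × Pos => Kf.piecewise q.1 q.2 k) = fun q => q.1 k := by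
      funext q; exact Finset.piecewise_eq_of_mem _ _ _ hk
    rw [this]; fun_prop
  · have : (fun q : Pos × Pos => Kf.piecewise q.1 q.2 k) = fun q => q.2 k := by
      funext q; exact Finset.piecewise_eq_of_notMem _ _ _ hk
    rw [this]; fun_prop

lemma measurable_pw0 (Kf : Finset (ℤ × ℤ)) (p0 : Pos) :
    Measurable fun p : Pos => Kf.piecewise p p0 :=
  (measurable_pw Kf).comp (measurable_id.prodMk measurable_const)

lemma measurable_gF (hf : Measurable f) (hκ : Measurable κ) : Measurable (gF f κ Kf p0) := by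
  unfold gF
  have h1 : Measurable fun q : Pos × ℂ => κ q.2 * f (Kf.piecewise q.1 p0, q.2) := by
    refine (hκ.comp measurable_snd).mul (hf.comp ?_)
    exact ((measurable_pw0 Kf p0).comp measurable_fst).prodMk measurable_snd
  exact (h1.stronglyMeasurable.integral_prod_right' (ν := volume)).measurable

lemma norm_gF_le (hb : ∀ q, ‖f q‖ ≤ 3) (hκ : Integrable κ) (p : Pos) :
    ‖gF f κ Kf p0 p‖ ≤ 3 * ∫ z, ‖κ z‖ := by
  unfold gF
  refine (norm_integral_le_integral_norm _).trans ?_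
  rw [← integral_const_mul]
  apply integral_mono_of_nonneg (Filter.Eventually.of_forall fun z => norm_nonneg _)
    (hκ.norm.const_mul 3) (Filter.Eventually.of_forall fun z => ?_)
  simp only [norm_mul]
  rw [mul_comm]
  exact mul_le_mul_of_nonneg_right (hb _) (norm_nonneg _)

lemma gF_dep (x y : Pos) (h : ∀ i ∈ Kf, x i = y i) : gF f κ Kf p0 x = gF f κ Kf p0 y := by
  unfold gF
  have : Kf.piecewise x p0 = Kf.piecewise y p0 := by
    funext i
    by_cases hi : i ∈ Kf
    · rw [Finset.piecewise_eq_of_mem _ _ _ hi, Finset.piecewise_eq_of_mem _ _ _ hi, h i hi]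
    · rw [Finset.piecewise_eq_of_notMem _ _ _ hi, Finset.piecewise_eq_of_notMem _ _ _ hi]
  rw [this]

lemma pw_del {k : ℤ × ℤ} (hk : k ∈ Kf) (p : Pos) :
    Kf.piecewise (update p k (0, fun _ => 0)) p0 = del k (Kf.piecewise p p0) := by
  unfold Var2x831.del
  have := Finset.update_piecewise_of_mem (s := Kf) (f := p) (g := p0) hk ((0, fun _ => 0) : PB)
  exact this.symm

/-- **abstract concentration** -/
theorem conc (hf : Measurable f) (hb : ∀ q, ‖f q‖ ≤ 3) (hκm : Measurable κ) (hκ : Integrable κ)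
    (N : ℤ × ℤ → Set ℂ) (hN : ∀ k, MeasurableSet (N k)) {A B : ℝ} (hB : 0 ≤ B)
    (hA : ∀ k ∈ Kf, ∫ z in N k, ‖κ z‖ ≤ A) (GG : Set Pos)
    (hG : ∀ p ∈ GG, ∀ᵐ z, κ z ≠ 0 → ∑ k ∈ Kf, (N k)ᶜ.indicator (fun z =>
      ‖f (Kf.piecewise p p0, z) - f (del k (Kf.piecewise p p0), z)‖ ^ 2) z ≤ B) :
    ∫ p, ‖gF f κ Kf p0 p - ∫ y, gF f κ Kf p0 y ∂posLaw‖ ∂posLaw ≤
      √(4 * (2 * (∫ z, ‖κ z‖) ^ 2 * B + 72 * Kf.card * A ^ 2) +
        144 * Kf.card * (∫ z, ‖κ z‖) ^ 2 * (posLaw GGᶜ).toReal) := by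
  classical
  set m := ∫ z, ‖κ z‖ with hm
  have hm0 : 0 ≤ m := integral_nonneg fun z => norm_nonneg _
  set g := gF f κ Kf p0 with hg
  have hgm : Measurable g := measurable_gF hf hκm
  have hfz : ∀ p : Pos, Measurable fun z => f (p, z) := fun p => hf.comp (measurable_const.prodMk measurable_id)
  have hint : ∀ p : Pos, Integrable fun z => κ z * f (p, z) := fun p =>
    hκ.mul_bdd (c := 3) (hfz p).aestronglyMeasurable (Filter.Eventually.of_forall fun z => hb _)
  set V1 := 2 * m ^ 2 * B + 72 * (Kf.card : ℝ) * A ^ 2 with hV1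
  have hV10 : 0 ≤ V1 := by positivity
  -- pointwise bounds
  have hdiff : ∀ p : Pos, ∀ k ∈ Kf, g p - g (update p k (0, fun _ => 0)) =
      ∫ z, κ z * (f (Kf.piecewise p p0, z) - f (del k (Kf.piecewise p p0), z)) := by
    intro p k hk
    simp only [hg, gF]
    rw [pw_del hk, ← integral_sub (hint _) (hint _)]
    refine integral_congr_ae (Filter.Eventually.of_forall fun z => ?_)
    simp only
    ring
  have hgood : ∀ p ∈ GG, ∑ k ∈ Kf, ‖g p - g (update p k (0, fun _ => 0))‖ ^ 2 ≤ V1 := by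
    intro p hp
    rw [Finset.sum_congr rfl fun k hk => by rw [hdiff p k hk]]
    exact kernel_ae hκ (h := fun z => f (Kf.piecewise p p0, z))
      (h' := fun k z => f (del k (Kf.piecewise p p0), z)) (hfz _).aestronglyMeasurable
      (fun k => (hfz _).aestronglyMeasurable) (fun z => hb _) (fun k z => hb _) Kf N hN hB hA
      (hG p hp)
  have hall : ∀ p, ∑ k ∈ Kf, ‖g p - g (update p k (0, fun _ => 0))‖ ^ 2 ≤ Kf.card * (6 * m) ^ 2 := by
    intro p
    calc ∑ k ∈ Kf, ‖g p - g (update p k (0, fun _ => 0))‖ ^ 2 ≤ ∑ _k ∈ Kf, (6 * m) ^ 2 := by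
          refine Finset.sum_le_sum fun k _ => pow_le_pow_left₀ (norm_nonneg _) ?_ 2
          have h1 := norm_sub_le (g p) (g (update p k (0, fun _ => 0)))
          have h2 : ‖g p‖ ≤ 3 * m := norm_gF_le hb hκ _
          have h3 : ‖g (update p k (0, fun _ => 0))‖ ≤ 3 * m := norm_gF_le hb hκ _
          linarith
      _ = Kf.card * (6 * m) ^ 2 := by rw [Finset.sum_const, nsmul_eq_mul]
  -- Efron-Stein
  have h1 := cvar_le pbLaw hgm Kf (fun x y h => gF_dep x y h) (0, fun _ => 0)
  change cvar posLaw g ≤ _ at h1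
  have hgk : ∀ k, Measurable fun p : Pos =>
      ENNReal.ofReal (‖g p - g (update p k (0, fun _ => 0))‖ ^ 2) := by
    intro k
    have hup : Measurable (fun p : Pos => update p k ((0, fun _ => 0) : PB)) :=
      measurable_update'.comp (measurable_id.prodMk measurable_const)
    exact ((hgm.sub (hgm.comp hup)).norm.pow_const 2).ennreal_ofReal
  have h2 : ∑ k ∈ Kf, ∫⁻ p, ENNReal.ofReal (‖g p - g (update p k (0, fun _ => 0))‖ ^ 2) ∂posLaw ≤
      ENNReal.ofReal (V1 + Kf.card * (6 * m) ^ 2 * (posLaw GGᶜ).toReal) := by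
    rw [← lintegral_finsetSum _ fun k _ => hgk k]
    set T := toMeasurable posLaw GGᶜ with hT
    have hTm : MeasurableSet T := measurableSet_toMeasurable _ _
    calc ∫⁻ p, ∑ k ∈ Kf, ENNReal.ofReal (‖g p - g (update p k (0, fun _ => 0))‖ ^ 2) ∂posLaw
        ≤ ∫⁻ p, (ENNReal.ofReal V1 + T.indicator (fun _ => ENNReal.ofReal (Kf.card * (6 * m) ^ 2)) p)
            ∂posLaw := by
          apply lintegral_mono
          intro p
          simp only
          rw [← ENNReal.ofReal_sum_of_nonneg fun k _ => by positivity]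
          by_cases hp : p ∈ T
          · rw [Set.indicator_of_mem hp]
            exact (ENNReal.ofReal_le_ofReal (hall p)).trans le_add_self
          · rw [Set.indicator_of_notMem hp, add_zero]
            have hpG : p ∈ GG := by
              by_contra hn
              exact hp (subset_toMeasurable _ _ hn)
            exact ENNReal.ofReal_le_ofReal (hgood p hpG)
      _ = ENNReal.ofReal V1 + ENNReal.ofReal (Kf.card * (6 * m) ^ 2) * posLaw GGᶜ := by
          rw [lintegral_add_left measurable_const, lintegral_indicator hTm, lintegral_const,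
            measure_univ, mul_one, setLIntegral_const, hT, measure_toMeasurable]
      _ = ENNReal.ofReal (V1 + Kf.card * (6 * m) ^ 2 * (posLaw GGᶜ).toReal) := by
          rw [ENNReal.ofReal_add hV10 (by positivity),
            ENNReal.ofReal_mul (p := (Kf.card : ℝ) * (6 * m) ^ 2) (by positivity),
            ENNReal.ofReal_toReal (measure_ne_top _ _)]
  have h3 : cvar posLaw g ≤ ENNReal.ofReal (4 * (V1 + Kf.card * (6 * m) ^ 2 *
      (posLaw GGᶜ).toReal)) := by
    refine h1.trans ?_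
    rw [ENNReal.ofReal_mul (by norm_num)]
    have : ENNReal.ofReal 4 = 4 := by norm_num
    rw [this]
    exact mul_le_mul_right h2 4
  have h4 := int_norm_le posLaw hgm (C := 3 * m) (fun x => norm_gF_le hb hκ x) (by positivity) h3
  refine h4.trans (le_of_eq ?_)
  congr 1
  ring

end Crest.Agent.R143.Y9Ax831
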