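import Crest.Agent.R143.Y9D_831
import Crest.Agent.R143.Y9A_831

/-!
# R143, block Y (helper831): positions of a sample, freezing, transfer of probabilities
-/

set_option autoImplicit false

noncomputable section

open scoped Classical

namespace Crest.Agent.R143.Y9Bx831

open MeasureTheory Set Filter Topology Function
open Crest.ProbabilityR.Voronoi
open Crest.Agent.R143.B0x346 Crest.Agent.R143.B0Dx346 Crest.Agent.R143.PP1x831
open Crest.Agent.R143.Y0x831 Crest.Agent.R143.Lawx831 Crest.Agent.R143.Y5Dx831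
open Crest.Agent.R143.Y8Dx831 Crest.Agent.R143.Y1x126 Crest.Agent.R143.Y9Ax831
open scoped ENNReal

local notation "smk" => Crest.Agent.R143.Lawx831.mk

/-- positions of a sample -/
def posOf (ω : Sample) : Pos := fun k => (ω.1 k, fun j => (ω.2 k j 0, ω.2 k j 1))

/-- colours of a sample -/
def colOf (ω : Sample) : Col := fun i => ω.2 i.1 i.2 2

lemma mk_posOf (ω : Sample) : smk (posOf ω) (colOf ω) = ω := by
  unfold Lawx831.mk posOf colOf
  refine Prod.ext rfl ?_
  funext k j i
  fin_cases i <;> rfl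

lemma posOf_mk (p : Pos) (c : Col) : posOf (smk p c) = p := by
  unfold Lawx831.mk posOf
  funext k
  refine Prod.ext rfl ?_
  funext j
  rfl

lemma measurable_posOf : Measurable posOf := by
  unfold posOf
  rw [measurable_pi_iff]
  intro k
  refine Measurable.prodMk ?_ ?_
  · exact (measurable_pi_apply k).comp measurable_fst
  · rw [measurable_pi_iff]
    intro j
    have h : ∀ i : Fin 3, Measurable fun ω : Sample => ω.2 k j i := fun i =>
      (measurable_pi_apply i).comp ((measurable_pi_apply j).comp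
        ((measurable_pi_apply k).comp measurable_snd))
    exact (h 0).prodMk (h 1)

lemma posOf_mp : MeasurePreserving posOf sampleLaw posLaw := by
  refine mp_of_comp mp_mk measurable_posOf ?_
  have : posOf ∘ (fun q : Pos × Col => smk q.1 q.2) = Prod.fst := by
    funext q; exact posOf_mk q.1 q.2
  rw [this]
  exact measurePreserving_fst

/-- **transfer**: an event which does not depend on the colours -/
theorem pos_of_sample (E : Sample → Prop) (hE : ∀ p c c', E (smk p c) → E (smk p c')) :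
    posLaw {p | ¬ E (smk p fun _ => 0)} ≤ sampleLaw {ω | ¬ E ω} := by
  set T := toMeasurable sampleLaw {ω | ¬ E ω} with hT
  have hTm : MeasurableSet T := measurableSet_toMeasurable _ _
  have h1 : sampleLaw T = ∫⁻ c, posLaw {p | smk p c ∈ T} ∂colLaw := by
    have h2 := mp_mk.measure_preimage hTm.nullMeasurableSet
    rw [← h2]
    have h3 : MeasurableSet ((fun q : Pos × Col => smk q.1 q.2) ⁻¹' T) := measurable_mk hTm
    rw [Measure.prod_apply_symm h3]
    rfl
  have hm : Measurable fun c : Col => posLaw {p | smk p c ∈ T} := by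
    have h3 : MeasurableSet ((fun q : Pos × Col => smk q.1 q.2) ⁻¹' T) := measurable_mk hTm
    exact measurable_measure_prodMk_right h3
  obtain ⟨c, hc⟩ := exists_le_lintegral (μ := colLaw) hm.aemeasurable
  rw [← h1] at hc
  calc posLaw {p | ¬ E (smk p fun _ => 0)} ≤ posLaw {p | smk p c ∈ T} := by
        apply measure_mono
        intro p hp
        exact subset_toMeasurable _ _ fun h4 => hp (hE p c _ h4)
    _ ≤ sampleLaw T := hc
    _ = sampleLaw {ω | ¬ E ω} := measure_toMeasurable _

theorem pos_of_sample_ae (E : Sample → Prop) (hE : ∀ p c c', E (smk p c) → E (smk p c'))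
    (h : ∀ᵐ ω ∂sampleLaw, E ω) : ∀ᵐ p ∂posLaw, E (smk p fun _ => 0) := by
  rw [ae_iff] at h ⊢
  exact le_antisymm ((pos_of_sample E hE).trans h.le) bot_le

/-- the Finset version of the square -/
def KF (n : ℤ) : Finset (ℤ × ℤ) := Finset.Ico (-n) n ×ˢ Finset.Ico (-n) n

lemma mem_KF {n : ℤ} {k : ℤ × ℤ} : k ∈ KF n ↔ k ∈ Ksq n := by
  unfold KF Ksq
  simp only [Finset.mem_product, Finset.mem_Ico, Set.mem_prod, Set.mem_Ico]

/-- resampling -/
theorem mp_pw (Kf : Finset (ℤ × ℤ)) :
    MeasurePreserving (fun q : Pos × Pos => Kf.piecewise q.1 q.2) (posLaw.prod posLaw) posLaw := by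
  have h := mp_pieceS pbLaw (Kf : Set (ℤ × ℤ))
  have e : (fun q : Pos × Pos => Kf.piecewise q.1 q.2) =
      fun (p : Pos × Pos) (i : ℤ × ℤ) =>
        @ite PB (i ∈ (Kf : Set (ℤ × ℤ))) (Classical.propDecidable _) (p.1 i) (p.2 i) := by
    funext q i
    by_cases hi : i ∈ Kf
    · rw [Finset.piecewise_eq_of_mem _ _ _ hi, if_pos (Finset.mem_coe.2 hi)]
    · rw [Finset.piecewise_eq_of_notMem _ _ _ hi, if_neg (fun h => hi (Finset.mem_coe.1 h))]
  rw [e]
  exact h

/-- **freezing** -/
theorem exists_freeze (Kf : Finset (ℤ × ℤ)) (Q : Pos → Prop) :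
    ∃ p0 : Pos, posLaw {p | ¬ Q (Kf.piecewise p p0)} ≤ posLaw {p | ¬ Q p} := by
  set T := toMeasurable posLaw {p | ¬ Q p} with hT
  have hTm : MeasurableSet T := measurableSet_toMeasurable _ _
  have hmp := mp_pw Kf
  have hpre : MeasurableSet ((fun q : Pos × Pos => Kf.piecewise q.1 q.2) ⁻¹' T) :=
    hmp.measurable hTm
  have h1 : posLaw T = ∫⁻ p0, posLaw {p | Kf.piecewise p p0 ∈ T} ∂posLaw := by
    have h2 := hmp.measure_preimage hTm.nullMeasurableSet
    rw [← h2, Measure.prod_apply_symm hpre]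
    rfl
  have hm : Measurable fun p0 : Pos => posLaw {p | Kf.piecewise p p0 ∈ T} :=
    measurable_measure_prodMk_right hpre
  obtain ⟨p0, hp0⟩ := exists_le_lintegral (μ := posLaw) hm.aemeasurable
  rw [← h1] at hp0
  refine ⟨p0, ?_⟩
  calc posLaw {p | ¬ Q (Kf.piecewise p p0)} ≤ posLaw {p | Kf.piecewise p p0 ∈ T} :=
        measure_mono fun p hp => subset_toMeasurable _ _ hp
    _ ≤ posLaw T := hp0
    _ = posLaw {p | ¬ Q p} := measure_toMeasurable _

lemma posOf_fr (n : ℤ) (ω : Sample) (p0 : Pos) :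
    posOf (fr (Ksq n) ω (smk p0 fun _ => 0)) = (KF n).piecewise (posOf ω) p0 := by
  funext k
  by_cases hk : k ∈ KF n
  · rw [Finset.piecewise_eq_of_mem _ _ _ hk]
    have := mem_KF.1 hk
    unfold posOf fr
    simp only [this, if_true]
  · rw [Finset.piecewise_eq_of_notMem _ _ _ hk]
    have h2 : k ∉ Ksq n := fun h => hk (mem_KF.2 h)
    unfold posOf fr Lawx831.mk
    simp only [h2, if_false]
    rfl

/-! ### dependence on the positions only -/

lemma points_posOf (ε : ℝ) (ω : Sample) : points ε ω = points ε (smk (posOf ω) fun _ => 0) := by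
  conv_lhs => rw [← mk_posOf ω]
  rw [points_mk, points_mk]

lemma sites_congr {D : Dom} {ε : ℝ} {ω ω' : Sample} (h : points ε ω = points ε ω') :
    D.sites ε ω = D.sites ε ω' := by
  unfold Dom.sites
  simp only [h]

lemma h_congr {D : Dom} {ε : ℝ} {ω ω' : Sample} (h : points ε ω = points ε ω') :
    D.h ε ω = D.h ε ω' := by
  funext z
  unfold Dom.h
  rw [sites_congr h]

lemma Env_congr {ε d M L : ℝ} {c : ℂ} {ω ω' : Sample} (h : points ε ω = points ε ω')
    (hE : Env ε d M c L ω) : Env ε d M c L ω' :=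
  ⟨h ▸ hE.fin, h ▸ hE.gp, h ▸ hE.hole, h ▸ hE.cnt⟩

lemma Good_congr {D : Dom} {ε C K a C4 : ℝ} {ω ω' : Sample} (h : points ε ω = points ε ω')
    (hE : Good D ε C K a C4 ω) : Good D ε C K a C4 ω' :=
  ⟨Env_congr h hE.env, h ▸ hE.diam⟩

lemma GoodB_congr {R ε C K a C4 : ℝ} {ω ω' : Sample} (h : points ε ω = points ε ω')
    (hE : B6Ix903.GoodB R ε C K a C4 ω) : B6Ix903.GoodB R ε C K a C4 ω' :=
  ⟨Env_congr h hE.env, h ▸ hE.diam⟩

/-- good in a large disc implies good in a smaller concentric disc -/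
lemma GoodB.good {D : Dom} {R ε C K a C4 : ℝ} {ω : Sample} (h : B6Ix903.GoodB R ε C K a C4 ω)
    (hc : D.c = 0) (hL : D.L ≤ R) : Good D ε C K a C4 ω := by
  have h1 : Metric.closedBall D.c D.L ⊆ Metric.closedBall (0 : ℂ) R := by
    rw [hc]; exact Metric.closedBall_subset_closedBall hL
  refine ⟨⟨h.env.fin.subset (Set.inter_subset_inter_right _ h1), h.env.gp, ?_, ?_⟩, ?_⟩
  · intro z hz
    refine h.env.hole z ?_
    rw [hc] at hz
    exact Metric.closedBall_subset_closedBall (by linarith) hz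
  · exact fun z hz => h.env.cnt z (h1 hz)
  · exact fun z hz => h.diam z (h1 hz)

end Crest.Agent.R143.Y9Bx831
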