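import Crest.Agent.R143.Y9B_831

/-!
# R143, block Y (helper831): the pointwise bound for good positions
-/

set_option autoImplicit false

noncomputable section

open scoped Classical

namespace Crest.Agent.R143.Y9Cx831

open MeasureTheory Set Filter Topology Function
open Crest.ProbabilityR.Voronoi
open Crest.Agent.R143.B0x346 Crest.Agent.R143.B0Dx346 Crest.Agent.R143.PP1x831
open Crest.Agent.R143.Y0x831 Crest.Agent.R143.Lawx831 Crest.Agent.R143.Y5Dx831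
open Crest.Agent.R143.Varx831 Crest.Agent.R143.Var3x831
open Crest.Agent.R143.Y6Ax831 Crest.Agent.R143.Y6Bx831 Crest.Agent.R143.B1cx796
open Crest.Agent.R143.Y8Dx831 Crest.Agent.R143.Y9Ax831 Crest.Agent.R143.Y9Bx831
open scoped ENNReal

local notation "smk" => Crest.Agent.R143.Lawx831.mk
local notation "Tk" => Crest.Agent.R143.Var2x831.Tk
local notation "del" => Crest.Agent.R143.Var2x831.del

/-- corner of the cell `k` -/
def crn (ε : ℝ) (k : ℤ × ℤ) : ℂ := (ε : ℂ) * (((k.1 : ℝ) : ℂ) + ((k.2 : ℝ) : ℂ) * Complex.I)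

lemma crn_mem {ε : ℝ} (hε : 0 < ε) {k : ℤ × ℤ} {w : ℂ} (hw : w ∈ cellS ε k) :
    ‖w - crn ε k‖ ≤ 2 * ε := by
  obtain ⟨x, y, hx0, hx1, hy0, hy1, rfl⟩ := hw
  have e : (ε : ℂ) * ((((k.1 : ℝ) + x : ℝ) : ℂ) + (((k.2 : ℝ) + y : ℝ) : ℂ) * Complex.I) - crn ε k =
      (ε : ℂ) * ((x : ℂ) + (y : ℂ) * Complex.I) := by
    unfold crn; push_cast; ring
  rw [e, norm_mul, Complex.norm_real, Real.norm_eq_abs, abs_of_pos hε]
  have h1 : ‖(x : ℂ) + (y : ℂ) * Complex.I‖ ≤ 2 := by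
    refine (norm_add_le _ _).trans ?_
    rw [norm_mul, Complex.norm_I, mul_one, Complex.norm_real, Complex.norm_real, Real.norm_eq_abs,
      Real.norm_eq_abs, abs_of_nonneg hx0, abs_of_nonneg hy0]
    linarith
  nlinarith

/-- near set of the block `k` -/
def Nr (ε d : ℝ) (k : ℤ × ℤ) : Set ℂ := Metric.closedBall (crn ε k) (7 * d)

lemma far_of_notMem {ε d : ℝ} (hε : 0 < ε) (hd : ε ≤ d) {k : ℤ × ℤ} {z : ℂ}
    (hz : z ∈ (Nr ε d k)ᶜ) : ∀ w ∈ cellS ε k, 5 * d ≤ ‖z - w‖ := by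
  intro w hw
  have h1 : 7 * d < ‖z - crn ε k‖ := by
    have : ¬ (dist z (crn ε k) ≤ 7 * d) := hz
    rw [dist_eq_norm, not_le] at this
    exact this
  have h2 := crn_mem hε hw
  have h3 : ‖z - crn ε k‖ ≤ ‖z - w‖ + ‖w - crn ε k‖ := norm_sub_le_norm_sub_add_norm_sub z w _
  linarith

lemma cell_sub {ε R1 : ℝ} (hε : 0 < ε) (hR : 0 < R1) {k : ℤ × ℤ} (hk : k ∈ KF ⌊R1 / ε⌋) :
    cellS ε k ⊆ Metric.closedBall (0 : ℂ) (2 * R1) := by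
  rintro w ⟨x, y, hx0, hx1, hy0, hy1, rfl⟩
  rw [mem_KF] at hk
  obtain ⟨⟨a1, a2⟩, b1, b2⟩ := hk
  have hn : ((⌊R1 / ε⌋ : ℤ) : ℝ) * ε ≤ R1 := by
    have := Int.floor_le (R1 / ε)
    calc ((⌊R1 / ε⌋ : ℤ) : ℝ) * ε ≤ R1 / ε * ε := mul_le_mul_of_nonneg_right this hε.le
      _ = R1 := by field_simp
  have aux : ∀ (m : ℤ) (x : ℝ), -⌊R1 / ε⌋ ≤ m → m < ⌊R1 / ε⌋ → 0 ≤ x → x ≤ 1 →
      |ε * ((m : ℝ) + x)| ≤ R1 := by
    intro m x h1 h2 h3 h4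
    have h5 : (-(⌊R1 / ε⌋ : ℤ) : ℝ) ≤ (m : ℝ) := by exact_mod_cast h1
    have h6 : (m : ℝ) + 1 ≤ ((⌊R1 / ε⌋ : ℤ) : ℝ) := by exact_mod_cast h2
    rw [abs_le]
    constructor
    · have h7 : -((⌊R1 / ε⌋ : ℤ) : ℝ) ≤ (m : ℝ) + x := by linarith
      have h8 : ε * (-((⌊R1 / ε⌋ : ℤ) : ℝ)) ≤ ε * ((m : ℝ) + x) :=
        mul_le_mul_of_nonneg_left h7 hε.le
      nlinarith
    · have h7 : (m : ℝ) + x ≤ ((⌊R1 / ε⌋ : ℤ) : ℝ) := by linarith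
      have h8 : ε * ((m : ℝ) + x) ≤ ε * ((⌊R1 / ε⌋ : ℤ) : ℝ) :=
        mul_le_mul_of_nonneg_left h7 hε.le
      nlinarith
  have e1 := aux k.1 x a1 a2 hx0 hx1
  have e2 := aux k.2 y b1 b2 hy0 hy1
  rw [Metric.mem_closedBall, dist_zero_right]
  refine (Complex.norm_le_abs_re_add_abs_im _).trans ?_
  have r1 : ((ε : ℂ) * ((((k.1 : ℝ) + x : ℝ) : ℂ) + (((k.2 : ℝ) + y : ℝ) : ℂ) * Complex.I)).re =
      ε * ((k.1 : ℝ) + x) := by simp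
  have r2 : ((ε : ℂ) * ((((k.1 : ℝ) + x : ℝ) : ℂ) + (((k.2 : ℝ) + y : ℝ) : ℂ) * Complex.I)).im =
      ε * ((k.2 : ℝ) + y) := by simp
  rw [r1, r2]
  linarith

/-- a point of the block `k` lies in the cell `k` -/
lemma ptP_mem (ε : ℝ) (p : Pos) (i : Idx) : ptP ε p i ∈ cellS ε i.1 := by
  refine ⟨((p i.1).2 i.2).1, ((p i.1).2 i.2).2, ((p i.1).2 i.2).1.2.1, ((p i.1).2 i.2).1.2.2,
    ((p i.1).2 i.2).2.2.1, ((p i.1).2 i.2).2.2.2, ?_⟩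
  unfold ptP point Lawx831.mk
  simp

/-- the good positions -/
structure GQ (D : Dom) (Rb R1 ε C K a C4 : ℝ) (M : ℕ) (p : Pos) : Prop where
  good : B6Ix903.GoodB Rb ε C K a C4 (smk p fun _ => 0)
  inj : InjP ε p
  ray : ∀ k : ZMod 3, ∀ v ∈ points ε (smk p fun _ => 0), ∀ t : ℝ, v ≠ D.c + t * D.q k
  num : ∀ k ∈ KF ⌊R1 / ε⌋, (p k).1 ≤ M

/-- the proved leaves -/
structure YL : Prop where
  h3 : Y3
  h3s : Y3s
  h4 : Y4
  h4a : Y4a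
  h5a : Y5a
  h5b : Y5b
  h5c : Y5c

/-- what `Y8` says for one `p` -/
structure Y8c (D : Dom) (R1 ε d : ℝ) (p : Pos) : Prop where
  yg : YG D ε p
  ae : ∀ᵐ z : ℂ, ‖z - D.c‖ < R1 → ∃ t ∈ delT (SP D ε p), z ∈ opn t
  blk : ∀ k' : ℤ × ℤ, cellS ε k' ⊆ Metric.closedBall D.c (2 * R1) →
      YG D ε (del k' p) ∧ BlkOK D ε p k' ∧
      (∃ M' : ℝ, Env ε (3 * d) M' D.c D.L (smk (del k' p) fun _ => 0))
  tri : ∀ z : ℂ, ‖z - D.c‖ < R1 → ∀ t ∈ delT (SP D ε p), z ∈ opn t →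
      (∀ x ∈ ({t.1, t.2.1, t.2.2} : Set ℂ), x ∈ Metric.closedBall D.c (2 * R1)) ∧
      ∃ s0 s1 s2 : ℂ × ℂ × ℂ, ∀ k' : ℤ × ℤ, cellS ε k' ⊆ Metric.closedBall D.c (2 * R1) →
        (∀ w ∈ cellS ε k', 5 * d ≤ ‖z - w‖) → TriD D ε p k' t s0 s1 s2

/-- the one-arm bound for one `p` -/
def OAc (D : Dom) (R1 ε δ : ℝ) (p : Pos) : Prop := ∀ v ∈ SP D ε p,
  Metric.closedBall v R1 ∩ D.out = ∅ → Metric.closedBall v R1 ⊆ Metric.closedBall D.c (D.L / 2) →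
    ∀ k : ZMod 3, (((IP D ε p).powerset.filter fun β =>
      Tch (NP D ε p).toTrg (Cl (NP D ε p).toTrg (wK (NP D ε p) k (β : Set ℂ))
        ((NP D ε p).ex (k + 1)).2) v).card : ℝ) ≤ δ * 2 ^ (IP D ε p).card

variable {D : Dom} {Rb R1 ε C K a C4 d δ : ℝ} {M : ℕ} {p : Pos}

/-- **the pointwise bound** -/
theorem far_bound (hL : YL) (hc : D.c = 0) (hF : Free1 D R1) (hε : 0 < ε) (hd : ε ≤ d)
    (h8 : Y8c D R1 ε d p) (hOA : OAc D R1 ε δ p) (hδ : 0 ≤ δ)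
    (hnum : ∀ k ∈ KF ⌊R1 / ε⌋, (p k).1 ≤ M) {f : Pos × ℂ → ℂ}
    (hf : ∀ z, f (p, z) = hval (NP D ε p) z)
    (hf' : ∀ k ∈ KF ⌊R1 / ε⌋, ∀ z, f (del k p, z) = hval (NP D ε (del k p)) z) :
    ∀ᵐ z : ℂ, ‖z‖ < R1 → ∑ k ∈ KF ⌊R1 / ε⌋, (Nr ε d k)ᶜ.indicator (fun z =>
      ‖f (p, z) - f (del k p, z)‖ ^ 2) z ≤ 81 * (4 ^ M * M) * (4 * δ) := by
  filter_upwards [h8.ae] with z hz hzR
  have hz0 : ‖z - D.c‖ < R1 := by rw [hc, sub_zero]; exact hzR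
  obtain ⟨t, ht, hzt⟩ := hz hz0
  obtain ⟨hV, s0, s1, s2, hT⟩ := h8.tri z hz0 t ht hzt
  set B := (KF ⌊R1 / ε⌋).filter fun k => z ∈ (Nr ε d k)ᶜ with hB
  have hcell : ∀ k ∈ KF ⌊R1 / ε⌋, cellS ε k ⊆ Metric.closedBall D.c (2 * R1) := by
    intro k hk
    rw [hc]; exact cell_sub hε hF.pos hk
  have e1 : ∑ k ∈ KF ⌊R1 / ε⌋, (Nr ε d k)ᶜ.indicator (fun z =>
      ‖f (p, z) - f (del k p, z)‖ ^ 2) z =
      ∑ k ∈ B, ‖hval (NP D ε p) z - hval (NP D ε (del k p)) z‖ ^ 2 := by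
    rw [hB, Finset.sum_filter]
    refine Finset.sum_congr rfl fun k hk => ?_
    by_cases hzk : z ∈ (Nr ε d k)ᶜ
    · rw [Set.indicator_of_mem hzk, if_pos hzk, hf, hf' k hk]
    · rw [Set.indicator_of_notMem hzk, if_neg hzk]
  rw [e1]
  have hBm : ∀ k ∈ B, k ∈ KF ⌊R1 / ε⌋ ∧ z ∈ (Nr ε d k)ᶜ := fun k hk => Finset.mem_filter.1 hk
  have hball : ∀ v ∈ Metric.closedBall D.c (2 * R1),
      Metric.closedBall v R1 ∩ D.out = ∅ ∧
        Metric.closedBall v R1 ⊆ Metric.closedBall D.c (D.L / 2) := by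
    intro v hv
    rw [Metric.mem_closedBall] at hv
    have h1 : Metric.closedBall v R1 ⊆ Metric.closedBall D.c (4 * R1) :=
      Metric.closedBall_subset_closedBall' (by linarith [hF.pos])
    refine ⟨?_, Metric.closedBall_subset_closedBall' (by linarith [hF.pos, hF.le])⟩
    have := Set.inter_subset_inter_left D.out h1
    rw [hF.out] at this
    exact Set.subset_empty_iff.1 this
  refine sum_hval_le hL.h3 hL.h3s hL.h4 hL.h4a hL.h5a hL.h5b hε h8.yg B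
    (fun k hk => (h8.blk k (hcell k (hBm k hk).1)).1)
    (fun k hk => (h8.blk k (hcell k (hBm k hk).1)).2.1) hzt (s0 := s0) (s1 := s1) (s2 := s2)
    (fun k hk => hT k (hcell k (hBm k hk).1) (far_of_notMem hε hd (hBm k hk).2))
    (fun k hk => hnum k (hBm k hk).1) (by positivity) ?_
  intro x hx y hy tt htt k hk i hi j
  have hik := Var2x831.mem_Tk.1 hi
  have hmem : ptP ε p i ∈ Metric.closedBall D.c (2 * R1) := by
    have h1 := ptP_mem ε p i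
    rw [hik.1] at h1
    exact hcell k (hBm k hk).1 h1
  refine hL.h5c D ε p hε h8.yg.inj h8.yg.hnet h8.yg.arc (SP_sub h8.yg.fin) x y tt htt j δ
    (Metric.closedBall D.c (2 * R1)) (hV x hx) (hV y hy) ?_ i hmem
  intro v hv hvI
  have hvS : v ∈ SP D ε p := (Finset.mem_filter.1 hvI).1
  exact hOA v hvS (hball v hv).1 (hball v hv).2 j

end Crest.Agent.R143.Y9Cx831
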