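import Crest.Agent.R143.Y9E_831

/-!
# R143, block Y (helper831): the numerical estimate
-/

set_option autoImplicit false

noncomputable section

namespace Crest.Agent.R143.Y9Nx831

open Set Filter Topology
open Crest.Agent.R143.Y9Ex831 Crest.Agent.R143.Mollx887 Crest.Agent.R143.B6x654

theorem aux {Kc e g T ε : ℝ} (h0 : 0 < ε) (h1 : Kc * 768 * ε ^ e ≤ 1) (h2 : T ≤ Kc * ε ^ (e + g)) :
    T ≤ ε ^ g / 768 := by
  rw [Real.rpow_add h0] at h2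
  have hg : 0 < ε ^ g := Real.rpow_pos_of_pos h0 _
  have h3 : Kc * (ε ^ e * ε ^ g) = (Kc * 768 * ε ^ e) * (ε ^ g / 768) := by ring
  rw [h3] at h2
  refine h2.trans ?_
  calc (Kc * 768 * ε ^ e) * (ε ^ g / 768) ≤ 1 * (ε ^ g / 768) :=
        mul_le_mul_of_nonneg_right h1 (by positivity)
    _ = ε ^ g / 768 := one_mul _

/-- the exponent of the concentration -/
def cc (c : ℝ) : ℝ := min c 1 / 8

theorem cc_pos {c : ℝ} (hc : 0 < c) : 0 < cc c := by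
  unfold cc
  have : 0 < min c 1 := lt_min hc one_pos
  linarith

theorem ev_num {c κ R1 : ℝ} (hc : 0 < c) (hκ : 0 < κ) (hκ4 : κ < 1 / 4) (hR : 0 < R1) :
    ∀ᶠ ε : ℝ in 𝓝[>] 0, ∀ cd d MM β : ℝ, 0 ≤ cd → cd ≤ 4 * R1 ^ 2 * ε ^ (-2 : ℝ) → 0 ≤ d →
      d ≤ ε ^ (15 / 16 : ℝ) → 0 ≤ MM → MM ≤ ε ^ (-(3 * (c / 16))) → 0 ≤ β → β ≤ ε ^ (28 : ℝ) →
      √(4 * (2 * (CS / ε ^ κ) ^ 2 * (81 * MM * (4 * ε ^ c)) +
          72 * cd * (Lk / (ε ^ κ) ^ 3 * (Real.pi * (7 * d) ^ 2)) ^ 2) +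
        144 * cd * (CS / ε ^ κ) ^ 2 * β) ≤ ε ^ (cc c - 2 * κ) / 16 := by
  have hcc0 := cc_pos hc
  have hcc1 : cc c ≤ c / 8 := by unfold cc; linarith [min_le_left c 1]
  have hcc2 : cc c ≤ 1 / 8 := by unfold cc; linarith [min_le_right c 1]
  set g := 2 * cc c - 4 * κ with hg
  set e1 := 13 * c / 16 - 2 * κ - g with he1
  set e2 := -2 + 15 / 4 - 6 * κ - g with he2
  set e3 := 26 - 2 * κ - g with he3
  have p1 : 0 < e1 := by rw [he1, hg]; linarith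
  have p2 : 0 < e2 := by rw [he2, hg]; linarith
  have p3 : 0 < e3 := by rw [he3, hg]; linarith
  have h0 : ∀ᶠ ε : ℝ in 𝓝[>] 0, 0 < ε := eventually_mem_nhdsWithin
  filter_upwards [h0, ev_rpow_le p1 (2592 * CS ^ 2 * 768),
    ev_rpow_le p2 ((288 * (4 * R1 ^ 2) * (Lk * (Real.pi * 49)) ^ 2) * 768),
    ev_rpow_le p3 ((144 * (4 * R1 ^ 2) * CS ^ 2) * 768)] with ε e0 k1 k2 k3
  intro cd d MM β hcd0 hcd hd0 hd hM0 hM hβ0 hβ
  have hCS := CS_nonneg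
  have hLk := Lk_nonneg
  have r1 : (ε ^ κ) ^ 2 = ε ^ (2 * κ) := by
    rw [← Real.rpow_natCast, ← Real.rpow_mul e0.le]; congr 1; push_cast; ring
  have r3 : (ε ^ κ) ^ 3 = ε ^ (3 * κ) := by
    rw [← Real.rpow_natCast, ← Real.rpow_mul e0.le]; congr 1; push_cast; ring
  have m2 : (CS / ε ^ κ) ^ 2 = CS ^ 2 * ε ^ (-(2 * κ)) := by
    rw [div_pow, r1, Real.rpow_neg e0.le, div_eq_mul_inv]
  -- term 1
  have t1 : 4 * (2 * (CS / ε ^ κ) ^ 2 * (81 * MM * (4 * ε ^ c))) ≤ ε ^ g / 768 := by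
    refine aux e0 k1 ?_
    have a1 : ε ^ (e1 + g) = ε ^ (-(2 * κ)) * (ε ^ (-(3 * (c / 16))) * ε ^ c) := by
      rw [← Real.rpow_add e0, ← Real.rpow_add e0]; congr 1; rw [he1]; ring
    rw [a1, m2]
    have b1 : 0 ≤ CS ^ 2 * ε ^ (-(2 * κ)) := by positivity
    have b2 : MM * ε ^ c ≤ ε ^ (-(3 * (c / 16))) * ε ^ c :=
      mul_le_mul_of_nonneg_right hM (by positivity)
    nlinarith [mul_le_mul_of_nonneg_left b2 b1]
  -- term 2
  have t2 : 4 * (72 * cd * (Lk / (ε ^ κ) ^ 3 * (Real.pi * (7 * d) ^ 2)) ^ 2) ≤ ε ^ g / 768 := by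
    refine aux e0 k2 ?_
    have hdd : d ^ 2 ≤ ε ^ (15 / 8 : ℝ) := by
      have : ε ^ (15 / 8 : ℝ) = (ε ^ (15 / 16 : ℝ)) ^ 2 := by
        rw [← Real.rpow_natCast, ← Real.rpow_mul e0.le]; norm_num
      rw [this]; exact pow_le_pow_left₀ hd0 hd 2
    have hA0 : 0 ≤ Lk / (ε ^ κ) ^ 3 * (Real.pi * (7 * d) ^ 2) := by positivity
    have hA : Lk / (ε ^ κ) ^ 3 * (Real.pi * (7 * d) ^ 2) ≤
        (Lk * (Real.pi * 49)) * ε ^ (15 / 8 - 3 * κ) := by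
      have : Lk / (ε ^ κ) ^ 3 * (Real.pi * (7 * d) ^ 2) =
          (Lk * (Real.pi * 49)) * (ε ^ (-(3 * κ)) * d ^ 2) := by
        rw [r3, Real.rpow_neg e0.le, div_eq_mul_inv]; ring
      rw [this]
      refine mul_le_mul_of_nonneg_left ?_ (by positivity)
      have e : ε ^ (15 / 8 - 3 * κ) = ε ^ (-(3 * κ)) * ε ^ (15 / 8 : ℝ) := by
        rw [← Real.rpow_add e0]; congr 1; ring
      rw [e]
      exact mul_le_mul_of_nonneg_left hdd (by positivity)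
    have hA2 : (Lk / (ε ^ κ) ^ 3 * (Real.pi * (7 * d) ^ 2)) ^ 2 ≤
        (Lk * (Real.pi * 49)) ^ 2 * ε ^ (15 / 4 - 6 * κ) := by
      refine (pow_le_pow_left₀ hA0 hA 2).trans (le_of_eq ?_)
      rw [mul_pow, ← Real.rpow_natCast (ε ^ (15 / 8 - 3 * κ)), ← Real.rpow_mul e0.le]
      congr 2; push_cast; ring
    have a1 : ε ^ (e2 + g) = ε ^ (-2 : ℝ) * ε ^ (15 / 4 - 6 * κ) := by
      rw [← Real.rpow_add e0]; congr 1; rw [he2]; ring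
    rw [a1]
    calc 4 * (72 * cd * (Lk / (ε ^ κ) ^ 3 * (Real.pi * (7 * d) ^ 2)) ^ 2)
        = 288 * (cd * (Lk / (ε ^ κ) ^ 3 * (Real.pi * (7 * d) ^ 2)) ^ 2) := by ring
      _ ≤ 288 * ((4 * R1 ^ 2 * ε ^ (-2 : ℝ)) *
            ((Lk * (Real.pi * 49)) ^ 2 * ε ^ (15 / 4 - 6 * κ))) := by
          refine mul_le_mul_of_nonneg_left ?_ (by norm_num)
          exact mul_le_mul hcd hA2 (by positivity) (by positivity)
      _ = _ := by ring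
  -- term 3
  have t3 : 144 * cd * (CS / ε ^ κ) ^ 2 * β ≤ ε ^ g / 768 := by
    refine aux e0 k3 ?_
    have a1 : ε ^ (e3 + g) = ε ^ (-2 : ℝ) * (ε ^ (-(2 * κ)) * ε ^ (28 : ℝ)) := by
      rw [← Real.rpow_add e0, ← Real.rpow_add e0]; congr 1; rw [he3]; ring
    rw [a1, m2]
    calc 144 * cd * (CS ^ 2 * ε ^ (-(2 * κ))) * β
        = 144 * (CS ^ 2 * ε ^ (-(2 * κ))) * (cd * β) := by ring
      _ ≤ 144 * (CS ^ 2 * ε ^ (-(2 * κ))) * ((4 * R1 ^ 2 * ε ^ (-2 : ℝ)) * ε ^ (28 : ℝ)) := by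
          refine mul_le_mul_of_nonneg_left ?_ (by positivity)
          exact mul_le_mul hcd hβ hβ0 (by positivity)
      _ = _ := by ring
  have hq : (ε ^ (cc c - 2 * κ) / 16) ^ 2 = ε ^ g / 256 := by
    rw [div_pow, ← Real.rpow_natCast, ← Real.rpow_mul e0.le]
    have : (cc c - 2 * κ) * ((2 : ℕ) : ℝ) = g := by rw [hg]; push_cast; ring
    rw [this]; norm_num
  rw [Real.sqrt_le_left (by positivity), hq]
  have hgp : 0 < ε ^ g := Real.rpow_pos_of_pos e0 _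
  nlinarith [t1, t2, t3]

end Crest.Agent.R143.Y9Nx831
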