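import Crest.Agent.R143.ZAll_168
import Crest.Agent.R143.HTop_903

/-!
# Row 143 (S0194), RIG, CorrI: the fixed environment `SU u ε ω` (helper168)

`C : CorEnv u ε d K1 c2 ρ0 ω` (133), `L : LayU u mm M p W aa e` (416), `mm (100 η) = u.s`,
`100 d ≤ η`, label `i : ZMod 3`, `o = al aa e i`, `n = nn aa e i`, `r = rr aa e i`, `S = SU u ε ω`.
* `envz_u` : `EnvZ`; `far_u` : hull sites are far; `num_n`, `num_0`, `num_1` : numbers of `znE`
* **`znU`** : the zones `Zn (rc0 hS)` = `znE`, `J = {o, o + n - 1}` ; `RwU` : the white cells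
* **`zall_u`** : `zall` of `ZAll_168` at a good environment, no hypothesis left but the hull cell
* `hull_u` : hull cell
-/

set_option autoImplicit false
set_option linter.all false

noncomputable section

open scoped Classical

namespace Crest.Agent.R143.ZAllUx168

open Crest.ProbabilityR.Voronoi
open Crest.Agent.R158.Sp896 (V Con)
open Crest.Agent.R143.B0x346 Crest.Agent.R143.DelGx806 Crest.Agent.R143.DelRx806
  Crest.Agent.R143.JColx54
open Crest.Agent.R143.Frame1x395 Crest.Agent.R143.Frame2x395 Crest.Agent.R143.Frame3x395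
  Crest.Agent.R143.Frame4x395 Crest.Agent.R143.Frame8x395 Crest.Agent.R143.Frame9x395
  Crest.Agent.R143.Frame10x395 Crest.Agent.R143.Frame11x395
open Crest.Agent.R143.Frame5x395 (sd mem_sd th th_spec)
open Crest.Agent.R143.Splx117 Crest.Agent.R143.WLocx713
open Crest.Agent.R143.RingDx117 (RD)
open Crest.Agent.R143.CorrDx117 (DCorr)
open Crest.Agent.R143.TileRx228 Crest.Agent.R143.PathDx503 Crest.Agent.R143.PathGx503
open Crest.Agent.R143.RingPx503 Crest.Agent.R143.DCorGx713 Crest.Agent.R143.DCorFx713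
open Crest.Agent.R143.CorHx713
open Crest.Agent.R143.Sptx169 Crest.Agent.R143.Sptx832 Crest.Agent.R143.Spt2x832
  Crest.Agent.R143.SpRx169
open Crest.Agent.R143.StrBx117 (Str)
open Crest.Agent.R143.NonXx592 (P Rc)
open Crest.Agent.R143.Gntx535 (wl wr)
open Crest.Agent.R143.Extx358 (Ad Ext Sep)
open Crest.Agent.R143.OutSx358 (zc Sys)
open Crest.Agent.R143.FinCx811 (Cs rc0 cs rcol)
open Crest.Agent.R143.Uniqx323 (Zn Strd)
open Crest.Agent.R143.EvGx117 (Rd)
open Crest.Agent.R143.SysAx168 (EvA sysA)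
open Crest.Agent.R143.SysCx166 (Hv Hx Vs)
open Crest.Agent.R143.ZnLx903 (clR comp KS RtS GT F0 F1 zR zK zT)
open Crest.Agent.R143.CorrIx831 (bst Rts Rws Bk Ft tlt Stk SDS Col)
open Crest.Agent.R143.RcTx422 (Hc RC)
open Crest.Agent.R143.EvGx168 (SD)
open Crest.Agent.R143.Finex422 (Fine)
open Crest.Agent.R143.OutCx571 (Far)
open Crest.Agent.R143.PolyUx346 Crest.Agent.R143.Layx416 Crest.Agent.R143.LayUx416
open Crest.Agent.R143.CorEx133
open Crest.Agent.R143.ZEnvx168 Crest.Agent.R143.ZAllx168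

variable {u : Poly} {mm M : ℕ} {p W : ℤ → ℤ × ℤ} {aa e : ℤ → ℤ} {i : ZMod 3} {η d ε K1 c2 ρ0 : ℝ}
  {ω : Sample} {U : Set ℂ}

/-- **the environment of the zones** -/
theorem envz_u (C : CorEnv u ε d K1 c2 ρ0 ω) (L : LayU u mm M p W aa e)
    (hh : (mm : ℝ) * (100 * η) = u.s) (hd : 100 * d ≤ η) (i : ZMod 3) :
    EnvZ (SU u ε ω) M W η d (al aa e i) (nn aa e i) := by
  have hd0 := C.d0
  obtain ⟨q1, q2, q3, q4, q5⟩ := nums L i
  refine ⟨L.fine.fpath, by linarith, hd0, hd, by omega, fun a s _ h => C.inn ?_⟩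
  exact RR_sub L hh (by linarith) (by linarith) (by linarith) (by linarith) a h

/-- **hull sites are far** -/
theorem far_u (C : CorEnv u ε d K1 c2 ρ0 ω) (L : LayU u mm M p W aa e)
    (hh : (mm : ℝ) * (100 * η) = u.s) (hd : 100 * d ≤ η) {x : ℂ} (hx : OnHull (SU u ε ω) x) :
    x ∈ Far (mm * (100 * η)) (100 * η + 19 / 2 * η + d) (OutPx571.F u) := by
  have hd0 := C.d0
  have hd1 := C.d1
  have hle := h_le L hh
  have h1 := C.hull_far hx
  have h2 := one_le_Rp u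
  rw [hh]
  refine HTopx903.far_of (by linarith) ?_
  unfold RU at h1
  linarith

theorem num_n (L : LayU u mm M p W aa e) (i : ZMod 3) : 3 ≤ nn aa e i := by
  obtain ⟨q1, q2, q3, q4, q5⟩ := nums L i
  omega

theorem num_0 (L : LayU u mm M p W aa e) (i : ZMod 3) : 0 < rr aa e i := by
  obtain ⟨q1, q2, q3, q4, q5⟩ := nums L i
  omega

theorem num_1 (L : LayU u mm M p W aa e) (i : ZMod 3) : rr aa e i + 1 < nn aa e i := by
  obtain ⟨q1, q2, q3, q4, q5⟩ := nums L i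
  omega

/-- the end tiles -/
def JU (aa e : ℤ → ℤ) (i : ZMod 3) : Set ℤ := {al aa e i, al aa e i + nn aa e i - 1}

/-- **the zones of the environment** `S = SU u ε ω` -/
def znU (hS : GP (SU u ε ω : Set ℂ)) (C : CorEnv u ε d K1 c2 ρ0 ω) (L : LayU u mm M p W aa e)
    (hh : (mm : ℝ) * (100 * η) = u.s) (hd : 100 * d ≤ η) (i : ZMod 3) (c0 : Cs hS) :
    Zn (rc0 hS) :=
  znE (J := JU aa e i) hS (envz_u C L hh hd i) (num_n L i) (num_0 L i) (num_1 L i)
    (Or.inl rfl) (Or.inr rfl) c0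

/-- the white cells -/
def RwU {S : Finset ℂ} (hS : GP (S : Set ℂ)) (η : ℝ) (W : ℤ → ℤ × ℤ) (M : ℕ) (aa e : ℤ → ℤ)
    (i : ZMod 3) : Set (Cs hS) :=
  clR hS (RwS η W (al aa e i) (nn aa e i) M)

section fields

variable (hS : GP (SU u ε ω : Set ℂ)) (C : CorEnv u ε d K1 c2 ρ0 ω) (L : LayU u mm M p W aa e)
  (hh : (mm : ℝ) * (100 * η) = u.s) (hd : 100 * d ≤ η) (i : ZMod 3) (c0 : Cs hS)

theorem znU_R : (znU hS C L hh hd i c0).R = clR hS (RtS η W (al aa e i) (nn aa e i)) := rfl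
theorem znU_K : (znU hS C L hh hd i c0).K = clR hS (KS η W (al aa e i + rr aa e i)) := rfl
theorem znU_E : (znU hS C L hh hd i c0).E = cmp hS (F1 η d W (al aa e i + nn aa e i - 1))
    (coreS' (SU u ε ω) η W (al aa e i + nn aa e i - 1)) := rfl
theorem znU_W : (znU hS C L hh hd i c0).W = cmp hS (F0 η d W (al aa e i))
    (coreS' (SU u ε ω) η W (al aa e i)) := rfl
theorem znU_T : (znU hS C L hh hd i c0).T =
    comp (rc0 hS) (clR hS (GT η d W (JU aa e i))) c0 := rfl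

end fields

/-- the mark gate does not touch the end tiles -/
theorem hJ_u (L : LayU u mm M p W aa e) (i : ZMod 3) :
    ∀ b ∈ JU aa e i, ¬ (M : ℤ) ∣ al aa e i + rr aa e i - b ∧
      ¬ (M : ℤ) ∣ al aa e i + rr aa e i - (b + 1) := by
  obtain ⟨q1, q2, q3, q4, q5⟩ := nums L i
  rintro b (rfl | rfl)
  · exact ⟨HTopx903.nd (by omega) (by omega) (by omega),
      HTopx903.nd (by omega) (by omega) (by omega)⟩
  · exact ⟨HTopx903.nd (by omega) (by omega) (by omega),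
      HTopx903.nd (by omega) (by omega) (by omega)⟩

/-- the hull cell -/
theorem hull_u (C : CorEnv u ε d K1 c2 ρ0 ω) (hS : GP (SU u ε ω : Set ℂ)) :
    ∃ c0 : Cs hS, c0 ∈ Hc hS ∧ ∀ (c : Cs hS) (v : ℂ), OnHull (SU u ε ω) v →
      c.1 = Quot.mk (hullE (SU u ε ω)) v → c = c0 := by
  obtain ⟨c0, h⟩ := RcTx422.exists_Hc hS C.card
  exact ⟨c0, h, fun c v hv he => RcTx422.Hc_one ⟨v, hv, he⟩ h⟩

/-- **one cell** -/
theorem one_u {S : Finset ℂ} {hS : GP (S : Set ℂ)} {c0 : Cs hS} (h : c0 ∈ Hc hS) (c : Cs hS)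
    (v : ℂ) (hv : OnHull S v) (he : c.1 = Quot.mk (hullE S) v) : c = c0 :=
  RcTx422.Hc_one ⟨v, hv, he⟩ h

/-- **the fixed environment** `SU u ε ω` : `zall` -/
theorem zall_u (hS : GP (SU u ε ω : Set ℂ)) (C : CorEnv u ε d K1 c2 ρ0 ω)
    (L : LayU u mm M p W aa e) (hh : (mm : ℝ) * (100 * η) = u.s) (hd : 100 * d ≤ η) (i : ZMod 3)
    {c0 : Cs hS} (hc : c0 ∈ Hc hS) :
    (∀ c ∈ (znU hS C L hh hd i c0).K, c ∉ RwU hS η W M aa e i) ∧
    (∀ t ∈ (znU hS C L hh hd i c0).T, Ext (rc0 hS) {c0}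
      ((znU hS C L hh hd i c0).R ∪ RwU hS η W M aa e i) t) ∧
    c0 ∉ RwU hS η W M aa e i ∧
    c0 ∉ (znU hS C L hh hd i c0).R ∧
    (znU hS C L hh hd i c0).R = RC hS (Rts η W (al aa e i) (nn aa e i)) ∧
    Sys (rc0 hS) {c0} (RwU hS η W M aa e i)
      (RD (SU u ε ω) (Bk η W (al aa e i) (rr aa e i - 1)))
      (fun (i : D0 (SU u ε ω) × ℕ) _ => i.1) (fun i _ => i.2)
      (EvA (rc0 hS) {c0} (RwU hS η W M aa e i)
        (RD (SU u ε ω) (Bk η W (al aa e i) (rr aa e i - 1))) (znU hS C L hh hd i c0)) ∧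
    ∀ (X : Set (ℂ × Bool)) (s : Cs hS → ZMod 2), Col hS X s →
      CorH X (UU u) M W η d (al aa e i) (nn aa e i) →
        Concl hS W η (al aa e i) (nn aa e i) (rr aa e i) (znU hS C L hh hd i c0)
          (RwU hS η W M aa e i) c0 X s := by
  obtain ⟨q1, q2, q3, q4, q5⟩ := nums L i
  obtain ⟨x, hx, h0⟩ := hc
  exact zall (U := UU u) (J := JU aa e i) L hh hS i (envz_u C L hh hd i) (num_n L i) (num_0 L i)
    (num_1 L i) (Or.inl rfl) (Or.inr rfl) hx h0 (far_u C L hh hd hx)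
    (HTopx903.top_S C rfl L hh hd q4 q5 (hJ_u L i) hx h0)

end Crest.Agent.R143.ZAllUx168
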