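import Crest.Agent.R143.ZAllU_168
import Crest.Agent.R143.BigU_749
import Crest.Agent.R143.HullC_40
import Crest.Agent.R143.LnkM_927

/-!
# Row 143 (S0194), RIG, CorrI: the zones of `ZAllU_168` in the forms of the consumers (helper168)

`Z := znU hS C L hh hd i c0`, `Rw := RwU hS η W M aa e i`.
* `uR`, `uRw` : `⊆ RC hS (All η W)`; `uE`, `uW` : `⊆ ClR hS (RR (10 η) (52 η) (100 η) W ..)` (749)
* `Rw_clo`, `Rw_RC` : `Rw = clR hS (Clo2 ..) = RC hS (Clo2 ..)` (927)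
* `nac_u` : the hull cell is not a cell of the strands of `EvA`
* **`sys_u`**, **`out_u`** : the system and the out strand for the colouring `s`
-/

set_option autoImplicit false
set_option linter.all false

noncomputable section

open scoped Classical

namespace Crest.Agent.R143.ZAllVx168

open Crest.ProbabilityR.Voronoi
open Crest.Agent.R143.B0x346 Crest.Agent.R143.DelGx806 Crest.Agent.R143.DelRx806
  Crest.Agent.R143.JColx54
open Crest.Agent.R143.Frame1x395 Crest.Agent.R143.Frame2x395 Crest.Agent.R143.Frame3x395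
  Crest.Agent.R143.Frame4x395 Crest.Agent.R143.Frame8x395 Crest.Agent.R143.Frame9x395
  Crest.Agent.R143.Frame10x395 Crest.Agent.R143.Frame11x395
open Crest.Agent.R143.Frame5x395 (sd mem_sd th th_spec)
open Crest.Agent.R143.Splx117 Crest.Agent.R143.WLocx713
open Crest.Agent.R143.RingDx117 (RD)
open Crest.Agent.R143.TileRx228
open Crest.Agent.R143.CorHx713
open Crest.Agent.R143.SpRx169
open Crest.Agent.R143.Sptx832
open Crest.Agent.R143.StrBx117 (Str)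
open Crest.Agent.R143.Extx358 (Ad Ext Sep)
open Crest.Agent.R143.OutSx358 (zc ac coe_ac Sys)
open Crest.Agent.R143.FinCx811 (Cs rc0 cs rcol)
open Crest.Agent.R143.Uniqx323 (Zn Strd)
open Crest.Agent.R143.SysAx168 (EvA sysA)
open Crest.Agent.R143.SysCx166 (Hv Hx Vs)
open Crest.Agent.R143.ZnLx903 (clR comp KS RtS GT F0 F1 BB FB)
open Crest.Agent.R143.CorrIx831 (bst Rts Rws Bk Ft tlt Stk SDS Col)
open Crest.Agent.R143.RcTx422 (Hc RC)
open Crest.Agent.R143.BigUx749 (ClR)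
open Crest.Agent.R143.LnkLx927 (All Clo2)
open Crest.Agent.R143.PolyUx346 Crest.Agent.R143.Layx416 Crest.Agent.R143.LayUx416
open Crest.Agent.R143.CorEx133
open Crest.Agent.R143.ZEnvx168 Crest.Agent.R143.ZAllx168 Crest.Agent.R143.ZAllUx168

variable {u : Poly} {mm M : ℕ} {p W : ℤ → ℤ × ℤ} {aa e : ℤ → ℤ} {i : ZMod 3} {η d ε K1 c2 ρ0 : ℝ}
  {ω : Sample} {hS : GP (SU u ε ω : Set ℂ)}

section fields

variable (C : CorEnv u ε d K1 c2 ρ0 ω) (L : LayU u mm M p W aa e)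
  (hh : (mm : ℝ) * (100 * η) = u.s) (hd : 100 * d ≤ η) (i : ZMod 3) (c0 : Cs hS)

include C L hh hd

/-- sites of the strips are inner -/
theorem all_inn : ∀ s ∈ SU u ε ω, s ∈ All η W → ¬ OnHull (SU u ε ω) s := by
  rintro s hs ⟨a, h⟩
  exact innB (envz_u C L hh hd 0) s hs h

theorem uR : (znU hS C L hh hd i c0).R ⊆ RC hS (All η W) := by
  rintro c ⟨s, h1, ⟨k, -, -, h2⟩, h3⟩
  exact ⟨s, h1, ⟨_, h2⟩, all_inn C L hh hd s h1 ⟨_, h2⟩, h3⟩

theorem uRw : RwU hS η W M aa e i ⊆ RC hS (All η W) := by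
  rintro c ⟨s, h1, ⟨a, -, -, h2⟩, h3⟩
  exact ⟨s, h1, ⟨_, h2⟩, all_inn C L hh hd s h1 ⟨_, h2⟩, h3⟩

theorem FB_u (a : ℤ) : FB η d W a ⊆ RR (10 * η) (52 * η) (100 * η) W a := by
  have h1 := C.d0
  exact RR_mono (by linarith) (by linarith) _ _ _

theorem uE : (znU hS C L hh hd i c0).E ⊆
    ClR hS (RR (10 * η) (52 * η) (100 * η) W (al aa e i + nn aa e i - 1)) := by
  rintro c ⟨⟨s, h1, h2, h3⟩, -⟩
  exact ⟨s, h1, FB_u C L hh hd _ h2.1, h3⟩

theorem uW : (znU hS C L hh hd i c0).W ⊆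
    ClR hS (RR (10 * η) (52 * η) (100 * η) W (al aa e i)) := by
  rintro c ⟨⟨s, h1, h2, h3⟩, -⟩
  exact ⟨s, h1, FB_u C L hh hd _ h2.1, h3⟩

omit C L hh hd in
/-- **the white cells** -/
theorem Rw_clo : RwU hS η W M aa e i = clR hS (Clo2 η W M (al aa e i) (nn aa e i)) := by
  ext c
  constructor
  · rintro ⟨s, h1, ⟨a, h2, h3, h4⟩, h5⟩
    exact ⟨s, h1, ⟨a, ⟨h2, h3⟩, h4⟩, h5⟩
  · rintro ⟨s, h1, ⟨a, ⟨h2, h3⟩, h4⟩, h5⟩
    exact ⟨s, h1, ⟨a, h2, h3, h4⟩, h5⟩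

theorem Rw_RC : RwU hS η W M aa e i = RC hS (Clo2 η W M (al aa e i) (nn aa e i)) := by
  rw [Rw_clo]
  exact clR_RC fun s h1 ⟨a, h2, h3⟩ => all_inn C L hh hd s h1 ⟨a, h3⟩

omit L hh hd in
theorem Hc_u {c0 : Cs hS} (hc : c0 ∈ Hc hS) : Hc hS = {c0} := RcTx422.Hc_eq hc

variable {c0 : Cs hS} (hc : c0 ∈ Hc hS)
include hc

theorem n0R : c0 ∉ (znU hS C L hh hd i c0).R := fun h =>
  RcTx422.Hc_RC hc (uR C L hh hd i c0 h)

theorem n0Rw : c0 ∉ RwU hS η W M aa e i := fun h =>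
  RcTx422.Hc_RC hc (uRw C L hh hd i h)

/-- **the hull cell is not a cell of the strands** -/
theorem nac_u {H : Set (Cs hS)} {R : Set (Cs hS)} {Q : Set (D0 (SU u ε ω))} (j : D0 (SU u ε ω) × ℕ)
    (σ : Cs hS → ZMod 2) (h : EvA (rc0 hS) H R Q (znU hS C L hh hd i c0) j σ) :
    c0 ∉ ac (rc0 hS) j.1 j.2 σ :=
  HullCx40.nac' (n0R C L hh hd i hc) h.1

/-- **the system of the out strands** -/
theorem sys_u : Sys (rc0 hS) {c0} (RwU hS η W M aa e i)
    (RD (SU u ε ω) (Bk η W (al aa e i) (rr aa e i - 1)))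
    (fun (i : D0 (SU u ε ω) × ℕ) _ => i.1) (fun i _ => i.2)
    (EvA (rc0 hS) {c0} (RwU hS η W M aa e i)
      (RD (SU u ε ω) (Bk η W (al aa e i) (rr aa e i - 1))) (znU hS C L hh hd i c0)) :=
  (zall_u hS C L hh hd i hc).2.2.2.2.2.1

theorem uRC : (znU hS C L hh hd i c0).R = RC hS (Rts η W (al aa e i) (nn aa e i)) :=
  (zall_u hS C L hh hd i hc).2.2.2.2.1

/-- **the out strand of every colouring with `CorH`** -/
theorem out_u (X : Set (ℂ × Bool)) (s : Cs hS → ZMod 2) (hX : Col hS X s)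
    (H : CorH X (UU u) M W η d (al aa e i) (nn aa e i)) :
    Concl hS W η (al aa e i) (nn aa e i) (rr aa e i) (znU hS C L hh hd i c0)
      (RwU hS η W M aa e i) c0 X s :=
  (zall_u hS C L hh hd i hc).2.2.2.2.2.2 X s hX H

end fields

end Crest.Agent.R143.ZAllVx168
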