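import Crest.Agent.R143.Seg_991
import Crest.Agent.R143.TileR2_228
import Crest.Agent.R143.Cross3_228

/-!
# Row 143 (S0194), CorrI, zones of the corridor: the end tiles (helper881)

A site of an end tile which is not in the inner tiles is joined to the site of the centre of the
end tile, inside the fat end tile and off the inner tiles.

* `arm_walk` : two arms from `c`, direction `u` of the neighbour tile: a site `s` of the arms with
  `X c u s ≤ L` is joined to the site of the cell of `c` by sites of the arms enlarged by `d` with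
  `X c u ≤ L`
* `west_walk` (W1), `east_walk` (E1) : the end tiles `o` and `a` in the frames of their inner gates
* `off_mid` : a site of the end tile off the inner tiles is on the outer side of the cut line
-/

set_option autoImplicit false

noncomputable section

open scoped Classical

namespace Crest.Agent.R143.ZnEx881

open Set
open Crest.ProbabilityR.Voronoi
open Crest.Agent.R143.B0x346 Crest.Agent.R143.DelGx806 Crest.Agent.R143.B0Dx346
open Crest.Agent.R143.RE0x723 (Pth)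
open Crest.Agent.R143.Segx991 (Clm Hl pth_conn mem_clm)
open Crest.Agent.R143.Gatex838 (X Y)
open Crest.Agent.R143.TileRx228
open Crest.Agent.R143.Crossx228 (abs_X_sub abs_Y_sub)

variable {S : Finset ℂ} {A B d L h : ℝ} {c s co : ℂ} {u v : ℤ × ℤ} {M : ℕ} {W : ℤ → ℤ × ℤ}
  {o a : ℤ}

/-! ### coordinates -/

theorem X_comb (c e : ℂ) {p q : ℝ} (hpq : p + q = 1) (s t : ℂ) :
    X c e (p • s + q • t) = p * X c e s + q * X c e t := by
  have h : (p • s + q • t - c) / e = (p : ℂ) * ((s - c) / e) + (q : ℂ) * ((t - c) / e) := by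
    have h1 : (1 : ℂ) = (p : ℂ) + (q : ℂ) := by exact_mod_cast hpq.symm
    have h2 : p • s + q • t - c = (p : ℂ) * (s - c) + (q : ℂ) * (t - c) := by
      rw [Complex.real_smul, Complex.real_smul]
      linear_combination (-c) * h1
    rw [h2, add_div, mul_div_assoc, mul_div_assoc]
  unfold X
  rw [h, Complex.add_re, Complex.re_ofReal_mul, Complex.re_ofReal_mul]

theorem Y_comb (c e : ℂ) {p q : ℝ} (hpq : p + q = 1) (s t : ℂ) :
    Y c e (p • s + q • t) = p * Y c e s + q * Y c e t := by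
  have h : (p • s + q • t - c) / e = (p : ℂ) * ((s - c) / e) + (q : ℂ) * ((t - c) / e) := by
    have h1 : (1 : ℂ) = (p : ℂ) + (q : ℂ) := by exact_mod_cast hpq.symm
    have h2 : p • s + q • t - c = (p : ℂ) * (s - c) + (q : ℂ) * (t - c) := by
      rw [Complex.real_smul, Complex.real_smul]
      linear_combination (-c) * h1
    rw [h2, add_div, mul_div_assoc, mul_div_assoc]
  unfold Y
  rw [h, Complex.add_im, Complex.im_ofReal_mul, Complex.im_ofReal_mul]

theorem XY_self (c e : ℂ) : X c e c = 0 ∧ Y c e c = 0 := by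
  unfold X Y
  simp

theorem arm_conv (A B : ℝ) (c e : ℂ) : Convex ℝ (Arm A B c e) := by
  rintro x ⟨⟨x1, x2⟩, x3⟩ y ⟨⟨y1, y2⟩, y3⟩ p q hp hq hpq
  obtain ⟨x4, x5⟩ := abs_lt.1 x3
  obtain ⟨y4, y5⟩ := abs_lt.1 y3
  have key : ∀ {f g m : ℝ}, f < m → g < m → p * f + q * g < m := by
    intro f g m hf hg
    rcases hp.eq_or_lt with h0 | h0
    · subst h0
      have : q = 1 := by linarith
      subst this
      linarith
    · have h1 := mul_lt_mul_of_pos_left hf h0
      have h2 := mul_le_mul_of_nonneg_left hg.le hq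
      have h3 : p * m + q * m = m := by rw [← add_mul, hpq, one_mul]
      linarith
  have key' : ∀ {f g m : ℝ}, m < f → m < g → m < p * f + q * g := by
    intro f g m hf hg
    have := key (f := -f) (g := -g) (m := -m) (by linarith) (by linarith)
    linarith
  refine ⟨⟨?_, ?_⟩, abs_lt.2 ⟨?_, ?_⟩⟩
  · rw [X_comb c e hpq]; exact key' x1 y1
  · rw [X_comb c e hpq]; exact key x2 y2
  · rw [Y_comb c e hpq]; exact key' x4 y4
  · rw [Y_comb c e hpq]; exact key x5 y5

theorem c_arm (hA : 0 < A) (hB : 0 < B) (c e : ℂ) : c ∈ Arm A B c e := by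
  obtain ⟨h1, h2⟩ := XY_self c e
  refine ⟨⟨?_, ?_⟩, ?_⟩
  · rw [h1]; linarith
  · rw [h1]; exact hB
  · rw [h2, abs_zero]; exact hA

/-- a point within `d` of an arm -/
theorem arm_fat {e z q : ℂ} (he : ‖e‖ = 1) (hz : z ∈ Arm A B c e) (hq : ‖z - q‖ ≤ d) :
    q ∈ Arm (A + d) (B + d) c e := by
  obtain ⟨⟨z1, z2⟩, z3⟩ := hz
  obtain ⟨z4, z5⟩ := abs_lt.1 z3
  obtain ⟨x1, x2⟩ := abs_le.1 ((abs_X_sub c he z q).trans hq)
  obtain ⟨y1, y2⟩ := abs_le.1 ((abs_Y_sub c he z q).trans hq)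
  exact ⟨⟨by linarith, by linarith⟩, abs_lt.2 ⟨by linarith, by linarith⟩⟩

/-! ### the walk -/

/-- **from a site of the two arms to the centre, on the near side of the line `X = L`** -/
theorem arm_walk (hS : GP (S : Set ℂ)) (h3 : 3 ≤ S.card) (hu : U4 u) (hv : U4 v) (huv : v ≠ u)
    (hA : 0 < A) (hAB : A ≤ B) (hL : A + d ≤ L)
    (hd : ∀ z ∈ Arm A B c (cz u) ∪ Arm A B c (cz v), ∃ s ∈ S, ‖z - s‖ ≤ d) (hs : s ∈ S)
    (hsA : s ∈ Arm A B c (cz u) ∪ Arm A B c (cz v)) (hsL : X c (cz u) s ≤ L) (hco : co ∈ S)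
    (hcc : c ∈ voronoiCell (S : Set ℂ) co) :
    Pth S {q | q ∈ S ∧ q ∈ Arm (A + d) (B + d) c (cz u) ∪ Arm (A + d) (B + d) c (cz v) ∧
      X c (cz u) q ≤ L} s co := by
  have hB : 0 < B := by linarith
  have nu := norm_cz hu
  have nv := norm_cz hv
  -- the site of a cell is near the point
  have near : ∀ z ∈ Arm A B c (cz u) ∪ Arm A B c (cz v), ∀ q, z ∈ voronoiCell (S : Set ℂ) q →
      ‖z - q‖ ≤ d := fun z hz q hq => by
    obtain ⟨s, hs, h1⟩ := hd z hz
    exact (hq s (Finset.mem_coe.2 hs)).trans h1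
  have d0 : 0 ≤ d := (norm_nonneg _).trans (near c (Or.inl (c_arm hA hB c _)) co hcc)
  -- a connected set from the site to the centre
  suffices H : ∃ C : Set ℂ, IsPreconnected C ∧ s ∈ C ∧ c ∈ C ∧
      ∀ z ∈ C, z ∈ Arm A B c (cz u) ∪ Arm A B c (cz v) ∧
        (∀ q, z ∈ voronoiCell (S : Set ℂ) q → X c (cz u) q ≤ L) by
    obtain ⟨C, hC, hsC, hcC, key⟩ := H
    have hp := pth_conn hS h3 hC (mem_clm hs hsC) (y := co) ⟨hco, c, hcC, hcc⟩
    have sub : Clm S C ⊆ {q | q ∈ S ∧ q ∈ Arm (A + d) (B + d) c (cz u) ∪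
        Arm (A + d) (B + d) c (cz v) ∧ X c (cz u) q ≤ L} := by
      rintro q ⟨hq, z, hzC, hz⟩
      obtain ⟨k1, k2⟩ := key z hzC
      refine ⟨hq, ?_, k2 q hz⟩
      have h1 := near z k1 q hz
      rcases k1 with k1 | k1
      · exact Or.inl (arm_fat nu k1 h1)
      · exact Or.inr (arm_fat nv k1 h1)
    exact ⟨sub hp.1, Relation.ReflTransGen.mono (fun a b hab => ⟨hab.1, sub hab.2⟩) _ _ hp.2⟩
  -- points with small abscissa
  have small : ∀ z ∈ Arm A B c (cz u) ∪ Arm A B c (cz v), X c (cz u) z ≤ A →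
      ∀ q, z ∈ voronoiCell (S : Set ℂ) q → X c (cz u) q ≤ L := fun z hz h1 q hq => by
    have h2 := (abs_le.1 ((abs_X_sub c nu z q).trans (near z hz q hq))).1
    linarith
  by_cases hsv : s ∈ Arm A B c (cz v)
  · refine ⟨segment ℝ s c, (convex_segment s c).isPreconnected, left_mem_segment ℝ s c,
      right_mem_segment ℝ s c, fun z hz => ?_⟩
    have h1 : z ∈ Arm A B c (cz v) := (arm_conv A B c (cz v)).segment_subset hsv
      (c_arm hA hB c _) hz
    exact ⟨Or.inr h1, small z (Or.inr h1) (arm_frame hu hv huv h1).le⟩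
  have hsu : s ∈ Arm A B c (cz u) := hsA.resolve_right hsv
  rcases le_or_gt (X c (cz u) s) 0 with hx | hx
  · refine ⟨segment ℝ s c, (convex_segment s c).isPreconnected, left_mem_segment ℝ s c,
      right_mem_segment ℝ s c, fun z hz => ?_⟩
    have h1 : z ∈ Arm A B c (cz u) := (arm_conv A B c (cz u)).segment_subset hsu
      (c_arm hA hB c _) hz
    refine ⟨Or.inl h1, small z (Or.inl h1) ?_⟩
    obtain ⟨p, q, hp, hq, hpq, rfl⟩ := hz
    rw [X_comb c _ hpq, (XY_self c _).1, mul_zero, add_zero]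
    nlinarith
  · -- the foot of `s` on the line through the centre
    set x := X c (cz u) s with hxd
    set p1 : ℂ := s - (x : ℂ) * cz u with hp1
    have e1 : (p1 - c) / cz u = (s - c) / cz u - x := by
      rw [hp1, show s - (x : ℂ) * cz u - c = (s - c) - (x : ℂ) * cz u by ring, sub_div,
        mul_div_assoc, div_self (cz_ne hu), mul_one]
    have eX : X c (cz u) p1 = 0 := by
      show ((p1 - c) / cz u).re = 0
      rw [e1, Complex.sub_re, Complex.ofReal_re]
      exact sub_self x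
    have eY : Y c (cz u) p1 = Y c (cz u) s := by
      show ((p1 - c) / cz u).im = _
      rw [e1, Complex.sub_im, Complex.ofReal_im, sub_zero]
      rfl
    have hp1A : p1 ∈ Arm A B c (cz u) := by
      refine ⟨⟨?_, ?_⟩, ?_⟩
      · rw [eX]; linarith
      · rw [eX]; exact hB
      · rw [eY]; exact hsu.2
    have hcA : c ∈ Arm A B c (cz u) := c_arm hA hB c _
    refine ⟨segment ℝ s p1 ∪ segment ℝ p1 c, ?_, Or.inl (left_mem_segment ℝ _ _),
      Or.inr (right_mem_segment ℝ _ _), ?_⟩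
    · exact IsPreconnected.union p1 (right_mem_segment ℝ _ _) (left_mem_segment ℝ _ _)
        (convex_segment _ _).isPreconnected (convex_segment _ _).isPreconnected
    · rintro z (hz | hz)
      · have h1 : z ∈ Arm A B c (cz u) := (arm_conv A B c (cz u)).segment_subset hsu hp1A hz
        refine ⟨Or.inl h1, fun q hq => ?_⟩
        obtain ⟨p, r, hp, hr, hpr, rfl⟩ := hz
        have h2 := hq s (Finset.mem_coe.2 hs)
        have h4 : p • s + r • p1 - s = -((r * x : ℝ) : ℂ) * cz u := by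
          have h5 : (1 : ℂ) = (p : ℂ) + (r : ℂ) := by exact_mod_cast hpr.symm
          rw [hp1, Complex.real_smul, Complex.real_smul]
          push_cast
          linear_combination (-s) * h5
        have h6 : ‖p • s + r • p1 - s‖ = r * x := by
          rw [h4, norm_mul, nu, mul_one, norm_neg, Complex.norm_real, Real.norm_eq_abs,
            abs_of_nonneg (mul_nonneg hr hx.le)]
        have h7 := (abs_le.1 ((abs_X_sub c nu (p • s + r • p1) q).trans (h2.trans h6.le))).1
        rw [X_comb c _ hpr, eX, mul_zero, add_zero] at h7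
        have h8 : p * x + r * x = x := by rw [← add_mul, hpr, one_mul]
        change -(r * x) ≤ p * x - X c (cz u) q at h7
        linarith
      · have h1 : z ∈ Arm A B c (cz u) := (arm_conv A B c (cz u)).segment_subset hp1A hcA hz
        refine ⟨Or.inl h1, small z (Or.inl h1) ?_⟩
        obtain ⟨p, r, hp, hr, hpr, rfl⟩ := hz
        rw [X_comb c _ hpr, (XY_self c _).1, eX, mul_zero, mul_zero, add_zero]
        exact hA.le

/-! ### the end tiles -/

theorem X_west (F : FPath M W) (h : ℝ) (o : ℤ) (s : ℂ) :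
    X (gz h W (o + 1)) (ge W (o + 1)) s = X (cen h W o) (cz (W (o + 1) - W o)) s - h / 2 := by
  rw [(XY_out F h o s).1]
  unfold ge
  rw [add_sub_cancel_right]

theorem X_east (F : FPath M W) (h : ℝ) (a : ℤ) (s : ℂ) :
    X (gz h W a) (ge W a) s = h / 2 - X (cen h W a) (cz (W (a - 1) - W a)) s := by
  have e : ge W a = -cz (W (a - 1) - W a) := by
    unfold ge
    rw [← cz_neg, neg_sub]
  rw [(XY_in F h a s).1, e, (XY_neg _ _ _).1]
  ring

/-- **(W1)** the tile `o` on the outer side of the cut line of the tile `o + 1` -/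
theorem west_walk (hS : GP (S : Set ℂ)) (h3 : 3 ≤ S.card) (F : FPath M W) (hA : 0 < A)
    (hAB : A ≤ B) (hh : A + B + d ≤ h) (hd : ∀ z ∈ RR A B h W o, ∃ s ∈ S, ‖z - s‖ ≤ d)
    (hs : s ∈ S) (hsR : s ∈ RR A B h W o)
    (hsX : X (gz h W (o + 1)) (ge W (o + 1)) s ≤ h / 2 - B) (hco : co ∈ S)
    (hcc : cen h W o ∈ voronoiCell (S : Set ℂ) co) :
    Pth S {q | q ∈ S ∧ q ∈ RR (A + d) (B + d) h W o ∧
      X (gz h W (o + 1)) (ge W (o + 1)) q ≤ h / 2 - B} s co := by
  rw [X_west F] at hsX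
  have h1 := arm_walk (L := h - B) hS h3 (F.step o) (F.step' o) (F.ne o) hA hAB
    (by linarith) (fun z hz => hd z hz.symm) hs hsR.symm (by linarith) hco hcc
  have sub : {q | q ∈ S ∧ q ∈ Arm (A + d) (B + d) (cen h W o) (cz (W (o + 1) - W o)) ∪
      Arm (A + d) (B + d) (cen h W o) (cz (W (o - 1) - W o)) ∧
      X (cen h W o) (cz (W (o + 1) - W o)) q ≤ h - B} ⊆ {q | q ∈ S ∧
        q ∈ RR (A + d) (B + d) h W o ∧ X (gz h W (o + 1)) (ge W (o + 1)) q ≤ h / 2 - B} := by
    rintro q ⟨h2, h3, h4⟩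
    refine ⟨h2, h3.symm, ?_⟩
    rw [X_west F]
    linarith
  exact ⟨sub h1.1, Relation.ReflTransGen.mono (fun a b hab => ⟨hab.1, sub hab.2⟩) _ _ h1.2⟩

/-- **(E1)** the tile `a` on the outer side of the cut line of the tile `a - 1` -/
theorem east_walk (hS : GP (S : Set ℂ)) (h3 : 3 ≤ S.card) (F : FPath M W) (hA : 0 < A)
    (hAB : A ≤ B) (hh : A + B + d ≤ h) (hd : ∀ z ∈ RR A B h W a, ∃ s ∈ S, ‖z - s‖ ≤ d)
    (hs : s ∈ S) (hsR : s ∈ RR A B h W a)
    (hsX : B - h / 2 ≤ X (gz h W a) (ge W a) s) (hco : co ∈ S)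
    (hcc : cen h W a ∈ voronoiCell (S : Set ℂ) co) :
    Pth S {q | q ∈ S ∧ q ∈ RR (A + d) (B + d) h W a ∧
      B - h / 2 ≤ X (gz h W a) (ge W a) q} s co := by
  rw [X_east F] at hsX
  have h1 := arm_walk (L := h - B) hS h3 (F.step' a) (F.step a) (F.ne a).symm hA hAB
    (by linarith) (fun z hz => hd z hz) hs hsR (by linarith) hco hcc
  have sub : {q | q ∈ S ∧ q ∈ Arm (A + d) (B + d) (cen h W a) (cz (W (a - 1) - W a)) ∪
      Arm (A + d) (B + d) (cen h W a) (cz (W (a + 1) - W a)) ∧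
      X (cen h W a) (cz (W (a - 1) - W a)) q ≤ h - B} ⊆ {q | q ∈ S ∧
        q ∈ RR (A + d) (B + d) h W a ∧ B - h / 2 ≤ X (gz h W a) (ge W a) q} := by
    rintro q ⟨h2, h3, h4⟩
    refine ⟨h2, h3, ?_⟩
    rw [X_east F]
    linarith
  exact ⟨sub h1.1, Relation.ReflTransGen.mono (fun a b hab => ⟨hab.1, sub hab.2⟩) _ _ h1.2⟩

/-- a point of the tile `o` off the tile `o + 1` -/
theorem off_next (F : FPath M W) (hA : 0 < A) (hAB : A ≤ B) (hh : A + B ≤ h)
    (hs : s ∈ RR A B h W o) (hn : s ∉ RR A B h W (o + 1)) :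
    X (gz h W (o + 1)) (ge W (o + 1)) s ≤ h / 2 - B := by
  by_contra hc
  push Not at hc
  obtain ⟨h1, h2⟩ := left F hAB hs
  exact hn (win_right F hA (by linarith) (abs_lt.2 ⟨by linarith, h1⟩) (h2 (by linarith)))

/-- a point of the tile `a` off the tile `a - 1` -/
theorem off_prev (F : FPath M W) (hA : 0 < A) (hAB : A ≤ B) (hh : A + B ≤ h)
    (hs : s ∈ RR A B h W a) (hn : s ∉ RR A B h W (a - 1)) :
    B - h / 2 ≤ X (gz h W a) (ge W a) s := by
  by_contra hc
  push Not at hc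
  obtain ⟨h1, h2⟩ := right F hAB hs
  apply hn
  have e : a - 1 + 1 = a := by ring
  refine win_left F hA (by linarith) ?_ ?_
  · rw [e]; exact abs_lt.2 ⟨by linarith, hc⟩
  · rw [e]; exact h2 (by linarith)

/-- the inner tiles `o + 1, .., a - 1` -/
def Mid (A B h : ℝ) (W : ℤ → ℤ × ℤ) (o a : ℤ) : Set ℂ := {s | ∃ k, o < k ∧ k < a ∧ s ∈ RR A B h W k}

/-- a point on the outer side in the fat tile `o` is off the inner tiles -/
theorem mid_west (F : FPath M W) (hA : 0 < A) (hAB : A ≤ B) (hd0 : 0 ≤ d)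
    (hh : A + B + 2 * d < h) (hM : a - o < M) (hs : s ∈ RR (A + d) (B + d) h W o)
    (hx : X (gz h W (o + 1)) (ge W (o + 1)) s ≤ h / 2 - B) : s ∉ Mid A B h W o a := by
  rintro ⟨k, hk1, hk2, hk⟩
  rcases (show k = o + 1 ∨ o + 2 ≤ k by omega) with rfl | hk3
  · linarith [(right F hAB hk).1]
  · have hk' : s ∈ RR (A + d) (B + d) h W k := RR_mono (by linarith) (by linarith) _ _ _ hk
    refine Set.disjoint_left.1 (disj F (by linarith) (by linarith) (by linarith) ?_ ?_ ?_) hs hk'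
    · exact fun hc => by have := Int.le_of_dvd (by omega) hc; omega
    · exact fun hc => by have := Int.le_of_dvd (by omega) hc; omega
    · exact fun hc => by have := Int.le_of_dvd (by omega) hc; omega

/-- a point on the outer side in the fat tile `a` is off the inner tiles -/
theorem mid_east (F : FPath M W) (hA : 0 < A) (hAB : A ≤ B) (hd0 : 0 ≤ d)
    (hh : A + B + 2 * d < h) (hM : a - o < M) (hs : s ∈ RR (A + d) (B + d) h W a)
    (hx : B - h / 2 ≤ X (gz h W a) (ge W a) s) : s ∉ Mid A B h W o a := by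
  rintro ⟨k, hk1, hk2, hk⟩
  rcases (show k = a - 1 ∨ k ≤ a - 2 by omega) with rfl | hk3
  · have := (left F hAB hk).1
    rw [sub_add_cancel] at this
    linarith
  · have hk' : s ∈ RR (A + d) (B + d) h W k := RR_mono (by linarith) (by linarith) _ _ _ hk
    refine Set.disjoint_left.1 (disj F (by linarith) (by linarith) (by linarith) ?_ ?_ ?_) hk' hs
    · exact fun hc => by have := Int.le_of_dvd (by omega) hc; omega
    · exact fun hc => by have := Int.le_of_dvd (by omega) hc; omega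
    · exact fun hc => by have := Int.le_of_dvd (by omega) hc; omega

/-- **west zone**: the sites of the tile `o` off the inner tiles are joined to the centre, inside
the fat tile and off the inner tiles -/
theorem west (hS : GP (S : Set ℂ)) (h3 : 3 ≤ S.card) (F : FPath M W) (hA : 0 < A) (hAB : A ≤ B)
    (hd0 : 0 ≤ d) (hh : A + B + 2 * d < h) (hoa : o + 1 < a) (hM : a - o < M)
    (hd : ∀ z ∈ RR A B h W o, ∃ s ∈ S, ‖z - s‖ ≤ d) (hs : s ∈ S) (hsR : s ∈ RR A B h W o)
    (hsm : s ∉ Mid A B h W o a) (hco : co ∈ S) (hcc : cen h W o ∈ voronoiCell (S : Set ℂ) co) :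
    Pth S {q | q ∈ S ∧ q ∈ RR (A + d) (B + d) h W o ∧ q ∉ Mid A B h W o a} s co := by
  have h1 := west_walk hS h3 F hA hAB (by linarith) hd hs hsR
    (off_next F hA hAB (by linarith) hsR fun hc => hsm ⟨o + 1, by omega, hoa, hc⟩) hco hcc
  have sub : ∀ q, q ∈ {q | q ∈ S ∧ q ∈ RR (A + d) (B + d) h W o ∧
      X (gz h W (o + 1)) (ge W (o + 1)) q ≤ h / 2 - B} →
      q ∈ {q | q ∈ S ∧ q ∈ RR (A + d) (B + d) h W o ∧ q ∉ Mid A B h W o a} :=
    fun q hq => ⟨hq.1, hq.2.1, mid_west F hA hAB hd0 hh hM hq.2.1 hq.2.2⟩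
  exact ⟨sub _ h1.1, Relation.ReflTransGen.mono (fun a b hab => ⟨hab.1, sub _ hab.2⟩) _ _ h1.2⟩

/-- **east zone** -/
theorem east (hS : GP (S : Set ℂ)) (h3 : 3 ≤ S.card) (F : FPath M W) (hA : 0 < A) (hAB : A ≤ B)
    (hd0 : 0 ≤ d) (hh : A + B + 2 * d < h) (hoa : o + 1 < a) (hM : a - o < M)
    (hd : ∀ z ∈ RR A B h W a, ∃ s ∈ S, ‖z - s‖ ≤ d) (hs : s ∈ S) (hsR : s ∈ RR A B h W a)
    (hsm : s ∉ Mid A B h W o a) (hco : co ∈ S) (hcc : cen h W a ∈ voronoiCell (S : Set ℂ) co) :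
    Pth S {q | q ∈ S ∧ q ∈ RR (A + d) (B + d) h W a ∧ q ∉ Mid A B h W o a} s co := by
  have h1 := east_walk hS h3 F hA hAB (by linarith) hd hs hsR
    (off_prev F hA hAB (by linarith) hsR fun hc => hsm ⟨a - 1, by omega, by omega, hc⟩) hco hcc
  have sub : ∀ q, q ∈ {q | q ∈ S ∧ q ∈ RR (A + d) (B + d) h W a ∧
      B - h / 2 ≤ X (gz h W a) (ge W a) q} →
      q ∈ {q | q ∈ S ∧ q ∈ RR (A + d) (B + d) h W a ∧ q ∉ Mid A B h W o a} :=
    fun q hq => ⟨hq.1, hq.2.1, mid_east F hA hAB hd0 hh hM hq.2.1 hq.2.2⟩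
  exact ⟨sub _ h1.1, Relation.ReflTransGen.mono (fun a b hab => ⟨hab.1, sub _ hab.2⟩) _ _ h1.2⟩

end Crest.Agent.R143.ZnEx881
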