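import Crest.Agent.R143.REw_838
import Crest.Agent.R143.TileR2_228

/-!
# Row 143 (S0194), RIG (831's CorrI): end tiles, connectedness off the cut line (helper903)

* `core` : in the region `Arm u ∪ Arm v` of a tile every site with `X u ≤ κ` is joined to the site of
  the centre by sites of the region enlarged by `d` with `X u ≤ κ` (first leg of the path straight
  away from the cut line)
* `core_out`, `core_in` : the same for the tile `a` of 228's path: cut line near the gate `a + 1`,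
  near the gate `a`
* `top` : above the level `y1` of a window every site is joined to the site of the top point by sites
  above `y1`
-/

set_option autoImplicit false

noncomputable section

open scoped Classical

namespace Crest.Agent.R143.ZnGx903

open Crest.Agent.R143.B0x346 Crest.Agent.R143.DelGx806 Crest.Agent.R143.DelRx806
open Crest.ProbabilityR.Voronoi
open Crest.Agent.R143.TileRx228
open Crest.Agent.R143.Gatex838 (X Y)
open Crest.Agent.R143.RE0x723 (Pth)

variable {S : Finset ℂ} {A B d κ : ℝ} {c s p q : ℂ} {u v w : ℤ × ℤ}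

theorem X_sub (hu : U4 u) (c s t : ℂ) : |X c (cz u) s - X c (cz u) t| ≤ ‖s - t‖ := by
  have h : X c (cz u) s - X c (cz u) t = ((s - t) / cz u).re := by
    unfold X
    rw [← Complex.sub_re, ← sub_div]
    congr 2
    ring
  rw [h]
  refine (Complex.abs_re_le_norm _).trans ?_
  rw [norm_div, norm_cz hu, div_one]

theorem Y_sub (hu : U4 u) (c s t : ℂ) : |Y c (cz u) s - Y c (cz u) t| ≤ ‖s - t‖ := by
  have h : Y c (cz u) s - Y c (cz u) t = ((s - t) / cz u).im := by
    unfold Y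
    rw [← Complex.sub_im, ← sub_div]
    congr 2
    ring
  rw [h]
  refine (Complex.abs_im_le_norm _).trans ?_
  rw [norm_div, norm_cz hu, div_one]

theorem XY_c (c u : ℂ) : X c u c = 0 ∧ Y c u c = 0 := by
  unfold X Y
  simp

/-- coordinates on a segment -/
theorem X_seg {c u a b : ℂ} (h : p ∈ segment ℝ a b) :
    ∃ t : ℝ, 0 ≤ t ∧ t ≤ 1 ∧ X c u p = (1 - t) * X c u a + t * X c u b ∧
      Y c u p = (1 - t) * Y c u a + t * Y c u b := by
  obtain ⟨r, t, hr, ht, hrt, rfl⟩ := h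
  have hr' : r = 1 - t := by linarith
  subst hr'
  refine ⟨t, ht, by linarith, ?_, ?_⟩
  · unfold X
    have : ((1 - t) • a + t • b - c) / u = ((1 - t : ℝ) : ℂ) * ((a - c) / u) + (t : ℂ) * ((b - c) / u) := by
      simp only [Complex.real_smul]
      push_cast
      ring
    rw [this, Complex.add_re, Complex.re_ofReal_mul, Complex.re_ofReal_mul]
  · unfold Y
    have : ((1 - t) • a + t • b - c) / u = ((1 - t : ℝ) : ℂ) * ((a - c) / u) + (t : ℂ) * ((b - c) / u) := by
      simp only [Complex.real_smul]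
      push_cast
      ring
    rw [this, Complex.add_im, Complex.im_ofReal_mul, Complex.im_ofReal_mul]

/-- the foot of `s` on the line `X = 0` -/
def foot (c u s : ℂ) : ℂ := s - (X c u s : ℂ) * u

theorem foot_X {c u : ℂ} (hu : u ≠ 0) (s : ℂ) : X c u (foot c u s) = 0 ∧ Y c u (foot c u s) = Y c u s := by
  have h : (foot c u s - c) / u = (s - c) / u - (X c u s : ℂ) := by
    unfold foot
    field_simp
    ring
  constructor
  · unfold X at h ⊢
    rw [h, Complex.sub_re, Complex.ofReal_re, sub_self]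
  · unfold Y
    rw [h, Complex.sub_im, Complex.ofReal_im, sub_zero]

theorem foot_norm {c u : ℂ} (hu : ‖u‖ = 1) (s : ℂ) : ∀ p ∈ segment ℝ s (foot c u s),
    ‖p - s‖ = |X c u s - X c u p| := by
  intro p hp
  obtain ⟨r, t, hr, ht, hrt, rfl⟩ := hp
  have hr' : r = 1 - t := by linarith
  subst hr'
  have hu0 : u ≠ 0 := by
    intro h
    rw [h] at hu
    simp at hu
  have e1 : (1 - t) • s + t • foot c u s - s = -((t * X c u s : ℝ) : ℂ) * u := by
    unfold foot
    simp only [Complex.real_smul]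
    push_cast
    ring
  have e2 : X c u ((1 - t) • s + t • foot c u s) = X c u s - t * X c u s := by
    have : ((1 - t) • s + t • foot c u s - c) / u = (s - c) / u - ((t * X c u s : ℝ) : ℂ) := by
      unfold foot
      simp only [Complex.real_smul]
      push_cast
      field_simp
      ring
    conv_lhs => unfold X
    rw [this, Complex.sub_re, Complex.ofReal_re]
    rfl
  rw [e1, e2, norm_mul, norm_neg, hu, mul_one, Complex.norm_real, Real.norm_eq_abs]
  congr 1
  ring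

/-- **sites below the cut line are joined to the centre** -/
theorem core (gp : GP (S : Set ℂ)) (h3 : 3 ≤ S.card) (hu : U4 u) (hv : U4 v) (huv : v ≠ u)
    (hA : 0 < A) (hB : 0 < B) (hκ : A + d ≤ κ)
    (hol : ∀ z ∈ Arm A B c (cz u) ∪ Arm A B c (cz v), ∃ t ∈ S, ‖z - t‖ < d)
    {s s0 : ℂ} (hs : s ∈ S) (hsG : s ∈ Arm A B c (cz u) ∪ Arm A B c (cz v))
    (hcut : X c (cz u) s ≤ κ) (h0 : s0 ∈ S) (hc : c ∈ voronoiCell (S : Set ℂ) s0) :
    Pth S {q | q ∈ S ∧ q ∈ Arm (A + d) (B + d) c (cz u) ∪ Arm (A + d) (B + d) c (cz v) ∧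
      X c (cz u) q ≤ κ} s s0 := by
  -- the arm of `s`
  obtain ⟨w, hw, hwu, hsw⟩ : ∃ w, U4 w ∧ (w = u ∨ w = v) ∧ s ∈ Arm A B c (cz w) := by
    rcases hsG with h | h
    · exact ⟨u, hu, Or.inl rfl, h⟩
    · exact ⟨v, hv, Or.inr rfl, h⟩
  have hw0 : cz w ≠ 0 := cz_ne hw
  obtain ⟨f1, f2⟩ := foot_X (c := c) hw0 s
  obtain ⟨c1, c2⟩ := XY_c c (cz w)
  have hC : IsPreconnected (segment ℝ s (foot c (cz w) s) ∪ segment ℝ (foot c (cz w) s) c) :=
    IsPreconnected.union (foot c (cz w) s) (right_mem_segment ℝ _ _) (left_mem_segment ℝ _ _)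
      (convex_segment _ _).isPreconnected (convex_segment _ _).isPreconnected
  have hss : s ∈ voronoiCell (S : Set ℂ) s := fun t _ => by
    rw [sub_self, norm_zero]; exact norm_nonneg _
  refine Crest.Agent.R143.REwx838.pth_of_set gp h3 hC hs h0
    ⟨Or.inl (left_mem_segment ℝ _ _), hss⟩ ⟨Or.inr (right_mem_segment ℝ _ _), hc⟩ ?_
  rintro q hq ⟨p, hp, hpq⟩
  -- the coordinates of `p` in the frame of `w`
  have key : (-A < X c (cz w) p ∧ X c (cz w) p < B) ∧ |Y c (cz w) p| < A ∧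
      (w = u → X c (cz u) q ≤ κ ∨ X c (cz u) p ≤ 0) := by
    obtain ⟨⟨g1, g2⟩, g3⟩ := hsw
    obtain ⟨g4, g5⟩ := abs_lt.1 g3
    rcases hp with hp | hp
    · obtain ⟨t, t0, t1, e1, e2⟩ := X_seg (c := c) (u := cz w) hp
      rw [f1, mul_zero, add_zero] at e1
      rw [f2] at e2
      have e3 : Y c (cz w) p = Y c (cz w) s := by rw [e2]; ring
      refine ⟨⟨?_, ?_⟩, by rw [e3]; exact g3, fun hwu' => ?_⟩
      · rw [e1]
        rcases le_or_gt 0 (X c (cz w) s) with h | h
        · have : 0 ≤ (1 - t) * X c (cz w) s := mul_nonneg (by linarith) h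
          linarith
        · nlinarith
      · rw [e1]
        rcases le_or_gt 0 (X c (cz w) s) with h | h
        · nlinarith
        · have : (1 - t) * X c (cz w) s ≤ 0 := mul_nonpos_of_nonneg_of_nonpos (by linarith) h.le
          linarith
      · subst hwu'
        rcases le_or_gt 0 (X c (cz w) s) with h | h
        · left
          have h1 := foot_norm (norm_cz hw) s p hp
          have h2 : ‖p - q‖ ≤ ‖p - s‖ := by
            have := hpq s (Finset.mem_coe.2 hs)
            exact this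
          have h3 := X_sub hw c q p
          have h4 : 0 ≤ X c (cz w) s - X c (cz w) p := by rw [e1]; nlinarith
          rw [abs_of_nonneg h4] at h1
          rw [norm_sub_rev] at h3
          have h5 := (abs_le.1 h3).2
          linarith
        · right
          rw [e1]
          exact mul_nonpos_of_nonneg_of_nonpos (by linarith) h.le
    · obtain ⟨t, t0, t1, e1, e2⟩ := X_seg (c := c) (u := cz w) hp
      rw [f1, c1, mul_zero, mul_zero, add_zero] at e1
      rw [f2, c2, mul_zero, add_zero] at e2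
      refine ⟨⟨by linarith, by linarith⟩, ?_, fun hwu' => Or.inr ?_⟩
      · rw [e2, abs_mul, abs_of_nonneg (by linarith : 0 ≤ 1 - t)]
        have := abs_nonneg (Y c (cz w) s)
        nlinarith
      · rw [← hwu', e1]
  obtain ⟨⟨k1, k2⟩, k3, k4⟩ := key
  have hpA : p ∈ Arm A B c (cz w) := ⟨⟨k1, k2⟩, k3⟩
  -- the distance
  have hpd : ‖p - q‖ < d := by
    obtain ⟨t, ht, h1⟩ := hol p (by
      rcases hwu with rfl | rfl
      · exact Or.inl hpA
      · exact Or.inr hpA)
    exact lt_of_le_of_lt (hpq t (Finset.mem_coe.2 ht)) h1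
  have hqp : ‖q - p‖ < d := by rw [norm_sub_rev]; exact hpd
  have hX := abs_lt.1 (lt_of_le_of_lt (X_sub hw c q p) hqp)
  have hY := abs_lt.1 (lt_of_le_of_lt (Y_sub hw c q p) hqp)
  obtain ⟨k5, k6⟩ := abs_lt.1 k3
  have hqA : q ∈ Arm (A + d) (B + d) c (cz w) :=
    ⟨⟨by linarith [hX.1], by linarith [hX.2]⟩, abs_lt.2 ⟨by linarith [hY.1], by linarith [hY.2]⟩⟩
  refine ⟨hq, ?_, ?_⟩
  · rcases hwu with rfl | rfl
    · exact Or.inl hqA
    · exact Or.inr hqA
  · have hXu := abs_lt.1 (lt_of_le_of_lt (X_sub hu c q p) hqp)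
    rcases hwu with hwu | hwu
    · rcases k4 hwu with h | h
      · exact h
      · linarith [hXu.2]
    · have h1 : X c (cz u) p < A := arm_frame hu hv huv (by rw [← hwu]; exact hpA)
      linarith [hXu.2]

variable {M : ℕ} {W : ℤ → ℤ × ℤ} {a : ℤ} {h : ℝ}

/-- **end tile, cut line near the gate `a + 1`** : a site of the tile `a` behind the line
`X' = h / 2 - B₁` of the gate `a + 1` is joined to the site of the centre -/
theorem core_out (P : FPath M W) (gp : GP (S : Set ℂ)) (h3 : 3 ≤ S.card) (hd : 0 < d) (hA : 0 < A)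
    (hB : 0 < B) {B₁ : ℝ} (hκ : A + B₁ + d ≤ h) (hol : ∀ z ∈ RR A B h W a, ∃ t ∈ S, ‖z - t‖ < d)
    {s s0 : ℂ} (hs : s ∈ S) (hsG : s ∈ RR A B h W a)
    (hcut : X (gz h W (a + 1)) (ge W (a + 1)) s ≤ h / 2 - B₁) (h0 : s0 ∈ S)
    (hc : cen h W a ∈ voronoiCell (S : Set ℂ) s0) :
    Pth S {q | q ∈ S ∧ q ∈ RR (A + d) (B + d) h W a ∧
      X (gz h W (a + 1)) (ge W (a + 1)) q ≤ h / 2 - B₁} s s0 := by
  have e3 : ge W (a + 1) = cz (W (a + 1) - W a) := by
    unfold ge
    rw [add_sub_cancel_right]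
  have hsub : ∀ {A B : ℝ} {z : ℂ}, z ∈ RR A B h W a ↔
      z ∈ Arm A B (cen h W a) (cz (W (a + 1) - W a)) ∪ Arm A B (cen h W a) (cz (W (a - 1) - W a)) := by
    intro A B z
    unfold RR
    rw [Set.union_comm]
  have e1 : ∀ q, X (gz h W (a + 1)) (ge W (a + 1)) q =
      X (cen h W a) (cz (W (a + 1) - W a)) q - h / 2 := by
    intro q
    obtain ⟨e1, -⟩ := XY_out P h a q
    rw [e1, e3]
  have key := core gp h3 (P.step a) (P.step' a) (P.ne a) hA hB (κ := h - B₁) (by linarith)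
    (fun z hz => hol z (hsub.2 hz)) hs (hsub.1 hsG) (by have := e1 s; linarith) h0 hc
  refine ⟨⟨hs, (RR_mono (by linarith) (by linarith) h W a) hsG, hcut⟩, ?_⟩
  refine Relation.ReflTransGen.mono ?_ _ _ key.2
  rintro x y ⟨g1, g2, g3, g4⟩
  exact ⟨g1, g2, hsub.2 g3, by rw [e1]; linarith⟩

/-- **end tile, cut line near the gate `a`** -/
theorem core_in (P : FPath M W) (gp : GP (S : Set ℂ)) (h3 : 3 ≤ S.card) (hd : 0 < d) (hA : 0 < A)
    (hB : 0 < B) {B₁ : ℝ} (hκ : A + B₁ + d ≤ h) (hol : ∀ z ∈ RR A B h W a, ∃ t ∈ S, ‖z - t‖ < d)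
    {s s0 : ℂ} (hs : s ∈ S) (hsG : s ∈ RR A B h W a)
    (hcut : B₁ - h / 2 ≤ X (gz h W a) (ge W a) s) (h0 : s0 ∈ S)
    (hc : cen h W a ∈ voronoiCell (S : Set ℂ) s0) :
    Pth S {q | q ∈ S ∧ q ∈ RR (A + d) (B + d) h W a ∧
      B₁ - h / 2 ≤ X (gz h W a) (ge W a) q} s s0 := by
  have e3 : ge W a = -cz (W (a - 1) - W a) := by
    unfold ge
    rw [← cz_neg, neg_sub]
  have e1 : ∀ q, X (gz h W a) (ge W a) q =
      h / 2 - X (cen h W a) (cz (W (a - 1) - W a)) q := by
    intro q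
    obtain ⟨e1, -⟩ := XY_in P h a q
    rw [e1, e3, (XY_neg _ _ _).1]
    ring
  have key := core gp h3 (P.step' a) (P.step a) (P.ne a).symm hA hB (κ := h - B₁) (by linarith)
    hol hs hsG (by have := e1 s; linarith) h0 hc
  refine ⟨⟨hs, (RR_mono (by linarith) (by linarith) h W a) hsG, hcut⟩, ?_⟩
  refine Relation.ReflTransGen.mono ?_ _ _ key.2
  rintro x y ⟨g1, g2, g3, g4⟩
  exact ⟨g1, g2, g3, by rw [e1]; linarith⟩

/-! ### the top of a window -/

/-- the point above `s` at the level `y` -/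
def lift (c u : ℂ) (y : ℝ) (s : ℂ) : ℂ := s + ((y - Y c u s : ℝ) : ℂ) * (Complex.I * u)

theorem lift_XY {c u : ℂ} (hu : u ≠ 0) (y : ℝ) (s : ℂ) :
    X c u (lift c u y s) = X c u s ∧ Y c u (lift c u y s) = y := by
  have h : (lift c u y s - c) / u = (s - c) / u + ((y - Y c u s : ℝ) : ℂ) * Complex.I := by
    unfold lift
    field_simp
    ring
  constructor
  · unfold X at h ⊢
    rw [h, Complex.add_re, Complex.re_ofReal_mul, Complex.I_re, mul_zero, add_zero]
  · have h2 : Y c u (lift c u y s) = Y c u s + (y - Y c u s) := by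
      conv_lhs => unfold Y
      rw [h, Complex.add_im, Complex.im_ofReal_mul, Complex.I_im, mul_one]
      rfl
    rw [h2]
    ring

theorem lift_norm {c u : ℂ} (hu : ‖u‖ = 1) (y : ℝ) (s : ℂ) : ∀ p ∈ segment ℝ s (lift c u y s),
    ‖p - s‖ = |Y c u p - Y c u s| := by
  intro p hp
  have hu0 : u ≠ 0 := by
    intro h
    rw [h] at hu
    simp at hu
  obtain ⟨-, l2⟩ := lift_XY (c := c) hu0 y s
  obtain ⟨r, t, hr, ht, hrt, rfl⟩ := hp
  have hr' : r = 1 - t := by linarith
  subst hr'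
  have e1 : (1 - t) • s + t • lift c u y s - s = ((t * (y - Y c u s) : ℝ) : ℂ) * (Complex.I * u) := by
    unfold lift
    simp only [Complex.real_smul]
    push_cast
    ring
  have e2 : Y c u ((1 - t) • s + t • lift c u y s) = Y c u s + t * (y - Y c u s) := by
    have : ((1 - t) • s + t • lift c u y s - c) / u =
        (s - c) / u + ((t * (y - Y c u s) : ℝ) : ℂ) * Complex.I := by
      unfold lift
      simp only [Complex.real_smul]
      push_cast
      field_simp
      ring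
    conv_lhs => unfold Y
    rw [this, Complex.add_im, Complex.im_ofReal_mul, Complex.I_im, mul_one]
    rfl
  rw [e1, e2, norm_mul, norm_mul, Complex.norm_I, one_mul, hu, mul_one, Complex.norm_real,
    Real.norm_eq_abs]
  congr 1
  ring

/-- the point `(0, y)` -/
def pt (c u : ℂ) (y : ℝ) : ℂ := c + (y : ℂ) * (Complex.I * u)

theorem pt_XY {c u : ℂ} (hu : u ≠ 0) (y : ℝ) : X c u (pt c u y) = 0 ∧ Y c u (pt c u y) = y := by
  have h : (pt c u y - c) / u = (y : ℂ) * Complex.I := by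
    unfold pt
    field_simp
    ring
  unfold X Y
  rw [h]
  simp

/-- **the sites above the level `y1` of a window are joined to the site of the top point** -/
theorem top (gp : GP (S : Set ℂ)) (h3 : 3 ≤ S.card) (hu : U4 u) {z0 : ℂ} {a1 y1 yT : ℝ}
    (hyT : y1 + d ≤ yT)
    (hol : ∀ z, |X z0 (cz u) z| < a1 → y1 ≤ Y z0 (cz u) z → Y z0 (cz u) z ≤ yT →
      ∃ t ∈ S, ‖z - t‖ < d)
    {s s0 : ℂ} (hs : s ∈ S) (hX : |X z0 (cz u) s| < a1) (hY : y1 ≤ Y z0 (cz u) s)
    (hY' : Y z0 (cz u) s ≤ yT) (h0 : s0 ∈ S)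
    (hc : pt z0 (cz u) yT ∈ voronoiCell (S : Set ℂ) s0) :
    Pth S {q | q ∈ S ∧ |X z0 (cz u) q| < a1 + d ∧ y1 ≤ Y z0 (cz u) q ∧ Y z0 (cz u) q < yT + d}
      s s0 := by
  have hu0 : cz u ≠ 0 := cz_ne hu
  obtain ⟨f1, f2⟩ := lift_XY (c := z0) hu0 yT s
  obtain ⟨c1, c2⟩ := pt_XY (c := z0) hu0 yT
  have hC : IsPreconnected (segment ℝ s (lift z0 (cz u) yT s) ∪
      segment ℝ (lift z0 (cz u) yT s) (pt z0 (cz u) yT)) :=
    IsPreconnected.union (lift z0 (cz u) yT s) (right_mem_segment ℝ _ _) (left_mem_segment ℝ _ _)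
      (convex_segment _ _).isPreconnected (convex_segment _ _).isPreconnected
  have hss : s ∈ voronoiCell (S : Set ℂ) s := fun t _ => by
    rw [sub_self, norm_zero]; exact norm_nonneg _
  refine Crest.Agent.R143.REwx838.pth_of_set gp h3 hC hs h0
    ⟨Or.inl (left_mem_segment ℝ _ _), hss⟩ ⟨Or.inr (right_mem_segment ℝ _ _), hc⟩ ?_
  rintro q hq ⟨p, hp, hpq⟩
  have key : |X z0 (cz u) p| < a1 ∧ y1 ≤ Y z0 (cz u) p ∧ Y z0 (cz u) p ≤ yT ∧
      (y1 ≤ Y z0 (cz u) q ∨ Y z0 (cz u) p = yT) := by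
    rcases hp with hp | hp
    · obtain ⟨t, t0, t1, e1, e2⟩ := X_seg (c := z0) (u := cz u) hp
      rw [f1] at e1
      rw [f2] at e2
      have e3 : X z0 (cz u) p = X z0 (cz u) s := by rw [e1]; ring
      have e4 : Y z0 (cz u) s ≤ Y z0 (cz u) p := by rw [e2]; nlinarith
      refine ⟨by rw [e3]; exact hX, by linarith, by rw [e2]; nlinarith, Or.inl ?_⟩
      have h1 := lift_norm (norm_cz hu) yT s p hp
      rw [abs_of_nonneg (by linarith)] at h1
      have h2 : ‖p - q‖ ≤ ‖p - s‖ := hpq s (Finset.mem_coe.2 hs)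
      have h4 := (abs_le.1 (Y_sub hu z0 p q)).2
      linarith
    · obtain ⟨t, t0, t1, e1, e2⟩ := X_seg (c := z0) (u := cz u) hp
      rw [f1, c1, mul_zero, add_zero] at e1
      rw [f2, c2] at e2
      have e3 : Y z0 (cz u) p = yT := by rw [e2]; ring
      refine ⟨?_, by linarith, e3.le, Or.inr e3⟩
      rw [e1, abs_mul, abs_of_nonneg (by linarith : 0 ≤ 1 - t)]
      have := abs_nonneg (X z0 (cz u) s)
      nlinarith
  obtain ⟨k1, k2, k3, k4⟩ := key
  have hpd : ‖p - q‖ < d := by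
    obtain ⟨t, ht, h1⟩ := hol p k1 k2 k3
    exact lt_of_le_of_lt (hpq t (Finset.mem_coe.2 ht)) h1
  have hX' := abs_lt.1 (lt_of_le_of_lt (X_sub hu z0 p q) hpd)
  have hY'' := abs_lt.1 (lt_of_le_of_lt (Y_sub hu z0 p q) hpd)
  obtain ⟨k5, k6⟩ := abs_lt.1 k1
  refine ⟨hq, abs_lt.2 ⟨by linarith [hX'.2], by linarith [hX'.1]⟩, ?_, by linarith [hY''.1]⟩
  rcases k4 with h | h
  · exact h
  · linarith [hY''.2]

end Crest.Agent.R143.ZnGx903
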