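import Crest.Agent.R143.ZnQ_323
import Crest.Agent.R143.ZnE_881
import Crest.Agent.R143.ZnG_903
import Crest.Agent.R143.LnkL_927
import Crest.Agent.R143.CorrB_831
import Crest.Agent.R143.SubE_117

/-!
# Row 143 (S0194), RIG, box Q2: the zones of a window (helper323)

`Env S M W η d` : the environment of the strips (no colours); `T₁ = Wd .. i₁ i₂` the tiles
`i₁ ≤ a < i₂` of a window.
* `cmp S A e` : sites joined to `e` in `A`; `cn_cmp` : connected set of cells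
* **`zR`** : zones of the piece of the strand in the out tiles `≥ b'` (`i₂ = o + b'`), end tile
  `o + n - 1`; **`zL`** : zones of the piece in the tiles `< a'` (`i₁ = o + a'`), end tile `o`
* `sideR`, `sideL` : 117's `SideH`
* `fix_two`, `fix_R`, `fix_L` : 535's `Fix`
-/

set_option autoImplicit false
set_option linter.unusedVariables false
set_option linter.unusedSectionVars false

noncomputable section

open scoped Classical

namespace Crest.Agent.R143.ZnQx323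

open Crest.ProbabilityR.Voronoi
open Crest.Agent.R143.B0x346 Crest.Agent.R143.DelGx806 Crest.Agent.R143.DelRx806
open Crest.Agent.R143.RE0x723 (Pth)
open Crest.Agent.R143.Frame1x395 Crest.Agent.R143.Frame2x395 Crest.Agent.R143.Frame3x395
  Crest.Agent.R143.Frame4x395 Crest.Agent.R143.Frame8x395 Crest.Agent.R143.Frame9x395
  Crest.Agent.R143.Frame10x395 Crest.Agent.R143.Frame11x395
open Crest.Agent.R143.NonXx592 (P Rc)
open Crest.Agent.R143.Extx358 (Ad Ext)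
open Crest.Agent.R143.FinCx811 (Cs rc0 cs rcol)
open Crest.Agent.R143.WLocx713 (HullC xc sX cX bX)
open Crest.Agent.R143.Blkx838 (DE)
open Crest.Agent.R143.K33x137 (Ed Cn)
open Crest.Agent.R143.Uniqx323 (Zn)
open Crest.Agent.R143.RcTx422
open Crest.Agent.R143.Segx991 (Clm Hl pth_conn mem_clm near)
open Crest.Agent.R143.Gatex838 (X Y)
open Crest.Agent.R143.TileRx228
open Crest.Agent.R143.CorHx713
open Crest.Agent.R143.CorrIx831 (bst Bk Rws)
open Crest.Agent.R143.SubDx117 (UB)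
open Crest.Agent.R143.RingDx117 (RD)

/-! ### components of sets of sites -/

section cmp

variable {S : Finset ℂ} {hS : GP (S : Set ℂ)} {A A' : Set ℂ} {e u w : ℂ}

/-- the sites joined to `e` in `A` -/
def cmp (S : Finset ℂ) (A : Set ℂ) (e : ℂ) : Set ℂ := {z | Pth S A z e}

theorem cmp_sub : cmp S A e ⊆ A := fun _ h => h.1

theorem lk_of_pth {A : Set ℂ} {u w : ℂ} (h : Pth S A u w) : Neckx921.Lk S A u w := by
  obtain ⟨hu, h⟩ := h
  induction h with
  | refl => exact Neckx921.Lk.refl hu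
  | @tail a b _ h1 ih => exact ih.trans ⟨⟨ih.1.2, h1.2⟩, Relation.ReflTransGen.single
      ⟨h1.1, ih.1.2, h1.2⟩⟩

theorem cmp_lk (hu : u ∈ cmp S A e) (hw : w ∈ cmp S A e) : Neckx921.Lk S (cmp S A e) u w := by
  have h1 : Pth S (cmp S A e) u e := (Pth.self hu).mono fun v hv => hv.2
  have h2 : Pth S (cmp S A e) w e := (Pth.self hw).mono fun v hv => hv.2
  exact lk_of_pth (h1.trans h2.symm)

/-- **the cells of a component are a connected set** -/
theorem cn_cmp (h3 : 3 ≤ S.card) : Cn (rc0 hS) (CS hS (cmp S A e)) :=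
  cn_CS h3 fun _ _ hu _ _ hw => cmp_lk hu hw

/-- **zones from sets of sites** -/
def mkZ (hS : GP (S : Set ℂ)) (h3 : 3 ≤ S.card) (UR KW EA WA TA : Set ℂ) (e w h₀ : ℂ)
    (kr : KW ⊆ UR) (re : ∀ v ∈ S, v ∈ UR → v ∉ EA) (rw_ : ∀ v ∈ S, v ∈ UR → v ∉ WA)
    (rt : ∀ v ∈ S, v ∈ UR → v ∉ TA) (ew : ∀ v ∈ S, v ∈ EA → v ∉ WA)
    (et : ∀ v ∈ S, v ∈ EA → v ∉ TA) (wt : ∀ v ∈ S, v ∈ WA → v ∉ TA)
    (ei : ∀ v ∈ S, v ∈ EA → ¬ OnHull S v) (wi : ∀ v ∈ S, v ∈ WA → ¬ OnHull S v) :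
    Zn (rc0 hS) where
  R := RC hS UR
  K := RC hS KW
  E := CS hS (cmp S EA e)
  W := CS hS (cmp S WA w)
  T := CS hS (cmp S TA h₀)
  KR := RC_mono kr
  cE := cn_cmp h3
  cW := cn_cmp h3
  cT := cn_cmp h3
  RE := RC_disj fun v h1 h2 h4 => re v h1 h2 (cmp_sub h4)
  RW := RC_disj fun v h1 h2 h4 => rw_ v h1 h2 (cmp_sub h4)
  RT := RC_disj fun v h1 h2 h4 => rt v h1 h2 (cmp_sub h4)
  EW := CS_disj (fun v h1 h2 h4 => ew v h1 (cmp_sub h2) (cmp_sub h4))
    fun v h1 h2 => ei v h1 (cmp_sub h2)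
  ET := CS_disj (fun v h1 h2 h4 => et v h1 (cmp_sub h2) (cmp_sub h4))
    fun v h1 h2 => ei v h1 (cmp_sub h2)
  WT := CS_disj (fun v h1 h2 h4 => wt v h1 (cmp_sub h2) (cmp_sub h4))
    fun v h1 h2 => wi v h1 (cmp_sub h2)

end cmp

/-! ### tiles and gates -/

section tiles

variable {M : ℕ} {W : ℤ → ℤ × ℤ} {A' B' h : ℝ} {s : ℂ}

theorem nd {M : ℕ} {t : ℤ} (h0 : t ≠ 0) (h1 : -(M : ℤ) < t) (h2 : t < M) : ¬ (M : ℤ) ∣ t :=
  fun h => h0 (Int.eq_zero_of_abs_lt_dvd h (abs_lt.2 ⟨h1, h2⟩))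

/-- tiles at index distance `≥ 2` -/
theorem dj (P : FPath M W) (hA : 0 < A') (hAB : A' ≤ B') (hh : A' + B' < h) {a b : ℤ}
    (h1 : a + 2 ≤ b) (h2 : b + 2 ≤ a + M) (hs : s ∈ RR A' B' h W a) : s ∉ RR A' B' h W b :=
  fun ht => Set.disjoint_left.1 (disj P hA hAB hh (nd (by omega) (by omega) (by omega))
    (nd (by omega) (by omega) (by omega)) (nd (by omega) (by omega) (by omega))) hs ht

/-- a point of the two tiles of a gate is in no other tile -/
theorem two_off (P : FPath M W) (hA : 0 < A') (hAB : A' ≤ B') (hh : A' + B' < h) {G k : ℤ}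
    (h1 : s ∈ RR A' B' h W G) (h2 : s ∈ RR A' B' h W (G - 1)) (k0 : ¬ (M : ℤ) ∣ k - G)
    (k1 : ¬ (M : ℤ) ∣ k - (G - 1)) : s ∉ RR A' B' h W k := by
  intro hk
  by_cases h3 : (M : ℤ) ∣ k - (G + 1)
  · refine Set.disjoint_left.1 (disj P hA hAB hh (a := G - 1) (b := k) k1 ?_ ?_) h2 hk
    · rw [show k - (G - 1 + 1) = k - G by ring]; exact k0
    · intro h4
      refine P.not3 ?_
      have h5 := dvd_sub h4 h3
      rwa [show k - (G - 1 - 1) - (k - (G + 1)) = 3 by ring] at h5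
  · exact Set.disjoint_left.1 (disj P hA hAB hh (a := G) (b := k) k0 h3 k1) h1 hk

end tiles

/-! ### the environment -/

/-- **the environment of the strips** (no colours) -/
structure Env (S : Finset ℂ) (M : ℕ) (W : ℤ → ℤ × ℤ) (η d : ℝ) : Prop where
  path : FPath M W
  h3 : 3 ≤ S.card
  e0 : 0 < η
  d0 : 0 < d
  de : 100 * d ≤ η
  hol : ∀ a : ℤ, ∀ z ∈ bst η W a, ∃ t ∈ S, ‖z - t‖ < d
  up : ∀ (a : ℤ) (z : ℂ), |X (gz (100 * η) W a) (ge W a) z| < 2 * η →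
    |Y (gz (100 * η) W a) (ge W a) z| < 13 * η → ∃ t ∈ S, ‖z - t‖ < d
  inn : ∀ a : ℤ, ∀ v ∈ S, v ∈ RR (10 * η) (52 * η) (100 * η) W a → ¬ OnHull S v

theorem Env.of_cor {X₀ : Set (ℂ × Bool)} {U : Set ℂ} {M : ℕ} {W : ℤ → ℤ × ℤ} {η d : ℝ} {o : ℤ}
    {n : ℕ} (H : CorH X₀ U M W η d o n) : Env (sX X₀) M W η d := by
  have e0 := H.e0
  have key : ∀ z ∈ U, ∃ t ∈ sX X₀, ‖z - t‖ < d := by
    intro z hz
    obtain ⟨s, hs, h⟩ := H.holS z hz z (by rw [sub_self, norm_zero]; exact H.d0.le)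
    exact ⟨s, Finset.mem_coe.1 hs, by rw [norm_sub_rev]; exact h⟩
  exact ⟨H.path, LnkLx927.card3' H, H.e0, H.d0, H.de,
    fun a z hz => key z (H.sub_U (by linarith) (by linarith) a hz),
    fun a z h1 h2 => key z (H.box_U a (by linarith) (by linarith)),
    fun a v _ hv => H.inn (H.sub_U (by linarith) (by linarith) a hv)⟩

variable {S : Finset ℂ} {M : ℕ} {W : ℤ → ℤ × ℤ} {η d : ℝ} {o : ℤ} {n : ℕ}

/-- the fat strip -/
def fbt (η d : ℝ) (W : ℤ → ℤ × ℤ) (a : ℤ) : Set ℂ :=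
  RR (19 / 2 * η + d) (103 / 2 * η + d) (100 * η) W a

/-- the tiles `i ≤ a < j` -/
def T₁ (η : ℝ) (W : ℤ → ℤ × ℤ) (i j : ℤ) : Set ℂ :=
  Wd (19 / 2 * η) (103 / 2 * η) (100 * η) W i j

/-- the window of the gate `G` -/
def KW (η : ℝ) (W : ℤ → ℤ × ℤ) (G : ℤ) : Set ℂ :=
  {s | |X (gz (100 * η) W G) (ge W G) s| < η ∧ |Y (gz (100 * η) W G) (ge W G) s| < 19 / 2 * η}

/-- sites off all strips and off the fat strips of `J` -/
def TA (S : Finset ℂ) (η d : ℝ) (W : ℤ → ℤ × ℤ) (J : Set ℤ) : Set ℂ :=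
  {q | q ∈ S ∧ (∀ a, q ∉ bst η W a) ∧ ∀ a ∈ J, q ∉ fbt η d W a}

/-- sites of the fat run -/
def WA (S : Finset ℂ) (η d : ℝ) (W : ℤ → ℤ × ℤ) (i j : ℤ) : Set ℂ :=
  {q | q ∈ S ∧ q ∈ Wd (19 / 2 * η + d) (103 / 2 * η) (100 * η) W i j}

/-- sites of the fat end tile `e` off the tiles `i < a < j` -/
def EA (S : Finset ℂ) (η d : ℝ) (W : ℤ → ℤ × ℤ) (e i j : ℤ) : Set ℂ :=
  {q | q ∈ S ∧ q ∈ fbt η d W e ∧
    q ∉ ZnEx881.Mid (19 / 2 * η) (103 / 2 * η) (100 * η) W i j}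

/-- the site of the centre of the tile `a` -/
def cr (S : Finset ℂ) (η : ℝ) (W : ℤ → ℤ × ℤ) (a : ℤ) : ℂ :=
  if h : ∃ q ∈ S, cen (100 * η) W a ∈ voronoiCell (S : Set ℂ) q then h.choose else 0

namespace Env

theorem nS (E : Env S M W η d) : S.Nonempty := by
  rw [← Finset.card_pos]
  have := E.h3
  omega

theorem cr_spec (E : Env S M W η d) (a : ℤ) :
    cr S η W a ∈ S ∧ cen (100 * η) W a ∈ voronoiCell (S : Set ℂ) (cr S η W a) := by
  have h : ∃ q ∈ S, cen (100 * η) W a ∈ voronoiCell (S : Set ℂ) q :=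
    G6Wx723.exists_cell E.nS _
  unfold cr
  rw [dif_pos h]
  exact h.choose_spec

theorem hl (E : Env S M W η d) (a : ℤ) : Hl S (bst η W a) d := fun z hz => by
  obtain ⟨t, ht, h⟩ := E.hol a z hz
  exact ⟨t, ht, h.le⟩

theorem cen_bst (E : Env S M W η d) (a : ℤ) : cen (100 * η) W a ∈ bst η W a := by
  have e0 := E.e0
  right
  obtain ⟨x1, x2⟩ := ZnEx881.XY_self (cen (100 * η) W a) (cz (W (a + 1) - W a))
  refine ⟨⟨?_, ?_⟩, ?_⟩
  · rw [x1]; linarith
  · rw [x1]; linarith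
  · rw [x2, abs_zero]; linarith

theorem cr_bst (E : Env S M W η d) (a : ℤ) : cr S η W a ∈ bst η W a := by
  have e0 := E.e0
  have d0 := E.d0
  have de := E.de
  obtain ⟨h1, h2⟩ := E.cr_spec a
  obtain ⟨t, ht, h⟩ := E.hol a _ (E.cen_bst a)
  have h5 : ‖cen (100 * η) W a - cr S η W a‖ ≤ d := (h2 t (Finset.mem_coe.2 ht)).trans h.le
  obtain ⟨g1, g2⟩ := X_near (norm_cz (E.path.step a)) (cen (100 * η) W a) (cen (100 * η) W a)
    (cr S η W a)
  have g1' := abs_le.1 (g1.trans h5)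
  have g2' := abs_le.1 (g2.trans h5)
  obtain ⟨x1, x2⟩ := ZnEx881.XY_self (cen (100 * η) W a) (cz (W (a + 1) - W a))
  rw [x1] at g1'
  rw [x2] at g2'
  exact Or.inr ⟨⟨by linarith [g1'.2], by linarith [g1'.1]⟩,
    abs_lt.2 ⟨by linarith [g2'.2], by linarith [g2'.1]⟩⟩

theorem inn_fbt (E : Env S M W η d) (a : ℤ) {v : ℂ} (hv : v ∈ S) (h : v ∈ fbt η d W a) :
    ¬ OnHull S v := by
  have e0 := E.e0
  have de := E.de
  exact E.inn a v hv (RR_mono (by linarith) (by linarith) _ _ _ h)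

theorem bst_fbt (E : Env S M W η d) (a : ℤ) : bst η W a ⊆ fbt η d W a :=
  RR_mono (by linarith [E.d0]) (by linarith [E.d0]) _ _ _

theorem inn_bst (E : Env S M W η d) (a : ℤ) {v : ℂ} (hv : v ∈ S) (h : v ∈ bst η W a) :
    ¬ OnHull S v := E.inn_fbt a hv (E.bst_fbt a h)

theorem dj_bst (E : Env S M W η d) {a b : ℤ} (h1 : a + 2 ≤ b) (h2 : b + 2 ≤ a + M) {s : ℂ}
    (hs : s ∈ bst η W a) : s ∉ bst η W b := by
  have e0 := E.e0
  exact dj E.path (by linarith) (by linarith) (by linarith) h1 h2 hs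

theorem dj_fbt (E : Env S M W η d) {a b : ℤ} (h1 : a + 2 ≤ b) (h2 : b + 2 ≤ a + M) {s : ℂ}
    (hs : s ∈ fbt η d W a) : s ∉ fbt η d W b := by
  have e0 := E.e0
  have d0 := E.d0
  have de := E.de
  exact dj E.path (by linarith) (by linarith) (by linarith) h1 h2 hs

theorem wd_fbt (E : Env S M W η d) {i j : ℤ} {s : ℂ}
    (hs : s ∈ Wd (19 / 2 * η + d) (103 / 2 * η) (100 * η) W i j) :
    ∃ k, i ≤ k ∧ k < j ∧ s ∈ fbt η d W k := by
  obtain ⟨k, h1, h2, h3⟩ := hs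
  exact ⟨k, h1, h2, RR_mono le_rfl (by linarith [E.d0]) _ _ _ h3⟩

/-! gates -/

theorem kw_bst (E : Env S M W η d) {G : ℤ} {s : ℂ} (hs : s ∈ KW η W G) :
    s ∈ bst η W G ∧ s ∈ bst η W (G - 1) := by
  have e0 := E.e0
  constructor
  · exact win_right E.path (by linarith) (by linarith) (lt_of_lt_of_le hs.1 (by linarith)) hs.2
  · refine win_left E.path (by linarith) (by linarith) ?_ ?_
    · rw [sub_add_cancel]; exact lt_of_lt_of_le hs.1 (by linarith)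
    · rw [sub_add_cancel]; exact hs.2

/-- the window of the gate `G` is off the other tiles -/
theorem kw_off (E : Env S M W η d) {G k : ℤ} {s : ℂ} (hs : s ∈ KW η W G)
    (k0 : ¬ (M : ℤ) ∣ k - G) (k1 : ¬ (M : ℤ) ∣ k - (G - 1)) : s ∉ bst η W k := by
  have e0 := E.e0
  exact two_off E.path (by linarith) (by linarith) (by linarith) (E.kw_bst hs).1 (E.kw_bst hs).2
    k0 k1

/-- above the window of the gate `G` -/
theorem up_off (E : Env S M W η d) {G : ℤ} {s : ℂ}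
    (h1 : |X (gz (100 * η) W G) (ge W G) s| < 2 * η)
    (h2 : 19 / 2 * η ≤ Y (gz (100 * η) W G) (ge W G) s)
    (h3 : Y (gz (100 * η) W G) (ge W G) s < 13 * η) :
    (∀ a, s ∉ bst η W a) ∧ ∀ a, ¬ (M : ℤ) ∣ a - G → ¬ (M : ℤ) ∣ a - (G - 1) →
      s ∉ fbt η d W a := by
  have e0 := E.e0
  have d0 := E.d0
  have de := E.de
  have hx := abs_lt.1 h1
  have hY : |Y (gz (100 * η) W G) (ge W G) s| < 13 * η := abs_lt.2 ⟨by linarith, h3⟩
  have r1 : s ∈ RR (13 * η) (52 * η) (100 * η) W G :=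
    win_right E.path (by linarith) (by linarith) (lt_of_lt_of_le h1 (by linarith)) hY
  have r2 : s ∈ RR (13 * η) (52 * η) (100 * η) W (G - 1) := by
    refine win_left E.path (by linarith) (by linarith) ?_ ?_
    · rw [sub_add_cancel]; exact lt_of_lt_of_le h1 (by linarith)
    · rw [sub_add_cancel]; exact hY
  have key : ∀ a, ¬ (M : ℤ) ∣ a - G → ¬ (M : ℤ) ∣ a - (G - 1) → s ∉ fbt η d W a := by
    intro a a0 a1 hc
    exact two_off E.path (by linarith) (by linarith) (by linarith) r1 r2 a0 a1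
      (RR_mono (by linarith) (by linarith) _ _ _ hc)
  refine ⟨fun a ha => ?_, key⟩
  by_cases a0 : (M : ℤ) ∣ a - G
  · have hb : s ∈ bst η W G := by
      have e : bst η W a = bst η W G := PthFx765.RR_dvd E.path a0
      rw [← e]; exact ha
    have h5 := (right E.path (by linarith) hb).2 (by linarith)
    linarith [(abs_lt.1 h5).2]
  by_cases a1 : (M : ℤ) ∣ a - (G - 1)
  · have hb : s ∈ bst η W (G - 1) := by
      have e : bst η W a = bst η W (G - 1) := PthFx765.RR_dvd E.path a1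
      rw [← e]; exact ha
    have h5 := (left E.path (by linarith) hb).2
    rw [sub_add_cancel] at h5
    have h6 := h5 (by linarith)
    linarith [(abs_lt.1 h6).2]
  exact key a a0 a1 (E.bst_fbt a ha)

end Env

/-! ### the two sides -/

/-- numbers of the right side: out tiles `b', .., n - 2`, end tile `n - 1`, window tiles
`i ≤ a < o + b'`, gate `g` -/
structure NR (M n b' g : ℕ) (o i : ℤ) : Prop where
  hb : b' + 3 ≤ n
  h1 : i < o + b'
  hM : o + n < i + M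
  nM : n + 4 ≤ M
  g1 : b' < g
  g2 : g + 2 ≤ n

/-- numbers of the left side: out tiles `1, .., a' - 1`, end tile `0`, window tiles
`o + a' ≤ a < j`, gate `g` -/
structure NL (M n a' g : ℕ) (o j : ℤ) : Prop where
  ha : 3 ≤ a'
  han : a' < n
  h2 : o + a' < j
  hM : j < o + M
  nM : n + 4 ≤ M
  g1 : 2 ≤ g
  g2 : g < a'

/-- region of the right side -/
def UR (η : ℝ) (W : ℤ → ℤ × ℤ) (o : ℤ) (n b' : ℕ) (i : ℤ) : Set ℂ :=
  UB (Bk η W o) b' (n - 1) \ T₁ η W i (o + b')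

/-- region of the left side -/
def UL (η : ℝ) (W : ℤ → ℤ × ℤ) (o : ℤ) (a' : ℕ) (j : ℤ) : Set ℂ :=
  UB (Bk η W o) 1 a' \ T₁ η W (o + a') j

variable {a' b' g : ℕ} {i j : ℤ} {h₀ : ℂ} {hS : GP (S : Set ℂ)}

/-- a site of the fat run in a strip is in the run -/
theorem Env.run (E : Env S M W η d) {k : ℤ} {v : ℂ} (hv : v ∈ WA S η d W i j)
    (hk : v ∈ bst η W k) : v ∈ T₁ η W i j := by
  have e0 := E.e0
  have d0 := E.d0
  have de := E.de
  exact wd_off E.path (by linarith) d0.le (by linarith) (by linarith) hv.2 hk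

/-- **zones of the right side** -/
def zR (E : Env S M W η d) (hS : GP (S : Set ℂ)) (N : NR M n b' g o i) (h₀ : ℂ) : Zn (rc0 hS) :=
  mkZ hS E.h3 (UR η W o n b' i) (KW η W (o + g)) (EA S η d W (o + n - 1) (o + b' - 1) (o + n - 1))
    (WA S η d W i (o + b')) (TA S η d W {a | a = o + n - 1 ∨ i ≤ a ∧ a < o + b'})
    (cr S η W (o + n - 1)) (cr S η W i) h₀
    (by
      have := N.hb; have := N.g1; have := N.g2; have := N.hM
      intro s hs
      refine ⟨⟨g, by omega, by omega, (E.kw_bst hs).1⟩, ?_⟩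
      rintro ⟨k, k1, k2, k3⟩
      exact E.kw_off hs (nd (by omega) (by omega) (by omega)) (nd (by omega) (by omega) (by omega))
        k3)
    (by
      rintro v - ⟨⟨k, k1, k2, k3⟩, -⟩ ⟨-, -, h⟩
      exact h ⟨o + k, by omega, by omega, k3⟩)
    (by
      rintro v - ⟨⟨k, k1, k2, k3⟩, h⟩ hw
      exact h (E.run hw k3))
    (by
      rintro v - ⟨⟨k, k1, k2, k3⟩, -⟩ ⟨-, h, -⟩
      exact h _ k3)
    (by
      have := N.hb; have := N.hM
      rintro v - ⟨-, h1, -⟩ ⟨-, h2⟩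
      obtain ⟨k, k1, k2, k3⟩ := E.wd_fbt h2
      exact E.dj_fbt (by omega) (by omega) k3 h1)
    (by
      rintro v - ⟨-, h1, -⟩ ⟨-, -, h2⟩
      exact h2 _ (Or.inl rfl) h1)
    (by
      rintro v - ⟨-, h1⟩ ⟨-, -, h2⟩
      obtain ⟨k, k1, k2, k3⟩ := E.wd_fbt h1
      exact h2 _ (Or.inr ⟨k1, k2⟩) k3)
    (by
      rintro v hv ⟨-, h1, -⟩
      exact E.inn_fbt _ hv h1)
    (by
      rintro v hv ⟨-, h1⟩
      obtain ⟨k, k1, k2, k3⟩ := E.wd_fbt h1
      exact E.inn_fbt _ hv k3)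

/-- **zones of the left side** -/
def zL (E : Env S M W η d) (hS : GP (S : Set ℂ)) (N : NL M n a' g o j) (h₀ : ℂ) : Zn (rc0 hS) :=
  mkZ hS E.h3 (UL η W o a' j) (KW η W (o + g)) (WA S η d W (o + a') j)
    (EA S η d W o o (o + a')) (TA S η d W {a | a = o ∨ o + a' ≤ a ∧ a < j})
    (cr S η W (o + a')) (cr S η W o) h₀
    (by
      have := N.ha; have := N.g1; have := N.g2; have := N.hM
      intro s hs
      refine ⟨⟨g, by omega, by omega, (E.kw_bst hs).1⟩, ?_⟩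
      rintro ⟨k, k1, k2, k3⟩
      exact E.kw_off hs (nd (by omega) (by omega) (by omega)) (nd (by omega) (by omega) (by omega))
        k3)
    (by
      rintro v - ⟨⟨k, k1, k2, k3⟩, h⟩ hw
      exact h (E.run hw k3))
    (by
      rintro v - ⟨⟨k, k1, k2, k3⟩, -⟩ ⟨-, -, h⟩
      exact h ⟨o + k, by omega, by omega, k3⟩)
    (by
      rintro v - ⟨⟨k, k1, k2, k3⟩, -⟩ ⟨-, h, -⟩
      exact h _ k3)
    (by
      have := N.ha; have := N.hM
      rintro v - ⟨-, h2⟩ ⟨-, h1, -⟩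
      obtain ⟨k, k1, k2, k3⟩ := E.wd_fbt h2
      exact E.dj_fbt (a := o) (by omega) (by omega) h1 k3)
    (by
      rintro v - ⟨-, h1⟩ ⟨-, -, h2⟩
      obtain ⟨k, k1, k2, k3⟩ := E.wd_fbt h1
      exact h2 _ (Or.inr ⟨k1, k2⟩) k3)
    (by
      rintro v - ⟨-, h1, -⟩ ⟨-, -, h2⟩
      exact h2 _ (Or.inl rfl) h1)
    (by
      rintro v hv ⟨-, h1⟩
      obtain ⟨k, k1, k2, k3⟩ := E.wd_fbt h1
      exact E.inn_fbt _ hv k3)
    (by
      rintro v hv ⟨-, h1, -⟩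
      exact E.inn_fbt _ hv h1)

/-! ### the zone properties -/

/-- the site of a cell of a state -/
theorem val_of {B : Set ℂ} {d' : D0 S} (hd : d' ∈ RD S B) {c : Cs hS}
    (hc : c = (rc0 hS).cell d' ∨ c = Rc (rc0 hS) d') :
    ∃ v ∈ S, v ∈ B ∧ c.1 = Quot.mk (hullE S) v := by
  rcases hc with rfl | rfl
  · exact ⟨d'.1.1, (Sepx686.dart_mem d').1, hd.1, rfl⟩
  · exact ⟨d'.1.2, (Sepx686.dart_mem d').2, hd.2, rfl⟩

/-- **the sites of the run are in one component of the fat run** -/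
theorem Env.run_cmp (E : Env S M W η d) (hS : GP (S : Set ℂ)) (hij : i < j) {v : ℂ} (hv : v ∈ S)
    (h : v ∈ T₁ η W i j) : v ∈ cmp S (WA S η d W i j) (cr S η W i) := by
  have e0 := E.e0
  have d0 := E.d0
  have de := E.de
  exact wd_con E.path hS E.h3 d0.le (by linarith) (by linarith) (by linarith) (by linarith)
    (by linarith) E.hl hv h (E.cr_spec i).1 ⟨i, le_rfl, hij, E.cr_bst i⟩

theorem Env.inn_UR (E : Env S M W η d) : ∀ v ∈ S, v ∈ UR η W o n b' i → ¬ OnHull S v := by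
  rintro v hv ⟨⟨k, -, -, h⟩, -⟩
  exact E.inn_bst _ hv h

theorem Env.inn_UL (E : Env S M W η d) : ∀ v ∈ S, v ∈ UL η W o a' j → ¬ OnHull S v := by
  rintro v hv ⟨⟨k, -, -, h⟩, -⟩
  exact E.inn_bst _ hv h

theorem zR_E (E : Env S M W η d) (N : NR M n b' g o i) {d' : D0 S}
    (hd : d' ∈ RD S (Bk η W o (n - 1))) {c : Cs hS}
    (hc : c = (rc0 hS).cell d' ∨ c = Rc (rc0 hS) d') (hcR : c ∉ (zR E hS N h₀).R) :
    c ∈ (zR E hS N h₀).E := by
  obtain ⟨v, hv, hvB, e⟩ := val_of hd hc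
  have hn : v ∉ UR η W o n b' i := fun h => hcR ((cell_RC E.inn_UR hv e).2 h)
  have h1 := N.hb
  have h2 := N.hM
  have h3 := N.h1
  have e0 := E.e0
  have d0 := E.d0
  have de := E.de
  have hvB' : v ∈ bst η W (o + n - 1) := by
    have e1 : o + ((n - 1 : ℕ) : ℤ) = o + n - 1 := by omega
    rw [← e1]; exact hvB
  refine ⟨v, hv, ?_, e⟩
  refine ZnEx881.east hS E.h3 E.path (by linarith) (by linarith) d0.le (by linarith) (by omega)
    (by omega) (E.hl _) hv hvB' ?_ (E.cr_spec _).1 (E.cr_spec _).2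
  rintro ⟨k, k1, k2, k3⟩
  refine hn ⟨⟨(k - o).toNat, by omega, by omega, ?_⟩, ?_⟩
  · show v ∈ bst η W (o + ((k - o).toNat : ℤ))
    rw [Int.toNat_of_nonneg (by omega), add_sub_cancel]
    exact k3
  · rintro ⟨l, l1, l2, l3⟩
    exact E.dj_bst (by omega) (by omega) l3 hvB'

theorem zR_W (E : Env S M W η d) (N : NR M n b' g o i) {d' : D0 S}
    (hd : d' ∈ RD S (Bk η W o b')) {c : Cs hS}
    (hc : c = (rc0 hS).cell d' ∨ c = Rc (rc0 hS) d') (hcR : c ∉ (zR E hS N h₀).R) :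
    c ∈ (zR E hS N h₀).W := by
  obtain ⟨v, hv, hvB, e⟩ := val_of hd hc
  have hn : v ∉ UR η W o n b' i := fun h => hcR ((cell_RC E.inn_UR hv e).2 h)
  have h1 := N.hb
  refine ⟨v, hv, E.run_cmp hS N.h1 hv ?_, e⟩
  by_contra h
  exact hn ⟨⟨b', le_rfl, by omega, hvB⟩, h⟩

theorem zL_W (E : Env S M W η d) (N : NL M n a' g o j) {d' : D0 S}
    (hd : d' ∈ RD S (Bk η W o 0)) {c : Cs hS}
    (hc : c = (rc0 hS).cell d' ∨ c = Rc (rc0 hS) d') (hcR : c ∉ (zL E hS N h₀).R) :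
    c ∈ (zL E hS N h₀).W := by
  obtain ⟨v, hv, hvB, e⟩ := val_of hd hc
  have hn : v ∉ UL η W o a' j := fun h => hcR ((cell_RC E.inn_UL hv e).2 h)
  have h1 := N.ha
  have h2 := N.hM
  have h3 := N.h2
  have e0 := E.e0
  have d0 := E.d0
  have de := E.de
  have hvB' : v ∈ bst η W o := by
    have e1 : o + ((0 : ℕ) : ℤ) = o := by omega
    rw [← e1]; exact hvB
  refine ⟨v, hv, ?_, e⟩
  refine ZnEx881.west hS E.h3 E.path (by linarith) (by linarith) d0.le (by linarith) (by omega)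
    (by omega) (E.hl _) hv hvB' ?_ (E.cr_spec _).1 (E.cr_spec _).2
  rintro ⟨k, k1, k2, k3⟩
  refine hn ⟨⟨(k - o).toNat, by omega, by omega, ?_⟩, ?_⟩
  · show v ∈ bst η W (o + ((k - o).toNat : ℤ))
    rw [Int.toNat_of_nonneg (by omega), add_sub_cancel]
    exact k3
  · rintro ⟨l, l1, l2, l3⟩
    exact E.dj_bst (a := o) (by omega) (by omega) hvB' l3

theorem zL_E (E : Env S M W η d) (N : NL M n a' g o j) {d' : D0 S}
    (hd : d' ∈ RD S (Bk η W o (a' - 1))) {c : Cs hS}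
    (hc : c = (rc0 hS).cell d' ∨ c = Rc (rc0 hS) d') (hcR : c ∉ (zL E hS N h₀).R) :
    c ∈ (zL E hS N h₀).E := by
  obtain ⟨v, hv, hvB, e⟩ := val_of hd hc
  have hn : v ∉ UL η W o a' j := fun h => hcR ((cell_RC E.inn_UL hv e).2 h)
  have h1 := N.ha
  refine ⟨v, hv, E.run_cmp hS N.h2 hv ?_, e⟩
  by_contra h
  exact hn ⟨⟨a' - 1, by omega, by omega, hvB⟩, h⟩

/-! ### the column -/

section col

variable {G : ℤ} {J : Set ℤ}

/-- above the window all sites of the column are joined off the tiles -/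
theorem Env.up_pth (E : Env S M W η d) (hS : GP (S : Set ℂ))
    (hJ : ∀ a ∈ J, ¬ (M : ℤ) ∣ a - G ∧ ¬ (M : ℤ) ∣ a - (G - 1)) {v t : ℂ} (hv : v ∈ S) (ht : t ∈ S)
    (v1 : |X (gz (100 * η) W G) (ge W G) v| < η) (v2 : 19 / 2 * η ≤ Y (gz (100 * η) W G) (ge W G) v)
    (v3 : Y (gz (100 * η) W G) (ge W G) v ≤ 11 * η)
    (t1 : |X (gz (100 * η) W G) (ge W G) t| < η) (t2 : 19 / 2 * η ≤ Y (gz (100 * η) W G) (ge W G) t)
    (t3 : Y (gz (100 * η) W G) (ge W G) t ≤ 11 * η) : Pth S (TA S η d W J) v t := by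
  have e0 := E.e0
  have d0 := E.d0
  have de := E.de
  have hU : U4 (W G - W (G - 1)) := U4_ge E.path G
  obtain ⟨s0, hs0, hc⟩ := G6Wx723.exists_cell E.nS
    (ZnGx903.pt (gz (100 * η) W G) (cz (W G - W (G - 1))) (12 * η))
  have hol : ∀ z, |X (gz (100 * η) W G) (cz (W G - W (G - 1))) z| < η →
      19 / 2 * η ≤ Y (gz (100 * η) W G) (cz (W G - W (G - 1))) z →
      Y (gz (100 * η) W G) (cz (W G - W (G - 1))) z ≤ 12 * η → ∃ t ∈ S, ‖z - t‖ < d := by
    intro z z1 z2 z3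
    exact E.up G z (lt_of_lt_of_le z1 (by linarith)) (abs_lt.2 ⟨by
      show -(13 * η) < Y (gz (100 * η) W G) (cz (W G - W (G - 1))) z
      linarith, by
      show Y (gz (100 * η) W G) (cz (W G - W (G - 1))) z < 13 * η
      linarith⟩)
  have key : ∀ {v : ℂ}, v ∈ S → |X (gz (100 * η) W G) (ge W G) v| < η →
      19 / 2 * η ≤ Y (gz (100 * η) W G) (ge W G) v → Y (gz (100 * η) W G) (ge W G) v ≤ 11 * η →
      Pth S (TA S η d W J) v s0 := by
    intro v hv v1 v2 v3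
    have h := ZnGx903.top (a1 := η) (y1 := 19 / 2 * η) (yT := 12 * η) hS E.h3 hU (by linarith) hol hv
      v1 v2 (show Y (gz (100 * η) W G) (ge W G) v ≤ 12 * η by linarith) hs0 hc
    refine h.mono ?_
    rintro q ⟨q1, q2, q3, q4⟩
    obtain ⟨k1, k2⟩ := E.up_off (G := G) (s := q) (lt_of_lt_of_le q2 (by linarith)) q3
      (lt_of_lt_of_le q4 (by linarith))
    exact ⟨q1, k1, fun a ha => k2 a (hJ a ha).1 (hJ a ha).2⟩
  exact (key hv v1 v2 v3).trans (key ht t1 t2 t3).symm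

/-- the top of the column of the gate `G` is joined to `h₀` off all fat strips -/
def Up (η d : ℝ) (W : ℤ → ℤ × ℤ) (X₀ : Set (ℂ × Bool)) (G : ℤ) (h₀ : ℂ) : Prop :=
  ∀ t₀ ∈ LnkLx927.Col η W X₀ G, 10 * η ≤ Y (gz (100 * η) W G) (ge W G) t₀ →
    Pth (sX X₀) {v | v ∈ sX X₀ ∧ ∀ c : ℤ, v ∉ fbt η d W c} t₀ h₀

variable {X₀ : Set (ℂ × Bool)} {U : Set ℂ}

/-- 927's path -/
theorem up_of_fine (H : CorH X₀ U M W η d o n) {F : Set Crest.Agent.R158.Sp896.V} {nn m : ℕ}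
    {p : ℤ → Crest.Agent.R158.Sp896.V} {A : ℤ → ℤ} {k : ℤ}
    (hF : Finex422.Fine F nn (m : ℤ) p M W A)
    (hFc : ∀ q ∉ F, ∀ q' ∉ F, Crest.Agent.R158.Sp896.Con Fᶜ q q') (m3 : 3 ≤ m) (g1 : A k + 4 ≤ G)
    (g2 : G + 3 ≤ A (k + 1)) (hh : h₀ ∈ sX X₀)
    (hf : h₀ ∈ OutCx571.Far (m * (100 * η)) (100 * η + (19 / 2 * η + d) + d) F) :
    Up η d W X₀ G h₀ := by
  have e0 := H.e0
  have d0 := H.d0
  have de := H.de
  intro t₀ ht hY
  exact LnkLx927.top_path H hF hFc m3 (by linarith) (by linarith) (by linarith) (by linarith) g1 g2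
    hh hf ht hY

/-- **the column in cells** -/
theorem col_zn (H : CorH X₀ U M W η d o n)
    (hJ : ∀ a ∈ J, ¬ (M : ℤ) ∣ a - G ∧ ¬ (M : ℤ) ∣ a - (G - 1)) (hup : Up η d W X₀ G h₀) :
    ∃ t ∈ CS H.gp (cmp (sX X₀) (TA (sX X₀) η d W J) h₀),
      K33x137.Lk (rc0 H.gp) ({c | c ∈ RC H.gp (KW η W G) ∧ rcol H.gp (cX X₀) H.hull c = 0} ∪
        CS H.gp (cmp (sX X₀) (TA (sX X₀) η d W J) h₀)) (Rc (rc0 H.gp) (H.st G)) t := by
  have E := Env.of_cor H
  have h3 := E.h3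
  obtain ⟨hx, t₀, ht, hY, hp⟩ := LnkLx927.col_path H G
  have hl : Neckx921.Lk (sX X₀) (LnkLx927.Col η W X₀ G) (xx η W X₀ G) t₀ := lk_of_pth ⟨hx, hp⟩
  have hT0 : t₀ ∈ cmp (sX X₀) (TA (sX X₀) η d W J) h₀ := by
    refine (hup t₀ ht hY).mono ?_
    rintro v ⟨h1, h2⟩
    exact ⟨h1, fun a ha => h2 a (E.bst_fbt a ha), fun a _ => h2 a⟩
  refine ⟨cs H.gp h3 ⟨t₀, ht.1.1⟩, mem_CS h3 (v := ⟨t₀, ht.1.1⟩) hT0, ?_⟩
  have e : Rc (rc0 H.gp) (H.st G) = cs H.gp h3 ⟨xx η W X₀ G, hx.1.1⟩ := rfl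
  rw [e]
  refine lk_rc h3 (u := ⟨xx η W X₀ G, hx.1.1⟩) (w := ⟨t₀, ht.1.1⟩) ?_ hl
  rintro ⟨v, hv⟩ hvc
  have e0 := H.e0
  rcases lt_or_ge (Y (gz (100 * η) W G) (ge W G) v) (19 / 2 * η) with h | h
  · have hK : v ∈ KW η W G := ⟨hvc.2.1, abs_lt.2 ⟨by linarith [hvc.2.2.1], h⟩⟩
    refine Or.inl ⟨(mem_RC h3 (E.inn_bst G hv (E.kw_bst hK).1)).2 hK, ?_⟩
    rw [rcol_cs]
    have h1 := hvc.1.2
    rw [← DCorGx713.bX_iff v hv] at h1
    revert h1
    generalize cX X₀ v = c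
    revert c; decide
  · refine Or.inr (mem_CS h3 (v := ⟨v, hv⟩) ?_)
    exact (E.up_pth H.gp hJ hv ht.1.1 hvc.2.1 h hvc.2.2.2 ht.2.1 (by linarith) ht.2.2.2).trans hT0

/-- **117's `SideH` for the right side** -/
theorem sideR (H : CorH X₀ U M W η d o n) (N : NR M n b' g o i) (hup : Up η d W X₀ (o + g) h₀) :
    SubEx117.SideH H.gp H.hull (fun k : ℕ => yy η W X₀ (o + k)) H.p
      (zR (Env.of_cor H) H.gp N h₀) (UB (Bk η W o) b' (n - 1) \ T₁ η W i (o + b'))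
      (Bk η W o (n - 1)) (Bk η W o b') b' n where
  R := rs2_rc (Env.of_cor H).inn_UR
  E := fun d' hd c hc hn => zR_E (Env.of_cor H) N hd hc hn
  W := fun d' hd c hc hn => zR_W (Env.of_cor H) N hd hc hn
  col := by
    have := N.hb; have := N.g1; have := N.g2; have := N.hM; have := N.nM
    refine ⟨g, N.g1, by omega, H.coly _, col_zn H ?_ hup⟩
    rintro a (ha | ⟨ha, ha'⟩)
    · exact ⟨nd (by omega) (by omega) (by omega), nd (by omega) (by omega) (by omega)⟩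
    · exact ⟨nd (by omega) (by omega) (by omega), nd (by omega) (by omega) (by omega)⟩

/-- **117's `SideH` for the left side** -/
theorem sideL (H : CorH X₀ U M W η d o n) (N : NL M n a' g o j) (hup : Up η d W X₀ (o + g) h₀) :
    SubEx117.SideH H.gp H.hull (fun k : ℕ => yy η W X₀ (o + k)) H.p
      (zL (Env.of_cor H) H.gp N h₀) (UB (Bk η W o) 1 a' \ T₁ η W (o + a') j)
      (Bk η W o (a' - 1)) (Bk η W o 0) 0 a' where
  R := rs2_rc (Env.of_cor H).inn_UL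
  E := fun d' hd c hc hn => zL_E (Env.of_cor H) N hd hc hn
  W := fun d' hd c hc hn => zL_W (Env.of_cor H) N hd hc hn
  col := by
    have := N.ha; have := N.g1; have := N.g2; have := N.hM; have := N.nM; have := N.han
    refine ⟨g, by omega, N.g2, H.coly _, col_zn H ?_ hup⟩
    rintro a (ha | ⟨ha, ha'⟩)
    · exact ⟨nd (by omega) (by omega) (by omega), nd (by omega) (by omega) (by omega)⟩
    · exact ⟨nd (by omega) (by omega) (by omega), nd (by omega) (by omega) (by omega)⟩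

end col

/-! ### 535's `Fix` -/

section fix

variable {VR VT : Set ℂ} {G : ℤ} {J : Set ℤ}

/-- the sites of `V` are in strips which are not the two tiles of the gate `G` -/
def Offg (M : ℕ) (η : ℝ) (W : ℤ → ℤ × ℤ) (G : ℤ) (V : Set ℂ) : Prop :=
  ∀ s ∈ V, ∃ a : ℤ, s ∈ bst η W a ∧ ¬ (M : ℤ) ∣ a - G ∧ ¬ (M : ℤ) ∣ a - (G - 1)

/-- the white strips -/
theorem offg_Rws (nM : n + 4 ≤ M) (g1 : 2 ≤ g) (g2 : g + 2 ≤ n) :
    Offg M η W (o + g) (Rws η W o n M) := by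
  rintro s ⟨a, a1, a2, a3⟩
  exact ⟨a, a3, nd (by omega) (by omega) (by omega), nd (by omega) (by omega) (by omega)⟩

/-- a run of tiles before the gate -/
theorem offg_lt {p q : ℤ} (h1 : q + 1 ≤ G) (h2 : G < p + M) : Offg M η W G (T₁ η W p q) := by
  rintro s ⟨a, a1, a2, a3⟩
  exact ⟨a, a3, nd (by omega) (by omega) (by omega), nd (by omega) (by omega) (by omega)⟩

/-- a run of tiles behind the gate -/
theorem offg_gt {p q : ℤ} (h1 : G < p) (h2 : q < G + M) : Offg M η W G (T₁ η W p q) := by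
  rintro s ⟨a, a1, a2, a3⟩
  exact ⟨a, a3, nd (by omega) (by omega) (by omega), nd (by omega) (by omega) (by omega)⟩

theorem K_off (E : Env S M W η d) (hV : Offg M η W G VR) :
    Disjoint (RC hS (KW η W G)) (RC hS VR) := by
  refine (RC_disj (hS := hS) (B := VR) fun v _ hv h => ?_).mono_right RC_sub_CS
  obtain ⟨a, a1, a2, a3⟩ := hV v h
  exact E.kw_off hv a2 a3 a1

/-- all strips -/
def Al (η : ℝ) (W : ℤ → ℤ × ℤ) : Set ℂ := {s | ∃ a : ℤ, s ∈ bst η W a}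

/-- **the top zone is joined to the hull off all strips** -/
theorem top_ext (E : Env S M W η d) (hh : OnHull S h₀) {Y₀ : Set (Cs hS)}
    (hY : Y₀ ⊆ RC hS (Al η W)) {t : Cs hS} (ht : t ∈ CS hS (cmp S (TA S η d W J) h₀)) :
    Ext (rc0 hS) (Hc hS) Y₀ t := by
  have h3 := E.h3
  have off : ∀ b (hb : b ∈ S), b ∈ TA S η d W J → cs hS h3 ⟨b, hb⟩ ∉ Y₀ := by
    intro b hb hbT hc
    obtain ⟨v, hv, ⟨a, ha⟩, hn, e⟩ := hY hc
    have e' : (Quot.mk (hullE S) v : Quot (hullE S)) = Quot.mk _ b := e.symm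
    have e2 : b = v := quot_inner hS hn e'
    subst e2
    exact hbT.2.1 a ha
  obtain ⟨v, hv, hvc, e⟩ := ht
  have e1 : t = cs hS h3 ⟨v, hv⟩ := Subtype.ext e
  rw [e1]
  have h1 : Pth S (TA S η d W J) h₀ v := Pth.symm hvc
  have key := Pth.ind (P := fun w => ∀ hw : w ∈ S, Ext (rc0 hS) (Hc hS) Y₀ (cs hS h3 ⟨w, hw⟩)) h1
    (fun hw => Ext.hull (cs_Hc h3 hh) (off _ hw h1.1)) (by
      intro a b ha hb hab ih hw
      rcases step_rc (hS := hS) h3 (u := ⟨a, ha.1⟩) (w := ⟨b, hw⟩) hab with h | h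
      · rw [← h]; exact ih ha.1
      · exact Ext.step (ih ha.1) h (off _ hw hb))
  exact key hv

theorem UR_Al : UR η W o n b' i ⊆ Al η W := fun s ⟨⟨k, _, _, h⟩, _⟩ => ⟨_, h⟩

theorem UL_Al : UL η W o a' j ⊆ Al η W := fun s ⟨⟨k, _, _, h⟩, _⟩ => ⟨_, h⟩

theorem Offg.al (h : Offg M η W G VR) : VR ⊆ Al η W := fun s hs => by
  obtain ⟨a, ha, -⟩ := h s hs
  exact ⟨a, ha⟩

variable {gR gL : ℕ}

/-- **535's `Fix`, two-sided window**: `false` = right side, `true` = left side -/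
theorem fix_two (E : Env S M W η d) (N1 : NR M n b' gR o (o + a')) (N2 : NL M n a' gL o (o + b'))
    (hh : OnHull S h₀) (r1 : Offg M η W (o + gR) VR) (r2 : Offg M η W (o + gL) VR)
    (t1 : Offg M η W (o + gR) VT) (t2 : Offg M η W (o + gL) VT) :
    PLx535.Fix (rc0 hS) (Hc hS) (RC hS VR) (RC hS VT)
      (fun k : Bool => cond k (zL E hS N2 h₀) (zR E hS N1 h₀)) where
  hR := fun c hc => Hc_RC hc
  dis := by
    have h1 := N1.h1
    have h2 := N2.nM
    have key : Disjoint (zR E hS N1 h₀).R (zL E hS N2 h₀).R := by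
      refine (RC_disj (hS := hS) (A := UR η W o n b' (o + a')) (B := UL η W o a' (o + b'))
        ?_).mono_right RC_sub_CS
      rintro v - ⟨⟨k, k1, k2, k3⟩, -⟩ ⟨⟨l, l1, l2, l3⟩, -⟩
      exact E.dj_bst (by omega) (by omega) l3 k3
    rintro (_ | _) (_ | _) h
    · exact absurd rfl h
    · exact key
    · exact key.symm
    · exact absurd rfl h
  KR := by
    rintro (_ | _)
    · exact K_off E r1
    · exact K_off E r2
  KT := by
    rintro (_ | _)
    · exact K_off E t1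
    · exact K_off E t2
  top := by
    have hY : ((⋃ k : Bool, (cond k (zL E hS N2 h₀) (zR E hS N1 h₀)).R) ∪ RC hS VR ∪ RC hS VT) ⊆
        RC hS (Al η W) := by
      rintro c ((hc | hc) | hc)
      · obtain ⟨k, hk⟩ := Set.mem_iUnion.1 hc
        cases k
        · exact RC_mono UR_Al hk
        · exact RC_mono UL_Al hk
      · exact RC_mono r1.al hc
      · exact RC_mono t1.al hc
    rintro (_ | _) t ht
    · exact top_ext E hh hY ht
    · exact top_ext E hh hY ht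
  con := fun Y₀ => con_rc

/-- **535's `Fix`, only the right side** -/
theorem fix_R (E : Env S M W η d) (N : NR M n b' g o i) (hh : OnHull S h₀)
    (r : Offg M η W (o + g) VR) (t : Offg M η W (o + g) VT) :
    PLx535.Fix (rc0 hS) (Hc hS) (RC hS VR) (RC hS VT) (fun _ : Unit => zR E hS N h₀) where
  hR := fun c hc => Hc_RC hc
  dis := fun k k' h => absurd (Subsingleton.elim k k') h
  KR := fun _ => K_off E r
  KT := fun _ => K_off E t
  top := by
    intro _ c hc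
    refine top_ext E hh ?_ hc
    rintro c ((hc | hc) | hc)
    · obtain ⟨k, hk⟩ := Set.mem_iUnion.1 hc
      exact RC_mono UR_Al hk
    · exact RC_mono r.al hc
    · exact RC_mono t.al hc
  con := fun Y₀ => con_rc

/-- **535's `Fix`, only the left side** -/
theorem fix_L (E : Env S M W η d) (N : NL M n a' g o j) (hh : OnHull S h₀)
    (r : Offg M η W (o + g) VR) (t : Offg M η W (o + g) VT) :
    PLx535.Fix (rc0 hS) (Hc hS) (RC hS VR) (RC hS VT) (fun _ : Unit => zL E hS N h₀) where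
  hR := fun c hc => Hc_RC hc
  dis := fun k k' h => absurd (Subsingleton.elim k k') h
  KR := fun _ => K_off E r
  KT := fun _ => K_off E t
  top := by
    intro _ c hc
    refine top_ext E hh ?_ hc
    rintro c ((hc | hc) | hc)
    · obtain ⟨k, hk⟩ := Set.mem_iUnion.1 hc
      exact RC_mono UL_Al hk
    · exact RC_mono r.al hc
    · exact RC_mono t.al hc
  con := fun Y₀ => con_rc

end fix

end Crest.Agent.R143.ZnQx323
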