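import Crest.Agent.R143.TileR1_228
import Crest.Agent.R143.Seg_991

/-!
# Row 143 (S0194), RIG, box Q2: zones of a window, geometry (helper323)

`FPath M W`, tiles `RR A B h W a`, holes of radius `d` in the tiles.
* `arm_walk` : a site of `Arm A B c u` is joined to the site whose cell contains `c` by sites of
  `Arm (A + d) B c u` (fat in the width only: the cut line `X = B` is not crossed)
* `core_walk` : the cores of two consecutive tiles are joined inside the two fat tiles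
* `Wd`, **`wd_con`** : all the sites of a run of tiles are joined inside `⋃ RR (A + d) B h W`
* `wd_off` : a point of a fat tile `RR (A + d) B` in another tile `RR A B` is in the tile itself or in
  a tile of the run: the fat run does not meet the rest of the strip
-/

set_option autoImplicit false

noncomputable section

open scoped Classical

namespace Crest.Agent.R143.ZnQx323

open Crest.ProbabilityR.Voronoi
open Crest.Agent.R143.B0x346 Crest.Agent.R143.DelGx806 Crest.Agent.R143.DelRx806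
open Crest.Agent.R143.RE0x723 (Pth)
open Crest.Agent.R143.Segx991 (Clm Hl pth_conn mem_clm near)
open Crest.Agent.R143.Gatex838 (X Y)
open Crest.Agent.R143.TileRx228

variable {S : Finset ℂ} {M : ℕ} {W : ℤ → ℤ × ℤ} {A B h d : ℝ} {a b : ℤ} {c u s q : ℂ}

/-! ### coordinates -/

/-- coordinates of a point at distance `≤ r` -/
theorem X_near (hu : ‖u‖ = 1) (c p q : ℂ) : |X c u p - X c u q| ≤ ‖p - q‖ ∧
    |Y c u p - Y c u q| ≤ ‖p - q‖ := by
  have e : (p - c) / u - (q - c) / u = (p - q) / u := by ring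
  have hn : ‖(p - q) / u‖ = ‖p - q‖ := by rw [norm_div, hu, div_one]
  unfold X Y
  rw [← Complex.sub_re, ← Complex.sub_im, e]
  exact ⟨(Complex.abs_re_le_norm _).trans hn.le, (Complex.abs_im_le_norm _).trans hn.le⟩

/-- the point with coordinates `x`, `y` -/
def pq (c u : ℂ) (x y : ℝ) : ℂ := c + u * ⟨x, y⟩

theorem X_pq (hu : u ≠ 0) (c : ℂ) (x y : ℝ) : X c u (pq c u x y) = x ∧ Y c u (pq c u x y) = y := by
  unfold X Y pq
  rw [add_sub_cancel_left, mul_div_cancel_left₀ _ hu]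
  exact ⟨rfl, rfl⟩

theorem eq_pq (hu : u ≠ 0) (c z : ℂ) : z = pq c u (X c u z) (Y c u z) := by
  unfold pq X Y
  have e : (⟨((z - c) / u).re, ((z - c) / u).im⟩ : ℂ) = (z - c) / u := Complex.ext rfl rfl
  rw [e, mul_div_cancel₀ _ hu]
  ring

/-- points of a segment with constant second coordinate -/
theorem seg_h (hu : u ≠ 0) {c z : ℂ} {x x' y : ℝ} (hz : z ∈ segment ℝ (pq c u x y) (pq c u x' y)) :
    Y c u z = y ∧ ∃ t : ℝ, 0 ≤ t ∧ t ≤ 1 ∧ X c u z = x + t * (x' - x) := by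
  rw [segment_eq_image'] at hz
  obtain ⟨t, ⟨t0, t1⟩, rfl⟩ := hz
  have e : pq c u x y + t • (pq c u x' y - pq c u x y) = pq c u (x + t * (x' - x)) y := by
    unfold pq
    rw [Complex.real_smul]
    have e1 : (⟨x + t * (x' - x), y⟩ : ℂ) = ⟨x, y⟩ + (t : ℂ) * (⟨x', y⟩ - ⟨x, y⟩) := by
      apply Complex.ext <;> simp
    rw [e1]
    ring
  simp only [e]
  exact ⟨(X_pq hu _ _ _).2, t, t0, t1, (X_pq hu _ _ _).1⟩

/-- points of a segment with constant first coordinate -/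
theorem seg_v (hu : u ≠ 0) {c z : ℂ} {x y y' : ℝ} (hz : z ∈ segment ℝ (pq c u x y) (pq c u x y')) :
    X c u z = x ∧ ∃ t : ℝ, 0 ≤ t ∧ t ≤ 1 ∧ Y c u z = y + t * (y' - y) := by
  rw [segment_eq_image'] at hz
  obtain ⟨t, ⟨t0, t1⟩, rfl⟩ := hz
  have e : pq c u x y + t • (pq c u x y' - pq c u x y) = pq c u x (y + t * (y' - y)) := by
    unfold pq
    rw [Complex.real_smul]
    have e1 : (⟨x, y + t * (y' - y)⟩ : ℂ) = ⟨x, y⟩ + (t : ℂ) * (⟨x, y'⟩ - ⟨x, y⟩) := by
      apply Complex.ext <;> simp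
    rw [e1]
    ring
  simp only [e]
  exact ⟨(X_pq hu _ _ _).1, t, t0, t1, (X_pq hu _ _ _).2⟩

/-! ### one arm -/

/-- sites whose cell meets the horizontal segment from the site `s` to `X = 0` -/
theorem leg1 (hu : ‖u‖ = 1) (hA : 0 < A) (hdA : d ≤ A) (hdB : d < B)
    (hH : Hl S (Arm A B c u) d) (hs : s ∈ S) (hsA : s ∈ Arm A B c u)
    (hq : q ∈ Clm S (segment ℝ s (pq c u 0 (Y c u s)))) : q ∈ Arm (A + d) B c u := by
  have hu0 : u ≠ 0 := by
    rintro rfl
    simp at hu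
  obtain ⟨⟨s1, s2⟩, s3⟩ := hsA
  obtain ⟨hqS, r, hr, hrq⟩ := hq
  have hr' := hr
  rw [eq_pq hu0 c s] at hr
  rw [(X_pq hu0 _ _ _).2] at hr
  obtain ⟨r1, t, t0, t1, r2⟩ := seg_h hu0 hr
  set x := X c u s with hx
  set y := Y c u s with hy
  have hB : 0 < B := by
    by_contra hB
    push Not at hB
    have : d < 0 := lt_of_lt_of_le hdB hB
    have hx0 : x < 0 := by linarith
    have h0 : s ∈ Arm A B c u := ⟨⟨s1, s2⟩, s3⟩
    obtain ⟨v, -, hv⟩ := hH s h0
    have := norm_nonneg (s - v)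
    linarith
  -- `r` is in the arm
  have hrA : r ∈ Arm A B c u := by
    refine ⟨⟨?_, ?_⟩, ?_⟩
    · rw [r2]
      rcases le_or_gt 0 x with hx0 | hx0
      · nlinarith [mul_nonneg (sub_nonneg.2 t1) hx0]
      · nlinarith [mul_nonneg t0 (neg_nonneg.2 hx0.le)]
    · rw [r2]
      rcases le_or_gt 0 x with hx0 | hx0
      · nlinarith [mul_nonneg t0 hx0]
      · nlinarith [mul_nonneg (sub_nonneg.2 t1) (neg_nonneg.2 hx0.le)]
    · rw [r1]; exact s3
  have hd0 : 0 ≤ d := by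
    obtain ⟨v, -, hv⟩ := hH r hrA
    exact (norm_nonneg _).trans hv
  -- `q` is near `r`
  have h1 : ‖r - q‖ ≤ d := by
    obtain ⟨v, hv, hv'⟩ := hH r hrA
    exact (hrq v (Finset.mem_coe.2 hv)).trans hv'
  have h2 : ‖r - q‖ ≤ ‖r - s‖ := hrq s (Finset.mem_coe.2 hs)
  have h3 : ‖r - s‖ = t * |x| := by
    have e1 : r - s = u * ((-(t * x) : ℝ) : ℂ) := by
      rw [eq_pq hu0 c r, eq_pq hu0 c s, r1, r2, ← hx, ← hy]
      unfold pq
      have e2 : (⟨x + t * (0 - x), y⟩ : ℂ) = ⟨x, y⟩ + ((-(t * x) : ℝ) : ℂ) := by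
        apply Complex.ext <;> simp
      rw [e2]
      ring
    rw [e1, norm_mul, hu, one_mul, Complex.norm_real, Real.norm_eq_abs, abs_neg, abs_mul,
      abs_of_nonneg t0]
  obtain ⟨g1, g2⟩ := X_near hu c r q
  have g1' := abs_le.1 (g1.trans h1)
  have g2' := abs_le.1 (g2.trans h1)
  have g3 := abs_le.1 (g1.trans (h2.trans h3.le))
  rw [r1] at g2'
  rw [r2] at g1' g3
  rw [abs_lt] at s3
  refine ⟨⟨?_, ?_⟩, abs_lt.2 ⟨by linarith [g2'.1, g2'.2], by linarith [g2'.1, g2'.2]⟩⟩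
  · rcases le_or_gt 0 x with hx0 | hx0
    · nlinarith [g1'.1, g1'.2]
    · rw [abs_of_neg hx0] at g3
      nlinarith [g3.1, g3.2]
  · rcases le_or_gt 0 x with hx0 | hx0
    · rw [abs_of_nonneg hx0] at g3
      nlinarith [g3.1, g3.2]
    · nlinarith [g1'.1, g1'.2]

/-- sites whose cell meets the vertical segment at `X = 0` -/
theorem leg2 (hu : ‖u‖ = 1) (hA : 0 < A) (hdB : d < B) {y : ℝ} (hy : |y| < A)
    (hH : Hl S (Arm A B c u) d) (hd0 : 0 ≤ d) (hq : q ∈ Clm S (segment ℝ (pq c u 0 y) c)) :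
    q ∈ Arm (A + d) B c u := by
  have hu0 : u ≠ 0 := by
    rintro rfl
    simp at hu
  have hc : c = pq c u 0 0 := by
    unfold pq
    have : (⟨0, 0⟩ : ℂ) = 0 := rfl
    rw [this, mul_zero, add_zero]
  have hHs : Hl S (segment ℝ (pq c u 0 y) c) d := by
    refine hH.mono fun r hr => ?_
    rw [hc] at hr
    have hr2 : r ∈ segment ℝ (pq c u 0 y) (pq c u 0 0) := by
      convert hr using 2
      rw [← hc]
    obtain ⟨r1, t, t0, t1, r2⟩ := seg_v hu0 hr2
    rw [abs_lt] at hy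
    refine ⟨⟨by rw [r1]; linarith, by rw [r1]; linarith⟩, ?_⟩
    rw [r2, abs_lt]
    constructor <;> nlinarith
  obtain ⟨r, hr, h1⟩ := near hHs hq
  have hr2 : r ∈ segment ℝ (pq c u 0 y) (pq c u 0 0) := by rwa [← hc]
  obtain ⟨r1, t, t0, t1, r2⟩ := seg_v hu0 hr2
  obtain ⟨g1, g2⟩ := X_near hu c r q
  have g1' := abs_le.1 (g1.trans h1)
  have g2' := abs_le.1 (g2.trans h1)
  rw [r1] at g1'
  rw [r2] at g2'
  rw [abs_lt] at hy
  refine ⟨⟨by linarith [g1'.2], by linarith [g1'.1]⟩, abs_lt.2 ⟨?_, ?_⟩⟩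
  · nlinarith [g2'.2]
  · nlinarith [g2'.1]

/-- **a site of the arm is joined to the core inside the arm, fat in the width only** -/
theorem arm_walk (hS : GP (S : Set ℂ)) (h3 : 3 ≤ S.card) (hu : ‖u‖ = 1) (hA : 0 < A) (hdA : d ≤ A)
    (hdB : d < B) (hH : Hl S (Arm A B c u) d) (hs : s ∈ S) (hsA : s ∈ Arm A B c u) {q₀ : ℂ}
    (hq : q₀ ∈ S) (hqc : c ∈ voronoiCell (S : Set ℂ) q₀) :
    Pth S {z | z ∈ S ∧ z ∈ Arm (A + d) B c u} s q₀ := by
  have hd0 : 0 ≤ d := by
    obtain ⟨v, -, hv⟩ := hH s hsA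
    exact (norm_nonneg _).trans hv
  set p := pq c u 0 (Y c u s) with hp
  have hC : IsPreconnected (segment ℝ s p ∪ segment ℝ p c) :=
    IsPreconnected.union p (right_mem_segment ℝ s p) (left_mem_segment ℝ p c)
      (convex_segment s p).isPreconnected (convex_segment p c).isPreconnected
  have h1 : Pth S (Clm S (segment ℝ s p ∪ segment ℝ p c)) s q₀ :=
    pth_conn hS h3 hC (mem_clm hs (Or.inl (left_mem_segment ℝ s p)))
      ⟨hq, c, Or.inr (right_mem_segment ℝ p c), hqc⟩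
  refine h1.mono ?_
  rintro z ⟨hz, r, hr, hrz⟩
  refine ⟨hz, ?_⟩
  rcases hr with hr | hr
  · exact leg1 hu hA hdA hdB hH hs hsA ⟨hz, r, hr, hrz⟩
  · exact leg2 hu hA hdB hsA.2 hH hd0 ⟨hz, r, hr, hrz⟩

/-! ### consecutive cores -/

/-- sites whose cell meets the segment between two consecutive vertices -/
theorem core_seg (P : FPath M W) (hd0 : 0 ≤ d) (hA : 0 < A) (hdB : d < B) (h2B : h < 2 * B)
    (hBh : B ≤ h) (hH : ∀ a, Hl S (RR A B h W a) d)
    (hq : q ∈ Clm S (segment ℝ (cen h W a) (cen h W (a + 1)))) :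
    q ∈ RR (A + d) B h W a ∨ q ∈ RR (A + d) B h W (a + 1) := by
  have hh : 0 < h := by linarith
  set v : ℤ × ℤ := W (a + 1) - W a with hv
  have hU : U4 v := P.step a
  have hu : ‖cz v‖ = 1 := norm_cz hU
  have hu0 : cz v ≠ 0 := cz_ne hU
  have e0 : cen h W a = pq (cen h W a) (cz v) 0 0 := by
    unfold pq
    have : (⟨0, 0⟩ : ℂ) = 0 := rfl
    rw [this, mul_zero, add_zero]
  have e1 : cen h W (a + 1) = pq (cen h W a) (cz v) h 0 := by
    unfold pq cen
    have : (⟨h, 0⟩ : ℂ) = (h : ℂ) := rfl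
    rw [this, hv, cz_sub]
    ring
  have key : ∀ r ∈ segment ℝ (cen h W a) (cen h W (a + 1)),
      Y (cen h W a) (cz v) r = 0 ∧ 0 ≤ X (cen h W a) (cz v) r ∧ X (cen h W a) (cz v) r ≤ h := by
    intro r hr
    have hr2 : r ∈ segment ℝ (pq (cen h W a) (cz v) 0 0) (pq (cen h W a) (cz v) h 0) := by
      rw [← e0, ← e1]; exact hr
    obtain ⟨r1, t, t0, t1, r2⟩ := seg_h hu0 hr2
    refine ⟨r1, ?_, ?_⟩ <;> rw [r2] <;> nlinarith
  have XY' : ∀ r, X (cen h W (a + 1)) (cz (W a - W (a + 1))) r = h - X (cen h W a) (cz v) r ∧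
      Y (cen h W (a + 1)) (cz (W a - W (a + 1))) r = - Y (cen h W a) (cz v) r := by
    intro r
    have e2 : cz (W a - W (a + 1)) = - cz v := by rw [← cz_neg, hv, neg_sub]
    have e3 : (r - cen h W (a + 1)) / (- cz v) = (h : ℂ) - (r - cen h W a) / cz v := by
      have e4 : cen h W (a + 1) = cen h W a + h * cz v := by
        unfold cen
        rw [hv, cz_sub]
        ring
      rw [e4]
      field_simp
      ring
    unfold X Y
    rw [e2, e3]
    simp
  have hHs : Hl S (segment ℝ (cen h W a) (cen h W (a + 1))) d := by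
    intro r hr
    obtain ⟨k1, k2, k3⟩ := key r hr
    rcases lt_or_ge (X (cen h W a) (cz v) r) B with hl | hl
    · refine hH a r (Or.inr ⟨⟨by linarith, hl⟩, ?_⟩)
      rw [k1, abs_zero]; exact hA
    · refine hH (a + 1) r (Or.inl ?_)
      rw [show a + 1 - 1 = a by ring]
      refine ⟨⟨?_, ?_⟩, ?_⟩
      · rw [(XY' r).1]; linarith
      · rw [(XY' r).1]; linarith
      · rw [(XY' r).2, k1, neg_zero, abs_zero]; exact hA
  obtain ⟨r, hr, h1⟩ := near hHs hq
  obtain ⟨k1, k2, k3⟩ := key r hr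
  obtain ⟨g1, g2⟩ := X_near hu (cen h W a) r q
  have g1' := abs_le.1 (g1.trans h1)
  have g2' := abs_le.1 (g2.trans h1)
  rw [k1] at g2'
  rcases lt_or_ge (X (cen h W a) (cz v) q) B with hl | hl
  · left
    exact Or.inr ⟨⟨by linarith [g1'.2], hl⟩, abs_lt.2 ⟨by linarith [g2'.2], by linarith [g2'.1]⟩⟩
  · right
    refine Or.inl ?_
    rw [show a + 1 - 1 = a by ring]
    refine ⟨⟨?_, ?_⟩, ?_⟩
    · rw [(XY' q).1]; linarith [g1'.1]
    · rw [(XY' q).1]; linarith
    · rw [(XY' q).2, abs_neg]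
      exact abs_lt.2 ⟨by linarith [g2'.2], by linarith [g2'.1]⟩

/-! ### a run of tiles -/

/-- the fat run of the tiles `a ≤ k < b` -/
def Wd (A B h : ℝ) (W : ℤ → ℤ × ℤ) (a b : ℤ) : Set ℂ := {z | ∃ k, a ≤ k ∧ k < b ∧ z ∈ RR A B h W k}

theorem Wd_mono {A' B' : ℝ} (h1 : A ≤ A') (h2 : B ≤ B') (h : ℝ) (W : ℤ → ℤ × ℤ) (a b : ℤ) :
    Wd A B h W a b ⊆ Wd A' B' h W a b := fun _ ⟨k, k1, k2, k3⟩ => ⟨k, k1, k2, RR_mono h1 h2 h W k k3⟩

theorem core_walk (P : FPath M W) (hS : GP (S : Set ℂ)) (h3 : 3 ≤ S.card) (hd0 : 0 ≤ d) (hA : 0 < A)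
    (hdB : d < B) (h2B : h < 2 * B) (hBh : B ≤ h) (hH : ∀ a, Hl S (RR A B h W a) d) {q₀ q₁ : ℂ}
    (hq : q₀ ∈ S) (hqc : cen h W a ∈ voronoiCell (S : Set ℂ) q₀) (hq' : q₁ ∈ S)
    (hqc' : cen h W (a + 1) ∈ voronoiCell (S : Set ℂ) q₁) :
    Pth S {z | z ∈ S ∧ (z ∈ RR (A + d) B h W a ∨ z ∈ RR (A + d) B h W (a + 1))} q₀ q₁ := by
  have h1 := pth_conn hS h3 (convex_segment (𝕜 := ℝ) (cen h W a) (cen h W (a + 1))).isPreconnected
    ⟨hq, _, left_mem_segment ℝ _ _, hqc⟩ ⟨hq', _, right_mem_segment ℝ _ _, hqc'⟩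
  exact h1.mono fun z hz => ⟨hz.1, core_seg P hd0 hA hdB h2B hBh hH hz⟩

/-- a site of a tile is joined to the core of the tile -/
theorem tile_walk (P : FPath M W) (hS : GP (S : Set ℂ)) (h3 : 3 ≤ S.card) (hA : 0 < A) (hdA : d ≤ A)
    (hdB : d < B) (hH : ∀ a, Hl S (RR A B h W a) d) (hs : s ∈ S) (hsA : s ∈ RR A B h W a) {q₀ : ℂ}
    (hq : q₀ ∈ S) (hqc : cen h W a ∈ voronoiCell (S : Set ℂ) q₀) :
    Pth S {z | z ∈ S ∧ z ∈ RR (A + d) B h W a} s q₀ := by
  rcases hsA with h1 | h1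
  · exact (arm_walk hS h3 (norm_cz (P.step' a)) hA hdA hdB
      ((hH a).mono Set.subset_union_left) hs h1 hq hqc).mono fun z hz => ⟨hz.1, Or.inl hz.2⟩
  · exact (arm_walk hS h3 (norm_cz (P.step a)) hA hdA hdB
      ((hH a).mono Set.subset_union_right) hs h1 hq hqc).mono fun z hz => ⟨hz.1, Or.inr hz.2⟩

/-- **the sites of a run of tiles are joined inside the fat run** -/
theorem wd_con (P : FPath M W) (hS : GP (S : Set ℂ)) (h3 : 3 ≤ S.card) (hd0 : 0 ≤ d) (hA : 0 < A)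
    (hdA : d ≤ A) (hdB : d < B) (h2B : h < 2 * B) (hBh : B ≤ h) (hH : ∀ a, Hl S (RR A B h W a) d)
    {s t : ℂ} (hs : s ∈ S) (hsA : s ∈ Wd A B h W a b) (ht : t ∈ S) (htA : t ∈ Wd A B h W a b) :
    Pth S {z | z ∈ S ∧ z ∈ Wd (A + d) B h W a b} s t := by
  have hne : S.Nonempty := ⟨s, hs⟩
  have hc : ∀ k, ∃ q₀ ∈ S, cen h W k ∈ voronoiCell (S : Set ℂ) q₀ := fun k =>
    Crest.Agent.R143.G6Wx723.exists_cell hne _
  choose f hf hf' using hc
  have core : ∀ (n : ℕ) (k : ℤ), a ≤ k → k + n < b →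
      Pth S {z | z ∈ S ∧ z ∈ Wd (A + d) B h W a b} (f k) (f (k + n)) := by
    intro n
    induction n with
    | zero =>
      intro k hk hkb
      have h1 := core_walk (a := k) P hS h3 hd0 hA hdB h2B hBh hH (hf k) (hf' k) (hf (k + 1))
        (hf' (k + 1))
      rw [show k + ((0 : ℕ) : ℤ) = k by push_cast; ring]
      refine Pth.refl ⟨hf k, k, hk, by push_cast at hkb; linarith, ?_⟩
      have h2 : f k ∈ Clm S (segment ℝ (cen h W k) (cen h W k)) :=
        ⟨hf k, _, left_mem_segment ℝ _ _, hf' k⟩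
      -- the core is near the vertex
      have hcA : cen h W k ∈ RR A B h W k := by
        right
        have e : cen h W k = pq (cen h W k) (cz (W (k + 1) - W k)) 0 0 := by
          unfold pq
          have : (⟨0, 0⟩ : ℂ) = 0 := rfl
          rw [this, mul_zero, add_zero]
        obtain ⟨x1, x2⟩ := X_pq (cz_ne (P.step k)) (cen h W k) 0 0
        rw [← e] at x1 x2
        refine ⟨⟨by rw [x1]; linarith, by rw [x1]; linarith⟩, by rw [x2, abs_zero]; exact hA⟩
      obtain ⟨v, hv, hv'⟩ := hH k _ hcA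
      have h5 : ‖cen h W k - f k‖ ≤ d := (hf' k v (Finset.mem_coe.2 hv)).trans hv'
      obtain ⟨g1, g2⟩ := X_near (norm_cz (P.step k)) (cen h W k) (cen h W k) (f k)
      have g1' := abs_le.1 (g1.trans h5)
      have g2' := abs_le.1 (g2.trans h5)
      have z1 : X (cen h W k) (cz (W (k + 1) - W k)) (cen h W k) = 0 := by unfold X; simp
      have z2 : Y (cen h W k) (cz (W (k + 1) - W k)) (cen h W k) = 0 := by unfold Y; simp
      rw [z1] at g1'
      rw [z2] at g2'
      exact Or.inr ⟨⟨by linarith [g1'.2], by linarith [g1'.1]⟩,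
        abs_lt.2 ⟨by linarith [g2'.2], by linarith [g2'.1]⟩⟩
    | succ n ih =>
      intro k hk hkb
      push_cast at hkb
      have h1 := ih k hk (by linarith)
      have h2 := core_walk (a := k + n) P hS h3 hd0 hA hdB h2B hBh hH (hf _) (hf' _)
        (hf (k + n + 1)) (hf' _)
      rw [show k + ((n + 1 : ℕ) : ℤ) = k + n + 1 by push_cast; ring]
      refine h1.trans (h2.mono ?_)
      rintro z ⟨hz, h4 | h4⟩
      · exact ⟨hz, _, by linarith [Int.natCast_nonneg n], by linarith, h4⟩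
      · exact ⟨hz, _, by linarith [Int.natCast_nonneg n], by linarith, h4⟩
  have core' : ∀ k l, a ≤ k → k < b → a ≤ l → l < b →
      Pth S {z | z ∈ S ∧ z ∈ Wd (A + d) B h W a b} (f k) (f l) := by
    have aux : ∀ k l, a ≤ k → k ≤ l → l < b →
        Pth S {z | z ∈ S ∧ z ∈ Wd (A + d) B h W a b} (f k) (f l) := by
      intro k l h1 h2 h4
      obtain ⟨n, hn⟩ := Int.eq_ofNat_of_zero_le (sub_nonneg.2 h2)
      have e : l = k + (n : ℤ) := by rw [← hn]; ring
      rw [e]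
      exact core n k h1 (by rw [← e]; exact h4)
    intro k l h1 h2 h4 h5
    rcases le_total k l with h6 | h6
    · exact aux k l h1 h6 h5
    · exact (aux l k h4 h6 h2).symm
  obtain ⟨k, k1, k2, k3⟩ := hsA
  obtain ⟨l, l1, l2, l3⟩ := htA
  have w1 := tile_walk P hS h3 hA hdA hdB hH hs k3 (hf k) (hf' k)
  have w2 := tile_walk P hS h3 hA hdA hdB hH ht l3 (hf l) (hf' l)
  refine ((w1.mono ?_).trans (core' k l k1 k2 l1 l2)).trans (w2.symm.mono ?_)
  · exact fun z hz => ⟨hz.1, k, k1, k2, hz.2⟩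
  · exact fun z hz => ⟨hz.1, l, l1, l2, hz.2⟩

/-! ### the fat run does not meet the rest of the strip -/

/-- a point of the fat tile `a` in the next tile is in the tile `a` -/
theorem fat_next (P : FPath M W) (hA : 0 < A) (hd0 : 0 ≤ d) (hAB : A + d ≤ B) (hh : A + B < h)
    (hBh : B ≤ h) (hs : s ∈ RR (A + d) B h W a) (hs' : s ∈ RR A B h W (a + 1)) :
    s ∈ RR A B h W a := by
  obtain ⟨h1, -⟩ := left P hAB hs
  obtain ⟨h4, h5⟩ := right P (by linarith) hs'
  exact win_left P hA hBh (abs_lt.2 ⟨by linarith, h1⟩) (h5 (by linarith))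

/-- a point of the fat tile `a + 1` in the tile `a` is in the tile `a + 1` -/
theorem fat_prev (P : FPath M W) (hA : 0 < A) (hd0 : 0 ≤ d) (hAB : A + d ≤ B) (hh : A + B < h)
    (hBh : B ≤ h) (hs : s ∈ RR (A + d) B h W (a + 1)) (hs' : s ∈ RR A B h W a) :
    s ∈ RR A B h W (a + 1) := by
  obtain ⟨h1, -⟩ := right P hAB hs
  obtain ⟨h4, h5⟩ := left P (by linarith) hs'
  exact win_right P hA hBh (abs_lt.2 ⟨by linarith, h4⟩) (h5 (by linarith))

/-- **a point of the fat run in another tile is in the run** (tiles `j` not in `[a, b)` mod `M`) -/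
theorem wd_off (P : FPath M W) (hA : 0 < A) (hd0 : 0 ≤ d) (hAB : A + d ≤ B) (hh : A + d + B < h)
    (hs : s ∈ Wd (A + d) B h W a b) {j : ℤ} (hj : s ∈ RR A B h W j) :
    s ∈ Wd A B h W a b := by
  have hBh : B ≤ h := by linarith
  obtain ⟨k, k1, k2, k3⟩ := hs
  by_cases h0 : (M : ℤ) ∣ j - k
  · -- the same tile
    refine ⟨k, k1, k2, ?_⟩
    obtain ⟨m, hm⟩ := h0
    have hp : ∀ (m : ℤ) (a : ℤ), RR A B h W (a + m * M) = RR A B h W a := by
      intro m a
      induction m using Int.induction_on with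
      | zero => rw [zero_mul, add_zero]
      | succ m ih => rw [show a + ((m : ℤ) + 1) * M = a + m * M + M by ring, RR_per P, ih]
      | pred m ih =>
        rw [← ih, ← RR_per P A B h (a + (-(m : ℤ) - 1) * M)]
        congr 1
        ring
    rw [← hp m k, show k + m * (M : ℤ) = j by rw [mul_comm, ← hm]; ring]
    exact hj
  by_cases h1 : (M : ℤ) ∣ j - (k + 1)
  · refine ⟨k, k1, k2, ?_⟩
    obtain ⟨m, hm⟩ := h1
    have hp : ∀ (m : ℤ) (a : ℤ), RR A B h W (a + m * M) = RR A B h W a := by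
      intro m a
      induction m using Int.induction_on with
      | zero => rw [zero_mul, add_zero]
      | succ m ih => rw [show a + ((m : ℤ) + 1) * M = a + m * M + M by ring, RR_per P, ih]
      | pred m ih =>
        rw [← ih, ← RR_per P A B h (a + (-(m : ℤ) - 1) * M)]
        congr 1
        ring
    have hj' : s ∈ RR A B h W (k + 1) := by
      rw [← hp m (k + 1), show k + 1 + m * (M : ℤ) = j by rw [mul_comm, ← hm]; ring]
      exact hj
    exact fat_next P hA hd0 hAB (by linarith) hBh k3 hj'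
  by_cases h2 : (M : ℤ) ∣ j - (k - 1)
  · refine ⟨k, k1, k2, ?_⟩
    obtain ⟨m, hm⟩ := h2
    have hp : ∀ (m : ℤ) (a : ℤ), RR A B h W (a + m * M) = RR A B h W a := by
      intro m a
      induction m using Int.induction_on with
      | zero => rw [zero_mul, add_zero]
      | succ m ih => rw [show a + ((m : ℤ) + 1) * M = a + m * M + M by ring, RR_per P, ih]
      | pred m ih =>
        rw [← ih, ← RR_per P A B h (a + (-(m : ℤ) - 1) * M)]
        congr 1
        ring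
    have hj' : s ∈ RR A B h W (k - 1) := by
      rw [← hp m (k - 1), show k - 1 + m * (M : ℤ) = j by rw [mul_comm, ← hm]; ring]
      exact hj
    have k3' : s ∈ RR (A + d) B h W (k - 1 + 1) := by rwa [sub_add_cancel]
    have := fat_prev P hA hd0 hAB (by linarith) hBh k3' hj'
    rwa [sub_add_cancel] at this
  · exfalso
    exact Set.disjoint_left.1 (disj P (by linarith) hAB (by linarith) h0 h1 h2) k3
      (RR_mono (by linarith) le_rfl h W j hj)

end Crest.Agent.R143.ZnQx323
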