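import Crest.Agent.R143.ZnQ3_323
import Crest.Agent.R143.WndG_416

/-!
# Row 143 (S0194), RIG, box Q2: the top of the columns, on a good environment (helper323)

* **`up_env`** : 323's `Up` at every gate inside a coarse edge (`A k + 4 ≤ G`, `G + 4 ≤ A (k + 1)`),
  every hull site, every configuration with the sites `SU u ε ω`
* `up4`, `upn4`, `upr` : the gates `4`, `n - 4`, `r` of the corridor of a label
-/

set_option autoImplicit false
set_option linter.unusedVariables false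

noncomputable section

open scoped Classical

namespace Crest.Agent.R143.ZnQx323

open Crest.ProbabilityR.Voronoi
open Crest.Agent.R143.B0x346 Crest.Agent.R143.DelGx806 Crest.Agent.R143.DelRx806
open Crest.Agent.R143.RE0x723 (Pth)
open Crest.Agent.R143.WLocx713 (HullC xc sX cX bX)
open Crest.Agent.R143.Gatex838 (X Y)
open Crest.Agent.R143.Frame10x395
open Crest.Agent.R143.RcTx422
open Crest.Agent.R143.TileRx228
open Crest.Agent.R143.CorHx713
open Crest.Agent.R143.PolyUx346 (Poly)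
open Crest.Agent.R143.LayUx416 Crest.Agent.R143.Layx416 Crest.Agent.R143.LayQx811
open Crest.Agent.R143.CorEx133

variable {u : Poly} {m M : ℕ} {p W : ℤ → ℤ × ℤ} {A e : ℤ → ℤ} {η ε d K1 c2 ρ0 : ℝ} {ω : Sample}
  {X₀ : Set (ℂ × Bool)} {U : Set ℂ} {o : ℤ} {n : ℕ} {h₀ : ℂ}

/-- **the top of the column of a gate inside a coarse edge** -/
theorem up_env (C : CorEnv u ε d K1 c2 ρ0 ω) (L : LayU u m M p W A e)
    (hh : (m : ℝ) * (100 * η) = u.s) (H : CorH X₀ U M W η d o n) (hX : sX X₀ = SU u ε ω) {G k : ℤ}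
    (h1 : A k + 4 ≤ G) (h2 : G + 3 ≤ A (k + 1)) (hx : OnHull (SU u ε ω) h₀) :
    Up η d W X₀ G h₀ := by
  have e0 := H.e0
  have d0 := H.d0
  have de := H.de
  have hle := h_le L hh
  have hm := L.m_pos
  refine up_of_fine H L.fine (fun q hq q' hq' => OutPx571.con_compl u.con' q hq q' hq') (by omega)
    h1 h2 (by rw [hX]; exact hull_mem hx) ?_
  rw [hh]
  refine HTopx903.far_of (by linarith) ?_
  have r0 := C.hull_far hx
  have r1 := one_le_Rp u
  have r2 := C.d1
  unfold RU at r0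
  linarith

/-- the gate `4` -/
theorem up4 (C : CorEnv u ε d K1 c2 ρ0 ω) (L : LayU u m M p W A e)
    (hh : (m : ℝ) * (100 * η) = u.s) (hm : 40 ≤ m) (i : ZMod 3)
    (H : CorH X₀ U M W η d (al A e i) (nn A e i)) (hX : sX X₀ = SU u ε ω)
    (hx : OnHull (SU u ε ω) h₀) : Up η d W X₀ (al A e i + 4) h₀ := by
  obtain ⟨k, h1, h2⟩ := WndGx416.col4 L.lay (by exact_mod_cast hm) i
  exact up_env C L hh H hX h1 (by omega) hx

/-- the gate `n - 4` -/
theorem upn4 (C : CorEnv u ε d K1 c2 ρ0 ω) (L : LayU u m M p W A e)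
    (hh : (m : ℝ) * (100 * η) = u.s) (hm : 40 ≤ m) (i : ZMod 3)
    (H : CorH X₀ U M W η d (al A e i) (nn A e i)) (hX : sX X₀ = SU u ε ω)
    (hx : OnHull (SU u ε ω) h₀) : Up η d W X₀ (al A e i + (nn A e i - 4 : ℕ)) h₀ := by
  obtain ⟨k, h1, h2⟩ := WndGx416.coln4 L.lay (by exact_mod_cast hm) i
  have h3 := (WndGx416.nn_big L.lay i).1
  have h4 : (40 : ℤ) ≤ m := by exact_mod_cast hm
  have e1 : al A e i + ((nn A e i - 4 : ℕ) : ℤ) = al A e i + nn A e i - 4 := by omega
  rw [e1]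
  exact up_env C L hh H hX h1 (by omega) hx

/-- the gate `r` -/
theorem upr (C : CorEnv u ε d K1 c2 ρ0 ω) (L : LayU u m M p W A e)
    (hh : (m : ℝ) * (100 * η) = u.s) (hm : 40 ≤ m) (i : ZMod 3)
    (H : CorH X₀ U M W η d (al A e i) (nn A e i)) (hX : sX X₀ = SU u ε ω)
    (hx : OnHull (SU u ε ω) h₀) : Up η d W X₀ (al A e i + rr A e i) h₀ := by
  obtain ⟨k, h1, h2⟩ := WndGx416.colr L.lay (by exact_mod_cast hm) i
  exact up_env C L hh H hX h1 (by omega) hx

end Crest.Agent.R143.ZnQx323
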